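import Crest.Agent.R4P.GcdW_41

/-!
R4 (S0004), powers pass, helper41: **the energy of accuracy events of a dense label** (one node).

`F` : thin items of one label, common offset `E` (`= B |γ - σ|` at the stage of the event), radii `R`,
`η_i = R i / |E| ≤ η`, at most `N0 h^(-5)` items with `η_i > h`; `G` : any family with one offset `Γ`
(radii `R'`, not counted); related pairs have a common point `D' (E + z) = D (Γ + z')`,
`|z| ≤ R i`, `|z'| ≤ R' j`, `D = e i / gcd`, `D' = e' j / gcd`, and one of the cofactors is `> U` (only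
asked if `R' j ≤ √η_i |Γ|`).

**`acc_energy`** : `∑ min (R i / D) (R' j / D') ≤
  (4 / √U + C N0 (log z)^K η^(1/1616)) √(∑ R) √(∑ R')`.

* small pairs (`48 D D' < η_i^(-1/2)`) : the type is unique up to a geometric sequence of types;
* the other nonfat pairs : the ratio `D'/D` is pinned (`PinE104.sum_pin`, `GcdW41.min_relW`);
* fat pairs (`|Γ| < R' j / √η_i`) : `R i / D ≤ 4 √η_i R' j / D'`.
-/

set_option autoImplicit false

open Finset

namespace Crest.Agent.R4P.AcG41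

open Crest.Agent.R4P.GcdK37 Crest.Agent.R4P.GcdW41
open Crest.Agent.R4.HVW560 (wn)
open Crest.Agent.R4.Smo944 (Sm Smooth sum_wn_le Sm_pos)
open Crest.Agent.R4.PinE104 (Pin sum_pin pin_unique ell_nonneg)

/-- the reduced type of a pair -/
def dt (m n : ℕ) : ℕ × ℕ := (m / m.gcd n, n / m.gcd n)

lemma dt_spec {m n : ℕ} (hm : 0 < m) (hn : 0 < n) : 0 < (dt m n).1 ∧ 0 < (dt m n).2 ∧
    (dt m n).1.Coprime (dt m n).2 ∧ (dt m n).1 * n = (dt m n).2 * m := by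
  have hg : 0 < m.gcd n := Nat.gcd_pos_of_pos_left _ hm
  refine ⟨Nat.div_pos (Nat.le_of_dvd hm (Nat.gcd_dvd_left m n)) hg,
    Nat.div_pos (Nat.le_of_dvd hn (Nat.gcd_dvd_right m n)) hg,
    Nat.coprime_div_gcd_div_gcd hg, ?_⟩
  show m / m.gcd n * n = n / m.gcd n * m
  obtain ⟨a, ha⟩ := Nat.gcd_dvd_left m n
  obtain ⟨b, hb⟩ := Nat.gcd_dvd_right m n
  have e1 : m / m.gcd n = a := by
    conv_lhs => rw [ha]
    rw [← ha]
    exact Nat.div_eq_of_eq_mul_right hg ha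
  have e2 : n / m.gcd n = b := Nat.div_eq_of_eq_mul_right hg hb
  rw [e1, e2]
  calc a * n = a * (m.gcd n * b) := by rw [← hb]
    _ = b * (m.gcd n * a) := by ring
    _ = b * m := by rw [← ha]

lemma dt_dvd {m n : ℕ} : (dt m n).1 ∣ m ∧ (dt m n).2 ∣ n :=
  ⟨Nat.div_dvd_of_dvd (Nat.gcd_dvd_left m n), Nat.div_dvd_of_dvd (Nat.gcd_dvd_right m n)⟩

/-! ### geometric sums -/

lemma geo_le {r b : ℝ} (h0 : 0 ≤ r) (h1 : r < 1) (hb : 0 ≤ b) (Ks : Finset ℕ)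
    (hk : ∀ k ∈ Ks, r ^ k ≤ b) : ∑ k ∈ Ks, r ^ k ≤ b / (1 - r) := by
  have hr : 0 < 1 - r := by linarith
  rcases Ks.eq_empty_or_nonempty with rfl | hne
  · rw [Finset.sum_empty]; positivity
  set k0 := Ks.min' hne with hk0
  have e1 : ∑ k ∈ Ks, r ^ k = ∑ k ∈ Ks, r ^ k0 * r ^ (k - k0) := by
    refine Finset.sum_congr rfl fun k hk => ?_
    rw [← pow_add]
    congr 1
    have := Finset.min'_le Ks k hk
    omega
  rw [e1, ← Finset.mul_sum]
  have hinj : Set.InjOn (fun k => k - k0) (Ks : Set ℕ) := by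
    intro a ha b hb hab
    have h2 := Finset.min'_le Ks a ha
    have h3 := Finset.min'_le Ks b hb
    simp only at hab
    omega
  have e2 : ∑ k ∈ Ks, r ^ (k - k0) = ∑ j ∈ Ks.image (fun k => k - k0), r ^ j :=
    (Finset.sum_image hinj).symm
  have e3 : ∑ j ∈ Ks.image (fun k => k - k0), r ^ j ≤ (1 - r)⁻¹ := by
    rw [← tsum_geometric_of_lt_one h0 h1]
    exact (summable_geometric_of_lt_one h0 h1).sum_le_tsum _ (fun i _ => by positivity)
  rw [e2, div_eq_mul_inv]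
  exact mul_le_mul (hk k0 (Finset.min'_mem Ks hne)) e3
    (Finset.sum_nonneg fun j _ => by positivity) hb

/-! ### one type, a geometric family of types -/

section fam
variable {ι κ : Type} {F : Finset ι} {G : Finset κ} {e : ι → ℕ} {e' : κ → ℕ} {R : ι → ℝ} {R' : κ → ℝ}

/-- common hypotheses of the two families -/
structure Fam (F : Finset ι) (G : Finset κ) (e : ι → ℕ) (e' : κ → ℕ) (R : ι → ℝ) (R' : κ → ℝ) :
    Prop where
  pF : ∀ i ∈ F, 0 < e i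
  pG : ∀ j ∈ G, 0 < e' j
  iF : ∀ i ∈ F, ∀ j ∈ F, e i = e j → i = j
  iG : ∀ i ∈ G, ∀ j ∈ G, e' i = e' j → i = j
  rF : ∀ i ∈ F, 0 ≤ R i
  rG : ∀ j ∈ G, 0 ≤ R' j

lemma Fam.sub (h : Fam F G e e' R R') {F' : Finset ι} (hF : F' ⊆ F) : Fam F' G e e' R R' :=
  ⟨fun i hi => h.pF i (hF hi), h.pG, fun i hi j hj => h.iF i (hF hi) j (hF hj), h.iG,
    fun i hi => h.rF i (hF hi), h.rG⟩

/-- the square root overlap -/
noncomputable def sq (e : ι → ℕ) (e' : κ → ℕ) (R : ι → ℝ) (R' : κ → ℝ) (i : ι) (j : κ) : ℝ :=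
  √(R i / ((dt (e i) (e' j)).1 : ℝ) * (R' j / ((dt (e i) (e' j)).2 : ℝ)))

lemma sq_nn (i : ι) (j : κ) : 0 ≤ sq e e' R R' i j := Real.sqrt_nonneg _

/-- one type -/
theorem one_type (h : Fam F G e e' R R') (t : ℕ × ℕ) (ht : 0 < t.1 ∧ 0 < t.2) :
    ∑ i ∈ F, ∑ j ∈ G, ind (dt (e i) (e' j) = t) * (√(R i) * √(R' j)) ≤
      √(∑ i ∈ F, R i) * √(∑ j ∈ G, R' j) := by
  classical
  have hF1 : ∀ i ∈ F, ∑ j ∈ G, ind (dt (e i) (e' j) = t) ≤ 1 := by
    intro i hi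
    by_cases hex : ∃ j0 ∈ G, dt (e i) (e' j0) = t
    · obtain ⟨j0, hj0, e0⟩ := hex
      rw [Finset.sum_eq_single_of_mem j0 hj0]
      · exact ind_le _
      · intro j hj hne
        rw [ind_f]
        intro e1
        have h1 := (dt_spec (h.pF i hi) (h.pG j hj)).2.2.2
        have h2 := (dt_spec (h.pF i hi) (h.pG j0 hj0)).2.2.2
        rw [e1] at h1
        rw [e0] at h2
        exact hne (h.iG j hj j0 hj0 (Nat.eq_of_mul_eq_mul_left ht.1 (h1.trans h2.symm)))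
    · push Not at hex
      rw [Finset.sum_eq_zero]
      · norm_num
      · intro j hj; exact ind_f (hex j hj)
  have hG1 : ∀ j ∈ G, ∑ i ∈ F, ind (dt (e i) (e' j) = t) ≤ 1 := by
    intro j hj
    by_cases hex : ∃ i0 ∈ F, dt (e i0) (e' j) = t
    · obtain ⟨i0, hi0, e0⟩ := hex
      rw [Finset.sum_eq_single_of_mem i0 hi0]
      · exact ind_le _
      · intro i hi hne
        rw [ind_f]
        intro e1
        have h1 := (dt_spec (h.pF i hi) (h.pG j hj)).2.2.2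
        have h2 := (dt_spec (h.pF i0 hi0) (h.pG j hj)).2.2.2
        rw [e1] at h1
        rw [e0] at h2
        exact hne (h.iF i hi i0 hi0 (Nat.eq_of_mul_eq_mul_left ht.2 (h1.symm.trans h2)))
    · push Not at hex
      rw [Finset.sum_eq_zero]
      · norm_num
      · intro j hj; exact ind_f (hex j hj)
  set S := ∑ i ∈ F, ∑ j ∈ G, ind (dt (e i) (e' j) = t) * (√(R i) * √(R' j)) with hS
  have e1 : S = ∑ z ∈ F ×ˢ G, (ind (dt (e z.1) (e' z.2) = t) * √(R z.1)) *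
      (ind (dt (e z.1) (e' z.2) = t) * √(R' z.2)) := by
    rw [Finset.sum_product]
    refine Finset.sum_congr rfl fun i _ => Finset.sum_congr rfl fun j _ => ?_
    by_cases hh : dt (e i) (e' j) = t
    · simp only [ind_t hh]; ring
    · simp only [ind_f hh]; ring
  have h1 := Finset.sum_mul_sq_le_sq_mul_sq (F ×ˢ G)
    (fun z => ind (dt (e z.1) (e' z.2) = t) * √(R z.1))
    (fun z => ind (dt (e z.1) (e' z.2) = t) * √(R' z.2))
  rw [← e1] at h1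
  have hsq : ∀ p : Prop, ind p ^ 2 = ind p := by
    intro p
    by_cases hp : p
    · rw [ind_t hp]; norm_num
    · rw [ind_f hp]; norm_num
  have h2 : ∑ z ∈ F ×ˢ G, (ind (dt (e z.1) (e' z.2) = t) * √(R z.1)) ^ 2 ≤ ∑ i ∈ F, R i := by
    rw [Finset.sum_product]
    refine Finset.sum_le_sum fun i hi => ?_
    have e3 : ∑ j ∈ G, (ind (dt (e i) (e' j) = t) * √(R i)) ^ 2 =
        (∑ j ∈ G, ind (dt (e i) (e' j) = t)) * R i := by
      rw [Finset.sum_mul]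
      refine Finset.sum_congr rfl fun j _ => ?_
      rw [mul_pow, Real.sq_sqrt (h.rF i hi), hsq]
    show ∑ j ∈ G, (ind (dt (e i) (e' j) = t) * √(R i)) ^ 2 ≤ R i
    rw [e3]
    exact mul_le_of_le_one_left (h.rF i hi) (hF1 i hi)
  have h3 : ∑ z ∈ F ×ˢ G, (ind (dt (e z.1) (e' z.2) = t) * √(R' z.2)) ^ 2 ≤ ∑ j ∈ G, R' j := by
    rw [Finset.sum_product_right]
    refine Finset.sum_le_sum fun j hj => ?_
    have e3 : ∑ i ∈ F, (ind (dt (e i) (e' j) = t) * √(R' j)) ^ 2 =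
        (∑ i ∈ F, ind (dt (e i) (e' j) = t)) * R' j := by
      rw [Finset.sum_mul]
      refine Finset.sum_congr rfl fun i _ => ?_
      rw [mul_pow, Real.sq_sqrt (h.rG j hj), hsq]
    show ∑ i ∈ F, (ind (dt (e i) (e' j) = t) * √(R' j)) ^ 2 ≤ R' j
    rw [e3]
    exact mul_le_of_le_one_left (h.rG j hj) (hG1 j hj)
  have hRF : 0 ≤ ∑ i ∈ F, R i := Finset.sum_nonneg h.rF
  rw [← Real.sqrt_mul hRF]
  refine Real.le_sqrt_of_sq_le (h1.trans ?_)
  exact mul_le_mul h2 h3 (Finset.sum_nonneg fun z _ => sq_nonneg _) hRF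

/-- a family of types whose products grow geometrically -/
theorem geo_types (h : Fam F G e e' R R') {U : ℝ} (hU : 1 ≤ U) (T : Finset (ℕ × ℕ))
    (hT : ∀ t ∈ T, 0 < t.1 ∧ 0 < t.2 ∧ U < ((t.1 * t.2 : ℕ) : ℝ))
    (hg : ∀ t ∈ T, ∀ t' ∈ T, t ≠ t' → 4 * (t.1 * t.2) < t'.1 * t'.2 ∨
      4 * (t'.1 * t'.2) < t.1 * t.2) :
    ∑ i ∈ F, ∑ j ∈ G, ind (dt (e i) (e' j) ∈ T) * sq e e' R R' i j ≤
      4 / √U * (√(∑ i ∈ F, R i) * √(∑ j ∈ G, R' j)) := by
  classical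
  set M := √(∑ i ∈ F, R i) * √(∑ j ∈ G, R' j) with hM
  have hM0 : 0 ≤ M := by positivity
  have hU0 : 0 < U := by linarith
  have e1 : ∀ i ∈ F, ∀ j ∈ G, ind (dt (e i) (e' j) ∈ T) * sq e e' R R' i j =
      ∑ t ∈ T, 1 / √((t.1 * t.2 : ℕ) : ℝ) * (ind (dt (e i) (e' j) = t) * (√(R i) * √(R' j))) := by
    intro i hi j hj
    by_cases hm : dt (e i) (e' j) ∈ T
    · rw [ind_t hm, one_mul, Finset.sum_eq_single_of_mem _ hm, ind_t rfl, one_mul]
      · unfold sq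
        rw [← Real.sqrt_mul (h.rF i hi), one_div, ← Real.sqrt_inv, ← Real.sqrt_mul (by positivity)]
        congr 1
        push_cast
        rw [mul_inv]
        ring
      · intro t _ hne
        rw [ind_f (Ne.symm hne), zero_mul, mul_zero]
    · rw [ind_f hm, zero_mul, Finset.sum_eq_zero]
      intro t ht
      rw [ind_f, zero_mul, mul_zero]
      rintro rfl
      exact hm ht
  have e2 : ∑ i ∈ F, ∑ j ∈ G, ind (dt (e i) (e' j) ∈ T) * sq e e' R R' i j =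
      ∑ t ∈ T, 1 / √((t.1 * t.2 : ℕ) : ℝ) *
        ∑ i ∈ F, ∑ j ∈ G, ind (dt (e i) (e' j) = t) * (√(R i) * √(R' j)) := by
    rw [Finset.sum_congr rfl fun i hi => Finset.sum_congr rfl fun j hj => e1 i hi j hj]
    have : ∀ i ∈ F, ∑ j ∈ G, ∑ t ∈ T, 1 / √((t.1 * t.2 : ℕ) : ℝ) *
        (ind (dt (e i) (e' j) = t) * (√(R i) * √(R' j))) =
        ∑ t ∈ T, ∑ j ∈ G, 1 / √((t.1 * t.2 : ℕ) : ℝ) *
        (ind (dt (e i) (e' j) = t) * (√(R i) * √(R' j))) := fun i _ => Finset.sum_comm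
    rw [Finset.sum_congr rfl this, Finset.sum_comm]
    refine Finset.sum_congr rfl fun t _ => ?_
    rw [Finset.mul_sum]
    exact Finset.sum_congr rfl fun i _ => (Finset.mul_sum _ _ _).symm
  rw [e2]
  have h1 : ∑ t ∈ T, 1 / √((t.1 * t.2 : ℕ) : ℝ) *
        ∑ i ∈ F, ∑ j ∈ G, ind (dt (e i) (e' j) = t) * (√(R i) * √(R' j)) ≤
      ∑ t ∈ T, (1 / 2 : ℝ) ^ (Nat.log 4 (t.1 * t.2)) * M := by
    refine Finset.sum_le_sum fun t ht => ?_
    obtain ⟨t1, t2, -⟩ := hT t ht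
    refine mul_le_mul ?_ (one_type h t ⟨t1, t2⟩)
      (Finset.sum_nonneg fun i _ => Finset.sum_nonneg fun j _ =>
        mul_nonneg (ind_nn _) (by positivity)) (by positivity)
    have h2 := Nat.pow_log_le_self 4 (Nat.mul_pos t1 t2).ne'
    have h3 : ((4:ℝ)) ^ (Nat.log 4 (t.1 * t.2)) ≤ ((t.1 * t.2 : ℕ) : ℝ) := by exact_mod_cast h2
    have h4 : (2:ℝ) ^ (Nat.log 4 (t.1 * t.2)) ≤ √((t.1 * t.2 : ℕ) : ℝ) := by
      refine Real.le_sqrt_of_sq_le ?_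
      rw [← pow_mul, mul_comm, pow_mul]
      norm_num
      exact_mod_cast h2
    rw [one_div_pow]
    exact one_div_le_one_div_of_le (by positivity) h4
  refine h1.trans ?_
  rw [← Finset.sum_mul]
  refine mul_le_mul_of_nonneg_right ?_ hM0
  have hinj : Set.InjOn (fun t : ℕ × ℕ => Nat.log 4 (t.1 * t.2)) (T : Set (ℕ × ℕ)) := by
    intro t ht t' ht' hh
    by_contra hne
    obtain ⟨a1, a2, -⟩ := hT t ht
    obtain ⟨b1, b2, -⟩ := hT t' ht'
    have h2 := Nat.pow_log_le_self 4 (Nat.mul_pos a1 a2).ne'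
    have h3 := Nat.lt_pow_succ_log_self (b := 4) (by norm_num) (t.1 * t.2)
    have h4 := Nat.pow_log_le_self 4 (Nat.mul_pos b1 b2).ne'
    have h5 := Nat.lt_pow_succ_log_self (b := 4) (by norm_num) (t'.1 * t'.2)
    simp only at hh
    rw [Nat.succ_eq_add_one, pow_succ] at h3 h5
    rw [hh] at h2 h3
    rcases hg t ht t' ht' hne with h6 | h6 <;> omega
  rw [← Finset.sum_image (g := fun t : ℕ × ℕ => Nat.log 4 (t.1 * t.2))
    (f := fun k => (1 / 2 : ℝ) ^ k) hinj]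
  have h2 := geo_le (r := 1 / 2) (b := 2 / √U) (by norm_num) (by norm_num) (by positivity)
    (T.image (fun t : ℕ × ℕ => Nat.log 4 (t.1 * t.2))) (by
      intro k hk
      obtain ⟨t, ht, rfl⟩ := Finset.mem_image.1 hk
      obtain ⟨a1, a2, a3⟩ := hT t ht
      have h3 := Nat.lt_pow_succ_log_self (b := 4) (by norm_num) (t.1 * t.2)
      have h4 : ((t.1 * t.2 : ℕ) : ℝ) < (4:ℝ) ^ (Nat.log 4 (t.1 * t.2) + 1) := by exact_mod_cast h3
      have h5 : √U ≤ (2:ℝ) ^ (Nat.log 4 (t.1 * t.2) + 1) := by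
        rw [Real.sqrt_le_left (by positivity)]
        rw [← pow_mul, mul_comm, pow_mul]
        norm_num
        linarith
      have hs : 0 < √U := Real.sqrt_pos.2 hU0
      rw [le_div_iff₀ hs, one_div_pow]
      rw [pow_succ] at h5
      rw [one_div, inv_mul_le_iff₀ (by positivity)]
      exact h5)
  refine h2.trans (le_of_eq ?_)
  rw [show (1:ℝ) - 1 / 2 = 1 / 2 by norm_num]
  ring


/-! ### the kernel sums of one class -/

/-- the exponent of `log z` -/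
noncomputable def KK : ℝ := kp 12 * Sm 6 + (kp 12) ^ (101 / 100 : ℝ) * Sm 7

lemma KK_nn : 0 ≤ KK := by
  unfold KK
  have h1 := (kp_pos 12).le
  have h2 := (Sm_pos 6).le
  have h3 := (Sm_pos 7).le
  exact add_nonneg (mul_nonneg h1 h2) (mul_nonneg (Real.rpow_nonneg h1 _) h3)

/-- `exp (KK (log log z + 6))` -/
noncomputable def XX (z : ℕ) : ℝ := Real.exp (KK * (Real.log (Real.log z) + 6))

lemma XX_one {z : ℕ} (hz : 2 ≤ z) : 1 ≤ XX z :=
  Real.one_le_exp (mul_nonneg KK_nn (ell_nonneg hz))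

lemma XX_le {z : ℕ} (hz : 2 ≤ z) : XX z = Real.exp (6 * KK) * Real.log z ^ KK := by
  have h2 : (0:ℝ) < Real.log z := Real.log_pos (by exact_mod_cast (by omega : 1 < z))
  unfold XX
  rw [Real.rpow_def_of_pos h2, ← Real.exp_add]
  congr 1
  ring

/-- pinned types, not small -/
theorem cls_N (h : Fam F G e e' R R') {z : ℕ} (hz : 2 ≤ z) {A E Γ : ℝ} (hA : 4 ≤ A)
    (Q : Finset (ℕ × ℕ)) (hE : E ≠ 0) (hΓ : Q.Nonempty → Γ ≠ 0)
    (hQ : ∀ t ∈ Q, t.1.Coprime t.2 ∧ Pin A E Γ t.1 t.2 ∧ A ≤ 12 * ((t.1 : ℝ) * t.2) ∧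
      ∀ p : ℕ, p.Prime → p ∣ t.1 * t.2 → p ≤ z) :
    ∑ i ∈ F, ∑ j ∈ G, ind (dt (e i) (e' j) ∈ Q) * sq e e' R R' i j ≤
      √(4 * ((22 / √A) ^ (1 / 101 : ℝ) * XX z)) * (F.card : ℝ) ^ ((1 : ℝ) / 16384) *
        (√(∑ i ∈ F, R i) * √(∑ j ∈ G, R' j)) := by
  rcases Q.eq_empty_or_nonempty with rfl | hne
  · rw [Finset.sum_eq_zero]
    · positivity
    · intro i _
      refine Finset.sum_eq_zero fun j _ => ?_
      rw [ind_f (Finset.notMem_empty _), zero_mul]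
  have h1 := min_relW 12 Q F G e e' R R'
    (fun t ht => ⟨(hQ t ht).2.1.hx, (hQ t ht).2.1.hy, (hQ t ht).1⟩) h.pF h.pG h.iF h.iG h.rF h.rG
  have h2 := sum_pin (kp_pos 12).le hz hA hE (hΓ hne) Q (fun t ht => (hQ t ht).2)
  have e1 : (1 : ℝ) / (4 * 2 ^ 12 : ℕ) = (1 : ℝ) / 16384 := by norm_num
  rw [e1] at h1
  refine h1.trans ?_
  refine mul_le_mul_of_nonneg_right (mul_le_mul_of_nonneg_right ?_ (by positivity)) (by positivity)
  exact Real.sqrt_le_sqrt (mul_le_mul_of_nonneg_left h2 (by norm_num))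

/-- all smooth types -/
theorem cls_F (h : Fam F G e e' R R') {z : ℕ} (hz : 2 ≤ z) (Q : Finset (ℕ × ℕ))
    (hQ : ∀ t ∈ Q, 0 < t.1 ∧ 0 < t.2 ∧ t.1.Coprime t.2 ∧
      ∀ p : ℕ, p.Prime → p ∣ t.1 * t.2 → p ≤ z) :
    ∑ i ∈ F, ∑ j ∈ G, ind (dt (e i) (e' j) ∈ Q) * sq e e' R R' i j ≤
      2 * XX z * (F.card : ℝ) ^ ((1 : ℝ) / 16384) *
        (√(∑ i ∈ F, R i) * √(∑ j ∈ G, R' j)) := by
  classical
  have h1 := min_relW 12 Q F G e e' R R'
    (fun t ht => ⟨(hQ t ht).1, (hQ t ht).2.1, (hQ t ht).2.2.1⟩) h.pF h.pG h.iF h.iG h.rF h.rG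
  have e1 : (1 : ℝ) / (4 * 2 ^ 12 : ℕ) = (1 : ℝ) / 16384 := by norm_num
  rw [e1] at h1
  refine h1.trans ?_
  refine mul_le_mul_of_nonneg_right (mul_le_mul_of_nonneg_right ?_ (by positivity)) (by positivity)
  set κ0 := kp 12 with hκ
  have hk0 : 0 ≤ κ0 := (kp_pos 12).le
  have hw : ∀ n, 0 ≤ wn κ0 n := Crest.Agent.R4.ClsS.wn_nonneg hk0
  have h2 : ∑ t ∈ Q, wn κ0 t.1 * wn κ0 t.2 ≤
      (∑ n ∈ Q.image Prod.fst, wn κ0 n) * ∑ n ∈ Q.image Prod.snd, wn κ0 n := by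
    rw [Finset.sum_mul_sum, ← Finset.sum_product']
    refine Finset.sum_le_sum_of_subset_of_nonneg ?_ fun z _ _ => mul_nonneg (hw _) (hw _)
    intro t ht
    exact Finset.mem_product.2 ⟨Finset.mem_image_of_mem _ ht, Finset.mem_image_of_mem _ ht⟩
  have s1 : Smooth z (Q.image Prod.fst) := by
    intro b hb
    obtain ⟨t, ht, rfl⟩ := Finset.mem_image.1 hb
    exact ⟨(hQ t ht).1, fun p hp hd => (hQ t ht).2.2.2 p hp (dvd_mul_of_dvd_left hd _)⟩
  have s2 : Smooth z (Q.image Prod.snd) := by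
    intro b hb
    obtain ⟨t, ht, rfl⟩ := Finset.mem_image.1 hb
    exact ⟨(hQ t ht).2.1, fun p hp hd => (hQ t ht).2.2.2 p hp (dvd_mul_of_dvd_right hd _)⟩
  have b1 := sum_wn_le hk0 hz s1
  have b2 := sum_wn_le hk0 hz s2
  have hl := ell_nonneg hz
  have b3 : Real.exp (κ0 * Sm 6 * (Real.log (Real.log z) + 6)) ≤ XX z := by
    refine Real.exp_le_exp.2 (mul_le_mul_of_nonneg_right ?_ hl)
    unfold KK
    have h3 := (Sm_pos 7).le
    have : 0 ≤ (kp 12) ^ (101 / 100 : ℝ) * Sm 7 :=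
      mul_nonneg (Real.rpow_nonneg (kp_pos 12).le _) h3
    exact le_add_of_nonneg_right this
  have X0 : 0 ≤ XX z := (Real.exp_pos _).le
  have b4 : ∑ t ∈ Q, wn κ0 t.1 * wn κ0 t.2 ≤ XX z * XX z :=
    h2.trans (mul_le_mul (b1.trans b3) (b2.trans b3) (Finset.sum_nonneg fun n _ => hw n) X0)
  refine Real.sqrt_le_iff.2 ⟨by positivity, ?_⟩
  calc 4 * ∑ t ∈ Q, wn κ0 t.1 * wn κ0 t.2 ≤ 4 * (XX z * XX z) :=
        mul_le_mul_of_nonneg_left b4 (by norm_num)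
    _ = (2 * XX z) ^ 2 := by ring

end fam

/-! ### numbers -/

/-- the ratio `2^(-1/808)` -/
noncomputable def ρ8 : ℝ := (2:ℝ) ^ (-(1/808) : ℝ)

/-- the ratio `2^(-1/1616)` -/
noncomputable def r16 : ℝ := (2:ℝ) ^ (-(1/1616) : ℝ)

lemma r16_pos : 0 < r16 := by unfold r16; positivity

lemma r16_lt : r16 < 1 := Real.rpow_lt_one_of_one_lt_of_neg (by norm_num) (by norm_num)

lemma ρ8_pow (k : ℕ) : ρ8 ^ k = (2:ℝ) ^ (-(k:ℝ)/808) := by
  unfold ρ8
  rw [← Real.rpow_natCast, ← Real.rpow_mul (by norm_num)]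
  congr 1; ring

lemma r16_pow (k : ℕ) : r16 ^ k = (2:ℝ) ^ (-(k:ℝ)/1616) := by
  unfold r16
  rw [← Real.rpow_natCast, ← Real.rpow_mul (by norm_num)]
  congr 1; ring

/-- the window of the class `k` -/
noncomputable def Ak (k : ℕ) : ℝ := ((2:ℝ) ^ ((k:ℝ)/4) / 2) ^ 2

lemma Ak_eq (k : ℕ) : Ak k = (2:ℝ) ^ ((k:ℝ)/2) / 4 := by
  unfold Ak
  rw [div_pow, ← Real.rpow_natCast ((2:ℝ) ^ ((k:ℝ)/4)), ← Real.rpow_mul (by norm_num)]
  congr 1
  · congr 1; push_cast; ring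
  · norm_num

lemma num_N (k : ℕ) {X : ℝ} (hX : 1 ≤ X) :
    √(4 * ((22 / √(Ak k)) ^ (1 / 101 : ℝ) * X)) ≤ 14 * ρ8 ^ k * X := by
  have h2 : (0:ℝ) < (2:ℝ) ^ ((k:ℝ)/4) := by positivity
  have e1 : √(Ak k) = (2:ℝ) ^ ((k:ℝ)/4) / 2 := by
    unfold Ak
    exact Real.sqrt_sq (by positivity)
  have e2 : 22 / √(Ak k) = 44 * (2:ℝ) ^ (-((k:ℝ)/4)) := by
    rw [e1, Real.rpow_neg (by norm_num)]
    field_simp
    norm_num
  have e3 : (22 / √(Ak k)) ^ (1 / 101 : ℝ) ≤ 44 * (2:ℝ) ^ (-((k:ℝ)/404)) := by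
    rw [e2, Real.mul_rpow (by norm_num) (by positivity), ← Real.rpow_mul (by norm_num)]
    have h3 : (44:ℝ) ^ (1 / 101 : ℝ) ≤ 44 := by
      calc (44:ℝ) ^ (1 / 101 : ℝ) ≤ (44:ℝ) ^ (1:ℝ) :=
            Real.rpow_le_rpow_of_exponent_le (by norm_num) (by norm_num)
        _ = 44 := Real.rpow_one _
    have h4 : -((k:ℝ)/4) * (1/101) = -((k:ℝ)/404) := by ring
    rw [h4]
    exact mul_le_mul_of_nonneg_right h3 (by positivity)
  refine Real.sqrt_le_iff.2 ⟨mul_nonneg (mul_nonneg (by norm_num) (pow_nonneg (by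
    unfold ρ8; positivity) _)) (by linarith), ?_⟩
  have e4 : (ρ8 ^ k) ^ 2 = (2:ℝ) ^ (-((k:ℝ)/404)) := by
    rw [ρ8_pow, ← Real.rpow_natCast, ← Real.rpow_mul (by norm_num)]
    congr 1; push_cast; ring
  have e5 : (14 * ρ8 ^ k * X) ^ 2 = 196 * (2:ℝ) ^ (-((k:ℝ)/404)) * X ^ 2 := by
    rw [mul_pow, mul_pow, e4]; norm_num
  rw [e5]
  have hp : (0:ℝ) < (2:ℝ) ^ (-((k:ℝ)/404)) := by positivity
  calc 4 * ((22 / √(Ak k)) ^ (1 / 101 : ℝ) * X) ≤ 4 * ((44 * (2:ℝ) ^ (-((k:ℝ)/404))) * X) :=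
        mul_le_mul_of_nonneg_left (mul_le_mul_of_nonneg_right e3 (by linarith)) (by norm_num)
    _ = 176 * (2:ℝ) ^ (-((k:ℝ)/404)) * X := by ring
    _ ≤ 196 * (2:ℝ) ^ (-((k:ℝ)/404)) * X ^ 2 := by
        have h6 : X ≤ X ^ 2 := by nlinarith
        have h7 : 0 ≤ (2:ℝ) ^ (-((k:ℝ)/404)) := hp.le
        calc 176 * (2:ℝ) ^ (-((k:ℝ)/404)) * X ≤ 196 * (2:ℝ) ^ (-((k:ℝ)/404)) * X := by
              have : 0 ≤ (2:ℝ) ^ (-((k:ℝ)/404)) * X := mul_nonneg h7 (by linarith)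
              nlinarith
          _ ≤ _ := mul_le_mul_of_nonneg_left h6 (by positivity)

lemma num_card (k : ℕ) {N0 c : ℝ} (hN : 1 ≤ N0) (h0 : 0 ≤ c) (hc : c ≤ N0 * (32 * (2:ℝ) ^ (5 * k))) :
    ρ8 ^ k * c ^ ((1:ℝ)/16384) ≤ 32 * N0 * r16 ^ k := by
  have h1 : c ^ ((1:ℝ)/16384) ≤ (N0 * (32 * (2:ℝ) ^ (5 * k))) ^ ((1:ℝ)/16384) :=
    Real.rpow_le_rpow h0 hc (by norm_num)
  have h2 : (N0 * (32 * (2:ℝ) ^ (5 * k))) ^ ((1:ℝ)/16384) ≤
      (32 * N0) * (2:ℝ) ^ ((5 * k : ℝ) / 16384) := by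
    rw [← mul_assoc, Real.mul_rpow (by positivity) (by positivity)]
    refine mul_le_mul ?_ (le_of_eq ?_) (by positivity) (by positivity)
    · calc (N0 * 32) ^ ((1:ℝ)/16384) ≤ (N0 * 32) ^ (1:ℝ) :=
            Real.rpow_le_rpow_of_exponent_le (by linarith) (by norm_num)
        _ = 32 * N0 := by rw [Real.rpow_one]; ring
    · rw [← Real.rpow_natCast, ← Real.rpow_mul (by norm_num)]
      congr 1; push_cast; ring
  have h3 : 0 ≤ ρ8 ^ k := pow_nonneg (by unfold ρ8; positivity) _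
  refine (mul_le_mul_of_nonneg_left (h1.trans h2) h3).trans ?_
  rw [ρ8_pow, r16_pow]
  have e1 : (2:ℝ) ^ (-(k:ℝ)/808) * ((32 * N0) * (2:ℝ) ^ ((5 * k : ℝ) / 16384)) =
      32 * N0 * (2:ℝ) ^ (-(k:ℝ)/808 + (5 * k : ℝ) / 16384) := by
    rw [Real.rpow_add (by norm_num)]; ring
  rw [e1]
  refine mul_le_mul_of_nonneg_left ?_ (by positivity)
  refine Real.rpow_le_rpow_of_exponent_le (by norm_num) ?_
  have : (0:ℝ) ≤ k := Nat.cast_nonneg k
  linarith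

lemma quarter (k : ℕ) {η : ℝ} (h0 : 0 ≤ η) (h : η ≤ (1/2:ℝ) ^ k) : √(√η) ≤ ρ8 ^ k := by
  have h1 : √(√η) = η ^ (1/4 : ℝ) := by
    rw [Real.sqrt_eq_rpow, Real.sqrt_eq_rpow, ← Real.rpow_mul h0]; norm_num
  rw [h1, ρ8_pow]
  have h2 : η ^ (1/4 : ℝ) ≤ ((1/2:ℝ) ^ k) ^ (1/4 : ℝ) := Real.rpow_le_rpow h0 h (by norm_num)
  refine h2.trans ?_
  have e1 : (1/2:ℝ) ^ k = (2:ℝ) ^ (-(k:ℝ)) := by
    rw [Real.rpow_neg (by norm_num), Real.rpow_natCast, one_div, inv_pow]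
  rw [e1, ← Real.rpow_mul (by norm_num)]
  refine Real.rpow_le_rpow_of_exponent_le (by norm_num) ?_
  have : (0:ℝ) ≤ k := Nat.cast_nonneg k
  linarith

lemma sq_half (k : ℕ) {η : ℝ} (h0 : 0 < η) (h : η ≤ (1/2:ℝ) ^ k) : 4 * Ak k * √η ≤ 1 := by
  have h1 : √η = η ^ (1/2 : ℝ) := Real.sqrt_eq_rpow η
  have h2 : η ^ (1/2 : ℝ) ≤ ((1/2:ℝ) ^ k) ^ (1/2 : ℝ) := Real.rpow_le_rpow h0.le h (by norm_num)
  have e1 : (1/2:ℝ) ^ k = (2:ℝ) ^ (-(k:ℝ)) := by
    rw [Real.rpow_neg (by norm_num), Real.rpow_natCast, one_div, inv_pow]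
  rw [e1, ← Real.rpow_mul (by norm_num), ← h1] at h2
  rw [Ak_eq]
  have e2 : 4 * ((2:ℝ) ^ ((k:ℝ)/2) / 4) = (2:ℝ) ^ ((k:ℝ)/2) := by ring
  rw [e2]
  calc (2:ℝ) ^ ((k:ℝ)/2) * √η ≤ (2:ℝ) ^ ((k:ℝ)/2) * (2:ℝ) ^ (-(k:ℝ) * (1/2)) :=
        mul_le_mul_of_nonneg_left h2 (by positivity)
    _ = 1 := by
        rw [← Real.rpow_add (by norm_num)]
        have : (k:ℝ)/2 + -(k:ℝ) * (1/2) = 0 := by ring
        rw [this, Real.rpow_zero]

/-! ### the main theorem -/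

section main
variable {ι κ : Type}

/-- related pairs: a common point, and one cofactor `> U` if the second piece is not relatively fat -/
structure Rl (e : ι → ℕ) (e' : κ → ℕ) (R : ι → ℝ) (R' : κ → ℝ) (E Γ U : ℝ) (i : ι) (j : κ) :
    Prop where
  pt : ∃ z z' : ℝ, |z| ≤ R i ∧ |z'| ≤ R' j ∧
    ((dt (e i) (e' j)).2 : ℝ) * (E + z) = (dt (e i) (e' j)).1 * (Γ + z')
  big : R' j ≤ √(R i / |E|) * |Γ| → U < ((max (dt (e i) (e' j)).1 (dt (e i) (e' j)).2 : ℕ) : ℝ)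

/-- nonfat pairs are pinned with relative width `√η_i` -/
lemma pin_of {e : ι → ℕ} {e' : κ → ℕ} {R : ι → ℝ} {R' : κ → ℝ} {E Γ U s : ℝ} {i : ι} {j : κ}
    (h : Rl e e' R R' E Γ U i j) (h1 : R i ≤ s * |E|) (h2 : R' j ≤ s * |Γ|) :
    |((dt (e i) (e' j)).2 : ℝ) * E - (dt (e i) (e' j)).1 * Γ| ≤
      s * (((dt (e i) (e' j)).2 : ℝ) * |E| + (dt (e i) (e' j)).1 * |Γ|) := by
  obtain ⟨z, z', hz, hz', hp⟩ := h.pt
  set x : ℝ := ((dt (e i) (e' j)).1 : ℝ)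
  set y : ℝ := ((dt (e i) (e' j)).2 : ℝ)
  have hx : 0 ≤ x := Nat.cast_nonneg _
  have hy : 0 ≤ y := Nat.cast_nonneg _
  have e1 : y * E - x * Γ = x * z' - y * z := by linarith
  rw [e1]
  refine (abs_sub _ _).trans ?_
  rw [abs_mul, abs_mul, abs_of_nonneg hx, abs_of_nonneg hy]
  have h3 := mul_le_mul_of_nonneg_left (hz'.trans h2) hx
  have h4 := mul_le_mul_of_nonneg_left (hz.trans h1) hy
  linarith

/-- fat pairs: `R i / D ≤ 4 √η_i R' j / D'` -/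
lemma fat_of {e : ι → ℕ} {e' : κ → ℕ} {R : ι → ℝ} {R' : κ → ℝ} {E Γ U s : ℝ} {i : ι} {j : κ}
    (h : Rl e e' R R' E Γ U i j) (hE : 0 < |E|) (hx : 0 < (dt (e i) (e' j)).1)
    (hy : 0 < (dt (e i) (e' j)).2) (hs0 : 0 < s) (hs : s ≤ 1/2) (h1 : R i = s ^ 2 * |E|)
    (h2 : s * |Γ| < R' j) :
    R i / ((dt (e i) (e' j)).1 : ℝ) ≤ 4 * s * (R' j / ((dt (e i) (e' j)).2 : ℝ)) := by
  obtain ⟨z, z', hz, hz', hp⟩ := h.pt
  have hx' : (0:ℝ) < ((dt (e i) (e' j)).1 : ℝ) := by exact_mod_cast hx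
  have hy' : (0:ℝ) < ((dt (e i) (e' j)).2 : ℝ) := by exact_mod_cast hy
  set x : ℝ := ((dt (e i) (e' j)).1 : ℝ)
  set y : ℝ := ((dt (e i) (e' j)).2 : ℝ)
  have hR' : 0 < R' j := lt_of_le_of_lt (by positivity) h2
  -- `|E| / 2 ≤ |E + z|`
  have a1 : |E| / 2 ≤ |E + z| := by
    have h3 : |E| ≤ |E + z| + |z| := by
      have := abs_sub (E + z) z
      rw [add_sub_cancel_right] at this
      exact this
    have h4 : |z| ≤ |E| / 2 := by
      refine hz.trans ?_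
      rw [h1]
      have : s ^ 2 ≤ 1/2 := by nlinarith
      nlinarith
    linarith
  have a2 : s * |Γ + z'| ≤ 2 * R' j := by
    have h3 : |Γ + z'| ≤ |Γ| + |z'| := abs_add_le _ _
    have h4 := mul_le_mul_of_nonneg_left h3 hs0.le
    have h5 : s * |z'| ≤ R' j := by
      calc s * |z'| ≤ 1 * |z'| := mul_le_mul_of_nonneg_right (by linarith) (abs_nonneg _)
        _ ≤ R' j := by rw [one_mul]; exact hz'
    nlinarith
  have a3 : y * |E + z| = x * |Γ + z'| := by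
    have := congrArg abs hp
    rwa [abs_mul, abs_mul, abs_of_pos hx', abs_of_pos hy'] at this
  rw [mul_div_assoc', div_le_div_iff₀ hx' hy', h1]
  have a4 : y * (|E| / 2) ≤ x * |Γ + z'| := by
    rw [← a3]
    exact mul_le_mul_of_nonneg_left a1 hy'.le
  have a5 : x * (s * |Γ + z'|) ≤ x * (2 * R' j) := mul_le_mul_of_nonneg_left a2 hx'.le
  have a6 := mul_le_mul_of_nonneg_left a4 hs0.le
  -- s * y * |E| / 2 ≤ x * s * |Γ + z'| ≤ 2 x R'
  have a7 : s * (y * |E|) ≤ 4 * (x * R' j) := by nlinarith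
  have a8 := mul_le_mul_of_nonneg_left a7 hs0.le
  nlinarith

/-- pointwise estimate of a related pair, `s = √η_i`, class `k` -/
lemma pair_le {e : ι → ℕ} {e' : κ → ℕ} {R : ι → ℝ} {R' : κ → ℝ} {E Γ U s : ℝ} {i : ι} {j : κ}
    {k : ℕ} (h : Rl e e' R R' E Γ U i j) (hE : 0 < |E|) (hx : 0 < (dt (e i) (e' j)).1)
    (hy : 0 < (dt (e i) (e' j)).2) (hs0 : 0 < s) (hs : s ≤ 1/2) (h1 : R i = s ^ 2 * |E|)
    (hR' : 0 ≤ R' j) (hk : √s ≤ ρ8 ^ k) (T QN QF : Finset (ℕ × ℕ))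
    (hT : 0 < R' j → R' j ≤ s * |Γ| →
      48 * (((dt (e i) (e' j)).1 : ℝ) * (dt (e i) (e' j)).2) * s < 1 → dt (e i) (e' j) ∈ T)
    (hN : 0 < R' j → R' j ≤ s * |Γ| →
      1 ≤ 48 * (((dt (e i) (e' j)).1 : ℝ) * (dt (e i) (e' j)).2) * s → dt (e i) (e' j) ∈ QN)
    (hF : dt (e i) (e' j) ∈ QF) :
    min (R i / ((dt (e i) (e' j)).1 : ℝ)) (R' j / ((dt (e i) (e' j)).2 : ℝ)) ≤
      ind (dt (e i) (e' j) ∈ T) * sq e e' R R' i j +
        (ind (dt (e i) (e' j) ∈ QN) * sq e e' R R' i j +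
          2 * ρ8 ^ k * (ind (dt (e i) (e' j) ∈ QF) * sq e e' R R' i j)) := by
  have hx' : (0:ℝ) < ((dt (e i) (e' j)).1 : ℝ) := by exact_mod_cast hx
  have hy' : (0:ℝ) < ((dt (e i) (e' j)).2 : ℝ) := by exact_mod_cast hy
  have hRi : 0 ≤ R i := by rw [h1]; positivity
  have ha : 0 ≤ R i / ((dt (e i) (e' j)).1 : ℝ) := by positivity
  have hb : 0 ≤ R' j / ((dt (e i) (e' j)).2 : ℝ) := by positivity
  have hρ : 0 ≤ ρ8 ^ k := pow_nonneg (by unfold ρ8; positivity) _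
  have n1 := ind_nn (dt (e i) (e' j) ∈ T)
  have n2 := ind_nn (dt (e i) (e' j) ∈ QN)
  have n3 := ind_nn (dt (e i) (e' j) ∈ QF)
  have hq := sq_nn (e := e) (e' := e') (R := R) (R' := R') i j
  have m1 := mul_nonneg n1 hq
  have m2 := mul_nonneg n2 hq
  have m3 := mul_nonneg n3 hq
  have m4 : 0 ≤ 2 * ρ8 ^ k * (ind (dt (e i) (e' j) ∈ QF) * sq e e' R R' i j) := by positivity
  have hmin : min (R i / ((dt (e i) (e' j)).1 : ℝ)) (R' j / ((dt (e i) (e' j)).2 : ℝ)) ≤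
      sq e e' R R' i j := by
    unfold sq
    refine Real.le_sqrt_of_sq_le ?_
    rw [pow_two]
    exact mul_le_mul (min_le_left _ _) (min_le_right _ _) (le_min ha hb) ha
  rcases hR'.eq_or_lt with h0 | h0
  · have : min (R i / ((dt (e i) (e' j)).1 : ℝ)) (R' j / ((dt (e i) (e' j)).2 : ℝ)) ≤ 0 := by
      refine (min_le_right _ _).trans ?_
      rw [← h0, zero_div]
    linarith
  rcases le_or_gt (R' j) (s * |Γ|) with hnf | hfat
  · rcases lt_or_ge (48 * (((dt (e i) (e' j)).1 : ℝ) * (dt (e i) (e' j)).2) * s) 1 with hsm | hbg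
    · rw [ind_t (hT h0 hnf hsm), one_mul]
      linarith
    · rw [ind_t (hN h0 hnf hbg), one_mul] at *
      linarith
  · have h4 := fat_of h hE hx hy hs0 hs h1 hfat
    have h5 : R i / ((dt (e i) (e' j)).1 : ℝ) ≤ 2 * √s * sq e e' R R' i j := by
      set a := R i / ((dt (e i) (e' j)).1 : ℝ) with hadef
      set b := R' j / ((dt (e i) (e' j)).2 : ℝ) with hbdef
      have e1 : sq e e' R R' i j = √(a * b) := rfl
      rw [e1]
      refine le_of_sq_le_sq ?_ (by positivity)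
      rw [mul_pow, mul_pow, Real.sq_sqrt hs0.le, Real.sq_sqrt (mul_nonneg ha hb)]
      nlinarith
    have h6 : 2 * √s * sq e e' R R' i j ≤ 2 * ρ8 ^ k * sq e e' R R' i j :=
      mul_le_mul_of_nonneg_right (mul_le_mul_of_nonneg_left hk (by norm_num)) hq
    rw [ind_t hF, one_mul]
    have h7 := min_le_left (R i / ((dt (e i) (e' j)).1 : ℝ)) (R' j / ((dt (e i) (e' j)).2 : ℝ))
    linarith

/-- one class -/
lemma cls_sum {F : Finset ι} {G : Finset κ} {e : ι → ℕ} {e' : κ → ℕ} {R : ι → ℝ} {R' : κ → ℝ}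
    (h : Fam F G e e' R R') {z : ℕ} (hz : 2 ≤ z) {E Γ N0 : ℝ} {k : ℕ} (hk : 8 ≤ k) (hE : E ≠ 0)
    (hN0 : 1 ≤ N0) (hc : (F.card : ℝ) ≤ N0 * (32 * (2:ℝ) ^ (5 * k)))
    (QN QF : Finset (ℕ × ℕ)) (hΓ : QN.Nonempty → Γ ≠ 0)
    (hQN : ∀ t ∈ QN, t.1.Coprime t.2 ∧ Pin (Ak k) E Γ t.1 t.2 ∧ Ak k ≤ 12 * ((t.1 : ℝ) * t.2) ∧
      ∀ p : ℕ, p.Prime → p ∣ t.1 * t.2 → p ≤ z)
    (hQF : ∀ t ∈ QF, 0 < t.1 ∧ 0 < t.2 ∧ t.1.Coprime t.2 ∧
      ∀ p : ℕ, p.Prime → p ∣ t.1 * t.2 → p ≤ z) :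
    ∑ i ∈ F, ∑ j ∈ G, (ind (dt (e i) (e' j) ∈ QN) * sq e e' R R' i j +
      2 * ρ8 ^ k * (ind (dt (e i) (e' j) ∈ QF) * sq e e' R R' i j)) ≤
      576 * N0 * XX z * r16 ^ k * (√(∑ i ∈ F, R i) * √(∑ j ∈ G, R' j)) := by
  set M := √(∑ i ∈ F, R i) * √(∑ j ∈ G, R' j) with hM
  have hM0 : 0 ≤ M := by positivity
  have hX := XX_one hz
  have hX0 : 0 ≤ XX z := by linarith
  have hρ : 0 ≤ ρ8 ^ k := pow_nonneg (by unfold ρ8; positivity) _
  have hA : 4 ≤ Ak k := by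
    rw [Ak_eq]
    have h1 : (2:ℝ) ^ (4:ℝ) ≤ (2:ℝ) ^ ((k:ℝ)/2) := by
      refine Real.rpow_le_rpow_of_exponent_le (by norm_num) ?_
      have : (8:ℝ) ≤ k := by exact_mod_cast hk
      linarith
    have h2 : (2:ℝ) ^ (4:ℝ) = 16 := by norm_num
    linarith
  have c1 := cls_N h hz hA QN hE hΓ hQN
  have c2 := cls_F h hz QF hQF
  set cc := (F.card : ℝ) ^ ((1 : ℝ) / 16384) with hcc
  have hcc0 : 0 ≤ cc := by positivity
  have nc := num_card k hN0 (Nat.cast_nonneg F.card) hc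
  rw [← hcc] at nc
  have nN := num_N k hX
  have e1 : ∑ i ∈ F, ∑ j ∈ G, (ind (dt (e i) (e' j) ∈ QN) * sq e e' R R' i j +
      2 * ρ8 ^ k * (ind (dt (e i) (e' j) ∈ QF) * sq e e' R R' i j)) =
      ∑ i ∈ F, ∑ j ∈ G, ind (dt (e i) (e' j) ∈ QN) * sq e e' R R' i j +
      2 * ρ8 ^ k * ∑ i ∈ F, ∑ j ∈ G, ind (dt (e i) (e' j) ∈ QF) * sq e e' R R' i j := by
    rw [Finset.mul_sum, ← Finset.sum_add_distrib]
    refine Finset.sum_congr rfl fun i _ => ?_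
    rw [Finset.mul_sum, ← Finset.sum_add_distrib]
  rw [e1]
  have b1 : ∑ i ∈ F, ∑ j ∈ G, ind (dt (e i) (e' j) ∈ QN) * sq e e' R R' i j ≤
      14 * ρ8 ^ k * XX z * cc * M :=
    c1.trans (mul_le_mul_of_nonneg_right (mul_le_mul_of_nonneg_right nN hcc0) hM0)
  have b2 : 2 * ρ8 ^ k * ∑ i ∈ F, ∑ j ∈ G, ind (dt (e i) (e' j) ∈ QF) * sq e e' R R' i j ≤
      2 * ρ8 ^ k * (2 * XX z * cc * M) := mul_le_mul_of_nonneg_left c2 (by positivity)
  have b3 : 18 * XX z * M * (ρ8 ^ k * cc) ≤ 18 * XX z * M * (32 * N0 * r16 ^ k) :=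
    mul_le_mul_of_nonneg_left nc (by positivity)
  calc _ ≤ 14 * ρ8 ^ k * XX z * cc * M + 2 * ρ8 ^ k * (2 * XX z * cc * M) := add_le_add b1 b2
    _ = 18 * XX z * M * (ρ8 ^ k * cc) := by ring
    _ ≤ _ := b3
    _ = _ := by ring

/-- the constant of `acc_energy` -/
noncomputable def CC : ℝ := 1152 / (1 - r16) * Real.exp (6 * KK)

lemma CC_nn : 0 ≤ CC := by
  unfold CC
  have := r16_lt
  have h1 : 0 < 1 - r16 := by linarith
  positivity

/-- **the energy of the accuracy events** -/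
theorem acc_energy {F : Finset ι} {G : Finset κ} {e : ι → ℕ} {e' : κ → ℕ} {R : ι → ℝ}
    {R' : κ → ℝ} (h : Fam F G e e' R R') {z : ℕ} (hz : 2 ≤ z)
    (sF : ∀ i ∈ F, ∀ p : ℕ, p.Prime → p ∣ e i → p ≤ z)
    (sG : ∀ j ∈ G, ∀ p : ℕ, p.Prime → p ∣ e' j → p ≤ z)
    {E Γ U η N0 : ℝ} (hE : E ≠ 0) (hU : 1 ≤ U) (hη : 0 < η) (hη1 : η ≤ 1 / 1024) (hN0 : 1 ≤ N0)
    (hR : ∀ i ∈ F, 0 < R i ∧ R i ≤ η * |E|)
    (hcard : ∀ t : ℝ, 0 < t → (((F.filter (fun i => t * |E| < R i)).card : ℕ) : ℝ) ≤ N0 / t ^ 5)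
    {S : ι → κ → Prop} (hS : ∀ i ∈ F, ∀ j ∈ G, S i j → Rl e e' R R' E Γ U i j) :
    ∑ i ∈ F, ∑ j ∈ G, ind (S i j) *
      min (R i / ((dt (e i) (e' j)).1 : ℝ)) (R' j / ((dt (e i) (e' j)).2 : ℝ)) ≤
      (4 / √U + CC * N0 * Real.log z ^ KK * η ^ (1 / 1616 : ℝ)) *
        (√(∑ i ∈ F, R i) * √(∑ j ∈ G, R' j)) := by
  classical
  have hE0 : 0 < |E| := abs_pos.2 hE
  set M := √(∑ i ∈ F, R i) * √(∑ j ∈ G, R' j) with hM
  have hM0 : 0 ≤ M := by positivity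
  set s : ι → ℝ := fun i => √(R i / |E|) with hs
  -- the class of an item
  have hcl : ∀ i : ι, ∃ k : ℕ, i ∈ F → (2:ℝ) ^ k ≤ |E| / R i ∧ |E| / R i < 2 ^ (k + 1) := by
    intro i
    by_cases hi : i ∈ F
    · obtain ⟨r0, r1⟩ := hR i hi
      have h1 : 1 ≤ |E| / R i := by
        rw [le_div_iff₀ r0, one_mul]
        refine r1.trans ?_
        calc η * |E| ≤ 1 * |E| := mul_le_mul_of_nonneg_right (by linarith) hE0.le
          _ = |E| := one_mul _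
      obtain ⟨k, hk⟩ := exists_nat_pow_near h1 (by norm_num : (1:ℝ) < 2)
      exact ⟨k, fun _ => hk⟩
    · exact ⟨0, fun h => absurd h hi⟩
  choose idx hidx using hcl
  have f0 : ∀ i ∈ F, 0 < R i / |E| ∧ R i / |E| ≤ η ∧ R i / |E| ≤ (1/2:ℝ) ^ (idx i) ∧
      (1/2:ℝ) ^ (idx i + 1) < R i / |E| := by
    intro i hi
    obtain ⟨r0, r1⟩ := hR i hi
    obtain ⟨k1, k2⟩ := hidx i hi
    refine ⟨by positivity, by rwa [div_le_iff₀ hE0], ?_, ?_⟩
    · rw [div_le_iff₀ hE0]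
      rw [le_div_iff₀ r0] at k1
      calc R i = (1/2:ℝ) ^ (idx i) * (2 ^ (idx i) * R i) := by
            rw [← mul_assoc, ← mul_pow]; norm_num
        _ ≤ (1/2:ℝ) ^ (idx i) * |E| := mul_le_mul_of_nonneg_left k1 (by positivity)
    · rw [lt_div_iff₀ hE0]
      rw [div_lt_iff₀ r0] at k2
      calc (1/2:ℝ) ^ (idx i + 1) * |E| < (1/2:ℝ) ^ (idx i + 1) * (2 ^ (idx i + 1) * R i) :=
            mul_lt_mul_of_pos_left k2 (by positivity)
        _ = R i := by rw [← mul_assoc, ← mul_pow]; norm_num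
  have hk10 : ∀ i ∈ F, 10 ≤ idx i := by
    intro i hi
    by_contra hcon
    have h1 : idx i + 1 ≤ 10 := by omega
    obtain ⟨-, g2, -, g4⟩ := f0 i hi
    have h2 : (1/2:ℝ) ^ 10 ≤ (1/2:ℝ) ^ (idx i + 1) :=
      pow_le_pow_of_le_one (by norm_num) (by norm_num) h1
    have h3 : (1/2:ℝ) ^ 10 = 1 / 1024 := by norm_num
    linarith
  have s0 : ∀ i ∈ F, 0 < s i ∧ s i ≤ 1/2 ∧ R i = s i ^ 2 * |E| ∧ √(s i) ≤ ρ8 ^ (idx i) ∧
      4 * Ak (idx i) * s i ≤ 1 ∧ R i ≤ s i * |E| := by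
    intro i hi
    obtain ⟨g1, g2, g3, g4⟩ := f0 i hi
    have h1 : 0 < s i := Real.sqrt_pos.2 g1
    have h2 : s i ^ 2 = R i / |E| := Real.sq_sqrt g1.le
    have h3 : s i ≤ 1/2 := by
      refine Real.sqrt_le_iff.2 ⟨by norm_num, ?_⟩
      norm_num
      linarith
    have h4 : R i = s i ^ 2 * |E| := by rw [h2]; field_simp
    refine ⟨h1, h3, h4, quarter _ g1.le g3, sq_half _ g1 g3, ?_⟩
    have h5 : s i ^ 2 ≤ s i := by nlinarith
    calc R i = s i ^ 2 * |E| := h4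
      _ ≤ s i * |E| := mul_le_mul_of_nonneg_right h5 hE0.le
  -- the sets of types
  set D : ι × κ → ℕ × ℕ := fun q => dt (e q.1) (e' q.2) with hD
  set T : Finset (ℕ × ℕ) := ((F ×ˢ G).filter (fun q => S q.1 q.2 ∧ 0 < R' q.2 ∧
    R' q.2 ≤ s q.1 * |Γ| ∧ 48 * (((D q).1 : ℝ) * (D q).2) * s q.1 < 1)).image D with hT
  set QN : ℕ → Finset (ℕ × ℕ) := fun k => (((F.filter (fun i => idx i = k)) ×ˢ G).filter
    (fun q => S q.1 q.2 ∧ 0 < R' q.2 ∧
    R' q.2 ≤ s q.1 * |Γ| ∧ 1 ≤ 48 * (((D q).1 : ℝ) * (D q).2) * s q.1)).image D with hQN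
  set QF : ℕ → Finset (ℕ × ℕ) := fun k => ((F.filter (fun i => idx i = k)) ×ˢ G).image D with hQF
  have hsp : ∀ i ∈ F, ∀ j ∈ G, 0 < (D (i, j)).1 ∧ 0 < (D (i, j)).2 ∧
      (D (i, j)).1.Coprime (D (i, j)).2 ∧
      ∀ p : ℕ, p.Prime → p ∣ (D (i, j)).1 * (D (i, j)).2 → p ≤ z := by
    intro i hi j hj
    obtain ⟨d1, d2, d3, -⟩ := dt_spec (h.pF i hi) (h.pG j hj)
    refine ⟨d1, d2, d3, fun p hp hd => ?_⟩
    rcases (Nat.Prime.dvd_mul hp).1 hd with h1 | h1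
    · exact sF i hi p hp (h1.trans dt_dvd.1)
    · exact sG j hj p hp (h1.trans dt_dvd.2)
  -- pointwise
  have hpt : ∀ i ∈ F, ∀ j ∈ G, ind (S i j) *
      min (R i / ((dt (e i) (e' j)).1 : ℝ)) (R' j / ((dt (e i) (e' j)).2 : ℝ)) ≤
      ind (dt (e i) (e' j) ∈ T) * sq e e' R R' i j +
        (ind (dt (e i) (e' j) ∈ QN (idx i)) * sq e e' R R' i j +
          2 * ρ8 ^ (idx i) * (ind (dt (e i) (e' j) ∈ QF (idx i)) * sq e e' R R' i j)) := by
    intro i hi j hj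
    obtain ⟨a1, a2, a3, a4, a5, a6⟩ := s0 i hi
    obtain ⟨d1, d2, d3, d4⟩ := hsp i hi j hj
    by_cases hij : S i j
    · rw [ind_t hij, one_mul]
      have hmem : (i, j) ∈ (F.filter (fun i' => idx i' = idx i)) ×ˢ G :=
        Finset.mem_product.2 ⟨Finset.mem_filter.2 ⟨hi, rfl⟩, hj⟩
      exact pair_le (hS i hi j hj hij) hE0 d1 d2 a1 a2 a3 (h.rG j hj) a4 T (QN (idx i)) (QF (idx i))
        (fun b1 b2 b3 => Finset.mem_image.2 ⟨(i, j), Finset.mem_filter.2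
          ⟨Finset.mem_product.2 ⟨hi, hj⟩, hij, b1, b2, b3⟩, rfl⟩)
        (fun b1 b2 b3 => Finset.mem_image.2 ⟨(i, j), Finset.mem_filter.2
          ⟨hmem, hij, b1, b2, b3⟩, rfl⟩)
        (Finset.mem_image.2 ⟨(i, j), hmem, rfl⟩)
    · rw [ind_f hij, zero_mul]
      have hq := sq_nn (e := e) (e' := e') (R := R) (R' := R') i j
      have hρ : 0 ≤ ρ8 ^ (idx i) := pow_nonneg (by unfold ρ8; positivity) _
      have n1 := ind_nn (dt (e i) (e' j) ∈ T)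
      have n2 := ind_nn (dt (e i) (e' j) ∈ QN (idx i))
      have n3 := ind_nn (dt (e i) (e' j) ∈ QF (idx i))
      positivity
  refine (Finset.sum_le_sum fun i hi => Finset.sum_le_sum fun j hj => hpt i hi j hj).trans ?_
  simp only [Finset.sum_add_distrib]
  rw [add_mul]
  refine add_le_add ?_ ?_
  · -- small types
    refine geo_types h hU T (fun t ht => ?_) (fun t ht t' ht' hne => ?_)
    · obtain ⟨⟨i, j⟩, hq, rfl⟩ := Finset.mem_image.1 ht
      obtain ⟨hq1, hq2, -, hq4, -⟩ := Finset.mem_filter.1 hq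
      obtain ⟨hi, hj⟩ := Finset.mem_product.1 hq1
      obtain ⟨d1, d2, -, -⟩ := hsp i hi j hj
      refine ⟨d1, d2, ?_⟩
      have hb := (hS i hi j hj hq2).big hq4
      refine lt_of_lt_of_le hb ?_
      have : max (D (i, j)).1 (D (i, j)).2 ≤ (D (i, j)).1 * (D (i, j)).2 :=
        max_le (Nat.le_mul_of_pos_right _ d2) (Nat.le_mul_of_pos_left _ d1)
      exact_mod_cast this
    · obtain ⟨⟨i, j⟩, hq, rfl⟩ := Finset.mem_image.1 ht
      obtain ⟨⟨i', j'⟩, hq', rfl⟩ := Finset.mem_image.1 ht'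
      obtain ⟨hq1, hq2, hq3, hq4, hq5⟩ := Finset.mem_filter.1 hq
      obtain ⟨hq1', hq2', hq3', hq4', hq5'⟩ := Finset.mem_filter.1 hq'
      obtain ⟨hi, hj⟩ := Finset.mem_product.1 hq1
      obtain ⟨hi', hj'⟩ := Finset.mem_product.1 hq1'
      simp only at hi hj hi' hj' hq2 hq3 hq4 hq5 hq2' hq3' hq4' hq5'
      obtain ⟨d1, d2, d3, -⟩ := hsp i hi j hj
      obtain ⟨d1', d2', d3', -⟩ := hsp i' hi' j' hj'
      obtain ⟨a1, a2, a3, a4, a5, a6⟩ := s0 i hi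
      obtain ⟨a1', a2', a3', a4', a5', a6'⟩ := s0 i' hi'
      have p1 := pin_of (hS i hi j hj hq2) a6 hq4
      have p1' := pin_of (hS i' hi' j' hj' hq2') a6' hq4'
      have hΓ : Γ ≠ 0 := by
        rintro rfl
        rw [abs_zero, mul_zero] at hq4
        linarith
      -- core: the pair with the larger `s` forces the other product to be large
      have core : ∀ (x y x' y' : ℕ) (σ σ' : ℝ), 0 < x → 0 < y → 0 < x' → 0 < y' →
          x.Coprime y → x'.Coprime y' → (x, y) ≠ (x', y') → 0 < σ → σ ≤ 1/32 → 0 < σ' → σ' ≤ σ →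
          |(y : ℝ) * E - x * Γ| ≤ σ * ((y : ℝ) * |E| + x * |Γ|) →
          |(y' : ℝ) * E - x' * Γ| ≤ σ' * ((y' : ℝ) * |E| + x' * |Γ|) →
          48 * ((x : ℝ) * y) * σ < 1 → 4 * (x * y) < x' * y' := by
        intro x y x' y' σ σ' hx hy hx' hy' hc hc' hne' hσ hσ1 hσ' hle hp hp' hsm
        have hA4 : (4:ℝ) ≤ σ⁻¹ := by
          rw [le_inv_comm₀ (by norm_num) hσ]
          refine hσ1.trans (by norm_num)
        have P1 : Pin σ⁻¹ E Γ x y := by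
          refine ⟨hx, hy, ?_⟩
          rw [div_inv_eq_mul, mul_comm _ σ]
          exact hp
        have P2 : Pin σ⁻¹ E Γ x' y' := by
          refine ⟨hx', hy', ?_⟩
          rw [div_inv_eq_mul, mul_comm _ σ]
          exact hp'.trans (mul_le_mul_of_nonneg_right hle (by positivity))
        have hxr : (0:ℝ) < x := by exact_mod_cast hx
        have hyr : (0:ℝ) < y := by exact_mod_cast hy
        have hs1 : 48 * ((x:ℝ) * y) < σ⁻¹ := by
          rw [lt_inv_comm₀ (by positivity) hσ, ← one_div, lt_div_iff₀ (by positivity)]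
          linarith
        by_contra hcon
        push Not at hcon
        have h5 : ((x' * y' : ℕ) : ℝ) ≤ ((4 * (x * y) : ℕ) : ℝ) := by exact_mod_cast hcon
        push_cast at h5
        have hs2 : 12 * ((x':ℝ) * y') < σ⁻¹ := by linarith
        have hs3 : 12 * ((x:ℝ) * y) < σ⁻¹ := by
          have : 0 < (x:ℝ) * y := by positivity
          linarith
        obtain ⟨g1, g2⟩ := pin_unique hA4 hE hΓ P1 P2 hc hc' hs3 hs2
        exact hne' (Prod.ext g1 g2)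
      have hs32 : ∀ i ∈ F, s i ≤ 1/32 := by
        intro i hi
        obtain ⟨g1, g2, g3, g4⟩ := f0 i hi
        refine Real.sqrt_le_iff.2 ⟨by norm_num, ?_⟩
        norm_num
        linarith
      rcases le_total (s i') (s i) with hle | hle
      · left
        exact core _ _ _ _ (s i) (s i') d1 d2 d1' d2' d3 d3' hne a1 (hs32 i hi) a1' hle p1 p1' hq5
      · right
        exact core _ _ _ _ (s i') (s i) d1' d2' d1 d2 d3' d3 (Ne.symm hne) a1' (hs32 i' hi') a1 hle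
          p1' p1 hq5'
  · -- the classes
    rw [← Finset.sum_add_distrib]
    have e0 : ∀ i ∈ F, (∑ j ∈ G, ind (dt (e i) (e' j) ∈ QN (idx i)) * sq e e' R R' i j +
        ∑ j ∈ G, 2 * ρ8 ^ (idx i) * (ind (dt (e i) (e' j) ∈ QF (idx i)) * sq e e' R R' i j)) =
        ∑ j ∈ G, (ind (dt (e i) (e' j) ∈ QN (idx i)) * sq e e' R R' i j +
          2 * ρ8 ^ (idx i) * (ind (dt (e i) (e' j) ∈ QF (idx i)) * sq e e' R R' i j)) :=
      fun i _ => Finset.sum_add_distrib.symm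
    rw [Finset.sum_congr rfl e0, ← Finset.sum_fiberwise_of_maps_to (s := F) (t := F.image idx)
      (g := idx) (fun i hi => Finset.mem_image_of_mem _ hi)]
    have step : ∀ k ∈ F.image idx, ∑ i ∈ F.filter (fun i => idx i = k),
        ∑ j ∈ G, (ind (dt (e i) (e' j) ∈ QN (idx i)) * sq e e' R R' i j +
          2 * ρ8 ^ (idx i) * (ind (dt (e i) (e' j) ∈ QF (idx i)) * sq e e' R R' i j)) ≤
        576 * N0 * XX z * r16 ^ k * M := by
      intro k hk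
      obtain ⟨i0, hi0, hik⟩ := Finset.mem_image.1 hk
      have hk8 : 8 ≤ k := by
        have := hk10 i0 hi0
        omega
      have e1 : ∑ i ∈ F.filter (fun i => idx i = k),
        ∑ j ∈ G, (ind (dt (e i) (e' j) ∈ QN (idx i)) * sq e e' R R' i j +
          2 * ρ8 ^ (idx i) * (ind (dt (e i) (e' j) ∈ QF (idx i)) * sq e e' R R' i j)) =
          ∑ i ∈ F.filter (fun i => idx i = k),
        ∑ j ∈ G, (ind (dt (e i) (e' j) ∈ QN k) * sq e e' R R' i j +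
          2 * ρ8 ^ k * (ind (dt (e i) (e' j) ∈ QF k) * sq e e' R R' i j)) := by
        refine Finset.sum_congr rfl fun i hi => ?_
        rw [(Finset.mem_filter.1 hi).2]
      rw [e1]
      have hsub : F.filter (fun i => idx i = k) ⊆ F := Finset.filter_subset _ _
      have hcls := cls_sum (h.sub hsub) hz (E := E) (Γ := Γ) (N0 := N0) hk8 hE hN0 ?_ (QN k) (QF k)
        ?_ ?_ ?_
      · refine hcls.trans ?_
        have hX0 : 0 ≤ XX z := by have := XX_one hz; linarith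
        have hr0 : 0 ≤ r16 ^ k := pow_nonneg r16_pos.le _
        refine mul_le_mul_of_nonneg_left ?_ (by positivity)
        refine mul_le_mul_of_nonneg_right ?_ (Real.sqrt_nonneg _)
        refine Real.sqrt_le_sqrt ?_
        exact Finset.sum_le_sum_of_subset_of_nonneg hsub fun i hi _ => h.rF i hi
      · -- the count
        have h1 := hcard ((1/2:ℝ) ^ (k + 1)) (by positivity)
        have h2 : F.filter (fun i => idx i = k) ⊆ F.filter (fun i => (1/2:ℝ) ^ (k + 1) * |E| < R i) := by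
          intro i hi
          obtain ⟨hi1, hi2⟩ := Finset.mem_filter.1 hi
          refine Finset.mem_filter.2 ⟨hi1, ?_⟩
          have := (f0 i hi1).2.2.2
          rw [hi2] at this
          rwa [lt_div_iff₀ hE0] at this
        have h3 : ((F.filter (fun i => idx i = k)).card : ℝ) ≤
            ((F.filter (fun i => (1/2:ℝ) ^ (k + 1) * |E| < R i)).card : ℝ) := by
          exact_mod_cast Finset.card_le_card h2
        refine (h3.trans h1).trans (le_of_eq ?_)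
        rw [← pow_mul, one_div_pow, div_div_eq_mul_div, div_one]
        congr 1
        rw [show (k + 1) * 5 = 5 + 5 * k by ring, pow_add]
        norm_num
      · rintro ⟨t, ht⟩ rfl
        obtain ⟨⟨i, j⟩, hq, -⟩ := Finset.mem_image.1 ht
        obtain ⟨-, -, hq3, hq4, -⟩ := Finset.mem_filter.1 hq
        rw [abs_zero, mul_zero] at hq4
        linarith
      · intro t ht
        obtain ⟨⟨i, j⟩, hq, rfl⟩ := Finset.mem_image.1 ht
        obtain ⟨hq1, hq2, hq3, hq4, hq5⟩ := Finset.mem_filter.1 hq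
        obtain ⟨hi1, hj⟩ := Finset.mem_product.1 hq1
        obtain ⟨hi, hik'⟩ := Finset.mem_filter.1 hi1
        simp only at hi hj hq2 hq3 hq4 hq5 hik'
        obtain ⟨d1, d2, d3, d4⟩ := hsp i hi j hj
        obtain ⟨a1, a2, a3, a4, a5, a6⟩ := s0 i hi
        rw [hik'] at a5
        have p1 := pin_of (hS i hi j hj hq2) a6 hq4
        have hAk : 0 < Ak k := by
          rw [Ak_eq]; positivity
        have hsA : s i ≤ 1 / Ak k := by
          rw [le_div_iff₀ hAk]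
          nlinarith
        refine ⟨d3, ⟨d1, d2, ?_⟩, ?_, d4⟩
        · rw [div_eq_mul_one_div, mul_comm _ (1 / Ak k)]
          exact p1.trans (mul_le_mul_of_nonneg_right hsA (by positivity))
        · have hxy : (0:ℝ) < ((D (i, j)).1 : ℝ) * (D (i, j)).2 := by
            have : (0:ℝ) < ((D (i, j)).1 : ℝ) := by exact_mod_cast d1
            have : (0:ℝ) < ((D (i, j)).2 : ℝ) := by exact_mod_cast d2
            positivity
          -- `Ak ≤ 48 D D' s Ak ≤ 12 D D'`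
          have h6 : Ak k ≤ (48 * (((D (i, j)).1 : ℝ) * (D (i, j)).2) * s i) * Ak k :=
            le_mul_of_one_le_left hAk.le hq5
          nlinarith
      · intro t ht
        obtain ⟨⟨i, j⟩, hq, rfl⟩ := Finset.mem_image.1 ht
        obtain ⟨hi1, hj⟩ := Finset.mem_product.1 hq
        exact hsp i (Finset.mem_filter.1 hi1).1 j hj
    refine (Finset.sum_le_sum step).trans ?_
    rw [← Finset.sum_mul, ← Finset.mul_sum]
    refine mul_le_mul_of_nonneg_right ?_ hM0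
    have hX0 : 0 ≤ XX z := by have := XX_one hz; linarith
    have hr1 : 0 < 1 - r16 := by have := r16_lt; linarith
    have hg := geo_le r16_pos.le r16_lt (b := 2 * η ^ (1/1616 : ℝ)) (by positivity) (F.image idx) (by
      intro k hk
      obtain ⟨i, hi, rfl⟩ := Finset.mem_image.1 hk
      obtain ⟨g1, g2, g3, g4⟩ := f0 i hi
      rw [r16_pow]
      have h1 : (1/2:ℝ) ^ (idx i) ≤ 2 * η := by
        rw [pow_succ] at g4
        linarith
      have e1 : (1/2:ℝ) ^ (idx i) = (2:ℝ) ^ (-(idx i : ℝ)) := by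
        rw [Real.rpow_neg (by norm_num), Real.rpow_natCast, one_div, inv_pow]
      rw [e1] at h1
      have h2 := Real.rpow_le_rpow (by positivity) h1 (show (0:ℝ) ≤ 1/1616 by norm_num)
      rw [← Real.rpow_mul (by norm_num), Real.mul_rpow (by norm_num) hη.le] at h2
      have e2 : -(idx i : ℝ) * (1/1616) = -(idx i : ℝ) / 1616 := by ring
      rw [e2] at h2
      refine h2.trans (mul_le_mul_of_nonneg_right ?_ (by positivity))
      calc (2:ℝ) ^ (1/1616 : ℝ) ≤ (2:ℝ) ^ (1:ℝ) :=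
            Real.rpow_le_rpow_of_exponent_le (by norm_num) (by norm_num)
        _ = 2 := Real.rpow_one _)
    refine (mul_le_mul_of_nonneg_left hg (by positivity)).trans (le_of_eq ?_)
    rw [XX_le hz]
    unfold CC
    field_simp
    ring

end main

end Crest.Agent.R4P.AcG41
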