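import Crest.Agent.R4P.AcG_41

/-!
R4 (S0004), powers pass, helper41: **the energy of accuracy events of a dense label, better exponents**
(same geometry as `AcG_41`).

* `sum_pin8` : `PinE104.sum_pin` with the exponent `7/8` instead of `1/101` (Hoelder `8/7`, `8`);
* **`acc_energy8`** : `∑ min (R i / D) (R' j / D') ≤
  (4 / √U + C N0^(1/16384) (log z)^K η^(1/7)) √(∑ R) √(∑ R')`; one of the cofactors is `> U` (only
  asked if `R' j ≤ η_i^(2/3) |Γ|`).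
-/

set_option autoImplicit false

open Finset

namespace Crest.Agent.R4P.AcH41

open Crest.Agent.R4P.GcdK37 Crest.Agent.R4P.GcdW41 Crest.Agent.R4P.AcG41
open Crest.Agent.R4.HVW560 (wn)
open Crest.Agent.R4.ClsS (wn_nonneg)
open Crest.Agent.R4.Smo944 (Sm Smooth sum_wn_le Sm_pos wt2 wt2_nonneg sum_wt2_le wn_eq)
open Crest.Agent.R4.PinE104 (Pin pin_unique ell_nonneg inv_sum_le swap_sum)
open Crest.Agent.R016

/-! ### sums over relations with few partners, exponent `7/8` -/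

theorem mul_wn_pow {κ : ℝ} {z : ℕ} {B : Finset ℕ} (hB : Smooth z B) {b : ℕ} (hb : b ∈ B) :
    (b:ℝ) ^ 7 * (wn κ b) ^ 8 = ∏ p ∈ primesIoc 0 z, wt2 (κ ^ 8) 48 p (b.factorization p) := by
  have hb0 := (hB b hb).1
  have h1 : (b:ℝ) = ∏ p ∈ primesIoc 0 z, (p:ℝ) ^ (b.factorization p) := by
    conv_lhs => rw [← Nat.prod_factorization_pow_eq_self hb0.ne']
    rw [Finsupp.prod, Nat.support_factorization]
    push_cast
    apply Finset.prod_subset (hB.pf hb)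
    intro p _ hp
    rw [← Nat.support_factorization, Finsupp.notMem_support_iff] at hp
    rw [hp, pow_zero]
  have e1 : (b:ℝ) ^ 7 = ∏ p ∈ primesIoc 0 z, ((p:ℝ) ^ (b.factorization p)) ^ 7 := by
    rw [Finset.prod_pow, ← h1]
  rw [e1, wn_eq hB hb, ← Finset.prod_pow, ← Finset.prod_mul_distrib]
  refine Finset.prod_congr rfl fun p hp => ?_
  have hp0 : (0:ℝ) < p := by exact_mod_cast (mem_primesIoc.1 hp).2.pos
  generalize b.factorization p = j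
  unfold wt2
  split_ifs with h
  · rw [h]; simp
  · have hX0 : 0 < (p:ℝ) ^ j := by positivity
    field_simp

/-- relations with few partners: Hoelder version of `ClsS.sum_R_le` -/
theorem sum_R8 {κ : ℝ} (hκ : 0 ≤ κ) {z : ℕ} (hz : 2 ≤ z) {ρ : ℝ} (hρ : 0 ≤ ρ)
    (R : Finset (ℕ × ℕ)) (hX : Smooth z (R.image Prod.fst)) (hY : Smooth z (R.image Prod.snd))
    (hinv : ∀ x, ∑ y ∈ (R.filter (fun e => e.1 = x)).image Prod.snd, 1/(y:ℝ) ≤ ρ) :
    ∑ e ∈ R, wn κ e.1 * wn κ e.2 ≤ ρ ^ (7/8:ℝ) *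
      Real.exp ((κ * Sm 6 + κ ^ 8 * Sm 48) * (Real.log (Real.log z) + 6)) := by
  classical
  set ℓ : ℝ := Real.log (Real.log z) + 6 with hℓ
  have hℓ0 : 0 ≤ ℓ := ell_nonneg hz
  set X := R.image Prod.fst with hXd
  set Yx : ℕ → Finset ℕ := fun x => (R.filter (fun e => e.1 = x)).image Prod.snd with hYx
  have e1 : ∑ e ∈ R, wn κ e.1 * wn κ e.2 = ∑ x ∈ X, wn κ x * ∑ y ∈ Yx x, wn κ y := by
    rw [← Finset.sum_fiberwise_of_maps_to (s := R) (t := X) (g := Prod.fst)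
      (fun e he => Finset.mem_image_of_mem _ he)]
    apply Finset.sum_congr rfl
    intro x _
    rw [hYx, Finset.sum_image, Finset.mul_sum]
    · apply Finset.sum_congr rfl
      intro e he
      rw [(Finset.mem_filter.1 he).2]
    · intro a ha b hb hab
      have ha' := (Finset.mem_filter.1 ha).2
      have hb' := (Finset.mem_filter.1 hb).2
      exact Prod.ext (ha'.trans hb'.symm) hab
  have hYs : ∀ x, Smooth z (Yx x) := by
    intro x y hy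
    obtain ⟨e, he, rfl⟩ := Finset.mem_image.1 hy
    exact hY _ (Finset.mem_image_of_mem _ (Finset.mem_filter.1 he).1)
  have hκp : 0 ≤ κ ^ 8 := by positivity
  have hinner : ∀ x, ∑ y ∈ Yx x, wn κ y ≤ ρ ^ (7/8:ℝ) * Real.exp (κ ^ 8 * Sm 48 * ℓ) := by
    intro x
    have hpos : ∀ y ∈ Yx x, (0:ℝ) < y := fun y hy => by exact_mod_cast (hYs x y hy).1
    have hconj : (8/7:ℝ).HolderConjugate 8 := by
      rw [Real.holderConjugate_iff]; norm_num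
    have hol := Real.inner_le_Lp_mul_Lq_of_nonneg (Yx x) hconj
      (f := fun y => ((y:ℝ) ^ (7/8:ℝ))⁻¹) (g := fun y => (y:ℝ) ^ (7/8:ℝ) * wn κ y)
      (fun y _ => by positivity) (fun y _ => mul_nonneg (by positivity) (wn_nonneg hκ y))
    have e2 : ∑ y ∈ Yx x, ((y:ℝ) ^ (7/8:ℝ))⁻¹ * ((y:ℝ) ^ (7/8:ℝ) * wn κ y)
        = ∑ y ∈ Yx x, wn κ y := by
      apply Finset.sum_congr rfl
      intro y hy
      have := Real.rpow_pos_of_pos (hpos y hy) (7/8)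
      field_simp
    have e3 : ∑ y ∈ Yx x, (((y:ℝ) ^ (7/8:ℝ))⁻¹) ^ (8/7:ℝ) = ∑ y ∈ Yx x, 1/(y:ℝ) := by
      apply Finset.sum_congr rfl
      intro y hy
      rw [Real.inv_rpow (by positivity), ← Real.rpow_mul (hpos y hy).le, one_div]
      norm_num
    have e4 : ∑ y ∈ Yx x, ((y:ℝ) ^ (7/8:ℝ) * wn κ y) ^ (8:ℝ)
        ≤ ∑ y ∈ Yx x, ∏ p ∈ primesIoc 0 z, wt2 (κ ^ 8) 48 p (y.factorization p) := by
      apply Finset.sum_le_sum
      intro y hy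
      rw [← mul_wn_pow (hYs x) hy, Real.mul_rpow (by positivity) (wn_nonneg hκ y),
        ← Real.rpow_mul (hpos y hy).le]
      rw [show (7/8:ℝ) * 8 = ((7:ℕ):ℝ) by norm_num, Real.rpow_natCast]
      rw [show ((8:ℝ)) = ((8:ℕ):ℝ) by norm_num, Real.rpow_natCast]
    have h5 := sum_wt2_le hκp 48 hz (hYs x)
    rw [← hℓ] at h5
    have h6 := e4.trans h5
    rw [e2, e3] at hol
    refine hol.trans ?_
    have hSm := (Sm_pos 48).le
    have hT0 : 0 ≤ κ ^ 8 * Sm 48 * ℓ := by positivity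
    have e0 : (1/(8/7) : ℝ) = 7/8 := by norm_num
    rw [e0]
    apply mul_le_mul
    · apply Real.rpow_le_rpow _ (hinv x) (by norm_num)
      exact Finset.sum_nonneg fun y _ => by positivity
    · have h7 : (∑ y ∈ Yx x, ((y:ℝ) ^ (7/8:ℝ) * wn κ y) ^ (8:ℝ)) ^ (1/8:ℝ)
          ≤ (Real.exp (κ ^ 8 * Sm 48 * ℓ)) ^ (1/8:ℝ) := by
        apply Real.rpow_le_rpow _ h6 (by norm_num)
        exact Finset.sum_nonneg fun y _ =>
          Real.rpow_nonneg (mul_nonneg (by positivity) (wn_nonneg hκ y)) _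
      refine h7.trans ?_
      rw [← Real.exp_mul]
      apply Real.exp_le_exp.2
      linarith
    · exact Real.rpow_nonneg (Finset.sum_nonneg fun y _ =>
          Real.rpow_nonneg (mul_nonneg (by positivity) (wn_nonneg hκ y)) _) _
    · exact Real.rpow_nonneg hρ _
  rw [e1]
  have h8 := sum_wn_le hκ hz hX
  rw [← hℓ] at h8
  calc ∑ x ∈ X, wn κ x * ∑ y ∈ Yx x, wn κ y
      ≤ ∑ x ∈ X, wn κ x * (ρ ^ (7/8:ℝ) * Real.exp (κ ^ 8 * Sm 48 * ℓ)) :=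
        Finset.sum_le_sum fun x _ => mul_le_mul_of_nonneg_left (hinner x) (wn_nonneg hκ x)
    _ = (∑ x ∈ X, wn κ x) * (ρ ^ (7/8:ℝ) * Real.exp (κ ^ 8 * Sm 48 * ℓ)) := by
        rw [Finset.sum_mul]
    _ ≤ Real.exp (κ * Sm 6 * ℓ) * (ρ ^ (7/8:ℝ) * Real.exp (κ ^ 8 * Sm 48 * ℓ)) :=
        mul_le_mul_of_nonneg_right h8 (mul_nonneg (Real.rpow_nonneg hρ _) (Real.exp_pos _).le)
    _ = _ := by
        rw [add_mul, Real.exp_add]; ring

/-- sum over the pinned types, `12 x y ≥ A` -/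
theorem sum_pin8_half {κ : ℝ} (hκ : 0 ≤ κ) {z : ℕ} (hz : 2 ≤ z) {A e e' : ℝ} (hA : 4 ≤ A)
    (he : 0 < e) (hee : e ≤ e') (R : Finset (ℕ × ℕ))
    (hR : ∀ x ∈ R, Pin A e e' x.1 x.2 ∧ A ≤ 12 * ((x.1:ℝ) * x.2) ∧
      ∀ p : ℕ, p.Prime → p ∣ x.1 * x.2 → p ≤ z) :
    ∑ x ∈ R, wn κ x.1 * wn κ x.2 ≤ (22 / Real.sqrt A) ^ (7/8:ℝ) *
      Real.exp ((κ * Sm 6 + κ ^ 8 * Sm 48) * (Real.log (Real.log z) + 6)) := by
  classical
  apply sum_R8 hκ hz (by positivity)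
  · intro b hb
    obtain ⟨x, hx, rfl⟩ := Finset.mem_image.1 hb
    obtain ⟨h1, -, h3⟩ := hR x hx
    exact ⟨h1.hx, fun p hp hpd => h3 p hp (dvd_mul_of_dvd_left hpd _)⟩
  · intro b hb
    obtain ⟨x, hx, rfl⟩ := Finset.mem_image.1 hb
    obtain ⟨h1, -, h3⟩ := hR x hx
    exact ⟨h1.hy, fun p hp hpd => h3 p hp (dvd_mul_of_dvd_right hpd _)⟩
  · intro x
    apply inv_sum_le hA he hee x
    intro y hy
    obtain ⟨a, ha, rfl⟩ := Finset.mem_image.1 hy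
    rw [Finset.mem_filter] at ha
    obtain ⟨h1, h2, -⟩ := hR a ha.1
    rw [← ha.2]
    exact ⟨h1, h2⟩

theorem sum_pin8 {κ : ℝ} (hκ : 0 ≤ κ) {z : ℕ} (hz : 2 ≤ z) {A e e' : ℝ} (hA : 4 ≤ A)
    (he : e ≠ 0) (he' : e' ≠ 0) (R : Finset (ℕ × ℕ))
    (hR : ∀ x ∈ R, Pin A e e' x.1 x.2 ∧ A ≤ 12 * ((x.1:ℝ) * x.2) ∧
      ∀ p : ℕ, p.Prime → p ∣ x.1 * x.2 → p ≤ z) :
    ∑ x ∈ R, wn κ x.1 * wn κ x.2 ≤ (22 / Real.sqrt A) ^ (7/8:ℝ) *
      Real.exp ((κ * Sm 6 + κ ^ 8 * Sm 48) * (Real.log (Real.log z) + 6)) := by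
  classical
  rcases le_total |e| |e'| with hc | hc
  · exact sum_pin8_half hκ hz hA (abs_pos.2 he) hc R fun x hx =>
      ⟨(hR x hx).1.abs, (hR x hx).2⟩
  · have h := sum_pin8_half hκ hz hA (abs_pos.2 he') hc (R.image Prod.swap) (by
      intro x hx
      obtain ⟨a, ha, rfl⟩ := Finset.mem_image.1 hx
      obtain ⟨h1, h2, h3⟩ := hR a ha
      refine ⟨h1.abs.symm, ?_, ?_⟩
      · simp only [Prod.fst_swap, Prod.snd_swap]
        rw [mul_comm (a.2:ℝ)]; exact h2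
      · intro p hp hpd
        apply h3 p hp
        simp only [Prod.fst_swap, Prod.snd_swap] at hpd
        rwa [mul_comm] at hpd)
    rw [swap_sum (fun a b => wn κ a * wn κ b)] at h
    refine le_trans (le_of_eq ?_) h
    apply Finset.sum_congr rfl
    intro x _
    ring

/-! ### the kernel sums of one class -/

/-- the exponent of `log z` -/
noncomputable def K8 : ℝ := kp 12 * Sm 6 + (kp 12) ^ 8 * Sm 48

lemma K8_nn : 0 ≤ K8 := by
  unfold K8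
  have h1 := (kp_pos 12).le
  have h2 := (Sm_pos 6).le
  have h3 := (Sm_pos 48).le
  exact add_nonneg (mul_nonneg h1 h2) (mul_nonneg (pow_nonneg h1 _) h3)

/-- `exp (K8 (log log z + 6))` -/
noncomputable def X8 (z : ℕ) : ℝ := Real.exp (K8 * (Real.log (Real.log z) + 6))

lemma X8_one {z : ℕ} (hz : 2 ≤ z) : 1 ≤ X8 z :=
  Real.one_le_exp (mul_nonneg K8_nn (ell_nonneg hz))

lemma X8_le {z : ℕ} (hz : 2 ≤ z) : X8 z = Real.exp (6 * K8) * Real.log z ^ K8 := by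
  have h2 : (0:ℝ) < Real.log z := Real.log_pos (by exact_mod_cast (by omega : 1 < z))
  unfold X8
  rw [Real.rpow_def_of_pos h2, ← Real.exp_add]
  congr 1
  ring

section fam
variable {ι κ : Type} {F : Finset ι} {G : Finset κ} {e : ι → ℕ} {e' : κ → ℕ} {R : ι → ℝ} {R' : κ → ℝ}

/-- pinned types, not small -/
theorem cls_N8 (h : Fam F G e e' R R') {z : ℕ} (hz : 2 ≤ z) {A E Γ : ℝ} (hA : 4 ≤ A)
    (Q : Finset (ℕ × ℕ)) (hE : E ≠ 0) (hΓ : Q.Nonempty → Γ ≠ 0)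
    (hQ : ∀ t ∈ Q, t.1.Coprime t.2 ∧ Pin A E Γ t.1 t.2 ∧ A ≤ 12 * ((t.1 : ℝ) * t.2) ∧
      ∀ p : ℕ, p.Prime → p ∣ t.1 * t.2 → p ≤ z) :
    ∑ i ∈ F, ∑ j ∈ G, ind (dt (e i) (e' j) ∈ Q) * sq e e' R R' i j ≤
      √(4 * ((22 / √A) ^ (7 / 8 : ℝ) * X8 z)) * (F.card : ℝ) ^ ((1 : ℝ) / 16384) *
        (√(∑ i ∈ F, R i) * √(∑ j ∈ G, R' j)) := by
  rcases Q.eq_empty_or_nonempty with rfl | hne
  · rw [Finset.sum_eq_zero]
    · positivity
    · intro i _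
      refine Finset.sum_eq_zero fun j _ => ?_
      rw [ind_f (Finset.notMem_empty _), zero_mul]
  have h1 := min_relW 12 Q F G e e' R R'
    (fun t ht => ⟨(hQ t ht).2.1.hx, (hQ t ht).2.1.hy, (hQ t ht).1⟩) h.pF h.pG h.iF h.iG h.rF h.rG
  have h2 := sum_pin8 (kp_pos 12).le hz hA hE (hΓ hne) Q (fun t ht => (hQ t ht).2)
  have e1 : (1 : ℝ) / (4 * 2 ^ 12 : ℕ) = (1 : ℝ) / 16384 := by norm_num
  rw [e1] at h1
  refine h1.trans ?_
  refine mul_le_mul_of_nonneg_right (mul_le_mul_of_nonneg_right ?_ (by positivity)) (by positivity)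
  exact Real.sqrt_le_sqrt (mul_le_mul_of_nonneg_left h2 (by norm_num))

/-- all smooth types -/
theorem cls_F8 (h : Fam F G e e' R R') {z : ℕ} (hz : 2 ≤ z) (Q : Finset (ℕ × ℕ))
    (hQ : ∀ t ∈ Q, 0 < t.1 ∧ 0 < t.2 ∧ t.1.Coprime t.2 ∧
      ∀ p : ℕ, p.Prime → p ∣ t.1 * t.2 → p ≤ z) :
    ∑ i ∈ F, ∑ j ∈ G, ind (dt (e i) (e' j) ∈ Q) * sq e e' R R' i j ≤
      2 * X8 z * (F.card : ℝ) ^ ((1 : ℝ) / 16384) *
        (√(∑ i ∈ F, R i) * √(∑ j ∈ G, R' j)) := by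
  classical
  have h1 := min_relW 12 Q F G e e' R R'
    (fun t ht => ⟨(hQ t ht).1, (hQ t ht).2.1, (hQ t ht).2.2.1⟩) h.pF h.pG h.iF h.iG h.rF h.rG
  have e1 : (1 : ℝ) / (4 * 2 ^ 12 : ℕ) = (1 : ℝ) / 16384 := by norm_num
  rw [e1] at h1
  refine h1.trans ?_
  refine mul_le_mul_of_nonneg_right (mul_le_mul_of_nonneg_right ?_ (by positivity)) (by positivity)
  set κ0 := kp 12 with hκ
  have hk0 : 0 ≤ κ0 := (kp_pos 12).le
  have hw : ∀ n, 0 ≤ wn κ0 n := Crest.Agent.R4.ClsS.wn_nonneg hk0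
  have h2 : ∑ t ∈ Q, wn κ0 t.1 * wn κ0 t.2 ≤
      (∑ n ∈ Q.image Prod.fst, wn κ0 n) * ∑ n ∈ Q.image Prod.snd, wn κ0 n := by
    rw [Finset.sum_mul_sum, ← Finset.sum_product']
    refine Finset.sum_le_sum_of_subset_of_nonneg ?_ fun z _ _ => mul_nonneg (hw _) (hw _)
    intro t ht
    exact Finset.mem_product.2 ⟨Finset.mem_image_of_mem _ ht, Finset.mem_image_of_mem _ ht⟩
  have s1 : Smooth z (Q.image Prod.fst) := by
    intro b hb
    obtain ⟨t, ht, rfl⟩ := Finset.mem_image.1 hb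
    exact ⟨(hQ t ht).1, fun p hp hd => (hQ t ht).2.2.2 p hp (dvd_mul_of_dvd_left hd _)⟩
  have s2 : Smooth z (Q.image Prod.snd) := by
    intro b hb
    obtain ⟨t, ht, rfl⟩ := Finset.mem_image.1 hb
    exact ⟨(hQ t ht).2.1, fun p hp hd => (hQ t ht).2.2.2 p hp (dvd_mul_of_dvd_right hd _)⟩
  have b1 := sum_wn_le hk0 hz s1
  have b2 := sum_wn_le hk0 hz s2
  have hl := ell_nonneg hz
  have b3 : Real.exp (κ0 * Sm 6 * (Real.log (Real.log z) + 6)) ≤ X8 z := by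
    refine Real.exp_le_exp.2 (mul_le_mul_of_nonneg_right ?_ hl)
    unfold K8
    have h3 := (Sm_pos 48).le
    have : 0 ≤ (kp 12) ^ 8 * Sm 48 := mul_nonneg (pow_nonneg (kp_pos 12).le _) h3
    exact le_add_of_nonneg_right this
  have X0 : 0 ≤ X8 z := (Real.exp_pos _).le
  have b4 : ∑ t ∈ Q, wn κ0 t.1 * wn κ0 t.2 ≤ X8 z * X8 z :=
    h2.trans (mul_le_mul (b1.trans b3) (b2.trans b3) (Finset.sum_nonneg fun n _ => hw n) X0)
  refine Real.sqrt_le_iff.2 ⟨by positivity, ?_⟩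
  calc 4 * ∑ t ∈ Q, wn κ0 t.1 * wn κ0 t.2 ≤ 4 * (X8 z * X8 z) :=
        mul_le_mul_of_nonneg_left b4 (by norm_num)
    _ = (2 * X8 z) ^ 2 := by ring

end fam

/-! ### numbers -/

/-- the ratio `2^(-7/48)` -/
noncomputable def ρa : ℝ := (2:ℝ) ^ (-(7/48) : ℝ)

/-- the ratio `2^(-1/7)` -/
noncomputable def ρb : ℝ := (2:ℝ) ^ (-(1/7) : ℝ)

lemma ρb_pos : 0 < ρb := by unfold ρb; positivity

lemma ρb_lt : ρb < 1 := Real.rpow_lt_one_of_one_lt_of_neg (by norm_num) (by norm_num)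

lemma ρa_pow (k : ℕ) : ρa ^ k = (2:ℝ) ^ (-(7 * (k:ℝ) / 48)) := by
  unfold ρa
  rw [← Real.rpow_natCast, ← Real.rpow_mul (by norm_num)]
  congr 1; ring

lemma ρb_pow (k : ℕ) : ρb ^ k = (2:ℝ) ^ (-((k:ℝ) / 7)) := by
  unfold ρb
  rw [← Real.rpow_natCast, ← Real.rpow_mul (by norm_num)]
  congr 1; ring

/-- the window of the class `k` -/
noncomputable def Aw (k : ℕ) : ℝ := ((2:ℝ) ^ ((k:ℝ)/3) / 2) ^ 2

lemma Aw_eq (k : ℕ) : Aw k = (2:ℝ) ^ (2 * (k:ℝ)/3) / 4 := by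
  unfold Aw
  rw [div_pow, ← Real.rpow_natCast ((2:ℝ) ^ ((k:ℝ)/3)), ← Real.rpow_mul (by norm_num)]
  congr 1
  · congr 1; push_cast; ring
  · norm_num

lemma num_Nb (k : ℕ) {X : ℝ} (hX : 1 ≤ X) :
    √(4 * ((22 / √(Aw k)) ^ (7 / 8 : ℝ) * X)) ≤ 14 * ρa ^ k * X := by
  have h2 : (0:ℝ) < (2:ℝ) ^ ((k:ℝ)/3) := by positivity
  have e1 : √(Aw k) = (2:ℝ) ^ ((k:ℝ)/3) / 2 := by
    unfold Aw
    exact Real.sqrt_sq (by positivity)
  have e2 : 22 / √(Aw k) = 44 * (2:ℝ) ^ (-((k:ℝ)/3)) := by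
    rw [e1, Real.rpow_neg (by norm_num)]
    field_simp
    norm_num
  have e3 : (22 / √(Aw k)) ^ (7 / 8 : ℝ) ≤ 44 * (2:ℝ) ^ (-(7 * (k:ℝ)/24)) := by
    rw [e2, Real.mul_rpow (by norm_num) (by positivity), ← Real.rpow_mul (by norm_num)]
    have h3 : (44:ℝ) ^ (7 / 8 : ℝ) ≤ 44 := by
      calc (44:ℝ) ^ (7 / 8 : ℝ) ≤ (44:ℝ) ^ (1:ℝ) :=
            Real.rpow_le_rpow_of_exponent_le (by norm_num) (by norm_num)
        _ = 44 := Real.rpow_one _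
    have h4 : -((k:ℝ)/3) * (7/8) = -(7 * (k:ℝ)/24) := by ring
    rw [h4]
    exact mul_le_mul_of_nonneg_right h3 (by positivity)
  refine Real.sqrt_le_iff.2 ⟨mul_nonneg (mul_nonneg (by norm_num) (pow_nonneg (by
    unfold ρa; positivity) _)) (by linarith), ?_⟩
  have e4 : (ρa ^ k) ^ 2 = (2:ℝ) ^ (-(7 * (k:ℝ)/24)) := by
    rw [ρa_pow, ← Real.rpow_natCast, ← Real.rpow_mul (by norm_num)]
    congr 1; push_cast; ring
  have e5 : (14 * ρa ^ k * X) ^ 2 = 196 * (2:ℝ) ^ (-(7 * (k:ℝ)/24)) * X ^ 2 := by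
    rw [mul_pow, mul_pow, e4]; norm_num
  rw [e5]
  have hp : (0:ℝ) < (2:ℝ) ^ (-(7 * (k:ℝ)/24)) := by positivity
  calc 4 * ((22 / √(Aw k)) ^ (7 / 8 : ℝ) * X) ≤ 4 * ((44 * (2:ℝ) ^ (-(7 * (k:ℝ)/24))) * X) :=
        mul_le_mul_of_nonneg_left (mul_le_mul_of_nonneg_right e3 (by linarith)) (by norm_num)
    _ = 176 * (2:ℝ) ^ (-(7 * (k:ℝ)/24)) * X := by ring
    _ ≤ 196 * (2:ℝ) ^ (-(7 * (k:ℝ)/24)) * X ^ 2 := by
        have h6 : X ≤ X ^ 2 := by nlinarith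
        calc 176 * (2:ℝ) ^ (-(7 * (k:ℝ)/24)) * X ≤ 196 * (2:ℝ) ^ (-(7 * (k:ℝ)/24)) * X := by
              have : 0 ≤ (2:ℝ) ^ (-(7 * (k:ℝ)/24)) * X := mul_nonneg hp.le (by linarith)
              nlinarith
          _ ≤ _ := mul_le_mul_of_nonneg_left h6 (by positivity)

lemma num_cd (k : ℕ) {N0 c : ℝ} (hN : 1 ≤ N0) (h0 : 0 ≤ c)
    (hc : c ≤ N0 * (32 * (2:ℝ) ^ (5 * k))) :
    ρa ^ k * c ^ ((1:ℝ)/16384) ≤ 32 * N0 ^ ((1:ℝ)/16384) * ρb ^ k := by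
  have hN0 : 0 ≤ N0 := by linarith
  have h1 : c ^ ((1:ℝ)/16384) ≤ (N0 * (32 * (2:ℝ) ^ (5 * k))) ^ ((1:ℝ)/16384) :=
    Real.rpow_le_rpow h0 hc (by norm_num)
  have h2 : (N0 * (32 * (2:ℝ) ^ (5 * k))) ^ ((1:ℝ)/16384) ≤
      (32 * N0 ^ ((1:ℝ)/16384)) * (2:ℝ) ^ ((5 * k : ℝ) / 16384) := by
    rw [Real.mul_rpow hN0 (by positivity), Real.mul_rpow (by norm_num) (by positivity)]
    have h3 : (32:ℝ) ^ ((1:ℝ)/16384) ≤ 32 := by
      calc (32:ℝ) ^ ((1:ℝ)/16384) ≤ (32:ℝ) ^ (1:ℝ) :=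
            Real.rpow_le_rpow_of_exponent_le (by norm_num) (by norm_num)
        _ = 32 := Real.rpow_one _
    have h4 : ((2:ℝ) ^ (5 * k)) ^ ((1:ℝ)/16384) = (2:ℝ) ^ ((5 * k : ℝ) / 16384) := by
      rw [← Real.rpow_natCast, ← Real.rpow_mul (by norm_num)]
      congr 1; push_cast; ring
    rw [h4]
    have h5 : 0 ≤ N0 ^ ((1:ℝ)/16384) := Real.rpow_nonneg hN0 _
    have h6 : 0 ≤ (2:ℝ) ^ ((5 * k : ℝ) / 16384) := by positivity
    calc N0 ^ ((1:ℝ)/16384) * ((32:ℝ) ^ ((1:ℝ)/16384) * (2:ℝ) ^ ((5 * k : ℝ) / 16384)) ≤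
        N0 ^ ((1:ℝ)/16384) * (32 * (2:ℝ) ^ ((5 * k : ℝ) / 16384)) :=
          mul_le_mul_of_nonneg_left (mul_le_mul_of_nonneg_right h3 h6) h5
      _ = _ := by ring
  have h3 : 0 ≤ ρa ^ k := pow_nonneg (by unfold ρa; positivity) _
  refine (mul_le_mul_of_nonneg_left (h1.trans h2) h3).trans ?_
  rw [ρa_pow, ρb_pow]
  have hn : 0 ≤ N0 ^ ((1:ℝ)/16384) := Real.rpow_nonneg hN0 _
  have e1 : (2:ℝ) ^ (-(7 * (k:ℝ) / 48)) * ((32 * N0 ^ ((1:ℝ)/16384)) *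
      (2:ℝ) ^ ((5 * k : ℝ) / 16384)) =
      32 * N0 ^ ((1:ℝ)/16384) * (2:ℝ) ^ (-(7 * (k:ℝ) / 48) + (5 * k : ℝ) / 16384) := by
    rw [Real.rpow_add (by norm_num)]; ring
  rw [e1]
  refine mul_le_mul_of_nonneg_left ?_ (by positivity)
  refine Real.rpow_le_rpow_of_exponent_le (by norm_num) ?_
  have : (0:ℝ) ≤ k := Nat.cast_nonneg k
  linarith

/-- `t = η^(1/3)`, `η ≤ 2^(-k)` : `√t ≤ ρa^k` -/
lemma sixth (k : ℕ) {η : ℝ} (h0 : 0 ≤ η) (h : η ≤ (1/2:ℝ) ^ k) : √(η ^ (1/3 : ℝ)) ≤ ρa ^ k := by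
  have h1 : √(η ^ (1/3 : ℝ)) = η ^ (1/6 : ℝ) := by
    rw [Real.sqrt_eq_rpow, ← Real.rpow_mul h0]; norm_num
  rw [h1, ρa_pow]
  have h2 : η ^ (1/6 : ℝ) ≤ ((1/2:ℝ) ^ k) ^ (1/6 : ℝ) := Real.rpow_le_rpow h0 h (by norm_num)
  refine h2.trans ?_
  have e1 : (1/2:ℝ) ^ k = (2:ℝ) ^ (-(k:ℝ)) := by
    rw [Real.rpow_neg (by norm_num), Real.rpow_natCast, one_div, inv_pow]
  rw [e1, ← Real.rpow_mul (by norm_num)]
  refine Real.rpow_le_rpow_of_exponent_le (by norm_num) ?_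
  have : (0:ℝ) ≤ k := Nat.cast_nonneg k
  linarith

lemma third_sq (k : ℕ) {η : ℝ} (h0 : 0 < η) (h : η ≤ (1/2:ℝ) ^ k) :
    4 * Aw k * (η ^ (1/3 : ℝ)) ^ 2 ≤ 1 := by
  have h1 : (η ^ (1/3 : ℝ)) ^ 2 = η ^ (2/3 : ℝ) := by
    rw [← Real.rpow_natCast, ← Real.rpow_mul h0.le]; norm_num
  have h2 : η ^ (2/3 : ℝ) ≤ ((1/2:ℝ) ^ k) ^ (2/3 : ℝ) := Real.rpow_le_rpow h0.le h (by norm_num)
  have e1 : (1/2:ℝ) ^ k = (2:ℝ) ^ (-(k:ℝ)) := by
    rw [Real.rpow_neg (by norm_num), Real.rpow_natCast, one_div, inv_pow]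
  rw [e1, ← Real.rpow_mul (by norm_num), ← h1] at h2
  rw [Aw_eq]
  have e2 : 4 * ((2:ℝ) ^ (2 * (k:ℝ)/3) / 4) = (2:ℝ) ^ (2 * (k:ℝ)/3) := by ring
  rw [e2]
  calc (2:ℝ) ^ (2 * (k:ℝ)/3) * (η ^ (1/3 : ℝ)) ^ 2 ≤
      (2:ℝ) ^ (2 * (k:ℝ)/3) * (2:ℝ) ^ (-(k:ℝ) * (2/3)) :=
        mul_le_mul_of_nonneg_left h2 (by positivity)
    _ = 1 := by
        rw [← Real.rpow_add (by norm_num)]
        have : 2 * (k:ℝ)/3 + -(k:ℝ) * (2/3) = 0 := by ring
        rw [this, Real.rpow_zero]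

/-! ### the main theorem -/

section main
variable {ι κ : Type}

/-- related pairs: a common point, and one cofactor `> U` if the second piece is not relatively fat -/
structure Rp (e : ι → ℕ) (e' : κ → ℕ) (R : ι → ℝ) (R' : κ → ℝ) (E Γ U : ℝ) (i : ι) (j : κ) :
    Prop where
  pt : ∃ z z' : ℝ, |z| ≤ R i ∧ |z'| ≤ R' j ∧
    ((dt (e i) (e' j)).2 : ℝ) * (E + z) = (dt (e i) (e' j)).1 * (Γ + z')
  big : R' j ≤ ((R i / |E|) ^ (1/3 : ℝ)) ^ 2 * |Γ| →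
    U < ((max (dt (e i) (e' j)).1 (dt (e i) (e' j)).2 : ℕ) : ℝ)

/-- nonfat pairs are pinned -/
lemma pin_ofp {e : ι → ℕ} {e' : κ → ℕ} {R : ι → ℝ} {R' : κ → ℝ} {E Γ U s : ℝ} {i : ι} {j : κ}
    (h : Rp e e' R R' E Γ U i j) (h1 : R i ≤ s * |E|) (h2 : R' j ≤ s * |Γ|) :
    |((dt (e i) (e' j)).2 : ℝ) * E - (dt (e i) (e' j)).1 * Γ| ≤
      s * (((dt (e i) (e' j)).2 : ℝ) * |E| + (dt (e i) (e' j)).1 * |Γ|) := by
  obtain ⟨z, z', hz, hz', hp⟩ := h.pt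
  set x : ℝ := ((dt (e i) (e' j)).1 : ℝ)
  set y : ℝ := ((dt (e i) (e' j)).2 : ℝ)
  have hx : 0 ≤ x := Nat.cast_nonneg _
  have hy : 0 ≤ y := Nat.cast_nonneg _
  have e1 : y * E - x * Γ = x * z' - y * z := by linarith
  rw [e1]
  refine (abs_sub _ _).trans ?_
  rw [abs_mul, abs_mul, abs_of_nonneg hx, abs_of_nonneg hy]
  have h3 := mul_le_mul_of_nonneg_left (hz'.trans h2) hx
  have h4 := mul_le_mul_of_nonneg_left (hz.trans h1) hy
  linarith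

/-- fat pairs: `R i / D ≤ 4 t R' j / D'`, `R i = t^3 |E|`, `t^2 |Γ| < R' j` -/
lemma fat_ofp {e : ι → ℕ} {e' : κ → ℕ} {R : ι → ℝ} {R' : κ → ℝ} {E Γ U t : ℝ} {i : ι} {j : κ}
    (h : Rp e e' R R' E Γ U i j) (hE : 0 < |E|) (hx : 0 < (dt (e i) (e' j)).1)
    (hy : 0 < (dt (e i) (e' j)).2) (hs0 : 0 < t) (hs : t ≤ 1/2) (h1 : R i = t ^ 3 * |E|)
    (h2 : t ^ 2 * |Γ| < R' j) :
    R i / ((dt (e i) (e' j)).1 : ℝ) ≤ 4 * t * (R' j / ((dt (e i) (e' j)).2 : ℝ)) := by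
  obtain ⟨z, z', hz, hz', hp⟩ := h.pt
  have hx' : (0:ℝ) < ((dt (e i) (e' j)).1 : ℝ) := by exact_mod_cast hx
  have hy' : (0:ℝ) < ((dt (e i) (e' j)).2 : ℝ) := by exact_mod_cast hy
  set x : ℝ := ((dt (e i) (e' j)).1 : ℝ)
  set y : ℝ := ((dt (e i) (e' j)).2 : ℝ)
  have ht2 : t ^ 2 ≤ 1/2 := by nlinarith
  have ht3 : t ^ 3 ≤ 1/2 := by nlinarith [sq_nonneg t]
  have hR' : 0 < R' j := lt_of_le_of_lt (by positivity) h2
  -- `|E| / 2 ≤ |E + z|`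
  have a1 : |E| / 2 ≤ |E + z| := by
    have h3 : |E| ≤ |E + z| + |z| := by
      have := abs_sub (E + z) z
      rw [add_sub_cancel_right] at this
      exact this
    have h4 : |z| ≤ |E| / 2 := by
      refine hz.trans ?_
      rw [h1]
      nlinarith
    linarith
  have a2 : t ^ 2 * |Γ + z'| ≤ 2 * R' j := by
    have h3 : |Γ + z'| ≤ |Γ| + |z'| := abs_add_le _ _
    have h4 := mul_le_mul_of_nonneg_left h3 (sq_nonneg t)
    have h5 : t ^ 2 * |z'| ≤ R' j := by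
      calc t ^ 2 * |z'| ≤ 1 * |z'| := mul_le_mul_of_nonneg_right (by linarith) (abs_nonneg _)
        _ ≤ R' j := by rw [one_mul]; exact hz'
    nlinarith
  have a3 : y * |E + z| = x * |Γ + z'| := by
    have := congrArg abs hp
    rwa [abs_mul, abs_mul, abs_of_pos hx', abs_of_pos hy'] at this
  rw [mul_div_assoc', div_le_div_iff₀ hx' hy', h1]
  have a4 : y * (|E| / 2) ≤ x * |Γ + z'| := by
    rw [← a3]
    exact mul_le_mul_of_nonneg_left a1 hy'.le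
  have a5 : x * (t ^ 2 * |Γ + z'|) ≤ x * (2 * R' j) := mul_le_mul_of_nonneg_left a2 hx'.le
  have a6 := mul_le_mul_of_nonneg_left a4 (sq_nonneg t)
  have a7 : t ^ 2 * (y * |E|) ≤ 4 * (x * R' j) := by nlinarith
  have a8 := mul_le_mul_of_nonneg_left a7 hs0.le
  nlinarith

/-- pointwise estimate of a related pair, `t^3 = η_i`, class `k` -/
lemma pair_lep {e : ι → ℕ} {e' : κ → ℕ} {R : ι → ℝ} {R' : κ → ℝ} {E Γ U t : ℝ} {i : ι} {j : κ}
    {k : ℕ} (h : Rp e e' R R' E Γ U i j) (hE : 0 < |E|) (hx : 0 < (dt (e i) (e' j)).1)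
    (hy : 0 < (dt (e i) (e' j)).2) (hs0 : 0 < t) (hs : t ≤ 1/2) (h1 : R i = t ^ 3 * |E|)
    (hR' : 0 ≤ R' j) (hk : √t ≤ ρa ^ k) (T QN QF : Finset (ℕ × ℕ))
    (hT : 0 < R' j → R' j ≤ t ^ 2 * |Γ| →
      48 * (((dt (e i) (e' j)).1 : ℝ) * (dt (e i) (e' j)).2) * t ^ 2 < 1 → dt (e i) (e' j) ∈ T)
    (hN : 0 < R' j → R' j ≤ t ^ 2 * |Γ| →
      1 ≤ 48 * (((dt (e i) (e' j)).1 : ℝ) * (dt (e i) (e' j)).2) * t ^ 2 → dt (e i) (e' j) ∈ QN)
    (hF : dt (e i) (e' j) ∈ QF) :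
    min (R i / ((dt (e i) (e' j)).1 : ℝ)) (R' j / ((dt (e i) (e' j)).2 : ℝ)) ≤
      ind (dt (e i) (e' j) ∈ T) * sq e e' R R' i j +
        (ind (dt (e i) (e' j) ∈ QN) * sq e e' R R' i j +
          2 * ρa ^ k * (ind (dt (e i) (e' j) ∈ QF) * sq e e' R R' i j)) := by
  have hx' : (0:ℝ) < ((dt (e i) (e' j)).1 : ℝ) := by exact_mod_cast hx
  have hy' : (0:ℝ) < ((dt (e i) (e' j)).2 : ℝ) := by exact_mod_cast hy
  have hRi : 0 ≤ R i := by rw [h1]; positivity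
  have ha : 0 ≤ R i / ((dt (e i) (e' j)).1 : ℝ) := by positivity
  have hb : 0 ≤ R' j / ((dt (e i) (e' j)).2 : ℝ) := by positivity
  have hρ : 0 ≤ ρa ^ k := pow_nonneg (by unfold ρa; positivity) _
  have n1 := ind_nn (dt (e i) (e' j) ∈ T)
  have n2 := ind_nn (dt (e i) (e' j) ∈ QN)
  have n3 := ind_nn (dt (e i) (e' j) ∈ QF)
  have hq := sq_nn (e := e) (e' := e') (R := R) (R' := R') i j
  have m1 := mul_nonneg n1 hq
  have m2 := mul_nonneg n2 hq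
  have m3 := mul_nonneg n3 hq
  have m4 : 0 ≤ 2 * ρa ^ k * (ind (dt (e i) (e' j) ∈ QF) * sq e e' R R' i j) := by positivity
  have hmin : min (R i / ((dt (e i) (e' j)).1 : ℝ)) (R' j / ((dt (e i) (e' j)).2 : ℝ)) ≤
      sq e e' R R' i j := by
    unfold AcG41.sq
    refine Real.le_sqrt_of_sq_le ?_
    rw [pow_two]
    exact mul_le_mul (min_le_left _ _) (min_le_right _ _) (le_min ha hb) ha
  rcases hR'.eq_or_lt with h0 | h0
  · have : min (R i / ((dt (e i) (e' j)).1 : ℝ)) (R' j / ((dt (e i) (e' j)).2 : ℝ)) ≤ 0 := by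
      refine (min_le_right _ _).trans ?_
      rw [← h0, zero_div]
    linarith
  rcases le_or_gt (R' j) (t ^ 2 * |Γ|) with hnf | hfat
  · rcases lt_or_ge (48 * (((dt (e i) (e' j)).1 : ℝ) * (dt (e i) (e' j)).2) * t ^ 2) 1 with hsm | hbg
    · rw [ind_t (hT h0 hnf hsm), one_mul]
      linarith
    · rw [ind_t (hN h0 hnf hbg), one_mul] at *
      linarith
  · have h4 := fat_ofp h hE hx hy hs0 hs h1 hfat
    have h5 : R i / ((dt (e i) (e' j)).1 : ℝ) ≤ 2 * √t * sq e e' R R' i j := by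
      set a := R i / ((dt (e i) (e' j)).1 : ℝ) with hadef
      set b := R' j / ((dt (e i) (e' j)).2 : ℝ) with hbdef
      have e1 : sq e e' R R' i j = √(a * b) := rfl
      rw [e1]
      refine le_of_sq_le_sq ?_ (by positivity)
      rw [mul_pow, mul_pow, Real.sq_sqrt hs0.le, Real.sq_sqrt (mul_nonneg ha hb)]
      nlinarith
    have h6 : 2 * √t * sq e e' R R' i j ≤ 2 * ρa ^ k * sq e e' R R' i j :=
      mul_le_mul_of_nonneg_right (mul_le_mul_of_nonneg_left hk (by norm_num)) hq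
    rw [ind_t hF, one_mul]
    have h7 := min_le_left (R i / ((dt (e i) (e' j)).1 : ℝ)) (R' j / ((dt (e i) (e' j)).2 : ℝ))
    linarith

/-- one class -/
lemma cls_sump {F : Finset ι} {G : Finset κ} {e : ι → ℕ} {e' : κ → ℕ} {R : ι → ℝ} {R' : κ → ℝ}
    (h : Fam F G e e' R R') {z : ℕ} (hz : 2 ≤ z) {E Γ N0 : ℝ} {k : ℕ} (hk : 8 ≤ k) (hE : E ≠ 0)
    (hN0 : 1 ≤ N0) (hc : (F.card : ℝ) ≤ N0 * (32 * (2:ℝ) ^ (5 * k)))
    (QN QF : Finset (ℕ × ℕ)) (hΓ : QN.Nonempty → Γ ≠ 0)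
    (hQN : ∀ t ∈ QN, t.1.Coprime t.2 ∧ Pin (Aw k) E Γ t.1 t.2 ∧ Aw k ≤ 12 * ((t.1 : ℝ) * t.2) ∧
      ∀ p : ℕ, p.Prime → p ∣ t.1 * t.2 → p ≤ z)
    (hQF : ∀ t ∈ QF, 0 < t.1 ∧ 0 < t.2 ∧ t.1.Coprime t.2 ∧
      ∀ p : ℕ, p.Prime → p ∣ t.1 * t.2 → p ≤ z) :
    ∑ i ∈ F, ∑ j ∈ G, (ind (dt (e i) (e' j) ∈ QN) * sq e e' R R' i j +
      2 * ρa ^ k * (ind (dt (e i) (e' j) ∈ QF) * sq e e' R R' i j)) ≤
      576 * N0 ^ ((1:ℝ)/16384) * X8 z * ρb ^ k * (√(∑ i ∈ F, R i) * √(∑ j ∈ G, R' j)) := by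
  set M := √(∑ i ∈ F, R i) * √(∑ j ∈ G, R' j) with hM
  have hM0 : 0 ≤ M := by positivity
  have hX := X8_one hz
  have hX0 : 0 ≤ X8 z := by linarith
  have hρ : 0 ≤ ρa ^ k := pow_nonneg (by unfold ρa; positivity) _
  have hA : 4 ≤ Aw k := by
    rw [Aw_eq]
    have h1 : (2:ℝ) ^ (4:ℝ) ≤ (2:ℝ) ^ (2 * (k:ℝ)/3) := by
      refine Real.rpow_le_rpow_of_exponent_le (by norm_num) ?_
      have : (8:ℝ) ≤ k := by exact_mod_cast hk
      linarith
    have h2 : (2:ℝ) ^ (4:ℝ) = 16 := by norm_num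
    linarith
  have c1 := cls_N8 h hz hA QN hE hΓ hQN
  have c2 := cls_F8 h hz QF hQF
  set cc := (F.card : ℝ) ^ ((1 : ℝ) / 16384) with hcc
  have hcc0 : 0 ≤ cc := by positivity
  have nc := num_cd k hN0 (Nat.cast_nonneg F.card) hc
  rw [← hcc] at nc
  have nN := num_Nb k hX
  have e1 : ∑ i ∈ F, ∑ j ∈ G, (ind (dt (e i) (e' j) ∈ QN) * sq e e' R R' i j +
      2 * ρa ^ k * (ind (dt (e i) (e' j) ∈ QF) * sq e e' R R' i j)) =
      ∑ i ∈ F, ∑ j ∈ G, ind (dt (e i) (e' j) ∈ QN) * sq e e' R R' i j +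
      2 * ρa ^ k * ∑ i ∈ F, ∑ j ∈ G, ind (dt (e i) (e' j) ∈ QF) * sq e e' R R' i j := by
    rw [Finset.mul_sum, ← Finset.sum_add_distrib]
    refine Finset.sum_congr rfl fun i _ => ?_
    rw [Finset.mul_sum, ← Finset.sum_add_distrib]
  rw [e1]
  have b1 : ∑ i ∈ F, ∑ j ∈ G, ind (dt (e i) (e' j) ∈ QN) * sq e e' R R' i j ≤
      14 * ρa ^ k * X8 z * cc * M :=
    c1.trans (mul_le_mul_of_nonneg_right (mul_le_mul_of_nonneg_right nN hcc0) hM0)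
  have b2 : 2 * ρa ^ k * ∑ i ∈ F, ∑ j ∈ G, ind (dt (e i) (e' j) ∈ QF) * sq e e' R R' i j ≤
      2 * ρa ^ k * (2 * X8 z * cc * M) := mul_le_mul_of_nonneg_left c2 (by positivity)
  have b3 : 18 * X8 z * M * (ρa ^ k * cc) ≤
      18 * X8 z * M * (32 * N0 ^ ((1:ℝ)/16384) * ρb ^ k) :=
    mul_le_mul_of_nonneg_left nc (by positivity)
  calc _ ≤ 14 * ρa ^ k * X8 z * cc * M + 2 * ρa ^ k * (2 * X8 z * cc * M) := add_le_add b1 b2
    _ = 18 * X8 z * M * (ρa ^ k * cc) := by ring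
    _ ≤ _ := b3
    _ = _ := by ring

/-- the constant of `acc_energy8` -/
noncomputable def C8 : ℝ := 1152 / (1 - ρb) * Real.exp (6 * K8)

lemma C8_nn : 0 ≤ C8 := by
  unfold C8
  have := ρb_lt
  have h1 : 0 < 1 - ρb := by linarith
  positivity

/-- **the energy of the accuracy events** -/
theorem acc_energy8 {F : Finset ι} {G : Finset κ} {e : ι → ℕ} {e' : κ → ℕ} {R : ι → ℝ}
    {R' : κ → ℝ} (h : Fam F G e e' R R') {z : ℕ} (hz : 2 ≤ z) {S : ι → κ → Prop}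
    (sm : ∀ i ∈ F, ∀ j ∈ G, S i j → ∀ p : ℕ, p.Prime →
      p ∣ (dt (e i) (e' j)).1 * (dt (e i) (e' j)).2 → p ≤ z)
    {E Γ U η N0 : ℝ} (hE : E ≠ 0) (hU : 1 ≤ U) (hη : 0 < η) (hη1 : η ≤ 1 / 1024) (hN0 : 1 ≤ N0)
    (hR : ∀ i ∈ F, 0 < R i ∧ R i ≤ η * |E|)
    (hcard : ∀ t : ℝ, 0 < t → (((F.filter (fun i => t * |E| < R i)).card : ℕ) : ℝ) ≤ N0 / t ^ 5)
    (hS : ∀ i ∈ F, ∀ j ∈ G, S i j → Rp e e' R R' E Γ U i j) :
    ∑ i ∈ F, ∑ j ∈ G, ind (S i j) *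
      min (R i / ((dt (e i) (e' j)).1 : ℝ)) (R' j / ((dt (e i) (e' j)).2 : ℝ)) ≤
      (4 / √U + C8 * N0 ^ ((1:ℝ)/16384) * Real.log z ^ K8 * η ^ (1 / 7 : ℝ)) *
        (√(∑ i ∈ F, R i) * √(∑ j ∈ G, R' j)) := by
  classical
  have hE0 : 0 < |E| := abs_pos.2 hE
  set M := √(∑ i ∈ F, R i) * √(∑ j ∈ G, R' j) with hM
  have hM0 : 0 ≤ M := by positivity
  have hn0 : 0 ≤ N0 ^ ((1:ℝ)/16384) := Real.rpow_nonneg (by linarith) _
  set s : ι → ℝ := fun i => (R i / |E|) ^ (1/3 : ℝ) with hs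
  -- the class of an item
  have hcl : ∀ i : ι, ∃ k : ℕ, i ∈ F → (2:ℝ) ^ k ≤ |E| / R i ∧ |E| / R i < 2 ^ (k + 1) := by
    intro i
    by_cases hi : i ∈ F
    · obtain ⟨r0, r1⟩ := hR i hi
      have h1 : 1 ≤ |E| / R i := by
        rw [le_div_iff₀ r0, one_mul]
        refine r1.trans ?_
        calc η * |E| ≤ 1 * |E| := mul_le_mul_of_nonneg_right (by linarith) hE0.le
          _ = |E| := one_mul _
      obtain ⟨k, hk⟩ := exists_nat_pow_near h1 (by norm_num : (1:ℝ) < 2)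
      exact ⟨k, fun _ => hk⟩
    · exact ⟨0, fun h => absurd h hi⟩
  choose idx hidx using hcl
  have f0 : ∀ i ∈ F, 0 < R i / |E| ∧ R i / |E| ≤ η ∧ R i / |E| ≤ (1/2:ℝ) ^ (idx i) ∧
      (1/2:ℝ) ^ (idx i + 1) < R i / |E| := by
    intro i hi
    obtain ⟨r0, r1⟩ := hR i hi
    obtain ⟨k1, k2⟩ := hidx i hi
    refine ⟨by positivity, by rwa [div_le_iff₀ hE0], ?_, ?_⟩
    · rw [div_le_iff₀ hE0]
      rw [le_div_iff₀ r0] at k1
      calc R i = (1/2:ℝ) ^ (idx i) * (2 ^ (idx i) * R i) := by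
            rw [← mul_assoc, ← mul_pow]; norm_num
        _ ≤ (1/2:ℝ) ^ (idx i) * |E| := mul_le_mul_of_nonneg_left k1 (by positivity)
    · rw [lt_div_iff₀ hE0]
      rw [div_lt_iff₀ r0] at k2
      calc (1/2:ℝ) ^ (idx i + 1) * |E| < (1/2:ℝ) ^ (idx i + 1) * (2 ^ (idx i + 1) * R i) :=
            mul_lt_mul_of_pos_left k2 (by positivity)
        _ = R i := by rw [← mul_assoc, ← mul_pow]; norm_num
  have hk10 : ∀ i ∈ F, 10 ≤ idx i := by
    intro i hi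
    by_contra hcon
    have h1 : idx i + 1 ≤ 10 := by omega
    obtain ⟨-, g2, -, g4⟩ := f0 i hi
    have h2 : (1/2:ℝ) ^ 10 ≤ (1/2:ℝ) ^ (idx i + 1) :=
      pow_le_pow_of_le_one (by norm_num) (by norm_num) h1
    have h3 : (1/2:ℝ) ^ 10 = 1 / 1024 := by norm_num
    linarith
  have s0 : ∀ i ∈ F, 0 < s i ∧ s i ≤ 1/8 ∧ R i = s i ^ 3 * |E| ∧ √(s i) ≤ ρa ^ (idx i) ∧
      4 * Aw (idx i) * s i ^ 2 ≤ 1 ∧ R i ≤ s i ^ 2 * |E| := by
    intro i hi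
    obtain ⟨g1, g2, g3, g4⟩ := f0 i hi
    have h1 : 0 < s i := Real.rpow_pos_of_pos g1 _
    have h2 : s i ^ 3 = R i / |E| := by
      show ((R i / |E|) ^ (1/3 : ℝ)) ^ 3 = _
      rw [← Real.rpow_natCast, ← Real.rpow_mul g1.le]
      norm_num
    have h3 : s i ≤ 1/8 := by
      by_contra hcon
      push Not at hcon
      have h5 : (1/8:ℝ) ^ 3 < s i ^ 3 := pow_lt_pow_left₀ hcon (by norm_num) (by norm_num)
      rw [h2] at h5
      norm_num at h5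
      linarith
    have h4 : R i = s i ^ 3 * |E| := by rw [h2]; field_simp
    refine ⟨h1, h3, h4, sixth _ g1.le g3, third_sq _ g1 g3, ?_⟩
    have h5 : s i ^ 3 ≤ s i ^ 2 := by nlinarith [sq_nonneg (s i)]
    calc R i = s i ^ 3 * |E| := h4
      _ ≤ s i ^ 2 * |E| := mul_le_mul_of_nonneg_right h5 hE0.le
  -- the sets of types
  set D : ι × κ → ℕ × ℕ := fun q => dt (e q.1) (e' q.2) with hD
  set T : Finset (ℕ × ℕ) := ((F ×ˢ G).filter (fun q => S q.1 q.2 ∧ 0 < R' q.2 ∧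
    R' q.2 ≤ s q.1 ^ 2 * |Γ| ∧ 48 * (((D q).1 : ℝ) * (D q).2) * s q.1 ^ 2 < 1)).image D with hT
  set QN : ℕ → Finset (ℕ × ℕ) := fun k => (((F.filter (fun i => idx i = k)) ×ˢ G).filter
    (fun q => S q.1 q.2 ∧ 0 < R' q.2 ∧
    R' q.2 ≤ s q.1 ^ 2 * |Γ| ∧ 1 ≤ 48 * (((D q).1 : ℝ) * (D q).2) * s q.1 ^ 2)).image D with hQN
  set QF : ℕ → Finset (ℕ × ℕ) := fun k => (((F.filter (fun i => idx i = k)) ×ˢ G).filter
    (fun q => S q.1 q.2)).image D with hQF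
  have hsp : ∀ i ∈ F, ∀ j ∈ G, S i j → 0 < (D (i, j)).1 ∧ 0 < (D (i, j)).2 ∧
      (D (i, j)).1.Coprime (D (i, j)).2 ∧
      ∀ p : ℕ, p.Prime → p ∣ (D (i, j)).1 * (D (i, j)).2 → p ≤ z := by
    intro i hi j hj hij
    obtain ⟨d1, d2, d3, -⟩ := dt_spec (h.pF i hi) (h.pG j hj)
    exact ⟨d1, d2, d3, sm i hi j hj hij⟩
  -- pointwise
  have hpt : ∀ i ∈ F, ∀ j ∈ G, ind (S i j) *
      min (R i / ((dt (e i) (e' j)).1 : ℝ)) (R' j / ((dt (e i) (e' j)).2 : ℝ)) ≤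
      ind (dt (e i) (e' j) ∈ T) * sq e e' R R' i j +
        (ind (dt (e i) (e' j) ∈ QN (idx i)) * sq e e' R R' i j +
          2 * ρa ^ (idx i) * (ind (dt (e i) (e' j) ∈ QF (idx i)) * sq e e' R R' i j)) := by
    intro i hi j hj
    obtain ⟨a1, a2, a3, a4, a5, a6⟩ := s0 i hi
    by_cases hij : S i j
    · obtain ⟨d1, d2, d3, d4⟩ := hsp i hi j hj hij
      rw [ind_t hij, one_mul]
      have hmem : (i, j) ∈ (F.filter (fun i' => idx i' = idx i)) ×ˢ G :=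
        Finset.mem_product.2 ⟨Finset.mem_filter.2 ⟨hi, rfl⟩, hj⟩
      exact pair_lep (hS i hi j hj hij) hE0 d1 d2 a1 (by linarith) a3 (h.rG j hj) a4 T (QN (idx i))
        (QF (idx i))
        (fun b1 b2 b3 => Finset.mem_image.2 ⟨(i, j), Finset.mem_filter.2
          ⟨Finset.mem_product.2 ⟨hi, hj⟩, hij, b1, b2, b3⟩, rfl⟩)
        (fun b1 b2 b3 => Finset.mem_image.2 ⟨(i, j), Finset.mem_filter.2
          ⟨hmem, hij, b1, b2, b3⟩, rfl⟩)
        (Finset.mem_image.2 ⟨(i, j), Finset.mem_filter.2 ⟨hmem, hij⟩, rfl⟩)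
    · rw [ind_f hij, zero_mul]
      have hq := sq_nn (e := e) (e' := e') (R := R) (R' := R') i j
      have hρ : 0 ≤ ρa ^ (idx i) := pow_nonneg (by unfold ρa; positivity) _
      have n1 := ind_nn (dt (e i) (e' j) ∈ T)
      have n2 := ind_nn (dt (e i) (e' j) ∈ QN (idx i))
      have n3 := ind_nn (dt (e i) (e' j) ∈ QF (idx i))
      positivity
  refine (Finset.sum_le_sum fun i hi => Finset.sum_le_sum fun j hj => hpt i hi j hj).trans ?_
  simp only [Finset.sum_add_distrib]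
  rw [add_mul]
  refine add_le_add ?_ ?_
  · -- small types
    refine geo_types h hU T (fun t ht => ?_) (fun t ht t' ht' hne => ?_)
    · obtain ⟨⟨i, j⟩, hq, rfl⟩ := Finset.mem_image.1 ht
      obtain ⟨hq1, hq2, -, hq4, -⟩ := Finset.mem_filter.1 hq
      obtain ⟨hi, hj⟩ := Finset.mem_product.1 hq1
      obtain ⟨d1, d2, -, -⟩ := hsp i hi j hj hq2
      refine ⟨d1, d2, ?_⟩
      have hb := (hS i hi j hj hq2).big hq4
      refine lt_of_lt_of_le hb ?_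
      have : max (D (i, j)).1 (D (i, j)).2 ≤ (D (i, j)).1 * (D (i, j)).2 :=
        max_le (Nat.le_mul_of_pos_right _ d2) (Nat.le_mul_of_pos_left _ d1)
      exact_mod_cast this
    · obtain ⟨⟨i, j⟩, hq, rfl⟩ := Finset.mem_image.1 ht
      obtain ⟨⟨i', j'⟩, hq', rfl⟩ := Finset.mem_image.1 ht'
      obtain ⟨hq1, hq2, hq3, hq4, hq5⟩ := Finset.mem_filter.1 hq
      obtain ⟨hq1', hq2', hq3', hq4', hq5'⟩ := Finset.mem_filter.1 hq'
      obtain ⟨hi, hj⟩ := Finset.mem_product.1 hq1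
      obtain ⟨hi', hj'⟩ := Finset.mem_product.1 hq1'
      simp only at hi hj hi' hj' hq2 hq3 hq4 hq5 hq2' hq3' hq4' hq5'
      obtain ⟨d1, d2, d3, -⟩ := hsp i hi j hj hq2
      obtain ⟨d1', d2', d3', -⟩ := hsp i' hi' j' hj' hq2'
      obtain ⟨a1, a2, a3, a4, a5, a6⟩ := s0 i hi
      obtain ⟨a1', a2', a3', a4', a5', a6'⟩ := s0 i' hi'
      have p1 := pin_ofp (hS i hi j hj hq2) a6 hq4
      have p1' := pin_ofp (hS i' hi' j' hj' hq2') a6' hq4'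
      have hΓ : Γ ≠ 0 := by
        rintro rfl
        rw [abs_zero, mul_zero] at hq4
        linarith
      -- core: the pair with the larger `s` forces the other product to be large
      have core : ∀ (x y x' y' : ℕ) (σ σ' : ℝ), 0 < x → 0 < y → 0 < x' → 0 < y' →
          x.Coprime y → x'.Coprime y' → (x, y) ≠ (x', y') → 0 < σ → σ ≤ 1/32 → 0 < σ' → σ' ≤ σ →
          |(y : ℝ) * E - x * Γ| ≤ σ * ((y : ℝ) * |E| + x * |Γ|) →
          |(y' : ℝ) * E - x' * Γ| ≤ σ' * ((y' : ℝ) * |E| + x' * |Γ|) →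
          48 * ((x : ℝ) * y) * σ < 1 → 4 * (x * y) < x' * y' := by
        intro x y x' y' σ σ' hx hy hx' hy' hc hc' hne' hσ hσ1 hσ' hle hp hp' hsm
        have hA4 : (4:ℝ) ≤ σ⁻¹ := by
          rw [le_inv_comm₀ (by norm_num) hσ]
          refine hσ1.trans (by norm_num)
        have P1 : Pin σ⁻¹ E Γ x y := by
          refine ⟨hx, hy, ?_⟩
          rw [div_inv_eq_mul, mul_comm _ σ]
          exact hp
        have P2 : Pin σ⁻¹ E Γ x' y' := by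
          refine ⟨hx', hy', ?_⟩
          rw [div_inv_eq_mul, mul_comm _ σ]
          exact hp'.trans (mul_le_mul_of_nonneg_right hle (by positivity))
        have hxr : (0:ℝ) < x := by exact_mod_cast hx
        have hyr : (0:ℝ) < y := by exact_mod_cast hy
        have hs1 : 48 * ((x:ℝ) * y) < σ⁻¹ := by
          rw [lt_inv_comm₀ (by positivity) hσ, ← one_div, lt_div_iff₀ (by positivity)]
          linarith
        by_contra hcon
        push Not at hcon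
        have h5 : ((x' * y' : ℕ) : ℝ) ≤ ((4 * (x * y) : ℕ) : ℝ) := by exact_mod_cast hcon
        push_cast at h5
        have hs2 : 12 * ((x':ℝ) * y') < σ⁻¹ := by linarith
        have hs3 : 12 * ((x:ℝ) * y) < σ⁻¹ := by
          have : 0 < (x:ℝ) * y := by positivity
          linarith
        obtain ⟨g1, g2⟩ := pin_unique hA4 hE hΓ P1 P2 hc hc' hs3 hs2
        exact hne' (Prod.ext g1 g2)
      have hs32 : ∀ i ∈ F, s i ^ 2 ≤ 1/32 := by
        intro i hi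
        obtain ⟨b1, b2, -⟩ := s0 i hi
        nlinarith
      rcases le_total (s i') (s i) with hle | hle
      · left
        exact core _ _ _ _ (s i ^ 2) (s i' ^ 2) d1 d2 d1' d2' d3 d3' hne (by positivity)
          (hs32 i hi) (by positivity) (pow_le_pow_left₀ a1'.le hle 2) p1 p1' hq5
      · right
        exact core _ _ _ _ (s i' ^ 2) (s i ^ 2) d1' d2' d1 d2 d3' d3 (Ne.symm hne) (by positivity)
          (hs32 i' hi') (by positivity) (pow_le_pow_left₀ a1.le hle 2) p1' p1 hq5'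
  · -- the classes
    rw [← Finset.sum_add_distrib]
    have e0 : ∀ i ∈ F, (∑ j ∈ G, ind (dt (e i) (e' j) ∈ QN (idx i)) * sq e e' R R' i j +
        ∑ j ∈ G, 2 * ρa ^ (idx i) * (ind (dt (e i) (e' j) ∈ QF (idx i)) * sq e e' R R' i j)) =
        ∑ j ∈ G, (ind (dt (e i) (e' j) ∈ QN (idx i)) * sq e e' R R' i j +
          2 * ρa ^ (idx i) * (ind (dt (e i) (e' j) ∈ QF (idx i)) * sq e e' R R' i j)) :=
      fun i _ => Finset.sum_add_distrib.symm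
    rw [Finset.sum_congr rfl e0, ← Finset.sum_fiberwise_of_maps_to (s := F) (t := F.image idx)
      (g := idx) (fun i hi => Finset.mem_image_of_mem _ hi)]
    have step : ∀ k ∈ F.image idx, ∑ i ∈ F.filter (fun i => idx i = k),
        ∑ j ∈ G, (ind (dt (e i) (e' j) ∈ QN (idx i)) * sq e e' R R' i j +
          2 * ρa ^ (idx i) * (ind (dt (e i) (e' j) ∈ QF (idx i)) * sq e e' R R' i j)) ≤
        576 * N0 ^ ((1:ℝ)/16384) * X8 z * ρb ^ k * M := by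
      intro k hk
      obtain ⟨i0, hi0, hik⟩ := Finset.mem_image.1 hk
      have hk8 : 8 ≤ k := by
        have := hk10 i0 hi0
        omega
      have e1 : ∑ i ∈ F.filter (fun i => idx i = k),
        ∑ j ∈ G, (ind (dt (e i) (e' j) ∈ QN (idx i)) * sq e e' R R' i j +
          2 * ρa ^ (idx i) * (ind (dt (e i) (e' j) ∈ QF (idx i)) * sq e e' R R' i j)) =
          ∑ i ∈ F.filter (fun i => idx i = k),
        ∑ j ∈ G, (ind (dt (e i) (e' j) ∈ QN k) * sq e e' R R' i j +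
          2 * ρa ^ k * (ind (dt (e i) (e' j) ∈ QF k) * sq e e' R R' i j)) := by
        refine Finset.sum_congr rfl fun i hi => ?_
        rw [(Finset.mem_filter.1 hi).2]
      rw [e1]
      have hsub : F.filter (fun i => idx i = k) ⊆ F := Finset.filter_subset _ _
      have hcls := cls_sump (h.sub hsub) hz (E := E) (Γ := Γ) (N0 := N0) hk8 hE hN0 ?_ (QN k) (QF k)
        ?_ ?_ ?_
      · refine hcls.trans ?_
        have hX0 : 0 ≤ X8 z := by have := X8_one hz; linarith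
        have hr0 : 0 ≤ ρb ^ k := pow_nonneg ρb_pos.le _
        refine mul_le_mul_of_nonneg_left ?_ (by positivity)
        refine mul_le_mul_of_nonneg_right ?_ (Real.sqrt_nonneg _)
        refine Real.sqrt_le_sqrt ?_
        exact Finset.sum_le_sum_of_subset_of_nonneg hsub fun i hi _ => h.rF i hi
      · -- the count
        have h1 := hcard ((1/2:ℝ) ^ (k + 1)) (by positivity)
        have h2 : F.filter (fun i => idx i = k) ⊆ F.filter (fun i => (1/2:ℝ) ^ (k + 1) * |E| < R i) := by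
          intro i hi
          obtain ⟨hi1, hi2⟩ := Finset.mem_filter.1 hi
          refine Finset.mem_filter.2 ⟨hi1, ?_⟩
          have := (f0 i hi1).2.2.2
          rw [hi2] at this
          rwa [lt_div_iff₀ hE0] at this
        have h3 : ((F.filter (fun i => idx i = k)).card : ℝ) ≤
            ((F.filter (fun i => (1/2:ℝ) ^ (k + 1) * |E| < R i)).card : ℝ) := by
          exact_mod_cast Finset.card_le_card h2
        refine (h3.trans h1).trans (le_of_eq ?_)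
        rw [← pow_mul, one_div_pow, div_div_eq_mul_div, div_one]
        congr 1
        rw [show (k + 1) * 5 = 5 + 5 * k by ring, pow_add]
        norm_num
      · rintro ⟨t, ht⟩ rfl
        obtain ⟨⟨i, j⟩, hq, -⟩ := Finset.mem_image.1 ht
        obtain ⟨-, -, hq3, hq4, -⟩ := Finset.mem_filter.1 hq
        rw [abs_zero, mul_zero] at hq4
        linarith
      · intro t ht
        obtain ⟨⟨i, j⟩, hq, rfl⟩ := Finset.mem_image.1 ht
        obtain ⟨hq1, hq2, hq3, hq4, hq5⟩ := Finset.mem_filter.1 hq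
        obtain ⟨hi1, hj⟩ := Finset.mem_product.1 hq1
        obtain ⟨hi, hik'⟩ := Finset.mem_filter.1 hi1
        simp only at hi hj hq2 hq3 hq4 hq5 hik'
        obtain ⟨d1, d2, d3, d4⟩ := hsp i hi j hj hq2
        obtain ⟨a1, a2, a3, a4, a5, a6⟩ := s0 i hi
        rw [hik'] at a5
        have p1 := pin_ofp (hS i hi j hj hq2) a6 hq4
        have hAk : 0 < Aw k := by
          rw [Aw_eq]; positivity
        have hsA : s i ^ 2 ≤ 1 / Aw k := by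
          rw [le_div_iff₀ hAk]
          have : 0 ≤ s i ^ 2 * Aw k := by positivity
          nlinarith
        refine ⟨d3, ⟨d1, d2, ?_⟩, ?_, d4⟩
        · rw [div_eq_mul_one_div, mul_comm _ (1 / Aw k)]
          exact p1.trans (mul_le_mul_of_nonneg_right hsA (by positivity))
        · have hxy : (0:ℝ) < ((D (i, j)).1 : ℝ) * (D (i, j)).2 := by
            have : (0:ℝ) < ((D (i, j)).1 : ℝ) := by exact_mod_cast d1
            have : (0:ℝ) < ((D (i, j)).2 : ℝ) := by exact_mod_cast d2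
            positivity
          have h6 : Aw k ≤ (48 * (((D (i, j)).1 : ℝ) * (D (i, j)).2) * s i ^ 2) * Aw k :=
            le_mul_of_one_le_left hAk.le hq5
          have h7 : (48 * (((D (i, j)).1 : ℝ) * (D (i, j)).2) * s i ^ 2) * Aw k =
              12 * (((D (i, j)).1 : ℝ) * (D (i, j)).2) * (4 * Aw k * s i ^ 2) := by ring
          rw [h7] at h6
          exact h6.trans (mul_le_of_le_one_right (by positivity) a5)
      · intro t ht
        obtain ⟨⟨i, j⟩, hq, rfl⟩ := Finset.mem_image.1 ht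
        obtain ⟨hq1, hq2⟩ := Finset.mem_filter.1 hq
        obtain ⟨hi1, hj⟩ := Finset.mem_product.1 hq1
        exact hsp i (Finset.mem_filter.1 hi1).1 j hj hq2
    refine (Finset.sum_le_sum step).trans ?_
    rw [← Finset.sum_mul, ← Finset.mul_sum]
    refine mul_le_mul_of_nonneg_right ?_ hM0
    have hX0 : 0 ≤ X8 z := by have := X8_one hz; linarith
    have hr1 : 0 < 1 - ρb := by have := ρb_lt; linarith
    have hg := geo_le ρb_pos.le ρb_lt (b := 2 * η ^ (1/7 : ℝ)) (by positivity) (F.image idx) (by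
      intro k hk
      obtain ⟨i, hi, rfl⟩ := Finset.mem_image.1 hk
      obtain ⟨g1, g2, g3, g4⟩ := f0 i hi
      rw [ρb_pow]
      have h1 : (1/2:ℝ) ^ (idx i) ≤ 2 * η := by
        rw [pow_succ] at g4
        linarith
      have e1 : (1/2:ℝ) ^ (idx i) = (2:ℝ) ^ (-(idx i : ℝ)) := by
        rw [Real.rpow_neg (by norm_num), Real.rpow_natCast, one_div, inv_pow]
      rw [e1] at h1
      have h2 := Real.rpow_le_rpow (by positivity) h1 (show (0:ℝ) ≤ 1/7 by norm_num)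
      rw [← Real.rpow_mul (by norm_num), Real.mul_rpow (by norm_num) hη.le] at h2
      have e2 : -(idx i : ℝ) * (1/7) = -((idx i : ℝ) / 7) := by ring
      rw [e2] at h2
      refine h2.trans (mul_le_mul_of_nonneg_right ?_ (by positivity))
      calc (2:ℝ) ^ (1/7 : ℝ) ≤ (2:ℝ) ^ (1:ℝ) :=
            Real.rpow_le_rpow_of_exponent_le (by norm_num) (by norm_num)
        _ = 2 := Real.rpow_one _)
    refine (mul_le_mul_of_nonneg_left hg (by positivity)).trans (le_of_eq ?_)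
    rw [X8_le hz]
    unfold C8
    field_simp
    ring

end main

end Crest.Agent.R4P.AcH41
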