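import Crest.Agent.R4P.AcH_41

/-!
R4 (S0004), powers pass, helper41: **the energy of accuracy events against all the pieces which are not
comparable** (one cofactor `> K` or radius ratio `> K`), number level (over `AcH_41.acc_energy8`).

* **`acc_all`** : `∑ min (R i / D) (R' j / D') ≤ (14 K^(-1/4) + 3 C8 (N0 K^(5/2))^(1/16384) (log z)^K8
  (√K η)^(1/7)) √(∑ R) √(∑ R')`.
-/

set_option autoImplicit false

open Finset

namespace Crest.Agent.R4P.AcI41

open Crest.Agent.R4P.GcdK37 Crest.Agent.R4P.AcG41 Crest.Agent.R4P.AcH41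

variable {ι κ : Type}

/-- the gain -/
noncomputable def gI (z : ℕ) (K η N0 : ℝ) : ℝ :=
  14 * K ^ (-(1/4) : ℝ) + 3 * (C8 * (N0 * √K ^ 5) ^ ((1:ℝ)/16384) * Real.log z ^ K8 *
    (√K * η) ^ (1 / 7 : ℝ))

lemma dt_pos {m n : ℕ} (hm : 0 < m) (hn : 0 < n) :
    (0:ℝ) < ((dt m n).1 : ℝ) ∧ (0:ℝ) < ((dt m n).2 : ℝ) := by
  obtain ⟨d1, d2, -, -⟩ := dt_spec hm hn
  exact ⟨by exact_mod_cast d1, by exact_mod_cast d2⟩

lemma half_K {K a b : ℝ} (hK : 0 < K) (hb : 0 ≤ b) (h : K * b ≤ a) :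
    b ≤ 1 / √K * (√a * √b) := by
  have hs : 0 < √K := Real.sqrt_pos.2 hK
  have h4 : √(K * b) ≤ √a := Real.sqrt_le_sqrt h
  rw [Real.sqrt_mul hK.le] at h4
  have h5 : √K * √b * √b ≤ √a * √b := mul_le_mul_of_nonneg_right h4 (Real.sqrt_nonneg _)
  have h6 : √b * √b = b := Real.mul_self_sqrt hb
  rw [mul_assoc, h6] at h5
  rw [one_div, ← div_eq_inv_mul, le_div_iff₀ hs]
  linarith

/-- type `(1, 1)` with a large ratio of the radii -/
lemma one_K {F : Finset ι} {G : Finset κ} {e : ι → ℕ} {e' : κ → ℕ} {R : ι → ℝ} {R' : κ → ℝ}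
    (h : Fam F G e e' R R') {K : ℝ} (hK : 1 ≤ K) {S : ι → κ → Prop}
    (hS : ∀ i ∈ F, ∀ j ∈ G, S i j → dt (e i) (e' j) = (1, 1) ∧
      (K * R' j ≤ R i ∨ K * R i ≤ R' j)) :
    ∑ i ∈ F, ∑ j ∈ G, ind (S i j) *
      min (R i / ((dt (e i) (e' j)).1 : ℝ)) (R' j / ((dt (e i) (e' j)).2 : ℝ)) ≤
      1 / √K * (√(∑ i ∈ F, R i) * √(∑ j ∈ G, R' j)) := by
  have hK0 : 0 < K := by linarith
  have hsK : 0 < √K := Real.sqrt_pos.2 hK0
  have h1 := one_type h (1, 1) ⟨one_pos, one_pos⟩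
  refine le_trans ?_ (mul_le_mul_of_nonneg_left h1 (by positivity))
  rw [Finset.mul_sum]
  refine Finset.sum_le_sum fun i hi => ?_
  rw [Finset.mul_sum]
  refine Finset.sum_le_sum fun j hj => ?_
  by_cases hs : S i j
  · obtain ⟨h2, h3⟩ := hS i hi j hj hs
    have r0 := h.rF i hi
    have r0' := h.rG j hj
    rw [ind_t hs, one_mul, ind_t h2, one_mul, h2]
    simp only [Nat.cast_one, div_one]
    rcases h3 with h3 | h3
    · exact (min_le_right _ _).trans (half_K hK0 r0' h3)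
    · refine (min_le_left _ _).trans ?_
      rw [mul_comm (√(R i))]
      exact half_K hK0 r0 h3
  · rw [ind_f hs, zero_mul]
    have := ind_nn (dt (e i) (e' j) = (1, 1))
    positivity

/-- two indicators -/
lemma ind5 {a A B C D E : Prop} (h : a → A ∨ B ∨ C ∨ D ∨ E) {m : ℝ} (hm : 0 ≤ m) :
    ind a * m ≤ ind A * m + (ind B * m + (ind C * m + (ind D * m + ind E * m))) := by
  have n1 := mul_nonneg (ind_nn A) hm
  have n2 := mul_nonneg (ind_nn B) hm
  have n3 := mul_nonneg (ind_nn C) hm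
  have n4 := mul_nonneg (ind_nn D) hm
  have n5 := mul_nonneg (ind_nn E) hm
  by_cases ha : a
  · rw [ind_t ha, one_mul]
    rcases h ha with h | h | h | h | h
    · rw [ind_t h] at *; linarith
    · rw [ind_t h] at *; linarith
    · rw [ind_t h] at *; linarith
    · rw [ind_t h] at *; linarith
    · rw [ind_t h] at *; linarith
  · rw [ind_f ha, zero_mul]
    linarith

/-- related pairs which are not comparable -/
structure Rq (e : ι → ℕ) (e' : κ → ℕ) (R : ι → ℝ) (R' : κ → ℝ) (E Γ K : ℝ) (i : ι) (j : κ) :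
    Prop where
  pt : ∃ z z' : ℝ, |z| ≤ R i ∧ |z'| ≤ R' j ∧
    ((dt (e i) (e' j)).2 : ℝ) * (E + z) = (dt (e i) (e' j)).1 * (Γ + z')
  big : K < ((max (dt (e i) (e' j)).1 (dt (e i) (e' j)).2 : ℕ) : ℝ) ∨ K * R' j ≤ R i ∨
    K * R i ≤ R' j

/-- **accuracy events against the pieces which are not comparable** -/
theorem acc_all {F : Finset ι} {G : Finset κ} {e : ι → ℕ} {e' : κ → ℕ} {R : ι → ℝ}
    {R' : κ → ℝ} (h : Fam F G e e' R R') {z : ℕ} (hz : 2 ≤ z) {S : ι → κ → Prop}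
    (sm : ∀ i ∈ F, ∀ j ∈ G, S i j → ∀ p : ℕ, p.Prime →
      p ∣ (dt (e i) (e' j)).1 * (dt (e i) (e' j)).2 → p ≤ z)
    {E Γ K η N0 : ℝ} (hE : E ≠ 0) (hK : 1 ≤ K) (hη : 0 < η) (hη1 : √K * η ≤ 1 / 1024)
    (hN0 : 1 ≤ N0) (hR : ∀ i ∈ F, 0 < R i ∧ R i ≤ η * |E|)
    (hcard : ∀ t : ℝ, 0 < t → (((F.filter (fun i => t * |E| < R i)).card : ℕ) : ℝ) ≤ N0 / t ^ 5)
    (hS : ∀ i ∈ F, ∀ j ∈ G, S i j → Rq e e' R R' E Γ K i j) :
    ∑ i ∈ F, ∑ j ∈ G, ind (S i j) *
      min (R i / ((dt (e i) (e' j)).1 : ℝ)) (R' j / ((dt (e i) (e' j)).2 : ℝ)) ≤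
      gI z K η N0 * (√(∑ i ∈ F, R i) * √(∑ j ∈ G, R' j)) := by
  classical
  have hK0 : 0 < K := by linarith
  have hs1 : 1 ≤ √K := Real.one_le_sqrt.2 hK
  have hs0 : 0 < √K := by linarith
  have hss : √K * √K = K := Real.mul_self_sqrt hK0.le
  have hE0 : 0 < |E| := abs_pos.2 hE
  have hη2 : η ≤ 1 / 1024 := by nlinarith
  set M := √(∑ i ∈ F, R i) * √(∑ j ∈ G, R' j) with hM
  have hM0 : 0 ≤ M := by positivity
  set mn : ι → κ → ℝ := fun i j =>
    min (R i / ((dt (e i) (e' j)).1 : ℝ)) (R' j / ((dt (e i) (e' j)).2 : ℝ)) with hmn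
  have hmn0 : ∀ i ∈ F, ∀ j ∈ G, 0 ≤ mn i j := fun i hi j hj =>
    le_min (div_nonneg (h.rF i hi) (Nat.cast_nonneg _)) (div_nonneg (h.rG j hj) (Nat.cast_nonneg _))
  set bg : ι → κ → Prop := fun i j => √K < ((max (dt (e i) (e' j)).1 (dt (e i) (e' j)).2 : ℕ) : ℝ)
    with hbg
  set S1 : ι → κ → Prop := fun i j => S i j ∧ bg i j with hS1
  set S2 : ι → κ → Prop := fun i j => S i j ∧ ¬ bg i j ∧ dt (e i) (e' j) ≠ (1, 1) ∧
    K * R' j ≤ R i with hS2
  set S3 : ι → κ → Prop := fun i j => S i j ∧ ¬ bg i j ∧ dt (e i) (e' j) ≠ (1, 1) ∧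
    K * R i ≤ R' j with hS3
  set S4 : ι → κ → Prop := fun i j => dt (e i) (e' j) = (1, 1) ∧ K * R' j ≤ R i with hS4
  set S5 : ι → κ → Prop := fun i j => dt (e i) (e' j) = (1, 1) ∧ K * R i ≤ R' j with hS5
  have hlz : 0 ≤ Real.log (z : ℝ) ^ K8 := Real.rpow_nonneg (Real.log_natCast_nonneg z) _
  -- the constants
  set c0 : ℝ := C8 * N0 ^ ((1:ℝ)/16384) * Real.log z ^ K8 * η ^ (1 / 7 : ℝ) with hc0
  set c1 : ℝ := C8 * (N0 * √K ^ 5) ^ ((1:ℝ)/16384) * Real.log z ^ K8 *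
    (√K * η) ^ (1 / 7 : ℝ) with hc1
  have hC8 := C8_nn
  have c00 : 0 ≤ c0 := by positivity
  have c10 : 0 ≤ c1 := by positivity
  have p5 : 1 ≤ √K ^ 5 := one_le_pow₀ hs1
  have c01 : c0 ≤ c1 := by
    have a1 : N0 ^ ((1:ℝ)/16384) ≤ (N0 * √K ^ 5) ^ ((1:ℝ)/16384) :=
      Real.rpow_le_rpow (by linarith) (le_mul_of_one_le_right (by linarith) p5) (by norm_num)
    have a2 : η ^ (1 / 7 : ℝ) ≤ (√K * η) ^ (1 / 7 : ℝ) :=
      Real.rpow_le_rpow hη.le (le_mul_of_one_le_left hη.le hs1) (by norm_num)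
    rw [hc0, hc1]
    have b1 : 0 ≤ N0 ^ ((1:ℝ)/16384) := Real.rpow_nonneg (by linarith) _
    have b2 : 0 ≤ (N0 * √K ^ 5) ^ ((1:ℝ)/16384) := b1.trans a1
    gcongr
  -- the parts
  have hdt1 : ∀ i ∈ F, ∀ j ∈ G, dt (e i) (e' j) ≠ (1, 1) →
      (1:ℝ) < ((max (dt (e i) (e' j)).1 (dt (e i) (e' j)).2 : ℕ) : ℝ) := by
    intro i hi j hj hne
    obtain ⟨d1, d2, -, -⟩ := dt_spec (h.pF i hi) (h.pG j hj)
    have : 1 < max (dt (e i) (e' j)).1 (dt (e i) (e' j)).2 := by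
      by_contra hc
      push Not at hc
      have h1 := (le_max_left _ _).trans hc
      have h2 := (le_max_right _ _).trans hc
      exact hne (Prod.ext (le_antisymm h1 d1) (le_antisymm h2 d2))
    exact_mod_cast this
  have hsplit : ∀ i ∈ F, ∀ j ∈ G, ind (S i j) * mn i j ≤ ind (S1 i j) * mn i j +
      (ind (S2 i j) * mn i j + (ind (S3 i j) * mn i j + (ind (S4 i j) * mn i j +
        ind (S5 i j) * mn i j))) := by
    intro i hi j hj
    refine ind5 (fun hs => ?_) (hmn0 i hi j hj)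
    by_cases hb : bg i j
    · exact Or.inl ⟨hs, hb⟩
    · rcases (hS i hi j hj hs).big with h1 | h1 | h1
      · exact absurd (lt_of_le_of_lt (by nlinarith : √K ≤ K) h1) hb
      · by_cases hd : dt (e i) (e' j) = (1, 1)
        · exact Or.inr (Or.inr (Or.inr (Or.inl ⟨hd, h1⟩)))
        · exact Or.inr (Or.inl ⟨hs, hb, hd, h1⟩)
      · by_cases hd : dt (e i) (e' j) = (1, 1)
        · exact Or.inr (Or.inr (Or.inr (Or.inr ⟨hd, h1⟩)))
        · exact Or.inr (Or.inr (Or.inl ⟨hs, hb, hd, h1⟩))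
  -- `S1`
  have e1 : ∑ i ∈ F, ∑ j ∈ G, ind (S1 i j) * mn i j ≤ (4 / √(√K) + c0) * M :=
    acc_energy8 h hz (S := S1) (fun i hi j hj hs => sm i hi j hj hs.1) (E := E) (Γ := Γ) (U := √K)
      (η := η) (N0 := N0) hE hs1 hη hη2 hN0 hR hcard
      (fun i hi j hj hs => ⟨(hS i hi j hj hs.1).pt, fun _ => hs.2⟩)
  -- small cofactors
  have hsm : ∀ {i : ι} {j : κ}, ¬ bg i j → ((dt (e i) (e' j)).1 : ℝ) ≤ √K ∧
      ((dt (e i) (e' j)).2 : ℝ) ≤ √K := by
    intro i j hb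
    have h1 : ((max (dt (e i) (e' j)).1 (dt (e i) (e' j)).2 : ℕ) : ℝ) ≤ √K := not_lt.1 hb
    rw [Nat.cast_max] at h1
    exact ⟨(le_max_left _ _).trans h1, (le_max_right _ _).trans h1⟩
  have hsq : √(√K) * √(√K) = √K := Real.mul_self_sqrt hs0.le
  have hsq0 : 0 < √(√K) := Real.sqrt_pos.2 hs0
  -- `S2`
  have e2 : ∑ i ∈ F, ∑ j ∈ G, ind (S2 i j) * mn i j ≤ 1 / √(√K) * (4 + c0) * M := by
    have hfam : Fam F G e e' R (fun j => √K * R' j) :=
      ⟨h.pF, h.pG, h.iF, h.iG, h.rF, fun j hj => mul_nonneg hs0.le (h.rG j hj)⟩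
    have key := acc_energy8 hfam hz (S := S2) (fun i hi j hj hs => sm i hi j hj hs.1) (E := E)
      (Γ := Γ) (U := 1) (η := η) (N0 := N0) hE le_rfl hη hη2 hN0 hR hcard
      (fun i hi j hj hs => by
        obtain ⟨z1, z2, a1, a2, a3⟩ := (hS i hi j hj hs.1).pt
        refine ⟨⟨z1, z2, a1, a2.trans ?_, a3⟩, fun _ => hdt1 i hi j hj hs.2.2.1⟩
        exact le_mul_of_one_le_left (h.rG j hj) hs1)
    rw [Real.sqrt_one, div_one, ← Finset.mul_sum, Real.sqrt_mul hs0.le] at key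
    have h2 : ∑ i ∈ F, ∑ j ∈ G, ind (S2 i j) * mn i j ≤ 1 / √K * ∑ i ∈ F, ∑ j ∈ G,
        ind (S2 i j) * min (R i / ((dt (e i) (e' j)).1 : ℝ))
          (√K * R' j / ((dt (e i) (e' j)).2 : ℝ)) := by
      rw [Finset.mul_sum]
      refine Finset.sum_le_sum fun i hi => ?_
      rw [Finset.mul_sum]
      refine Finset.sum_le_sum fun j hj => ?_
      by_cases hs : S2 i j
      · rw [ind_t hs, one_mul, one_mul]
        obtain ⟨g1, g2⟩ := hsm hs.2.1
        obtain ⟨d1, d2⟩ := dt_pos (h.pF i hi) (h.pG j hj)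
        obtain ⟨n1, n2, -, -⟩ := dt_spec (h.pF i hi) (h.pG j hj)
        have n2' : (1:ℝ) ≤ ((dt (e i) (e' j)).2 : ℝ) := by exact_mod_cast n2
        have r0 := h.rF i hi
        have r0' := h.rG j hj
        have hle : √K * R' j / ((dt (e i) (e' j)).2 : ℝ) ≤ R i / ((dt (e i) (e' j)).1 : ℝ) := by
          rw [div_le_div_iff₀ d2 d1]
          calc √K * R' j * ((dt (e i) (e' j)).1 : ℝ) ≤ √K * R' j * √K :=
                mul_le_mul_of_nonneg_left g1 (by positivity)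
            _ = (√K * √K) * R' j := by ring
            _ = K * R' j := by rw [hss]
            _ ≤ R i := hs.2.2.2
            _ ≤ R i * ((dt (e i) (e' j)).2 : ℝ) := le_mul_of_one_le_right r0 n2'
        rw [min_eq_right hle]
        refine (min_le_right _ _).trans (le_of_eq ?_)
        field_simp
      · rw [ind_f hs]
        simp
    refine h2.trans ((mul_le_mul_of_nonneg_left key (by positivity)).trans (le_of_eq ?_))
    rw [hM, ← hc0]
    have : 1 / √K = 1 / √(√K) * (1 / √(√K)) := by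
      rw [one_div_mul_one_div, hsq]
    rw [this]
    field_simp
  -- `S3`
  have e3 : ∑ i ∈ F, ∑ j ∈ G, ind (S3 i j) * mn i j ≤ 1 / √(√K) * (4 + c1) * M := by
    have hfam : Fam F G e e' (fun i => √K * R i) R' :=
      ⟨h.pF, h.pG, h.iF, h.iG, fun i hi => mul_nonneg hs0.le (h.rF i hi), h.rG⟩
    have key := acc_energy8 hfam hz (S := S3) (fun i hi j hj hs => sm i hi j hj hs.1) (E := E)
      (Γ := Γ) (U := 1) (η := √K * η) (N0 := N0 * √K ^ 5) hE le_rfl (by positivity) hη1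
      (by nlinarith)
      (fun i hi => ⟨mul_pos hs0 (hR i hi).1, by
        rw [mul_assoc]; exact mul_le_mul_of_nonneg_left (hR i hi).2 hs0.le⟩)
      (fun t ht => by
        have h1 := hcard (t / √K) (by positivity)
        have h2 : F.filter (fun i => t * |E| < √K * R i) =
            F.filter (fun i => t / √K * |E| < R i) := by
          refine Finset.filter_congr fun i _ => ?_
          rw [div_mul_eq_mul_div, div_lt_iff₀ hs0, mul_comm (R i)]
        rw [h2]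
        refine h1.trans (le_of_eq ?_)
        field_simp)
      (fun i hi j hj hs => by
        obtain ⟨z1, z2, a1, a2, a3⟩ := (hS i hi j hj hs.1).pt
        refine ⟨⟨z1, z2, a1.trans ?_, a2, a3⟩, fun _ => hdt1 i hi j hj hs.2.2.1⟩
        exact le_mul_of_one_le_left (h.rF i hi) hs1)
    rw [Real.sqrt_one, div_one, ← Finset.mul_sum, Real.sqrt_mul hs0.le] at key
    have h2 : ∑ i ∈ F, ∑ j ∈ G, ind (S3 i j) * mn i j ≤ 1 / √K * ∑ i ∈ F, ∑ j ∈ G,
        ind (S3 i j) * min (√K * R i / ((dt (e i) (e' j)).1 : ℝ))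
          (R' j / ((dt (e i) (e' j)).2 : ℝ)) := by
      rw [Finset.mul_sum]
      refine Finset.sum_le_sum fun i hi => ?_
      rw [Finset.mul_sum]
      refine Finset.sum_le_sum fun j hj => ?_
      by_cases hs : S3 i j
      · rw [ind_t hs, one_mul, one_mul]
        obtain ⟨g1, g2⟩ := hsm hs.2.1
        obtain ⟨d1, d2⟩ := dt_pos (h.pF i hi) (h.pG j hj)
        obtain ⟨n1, n2, -, -⟩ := dt_spec (h.pF i hi) (h.pG j hj)
        have n1' : (1:ℝ) ≤ ((dt (e i) (e' j)).1 : ℝ) := by exact_mod_cast n1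
        have r0 := h.rF i hi
        have r0' := h.rG j hj
        have hle : √K * R i / ((dt (e i) (e' j)).1 : ℝ) ≤ R' j / ((dt (e i) (e' j)).2 : ℝ) := by
          rw [div_le_div_iff₀ d1 d2]
          calc √K * R i * ((dt (e i) (e' j)).2 : ℝ) ≤ √K * R i * √K :=
                mul_le_mul_of_nonneg_left g2 (by positivity)
            _ = (√K * √K) * R i := by ring
            _ = K * R i := by rw [hss]
            _ ≤ R' j := hs.2.2.2
            _ ≤ R' j * ((dt (e i) (e' j)).1 : ℝ) := le_mul_of_one_le_right r0' n1'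
        rw [min_eq_left hle]
        refine (min_le_left _ _).trans (le_of_eq ?_)
        field_simp
      · rw [ind_f hs]
        simp
    refine h2.trans ((mul_le_mul_of_nonneg_left key (by positivity)).trans (le_of_eq ?_))
    rw [hM, ← hc1]
    have : 1 / √K = 1 / √(√K) * (1 / √(√K)) := by
      rw [one_div_mul_one_div, hsq]
    rw [this]
    field_simp
  -- `S4`, `S5`
  have e4 : ∑ i ∈ F, ∑ j ∈ G, ind (S4 i j) * mn i j ≤ 1 / √K * M :=
    one_K h hK fun i hi j hj hs => ⟨hs.1, Or.inl hs.2⟩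
  have e5 : ∑ i ∈ F, ∑ j ∈ G, ind (S5 i j) * mn i j ≤ 1 / √K * M :=
    one_K h hK fun i hi j hj hs => ⟨hs.1, Or.inr hs.2⟩
  have hK4 : 1 / √(√K) = K ^ (-(1/4) : ℝ) := by
    rw [Real.sqrt_eq_rpow, Real.sqrt_eq_rpow, ← Real.rpow_mul hK0.le, one_div, ← Real.rpow_neg hK0.le]
    norm_num
  have hK2 : 1 / √K ≤ K ^ (-(1/4) : ℝ) := by
    rw [← hK4]
    refine one_div_le_one_div_of_le hsq0 ?_
    rw [Real.sqrt_le_left (by linarith)]
    nlinarith
  have hk0 : 0 ≤ K ^ (-(1/4) : ℝ) := Real.rpow_nonneg hK0.le _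
  have hk1 : K ^ (-(1/4) : ℝ) ≤ 1 := by
    rw [← hK4, div_le_one hsq0]
    exact Real.one_le_sqrt.2 hs1
  have hsum : ∑ i ∈ F, ∑ j ∈ G, ind (S i j) * mn i j ≤
      ∑ i ∈ F, ∑ j ∈ G, ind (S1 i j) * mn i j + (∑ i ∈ F, ∑ j ∈ G, ind (S2 i j) * mn i j +
        (∑ i ∈ F, ∑ j ∈ G, ind (S3 i j) * mn i j + (∑ i ∈ F, ∑ j ∈ G, ind (S4 i j) * mn i j +
          ∑ i ∈ F, ∑ j ∈ G, ind (S5 i j) * mn i j))) := by
    refine (Finset.sum_le_sum fun i hi => Finset.sum_le_sum fun j hj => hsplit i hi j hj).trans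
      (le_of_eq ?_)
    simp only [Finset.sum_add_distrib]
  rw [show 4 / √(√K) = 4 * (1 / √(√K)) by ring, hK4] at e1
  rw [hK4] at e2 e3
  have e4' := e4.trans (mul_le_mul_of_nonneg_right hK2 hM0)
  have e5' := e5.trans (mul_le_mul_of_nonneg_right hK2 hM0)
  refine hsum.trans ?_
  unfold gI
  rw [← hc1]
  have f1 : K ^ (-(1/4) : ℝ) * c0 * M ≤ c1 * M := by
    refine mul_le_mul_of_nonneg_right ?_ hM0
    exact (mul_le_of_le_one_left c00 hk1).trans c01
  have f2 : K ^ (-(1/4) : ℝ) * c1 * M ≤ c1 * M :=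
    mul_le_mul_of_nonneg_right (mul_le_of_le_one_left c10 hk1) hM0
  have f3 : c0 * M ≤ c1 * M := mul_le_mul_of_nonneg_right c01 hM0
  nlinarith

/-- the count from the sum of the radii and the accuracy -/
lemma card_acc {F : Finset ι} {R : ι → ℝ} {E P N0 : ℝ} (hP : 0 < P) (hE : 0 < E)
    (acc : ∀ q ∈ F, (P * R q) ^ 4 < (P * E) ^ 5)
    (sum : ∀ F' ⊆ F, ∑ q ∈ F', R q ≤ N0 / P) (hN0 : 0 ≤ N0) {y : ℝ} (hy : 0 < y) :
    (((F.filter (fun q => y * E < R q)).card : ℕ) : ℝ) ≤ N0 / y ^ 5 := by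
  rcases (F.filter (fun i => y * E < R i)).eq_empty_or_nonempty with h1 | ⟨r₁, hr₁⟩
  · rw [h1, Finset.card_empty, Nat.cast_zero]
    positivity
  obtain ⟨hr₁F, hr₁t⟩ := Finset.mem_filter.1 hr₁
  have k1 : y ^ 4 < P * E := by
    have a1 := acc r₁ hr₁F
    have a2 : (P * (y * E)) ^ 4 ≤ (P * R r₁) ^ 4 :=
      pow_le_pow_left₀ (by positivity) (mul_le_mul_of_nonneg_left hr₁t.le hP.le) 4
    have a3 := a2.trans_lt a1
    have a4 : (P * (y * E)) ^ 4 = y ^ 4 * (P * E) ^ 4 := by ring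
    have a5 : (P * E) ^ 5 = (P * E) * (P * E) ^ 4 := by ring
    rw [a4, a5] at a3
    exact lt_of_mul_lt_mul_right a3 (by positivity)
  have k2 : ((F.filter (fun i => y * E < R i)).card : ℝ) * (y * E) ≤ N0 / P := by
    have a1 : ((F.filter (fun i => y * E < R i)).card : ℝ) * (y * E) =
        ∑ r ∈ F.filter (fun i => y * E < R i), y * E := by
      rw [Finset.sum_const, nsmul_eq_mul]
    rw [a1]
    exact (Finset.sum_le_sum fun r hr => (Finset.mem_filter.1 hr).2.le).trans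
      (sum _ (Finset.filter_subset _ _))
  rw [le_div_iff₀ (by positivity)]
  rw [le_div_iff₀ hP] at k2
  have k3 : ((F.filter (fun i => y * E < R i)).card : ℝ) * y ^ 5 ≤
      ((F.filter (fun i => y * E < R i)).card : ℝ) * (y * (P * E)) := by
    refine mul_le_mul_of_nonneg_left ?_ (Nat.cast_nonneg _)
    calc y ^ 5 = y * y ^ 4 := by ring
      _ ≤ y * (P * E) := mul_le_mul_of_nonneg_left k1.le hy.le
  refine k3.trans (le_of_eq_of_le ?_ k2)
  ring

end Crest.Agent.R4P.AcI41
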