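import Crest.Agent.R4P.EvU_33
import Crest.Agent.R4P.EvP_33
import Crest.Agent.R4P.GlP_32

/-!
R4 (S0004) with powers, helper33: **all the labels have small height** (`WPex189.LbW`) and are separated by
the grid (`Fine.gridW`, `Fine.offW`).

* `lbW_of_own`, `lbW_of_ownP` : real and permissive labels of any stage; `lbW_stl` : real states;
* `GLb.LW` : a system of game labels with labels of small height; `lbW_sl`, `lbW_gl`, `lbW_grG`;
* `circleW`, **`exact_twoW`** : same index (any columns), labels of small height: one exact centre;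
* `gP_LW`, `std_LW` : the permissive and the real system.
-/

set_option autoImplicit false
set_option linter.unusedSectionVars false
set_option linter.unusedVariables false
open MeasureTheory Filter Set

namespace Crest.Agent.R4P.FineW33

open Crest.Agent.R4.LF363 Crest.Agent.R4.W363
open Crest.Agent.R4P.FinL21 (labR_iff)
open Crest.Agent.R4P.PosP33 Crest.Agent.R4P.StG32
open Crest.Agent.R4P.WPex189 (LbW Fine)
open Crest.Agent.R4P.StM6 (d5 dense own)

variable {e : UV} {γ ψ t : ℝ} {b : ℕ} {τ σ κ : ℚ} {L : List ℕ}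

/-! ### heights -/

lemma den_le_mul (hb : 0 < b) (τ : ℚ) : (τ.den : ℝ) ≤ b * (((b : ℚ) * τ).den : ℝ) := by
  have hbq : (b : ℚ) ≠ 0 := by exact_mod_cast hb.ne'
  have h1 : τ = ((b : ℚ) * τ) * (1 / (b : ℚ)) := by field_simp
  have h2 : τ.den ∣ ((b : ℚ) * τ).den * (1 / (b : ℚ)).den := by
    conv_lhs => rw [h1]
    exact Rat.mul_den_dvd _ _
  have h3 : (1 / (b : ℚ)).den ∣ b := by
    have : (1 / (b : ℚ)) = Rat.divInt 1 b := by
      rw [Rat.divInt_eq_div]; push_cast; rfl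
    rw [this]
    have := Rat.den_dvd 1 (b : ℤ)
    exact_mod_cast this
  have h4 : τ.den ≤ ((b : ℚ) * τ).den * b :=
    Nat.le_of_dvd (Nat.mul_pos (Rat.den_pos _) hb) (h2.trans (mul_dvd_mul_left _ h3))
  have h5 : (τ.den : ℝ) ≤ (((b : ℚ) * τ).den * b : ℕ) := by exact_mod_cast h4
  refine h5.trans (le_of_eq ?_)
  push_cast
  ring

/-- from the circle of the stage to the root -/
lemma lbW_of (hb : 0 < b) (h0 : 0 < ψ) (h1 : (((b : ℚ) * τ).den : ℝ) * (b * ψ) ≤ 1)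
    (h2 : |γ - τ| ≤ 1) : LbW γ ψ τ := by
  refine ⟨h0, ?_, h2⟩
  calc (τ.den : ℝ) * ψ ≤ (b * (((b : ℚ) * τ).den : ℝ)) * ψ :=
        mul_le_mul_of_nonneg_right (den_le_mul hb τ) h0.le
    _ = (((b : ℚ) * τ).den : ℝ) * (b * ψ) := by ring
    _ ≤ 1 := h1

/-- **permissive labels** -/
theorem lbW_of_ownP (hb : 0 < b) (h : LabD33.lab0P e γ ψ b = some τ) : LbW γ ψ τ := by
  obtain ⟨h0, h1, h2, h3⟩ := LabD33.own_spec hb h
  have hb1 : (1 : ℝ) ≤ b := by exact_mod_cast hb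
  have hR : 0 < (b : ℝ) * ψ := by positivity
  refine lbW_of hb h0 ?_ ?_
  · refine Crest.Agent.R4P.PosD33.le_of_pow5 zero_le_one ?_
    rw [one_pow, mul_pow]
    refine le_trans ?_ h2
    refine mul_le_mul_of_nonneg_left ?_ (by positivity)
    calc ((b : ℝ) * ψ) ^ 5 = (b * ψ) ^ ((5 : ℕ) : ℝ) := (Real.rpow_natCast _ 5).symm
      _ ≤ (b * ψ) ^ (1 + e.u) := Real.rpow_le_rpow_of_exponent_ge hR (by linarith) (by
          push_cast; linarith [e.u1])
  · refine Crest.Agent.R4P.PosD33.le_of_pow5 zero_le_one ?_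
    rw [one_pow]
    have h4 : (1 : ℝ) ≤ (b : ℝ) ^ (1 + 4 * e.v) := Real.one_le_rpow hb1 (by linarith [e.v0])
    have h5 : ψ ≤ 1 := by nlinarith
    have h6 : ψ ^ (4 * (1 - e.v)) ≤ 1 := Real.rpow_le_one h0.le h5 (by linarith [e.v1])
    have h7 : 0 ≤ |γ - τ| ^ 5 := by positivity
    unfold LabD33.acc at h3
    nlinarith

/-- **real labels** -/
theorem lbW_of_own (hb : 0 < b) (h : lab0 γ ψ b = some τ) : LbW γ ψ τ :=
  lbW_of_ownP (e := ⟨0, 0, le_rfl, by norm_num, le_rfl, by norm_num⟩) hb (LabD33.lab0P_of_real hb h)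

/-- **real states** -/
theorem lbW_stl {thr : ℕ → ℝ} {a : Prop} {p : ℕ} (hL : ∀ s ∈ L, 0 < s)
    (h : StM246.stl thr γ ψ a L p = some τ) : LbW γ ψ τ := by
  classical
  unfold StM246.stl at h
  split_ifs at h with h1 h2
  · obtain ⟨L₁, L₂, e1, e2⟩ := sta_spec (thr := thr) (γ := γ) (ψ := ψ) L p
    rw [e2] at h
    exact lbW_of_own (List.prod_pos fun s hs => hL s (by rw [e1]; exact List.mem_append_right _ hs)) h
  · exact lbW_of_own (List.prod_pos hL) h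

/-! ### game labels -/

/-- the labels of the system have small height -/
def LW (G : GLb) (γ ψ : ℝ) : Prop := ∀ b τ, 0 < b → G.ow b = some τ → LbW γ ψ τ

variable {G : GLb}

theorem lbW_sl (h : LW G γ ψ) (hL : ∀ s ∈ L, 0 < s) (hs : G.sl L = some τ) : LbW γ ψ τ := by
  obtain ⟨L₁, L₂, e1, e2, -⟩ := GLb.sl_spec hs
  exact h _ _ (List.prod_pos fun s hs => hL s (by rw [e1]; exact List.mem_append_right _ hs)) e2

theorem lbW_gl {st : Option ℚ} (h : LW G γ ψ) (hL : ∀ s ∈ L, 0 < s)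
    (hst : ∀ κ, st = some κ → LbW γ ψ κ) (hg : G.gl st t L = some τ) : LbW γ ψ τ := by
  rcases GLb.gl_some hg with h1 | h1
  · exact hst τ h1.1
  · exact lbW_sl h hL h1.1

theorem gP_LW (e : UV) (γ ψ : ℝ) : LW (GlP32.gP e γ ψ) γ ψ := fun _ _ hb h => lbW_of_ownP hb h

theorem std_LW (γ ψ : ℝ) : LW (GLb.std γ ψ) γ ψ := fun _ _ hb h => lbW_of_own hb h

section cf
open Crest.Agent.R4P.Cnt588 Crest.Agent.R4P.Item758 Crest.Agent.R4P.W363
open Crest.Agent.R4P.Data758 Crest.Agent.R4P.StM246 Crest.Agent.R4P.TYP9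

/-- **the game labels have small height** -/
theorem lbW_grG {c : Cf} {F : ℕ → GLb} {p q : ℕ} {M : Finset ℕ} (h : LW (F q) c.γ (c.r q))
    (hM : ∀ s ∈ Ls M, 0 < s) (hg : grG c F p M q = some τ) : LbW c.γ (c.r q) τ :=
  lbW_gl h hM (fun κ hκ => lbW_stl hM hκ) hg

end cf

/-! ### exact centres -/

section grid
open Crest.Agent.R4P.Cnt588 Crest.Agent.R4P.Item758 Crest.Agent.R4P.W363
open Crest.Agent.R4P.WPex189 (den_mul_le)
open Crest.Agent.R4.HVW560 (cof)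

/-- the separation on the circle `A B = A' B'`, `B ≤ K A'` -/
theorem circleW {P : Crest.Agent.R4P.W363.WP} {γ : ℝ} {r : ℕ → ℝ} {t : IT} {S : Finset ℕ} {n K : ℕ}
    (h : Fine P γ r t S n K) {q q' : ℕ} (hq : q ∈ S)
    (hq' : q' ∈ S) {σ τ : ℚ} (hσ : LbW γ (r q) σ)
    (hτ : LbW γ (r q') τ) {A A' B B' w w' : ℕ} (e : q = A * w) (e' : q' = A' * w')
    (hB : B ≤ K * A') :
    P.δ₀ * (((A * B : ℕ) : ℝ) * ((((B : ℚ) * σ).den * w) * ((((B' : ℚ) * τ).den) * w'))) ≤ 1 := by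
  refine le_trans ?_ (h.gridW q hq q' hq' σ τ hσ hτ)
  refine mul_le_mul_of_nonneg_left ?_ h.δ0.le
  have key : (A * B) * ((((B : ℚ) * σ).den * w) * ((((B' : ℚ) * τ).den) * w')) ≤
      K * ((σ.den * q) * (τ.den * q')) := by
    calc (A * B) * ((((B : ℚ) * σ).den * w) * ((((B' : ℚ) * τ).den) * w'))
        ≤ (A * B) * ((σ.den * w) * (τ.den * w')) :=
          Nat.mul_le_mul_left _ (Nat.mul_le_mul (Nat.mul_le_mul_right _ (den_mul_le B σ))
            (Nat.mul_le_mul_right _ (den_mul_le B' τ)))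
      _ = B * ((σ.den * (A * w)) * (τ.den * w')) := by ring
      _ = B * ((σ.den * q) * (τ.den * w')) := by rw [e]
      _ ≤ (K * A') * ((σ.den * q) * (τ.den * w')) := Nat.mul_le_mul_right _ hB
      _ = K * ((σ.den * q) * (τ.den * (A' * w'))) := by ring
      _ = K * ((σ.den * q) * (τ.den * q')) := by rw [e']
  exact_mod_cast key

/-- **same index, two labels of small height: exact centres on the common circle** -/
theorem exact_twoW {wp : Crest.Agent.R4P.W363.WP} {γ : ℝ} {r : ℕ → ℝ} {t : IT} {S : Finset ℕ} {n K : ℕ}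
    (h : Fine wp γ r t S n K) {q q' : ℕ} (hq : q ∈ S) (hq' : q' ∈ S)
    (hq0 : 0 < q) (hq0' : 0 < q') {σ σ' : ℚ} (hσ : LbW γ (r q) σ)
    (hσ' : LbW γ (r q') σ') {A B W A' B' W' : ℕ} (hA : 0 < A) (hB : 0 < B)
    (hA' : 0 < A') (hW : 0 < W) (hW' : 0 < W') (e : q = A * W) (e' : q' = A' * W')
    (hAB : A * B = A' * B') (hBK : B ≤ K * A') {y z z' : ℝ} {a a' : ℤ}
    (hz : (B:ℝ) * z = W * y - B * γ - a) (hz' : (B':ℝ) * z' = W' * y - B' * γ - a')
    (h1 : |z| ≤ r q) (h2 : |z'| ≤ r q') {p₁ p₂ : ℕ}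
    (hix : wp.ix γ p₁ q (some σ) z = wp.ix γ p₂ q' (some σ') z') :
    ((a:ℝ) + ((B * σ : ℚ) : ℝ)) * (cof W' W : ℕ) = (a' + ((B' * σ' : ℚ) : ℝ)) * (cof W W' : ℕ) := by
  have hWr : (0:ℝ) < W := by exact_mod_cast hW
  have hWr' : (0:ℝ) < W' := by exact_mod_cast hW'
  have hABp : (0:ℝ) < ((A * B : ℕ) : ℝ) := by exact_mod_cast Nat.mul_pos hA hB
  have h3 : cell (grd wp.δ₀ wp.n₁) (off γ σ q z) = cell (grd wp.δ₀ wp.n₁) (off γ σ' q' z') :=
    congrArg Prod.snd hix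
  have h4 := grd_close h.δ0 (h.offW q hq hq0 σ hσ z h1) (h.offW q' hq' hq0' σ' hσ' z' h2) h3
  have f1 := off_circle (γ := γ) (c := σ) (z := z) hA hW e (B := B)
  have f2 := off_circle (γ := γ) (c := σ') (z := z') hA' hW' e' (B := B')
  rw [hz] at f1
  rw [hz', ← hAB] at f2
  have g1 : ((A * B : ℕ) : ℝ) * off γ σ q z = y - ((a:ℝ) + ((B * σ : ℚ) : ℝ)) / W := by
    rw [f1]; push_cast; field_simp; ring
  have g2 : ((A * B : ℕ) : ℝ) * off γ σ' q' z' = y - ((a':ℝ) + ((B' * σ' : ℚ) : ℝ)) / W' := by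
    rw [f2]; push_cast; field_simp; ring
  have h5 : |((a:ℝ) + ((B * σ : ℚ) : ℝ)) / W - (a' + ((B' * σ' : ℚ) : ℝ)) / W'| <
      ((A * B : ℕ) : ℝ) * wp.δ₀ := by
    have e1 : ((a:ℝ) + ((B * σ : ℚ) : ℝ)) / W - (a' + ((B' * σ' : ℚ) : ℝ)) / W' =
        -(((A * B : ℕ) : ℝ) * (off γ σ q z - off γ σ' q' z')) := by
      rw [mul_sub, g1, g2]; ring
    rw [e1, abs_neg, abs_mul, abs_of_pos hABp]
    exact mul_lt_mul_of_pos_left h4 hABp
  have h6 := circleW h hq hq' hσ hσ' e e' hBK (B' := B')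
  have h7 := snapped_eq (q := W) (r := W') hW hW' (σ := (B : ℚ) * σ) (τ := (B' : ℚ) * σ') (a := a)
    (a' := a') (δ := ((A * B : ℕ) : ℝ) * wp.δ₀) (by
      refine le_trans (le_of_eq ?_) h6
      push_cast; ring) h5
  rw [div_eq_div_iff hWr.ne' hWr'.ne'] at h7
  have hg : (0:ℝ) < (W.gcd W' : ℕ) := by exact_mod_cast Nat.gcd_pos_of_pos_left _ hW
  have ew : (W:ℝ) = (W.gcd W' : ℕ) * (cof W W' : ℕ) := by
    exact_mod_cast (Crest.Agent.R4.AvgItem710.mul_cof).symm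
  have ew' : (W':ℝ) = (W.gcd W' : ℕ) * (cof W' W : ℕ) := by
    exact_mod_cast (Crest.Agent.R4.AvgItem710.mul_cof').symm
  rw [ew, ew'] at h7
  apply mul_left_cancel₀ hg.ne'
  linarith

end grid

end Crest.Agent.R4P.FineW33
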