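import Crest.Agent.R4P.PrH_45
import Crest.Agent.R4P.AsB_407

/-!
R4 (S0004) with powers, T3, helper45: **the separated pairs of a game** (`AsB407.Gm.vSep`, field `hSep` of
`AsB407.Fm`) by static column kernels of pieces.

* **`Kw_sep`** : `Kw (I su prs fN + I su prs fB) ≤ Σ_j c_j (Psi K + rE + ts + 2 pn)` (`PrH45.ST`);
* **`vSep_le`** : `vSep ≤ 2 (leU K + dC K) + rE (2 KN) + ts KB + 2 pn KB` at a node of a context.
-/

set_option autoImplicit false
set_option linter.unusedSectionVars false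
set_option linter.unusedVariables false
open MeasureTheory Filter Set

namespace Crest.Agent.R4P.PrI45

open Crest.Agent.R4.Tour104 Crest.Agent.R4.Tour758 Crest.Agent.R4.Clos758
open Crest.Agent.R4.ClosL758
open Crest.Agent.R4P.Grp36 Crest.Agent.R4P.GWa343 Crest.Agent.R4P.GWb343 Crest.Agent.R4P.GWc343
open Crest.Agent.R4P.GMer27 Crest.Agent.R4P.GCol27 Crest.Agent.R4P.RSys343
open Crest.Agent.R4P.RXm55 Crest.Agent.R4P.RXm55.RXm
open Crest.Agent.R4P.MSi343 (su su_add)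
open Crest.Agent.R4P.MSm25 Crest.Agent.R4P.PayR45 Crest.Agent.R4P.GSK55
open Crest.Agent.R4P.DTp26 (jv PB_jv hz)
open Crest.Agent.R4P.MSd343 Crest.Agent.R4P.Bp407 Crest.Agent.R4P.VR407
open Crest.Agent.R4P.RGf25 Crest.Agent.R4P.RGp25
open Crest.Agent.R4P.JnE5 Crest.Agent.R4P.JnF5 Crest.Agent.R4P.JnH5
open Crest.Agent.R4P.PVd45 Crest.Agent.R4P.PVe45 Crest.Agent.R4P.PrE45 Crest.Agent.R4P.PrD45
open Crest.Agent.R4P.PrF45 Crest.Agent.R4P.PrG45 Crest.Agent.R4P.PrH45 Crest.Agent.R4P.PrE245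
open Crest.Agent.R4P.LogL51 (isLf)
open Crest.Agent.R4P.Walk560 (DT)

section sep
variable {Λ κ : Type} [Fintype Λ] [DecidableEq Λ] [Fintype κ] [DecidableEq κ]
  {β δ : Type} [Fintype δ] [DecidableEq δ]
  {R : RXm β δ} {pr : β → List (DT Λ κ)} {kO : ℕ → β → ℝ → Λ → Option δ}
  {K : ℕ → Λ → Λ → ℝ} {U : RBm R} {Inv : ℕ → List (DT Λ κ) → Prop} {kd : ℕ → Λ → κ}
  {KN KB : ℕ → Λ → Λ → ℝ} {P : PMap U (Λ × Bool)}

/-- the value of the separated pairs -/
noncomputable def Vq (K KN KB : ℕ → Λ → Λ → ℝ) (p : ℕ) (L : List (DT Λ κ)) : ℝ :=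
  Psi K idk p L + RE (RN KN) p L + TS (FB KB) L + 2 * PNs KB L

/-- **the separated pairs of the flows** -/
theorem Kw_sep (H : KP R pr kO K) (L : LB (bm R) pr Inv) (HI : DI Inv)
    (hK : ∀ {p b}, (bm R).ok p b → p ≠ 0 → KOk (kd p) p (bB p (pr b)))
    (X : PX P pr) (S : ST P pr K KN KB) {ok : ℕ → Gs β → Prop}
    (hC : ∀ {p s}, ok p s → p ≠ 0 → ok p ((bm R).C p s))
    (hN : ∀ {p s}, ok p s → p ≠ 0 → ok (p - 1) ((bm R).N p s))
    (hg : ∀ {p s}, ok p s → R.gok p s)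
    (n p : ℕ) (s : Gs β) (hs : ok p s) (hn : ∀ j, siz (pr (s.L j)) + p ≤ n) :
    Kw (bm R) (fun p s => I (su s (prsN P.fl p)) + I (su s (prs (P.fl.fB p)))) n p s ≤
      GMer27.M s.c fun j => Vq K KN KB p (pr (s.L j)) := by
  have tk : ∀ {p b}, (bm R).ok p b → p ≠ 0 → TOk p (bB p (pr b)) := fun h hp => H.tk h hp
  have len : ∀ {p b}, (bm R).ok p b → p ≠ 0 → (bN p (pr b)).length ≤ 1 := fun h hp => H.len h hp
  have S2 := jc_sv L HI tk len H.ker
  have S3 := rE_sv (R := RN KN) L HI hK tk len RN_zero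
  have S4 := ts_sv (F := FB KB) L HI hK tk FB_zero
  have S5 := sv_smul (show (0:ℝ) ≤ 2 by norm_num) (pn_sv (K' := KB) L HI hK tk)
  have SS := sv_add (sv_add (sv_add S2 S3) S4) S5
  have key := Kw_sv SS (ok := ok)
    (f := fun p s => I (su s (prsN P.fl p)) + I (su s (prs (P.fl.fB p)))) hC hN
    (fun h => (hg h).1) (fun h => (hg h).2) (fun {p s} hs hp => ?_) (fun {p b} hb h => ?_)
    n p s hs hn
  · refine key.trans (M_mono (hg hs).1.c0 fun j => ?_)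
    have h3 : 0 ≤ jl K idk p (pr (s.L j)) := jl_nonneg H.ker (H.pba ((hg hs).2 j))
    show (Psi K idk p (pr (s.L j)) - jl K idk p (pr (s.L j))) +
      RE (RN KN) p (pr (s.L j)) + TS (FB KB) (pr (s.L j)) + 2 * PNs KB (pr (s.L j)) ≤ _
    unfold Vq
    linarith
  · have g := hg hs
    have c0 := g.1.c0
    have e1 : I (su s (prsN P.fl p)) = GMer27.M s.c fun j => I (prsN P.fl p (s.L j)) :=
      I_su c0 fun j => PB_prsN1 (g.2 j) hp
    have e2 : I (su s (prs (P.fl.fB p))) = GMer27.M s.c fun j => I (prs (P.fl.fB p) (s.L j)) :=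
      I_su c0 fun j => PB_prs1 (P.fl.pB (g.2 j) hp)
    show I (su s (prsN P.fl p)) + I (su s (prs (P.fl.fB p))) ≤ _
    rw [e1, e2, ← M_add]
    refine M_mono c0 fun j => ?_
    have h1 := I_prsN_st H X S (g.2 j) hp
    have h2 := I_prsB_st H L HI hK X S (g.2 j) hp
    show _ ≤ ((1 - 1 / (p : ℝ)) * jl K idk p (pr ((bm R).cP p (s.L j))) +
        1 / (p : ℝ) * jl K idk p (pr ((bm R).cN p (s.L j)))) +
        RN KN p (jv (bN p (pr (s.L j)))) +
        FB KB p (pA (bB p (pr (s.L j)))) (pB (bB p (pr (s.L j)))) +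
        2 * (1 / (p : ℝ) * (2 * bil (KB p) (pA (bB p (pr (s.L j))))
          (pB (bB p (pr (s.L j))))))
    linarith
  · have hb' : R.ok p b := hb
    have hlf : ∀ t ∈ pr b, isLf t = true := by
      rcases h with h0 | h0
      · subst h0; exact H.lf0 hb'
      · have := siz_zero h0
        rw [this]
        simp
    have z1 : PNs KB (pr b) = 0 := by
      refine List.sum_eq_zero fun y hy => ?_
      obtain ⟨t, ht, rfl⟩ := List.mem_map.1 hy
      obtain ⟨r, f, rfl⟩ := isLf_eq (hlf t ht)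
      rfl
    have z2 : TS (FB KB) (pr b) = 0 := TS_leaves hlf
    have z3 : RE (RN KN) p (pr b) = 0 := RE_leaves hlf
    have z4 := Psi_leaves (K := K) hlf p
    show 0 ≤ (Psi K idk p (pr b) - jl K idk p (pr b)) +
      RE (RN KN) p (pr b) + TS (FB KB) (pr b) + 2 * PNs KB (pr b)
    rw [z1, z2, z3, z4]
    linarith

lemma Vq_single (K KN KB : ℕ → Λ → Λ → ℝ) (p : ℕ) (t : DT Λ κ) : Vq K KN KB p [t] =
    2 * (leU K idk p t + dC K idk t) + rE (RN KN) p t + ts (FB KB) t + 2 * pn KB t := by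
  unfold Vq
  rw [Psi_single, RE_cons, RE_nil, TS_cons, TS_nil, PNs_cons, PNs_nil]
  ring

end sep

/-! ### the games of a context -/

section game
open Crest.Agent.R4.Avg758 Crest.Agent.R4.ClosG758 Crest.Agent.R4.ClosR758
open Crest.Agent.R4P.ClosR442 Crest.Agent.R4P.Xfer36 Crest.Agent.R4P.TopC36 Crest.Agent.R4P.PN36
open Crest.Agent.R4P.GWd343 Crest.Agent.R4P.GWf343 Crest.Agent.R4P.TrR343
open Crest.Agent.R4P.GWg343 (FX ctx_BI)
open Crest.Agent.R4P.DTm407 Crest.Agent.R4P.DTn407 Crest.Agent.R4P.DTo407 Crest.Agent.R4P.RGd25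
open Crest.Agent.R4P.Cnt588 Crest.Agent.R4P.Item758
open Crest.Agent.R4P.Bld532 (NS All NodeOk)
open Crest.Agent.R4P.WalkIT579 (tp isL toDT_top toDT_leaf)
open Crest.Agent.R4P.Step588 Crest.Agent.R4P.RseSt23
open Crest.Agent.R4P.TYI47 Crest.Agent.R4P.TYJ47 Crest.Agent.R4P.TYK47 Crest.Agent.R4P.TYP9
open Crest.Agent.R4P.RsT47
open Crest.Agent.R4P.Skel189 Crest.Agent.R4P.Frame758 Crest.Agent.R4P.Data758
open Crest.Agent.R4.Soft104 Crest.Agent.R4.Fam464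
open Crest.Agent.R4P.StratX36 Crest.Agent.R4P.TopX36
open Crest.Agent.R4P.AsB407 Crest.Agent.R4P.GTopA50

variable {N : Skel189.Num} {γ : ℝ} {p0 P₀ : ℕ} {X : Ctx N γ p0 P₀} {Q : NS → IT → Prop} {C : ℝ}
  {n : ℕ} (G : Gm X Q C n) {u : NS} {τ : IT}

/-- **the separated pairs of a game** -/
theorem vSep_le (hQ : ∀ u τ, Q u τ → NDt X.par (w X.ψ) X.c.t u τ)
    (hB : InvM X Q C (X.self u τ Finset.univ).p (b₀ X u τ))
    {K KN KB : ℕ → X.c.Lam → X.c.Lam → ℝ} (hK : ∀ p, Ker (K p))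
    (dom : ∀ {p b}, InvM X Q C p b → ∀ x j j', Xp p b.2 x j j' →
      G.D.tp p b.1 x j = G.D.tp p b.1 x j' → G.D.tp p b.1 x j ≠ none → 1 ≤ K p j j')
    (domQ : ∀ {p b}, InvM X Q C p b → p ≠ 0 → ∀ i j x, vT p (bB p b.2) i x ≠ 0 →
      pQ (bB p b.2) j (p * x) ≠ 0 → G.D.tp p b.1 x i ≠ none → G.D.tp p b.1 x i = G.D.tp p b.1 x j →
      1 ≤ K p i j)
    (kN : ∀ p, Ker (KN p)) (kB : ∀ p, Ker (KB p))
    (sN : ∀ {p b}, InvM X Q C p b → p ≠ 0 → ∀ i j x, jv (bN p b.2) i x ≠ 0 →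
      jv (bN p b.2) j x ≠ 0 → G.D.tp p b.1 x i ≠ none → G.D.tp p b.1 x i = G.D.tp p b.1 x j →
      (G.D.tp (p - 1) b.1 x i ≠ G.D.tp (p - 1) b.1 x j ∨ G.D.tp (p - 1) b.1 x i = none) →
      1 ≤ KN p i j)
    (sB : ∀ {p b}, InvM X Q C p b → p ≠ 0 → ∀ i j x, vT p (bB p b.2) i x ≠ 0 →
      vT p (bB p b.2) j x ≠ 0 → G.D.tp p b.1 x i ≠ none → G.D.tp p b.1 x i = G.D.tp p b.1 x j →
      G.D.pt (rhoX X) p b x i ≠ G.D.pt (rhoX X) p b x j → 1 ≤ KB p i j)
    (sQ : ∀ {p b}, InvM X Q C p b → p ≠ 0 → ∀ i j x, pQ (bB p b.2) i (p * x) ≠ 0 →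
      pQ (bB p b.2) j (p * x) ≠ 0 → G.D.tp p b.1 x i ≠ none →
      G.D.tp p b.1 x i = G.D.tp p b.1 x j → G.D.lt p b.1 (p * x) i = G.D.lt p b.1 (p * x) j)
    {k : ℕ} (hk : (X.self u τ Finset.univ).t.size + (X.self u τ Finset.univ).p ≤ k) :
    G.vSep u τ k ≤ 2 * (leU K idk (X.self u τ Finset.univ).p (X.self u τ Finset.univ).t +
      dC K idk (X.self u τ Finset.univ).t) +
      rE (RN KN) (X.self u τ Finset.univ).p (X.self u τ Finset.univ).t +
      ts (FB KB) (X.self u τ Finset.univ).t + 2 * pn KB (X.self u τ Finset.univ).t := by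
  have HK := kpX hQ G.H hK dom
  have S := ST_pmdx (H := G.H) (U := rb G.H) (K := K) kN kB
    (fun h hp i j x => sN h hp i j x) (fun h hp i j x => sB h hp i j x)
    (fun {p b} h hp i j x h1 h2 h3 h4 _ => ?_) (fun h hp i j x => sQ h hp i j x)
  · have hs : okG G.H (X.self u τ Finset.univ).p (one (b₀ X u τ)) := okG.one hB
    have h1 := Kw_sep HK (lbX G.H) diX (kd := rhoX X) (fun {p b} h hp => G.H.bok h hp)
      PX_pmdx S (ok := okG G.H) (fun h hp => h.C hp) (fun h hp => h.N hp) (fun h => h.gok)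
      k (X.self u τ Finset.univ).p (one (b₀ X u τ)) hs (fun j => by
        show siz [(X.self u τ Finset.univ).t] + _ ≤ k
        simpa [siz] using hk)
    rw [one_M (b₀ X u τ) (fun b' => Vq K KN KB (X.self u τ Finset.univ).p b'.2)] at h1
    have e : Vq K KN KB (X.self u τ Finset.univ).p (b₀ X u τ).2 =
      Vq K KN KB (X.self u τ Finset.univ).p [(X.self u τ Finset.univ).t] := rfl
    rw [e, Vq_single] at h1
    exact h1
  · exact domQ h hp i j x h1 h2 h3 h4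

end game

end Crest.Agent.R4P.PrI45
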