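import Crest.Agent.R4P.JnD_5

/-!
R4 (S0004) with powers, T3, helper5: **the root bound `leU + dC ≤ C mass` for the kernel "one index at
the column"**, all the nodes of the contexts, final numbers.

* `EKidS` : energies of all the admissible populations of a (raw) child, pairs of one index at the
  column of the parent; `kidsS_node` from `EKid` (helper21) and `rs_kid` (helper17);
* `NES_of`; `CrN` : the cross terms of the add and far nodes; `eJ` : their charges; `path_eJ` : `≤ 4`;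
* `KSk X p` : the kernel; **`tgtJR_fin`** : `ForN thF SxF TgtJR`.
-/

set_option autoImplicit false
set_option linter.unusedSectionVars false
set_option linter.unusedVariables false

open MeasureTheory Filter

namespace Crest.Agent.R4P.JnR5

open Crest.Agent.R4P.Cnt588 Crest.Agent.R4P.Item758 Crest.Agent.R4P.W363
open Crest.Agent.R4P.Data758 Crest.Agent.R4P.LfDat734
open Crest.Agent.R4P.Bld532 (NS All NodeOk Bk plk Ws_nonneg Ws_mono)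
open Crest.Agent.R4P.Step588 (NDt ND1 ctx_NDt uq_lt All_All)
open Crest.Agent.R4P.WalkIT579 (tp isL nodeOk_hi top_of_nodeOk)
open Crest.Agent.R4P.Skel189 Crest.Agent.R4P.RseSt23 Crest.Agent.R4P.DseCh23
open Crest.Agent.R4P.RseNd23 Crest.Agent.R4P.DseKid23
open Crest.Agent.R4P.Dse22 (chE LocOk dse_le dse_items)
open Crest.Agent.R4P.DseFin21 Crest.Agent.R4P.LeafIa21 Crest.Agent.R4P.DseInd21
open Crest.Agent.R4P.Frame758 (LeafAll LeafI wt tG tM tN tD CxOk leafIn_of tM_eq AdL_AdI)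
open Crest.Agent.R4.Soft104 (w)
open Crest.Agent.R4.Item758 (IL AdI AdS AdI_all AdI_AdN AdI_univ IL_univ)
open Crest.Agent.R4.ClosR758 (dseR din_leR LeafIn AdN MassOk rv Ro Ro_subset mem_Ro PB_rv rv_of_mem)
open Crest.Agent.R4.ClosL758 (Rr Dr)
open Crest.Agent.R4.ClosG758 (Q_le_sdiff ic)
open Crest.Agent.R4.Tour104 (Q I PB)
open Crest.Agent.R4P.Walk560 (DT)
open Crest.Agent.R4P.FarNear7 (NDt_far₀ NDt_pl col_eq max_succ)
open Crest.Agent.R4P.JnA5 Crest.Agent.R4P.JnB5 Crest.Agent.R4P.JnC5 Crest.Agent.R4P.JnD5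
open Crest.Agent.R4P.JnE5 Crest.Agent.R4P.JnH5
open Crest.Agent.R4P.AddNode7 (Uw)
open Crest.Agent.R4P.AddPay7 (zA zA_nonneg eZ cr_add path_add)
open Crest.Agent.R4P.FarPay7 (zF zF_nonneg Pz_le Pz path_far AdI_sp)

section ctx
variable {N : Skel189.Num} {γ : ℝ} {p0 P₀ : ℕ} {X : Ctx N γ p0 P₀}

/-! ### energies of the children -/

/-- **the energies of all the admissible populations of a child**, pairs of one index -/
def EKidS (X : Ctx N γ p0 P₀) (K : ℝ) (p : ℕ) (u : NS) (t : IT) : Prop :=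
  ∀ A : Finset X.c.Lam, AdI X.c.D.it (X.g u t) A →
    ESd X X.Y A p u t ≤ K * (u.c * ∑ q ∈ al X t A, w X.ψ q)

/-- the pairs of `RS` of a child -/
def RSd (X : Ctx N γ p0 P₀) (p : ℕ) (u : NS) (τ : IT) : Prop :=
  ∀ A : Finset X.c.Lam, Q (RS X X.Y p) (Uv X X.Y u τ A) (Uv X X.Y u τ A) ≤
    1 * (u.c * ∑ q ∈ al X τ A, w X.ψ q)

lemma al_hd (t : IT) (A : Finset X.c.Lam) : al X (hd t) A = al X t A := by
  unfold al; rw [hd_items]

lemma ekidS_of {K : ℝ} (hK : 0 ≤ K) {p : ℕ} {u : NS} {t : IT} (hc : 0 ≤ u.c) (h1 : EKid X K p u t)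
    (h2 : RSd X p (hu u t) (hd t)) : EKidS X (K + 1) p u t := by
  intro A hA
  have e1 : Q (Dr ((X.c.D.par X.Y).rho p)) (rv A (Uw X X.Y u t)) (rv A (Uw X X.Y u t)) ≤
      K * ma X A u t := h1 A hA
  have e2 := h2 A
  have e3 : Uv X X.Y (hu u t) (hd t) A = rv A (Uw X X.Y u t) := by
    unfold Uv
    rw [hu_B, hu_A, toFT_hd]
  rw [e3, hu_c, al_hd] at e2
  have e4 := mul_le_mul_of_nonneg_left (ma_le (X := X) hc A t) hK
  show eS X X.Y p u t A ≤ _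
  unfold eS
  rw [← univ_Ro X X.Y p, EK17.Q_ix]
  linarith

lemma kidsS_node {K : ℝ} (hK : 0 ≤ K) {u : NS} {τ : IT} (hc : 0 ≤ u.c)
    (h1 : KidsR (EKid X K) u τ) (h2 : KidsP (RSd X) u τ) : KidsR (EKidS X (K + 1)) u τ := by
  cases τ with
  | leaf S => trivial
  | br p Sp t₁ t₀ =>
    have hc1 : 0 ≤ u.c / (1 - 1 / (p:ℝ)) := div_nonneg hc (Item758.one_sub_inv_nonneg p)
    have hc0 : 0 ≤ u.c * p := by positivity
    exact ⟨ekidS_of (u := ⟨p, u.c / (1 - 1 / (p : ℝ)), u.A * p, u.B⟩) hK hc1 h1.1 h2.1,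
      ekidS_of (u := ⟨p, u.c * p, u.A, u.B * p⟩) hK hc0 h1.2 h2.2⟩
  | add b t₁ t₀ =>
    exact ⟨ekidS_of (u := ⟨b + 1, u.c, u.A, u.B⟩) hK hc h1.1 h2.1,
      ekidS_of (u := ⟨b + 1, u.c, u.A, u.B⟩) hK hc h1.2 h2.2⟩
  | up b Sp t => trivial
  | pl b t => exact ekidS_of (u := ⟨b + 1, u.c, u.A * b, u.B⟩) hK hc h1 h2
  | far b t₁ t₀ =>
    exact ⟨ekidS_of (u := ⟨b + 1, u.c, u.A, u.B⟩) hK hc h1.1 h2.1,
      ekidS_of (u := ⟨b + 1, u.c, u.A, u.B⟩) hK hc h1.2 h2.2⟩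

/-- **the energies of the children of the base of a near child** -/
theorem NES_of {K : ℝ} (hK : 0 ≤ K) : ∀ (t : IT) (u : NS) (b : ℕ), b.Prime →
    CrossSum29.NearI t → u.n = b + 1 → NDt X.par (w X.ψ) X.c.t u t → 0 ≤ u.c →
    EKidS X K b u t → All (KidsR (EKidS X K)) u t → ∀ A : Finset X.c.Lam,
    AdI X.c.D.it (X.g u t) A → JnC5.NE X X.Y A K u t := by
  intro t
  induction t with
  | leaf S => intro u b _ _ _ _ _ _ _ A _; trivial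
  | br p Sp t₁ t₀ ih₁ ih₀ =>
    intro u b hb _ hn h hc hE hall A hA
    have hO := h.self.node
    have hok : (IT.br p Sp t₁ t₀).Ok u.n := h.self.ok
    have k := AdI_AdN X.c.D.it (X.g u (.br p Sp t₁ t₀)) A hA
    refine ⟨?_, ?_⟩
    · exact hall.self.1 (A ∩ X.c.sp p)
        (AdI_sp (u := ⟨p, u.c / (1 - 1 / (p : ℝ)), u.A * p, u.B⟩) rfl hok.2.2.2.2.1 k.2.1)
    · exact hall.self.2 A k.2.2
  | add p t₁ t₀ ih₁ ih₀ => intro u b _ hI; exact absurd hI (fun h => h)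
  | up p Sp t ih =>
    intro u b hb _ hn h hc hE hall A hA
    have hO := h.self.node
    have hok : (IT.up p Sp t).Ok u.n := h.self.ok
    have e : p = b := col_eq (n := u.n) hb (by omega) (by rw [hn]; exact max_succ b) hO.1 hO.2.1
      hO.2.2.2.1
    subst e
    have hA' : AdI X.c.D.it (X.g u (.up p Sp t)) (A ∩ X.c.sp p) :=
      AdI_sp (u := ⟨p, u.c, u.A, u.B⟩) (t := t) rfl hok.2.2.2 hA
    exact hE (A ∩ X.c.sp p) hA'
  | pl p t ih =>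
    intro u b hb hI hn h hc hE hall A hA
    have hO := h.self.node
    have k := AdI_AdN X.c.D.it (X.g u (.pl p t)) A hA
    exact ih ⟨p + 1, u.c, u.A * p, u.B⟩ p hO.1 hI rfl (NDt_pl h) hc hall.self hall.2 A k.2.1
  | far p t₁ t₀ ih₁ ih₀ => intro u b _ hI; exact absurd hI (fun h => h)

/-! ### the charges -/

/-- the charges of the cross terms -/
noncomputable def eJ (X : Ctx N γ p0 P₀) : NS → IT → X.c.Lam → ℝ
  | u, .add b t₁ t₀, j => 2 * zA X b u t₁ t₀ j.1.1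
  | u, .far b t₁ t₀, j => zF X (N.B + 2) b t₀ j.1.1
  | _, _, _ => 0

/-- **the cross terms of the add and far nodes** -/
def CrN (X : Ctx N γ p0 P₀) : NS → IT → Prop
  | u, .add b t₁ t₀ => CrS X X.Y Finset.univ b u t₁ t₀ ≤
      u.c * ∑ j ∈ Finset.univ.filter (fun j => X.c.D.it j ∈ t₁.items ∪ t₀.items),
        wt X.c.D j * eJ X u (.add b t₁ t₀) j
  | u, .far b t₁ t₀ => CrS X X.Y Finset.univ b u t₁ t₀ ≤
      u.c * ∑ j ∈ Finset.univ.filter (fun j => X.c.D.it j ∈ t₁.items ∪ t₀.items),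
        wt X.c.D j * eJ X u (.far b t₁ t₀) j
  | _, _ => True

lemma eJ_nonneg {u : NS} (hc : 0 < u.c) (τ : IT) (j : X.c.Lam) : 0 ≤ eJ X u τ j := by
  cases τ with
  | add b t₁ t₀ => exact mul_nonneg (by norm_num) (zA_nonneg X b hc _ _ _)
  | far b t₁ t₀ => exact zF_nonneg X _ b t₀ j.1.1
  | _ => exact le_rfl

lemma eJ_dead {j : X.c.Lam} (hj : j.1.1 ∉ X.S') (u : NS) (τ : IT) : eJ X u τ j = 0 := by
  cases τ with
  | add b t₁ t₀ =>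
    show 2 * zA X b u t₁ t₀ j.1.1 = 0
    unfold zA; rw [if_neg hj, mul_zero]
  | far b t₁ t₀ =>
    show zF X (N.B + 2) b t₀ j.1.1 = 0
    unfold zF; rw [if_neg hj]
  | _ => rfl

lemma chE_eJ (u : NS) (t : IT) (j : X.c.Lam) : chE X.c.D.it (eJ X) u t j =
    chE X.c.D.it (eZ X) u t j + chE X.c.D.it (eZ X) u t j +
      chE X.c.D.it (FinD21.eF X (FarPay7.ζF X (N.B + 2))) u t j := by
  rw [DseFin21.chE_add (X := X) X.c.D.it
    (e₁ := fun u t j => eZ X u t j + eZ X u t j)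
    (e₂ := FinD21.eF X (FarPay7.ζF X (N.B + 2))) ?_ t u j,
    DseFin21.chE_add (X := X) X.c.D.it (e := fun u t j => eZ X u t j + eZ X u t j)
    (e₁ := eZ X) (e₂ := eZ X) (fun _ _ _ => rfl) t u j]
  intro u t j
  cases t with
  | add b t₁ t₀ =>
    show 2 * zA X b u t₁ t₀ j.1.1 = zA X b u t₁ t₀ j.1.1 + zA X b u t₁ t₀ j.1.1 + 0
    ring
  | far b t₁ t₀ =>
    show zF X (N.B + 2) b t₀ j.1.1 = 0 + 0 + zF X (N.B + 2) b t₀ j.1.1
    ring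
  | _ => show (0:ℝ) = 0 + 0 + 0; ring

/-- **path sums at all the nodes** -/
theorem path_eJ (h : ∀ j : X.c.Lam, j.1.1 ∈ X.S' →
      chE X.c.D.it (eZ X) ⟨top X.S, 1, 1, 1⟩ X.c.t j ≤ 1)
    (h' : ∀ j : X.c.Lam, j.1.1 ∈ X.S' →
      chE X.c.D.it (FinD21.eF X (FarPay7.ζF X (N.B + 2))) ⟨top X.S, 1, 1, 1⟩ X.c.t j ≤ 2) :
    All (fun u τ => ∀ j : X.c.Lam, j.1.1 ∈ τ.items → chE X.c.D.it (eJ X) u τ j ≤ 4)
      ⟨top X.S, 1, 1, 1⟩ X.c.t := by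
  refine FinD21.path_down (fun u τ j h => eJ_nonneg h.c τ j) X.c.t _ (FinD21.ctx_PD X)
    (fun _ => 4) fun j _ => ?_
  by_cases hj : j.1.1 ∈ X.S'
  · rw [chE_eJ]
    have := h j hj
    have := h' j hj
    linarith
  · have : chE X.c.D.it (eJ X) ⟨top X.S, 1, 1, 1⟩ X.c.t j = 0 :=
      ch_dead (fun u τ => eJ_dead hj u τ) X.c.t _
    rw [this]; norm_num

/-! ### the kernel -/

/-- **the kernel** "one index at the column `p`" -/
noncomputable def KSk (X : Ctx N γ p0 P₀) (p : ℕ) (j j' : X.c.Lam) : ℝ :=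
  if ixf X p j = ixf X p j' then 1 else 0

lemma KSk_ker (X : Ctx N γ p0 P₀) (p : ℕ) : Ker (KSk X p) := Ker_rel (ixf X p)

lemma bil_KSk (p : ℕ) (f g : X.c.Lam → ℝ → ℝ) : bil (KSk X p) f g = Q (SX X p) f g :=
  bil_rel f g (ixf X p)

/-- the values of a node -/
lemma cf_node {u : NS} {t : IT} (h : NDt X.par (w X.ψ) X.c.t u t) (p : ℕ) :
    GWb343.cf (idk p) ((X.c.D.par X.Y).toDT X.c.sp u.B u.A t) = Uw X X.Y u t := by
  rw [cf_idk, (X.c.D.par X.Y).toDT_g X.c.sp t u.B u.A]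
  exact Par.toG_val _ h.B_pos h.fit (node_wts h X.Y)

lemma rv_univ (f : X.c.Lam → ℝ → ℝ) : rv Finset.univ f = f := by
  funext j
  exact rv_of_mem (Finset.mem_univ j)


/-- energy of a leaf for the kernel = the energy `EX` -/
lemma sf_EX {u : NS} {S : Finset ℕ} (q : ℕ) :
    sf (KSk X) idk q ((X.c.D.par X.Y).toDT X.c.sp u.B u.A (.leaf S)) = EK17.EX X q u (.leaf S) := by
  unfold sf EK17.EX
  rw [univ_Ro, rv_univ, bil_KSk, cf_idk, (X.c.D.par X.Y).toDT_g X.c.sp (.leaf S) u.B u.A]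
  rfl

/-- the leaves -/
lemma lfK_of {K : ℝ} (t : IT) : ∀ (q : ℕ) (u : NS), (∀ S, t = .leaf S → LfK244.EXle X K q u t) →
    All (LfK244.EKid X K) u t →
    LfK (fun q s S => sf (KSk X) idk q ((X.c.D.par X.Y).toDT X.c.sp s.B s.A (.leaf S)) ≤
      K * (s.c * Ws (w X.ψ) S)) q u t := by
  induction t with
  | leaf S =>
    intro q u h _
    have := h S rfl
    show sf (KSk X) idk q ((X.c.D.par X.Y).toDT X.c.sp u.B u.A (.leaf S)) ≤ _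
    rw [sf_EX]
    exact this
  | br p Sp t₁ t₀ ih₁ ih₀ =>
    intro q u _ h
    exact ⟨ih₁ p _ (fun _ _ => h.1.2.1) h.2.1, ih₀ p _ (fun _ _ => h.1.2.2) h.2.2⟩
  | add b t₁ t₀ ih₁ ih₀ =>
    intro q u _ h
    exact ⟨ih₁ b _ (fun _ _ => h.1.2.1) h.2.1, ih₀ b _ (fun _ _ => h.1.2.2) h.2.2⟩
  | up b Sp t ih =>
    intro q u _ h
    exact ih b _ (fun _ _ => h.1.2) h.2
  | pl b t ih =>
    intro q u _ h
    exact ih b _ (fun _ _ => h.1.2) h.2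
  | far b t₁ t₀ ih₁ ih₀ =>
    intro q u _ h
    exact ⟨ih₁ b _ (fun _ _ => h.1.2.1) h.2.1, ih₀ b _ (fun _ _ => h.1.2.2) h.2.2⟩

lemma NDt_add₁ {u : NS} {p : ℕ} {t₁ t₀ : IT} (h : NDt X.par (w X.ψ) X.c.t u (.add p t₁ t₀)) :
    NDt X.par (w X.ψ) X.c.t ⟨p + 1, u.c, u.A, u.B⟩ t₁ where
  all := h.all.2.1
  dvd := h.dvd
  pos := h.pos
  rd := h.rd
  rd1 := h.rd1

lemma NDt_add₀ {u : NS} {p : ℕ} {t₁ t₀ : IT} (h : NDt X.par (w X.ψ) X.c.t u (.add p t₁ t₀)) :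
    NDt X.par (w X.ψ) X.c.t ⟨p + 1, u.c, u.A, u.B⟩ t₀ where
  all := h.all.2.2
  dvd := h.dvd
  pos := h.pos
  rd := h.rd
  rd1 := h.rd1

/-- the local hypothesis -/
lemma crL_of {u : NS} {τ : IT} (h : NDt X.par (w X.ψ) X.c.t u τ) (hc : 0 < u.c)
    (hcr : CrN X u τ) : CrL (X.c.D.par X.Y) X.c.sp (KSk X) (wt X.c.D) (eJ X) u τ := by
  have hnn : ∀ (S : Finset ℕ) (τ' : IT), 0 ≤ u.c * ∑ j ∈ Finset.univ.filter
      (fun j => X.c.D.it j ∈ S), wt X.c.D j * eJ X u τ' j := fun S τ' =>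
    mul_nonneg hc.le (Finset.sum_nonneg fun j _ => mul_nonneg (wt_nonneg X j) (eJ_nonneg hc _ _))
  cases τ with
  | leaf S => trivial
  | br p Sp t₁ t₀ => exact hnn _ _
  | add b t₁ t₀ =>
    have n1 := NDt_add₁ h
    have n0 := NDt_add₀ h
    have e1 := cf_node (X := X) (u := ⟨b + 1, u.c, u.A, u.B⟩) n1 b
    have e0 := cf_node (X := X) (u := ⟨b + 1, u.c, u.A, u.B⟩) n0 b
    have hcr' : CrS X X.Y Finset.univ b u t₁ t₀ ≤
      u.c * ∑ j ∈ Finset.univ.filter (fun j => X.c.D.it j ∈ t₁.items ∪ t₀.items),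
        wt X.c.D j * eJ X u (.add b t₁ t₀) j := hcr
    unfold CrS at hcr'
    rw [rv_univ, rv_univ] at hcr'
    have e1' : GWb343.cf (idk b) ((X.c.D.par X.Y).toDT X.c.sp u.B u.A t₁) = Uw X X.Y u t₁ := e1
    have e0' : GWb343.cf (idk b) ((X.c.D.par X.Y).toDT X.c.sp u.B u.A t₀) = Uw X X.Y u t₀ := e0
    show 2 * bil (KSk X b) (GWb343.cf (idk b) ((X.c.D.par X.Y).toDT X.c.sp u.B u.A t₁))
      (GWb343.cf (idk b) ((X.c.D.par X.Y).toDT X.c.sp u.B u.A t₀)) ≤ _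
    rw [e1', e0', bil_KSk]
    exact hcr'
  | up b Sp t => trivial
  | pl b t => exact hnn _ _
  | far b t₁ t₀ =>
    have n1 := FarNear7.NDt_far₁ h
    have n0 := NDt_far₀ h
    have e1 := cf_node (X := X) (u := ⟨b + 1, u.c, u.A, u.B⟩) n1 b
    have e0 := cf_node (X := X) (u := ⟨b + 1, u.c, u.A, u.B⟩) n0 b
    have hcr' : CrS X X.Y Finset.univ b u t₁ t₀ ≤
      u.c * ∑ j ∈ Finset.univ.filter (fun j => X.c.D.it j ∈ t₁.items ∪ t₀.items),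
        wt X.c.D j * eJ X u (.far b t₁ t₀) j := hcr
    unfold CrS at hcr'
    rw [rv_univ, rv_univ] at hcr'
    have e1' : GWb343.cf (idk b) ((X.c.D.par X.Y).toDT X.c.sp u.B u.A t₁) = Uw X X.Y u t₁ := e1
    have e0' : GWb343.cf (idk b) ((X.c.D.par X.Y).toDT X.c.sp u.B u.A t₀) = Uw X X.Y u t₀ := e0
    show 2 * bil (KSk X b) (GWb343.cf (idk b) ((X.c.D.par X.Y).toDT X.c.sp u.B u.A t₁))
      (GWb343.cf (idk b) ((X.c.D.par X.Y).toDT X.c.sp u.B u.A t₀)) ≤ _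
    rw [e1', e0', bil_KSk]
    exact hcr'

/-- **the root bound** from the cross terms, the path sums and the leaves -/
theorem root_of {K : ℝ} (hK : 0 ≤ K) (j₀ : X.c.Lam)
    (hcr : All (CrN X) ⟨top X.S, 1, 1, 1⟩ X.c.t)
    (hpath : All (fun u τ => ∀ j : X.c.Lam, j.1.1 ∈ τ.items → chE X.c.D.it (eJ X) u τ j ≤ 4)
      ⟨top X.S, 1, 1, 1⟩ X.c.t)
    (hle : All (LfK244.EKid X K) ⟨top X.S, 1, 1, 1⟩ X.c.t) :
    All (fun u τ => ¬ isL τ → ∀ q : ℕ,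
      leU (KSk X) idk q (X.self u τ Finset.univ).t + dC (KSk X) idk (X.self u τ Finset.univ).t ≤
        (K + 4) * X.mu j₀ u τ Finset.univ) ⟨top X.S, 1, 1, 1⟩ X.c.t := by
  classical
  have hQE := AsmX26.ctx_QE X j₀ (Q' := fun _ _ => True) (All.mono (fun _ _ _ => trivial) (ctx_NDt X))
  have hcrL : All (CrL (X.c.D.par X.Y) X.c.sp (KSk X) (wt X.c.D) (eJ X)) ⟨top X.S, 1, 1, 1⟩ X.c.t :=
    All.mono (fun u τ h => crL_of h.1.1 h.1.2 h.2) (((ctx_NDt X).and (ctx_cpos X)).and hcr)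
  refine All.mono (fun u τ hh hl q => ?_)
    ((((All_All _ _ hcrL).and (All_All _ _ hle)).and (hpath.and (ctx_tM X j₀))).and
      (((ctx_NDt X).and (ctx_cpos X)).and hQE))
  obtain ⟨⟨⟨g1, g2⟩, g3, g4⟩, ⟨g5, g6⟩, g7⟩ := hh
  have hmu : X.mu j₀ u τ Finset.univ = u.c * Ws (w X.ψ) τ.items := g7.mass
  have hmu2 : X.mu j₀ u τ Finset.univ =
      u.c * ∑ j ∈ Finset.univ.filter (fun j => X.c.D.it j ∈ τ.items), wt X.c.D j := g4 Finset.univ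
  have key := dt_items (X.c.D.par X.Y) X.c.sp (K := KSk X) (W := wt X.c.D) (w := w X.ψ)
    (e := eJ X) (Cl := K) τ q u g5.fit g1
    (lfK_of τ q u (fun S hS => absurd (by rw [hS]; trivial) hl) g2)
  refine key.trans ?_
  rw [← hmu, add_mul]
  refine add_le_add le_rfl ?_
  rw [hmu2]
  have e : (4:ℝ) * (u.c * ∑ j ∈ Finset.univ.filter (fun j => X.c.D.it j ∈ τ.items), wt X.c.D j) =
      u.c * ∑ j ∈ Finset.univ.filter (fun j => X.c.D.it j ∈ τ.items), wt X.c.D j * 4 := by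
    rw [← Finset.sum_mul]; ring
  rw [e]
  refine mul_le_mul_of_nonneg_left (Finset.sum_le_sum fun j hj => ?_) g6.le
  exact mul_le_mul_of_nonneg_left (g3 j (Finset.mem_filter.1 hj).2) (wt_nonneg X j)

end ctx

open Crest.Agent.R4P.PruneAcc17 (NoAcc NoAcc.of SxA)
open Crest.Agent.R4P.PruneBad17 (NoBad NoBad.of SxB)
open Crest.Agent.R4P.DseKid23 (DH kid_KQ KQ)
open Crest.Agent.R4P.DseTk23 (ctx_DH)
open Crest.Agent.R4P.RseRI17 (rs_kid)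
open Crest.Agent.R4P.ParF5 Crest.Agent.R4P.NumX34 Crest.Agent.R4P.ParT21
open Crest.Agent.R4P.FinAll26 (TgtD NumFin Ev_P2)
open Crest.Agent.R4P.Fin5 (CF)
open Crest.Agent.R4P.NumG23
open Crest.Agent.R4P.FinE26 (ForN)
open Crest.Agent.R4P.FinD21 (TChK TFar kidsP_of_kid ctx_ZA zT)

set_option maxHeartbeats 1000000 in
/-- **the cross terms of the contexts**, pairs of one index -/
theorem cr_of : ∃ c : ℝ, ∀ (N : Skel189.Num) (Ct C₀ : ℝ)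
    (Sx : ℕ → (ℕ → ℝ) → Finset ℕ → Finset ℕ), NumOK N (thF Ct) Ct C₀ Sx →
    NumFin N (thF Ct) Ct c → NumG N → ∀ (γ K κ A' : ℝ), N.B + 2 ≤ K → N.C1 + N.c2 + 2 ≤ κ → κ ≤ K →
      0 ≤ A' → (∀ p0 ψ S, Sx p0 ψ S ⊆ SxA γ A' N.B N.C1 N.c2 p0 ψ S) →
      (∀ p0 ψ S, Sx p0 ψ S ⊆ SxB γ N.B N.C1 N.c2 p0 ψ S) →
      TChK N γ K κ →
      ∃ Ks : ℝ, 0 ≤ Ks ∧ Ev N γ fun p0 P₀ X => CF X → Nonempty X.c.Lam →
        All (KidsR (EKidS X Ks)) ⟨top X.S, 1, 1, 1⟩ X.c.t ∧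
        All (CrN X) ⟨top X.S, 1, 1, 1⟩ X.c.t ∧
        All (fun u τ => ∀ j : X.c.Lam, j.1.1 ∈ τ.items → chE X.c.D.it (eJ X) u τ j ≤ 4)
          ⟨top X.S, 1, 1, 1⟩ X.c.t := by
  obtain ⟨c0, CI, hc0, hCI, HI⟩ := leafIa_ctx
  obtain ⟨κ₀, hκ₀, HA⟩ := cr_add
  obtain ⟨κ₁, hκ₁, HA'⟩ := cr_addS
  obtain ⟨κ₂, hκ₂, HF'⟩ := cr_farS
  have hi0 : 0 < 1 / c0 := by positivity
  refine ⟨1 / c0 + 10 * κ₀ + 10 * κ₁ + 100,
    fun N Ct C₀ Sx h hN hG γ K κ A' hK hk hkK hA' hSA hSB hCh => ?_⟩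
  obtain ⟨z, hz, hFar⟩ := FarPay7.tfar h γ
  have c1 := hN.C1
  have c2 := hN.c2
  have cB := hN.B
  have cA := hN.A
  have ca' := hN.a'
  have ca := hN.a
  have cCt := hN.Ct
  have hB := N.hB
  have hC1 := N.hC1
  have hc2 := N.hc2
  have hCt : 0 ≤ Ct := h.Ct0
  obtain ⟨p₂, hL⟩ := h.lnum
  set Kc : ℝ := CI + (1 + 12 + (z + 1)) + (1 + 12) with hKc
  have hKc0 : 0 ≤ Kc := by linarith
  have hKs0 : 0 ≤ Kc + 1 := by linarith
  -- the leaves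
  obtain ⟨q1, H1⟩ := HI N _ _ _ _ p₂ h.c20 (by linarith) (by linarith) le_rfl hL
  -- the add nodes
  have e1 : Crest.Agent.R4.ClsS.eps1 = 1 / 1000 := rfl
  obtain ⟨q2, H2⟩ := HA N Ct (N.a' + 1) Kc hCt hKc0 (by linarith) le_rfl (by linarith)
    (by rw [ca', ca, cCt, e1]; linarith) (by rw [ca', ca, cCt, c2]; linarith)
  obtain ⟨q3, H3⟩ := path_add N
  obtain ⟨q4, H4⟩ := ctx_dseA N hK hk hkK
  obtain ⟨q5, H5⟩ := ctx_KB N
  obtain ⟨q6, H6⟩ := ctx_NF N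
  -- smallness of the path sums of the add nodes
  obtain ⟨q7, H7⟩ : ∃ q7 : ℕ, ∀ p0 ≥ q7,
      2 * Real.log p0 ^ (-N.A) + 4 * (p0:ℝ) ^ (-(1/100):ℝ) ≤ 1 := by
    have t1 : Filter.Tendsto (fun p0 : ℕ => 2 * Real.log p0 ^ (-N.A)) Filter.atTop (nhds (2 * 0)) :=
      (((tendsto_rpow_neg_atTop (by linarith : 0 < N.A)).comp
        (Real.tendsto_log_atTop.comp tendsto_natCast_atTop_atTop))).const_mul 2
    have t2 : Filter.Tendsto (fun p0 : ℕ => 4 * (p0:ℝ) ^ (-(1/100):ℝ)) Filter.atTop (nhds (4 * 0)) :=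
      ((tendsto_rpow_neg_atTop (by norm_num : (0:ℝ) < 1/100)).comp
        tendsto_natCast_atTop_atTop).const_mul 4
    have t3 := t1.add t2
    rw [mul_zero, mul_zero, add_zero] at t3
    obtain ⟨q, hq⟩ := Filter.eventually_atTop.1 (t3.eventually (gt_mem_nhds one_pos))
    exact ⟨q, fun p0 hp => (hq p0 hp).le⟩
  obtain ⟨q8, H8⟩ := h.thlo
  obtain ⟨q9, H9⟩ := hCh
  obtain ⟨q10, H10⟩ := hFar Kc hKc0
  obtain ⟨q12, H12⟩ := rs_kid N (κ := 1) (A' := A') one_pos hA'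
  obtain ⟨q14, H14⟩ := ctx_DH h hG (by linarith) (by linarith) (by linarith)
  obtain ⟨q15, H15⟩ := kid_KQ N A'
  obtain ⟨q16, H16⟩ := HA' N Ct (N.a' + 1) (Kc + 1) hCt hKs0 (by linarith) le_rfl (by linarith)
    (by rw [ca', ca, cCt, e1]; linarith) (by rw [ca', ca, cCt, c2]; linarith)
  obtain ⟨q17, H17⟩ := HF' N Ct (Kc + 1) (N.B + 2) hCt hKs0 (by linarith)
  obtain ⟨q18, H18⟩ := Pz_le N
  refine ⟨Kc + 1, hKs0,
    q1 + q2 + q3 + q4 + q5 + q6 + q7 + q8 + q9 + q10 + q12 + q14 + q15 + q16 + q17 + q18 + 3,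
    fun p0 hp0 => ?_⟩
  obtain ⟨Q9, H9⟩ := H9 p0 (by omega)
  obtain ⟨Q10, H10⟩ := H10 p0 (by omega)
  refine ⟨Q9 + Q10 + 2, fun P₀ hP X hC hne => ?_⟩
  obtain ⟨j₀⟩ := hne
  have hP2 : 2 ≤ P₀ := by omega
  have hCh := H9 P₀ (by omega) X hC
  obtain ⟨ζF, hF⟩ := H10 P₀ (by omega) X hC
  have hRG := ctx_RG h X
  have hthr : ∀ p, p0 < p → Real.log p ^ (-Ct) ≤ X.c.wp.thr p := by
    intro p hp
    rw [NumX34.thr_eq h X]
    exact H8 p0 (by omega) _ _ p hp.le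
  have hadd : All (fun u τ => ∀ b t₁ t₀, τ = .add b t₁ t₀ → ∀ A : Finset X.c.Lam,
      IL X.c.D.it A →
      ED X X.Y A b u t₁ ≤ Kc * (u.c * ∑ q ∈ al X t₁ A, w X.ψ q) →
      ED X X.Y A b u t₀ ≤ Kc * (u.c * ∑ q ∈ al X t₀ A, w X.ψ q) →
      CrOk X X.Y A (wt X.c.D) (fun b u t₁ t₀ j => zA X b u t₁ t₀ j.1.1) b u t₁ t₀)
      ⟨top X.S, 1, 1, 1⟩ X.c.t := by
    refine All.mono (fun u τ hn b t₁ t₀ e A hA h1 h0 => ?_) (H6 p0 (by omega) γ P₀ hP2 X)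
    subst e
    exact H2 p0 (by omega) γ P₀ hP2 X hC.rse hC.d1 hthr X.Y u b t₁ t₀ hn A hA h1 h0
  have hpZ : ∀ j : X.c.Lam, j.1.1 ∈ X.S' →
      chE X.c.D.it (eZ X) ⟨top X.S, 1, 1, 1⟩ X.c.t j ≤ 1 := fun j hj =>
    (H3 p0 (by omega) γ P₀ hP2 X hC.rse j hj).trans (H7 p0 (by omega))
  obtain ⟨hZ1, hZ2⟩ := ctx_ZA hz zero_le_one hKc0 hF hpZ hadd
  have hKB := H5 p0 (by omega) γ P₀ hP2 X
  have hD := H14 p0 (by omega) γ P₀ X
  have key := H4 p0 (by omega) γ P₀ X hRG CI 1 (z + 1) zero_le_one (by linarith) (by linarith)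
    (H1 p0 (by omega) γ P₀ hP2 X) j₀ (zT X ζF) hZ1 hZ2
    (fun A hA => kidsP_of_kid (hCh A hA) X.c.t _ hKB)
  have hRS : All (KidsP (RSd X)) ⟨top X.S, 1, 1, 1⟩ X.c.t := by
    refine kidsP_of_kid (fun v V u τ hk => ?_) X.c.t _ hKB
    have hS : N.S2 p0 X.ψ X.S ⊆ Sx p0 X.ψ X.S := by rw [h.S2]; exact Finset.inter_subset_right
    have hγ : X.c.γ = γ := X.hγ
    refine H12 p0 (by omega) γ P₀ X hD X.Y v V u τ hk
      (H15 p0 (by omega) γ P₀ hP2 X hD ?_ ?_ v V u τ hk)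
    · intro q hq
      rw [hγ]
      exact NoAcc.of X (hS.trans (hSA _ _ _)) hq
    · intro q hq
      rw [hγ]
      exact NoBad.of X (hS.trans (hSB _ _ _)) hq
  have hKS : All (KidsR (EKidS X (Kc + 1))) ⟨top X.S, 1, 1, 1⟩ X.c.t :=
    All.mono (fun u τ hh => kidsS_node hKc0 hh.2.le hh.1.1.2 hh.1.2)
      ((key.and hRS).and (ctx_cpos X))
  refine ⟨hKS, ?_, path_eJ hpZ fun j hj => ?_⟩
  · refine All.mono (fun u τ hh => ?_) (((All_All _ _ hKS).and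
      (H6 p0 (by omega) γ P₀ hP2 X)).and ((ctx_cpos X).and
        (CrossSum29.ctx_FarI X ⟨top X.S, 1, 1, 1⟩)))
    obtain ⟨⟨g1, g2⟩, g3, g4⟩ := hh
    cases τ with
    | leaf S => trivial
    | br p Sp t₁ t₀ => trivial
    | add b t₁ t₀ =>
      exact H16 p0 (by omega) γ P₀ hP2 X hC.rse hC.d1 hthr X.Y u b t₁ t₀ g2 Finset.univ
        (IL_univ _) (g1.self.1 _ (AdI_univ _ _)) (g1.self.2 _ (AdI_univ _ _))
    | up b Sp t => trivial
    | pl b t => trivial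
    | far b t₁ t₀ =>
      have n0 := NDt_far₀ g2.nd
      exact H17 p0 (by omega) γ P₀ hP2 X hC.rse hC.d1 hthr X.Y u b t₁ t₀ g2 g4.2.1 Finset.univ
        (IL_univ _) (g1.self.1 _ (AdI_univ _ _)) (g1.self.2 _ (AdI_univ _ _))
        (NES_of hKs0 t₀ ⟨b + 1, u.c, u.A, u.B⟩ b g2.nd.self.node.1 g4.2.1 rfl n0 g3.le
          g1.self.2 g1.2.2 Finset.univ (AdI_univ _ _))
  · have h1 := (path_far (X := X) (κ := N.B + 2) (by linarith) (by omega) j X.c.t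
      ⟨top X.S, 1, 1, 1⟩ X.nodes (CrossSum29.ctx_FarI X ⟨top X.S, 1, 1, 1⟩).self).1
    have h2 := H18 p0 (by omega) γ P₀ X j.1.1 hj (top X.S)
    have h3 : Pz X (N.B + 2) j.1.1 (⟨top X.S, 1, 1, 1⟩ : NS).n =
      Pz X (N.B + 2) j.1.1 (top X.S) := rfl
    linarith

/-- **the target**: the root bound at all the nodes which are not leaves -/
def TgtJR (N : Skel189.Num) (γ : ℝ) : Prop :=
  ∃ C : ℝ, 0 ≤ C ∧ Ev N γ fun p0 P₀ X => CF X → ∀ j₀ : X.c.Lam,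
    All (fun u τ => ¬ isL τ → ∀ q : ℕ,
      leU (KSk X) idk q (X.self u τ Finset.univ).t + dC (KSk X) idk (X.self u τ Finset.univ).t ≤
        C * X.mu j₀ u τ Finset.univ) ⟨top X.S, 1, 1, 1⟩ X.c.t

/-- **the root bound for the final numbers** -/
theorem tgtJR_fin : ForN ParT21.thF NumG23.SxF TgtJR := by
  obtain ⟨c1, h1⟩ := DseTk23.tchk_of DseW7.wL
  obtain ⟨c2, h2⟩ := cr_of
  obtain ⟨c3, h3⟩ := LfK244.lk_fin
  refine ⟨max (max (max c1 c2) c3) 10, fun N Ct C₀ γ h hN hG => ?_⟩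
  have n1 : NumFin N (thF Ct) Ct c1 := EndD23.NumFin.weaken hN
    (((le_max_left _ _).trans (le_max_left _ _)).trans (le_max_left _ _))
  have n2 : NumFin N (thF Ct) Ct c2 := EndD23.NumFin.weaken hN
    (((le_max_right _ _).trans (le_max_left _ _)).trans (le_max_left _ _))
  have n3 : NumFin N (thF Ct) Ct c3 := EndD23.NumFin.weaken hN
    ((le_max_right _ _).trans (le_max_left _ _))
  have e1 : 10 ≤ N.C1 := (le_max_right _ _).trans hN.C1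
  have eB := hN.B
  have ec := hN.c2
  have hA' : 0 ≤ aAcc N.C1 := by unfold aAcc; linarith
  have s1 : ∀ p0 ψ S, SxF γ N.C1 p0 ψ S ⊆ SxA γ (aAcc N.C1) N.B N.C1 N.c2 p0 ψ S := by
    intro p0 ψ S
    rw [eB, ec]
    exact NumG23.SxF_subA γ N.C1 p0 ψ S
  have s2 : ∀ p0 ψ S, SxF γ N.C1 p0 ψ S ⊆ SxB γ N.B N.C1 N.c2 p0 ψ S := by
    intro p0 ψ S
    rw [eB, ec]
    exact NumG23.SxF_subB γ N.C1 p0 ψ S
  have k1 : TChK N γ (N.B + 2) (N.C1 + 3) := h1 N Ct C₀ _ h n1 hG γ (aAcc N.C1) hA' s1 s2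
  obtain ⟨Ks, hKs, k2⟩ := h2 N Ct C₀ _ h n2 hG γ (N.B + 2) (N.C1 + 3) (aAcc N.C1) le_rfl
    (by rw [ec]; linarith) (by rw [eB]; linarith) hA' s1 s2 k1
  obtain ⟨Ke, hKe, k3⟩ := h3 N Ct C₀ γ h n3 hG
  refine ⟨Ke + 4, by linarith, (k2.and k3).mono fun p0 P₀ X hh hC j₀ => ?_⟩
  obtain ⟨-, a2, a3⟩ := hh.1 hC ⟨j₀⟩
  exact root_of hKe j₀ a2 a3 (hh.2 hC)

end Crest.Agent.R4P.JnR5
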