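import Crest.Agent.R4P.RtS_28
import Crest.Agent.R4P.JnR_5
import Crest.Agent.R4P.PrF_45

/-!
R4 (S0004), powers pass, helper28: **the root bound of the P|N kernel "one index, different real
classes"** in the form of `PrD45.pn` / `PrF45.E0_pairs_root`.

* `KRt X s p i j` : `(log p)^s` if `i`, `j` have one index and different real classes at the column
  `p`, else `0` (column kernel); `KRt_ker`.
* **`pn_eq`** : `pn (KRt X s)` of the tree of a node `= 2 GG` (`RtS28`).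
* **`pn_root`** : `pn (KRt X s) ≤ (log p0)^(-A') * mass` at all the nodes of all the contexts with
  `RseH`, every `s`, `A' ≥ 0`; **`tgtPN`** : the same in the form `Ev N γ`.
-/

set_option autoImplicit false
set_option linter.unusedSectionVars false
set_option linter.unusedVariables false

open MeasureTheory Filter

namespace Crest.Agent.R4P.RtP28

open Crest.Agent.R4P.Cnt588 Crest.Agent.R4P.Item758 Crest.Agent.R4P.W363
open Crest.Agent.R4P.Data758 Crest.Agent.R4P.LfDat734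
open Crest.Agent.R4P.Bld532 (NS All NodeOk Bk)
open Crest.Agent.R4P.Step588 (NDt ND1 ctx_NDt)
open Crest.Agent.R4P.WalkIT579 (tp isL)
open Crest.Agent.R4P.Skel189 Crest.Agent.R4P.RseSt23 Crest.Agent.R4P.RseNd23
open Crest.Agent.R4P.RtC28 Crest.Agent.R4P.RtS28
open Crest.Agent.R4P.Frame758
open Crest.Agent.R4.Soft104 (w)
open Crest.Agent.R4.ClosR758 (rv Ro mem_Ro)
open Crest.Agent.R4.ClosL758 (Rr)
open Crest.Agent.R4.Tour104 (Q I PB)
open Crest.Agent.R4P.Walk560 (DT)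
open Crest.Agent.R4P.JnA5 Crest.Agent.R4P.JnB5 Crest.Agent.R4P.JnC5 Crest.Agent.R4P.JnD5
open Crest.Agent.R4P.JnE5 Crest.Agent.R4P.JnH5 Crest.Agent.R4P.JnR5
open Crest.Agent.R4P.PrD45 (pn)
open Crest.Agent.R4P.AddNode7 (Uw)
open Crest.Agent.R4P.Fin5 (CF)

section ctx
variable {N : Skel189.Num} {γ : ℝ} {p0 P₀ : ℕ}

/-- real classes of the column (as `TYK47.rhoX`) -/
noncomputable abbrev rhP (X : Ctx N γ p0 P₀) (p : ℕ) (j : X.c.Lam) := (X.c.D.par X.Y).rho p j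

open Classical in
/-- **the kernel** "one index, different real classes at the column `p`", weight `(log p)^s` -/
noncomputable def KRt (X : Ctx N γ p0 P₀) (s : ℝ) (p : ℕ) (i j : X.c.Lam) : ℝ :=
  if ixf X p i = ixf X p j ∧ rhP X p i ≠ rhP X p j then Real.log p ^ s else 0

variable {X : Ctx N γ p0 P₀}

lemma KRt_ker (s : ℝ) (p : ℕ) : Ker (KRt X s p) where
  nn := fun i j => by
    unfold KRt
    split_ifs
    · exact Real.rpow_nonneg (Real.log_natCast_nonneg p) _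
    · exact le_rfl
  sy := fun i j => by
    unfold KRt
    have e : (ixf X p i = ixf X p j ∧ rhP X p i ≠ rhP X p j) ↔
        (ixf X p j = ixf X p i ∧ rhP X p j ≠ rhP X p i) :=
      and_congr eq_comm ne_comm
    by_cases h : ixf X p i = ixf X p j ∧ rhP X p i ≠ rhP X p j
    · rw [if_pos h, if_pos (e.1 h)]
    · rw [if_neg h, if_neg (mt e.2 h)]

lemma mem_RSX {p : ℕ} {x : X.c.Lam × X.c.Lam} : x ∈ RS X X.Y p ↔
    ixf X p x.1 = ixf X p x.2 ∧ rhP X p x.1 ≠ rhP X p x.2 := by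
  have h1 := mem_RS (X := X) (Y := X.Y) (p := p) (x := x)
  constructor
  · intro h
    refine ⟨(h1.1 h).1, ?_⟩
    have h2 := (Finset.mem_sdiff.1 h).1
    exact (Finset.mem_filter.1 h2).2
  · rintro ⟨h2, h3⟩
    rw [Finset.mem_sdiff]
    refine ⟨Finset.mem_filter.2 ⟨Finset.mem_univ _, h3⟩, ?_⟩
    rw [Cf.Ro_par, Cf.mem_Ro, not_not]
    exact h2

/-- bilinear energy of the kernel -/
lemma bil_KRt (s : ℝ) (p : ℕ) (f g : X.c.Lam → ℝ → ℝ) :
    bil (KRt X s p) f g = Real.log p ^ s * Q (RS X X.Y p) f g := by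
  classical
  unfold bil Q
  rw [Finset.mul_sum]
  have e1 : ∀ c c' : X.c.Lam, KRt X s p c c' * I (fun x => f c x * g c' x) =
      if (c, c') ∈ RS X X.Y p then Real.log p ^ s * I (fun x => f c x * g c' x) else 0 := by
    intro c c'
    unfold KRt
    by_cases h : ixf X p c = ixf X p c' ∧ rhP X p c ≠ rhP X p c'
    · rw [if_pos h, if_pos ((mem_RSX (X := X) (p := p) (x := (c, c'))).2 h)]
    · rw [if_neg h, if_neg (fun hh => h ((mem_RSX (X := X) (p := p) (x := (c, c'))).1 hh)),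
        zero_mul]
  simp_rw [e1]
  rw [← Finset.sum_product']
  rw [← Finset.sum_filter]
  refine Finset.sum_congr ?_ fun x _ => rfl
  ext x
  simp

/-- restriction of the pairs of a tie to the items of its children -/
lemma Q_PNr {u : NS} {p : ℕ} {t₁ t₀ : IT} (F : TF X u p t₁ t₀) :
    Q (RS X X.Y p) (fun j => ((X.c.D.par X.Y).toFT u.B (u.A * p) t₁).U 1 j)
      (fun j => ((X.c.D.par X.Y).toFT (u.B * p) u.A t₀).U 1 j) =
    Q (PNr X X.Y p t₁ t₀) (UP X X.Y u p t₁ Finset.univ) (UN X X.Y u p t₀ Finset.univ) := by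
  classical
  have e1 : UP X X.Y u p t₁ Finset.univ =
      fun j => ((X.c.D.par X.Y).toFT u.B (u.A * p) t₁).U 1 j := rv_univ _
  have e0 : UN X X.Y u p t₀ Finset.univ =
      fun j => ((X.c.D.par X.Y).toFT (u.B * p) u.A t₀).U 1 j := rv_univ _
  rw [e1, e0]
  unfold Q
  symm
  refine Finset.sum_subset PNr_sub fun x hx hn => ?_
  by_contra h0
  obtain ⟨y, y1, y2⟩ := Crest.Agent.R4.AvgItem710.exists_of_I_ne h0
  obtain ⟨m1, -⟩ := Par.supp _ F.b0 F.f1 (F.w1 X.Y) (one_dvd _) y1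
  obtain ⟨m0, -⟩ := Par.supp _ (Nat.mul_pos F.b0 F.pr.pos) F.f0 (F.w0 X.Y) (one_dvd _) y2
  exact hn (mem_PNr.2 ⟨hx, m1, m0⟩)

/-- the values of a node -/
lemma dt_val {u : NS} {t : IT} (h : NDt X.par (w X.ψ) X.c.t u t) :
    ((X.c.D.par X.Y).toDT X.c.sp u.B u.A t).g.val =
      fun j => ((X.c.D.par X.Y).toFT u.B u.A t).U 1 j := by
  rw [(X.c.D.par X.Y).toDT_g X.c.sp t u.B u.A]
  exact Par.toG_val _ h.B_pos h.fit (node_wts h X.Y)

/-- **P against N energy of the tree of a node** -/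
theorem pn_eq (s : ℝ) : ∀ (τ : IT) (u : NS), All (NF X) u τ →
    pn (KRt X s) ((X.c.D.par X.Y).toDT X.c.sp u.B u.A τ) =
      2 * GG X X.Y Finset.univ (fun p => Real.log p ^ s) u τ := by
  intro τ
  induction τ with
  | leaf S => intro u h; exact (mul_zero 2).symm
  | br p Sp t₁ t₀ ih₁ ih₀ =>
    intro u h
    have F := tF h.1.nd
    have i1 := ih₁ ⟨p, u.c / (1 - 1 / (p : ℝ)), u.A * p, u.B⟩ h.2.1
    have i0 := ih₀ ⟨p, u.c * p, u.A, u.B * p⟩ h.2.2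
    have v1 := dt_val (X := X) h.2.1.self.nd
    have v0 := dt_val (X := X) h.2.2.self.nd
    show (1 - 1 / (p : ℝ)) * pn (KRt X s) ((X.c.D.par X.Y).toDT X.c.sp u.B (u.A * p) t₁) +
      1 / (p : ℝ) * pn (KRt X s) ((X.c.D.par X.Y).toDT X.c.sp (u.B * p) u.A t₀) +
      1 / (p : ℝ) * (2 * bil (KRt X s p) ((X.c.D.par X.Y).toDT X.c.sp u.B (u.A * p) t₁).g.val
        ((X.c.D.par X.Y).toDT X.c.sp (u.B * p) u.A t₀).g.val) =
      2 * (Real.log p ^ s * PNe X X.Y Finset.univ u p t₁ t₀ +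
        ((1 - 1 / (p : ℝ)) * GG X X.Y Finset.univ (fun p => Real.log p ^ s)
          ⟨p, u.c / (1 - 1 / (p : ℝ)), u.A * p, u.B⟩ t₁ +
        1 / (p : ℝ) * GG X X.Y Finset.univ (fun p => Real.log p ^ s)
          ⟨p, u.c * p, u.A, u.B * p⟩ t₀))
    have v1' : ((X.c.D.par X.Y).toDT X.c.sp u.B (u.A * p) t₁).g.val =
      fun j => ((X.c.D.par X.Y).toFT u.B (u.A * p) t₁).U 1 j := v1
    have v0' : ((X.c.D.par X.Y).toDT X.c.sp (u.B * p) u.A t₀).g.val =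
      fun j => ((X.c.D.par X.Y).toFT (u.B * p) u.A t₀).U 1 j := v0
    have i1' : pn (KRt X s) ((X.c.D.par X.Y).toDT X.c.sp u.B (u.A * p) t₁) = 2 *
      GG X X.Y Finset.univ (fun p => Real.log p ^ s) ⟨p, u.c / (1 - 1 / (p : ℝ)), u.A * p, u.B⟩ t₁ :=
      i1
    have i0' : pn (KRt X s) ((X.c.D.par X.Y).toDT X.c.sp (u.B * p) u.A t₀) = 2 *
      GG X X.Y Finset.univ (fun p => Real.log p ^ s) ⟨p, u.c * p, u.A, u.B * p⟩ t₀ := i0
    rw [i1', i0', v1', v0', bil_KRt, Q_PNr F]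
    show _ = 2 * (Real.log p ^ s * (1 / (p : ℝ) * Q (PNr X X.Y p t₁ t₀)
      (UP X X.Y u p t₁ Finset.univ) (UN X X.Y u p t₀ Finset.univ)) + _)
    ring
  | add b t₁ t₀ ih₁ ih₀ =>
    intro u h
    have i1 : pn (KRt X s) ((X.c.D.par X.Y).toDT X.c.sp u.B u.A t₁) = 2 *
      GG X X.Y Finset.univ (fun p => Real.log p ^ s) ⟨b + 1, u.c, u.A, u.B⟩ t₁ :=
      ih₁ ⟨b + 1, u.c, u.A, u.B⟩ h.2.1
    have i0 : pn (KRt X s) ((X.c.D.par X.Y).toDT X.c.sp u.B u.A t₀) = 2 *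
      GG X X.Y Finset.univ (fun p => Real.log p ^ s) ⟨b + 1, u.c, u.A, u.B⟩ t₀ :=
      ih₀ ⟨b + 1, u.c, u.A, u.B⟩ h.2.2
    show pn (KRt X s) ((X.c.D.par X.Y).toDT X.c.sp u.B u.A t₁) +
      pn (KRt X s) ((X.c.D.par X.Y).toDT X.c.sp u.B u.A t₀) =
      2 * (GG X X.Y Finset.univ (fun p => Real.log p ^ s) ⟨b + 1, u.c, u.A, u.B⟩ t₁ +
        GG X X.Y Finset.univ (fun p => Real.log p ^ s) ⟨b + 1, u.c, u.A, u.B⟩ t₀)
    rw [i1, i0]
    ring
  | up b Sp t ih => intro u h; exact ih ⟨b, u.c, u.A, u.B⟩ h.2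
  | pl b t ih =>
    intro u h
    have i1 : pn (KRt X s) ((X.c.D.par X.Y).toDT X.c.sp u.B (u.A * b) t) = 2 *
      GG X X.Y Finset.univ (fun p => Real.log p ^ s) ⟨b + 1, u.c, u.A * b, u.B⟩ t :=
      ih ⟨b + 1, u.c, u.A * b, u.B⟩ h.2
    show (1 - (0:ℝ)) * pn (KRt X s) ((X.c.D.par X.Y).toDT X.c.sp u.B (u.A * b) t) +
      0 * pn (KRt X s) (.leaf ((X.c.D.par X.Y).rho b) fun _ _ => 0) + 0 * _ =
      2 * GG X X.Y Finset.univ (fun p => Real.log p ^ s) ⟨b + 1, u.c, u.A * b, u.B⟩ t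
    rw [i1]
    ring
  | far b t₁ t₀ ih₁ ih₀ =>
    intro u h
    have i1 : pn (KRt X s) ((X.c.D.par X.Y).toDT X.c.sp u.B u.A t₁) = 2 *
      GG X X.Y Finset.univ (fun p => Real.log p ^ s) ⟨b + 1, u.c, u.A, u.B⟩ t₁ :=
      ih₁ ⟨b + 1, u.c, u.A, u.B⟩ h.2.1
    have i0 : pn (KRt X s) ((X.c.D.par X.Y).toDT X.c.sp u.B u.A t₀) = 2 *
      GG X X.Y Finset.univ (fun p => Real.log p ^ s) ⟨b + 1, u.c, u.A, u.B⟩ t₀ :=
      ih₀ ⟨b + 1, u.c, u.A, u.B⟩ h.2.2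
    show pn (KRt X s) ((X.c.D.par X.Y).toDT X.c.sp u.B u.A t₁) +
      pn (KRt X s) ((X.c.D.par X.Y).toDT X.c.sp u.B u.A t₀) =
      2 * (GG X X.Y Finset.univ (fun p => Real.log p ^ s) ⟨b + 1, u.c, u.A, u.B⟩ t₁ +
        GG X X.Y Finset.univ (fun p => Real.log p ^ s) ⟨b + 1, u.c, u.A, u.B⟩ t₀)
    rw [i1, i0]
    ring

end ctx

/-- **the root bound** of the P|N pairs of one index, different real classes -/
theorem pn_root (N : Skel189.Num) {s A' : ℝ} (hs : 0 ≤ s) (hA' : 0 ≤ A') : ∃ p₁ : ℕ, ∀ p0 ≥ p₁,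
    ∀ (γ : ℝ) (P₀ : ℕ), 2 ≤ P₀ → ∀ X : Ctx N γ p0 P₀, RseH X →
    All (fun u τ => pn (KRt X s) ((X.c.D.par X.Y).toDT X.c.sp u.B u.A τ) ≤
      Real.log p0 ^ (-A') * (u.c * Ws (w X.ψ) τ.items)) ⟨top X.S, 1, 1, 1⟩ X.c.t := by
  obtain ⟨p1, h1⟩ := walk N hs (show 0 ≤ A' + 1 by linarith)
  obtain ⟨p2, h2⟩ := ctx_NF N
  obtain ⟨p3, h3⟩ := Crest.Agent.R4.RseN207.log_large 2
  refine ⟨p1 + p2 + p3, fun p0 hp0 γ P₀ hP₀ X hX => ?_⟩
  have hall := h2 p0 (by omega) γ P₀ hP₀ X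
  refine All.mono (fun u τ h => ?_) (Step588.All_All _ _ hall)
  rw [pn_eq s τ u h]
  have k1 := h1 p0 (by omega) γ P₀ hP₀ X hX X.Y u τ h Finset.univ
  have k3 := h3 p0 (by omega)
  have hl0 : 0 < Real.log (p0:ℝ) := by linarith
  have M0 : 0 ≤ u.c * Ws (w X.ψ) τ.items := Mn_nonneg h.self
  have e1 : Real.log (p0:ℝ) ^ (-A') = Real.log p0 * Real.log p0 ^ (-(A' + 1)) := by
    conv_rhs => rw [← Real.rpow_one (Real.log (p0:ℝ)), ← Real.rpow_mul hl0.le,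
      ← Real.rpow_add hl0]
    congr 1; ring
  have e2 : 0 ≤ Real.log (p0:ℝ) ^ (-(A' + 1)) := Real.rpow_nonneg hl0.le _
  rw [e1]
  have e3 : 0 ≤ Real.log (p0:ℝ) ^ (-(A' + 1)) * (u.c * Ws (w X.ψ) τ.items) := mul_nonneg e2 M0
  nlinarith

/-- **the target**, all the contexts -/
def TgtPN (N : Skel189.Num) (γ : ℝ) : Prop :=
  ∀ s A' : ℝ, 0 ≤ s → 0 ≤ A' → Ev N γ fun p0 P₀ X => CF X → ∀ j₀ : X.c.Lam,
    All (fun u τ => pn (KRt X s) (X.self u τ Finset.univ).t ≤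
      Real.log p0 ^ (-A') * X.mu j₀ u τ Finset.univ) ⟨top X.S, 1, 1, 1⟩ X.c.t

theorem tgtPN (N : Skel189.Num) (γ : ℝ) : TgtPN N γ := by
  intro s A' hs hA'
  obtain ⟨p1, h1⟩ := pn_root N hs hA'
  refine ⟨p1, fun p0 hp0 => ⟨2, fun P₀ hP₀ X hC j₀ => ?_⟩⟩
  have hQE := AsmX26.ctx_QE X j₀ (Q' := fun _ _ => True)
    (All.mono (fun _ _ _ => trivial) (ctx_NDt X))
  refine All.mono (fun u τ hh => ?_) ((h1 p0 hp0 γ P₀ hP₀ X hC.rse).and hQE)
  obtain ⟨g1, g7⟩ := hh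
  have hmu : X.mu j₀ u τ Finset.univ = u.c * Ws (w X.ψ) τ.items := g7.mass
  rw [hmu]
  exact g1

end Crest.Agent.R4P.RtP28
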