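import Crest.Agent.R4P.PrJ_45
import Crest.Agent.R4P.RtP_28

/-!
R4 (S0004) with powers, T3, helper45: **the static sums over the trees of a context**.

* kernels: `bil_monoK`, `bil_addK`, `bil_smulK`, `bil_sumK`; sums over trees `ts`, `rE`, `pn` : `_mono`,
  `_add`, `_smul`, `_sumK`; **`ts_F1`** : `ts (F1 K1) ≤ ts (FB K1) / 2 + pn K1`.
* context: `vx X u τ i` = content of the piece `i` at the node; `VNd R ε` (rest columns), `VTs F ε`, `VPn K ε`
  (true ties): statements of a node; **`rE_nd`**, **`ts_nd`**, **`pn_nd`** : all the nodes below give the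
  sums of the tree; `lf1_mu` : linear functionals by the mass.
-/

set_option autoImplicit false
set_option linter.unusedSectionVars false
set_option linter.unusedVariables false
open MeasureTheory Filter Set

namespace Crest.Agent.R4P.PrK45

open Crest.Agent.R4.Tour104 Crest.Agent.R4.Tour758 Crest.Agent.R4.Avg758 Crest.Agent.R4.Clos758
open Crest.Agent.R4.ClosL758 Crest.Agent.R4.ClosG758 Crest.Agent.R4.ClosR758
open Crest.Agent.R4P.ClosR442 Crest.Agent.R4P.Grp36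
open Crest.Agent.R4P.GWa343 Crest.Agent.R4P.GWb343 Crest.Agent.R4P.GWc343
open Crest.Agent.R4P.JnE5 Crest.Agent.R4P.PrD45 Crest.Agent.R4P.PrG45 Crest.Agent.R4P.PrH45
open Crest.Agent.R4P.PrJ45
open Crest.Agent.R4P.Walk560 (DT)

/-! ### kernels -/

section ker
variable {Λ : Type} [Fintype Λ] {K K' : Λ → Λ → ℝ} {f g : Λ → ℝ → ℝ}

lemma bil_monoK (h : ∀ i j, K i j ≤ K' i j) (hf : ∀ i, PB (f i)) (hg : ∀ i, PB (g i)) :
    bil K f g ≤ bil K' f g :=
  Finset.sum_le_sum fun i _ => Finset.sum_le_sum fun j _ => mul_le_mul_of_nonneg_right (h i j)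
    (I_nonneg fun x => mul_nonneg ((hf i).nonneg x) ((hg j).nonneg x))

lemma bil_addK : bil (fun i j => K i j + K' i j) f g = bil K f g + bil K' f g := by
  unfold bil
  rw [← Finset.sum_add_distrib]
  refine Finset.sum_congr rfl fun i _ => ?_
  rw [← Finset.sum_add_distrib]
  exact Finset.sum_congr rfl fun j _ => by ring

lemma bil_smulK (c : ℝ) : bil (fun i j => c * K i j) f g = c * bil K f g := by
  unfold bil
  rw [Finset.mul_sum]
  refine Finset.sum_congr rfl fun i _ => ?_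
  rw [Finset.mul_sum]
  exact Finset.sum_congr rfl fun j _ => by ring

lemma bil_sumK {ι : Type*} (s : Finset ι) (L : ι → Λ → Λ → ℝ) :
    bil (fun i j => ∑ a ∈ s, L a i j) f g = ∑ a ∈ s, bil (L a) f g := by
  unfold bil
  symm
  rw [Finset.sum_comm]
  refine Finset.sum_congr rfl fun i _ => ?_
  rw [Finset.sum_comm]
  exact Finset.sum_congr rfl fun j _ => (Finset.sum_mul s (fun a => L a i j) _).symm

end ker

/-! ### sums over trees -/

section tree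
variable {Λ κ : Type} [Fintype Λ] [DecidableEq Λ] [Fintype κ] [DecidableEq κ]

/-- a true tie of the column `q` has the weight `1/q`, `q ≥ 2` -/
def TQ : DT Λ κ → Prop
  | .br q w _ _ _ _ _ _ => w = 0 ∨ (w = 1 / (q : ℝ) ∧ 2 ≤ q)
  | _ => True

lemma TQ.w01 {t : DT Λ κ} (h : TQ t) : W01 t := by
  cases t with
  | br q w r t₁ t₀ v B G =>
    rcases h with h | ⟨h, h2⟩
    · show 0 ≤ w ∧ w ≤ 1
      rw [h]; exact ⟨le_rfl, zero_le_one⟩
    · show 0 ≤ w ∧ w ≤ 1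
      have h3 : (2:ℝ) ≤ q := by exact_mod_cast h2
      rw [h]
      exact ⟨by positivity, (div_le_one (by linarith)).2 (by linarith)⟩
  | leaf r f => trivial
  | add q r t₁ t₀ => trivial
  | up q Sp t => trivial

variable {F G : ℕ → (Λ → ℝ → ℝ) → (Λ → ℝ → ℝ) → ℝ}

/-- **monotone** -/
theorem ts_mono (h : ∀ q, 2 ≤ q → ∀ a b : Λ → ℝ → ℝ, (∀ j, PB (a j)) → (∀ j, PB (b j)) →
    F q a b ≤ G q a b) {t : DT Λ κ} (hw : t.All TQ) (hp : t.All fun t => ∀ j, PB (t.g.val j)) :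
    ts F t ≤ ts G t := by
  classical
  induction t with
  | leaf r f => exact le_rfl
  | br q w r t₁ t₀ v B G' ih₁ ih₀ =>
    have a1 := ih₁ hw.2.1 hp.2.1
    have a0 := ih₀ hw.2.2 hp.2.2
    obtain ⟨w0, w1⟩ : 0 ≤ w ∧ w ≤ 1 := TQ.w01 hw.1
    have e : ∀ F' : ℕ → (Λ → ℝ → ℝ) → (Λ → ℝ → ℝ) → ℝ, ts F' (DT.br q w r t₁ t₀ v B G') =
        (1 - w) * ts F' t₁ + w * ts F' t₀ + if w = 0 then 0 else F' q t₁.g.val t₀.g.val := by
      intro F'
      show (1 - w) * ts F' t₁ + w * ts F' t₀ + (if w = 0 then 0 else F' q t₁.g.val t₀.g.val) = _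
      congr
    rw [e, e]
    have b1 := mul_le_mul_of_nonneg_left a1 (by linarith : (0:ℝ) ≤ 1 - w)
    have b0 := mul_le_mul_of_nonneg_left a0 w0
    rcases hw.1 with h0 | ⟨-, h2⟩
    · rw [if_pos h0, if_pos h0]; linarith
    · have := h q h2 t₁.g.val t₀.g.val hp.2.1.self hp.2.2.self
      split_ifs
      · linarith
      · linarith
  | add q r t₁ t₀ ih₁ ih₀ =>
    exact add_le_add (ih₁ hw.2.1 hp.2.1) (ih₀ hw.2.2 hp.2.2)
  | up q Sp t ih => exact ih hw.2 hp.2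

theorem ts_add (t : DT Λ κ) : ts (fun q a b => F q a b + G q a b) t = ts F t + ts G t := by
  classical
  induction t with
  | leaf r f => exact (add_zero _).symm
  | br q w r t₁ t₀ v B G' ih₁ ih₀ =>
    have e : ∀ F' : ℕ → (Λ → ℝ → ℝ) → (Λ → ℝ → ℝ) → ℝ, ts F' (DT.br q w r t₁ t₀ v B G') =
        (1 - w) * ts F' t₁ + w * ts F' t₀ + if w = 0 then 0 else F' q t₁.g.val t₀.g.val := by
      intro F'
      show (1 - w) * ts F' t₁ + w * ts F' t₀ + (if w = 0 then 0 else F' q t₁.g.val t₀.g.val) = _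
      congr
    rw [e, e, e, ih₁, ih₀]
    split_ifs
    · ring
    · ring
  | add q r t₁ t₀ ih₁ ih₀ =>
    show ts _ t₁ + ts _ t₀ = (ts F t₁ + ts F t₀) + (ts G t₁ + ts G t₀)
    rw [ih₁, ih₀]; ring
  | up q Sp t ih => exact ih

theorem ts_smul (c : ℝ) (t : DT Λ κ) : ts (fun q a b => c * F q a b) t = c * ts F t := by
  classical
  induction t with
  | leaf r f => exact (mul_zero _).symm
  | br q w r t₁ t₀ v B G' ih₁ ih₀ =>
    have e : ∀ F' : ℕ → (Λ → ℝ → ℝ) → (Λ → ℝ → ℝ) → ℝ, ts F' (DT.br q w r t₁ t₀ v B G') =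
        (1 - w) * ts F' t₁ + w * ts F' t₀ + if w = 0 then 0 else F' q t₁.g.val t₀.g.val := by
      intro F'
      show (1 - w) * ts F' t₁ + w * ts F' t₀ + (if w = 0 then 0 else F' q t₁.g.val t₀.g.val) = _
      congr
    rw [e, e, ih₁, ih₀]
    split_ifs
    · ring
    · ring
  | add q r t₁ t₀ ih₁ ih₀ =>
    show ts _ t₁ + ts _ t₀ = c * (ts F t₁ + ts F t₀)
    rw [ih₁, ih₀]; ring
  | up q Sp t ih => exact ih

/-- the P against N energies as a sum over the ties -/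
theorem pn_ts {K : ℕ → Λ → Λ → ℝ} {t : DT Λ κ} (hw : t.All TQ) :
    pn K t = ts (fun q a b => 1 / (q : ℝ) * (2 * bil (K q) a b)) t := by
  classical
  induction t with
  | leaf r f => rfl
  | br q w r t₁ t₀ v B G' ih₁ ih₀ =>
    have e : ts (fun q a b => 1 / (q : ℝ) * (2 * bil (K q) a b)) (DT.br q w r t₁ t₀ v B G') =
        (1 - w) * ts (fun q a b => 1 / (q : ℝ) * (2 * bil (K q) a b)) t₁ +
        w * ts (fun q a b => 1 / (q : ℝ) * (2 * bil (K q) a b)) t₀ +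
        if w = 0 then 0 else 1 / (q : ℝ) * (2 * bil (K q) t₁.g.val t₀.g.val) := by
      show (1 - w) * ts _ t₁ + w * ts _ t₀ + (if w = 0 then 0 else
        1 / (q : ℝ) * (2 * bil (K q) t₁.g.val t₀.g.val)) = _
      congr
    have e2 : pn K (DT.br q w r t₁ t₀ v B G') = (1 - w) * pn K t₁ + w * pn K t₀ +
        w * (2 * bil (K q) t₁.g.val t₀.g.val) := rfl
    rw [e, e2, ih₁ hw.2.1, ih₀ hw.2.2]
    rcases hw.1 with h0 | ⟨h1, h2⟩
    · rw [if_pos h0, h0]; ring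
    · have h3 : (0:ℝ) < q := by exact_mod_cast (by omega : 0 < q)
      have hne : w ≠ 0 := by rw [h1]; positivity
      rw [if_neg hne, h1]
  | add q r t₁ t₀ ih₁ ih₀ =>
    show pn K t₁ + pn K t₀ = _
    rw [ih₁ hw.2.1, ih₀ hw.2.2]; rfl
  | up q Sp t ih => exact ih hw.2

/-- **the energies `F1` by the quantities of the separated pairs** -/
theorem ts_F1 {K : ℕ → Λ → Λ → ℝ} (hK : ∀ q, Ker (K q)) {t : DT Λ κ} (hw : t.All TQ)
    (hp : t.All fun t => ∀ j, PB (t.g.val j)) : ts (F1 K) t ≤ 1 / 2 * ts (FB K) t + pn K t := by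
  rw [pn_ts hw, ← ts_smul, ← ts_add]
  refine ts_mono (fun q h2 a b ha hb => ?_) hw hp
  have h3 : (2:ℝ) ≤ q := by exact_mod_cast h2
  have h4 : (0:ℝ) < q := by linarith
  have h5 : 1 / (q : ℝ) ≤ 1 - 1 / (q : ℝ) := by
    rw [le_sub_iff_add_le, ← add_div, div_le_one h4]
    linarith
  have e1 : bil (K q) (fun j x => a j x + b j x) (fun j x => a j x + b j x) =
      bil (K q) a a + bil (K q) b b + 2 * bil (K q) a b := by
    rw [bil_add2 (hK q) ha hb]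
  unfold F1 FB
  rw [e1]
  have n1 := bil_nonneg (hK q) ha ha
  have := mul_le_mul_of_nonneg_right h5 n1
  nlinarith

variable {R R' : ℕ → (Λ → ℝ → ℝ) → ℝ}

lemma cols_mono {v : Λ → ℝ → ℝ} (h : ∀ p, R p v ≤ R' p v) (q p : ℕ) : cols R q p v ≤ cols R' q p v :=
  Finset.sum_le_sum fun p' _ => h p'

theorem rE_mono (h : ∀ p (v : Λ → ℝ → ℝ), (∀ j, PB (v j)) → R p v ≤ R' p v) {t : DT Λ κ}
    (hw : t.All W01) (hp : t.All fun t => ∀ j, PB (t.g.val j)) : ∀ p, rE R p t ≤ rE R' p t := by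
  induction t with
  | leaf r f => intro p; exact le_rfl
  | br q w r t₁ t₀ v B G' ih₁ ih₀ =>
    intro p
    obtain ⟨w0, w1⟩ : 0 ≤ w ∧ w ≤ 1 := hw.1
    have b1 := mul_le_mul_of_nonneg_left (ih₁ hw.2.1 hp.2.1 q) (by linarith : (0:ℝ) ≤ 1 - w)
    have b0 := mul_le_mul_of_nonneg_left (ih₀ hw.2.2 hp.2.2 q) w0
    have c := cols_mono (R := R) (R' := R') (fun p' => h p' _ hp.1) q p
    show cols R q p _ + ((1 - w) * rE R q t₁ + w * rE R q t₀) ≤
      cols R' q p _ + ((1 - w) * rE R' q t₁ + w * rE R' q t₀)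
    linarith
  | add q r t₁ t₀ ih₁ ih₀ =>
    intro p
    have c := cols_mono (R := R) (R' := R') (fun p' => h p' _ hp.1) q p
    exact add_le_add c (add_le_add (ih₁ hw.2.1 hp.2.1 q) (ih₀ hw.2.2 hp.2.2 q))
  | up q Sp t ih =>
    intro p
    have c := cols_mono (R := R) (R' := R') (fun p' => h p' _ hp.1) q p
    exact add_le_add c (ih hw.2 hp.2 q)

lemma cols_add (q p : ℕ) (v : Λ → ℝ → ℝ) :
    cols (fun p v => R p v + R' p v) q p v = cols R q p v + cols R' q p v :=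
  Finset.sum_add_distrib

theorem rE_add (t : DT Λ κ) : ∀ p, rE (fun p v => R p v + R' p v) p t = rE R p t + rE R' p t := by
  induction t with
  | leaf r f => intro p; exact (add_zero _).symm
  | br q w r t₁ t₀ v B G' ih₁ ih₀ =>
    intro p
    show cols _ q p _ + ((1 - w) * rE _ q t₁ + w * rE _ q t₀) =
      (cols R q p _ + ((1 - w) * rE R q t₁ + w * rE R q t₀)) +
      (cols R' q p _ + ((1 - w) * rE R' q t₁ + w * rE R' q t₀))
    rw [ih₁, ih₀, cols_add]; ring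
  | add q r t₁ t₀ ih₁ ih₀ =>
    intro p
    show cols _ q p _ + (rE _ q t₁ + rE _ q t₀) =
      (cols R q p _ + (rE R q t₁ + rE R q t₀)) + (cols R' q p _ + (rE R' q t₁ + rE R' q t₀))
    rw [ih₁, ih₀, cols_add]; ring
  | up q Sp t ih =>
    intro p
    show cols _ q p _ + rE _ q t = (cols R q p _ + rE R q t) + (cols R' q p _ + rE R' q t)
    rw [ih, cols_add]; ring

lemma cols_smul (c : ℝ) (q p : ℕ) (v : Λ → ℝ → ℝ) :
    cols (fun p v => c * R p v) q p v = c * cols R q p v := (Finset.mul_sum _ _ _).symm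

theorem rE_smul (c : ℝ) (t : DT Λ κ) : ∀ p, rE (fun p v => c * R p v) p t = c * rE R p t := by
  induction t with
  | leaf r f => intro p; exact (mul_zero _).symm
  | br q w r t₁ t₀ v B G' ih₁ ih₀ =>
    intro p
    show cols _ q p _ + ((1 - w) * rE _ q t₁ + w * rE _ q t₀) =
      c * (cols R q p _ + ((1 - w) * rE R q t₁ + w * rE R q t₀))
    rw [ih₁, ih₀, cols_smul]; ring
  | add q r t₁ t₀ ih₁ ih₀ =>
    intro p
    show cols _ q p _ + (rE _ q t₁ + rE _ q t₀) = c * (cols R q p _ + (rE R q t₁ + rE R q t₀))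
    rw [ih₁, ih₀, cols_smul]; ring
  | up q Sp t ih =>
    intro p
    show cols _ q p _ + rE _ q t = c * (cols R q p _ + rE R q t)
    rw [ih, cols_smul]; ring

/-- monotone in the kernel -/
theorem pn_mono {K K' : ℕ → Λ → Λ → ℝ} (h : ∀ q i j, K q i j ≤ K' q i j) {t : DT Λ κ}
    (hw : t.All TQ) (hp : t.All fun t => ∀ j, PB (t.g.val j)) : pn K t ≤ pn K' t := by
  rw [pn_ts hw, pn_ts hw]
  refine ts_mono (fun q h2 a b ha hb => ?_) hw hp
  have h3 : (0:ℝ) ≤ 1 / (q : ℝ) := by positivity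
  have := bil_monoK (h q) ha hb
  exact mul_le_mul_of_nonneg_left (by linarith) h3

theorem pn_add {K K' : ℕ → Λ → Λ → ℝ} {t : DT Λ κ} (hw : t.All TQ) :
    pn (fun q i j => K q i j + K' q i j) t = pn K t + pn K' t := by
  rw [pn_ts hw, pn_ts hw, pn_ts hw, ← ts_add]
  congr 1
  funext q a b
  rw [bil_addK]; ring

theorem pn_smul (c : ℝ) {K : ℕ → Λ → Λ → ℝ} {t : DT Λ κ} (hw : t.All TQ) :
    pn (fun q i j => c * K q i j) t = c * pn K t := by
  rw [pn_ts hw, pn_ts hw, ← ts_smul]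
  congr 1
  funext q a b
  rw [bil_smulK]; ring

lemma RN_mono {K K' : ℕ → Λ → Λ → ℝ} (h : ∀ q i j, K q i j ≤ K' q i j) (p : ℕ)
    (v : Λ → ℝ → ℝ) (hv : ∀ j, PB (v j)) : RN K p v ≤ RN K' p v := by
  unfold RN
  have := bil_monoK (h p) hv hv
  linarith

lemma RN_add {K K' : ℕ → Λ → Λ → ℝ} (p : ℕ) (v : Λ → ℝ → ℝ) :
    RN (fun q i j => K q i j + K' q i j) p v = RN K p v + RN K' p v := by
  unfold RN
  rw [bil_addK]; ring

lemma FB_add {K K' : ℕ → Λ → Λ → ℝ} (q : ℕ) (a b : Λ → ℝ → ℝ) :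
    FB (fun q i j => K q i j + K' q i j) q a b = FB K q a b + FB K' q a b := by
  unfold FB
  rw [bil_addK, bil_addK]; ring

lemma FB_mono {K K' : ℕ → Λ → Λ → ℝ} (h : ∀ q i j, K q i j ≤ K' q i j) {q : ℕ} (h2 : 2 ≤ q)
    {a b : Λ → ℝ → ℝ} (ha : ∀ j, PB (a j)) (hb : ∀ j, PB (b j)) : FB K q a b ≤ FB K' q a b := by
  have h3 : (2:ℝ) ≤ q := by exact_mod_cast h2
  have h4 : (0:ℝ) ≤ 1 / (q : ℝ) := by positivity
  have h5 : (0:ℝ) ≤ 1 - 1 / (q : ℝ) := by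
    rw [sub_nonneg, div_le_one (by linarith)]; linarith
  have a1 := mul_le_mul_of_nonneg_left (bil_monoK (h q) ha ha) h5
  have a2 := mul_le_mul_of_nonneg_left (bil_monoK (h q) hb hb) h4
  unfold FB
  linarith

end tree

/-! ### contexts -/

section ctx
open Crest.Agent.R4P.Cnt588 Crest.Agent.R4P.Item758 Crest.Agent.R4P.W363
open Crest.Agent.R4P.Data758 Crest.Agent.R4P.LfDat734
open Crest.Agent.R4P.Bld532 (NS All NodeOk)
open Crest.Agent.R4P.Step588 (NDt ctx_NDt)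
open Crest.Agent.R4P.WalkIT579 (tp isL)
open Crest.Agent.R4P.Skel189
open Crest.Agent.R4.Soft104 (w)
open Crest.Agent.R4P.Frame758
open Crest.Agent.R4P.TrR343
open Crest.Agent.R4P.GInst194 (mI)

variable {N : Skel189.Num} {γ : ℝ} {p0 P₀ : ℕ} {X : Ctx N γ p0 P₀}

/-- the decorated tree of a node -/
noncomputable abbrev tX (X : Ctx N γ p0 P₀) (u : NS) (τ : IT) :
    DT X.c.Lam (Lb (WL X.c.Lam) X.Y) := (X.c.D.par X.Y).toDT X.c.sp u.B u.A τ

/-- content of a piece at a node -/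
noncomputable abbrev vx (X : Ctx N γ p0 P₀) (u : NS) (τ : IT) : X.c.Lam → ℝ → ℝ :=
  fun j => ((X.c.D.par X.Y).toFT u.B u.A τ).U 1 j

/-- masses with coefficients -/
noncomputable def lm (X : Ctx N γ p0 P₀) (c : X.c.Lam → ℝ) (u : NS) (τ : IT) : ℝ :=
  ∑ i, c i * I (vx X u τ i)

lemma val_eq {u : NS} {τ : IT} (h : NDt X.par (w X.ψ) X.c.t u τ) : (tX X u τ).g.val = vx X u τ :=
  RtP28.dt_val h

lemma lm_eq {u : NS} {τ : IT} (h : NDt X.par (w X.ψ) X.c.t u τ) (c : X.c.Lam → ℝ) :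
    lf1 c (tX X u τ) = lm X c u τ := by
  unfold lf1 lm
  rw [val_eq h]

/-- **rest columns of a node** : `R p'` of the contents of the node at the columns `tp τ < p' ≤ u.n`,
all the primes of `u.A` are `≥ p'` (so the C-steps of the node are above the column `p'` or at it) -/
def VNd (X : Ctx N γ p0 P₀) (R : ℕ → (X.c.Lam → ℝ → ℝ) → ℝ) (ε : ℕ → X.c.Lam → ℝ) (u : NS) (τ : IT) :
    Prop :=
  ¬ isL τ → ∀ p', tp τ < p' → p' ≤ u.n → (∀ l : ℕ, l.Prime → l ∣ u.A → p' ≤ l) →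
    R p' (vx X u τ) ≤ lm X (ε p') u τ

/-- **true tie** -/
def VTs (X : Ctx N γ p0 P₀) (F : ℕ → (X.c.Lam → ℝ → ℝ) → (X.c.Lam → ℝ → ℝ) → ℝ)
    (ε : ℕ → X.c.Lam → ℝ) (u : NS) : IT → Prop
  | .br p Sp t₁ t₀ => F p (vx X ⟨p, u.c / (1 - 1 / (p : ℝ)), u.A * p, u.B⟩ t₁)
      (vx X ⟨p, u.c * p, u.A, u.B * p⟩ t₀) ≤ lm X (ε p) u (.br p Sp t₁ t₀)
  | _ => True

/-- a node property at the columns of the rest -/
lemma Cb_ctx {P : Bld532.Par} {W : ℕ → ℝ} {F : ℕ → DT X.c.Lam (Lb (WL X.c.Lam) X.Y) → Prop} :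
    ∀ (τ : IT) (u : NS) (c : ℕ), All (NodeOk P W) u τ →
    All (fun u τ => ¬ isL τ → ∀ p', tp τ < p' → p' ≤ u.n →
      (∀ l : ℕ, l.Prime → l ∣ u.A → p' ≤ l) → F p' (tX X u τ)) u τ → c ≤ u.n → tp τ ≤ c →
    (∀ l : ℕ, l.Prime → l ∣ u.A → c ≤ l) → Cb F c (tX X u τ) := by
  have key : ∀ {u : NS} {τ : IT} {n : ℕ}, NodeOk P W u τ → u.n ≤ n + 1 → tp τ ≤ n := by
    intro u τ n h hn
    by_cases hl : isL τ
    · rw [TYJ47.tp_leaf hl]; exact Nat.zero_le _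
    · have := (Crest.Agent.R4P.WalkIT579.top_of_nodeOk h hl).2.1
      omega
  intro τ
  induction τ with
  | leaf S => intro u c _ h hc _ _; trivial
  | br p Sp t₁ t₀ ih₁ ih₀ =>
    intro u c hn h hc ht hA
    have ht' : p ≤ c := ht
    have hp : p.Prime := hn.1.1
    refine ⟨fun p' hp' => ?_, ih₁ _ p hn.2.1 h.2.1 le_rfl (key hn.2.1.self (Nat.le_succ p)) ?_,
      ih₀ _ p hn.2.2 h.2.2 le_rfl (key hn.2.2.self (Nat.le_succ p)) fun l hl hd =>
        ht'.trans (hA l hl hd)⟩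
    · rw [Finset.mem_Ioc] at hp'
      exact h.1 (fun h => h) p' hp'.1 (hp'.2.trans hc) fun l hl hd => hp'.2.trans (hA l hl hd)
    · intro l hl hd
      rcases (Nat.Prime.dvd_mul hl).1 hd with h1 | h1
      · exact ht'.trans (hA l hl h1)
      · exact ((Nat.prime_dvd_prime_iff_eq hl hp).1 h1).ge
  | add b t₁ t₀ ih₁ ih₀ =>
    intro u c hn h hc ht hA
    have ht' : b ≤ c := ht
    refine ⟨fun p' hp' => ?_, ih₁ ⟨b + 1, u.c, u.A, u.B⟩ b hn.2.1 h.2.1 (Nat.le_succ b)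
        (key hn.2.1.self le_rfl) (fun l hl hd => ht'.trans (hA l hl hd)),
      ih₀ ⟨b + 1, u.c, u.A, u.B⟩ b hn.2.2 h.2.2 (Nat.le_succ b) (key hn.2.2.self le_rfl)
        (fun l hl hd => ht'.trans (hA l hl hd))⟩
    rw [Finset.mem_Ioc] at hp'
    exact h.1 (fun h => h) p' hp'.1 (hp'.2.trans hc) fun l hl hd => hp'.2.trans (hA l hl hd)
  | up b Sp t ih =>
    intro u c hn h hc ht hA
    have ht' : b ≤ c := ht
    refine ⟨fun p' hp' => ?_, ih ⟨b, u.c, u.A, u.B⟩ b hn.2 h.2 le_rfl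
      (key hn.2.self (Nat.le_succ b)) (fun l hl hd => ht'.trans (hA l hl hd))⟩
    rw [Finset.mem_Ioc] at hp'
    exact h.1 (fun h => h) p' hp'.1 (hp'.2.trans hc) fun l hl hd => hp'.2.trans (hA l hl hd)
  | pl b t ih =>
    intro u c hn h hc ht hA
    have ht' : b ≤ c := ht
    have hp : b.Prime := hn.1.1
    refine ⟨fun p' hp' => ?_, ih _ b hn.2 h.2 (Nat.le_succ b) (key hn.2.self le_rfl) ?_, trivial⟩
    · rw [Finset.mem_Ioc] at hp'
      exact h.1 (fun h => h) p' hp'.1 (hp'.2.trans hc) fun l hl hd => hp'.2.trans (hA l hl hd)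
    · intro l hl hd
      rcases (Nat.Prime.dvd_mul hl).1 hd with h1 | h1
      · exact ht'.trans (hA l hl h1)
      · exact ((Nat.prime_dvd_prime_iff_eq hl hp).1 h1).ge
  | far b t₁ t₀ ih₁ ih₀ =>
    intro u c hn h hc ht hA
    have ht' : b ≤ c := ht
    refine ⟨fun p' hp' => ?_, ih₁ ⟨b + 1, u.c, u.A, u.B⟩ b hn.2.1 h.2.1 (Nat.le_succ b)
        (key hn.2.1.self le_rfl) (fun l hl hd => ht'.trans (hA l hl hd)),
      ih₀ ⟨b + 1, u.c, u.A, u.B⟩ b hn.2.2 h.2.2 (Nat.le_succ b) (key hn.2.2.self le_rfl)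
        (fun l hl hd => ht'.trans (hA l hl hd))⟩
    rw [Finset.mem_Ioc] at hp'
    exact h.1 (fun h => h) p' hp'.1 (hp'.2.trans hc) fun l hl hd => hp'.2.trans (hA l hl hd)

/-- **regular nodes** of a context -/
structure RgN (X : Ctx N γ p0 P₀) (u : NS) (τ : IT) : Prop where
  nd : All (NDt X.par (w X.ψ) X.c.t) u τ
  im : (tX X u τ).All IMean
  pb : (tX X u τ).All fun t => ∀ j, PB (t.g.val j)
  tq : (tX X u τ).All TQ
  col : (tX X u τ).Col ((tX X u τ).top + 1)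
  nok : All (NodeOk X.par (w X.ψ)) u τ

theorem toDT_TQ {P : Bld532.Par} {W : ℕ → ℝ} {u : NS} {τ : IT} (h : All (NodeOk P W) u τ) :
    (tX X u τ).All TQ := by
  refine (X.c.D.par X.Y).toDT_All X.c.sp (Qp := NodeOk P W) (fun s t ht => ?_)
    (fun r => trivial) τ u h
  cases t with
  | leaf S => trivial
  | br p Sp t₁ t₀ => exact Or.inr ⟨rfl, ht.1.two_le⟩
  | add b t₁ t₀ => trivial
  | up b Sp t => trivial
  | pl b t => exact Or.inl rfl
  | far b t₁ t₀ => trivial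

theorem ctx_RgN (j₀ : X.c.Lam) : All (RgN X) ⟨top X.S, 1, 1, 1⟩ X.c.t := by
  have h2 := Step588.ctx_NDt (X := X)
  have h3 := Mrg35.ctx_side X j₀
  refine All.mono (fun u τ hh => ?_) ((Step588.All_All _ _ h2).and (h3.and
    (Step588.All_All _ _ X.nodes)))
  obtain ⟨a2, a3, a5⟩ := hh
  have b2 := a2.self
  have hgd : (tX X u τ).All XEx29.Gd :=
    XEx29.toDT_Gd (X.c.D.par X.Y) X.c.sp τ u.B u.A b2.B_pos b2.fit (RseNd23.node_wts b2 X.Y)
  exact ⟨a2, hgd.mono fun t h => h.1, hgd.mono fun t h => h.2.2.2, toDT_TQ a5,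
    (a3.2.col).lower (Nat.lt_succ_self _), a5⟩

lemma top_tp (u : NS) (τ : IT) : (tX X u τ).top = tp τ := by
  cases τ <;> rfl

/-- **energies at the rest columns** -/
theorem rE_nd' {R : ℕ → (X.c.Lam → ℝ → ℝ) → ℝ} {ε : ℕ → X.c.Lam → ℝ} (hε : ∀ q i, 0 ≤ ε q i)
    {u : NS} {τ : IT} (h : RgN X u τ) (hn : All (VNd X R ε) u τ) {c : ℕ} (hc : c ≤ u.n)
    (ht : (tX X u τ).top ≤ c) (hA : ∀ l : ℕ, l.Prime → l ∣ u.A → c ≤ l) :
    rE R c (tX X u τ) ≤ lm X (Es ε c) u τ := by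
  rw [← lm_eq h.nd.self]
  refine ls_rE hε (h.col.mono (Nat.succ_le_succ ht)) h.im h.pb ?_
  refine Cb_ctx τ u c h.nok ?_ hc (by rwa [top_tp] at ht) hA
  refine All.mono (fun u τ hh => ?_) (hn.and h.nd)
  intro hl p' h1 h2 h3
  have := hh.1 hl p' h1 h2 h3
  rw [val_eq hh.2, lm_eq hh.2]
  exact this

/-- **energies at the rest columns**, from the top of the node -/
theorem rE_nd {R : ℕ → (X.c.Lam → ℝ → ℝ) → ℝ} {ε : ℕ → X.c.Lam → ℝ} (hε : ∀ q i, 0 ≤ ε q i)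
    {u : NS} {τ : IT} (h : RgN X u τ) (hn : All (VNd X R ε) u τ) :
    rE R (tX X u τ).top (tX X u τ) ≤ lm X (Es ε (tX X u τ).top) u τ := by
  have hb := h.nd.self.bk
  by_cases hl : isL τ
  · cases τ with
    | leaf S =>
      rw [← lm_eq h.nd.self]
      exact lf1_nonneg (Es_nonneg hε _) h.pb.self
    | br p Sp t₁ t₀ => exact absurd hl fun h => h
    | add b t₁ t₀ => exact absurd hl fun h => h
    | up b Sp t => exact absurd hl fun h => h
    | pl b t => exact absurd hl fun h => h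
    | far b t₁ t₀ => exact absurd hl fun h => h
  · have h1 := (Crest.Agent.R4P.WalkIT579.top_of_nodeOk h.nok.self hl).2.1
    rw [← top_tp (X := X) u τ] at h1
    refine rE_nd' hε h hn h1.le le_rfl fun l hl' hd => ?_
    have := hb.geA l hl' hd
    omega

/-- **energies at the true ties** -/
theorem ts_nd {F : ℕ → (X.c.Lam → ℝ → ℝ) → (X.c.Lam → ℝ → ℝ) → ℝ} {ε : ℕ → X.c.Lam → ℝ}
    (hε : ∀ q i, 0 ≤ ε q i) {u : NS} {τ : IT} (h : RgN X u τ) (hn : All (VTs X F ε) u τ) {c : ℕ}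
    (ht : (tX X u τ).top ≤ c) : ts F (tX X u τ) ≤ lm X (Es ε c) u τ := by
  rw [← lm_eq h.nd.self]
  refine ls_ts hε (h.col.mono (Nat.succ_le_succ ht)) h.im h.pb ?_
  refine (X.c.D.par X.Y).toDT_All X.c.sp
    (Qp := fun u τ => VTs X F ε u τ ∧ All (NDt X.par (w X.ψ) X.c.t) u τ) (fun s t hh => ?_)
    (fun r => trivial) τ u (hn.and (Step588.All_All _ _ h.nd))
  cases t with
  | leaf S => trivial
  | br p Sp t₁ t₀ =>
    intro _
    obtain ⟨h1, h2⟩ := hh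
    have v1 : (tX X ⟨p, s.c / (1 - 1 / (p : ℝ)), s.A * p, s.B⟩ t₁).g.val = _ := val_eq h2.2.1.self
    have v0 : (tX X ⟨p, s.c * p, s.A, s.B * p⟩ t₀).g.val = _ := val_eq h2.2.2.self
    have e := lm_eq h2.self (ε p)
    show F p (tX X ⟨p, s.c / (1 - 1 / (p : ℝ)), s.A * p, s.B⟩ t₁).g.val
      (tX X ⟨p, s.c * p, s.A, s.B * p⟩ t₀).g.val ≤ lf1 (ε p) (tX X s (.br p Sp t₁ t₀))
    rw [v1, v0, e]
    exact h1
  | add b t₁ t₀ => trivial
  | up b Sp t => trivial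
  | pl b t => intro h0; exact absurd rfl h0
  | far b t₁ t₀ => trivial

/-- **the P against N energies** -/
theorem pn_nd {K : ℕ → X.c.Lam → X.c.Lam → ℝ} {ε : ℕ → X.c.Lam → ℝ}
    (hε : ∀ q i, 0 ≤ ε q i) {u : NS} {τ : IT} (h : RgN X u τ)
    (hn : All (VTs X (fun q a b => 1 / (q : ℝ) * (2 * bil (K q) a b)) ε) u τ) {c : ℕ}
    (ht : (tX X u τ).top ≤ c) : pn K (tX X u τ) ≤ lm X (Es ε c) u τ := by
  rw [pn_ts h.tq]
  exact ts_nd hε h hn ht

/-! ### linear functionals -/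

/-- pieces outside the node have no content -/
lemma vx_zero {u : NS} {τ : IT} {i : X.c.Lam} (hi : (X.c.D.par X.Y).it i ∉ τ.items) (x : ℝ) :
    vx X u τ i x = 0 :=
  (X.c.D.par X.Y).U_zero τ u.B u.A 1 i hi x

lemma pb_vx {u : NS} {τ : IT} (h : RgN X u τ) (i : X.c.Lam) : PB (vx X u τ i) := by
  have h1 := h.pb.self i
  rwa [val_eq h.nd.self] at h1

lemma I_vx_nonneg {u : NS} {τ : IT} (h : RgN X u τ) (i : X.c.Lam) : 0 ≤ I (vx X u τ i) :=
  I_nonneg fun x => (pb_vx h i).nonneg x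

lemma I_vx_zero {u : NS} {τ : IT} {i : X.c.Lam} (hi : (X.c.D.par X.Y).it i ∉ τ.items) :
    I (vx X u τ i) = 0 := by
  have e : vx X u τ i = fun _ => 0 := funext fun x => vx_zero hi x
  rw [e]
  unfold I
  simp

/-- only the pieces of the node count -/
lemma lm_congr {u : NS} {τ : IT} {c c' : X.c.Lam → ℝ}
    (h : ∀ i, (X.c.D.par X.Y).it i ∈ τ.items → c i = c' i) : lm X c u τ = lm X c' u τ := by
  unfold lm
  refine Finset.sum_congr rfl fun i _ => ?_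
  by_cases hi : (X.c.D.par X.Y).it i ∈ τ.items
  · rw [h i hi]
  · rw [I_vx_zero hi, mul_zero, mul_zero]

lemma lm_mono {u : NS} {τ : IT} (hr : RgN X u τ) {c c' : X.c.Lam → ℝ}
    (h : ∀ i, (X.c.D.par X.Y).it i ∈ τ.items → c i ≤ c' i) : lm X c u τ ≤ lm X c' u τ := by
  unfold lm
  refine Finset.sum_le_sum fun i _ => ?_
  by_cases hi : (X.c.D.par X.Y).it i ∈ τ.items
  · exact mul_le_mul_of_nonneg_right (h i hi) (I_vx_nonneg hr i)
  · rw [I_vx_zero hi, mul_zero, mul_zero]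

lemma lm_add (c c' : X.c.Lam → ℝ) (u : NS) (τ : IT) :
    lm X (fun i => c i + c' i) u τ = lm X c u τ + lm X c' u τ := by
  unfold lm
  rw [← Finset.sum_add_distrib]
  exact Finset.sum_congr rfl fun i _ => by ring

lemma lm_smul (r : ℝ) (c : X.c.Lam → ℝ) (u : NS) (τ : IT) :
    lm X (fun i => r * c i) u τ = r * lm X c u τ := by
  unfold lm
  rw [Finset.mul_sum]
  exact Finset.sum_congr rfl fun i _ => by ring

lemma lm_sum {ι : Type*} (s : Finset ι) (c : ι → X.c.Lam → ℝ) (u : NS) (τ : IT) :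
    lm X (fun i => ∑ a ∈ s, c a i) u τ = ∑ a ∈ s, lm X (c a) u τ := by
  unfold lm
  rw [Finset.sum_comm]
  exact Finset.sum_congr rfl fun i _ => by rw [Finset.sum_mul]

/-- **the children of a true tie** -/
theorem lm_br {u : NS} {p : ℕ} {Sp : Finset ℕ} {t₁ t₀ : IT} (h : RgN X u (.br p Sp t₁ t₀))
    (c : X.c.Lam → ℝ) : lm X c u (.br p Sp t₁ t₀) =
      (1 - 1 / (p : ℝ)) * lm X c ⟨p, u.c / (1 - 1 / (p : ℝ)), u.A * p, u.B⟩ t₁ +
        1 / (p : ℝ) * lm X c ⟨p, u.c * p, u.A, u.B * p⟩ t₀ := by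
  have h2 := h.nd
  rw [← lm_eq h2.self, ← lm_eq h2.2.1.self, ← lm_eq h2.2.2.self]
  exact (lf1_br h.im.1 h.pb.2.1.self h.pb.2.2.self h.pb.1 c).symm

/-- **different rates for the pieces in the two children** -/
theorem lm_br2 {u : NS} {p : ℕ} {Sp : Finset ℕ} {t₁ t₀ : IT} (h : RgN X u (.br p Sp t₁ t₀))
    {c c₁ c₀ : X.c.Lam → ℝ} (h1 : ∀ i, (X.c.D.par X.Y).it i ∈ t₁.items → c₁ i ≤ c i)
    (h0 : ∀ i, (X.c.D.par X.Y).it i ∈ t₀.items → c₀ i ≤ c i)
    (r1 : RgN X ⟨p, u.c / (1 - 1 / (p : ℝ)), u.A * p, u.B⟩ t₁)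
    (r0 : RgN X ⟨p, u.c * p, u.A, u.B * p⟩ t₀) :
    (1 - 1 / (p : ℝ)) * lm X c₁ ⟨p, u.c / (1 - 1 / (p : ℝ)), u.A * p, u.B⟩ t₁ +
        1 / (p : ℝ) * lm X c₀ ⟨p, u.c * p, u.A, u.B * p⟩ t₀ ≤ lm X c u (.br p Sp t₁ t₀) := by
  obtain ⟨hq0, w0, w1, -⟩ := h.im.self
  rw [lm_br h]
  refine add_le_add (mul_le_mul_of_nonneg_left (lm_mono r1 h1) (by linarith))
    (mul_le_mul_of_nonneg_left (lm_mono r0 h0) w0)

/-- **linear functionals by the mass** -/
theorem lm_mu (N : Skel189.Num) : ∃ p₁ : ℕ, ∀ p0 ≥ p₁, ∀ (γ : ℝ) (P₀ : ℕ), 2 ≤ P₀ →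
    ∀ X : Ctx N γ p0 P₀, ∀ j₀ : X.c.Lam, All (fun u τ => ∀ (c : X.c.Lam → ℝ) (C : ℝ), 0 ≤ C →
      (∀ i, (X.c.D.par X.Y).it i ∈ τ.items → c i ≤ C) →
      lm X c u τ ≤ 4 * C * X.mu j₀ u τ Finset.univ) ⟨top X.S, 1, 1, 1⟩ X.c.t := by
  obtain ⟨p1, h1⟩ := ctx_sum_mI N
  refine ⟨p1, fun p0 hp0 γ P₀ hP X j₀ => ?_⟩
  refine All.mono (fun u τ hh c C hC hc => ?_) ((h1 p0 hp0 γ P₀ hP X j₀).and (ctx_RgN j₀))
  obtain ⟨a1, a2⟩ := hh
  have b1 := a1 Finset.univ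
  have e : ∀ j, mI (tD X.c.D (leafs 1 1 X.c.t) X.c.sp u.B u.A τ) j = I (vx X u τ j) := by
    intro j
    show I ((tX X u τ).g.val j) = _
    rw [val_eq a2.nd.self]
  calc lm X c u τ ≤ lm X (fun _ => C) u τ := lm_mono a2 hc
    _ = C * ∑ j, I (vx X u τ j) := by unfold lm; rw [Finset.mul_sum]
    _ ≤ C * (4 * X.mu j₀ u τ Finset.univ) := by
      refine mul_le_mul_of_nonneg_left ?_ hC
      rw [← Finset.sum_congr rfl fun j _ => e j]
      exact b1
    _ = 4 * C * X.mu j₀ u τ Finset.univ := by ring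

end ctx

end Crest.Agent.R4P.PrK45
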