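import Crest.Agent.R4P.GcdT_37
import Crest.Agent.R4P.AcG_41

/-!
R4 (S0004) with powers, helper37: **`GcdT37.late_min` with the product form** : main term
`C U^(-1/8) √(∑ R) √(∑ R')`, error `U^(-M) (∑ R + ∑ R')` for every `M` (non-smooth pairs).

* `Tl P U e F` : tail hypothesis of a counted family;
* `late_minM` : `F` counted;  **`late2M`** : one of the two families counted (`AcG41.Fam`).
-/

set_option autoImplicit false
set_option linter.unusedVariables false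

open Finset

namespace Crest.Agent.R4P.GcdU37

open Crest.Agent.R4.HVW560 Crest.Agent.R4.Smo944 Crest.Agent.R016
open Crest.Agent.R4.ClsS (wn_nonneg mul_wn_sq)
open Crest.Agent.R4.PinE104 (ell_nonneg)
open Crest.Agent.R4P.GcdK37 Crest.Agent.R4P.GcdW41 Crest.Agent.R4P.GcdS37 Crest.Agent.R4P.GcdT37
open Crest.Agent.R4P.AcG41 (Fam)

open Classical in
/-- **tails**: the divisors with a large prime are sparse -/
def Tl {ι : Type} (P : ℕ) (U : ℝ) (F : Finset ι) (e : ι → ℕ) : Prop :=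
  ∀ i ∈ F, ∀ z : ℕ, P ≤ z →
    ∑ d ∈ (e i).divisors.filter (fun d => ∃ b : ℕ, b.Prime ∧ z < b ∧ b ∣ d), (1 : ℝ) / d ≤
      U * (z : ℝ) ^ (-(1 / 2) : ℝ)

lemma Tl.sub {ι : Type} {P : ℕ} {U : ℝ} {F F' : Finset ι} {e : ι → ℕ} (h : Tl P U F e) (hF : F' ⊆ F) :
    Tl P U F' e := fun i hi => h i (hF hi)

lemma Tl.mono {ι : Type} {P : ℕ} {U U' : ℝ} {F : Finset ι} {e : ι → ℕ} (h : Tl P U F e) (hU : U ≤ U') :
    Tl P U' F e := fun i hi z hz => (h i hi z hz).trans (mul_le_mul_of_nonneg_right hU (by positivity))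

open Classical in
/-- **LATE FAMILY AGAINST AN ARBITRARY FAMILY** (no smoothness), product form -/
theorem late_minM {A M : ℝ} (hA : 0 ≤ A) (hM : 0 ≤ M) : ∃ Ce : ℝ, 1 ≤ Ce ∧ ∃ C : ℝ, 1 ≤ C ∧ ∀ (ι κ : Type) (P : ℕ)
    (U : ℝ) (Rel : ℕ × ℕ → Prop) (F : Finset ι) (G : Finset κ) (e : ι → ℕ) (e' : κ → ℕ)
    (R : ι → ℝ) (R' : κ → ℝ), 2 ≤ P → (3 + Real.log P) ^ Ce ≤ U → (F.card : ℝ) ≤ U ^ A →
    (∀ (z : ℕ) (K : ℝ) (Q : Finset (ℕ × ℕ)), 2 ≤ z → 0 ≤ K →
      (∀ t ∈ Q, Sm2 z t ∧ t.1.Coprime t.2 ∧ Rel t) →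
      ∑ t ∈ Q, wn K t.1 * wn K t.2 ≤ 4 * (3 + Real.log z) / √U * Ez K z) →
    (∀ i ∈ F, 0 < e i) → (∀ j ∈ G, 0 < e' j) → (∀ i ∈ F, ∀ j ∈ F, e i = e j → i = j) →
    (∀ i ∈ G, ∀ j ∈ G, e' i = e' j → i = j) → (∀ i ∈ F, 0 ≤ R i) → (∀ j ∈ G, 0 ≤ R' j) →
    Tl P U F e →
    ∑ i ∈ F, ∑ j ∈ G, ind (Rel (rd (e i) (e' j))) *
      min (R i / ((rd (e i) (e' j)).1 : ℕ)) (R' j / ((rd (e i) (e' j)).2 : ℕ)) ≤
      C * U ^ (-(1 / 8) : ℝ) * (√(∑ i ∈ F, R i) * √(∑ j ∈ G, R' j)) +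
        2 * U ^ (-M) * (∑ i ∈ F, R i + ∑ j ∈ G, R' j) := by
  obtain ⟨C0, hC0, h0⟩ := late_smooth hA
  -- the exponent
  set N : ℝ := 2 * A + 4 * M + 8 with hN
  have hN0 : 0 < N := by rw [hN]; linarith
  -- `3 + log P ≤ U^(1/(2 C0)) / 2`, `N log U ≤ U^(1/(2 C0)) ...`
  set b : ℝ := 1 / (2 * C0) with hb
  have hb0 : 0 < b := by rw [hb]; positivity
  set Ce : ℝ := max (2 * C0) (2 * C0 * (Real.log 2 + Real.log (1 + N / b))) + 1 with hCe
  have hCe1 : 2 * C0 ≤ Ce := by rw [hCe]; have := le_max_left (2 * C0) (2 * C0 * (Real.log 2 + Real.log (1 + N / b))); linarith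
  have hCe2 : 2 * C0 * (Real.log 2 + Real.log (1 + N / b)) ≤ Ce := by
    rw [hCe]; have := le_max_right (2 * C0) (2 * C0 * (Real.log 2 + Real.log (1 + N / b))); linarith
  refine ⟨Ce, by linarith, C0, by linarith, ?_⟩
  intro ι κ P U Rel F G e e' R R' hP hPU hcard hQ hF hG hei hej hR hR' htail
  have hlP : 0 ≤ Real.log P := Real.log_natCast_nonneg P
  have hw1 : 1 ≤ 3 + Real.log P := by linarith
  have hCe0 : 0 < Ce := by linarith
  have hU : 1 ≤ U := (Real.one_le_rpow hw1 hCe0.le).trans hPU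
  have hU0 : 0 < U := by linarith
  have hsR : 0 ≤ ∑ i ∈ F, R i := Finset.sum_nonneg hR
  have hsR' : 0 ≤ ∑ j ∈ G, R' j := Finset.sum_nonneg hR'
  set Y : ℕ := ⌈U ^ (A + M + 1)⌉₊ with hY
  have hY1 : U ^ (A + M + 1) ≤ Y := Nat.le_ceil _
  have hUA1 : 1 ≤ U ^ (A + M + 1) := Real.one_le_rpow hU (by linarith)
  have hY2 : (Y : ℝ) ≤ 2 * U ^ (A + M + 1) := by
    have := (Nat.ceil_lt_add_one (by linarith : (0:ℝ) ≤ U ^ (A + M + 1))).le
    linarith
  set z : ℕ := max P (max Y ⌈U ^ (2 * A + 4 * M + 6)⌉₊) with hz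
  have hzP : P ≤ z := le_max_left _ _
  have hzY : Y ≤ z := (le_max_left _ _).trans (le_max_right _ _)
  have hzU : U ^ (2 * A + 4 * M + 6) ≤ z := (Nat.le_ceil _).trans
    (by exact_mod_cast (le_max_right _ _).trans (le_max_right _ _))
  have hz2 : 2 ≤ z := hP.trans hzP
  have hU2 : 2 ≤ U := by
    have h1 : (3 : ℝ) ^ (1 : ℝ) ≤ (3 + Real.log P) ^ Ce :=
      (Real.rpow_le_rpow (by norm_num) (by linarith) (by norm_num)).trans
        (Real.rpow_le_rpow_of_exponent_le hw1 (by linarith))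
    rw [Real.rpow_one] at h1
    linarith
  -- `log z`
  have hlz : Real.log z ≤ Real.log P + N * Real.log U := by
    have hlU : 0 ≤ Real.log U := Real.log_nonneg hU
    have hP0 : (0 : ℝ) < P := by exact_mod_cast (by omega : 0 < P)
    have h1 : (z : ℝ) ≤ P * U ^ N := by
      have hUN : 1 ≤ U ^ N := Real.one_le_rpow hU hN0.le
      have hP1 : (1 : ℝ) ≤ P := by exact_mod_cast (by omega : 1 ≤ P)
      have h2 : (P : ℝ) ≤ P * U ^ N := le_mul_of_one_le_right hP0.le hUN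
      have h3 : (Y : ℝ) ≤ P * U ^ N := by
        have h4 : 2 * U ^ (A + M + 1) ≤ U ^ N := by
          calc 2 * U ^ (A + M + 1) ≤ U ^ (1 : ℝ) * U ^ (A + M + 1) := by
                rw [Real.rpow_one]
                exact mul_le_mul_of_nonneg_right hU2 (by positivity)
            _ = U ^ (1 + (A + M + 1)) := (Real.rpow_add hU0 _ _).symm
            _ ≤ U ^ N := Real.rpow_le_rpow_of_exponent_le hU (by rw [hN]; linarith)
        have h5 : U ^ N ≤ P * U ^ N := le_mul_of_one_le_left (by positivity) hP1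
        linarith
      have h4 : ((⌈U ^ (2 * A + 4 * M + 6)⌉₊ : ℕ) : ℝ) ≤ P * U ^ N := by
        have h6 : 1 ≤ U ^ (2 * A + 4 * M + 6) := Real.one_le_rpow hU (by linarith)
        have h7 := (Nat.ceil_lt_add_one (by linarith : (0:ℝ) ≤ U ^ (2 * A + 4 * M + 6))).le
        have h8 : 2 * U ^ (2 * A + 4 * M + 6) ≤ U ^ N := by
          calc 2 * U ^ (2 * A + 4 * M + 6) ≤ U ^ (1 : ℝ) * U ^ (2 * A + 4 * M + 6) := by
                rw [Real.rpow_one]
                exact mul_le_mul_of_nonneg_right hU2 (by positivity)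
            _ = U ^ (1 + (2 * A + 4 * M + 6)) := (Real.rpow_add hU0 _ _).symm
            _ ≤ U ^ N := Real.rpow_le_rpow_of_exponent_le hU (by rw [hN]; linarith)
        have h5 : U ^ N ≤ P * U ^ N := le_mul_of_one_le_left (by positivity) hP1
        linarith
      rw [hz]
      push_cast
      exact max_le h2 (max_le h3 h4)
    have hz0 : (0 : ℝ) < z := by exact_mod_cast (by omega : 0 < z)
    calc Real.log z ≤ Real.log (P * U ^ N) := Real.log_le_log hz0 h1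
      _ = Real.log P + N * Real.log U := by
          rw [Real.log_mul hP0.ne' (by positivity), Real.log_rpow hU0]
  -- the smoothness condition
  have hcond : (3 + Real.log z) ^ C0 ≤ U := by
    have hC00 : 0 < C0 := by linarith
    -- `V = U^b`
    have hV1 : 3 + Real.log P ≤ U ^ b := by
      have h1 : (3 + Real.log P) ^ (2 * C0) ≤ U :=
        (Real.rpow_le_rpow_of_exponent_le hw1 hCe1).trans hPU
      calc 3 + Real.log P = ((3 + Real.log P) ^ (2 * C0)) ^ b := by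
            rw [← Real.rpow_mul (by linarith), hb]
            rw [mul_one_div_cancel (by positivity), Real.rpow_one]
        _ ≤ U ^ b := Real.rpow_le_rpow (by positivity) h1 hb0.le
    have hV2 : N * Real.log U ≤ N / b * U ^ b := by
      have h1 := Real.log_le_rpow_div hU0.le hb0
      calc N * Real.log U ≤ N * (U ^ b / b) := mul_le_mul_of_nonneg_left h1 hN0.le
        _ = _ := by ring
    have hV3 : 3 + Real.log z ≤ (1 + N / b) * U ^ b := by
      calc 3 + Real.log z ≤ (3 + Real.log P) + N * Real.log U := by linarith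
        _ ≤ U ^ b + N / b * U ^ b := add_le_add hV1 hV2
        _ = _ := by ring
    have hNb : 0 < N / b := by positivity
    have hlz0 : 0 ≤ Real.log z := Real.log_natCast_nonneg z
    -- `(1 + N/b)^C0 ≤ U^(1/2)`
    have hV4 : (1 + N / b) ^ C0 ≤ U ^ (1 / 2 : ℝ) := by
      have h1 : Real.exp (2 * C0 * (Real.log (1 + N / b))) ≤ U := by
        have h3 : (1 : ℝ) ≤ Real.log (3 + Real.log P) := by
          have : Real.exp 1 ≤ 3 + Real.log P := by
            have := Real.exp_one_lt_d9; linarith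
          rwa [Real.le_log_iff_exp_le (by linarith)]
        have hl2 : 0 ≤ Real.log 2 := Real.log_nonneg (by norm_num)
        calc Real.exp (2 * C0 * (Real.log (1 + N / b))) ≤ Real.exp (Real.log (3 + Real.log P) * Ce) := by
              refine Real.exp_le_exp.2 ?_
              have h4 : 2 * C0 * Real.log (1 + N / b) ≤ Ce := by nlinarith
              calc _ ≤ Ce := h4
                _ = 1 * Ce := (one_mul _).symm
                _ ≤ _ := mul_le_mul_of_nonneg_right h3 hCe0.le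
          _ = (3 + Real.log P) ^ Ce := by rw [Real.rpow_def_of_pos (by linarith)]
          _ ≤ U := hPU
      have h2 : (1 + N / b) ^ (2 * C0) ≤ U := by
        rw [Real.rpow_def_of_pos (by linarith)]
        calc _ = Real.exp (2 * C0 * (Real.log (1 + N / b))) := by congr 1; ring
          _ ≤ U := h1
      calc (1 + N / b) ^ C0 = ((1 + N / b) ^ (2 * C0)) ^ (1 / 2 : ℝ) := by
            rw [← Real.rpow_mul (by linarith)]; congr 1; ring
        _ ≤ U ^ (1 / 2 : ℝ) := Real.rpow_le_rpow (by positivity) h2 (by norm_num)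
    calc (3 + Real.log z) ^ C0 ≤ ((1 + N / b) * U ^ b) ^ C0 :=
          Real.rpow_le_rpow (by linarith) hV3 hC00.le
      _ = (1 + N / b) ^ C0 * U ^ (1 / 2 : ℝ) := by
          rw [Real.mul_rpow (by linarith) (by positivity), ← Real.rpow_mul hU0.le]
          congr 2
          rw [hb]; field_simp
      _ ≤ U ^ (1 / 2 : ℝ) * U ^ (1 / 2 : ℝ) := mul_le_mul_of_nonneg_right hV4 (by positivity)
      _ = U := by rw [← Real.rpow_add hU0]; norm_num
  -- the three kinds of pairs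
  have hsm := h0 ι κ z U Rel F G e e' R R' hz2 hU hcond hcard (fun K Q hK h => hQ z K Q hz2 hK h)
    hF hG hei hej hR hR'
  have hterm : ∀ i ∈ F, ∀ j ∈ G, ind (Rel (rd (e i) (e' j))) *
      min (R i / ((rd (e i) (e' j)).1 : ℕ)) (R' j / ((rd (e i) (e' j)).2 : ℕ)) ≤
      ind (Sm2 z (rd (e i) (e' j)) ∧ Rel (rd (e i) (e' j))) *
        √(R i / ((rd (e i) (e' j)).1 : ℕ) * (R' j / ((rd (e i) (e' j)).2 : ℕ))) +
      (R' j * (1 / U ^ (A + M + 1)) + R i * (ind ((∃ b : ℕ, b.Prime ∧ z < b ∧ b ∣ (rd (e i) (e' j)).1) ∧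
        (rd (e i) (e' j)).2 ≤ Y) * (1 / ((rd (e i) (e' j)).1 : ℝ)))) := by
    intro i hi j hj
    set t := rd (e i) (e' j) with ht
    have hm := hF i hi
    have hn := hG j hj
    have hg : 0 < (e i).gcd (e' j) := Nat.gcd_pos_of_pos_left _ hm
    have t1 : 0 < t.1 := Nat.div_pos (Nat.le_of_dvd hm (Nat.gcd_dvd_left _ _)) hg
    have t2 : 0 < t.2 := Nat.div_pos (Nat.le_of_dvd hn (Nat.gcd_dvd_right _ _)) hg
    have t1' : (0 : ℝ) < t.1 := by exact_mod_cast t1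
    have t2' : (0 : ℝ) < t.2 := by exact_mod_cast t2
    have ri := hR i hi
    have rj := hR' j hj
    have a1 : 0 ≤ R i / (t.1 : ℝ) := by positivity
    have a2 : 0 ≤ R' j / (t.2 : ℝ) := by positivity
    have a3 : 0 ≤ min (R i / (t.1 : ℝ)) (R' j / (t.2 : ℝ)) := le_min a1 a2
    have a4 : min (R i / (t.1 : ℝ)) (R' j / (t.2 : ℝ)) ≤ √(R i / (t.1 : ℝ) * (R' j / (t.2 : ℝ))) := by
      refine Real.le_sqrt_of_sq_le ?_
      rw [sq]
      exact mul_le_mul (min_le_left _ _) (min_le_right _ _) a3 a1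
    have b1 : 0 ≤ ind (Sm2 z t ∧ Rel t) * √(R i / (t.1 : ℝ) * (R' j / (t.2 : ℝ))) :=
      mul_nonneg (ind_nn _) (Real.sqrt_nonneg _)
    have b2 : 0 ≤ R' j * (1 / U ^ (A + M + 1)) := by positivity
    have b3 : 0 ≤ R i * (ind ((∃ b : ℕ, b.Prime ∧ z < b ∧ b ∣ t.1) ∧ t.2 ≤ Y) * (1 / (t.1 : ℝ))) :=
      mul_nonneg ri (mul_nonneg (ind_nn _) (by positivity))
    by_cases hr : Rel t
    · rw [ind_t hr, one_mul]
      by_cases hs : Sm2 z t
      · rw [ind_t (⟨hs, hr⟩ : Sm2 z t ∧ Rel t), one_mul]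
        linarith
      · by_cases hy : t.2 ≤ Y
        · have hb : ∃ b : ℕ, b.Prime ∧ z < b ∧ b ∣ t.1 := by
            by_contra hcon
            push Not at hcon
            apply hs
            refine ⟨t1, t2, fun p hp hd => ?_⟩
            rcases (Nat.Prime.dvd_mul hp).1 hd with h | h
            · by_contra hlt
              exact hcon p hp (not_le.1 hlt) h
            · exact ((Nat.le_of_dvd t2 h).trans hy).trans hzY
          rw [ind_t (⟨hb, hy⟩ : (∃ b : ℕ, b.Prime ∧ z < b ∧ b ∣ t.1) ∧ t.2 ≤ Y), one_mul]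
          have : min (R i / (t.1 : ℝ)) (R' j / (t.2 : ℝ)) ≤ R i * (1 / (t.1 : ℝ)) := by
            rw [mul_one_div]; exact min_le_left _ _
          linarith
        · have h1 : U ^ (A + M + 1) ≤ t.2 := by
            have : (Y : ℝ) ≤ t.2 := by exact_mod_cast (not_le.1 hy).le
            linarith
          have : min (R i / (t.1 : ℝ)) (R' j / (t.2 : ℝ)) ≤ R' j * (1 / U ^ (A + M + 1)) := by
            refine (min_le_right _ _).trans ?_
            rw [mul_one_div]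
            exact div_le_div_of_nonneg_left rj (by linarith) h1
          linarith
    · rw [ind_f hr, zero_mul]
      linarith
  have hsum := Finset.sum_le_sum fun i hi => Finset.sum_le_sum fun j hj => hterm i hi j hj
  refine hsum.trans ?_
  simp only [Finset.sum_add_distrib]
  -- second part
  have p2 : ∑ i ∈ F, ∑ j ∈ G, R' j * (1 / U ^ (A + M + 1)) ≤ U ^ (-M) * ∑ j ∈ G, R' j := by
    rw [Finset.sum_const, nsmul_eq_mul, ← Finset.sum_mul]
    have h1 : (F.card : ℝ) * (1 / U ^ (A + M + 1)) ≤ U ^ (-M) := by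
      calc (F.card : ℝ) * (1 / U ^ (A + M + 1)) ≤ U ^ A * (1 / U ^ (A + M + 1)) :=
            mul_le_mul_of_nonneg_right hcard (by positivity)
        _ = U ^ (-(M + 1)) := by
            rw [one_div, ← Real.rpow_neg hU0.le, ← Real.rpow_add hU0]; congr 1; ring
        _ ≤ U ^ (-M) := Real.rpow_le_rpow_of_exponent_le hU (by linarith)
    calc (F.card : ℝ) * ((∑ j ∈ G, R' j) * (1 / U ^ (A + M + 1))) =
          (F.card : ℝ) * (1 / U ^ (A + M + 1)) * ∑ j ∈ G, R' j := by ring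
      _ ≤ _ := mul_le_mul_of_nonneg_right h1 hsR'
  -- third part
  have p3 : ∑ i ∈ F, ∑ j ∈ G, R i * (ind ((∃ b : ℕ, b.Prime ∧ z < b ∧ b ∣ (rd (e i) (e' j)).1) ∧
        (rd (e i) (e' j)).2 ≤ Y) * (1 / ((rd (e i) (e' j)).1 : ℝ))) ≤
      2 * U ^ (-M) * ∑ i ∈ F, R i := by
    rw [Finset.mul_sum]
    refine Finset.sum_le_sum fun i hi => ?_
    rw [← Finset.mul_sum]
    have h1 := row_sum (hF i hi) G e' hej hG (fun d => ∃ b : ℕ, b.Prime ∧ z < b ∧ b ∣ d) Y
    have h2 := htail i hi z hzP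
    have hz0 : (0 : ℝ) < z := by exact_mod_cast (by omega : 0 < z)
    have h3 : (z : ℝ) ^ (-(1 / 2) : ℝ) ≤ U ^ (-(A + 2 * M + 3)) := by
      have : U ^ (-(A + 2 * M + 3)) = (U ^ (2 * A + 4 * M + 6)) ^ (-(1 / 2) : ℝ) := by
        rw [← Real.rpow_mul hU0.le]; congr 1; ring
      rw [this]
      exact Real.rpow_le_rpow_of_nonpos (by positivity) hzU (by norm_num)
    have h4 : (Y : ℝ) * (U * (z : ℝ) ^ (-(1 / 2) : ℝ)) ≤ 2 * U ^ (-M) := by
      calc (Y : ℝ) * (U * (z : ℝ) ^ (-(1 / 2) : ℝ)) ≤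
            (2 * U ^ (A + M + 1)) * (U * U ^ (-(A + 2 * M + 3))) := by
            gcongr
        _ = 2 * (U ^ (A + M + 1) * (U ^ (1 : ℝ) * U ^ (-(A + 2 * M + 3)))) := by
            rw [Real.rpow_one]; ring
        _ = 2 * U ^ (-(M + 1)) := by
            rw [← Real.rpow_add hU0, ← Real.rpow_add hU0]; congr 2; ring
        _ ≤ 2 * U ^ (-M) := mul_le_mul_of_nonneg_left
            (Real.rpow_le_rpow_of_exponent_le hU (by linarith)) (by norm_num)
    have h5 : ∑ j ∈ G, ind ((∃ b : ℕ, b.Prime ∧ z < b ∧ b ∣ (rd (e i) (e' j)).1) ∧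
        (rd (e i) (e' j)).2 ≤ Y) * (1 / ((rd (e i) (e' j)).1 : ℝ)) ≤ 2 * U ^ (-M) :=
      (h1.trans (mul_le_mul_of_nonneg_left h2 (Nat.cast_nonneg _))).trans h4
    calc _ ≤ R i * (2 * U ^ (-M)) := mul_le_mul_of_nonneg_left h5 (hR i hi)
      _ = _ := by ring
  have hk : 0 < U ^ (-M) := Real.rpow_pos_of_pos hU0 _
  have t2 := mul_nonneg hk.le hsR'
  calc _ ≤ C0 * U ^ (-(1 / 8) : ℝ) * (√(∑ i ∈ F, R i) * √(∑ j ∈ G, R' j)) +
        (U ^ (-M) * ∑ j ∈ G, R' j + 2 * U ^ (-M) * ∑ i ∈ F, R i) :=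
        add_le_add hsm (add_le_add p2 p3)
    _ ≤ _ := by linarith

lemma rd_swap (m n : ℕ) : rd n m = (rd m n).swap := by
  unfold rd
  rw [Nat.gcd_comm n m]
  rfl

lemma sm2_swap {z : ℕ} {t : ℕ × ℕ} (h : Sm2 z t) : Sm2 z t.swap :=
  ⟨h.2.1, h.1, fun p hp hd => h.2.2 p hp (by rw [mul_comm]; exact hd)⟩

/-- **one of the two families is counted** -/
theorem late2M {A M : ℝ} (hA : 0 ≤ A) (hM : 0 ≤ M) : ∃ Ce : ℝ, 1 ≤ Ce ∧ ∃ C : ℝ, 1 ≤ C ∧
    ∀ (ι κ : Type) (P : ℕ) (U : ℝ) (Rel : ℕ × ℕ → Prop) (F : Finset ι) (G : Finset κ)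
    (e : ι → ℕ) (e' : κ → ℕ) (R : ι → ℝ) (R' : κ → ℝ), 2 ≤ P → (3 + Real.log P) ^ Ce ≤ U →
    (((F.card : ℝ) ≤ U ^ A ∧ Tl P U F e) ∨ ((G.card : ℝ) ≤ U ^ A ∧ Tl P U G e')) →
    (∀ (z : ℕ) (K : ℝ) (Q : Finset (ℕ × ℕ)), 2 ≤ z → 0 ≤ K →
      (∀ t ∈ Q, Sm2 z t ∧ t.1.Coprime t.2 ∧ Rel t) →
      ∑ t ∈ Q, wn K t.1 * wn K t.2 ≤ 4 * (3 + Real.log z) / √U * Ez K z) →
    Fam F G e e' R R' →
    ∑ i ∈ F, ∑ j ∈ G, ind (Rel (rd (e i) (e' j))) *
      min (R i / ((rd (e i) (e' j)).1 : ℕ)) (R' j / ((rd (e i) (e' j)).2 : ℕ)) ≤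
      C * U ^ (-(1 / 8) : ℝ) * (√(∑ i ∈ F, R i) * √(∑ j ∈ G, R' j)) +
        2 * U ^ (-M) * (∑ i ∈ F, R i + ∑ j ∈ G, R' j) := by
  classical
  obtain ⟨Ce, hCe, C, hC, h⟩ := late_minM hA hM
  refine ⟨Ce, hCe, C, hC, ?_⟩
  intro ι κ P U Rel F G e e' R R' hP hPU hcard hQ hf
  rcases hcard with ⟨hc, ht⟩ | ⟨hc, ht⟩
  · exact h ι κ P U Rel F G e e' R R' hP hPU hc hQ hf.pF hf.pG hf.iF hf.iG hf.rF hf.rG ht
  · have key := h κ ι P U (fun t => Rel t.swap) G F e' e R' R hP hPU hc ?_ hf.pG hf.pF hf.iG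
      hf.iF hf.rG hf.rF ht
    · rw [Finset.sum_comm] at key
      rw [mul_comm (√(∑ i ∈ F, R i)), add_comm (∑ i ∈ F, R i)]
      refine le_trans (le_of_eq ?_) key
      refine Finset.sum_congr rfl fun i _ => Finset.sum_congr rfl fun j _ => ?_
      rw [rd_swap (e i) (e' j)]
      simp only [Prod.swap_swap, Prod.fst_swap, Prod.snd_swap]
      rw [min_comm]
    · intro z K Q hz hK hq
      rw [← swap_wn]
      refine hQ z K _ hz hK fun t ht => ?_
      obtain ⟨t', ht', rfl⟩ := Finset.mem_image.1 ht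
      obtain ⟨a1, a2, a3⟩ := hq t' ht'
      exact ⟨sm2_swap a1, a2.symm, a3⟩

end Crest.Agent.R4P.GcdU37
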