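import Crest.Agent.R4P.GcdS_37
import Crest.Agent.R4P.AcG_41

/-!
R4 (S0004), powers pass, helper28: **energies of exact relations of sparse labels, one side late**
(over `GcdS_37`, `AcG_41`).

* `late2` : `GcdS37.late_energy` with ONE of the two families counted.
* **`same_energy`** : `c D ≡ D' mod k` (`c` a prime which does not divide the numbers of `G`), one of
  the cofactors `≥ U0` : `(1 / √U0 + C k^(-1/16)) √(∑ R) √(∑ R')`.
* **`diff_energy`** : `D' ρ ≡ D ρ' mod 1`, denominators with ratio `≥ K^δ`, `K` the larger one: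
  `C K^(-δ/8) √(∑ R) √(∑ R')`.
* **`node_energy`** : many labels: items `i ∈ F`, `j ∈ G` with offsets `ρ i`, `ρ' j`.
-/

set_option autoImplicit false
set_option linter.unusedVariables false

open Finset

namespace Crest.Agent.R4P.RtE28

open Crest.Agent.R4P.GcdK37 Crest.Agent.R4P.GcdW41 Crest.Agent.R4P.GcdS37 Crest.Agent.R4P.AcG41
open Crest.Agent.R4.HVW560 (wn)
open Crest.Agent.R4P.ShR18 (Co)

/-! ### one of the families counted -/

section late
variable {ι κ : Type} {F : Finset ι} {G : Finset κ} {e : ι → ℕ} {e' : κ → ℕ} {R : ι → ℝ} {R' : κ → ℝ}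

lemma Fam.symm (h : Fam F G e e' R R') : Fam G F e' e R' R :=
  ⟨h.pG, h.pF, h.iG, h.iF, h.rG, h.rF⟩

lemma Fam.subG (h : Fam F G e e' R R') {G' : Finset κ} (hG : G' ⊆ G) : Fam F G' e e' R R' :=
  ⟨h.pF, fun i hi => h.pG i (hG hi), h.iF, fun i hi j hj => h.iG i (hG hi) j (hG hj), h.rF,
    fun i hi => h.rG i (hG hi)⟩

lemma rd_swap (m n : ℕ) : rd n m = (rd m n).swap := by
  unfold rd
  rw [Nat.gcd_comm n m]
  rfl

lemma sm2_swap {z : ℕ} {t : ℕ × ℕ} (h : Sm2 z t) : Sm2 z t.swap :=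
  ⟨h.2.1, h.1, fun p hp hd => h.2.2 p hp (by rw [mul_comm]; exact hd)⟩

/-- **one of the two families is counted** -/
theorem late2 {A : ℝ} (hA : 0 ≤ A) : ∃ C : ℝ, 1 ≤ C ∧ ∀ (ι κ : Type) (z : ℕ) (U : ℝ)
    (Rel : ℕ × ℕ → Prop) (F : Finset ι) (G : Finset κ) (e : ι → ℕ) (e' : κ → ℕ) (R : ι → ℝ)
    (R' : κ → ℝ), 2 ≤ z → 1 ≤ U → (3 + Real.log z) ^ C ≤ U →
    ((F.card : ℝ) ≤ U ^ A ∨ (G.card : ℝ) ≤ U ^ A) →
    (∀ (K : ℝ) (Q : Finset (ℕ × ℕ)), 0 ≤ K → (∀ t ∈ Q, Sm2 z t ∧ t.1.Coprime t.2 ∧ Rel t) →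
      ∑ t ∈ Q, wn K t.1 * wn K t.2 ≤ 4 * (3 + Real.log z) / √U * Ez K z) →
    Fam F G e e' R R' →
    (∀ i ∈ F, ∀ p : ℕ, p.Prime → p ∣ e i → p ≤ z) → (∀ j ∈ G, ∀ p : ℕ, p.Prime → p ∣ e' j → p ≤ z) →
    ∑ i ∈ F, ∑ j ∈ G, ind (Rel (rd (e i) (e' j))) *
      √(R i / ((rd (e i) (e' j)).1 : ℕ) * (R' j / ((rd (e i) (e' j)).2 : ℕ))) ≤
      C * U ^ (-(1 / 8) : ℝ) * (√(∑ i ∈ F, R i) * √(∑ j ∈ G, R' j)) := by
  classical
  obtain ⟨C, hC, h⟩ := late_energy hA
  refine ⟨C, hC, ?_⟩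
  intro ι κ z U Rel F G e e' R R' hz hU hzU hcard hQ hf hs hs'
  rcases hcard with hc | hc
  · exact h ι κ z U Rel F G e e' R R' hz hU hzU hc hQ hf.pF hf.pG hf.iF hf.iG hf.rF hf.rG hs hs'
  · have key := h κ ι z U (fun t => Rel t.swap) G F e' e R' R hz hU hzU hc ?_ hf.pG hf.pF hf.iG
      hf.iF hf.rG hf.rF hs' hs
    · rw [Finset.sum_comm] at key
      rw [mul_comm (√(∑ i ∈ F, R i))]
      refine le_trans (le_of_eq ?_) key
      refine Finset.sum_congr rfl fun i _ => Finset.sum_congr rfl fun j _ => ?_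
      rw [rd_swap (e i) (e' j)]
      simp only [Prod.swap_swap, Prod.fst_swap, Prod.snd_swap]
      rw [mul_comm (R i / _)]
    · intro K Q hK hq
      rw [← swap_wn]
      refine hQ K _ hK fun t ht => ?_
      obtain ⟨t', ht', rfl⟩ := Finset.mem_image.1 ht
      obtain ⟨a1, a2, a3⟩ := hq t' ht'
      exact ⟨sm2_swap a1, a2.symm, a3⟩

end late

/-! ### one label -/

section same

/-- small solutions of `c D ≡ D' mod k` -/
lemma small_unique {c k : ℕ} {t t' : ℕ × ℕ} (hk : 0 < k) (h1 : c * t.1 ≡ t.2 [MOD k])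
    (h1' : c * t'.1 ≡ t'.2 [MOD k]) (hc : t.1.Coprime t.2) (hc' : t'.1.Coprime t'.2)
    (hp : 0 < t.1 ∧ 0 < t.2) (hp' : 0 < t'.1 ∧ 0 < t'.2)
    (hs : t.2 * t'.1 < k) (hs' : t'.2 * t.1 < k) : t = t' := by
  have h2 : t.2 * t'.1 ≡ t'.2 * t.1 [MOD k] := by
    have a1 : c * t.1 * t'.1 ≡ t.2 * t'.1 [MOD k] := h1.mul_right _
    have a2 : c * t'.1 * t.1 ≡ t'.2 * t.1 [MOD k] := h1'.mul_right _
    have e : c * t'.1 * t.1 = c * t.1 * t'.1 := by ring
    rw [e] at a2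
    exact a1.symm.trans a2
  have h3 : t.2 * t'.1 = t'.2 * t.1 := Nat.ModEq.eq_of_lt_of_lt h2 hs hs'
  have d1 : t.1 ∣ t'.1 := by
    have : t.1 ∣ t.2 * t'.1 := by rw [h3]; exact dvd_mul_left _ _
    exact hc.dvd_of_dvd_mul_left this
  have d2 : t'.1 ∣ t.1 := by
    have : t'.1 ∣ t'.2 * t.1 := by rw [← h3]; exact dvd_mul_left _ _
    exact hc'.dvd_of_dvd_mul_left this
  have e1 : t.1 = t'.1 := Nat.dvd_antisymm d1 d2
  refine Prod.ext e1 ?_
  rw [e1] at h3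
  exact Nat.eq_of_mul_eq_mul_right hp'.1 h3

/-- **one label**: `c D ≡ D' mod k`, one of the cofactors `≥ U0`, one of the families counted -/
theorem same_energy {A : ℝ} (hA : 0 ≤ A) : ∃ C : ℝ, 1 ≤ C ∧ ∀ (ι κ : Type) (z c k : ℕ) (U0 : ℝ)
    (F : Finset ι) (G : Finset κ) (e : ι → ℕ) (e' : κ → ℕ) (R : ι → ℝ) (R' : κ → ℝ),
    2 ≤ z → c.Prime → 0 < k → 1 ≤ U0 → (3 + Real.log z) ^ C ≤ k →
    ((F.card : ℝ) ≤ (k : ℝ) ^ A ∨ (G.card : ℝ) ≤ (k : ℝ) ^ A) →
    Fam F G e e' R R' → (∀ j ∈ G, ¬ c ∣ e' j) →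
    (∀ i ∈ F, ∀ p : ℕ, p.Prime → p ∣ e i → p ≤ z) → (∀ j ∈ G, ∀ p : ℕ, p.Prime → p ∣ e' j → p ≤ z) →
    ∑ i ∈ F, ∑ j ∈ G, ind ((U0 ≤ (rd (e i) (e' j)).1 ∨ U0 ≤ (rd (e i) (e' j)).2) ∧
        c * (rd (e i) (e' j)).1 ≡ (rd (e i) (e' j)).2 [MOD k]) *
      √(R i / ((rd (e i) (e' j)).1 : ℕ) * (R' j / ((rd (e i) (e' j)).2 : ℕ))) ≤
      (1 / √U0 + C * (k : ℝ) ^ (-(1 / 16) : ℝ)) * (√(∑ i ∈ F, R i) * √(∑ j ∈ G, R' j)) := by
  classical
  obtain ⟨C, hC, h⟩ := late2 (A := 4 * A) (by linarith)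
  refine ⟨4 * C, by linarith, ?_⟩
  intro ι κ z c k U0 F G e e' R R' hz hcp hk hU0 hzk hcard hf hcG hs hs'
  have hk0 : (0:ℝ) < k := by exact_mod_cast hk
  have hk1 : (1:ℝ) ≤ k := by exact_mod_cast hk
  have hM0 : 0 ≤ √(∑ i ∈ F, R i) * √(∑ j ∈ G, R' j) := by positivity
  by_cases hck : c ∣ k
  · -- no pairs
    rw [Finset.sum_eq_zero]
    · positivity
    · intro i hi
      refine Finset.sum_eq_zero fun j hj => ?_
      rw [ind_f, zero_mul]
      rintro ⟨-, h2⟩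
      have h3 : c ∣ (rd (e i) (e' j)).2 := by
        have := (h2.of_dvd hck).dvd_iff (dvd_refl c)
        exact this.1 (dvd_mul_right _ _)
      exact hcG j hj (h3.trans (Nat.div_dvd_of_dvd (Nat.gcd_dvd_right _ _)))
  have hcop : c.Coprime k := (Nat.Prime.coprime_iff_not_dvd hcp).2 hck
  set U : ℝ := (k : ℝ) ^ (1 / 2 : ℝ) with hU
  have hU1 : 1 ≤ U := Real.one_le_rpow hk1 (by norm_num)
  have hU2 : U * U = k := by
    rw [hU, ← Real.rpow_add hk0]; norm_num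
  have hUk : U ≤ k := by nlinarith
  have hlz : 0 ≤ Real.log z := Real.log_natCast_nonneg z
  -- the large pairs
  have hbig : ∑ i ∈ F, ∑ j ∈ G, ind ((U ≤ (rd (e i) (e' j)).1 ∨ U ≤ (rd (e i) (e' j)).2) ∧
        c * (rd (e i) (e' j)).1 ≡ (rd (e i) (e' j)).2 [MOD k]) *
      √(R i / ((rd (e i) (e' j)).1 : ℕ) * (R' j / ((rd (e i) (e' j)).2 : ℕ))) ≤
      C * U ^ (-(1 / 8) : ℝ) * (√(∑ i ∈ F, R i) * √(∑ j ∈ G, R' j)) := by
    refine h ι κ z U (fun t => (U ≤ t.1 ∨ U ≤ t.2) ∧ c * t.1 ≡ t.2 [MOD k]) F G e e' R R' hz hU1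
      ?_ ?_ (fun K Q hK hq => lin_pairs hK hz hk hcop hU1 hUk Q fun t ht =>
        ⟨(hq t ht).1, (hq t ht).2.2⟩) hf hs hs'
    · have h1 : (1:ℝ) ≤ 3 + Real.log z := by linarith
      have h2 : ((3 + Real.log z) ^ (2 * C)) ^ (1 / 2 : ℝ) ≤ U := by
        refine Real.rpow_le_rpow (by positivity) ?_ (by norm_num)
        exact (Real.rpow_le_rpow_of_exponent_le h1 (by linarith)).trans hzk
      rw [← Real.rpow_mul (by linarith)] at h2
      have e1 : 2 * C * (1 / 2) = C := by ring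
      rwa [e1] at h2
    · have e1 : (k : ℝ) ^ A ≤ U ^ (4 * A) := by
        rw [hU, ← Real.rpow_mul hk0.le]
        exact Real.rpow_le_rpow_of_exponent_le hk1 (by linarith)
      rcases hcard with h1 | h1
      · exact Or.inl (h1.trans e1)
      · exact Or.inr (h1.trans e1)
  have hUe : U ^ (-(1 / 8) : ℝ) = (k : ℝ) ^ (-(1 / 16) : ℝ) := by
    rw [hU, ← Real.rpow_mul hk0.le]; norm_num
  rw [hUe] at hbig
  -- the small pairs
  have hsm : ∑ i ∈ F, ∑ j ∈ G, ind ((U0 ≤ (rd (e i) (e' j)).1 ∨ U0 ≤ (rd (e i) (e' j)).2) ∧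
        ((rd (e i) (e' j)).1 : ℝ) < U ∧ ((rd (e i) (e' j)).2 : ℝ) < U ∧
        c * (rd (e i) (e' j)).1 ≡ (rd (e i) (e' j)).2 [MOD k]) *
      √(R i / ((rd (e i) (e' j)).1 : ℕ) * (R' j / ((rd (e i) (e' j)).2 : ℕ))) ≤
      1 / √U0 * (√(∑ i ∈ F, R i) * √(∑ j ∈ G, R' j)) := by
    by_cases hex : ∃ i ∈ F, ∃ j ∈ G, (U0 ≤ (rd (e i) (e' j)).1 ∨ U0 ≤ (rd (e i) (e' j)).2) ∧
        ((rd (e i) (e' j)).1 : ℝ) < U ∧ ((rd (e i) (e' j)).2 : ℝ) < U ∧
        c * (rd (e i) (e' j)).1 ≡ (rd (e i) (e' j)).2 [MOD k]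
    · obtain ⟨i0, hi0, j0, hj0, b0, b1, b2, b3⟩ := hex
      set t0 := rd (e i0) (e' j0) with ht0
      have s0 := dt_spec (hf.pF i0 hi0) (hf.pG j0 hj0)
      have key := one_type hf t0 ⟨s0.1, s0.2.1⟩
      have hpos : (0:ℝ) < (t0.1 : ℝ) * t0.2 := by
        have := s0.1; have := s0.2.1
        exact mul_pos (by exact_mod_cast s0.1) (by exact_mod_cast s0.2.1)
      have hle : U0 ≤ (t0.1 : ℝ) * t0.2 := by
        have c1 : (1:ℝ) ≤ t0.1 := by exact_mod_cast s0.1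
        have c2 : (1:ℝ) ≤ t0.2 := by exact_mod_cast s0.2.1
        rcases b0 with b0 | b0
        · nlinarith
        · nlinarith
      have hst : ∀ i ∈ F, ∀ j ∈ G,
          ind ((U0 ≤ (rd (e i) (e' j)).1 ∨ U0 ≤ (rd (e i) (e' j)).2) ∧
            ((rd (e i) (e' j)).1 : ℝ) < U ∧ ((rd (e i) (e' j)).2 : ℝ) < U ∧
            c * (rd (e i) (e' j)).1 ≡ (rd (e i) (e' j)).2 [MOD k]) *
          √(R i / ((rd (e i) (e' j)).1 : ℕ) * (R' j / ((rd (e i) (e' j)).2 : ℕ))) ≤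
          1 / √U0 * (ind (dt (e i) (e' j) = t0) * (√(R i) * √(R' j))) := by
        intro i hi j hj
        by_cases hR : (U0 ≤ (rd (e i) (e' j)).1 ∨ U0 ≤ (rd (e i) (e' j)).2) ∧
            ((rd (e i) (e' j)).1 : ℝ) < U ∧ ((rd (e i) (e' j)).2 : ℝ) < U ∧
            c * (rd (e i) (e' j)).1 ≡ (rd (e i) (e' j)).2 [MOD k]
        · obtain ⟨-, d1, d2, d3⟩ := hR
          have s1 := dt_spec (hf.pF i hi) (hf.pG j hj)
          have hl : ∀ a b : ℕ, (a:ℝ) < U → (b:ℝ) < U → a * b < k := by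
            intro a b ha hb
            have : (a:ℝ) * b < k := by
              rw [← hU2]
              exact mul_lt_mul'' ha hb (Nat.cast_nonneg _) (Nat.cast_nonneg _)
            exact_mod_cast this
          have heq : rd (e i) (e' j) = t0 := small_unique hk d3 b3 s1.2.2.1 s0.2.2.1
            ⟨s1.1, s1.2.1⟩ ⟨s0.1, s0.2.1⟩ (hl _ _ d2 b1) (hl _ _ b2 d1)
          have heq' : dt (e i) (e' j) = t0 := heq
          rw [ind_t heq', one_mul]
          refine (mul_le_of_le_one_left (Real.sqrt_nonneg _) (ind_le _)).trans ?_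
          rw [heq]
          have r1 := hf.rF i hi
          have r2 := hf.rG j hj
          have e1 : R i / (t0.1 : ℝ) * (R' j / (t0.2 : ℝ)) =
              (R i * R' j) / ((t0.1 : ℝ) * t0.2) := by rw [div_mul_div_comm]
          rw [e1, Real.sqrt_div (mul_nonneg r1 r2), Real.sqrt_mul r1, div_eq_mul_one_div,
            mul_comm]
          refine mul_le_mul_of_nonneg_right ?_ (by positivity)
          exact one_div_le_one_div_of_le (Real.sqrt_pos.2 (by linarith)) (Real.sqrt_le_sqrt hle)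
        · rw [ind_f hR, zero_mul]
          exact mul_nonneg (by positivity) (mul_nonneg (ind_nn _) (by positivity))
      calc _ ≤ ∑ i ∈ F, ∑ j ∈ G, 1 / √U0 * (ind (dt (e i) (e' j) = t0) * (√(R i) * √(R' j))) :=
            Finset.sum_le_sum fun i hi => Finset.sum_le_sum fun j hj => hst i hi j hj
        _ = 1 / √U0 * ∑ i ∈ F, ∑ j ∈ G, ind (dt (e i) (e' j) = t0) * (√(R i) * √(R' j)) := by
            rw [Finset.mul_sum]
            exact Finset.sum_congr rfl fun i _ => by rw [Finset.mul_sum]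
        _ ≤ _ := mul_le_mul_of_nonneg_left key (by positivity)
    · push Not at hex
      rw [Finset.sum_eq_zero]
      · positivity
      · intro i hi
        refine Finset.sum_eq_zero fun j hj => ?_
        rw [ind_f, zero_mul]
        rintro ⟨a1, a2, a3, a4⟩
        exact hex i hi j hj a1 a2 a3 a4
  -- the sum
  have hsplit : ∀ i ∈ F, ∀ j ∈ G,
      ind ((U0 ≤ (rd (e i) (e' j)).1 ∨ U0 ≤ (rd (e i) (e' j)).2) ∧
        c * (rd (e i) (e' j)).1 ≡ (rd (e i) (e' j)).2 [MOD k]) *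
      √(R i / ((rd (e i) (e' j)).1 : ℕ) * (R' j / ((rd (e i) (e' j)).2 : ℕ))) ≤
      ind ((U0 ≤ (rd (e i) (e' j)).1 ∨ U0 ≤ (rd (e i) (e' j)).2) ∧
        ((rd (e i) (e' j)).1 : ℝ) < U ∧ ((rd (e i) (e' j)).2 : ℝ) < U ∧
        c * (rd (e i) (e' j)).1 ≡ (rd (e i) (e' j)).2 [MOD k]) *
      √(R i / ((rd (e i) (e' j)).1 : ℕ) * (R' j / ((rd (e i) (e' j)).2 : ℕ))) +
      ind ((U ≤ (rd (e i) (e' j)).1 ∨ U ≤ (rd (e i) (e' j)).2) ∧
        c * (rd (e i) (e' j)).1 ≡ (rd (e i) (e' j)).2 [MOD k]) *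
      √(R i / ((rd (e i) (e' j)).1 : ℕ) * (R' j / ((rd (e i) (e' j)).2 : ℕ))) := by
    intro i hi j hj
    rw [← add_mul]
    refine mul_le_mul_of_nonneg_right ?_ (Real.sqrt_nonneg _)
    by_cases hR : (U0 ≤ (rd (e i) (e' j)).1 ∨ U0 ≤ (rd (e i) (e' j)).2) ∧
        c * (rd (e i) (e' j)).1 ≡ (rd (e i) (e' j)).2 [MOD k]
    · rw [ind_t hR]
      by_cases h1 : U ≤ (rd (e i) (e' j)).1 ∨ U ≤ (rd (e i) (e' j)).2
      · rw [ind_t (⟨h1, hR.2⟩ : _ ∧ _)]
        linarith [ind_nn ((U0 ≤ (rd (e i) (e' j)).1 ∨ U0 ≤ (rd (e i) (e' j)).2) ∧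
          ((rd (e i) (e' j)).1 : ℝ) < U ∧ ((rd (e i) (e' j)).2 : ℝ) < U ∧
          c * (rd (e i) (e' j)).1 ≡ (rd (e i) (e' j)).2 [MOD k])]
      · push Not at h1
        rw [ind_t (⟨hR.1, h1.1, h1.2, hR.2⟩ : _ ∧ _ ∧ _ ∧ _)]
        linarith [ind_nn ((U ≤ (rd (e i) (e' j)).1 ∨ U ≤ (rd (e i) (e' j)).2) ∧
          c * (rd (e i) (e' j)).1 ≡ (rd (e i) (e' j)).2 [MOD k])]
    · rw [ind_f hR]
      exact add_nonneg (ind_nn _) (ind_nn _)
  refine (Finset.sum_le_sum fun i hi => Finset.sum_le_sum fun j hj => hsplit i hi j hj).trans ?_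
  simp only [Finset.sum_add_distrib]
  have hfin : C * (k : ℝ) ^ (-(1 / 16) : ℝ) ≤ 4 * C * (k : ℝ) ^ (-(1 / 16) : ℝ) := by
    have : 0 ≤ C * (k : ℝ) ^ (-(1 / 16) : ℝ) := by positivity
    linarith
  have h5 := mul_le_mul_of_nonneg_right hfin hM0
  rw [add_mul]
  linarith

end same

/-! ### two labels -/

section diff

lemma den_le_mul {n : ℕ} (hn : 0 < n) (r : ℚ) : r.den ≤ ((n : ℚ) * r).den * n := by
  have h0 : (n : ℚ) ≠ 0 := by exact_mod_cast hn.ne'
  have e1 : r = ((n : ℚ) * r) * (n : ℚ)⁻¹ := by field_simp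
  have h1 : r.den ∣ ((n : ℚ) * r).den * ((n : ℚ)⁻¹).den := by
    conv_lhs => rw [e1]
    exact Rat.mul_den_dvd _ _
  have h2 : ((n : ℚ)⁻¹).den = n := Rat.inv_natCast_den_of_pos hn
  rw [h2] at h1
  exact Nat.le_of_dvd (Nat.mul_pos (Rat.den_pos _) hn) h1

lemma Co.den_eq {x y : ℚ} (h : Co x y) : x.den = y.den := by
  obtain ⟨z, hz⟩ := h
  have e : x = y + z := by linarith
  rw [e]
  simp

lemma den_mul_le (n : ℕ) (r : ℚ) : ((n : ℚ) * r).den ≤ r.den := by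
  have h1 : ((n : ℚ) * r).den ∣ (n : ℚ).den * r.den := Rat.mul_den_dvd _ _
  rw [Rat.den_natCast, one_mul] at h1
  exact Nat.le_of_dvd (Rat.den_pos _) h1

lemma den_cop {c : ℕ} {r : ℚ} (h : c.Coprime r.den) : ((c : ℚ) * r).den = r.den := by
  rcases Nat.eq_zero_or_pos c with rfl | hc
  · have : r.den = 1 := by simpa using h
    rw [this]
    simp
  have h0 : (c : ℚ) ≠ 0 := by exact_mod_cast hc.ne'
  have e1 : r = ((c : ℚ) * r) * (c : ℚ)⁻¹ := by field_simp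
  have h1 : r.den ∣ ((c : ℚ) * r).den * ((c : ℚ)⁻¹).den := by
    conv_lhs => rw [e1]
    exact Rat.mul_den_dvd _ _
  rw [Rat.inv_natCast_den_of_pos hc] at h1
  have h2 : r.den ∣ ((c : ℚ) * r).den := h.symm.dvd_of_dvd_mul_right h1
  have h3 : ((c : ℚ) * r).den ∣ (c : ℚ).den * r.den := Rat.mul_den_dvd _ _
  rw [Rat.den_natCast, one_mul] at h3
  exact Nat.dvd_antisymm h3 h2

/-- **two labels**: exact centres, denominators with ratio `≥ U` -/
theorem diff_pairs {κ : ℝ} (hκ : 0 ≤ κ) {z : ℕ} (hz : 2 ≤ z) {ρ ρ' : ℚ} {U : ℝ} (hU : 1 ≤ U)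
    (hr : U * ρ.den ≤ ρ'.den ∨ U * ρ'.den ≤ ρ.den) (Q : Finset (ℕ × ℕ))
    (hQ : ∀ t ∈ Q, Sm2 z t ∧ Co ((t.2 : ℕ) * ρ) ((t.1 : ℕ) * ρ')) :
    ∑ t ∈ Q, wn κ t.1 * wn κ t.2 ≤ 4 * (3 + Real.log z) / √U * Ez κ z := by
  have hlz := Real.log_natCast_nonneg z
  have hU0 : 0 < U := by linarith
  have hE := (Ez_pos κ z).le
  -- one direction
  have main : ∀ (ρ ρ' : ℚ) (Q : Finset (ℕ × ℕ)), U * ρ.den ≤ ρ'.den →
      (∀ t ∈ Q, Sm2 z t ∧ Co ((t.1 : ℕ) * ρ) ((t.2 : ℕ) * ρ')) →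
      ∑ t ∈ Q, wn κ t.1 * wn κ t.2 ≤ 4 * (3 + Real.log z) / √U * Ez κ z := by
    intro ρ ρ' Q hr hQ
    have hd0 : (0:ℝ) < ρ.den := by exact_mod_cast ρ.pos
    have hd1 : (1:ℝ) ≤ ρ.den := by exact_mod_cast ρ.pos
    have hUd : U ≤ (ρ'.den : ℝ) := by nlinarith
    refine (half_pairs hκ hz ρ'.pos hU Q (sm_fst fun t ht => (hQ t ht).1)
      (sm_snd fun t ht => (hQ t ht).1) ?_ ?_).trans ?_
    · intro t ht
      obtain ⟨h1, h2⟩ := hQ t ht
      have a1 := den_le_mul h1.2.1 ρ'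
      rw [← Co.den_eq h2] at a1
      have a2 := den_mul_le t.1 ρ
      have a3 : ρ'.den ≤ ρ.den * t.2 := a1.trans (Nat.mul_le_mul_right _ a2)
      have a4 : (ρ'.den : ℝ) ≤ ρ.den * t.2 := by exact_mod_cast a3
      have a5 : U * ρ.den ≤ t.2 * ρ.den := by linarith
      exact le_of_mul_le_mul_right a5 hd0
    · intro t ht t' ht' h
      have h1 := (hQ t ht).2.symm
      have h2 := (hQ t' ht').2.symm
      rw [← h] at h2
      exact h1.mod h2
    · refine mul_le_mul_of_nonneg_right ?_ hE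
      have e1 : √(1 / U + 1 / (ρ'.den : ℝ)) ≤ 2 / √U := by
        rw [show (2:ℝ) / √U = √(4 / U) by
          rw [Real.sqrt_div (by norm_num), show (4:ℝ) = 2 ^ 2 by norm_num,
            Real.sqrt_sq (by norm_num)]]
        refine Real.sqrt_le_sqrt ?_
        have : 1 / (ρ'.den : ℝ) ≤ 1 / U := one_div_le_one_div_of_le hU0 hUd
        have h4 : (4:ℝ) / U = 4 * (1 / U) := by ring
        rw [h4]
        have : 0 < 1 / U := by positivity
        linarith
      calc (3 + Real.log z) * √(1 / U + 1 / (ρ'.den : ℝ)) ≤ (3 + Real.log z) * (2 / √U) :=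
            mul_le_mul_of_nonneg_left e1 (by linarith)
        _ ≤ 4 * (3 + Real.log z) / √U := by
            rw [mul_div_assoc']
            refine div_le_div_of_nonneg_right ?_ (Real.sqrt_nonneg _)
            linarith
  rcases hr with hr | hr
  · rw [← swap_wn]
    refine main ρ ρ' _ hr fun t ht => ?_
    obtain ⟨t', ht', rfl⟩ := Finset.mem_image.1 ht
    exact ⟨sm2_swap (hQ t' ht').1, (hQ t' ht').2⟩
  · exact main ρ' ρ Q hr fun t ht => ⟨(hQ t ht).1, (hQ t ht).2.symm⟩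

/-- **two labels**, one of the families counted, `K` = the larger denominator -/
theorem diff_energy {A δ : ℝ} (hA : 0 ≤ A) (hδ : 0 < δ) : ∃ C : ℝ, 1 ≤ C ∧ ∀ (ι κ : Type)
    (z : ℕ) (ρ ρ' : ℚ) (K : ℝ) (F : Finset ι) (G : Finset κ) (e : ι → ℕ) (e' : κ → ℕ) (R : ι → ℝ)
    (R' : κ → ℝ), 2 ≤ z → 1 ≤ K → (3 + Real.log z) ^ C ≤ K →
    (K ^ δ * ρ.den ≤ ρ'.den ∨ K ^ δ * ρ'.den ≤ ρ.den) →
    ((F.card : ℝ) ≤ K ^ A ∨ (G.card : ℝ) ≤ K ^ A) →
    Fam F G e e' R R' →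
    (∀ i ∈ F, ∀ p : ℕ, p.Prime → p ∣ e i → p ≤ z) → (∀ j ∈ G, ∀ p : ℕ, p.Prime → p ∣ e' j → p ≤ z) →
    ∑ i ∈ F, ∑ j ∈ G, ind (Co (((rd (e i) (e' j)).2 : ℕ) * ρ) (((rd (e i) (e' j)).1 : ℕ) * ρ')) *
      √(R i / ((rd (e i) (e' j)).1 : ℕ) * (R' j / ((rd (e i) (e' j)).2 : ℕ))) ≤
      C * K ^ (-(δ / 8) : ℝ) * (√(∑ i ∈ F, R i) * √(∑ j ∈ G, R' j)) := by
  obtain ⟨C, hC, h⟩ := late2 (A := A / δ) (by positivity)
  refine ⟨max C (C / δ), hC.trans (le_max_left _ _), ?_⟩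
  intro ι κ z ρ ρ' K F G e e' R R' hz hK hzK hr hcard hf hs hs'
  have hK0 : 0 < K := by linarith
  set U : ℝ := K ^ δ with hU
  have hU1 : 1 ≤ U := Real.one_le_rpow hK hδ.le
  have hlz : 0 ≤ Real.log z := Real.log_natCast_nonneg z
  have hUA : U ^ (A / δ) = K ^ A := by
    rw [hU, ← Real.rpow_mul hK0.le]; congr 1; field_simp
  have hUe : U ^ (-(1 / 8) : ℝ) = K ^ (-(δ / 8) : ℝ) := by
    rw [hU, ← Real.rpow_mul hK0.le]; congr 1; ring
  have key := h ι κ z U (fun t => Co ((t.2 : ℕ) * ρ) ((t.1 : ℕ) * ρ')) F G e e' R R' hz hU1 ?_ ?_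
    (fun K Q hK hq => diff_pairs hK hz hU1 hr Q fun t ht => ⟨(hq t ht).1, (hq t ht).2.2⟩) hf hs hs'
  · rw [hUe] at key
    refine key.trans ?_
    refine mul_le_mul_of_nonneg_right (mul_le_mul_of_nonneg_right (le_max_left _ _) (by positivity))
      (by positivity)
  · have h1 : (1:ℝ) ≤ 3 + Real.log z := by linarith
    have h2 : ((3 + Real.log z) ^ (C / δ)) ^ δ ≤ U := by
      refine Real.rpow_le_rpow (by positivity) ?_ hδ.le
      exact (Real.rpow_le_rpow_of_exponent_le h1 (le_max_right _ _)).trans hzK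
    rw [← Real.rpow_mul (by linarith)] at h2
    have e1 : C / δ * δ = C := by field_simp
    rwa [e1] at h2
  · rw [hUA]; exact hcard

end diff

/-! ### many labels -/

section node
variable {ι κ : Type} {F : Finset ι} {G : Finset κ} {e : ι → ℕ} {e' : κ → ℕ} {R : ι → ℝ} {R' : κ → ℝ}

/-- the overlap of a pair, reduced cofactors -/
noncomputable def ov (e : ι → ℕ) (e' : κ → ℕ) (R : ι → ℝ) (R' : κ → ℝ) (i : ι) (j : κ) : ℝ :=
  √(R i / ((rd (e i) (e' j)).1 : ℕ) * (R' j / ((rd (e i) (e' j)).2 : ℕ)))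

lemma ov_nn (i : ι) (j : κ) : 0 ≤ ov e e' R R' i j := Real.sqrt_nonneg _

/-- the larger denominator -/
noncomputable def KK (r r' : ℚ) : ℝ := max (r.den : ℝ) r'.den

lemma KK_one (r r' : ℚ) : 1 ≤ KK r r' :=
  le_max_of_le_left (by exact_mod_cast r.pos)

/-- **the relation of a tie** : exact centre, sparse labels, one side late, and: one label with a
cofactor `≥ U0`, or two labels with very different denominators -/
structure RlT (c : ℕ) (Lp U0 A δ : ℝ) (e : ι → ℕ) (e' : κ → ℕ) (R : ι → ℝ) (R' : κ → ℝ)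
    (ρ : ι → ℚ) (ρ' : κ → ℚ) (i : ι) (j : κ) : Prop where
  co : Co (((rd (e i) (e' j)).2 : ℕ) * ρ i) (((rd (e i) (e' j)).1 : ℕ) * ρ' j)
  d1 : Lp ≤ (ρ i).den
  d2 : Lp ≤ (ρ' j).den
  lt : 1 ≤ KK (ρ i) (ρ' j) ^ A * R i ∨ 1 ≤ KK (ρ i) (ρ' j) ^ A * R' j
  sp : (ρ' j = c * ρ i ∧ (U0 ≤ (rd (e i) (e' j)).1 ∨ U0 ≤ (rd (e i) (e' j)).2)) ∨
    KK (ρ i) (ρ' j) ^ δ * (ρ i).den ≤ (ρ' j).den ∨ KK (ρ i) (ρ' j) ^ δ * (ρ' j).den ≤ (ρ i).den

lemma co_cong {c D D' : ℕ} {r : ℚ} (h : Co ((D' : ℕ) * r) ((D : ℕ) * ((c : ℚ) * r))) :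
    c * D ≡ D' [MOD r.den] := by
  have h1 : Co ((D' : ℕ) * r) (((c * D : ℕ) : ℚ) * r) := by
    have e : ((c * D : ℕ) : ℚ) * r = (D : ℕ) * ((c : ℚ) * r) := by push_cast; ring
    rw [e]; exact h
  have h2 := Co.mod h1 (Co.refl _)
  exact h2.symm

lemma card_late {F : Finset ι} {R : ι → ℝ} (h0 : ∀ i ∈ F, 0 ≤ R i) {K S : ℝ} (hK : 0 ≤ K)
    (hS : ∑ i ∈ F, R i ≤ S) : (((F.filter fun i => 1 ≤ K * R i).card : ℕ) : ℝ) ≤ K * S := by
  calc (((F.filter fun i => 1 ≤ K * R i).card : ℕ) : ℝ)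
      = ∑ i ∈ F.filter (fun i => 1 ≤ K * R i), (1:ℝ) := by simp
    _ ≤ ∑ i ∈ F.filter (fun i => 1 ≤ K * R i), K * R i :=
        Finset.sum_le_sum fun i hi => (Finset.mem_filter.1 hi).2
    _ ≤ ∑ i ∈ F, K * R i := Finset.sum_le_sum_of_subset_of_nonneg (Finset.filter_subset _ _)
        fun i hi _ => mul_nonneg hK (h0 i hi)
    _ = K * ∑ i ∈ F, R i := by rw [Finset.mul_sum]
    _ ≤ K * S := mul_le_mul_of_nonneg_left hS hK

lemma sum_fib {V : Type} [DecidableEq V] {F : Finset ι} (f : ι → V) (g : ι → ℝ) :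
    ∑ i ∈ F, g i = ∑ r ∈ F.image f, ∑ i ∈ F.filter (fun i => f i = r), g i :=
  (Finset.sum_fiberwise_of_maps_to (fun i hi => Finset.mem_image_of_mem f hi) _).symm

/-- Cauchy-Schwarz for square roots with weights -/
lemma cs_w {V : Type} (s : Finset V) (w a b : V → ℝ) (hw : ∀ i ∈ s, 0 ≤ w i)
    (ha : ∀ i ∈ s, 0 ≤ a i) (hb : ∀ i ∈ s, 0 ≤ b i) :
    ∑ i ∈ s, √(a i) * √(b i) ≤ √(∑ i ∈ s, a i) * √(∑ i ∈ s, b i) := by
  have h := Real.sum_mul_le_sqrt_mul_sqrt s (fun i => √(a i)) (fun i => √(b i))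
  have e1 : ∑ i ∈ s, √(a i) ^ 2 = ∑ i ∈ s, a i :=
    Finset.sum_congr rfl fun i hi => Real.sq_sqrt (ha i hi)
  have e2 : ∑ i ∈ s, √(b i) ^ 2 = ∑ i ∈ s, b i :=
    Finset.sum_congr rfl fun i hi => Real.sq_sqrt (hb i hi)
  rw [e1, e2] at h
  exact h

open Classical in
/-- splitting by two predicates -/
lemma split2 {F : Finset ι} {G : Finset κ} {f : ι → κ → ℝ} (hf : ∀ i j, 0 ≤ f i j) (P : ι → Prop)
    (P' : κ → Prop) (h : ∀ i ∈ F, ∀ j ∈ G, f i j ≠ 0 → P i ∨ P' j) :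
    ∑ i ∈ F, ∑ j ∈ G, f i j ≤ ∑ i ∈ F.filter P, ∑ j ∈ G, f i j +
      ∑ i ∈ F, ∑ j ∈ G.filter P', f i j := by
  rw [Finset.sum_filter]
  rw [← Finset.sum_add_distrib]
  refine Finset.sum_le_sum fun i hi => ?_
  rw [Finset.sum_filter]
  by_cases hP : P i
  · rw [if_pos hP]
    have : 0 ≤ ∑ j ∈ G, (if P' j then f i j else 0) := Finset.sum_nonneg fun j _ => by
      split_ifs
      · exact hf i j
      · exact le_rfl
    linarith
  · rw [if_neg hP, zero_add]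
    refine Finset.sum_le_sum fun j hj => ?_
    split_ifs with h1
    · exact le_rfl
    · by_contra h2
      have h3 : f i j ≠ 0 := fun h0 => h2 h0.le
      rcases h i hi j hj h3 with h4 | h4
      · exact hP h4
      · exact h1 h4

/-- **energies of the relation of a tie, many labels** -/
theorem node_energy {A δ : ℝ} (hA : 0 ≤ A) (hδ : 0 < δ) (hδ1 : δ ≤ 1) : ∃ C : ℝ, 1 ≤ C ∧
    ∀ (ι κ : Type) (z c : ℕ) (Lp U0 : ℝ) (F : Finset ι) (G : Finset κ) (e : ι → ℕ) (e' : κ → ℕ)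
    (R : ι → ℝ) (R' : κ → ℝ) (ρ : ι → ℚ) (ρ' : κ → ℚ) (Rl : ι → κ → Prop),
    2 ≤ z → c.Prime → 1 ≤ U0 → 1 ≤ Lp → (3 + Real.log z) ^ C ≤ Lp →
    ∑ i ∈ F, R i ≤ Lp → ∑ j ∈ G, R' j ≤ Lp →
    Fam F G e e' R R' → (∀ j ∈ G, ¬ c ∣ e' j) →
    (∀ i ∈ F, ∀ p : ℕ, p.Prime → p ∣ e i → p ≤ z) → (∀ j ∈ G, ∀ p : ℕ, p.Prime → p ∣ e' j → p ≤ z) →
    (∀ i ∈ F, ∀ j ∈ G, Rl i j → RlT c Lp U0 A δ e e' R R' ρ ρ' i j) →
    ((∀ i ∈ F, ∀ j ∈ G, Rl i j → ρ' j = c * ρ i) ∨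
      (∑ r ∈ (F.image ρ).filter (fun r => Lp ≤ r.den), (r.den : ℝ) ^ (-(δ / 16)) ≤ 1 ∧
        ∑ r ∈ (G.image ρ').filter (fun r => Lp ≤ r.den), (r.den : ℝ) ^ (-(δ / 16)) ≤ 1)) →
    ∑ i ∈ F, ∑ j ∈ G, ind (Rl i j) * ov e e' R R' i j ≤
      (2 / √U0 + C * Lp ^ (-(δ / 16))) * (√(∑ i ∈ F, R i) * √(∑ j ∈ G, R' j)) := by
  classical
  obtain ⟨C1, hC1, h1⟩ := same_energy (A := A + 1) (by linarith)
  obtain ⟨C2, hC2, h2⟩ := diff_energy (A := A + 1) (by linarith) hδ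
  refine ⟨2 * C1 + 2 * C2, by linarith, ?_⟩
  intro ι κ z c Lp U0 F G e e' R R' ρ ρ' Rl hz hc hU0 hLp1 hzL hSR hSR' hf hcG hs hs' hRl hlac
  have hLp0 : 0 < Lp := by linarith
  have hlz : 0 ≤ Real.log z := Real.log_natCast_nonneg z
  have h3z : (1:ℝ) ≤ 3 + Real.log z := by linarith
  have hz1 : (3 + Real.log z) ^ C1 ≤ Lp :=
    (Real.rpow_le_rpow_of_exponent_le h3z (by linarith)).trans hzL
  have hz2 : (3 + Real.log z) ^ C2 ≤ Lp :=
    (Real.rpow_le_rpow_of_exponent_le h3z (by linarith)).trans hzL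
  have h3L : 1 < Lp := by
    have e1 : (3 + Real.log z) ^ (1:ℝ) ≤ Lp :=
      (Real.rpow_le_rpow_of_exponent_le h3z (by linarith)).trans hzL
    rw [Real.rpow_one] at e1
    linarith
  set S := ∑ i ∈ F, R i with hS
  set T := ∑ j ∈ G, R' j with hT
  have hS0 : 0 ≤ S := Finset.sum_nonneg hf.rF
  have hT0 : 0 ≤ T := Finset.sum_nonneg hf.rG
  set Fr : ℚ → Finset ι := fun r => F.filter fun i => ρ i = r with hFr
  set Gr : ℚ → Finset κ := fun r => G.filter fun j => ρ' j = r with hGr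
  have hFrF : ∀ r, Fr r ⊆ F := fun r => Finset.filter_subset _ _
  have hGrG : ∀ r, Gr r ⊆ G := fun r => Finset.filter_subset _ _
  have hov : ∀ i j, 0 ≤ ind (Rl i j) * ov e e' R R' i j := fun i j =>
    mul_nonneg (ind_nn _) (ov_nn _ _)
  -- one pair of labels
  have hone : ∀ r r' : ℚ, Lp ≤ r.den → Lp ≤ r'.den → ∀ g : ι → κ → ℝ, (∀ i j, 0 ≤ g i j) →
      (∀ i ∈ Fr r, ∀ j ∈ Gr r', g i j ≠ 0 → Rl i j) → ∀ B : ℝ,
      (∀ (F' : Finset ι) (G' : Finset κ), F' ⊆ Fr r → G' ⊆ Gr r' →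
        ((F'.card : ℝ) ≤ KK r r' ^ (A + 1) ∨ (G'.card : ℝ) ≤ KK r r' ^ (A + 1)) →
        ∑ i ∈ F', ∑ j ∈ G', g i j ≤ B * (√(∑ i ∈ F', R i) * √(∑ j ∈ G', R' j))) → 0 ≤ B →
      ∑ i ∈ Fr r, ∑ j ∈ Gr r', g i j ≤ 2 * B * (√(∑ i ∈ Fr r, R i) * √(∑ j ∈ Gr r', R' j)) := by
    intro r r' hr hr' g hg0 hgR B hB hB0
    have hK1 := KK_one r r'
    have hK0 : 0 < KK r r' := by linarith
    have hKL : Lp ≤ KK r r' := hr.trans (le_max_left _ _)
    have hKA : KK r r' ^ A * Lp ≤ KK r r' ^ (A + 1) := by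
      rw [Real.rpow_add hK0, Real.rpow_one]
      exact mul_le_mul_of_nonneg_left hKL (by positivity)
    have s1 := split2 (F := Fr r) (G := Gr r') hg0 (fun i => 1 ≤ KK r r' ^ A * R i)
      (fun j => 1 ≤ KK r r' ^ A * R' j) (fun i hi j hj h => by
        have a1 := hRl i (hFrF r hi) j (hGrG r' hj) (hgR i hi j hj h)
        have a2 := a1.lt
        have e1 : ρ i = r := (Finset.mem_filter.1 hi).2
        have e2 : ρ' j = r' := (Finset.mem_filter.1 hj).2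
        rwa [e1, e2] at a2)
    have hsub1 : ∑ i ∈ Fr r, R i ≤ Lp :=
      (Finset.sum_le_sum_of_subset_of_nonneg (hFrF r) fun i hi _ => hf.rF i hi).trans hSR
    have hsub2 : ∑ j ∈ Gr r', R' j ≤ Lp :=
      (Finset.sum_le_sum_of_subset_of_nonneg (hGrG r') fun i hi _ => hf.rG i hi).trans hSR'
    have k1 := hB ((Fr r).filter fun i => 1 ≤ KK r r' ^ A * R i) (Gr r')
      (Finset.filter_subset _ _) (Finset.Subset.refl _) (Or.inl
        ((card_late (fun i hi => hf.rF i (hFrF r hi)) (by positivity) hsub1).trans hKA))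
    have k2 := hB (Fr r) ((Gr r').filter fun j => 1 ≤ KK r r' ^ A * R' j)
      (Finset.Subset.refl _) (Finset.filter_subset _ _) (Or.inr
        ((card_late (fun i hi => hf.rG i (hGrG r' hi)) (by positivity) hsub2).trans hKA))
    have m1 : √(∑ i ∈ (Fr r).filter (fun i => 1 ≤ KK r r' ^ A * R i), R i) ≤ √(∑ i ∈ Fr r, R i) :=
      Real.sqrt_le_sqrt (Finset.sum_le_sum_of_subset_of_nonneg (Finset.filter_subset _ _)
        fun i hi _ => hf.rF i (hFrF r hi))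
    have m2 : √(∑ j ∈ (Gr r').filter (fun j => 1 ≤ KK r r' ^ A * R' j), R' j) ≤
        √(∑ j ∈ Gr r', R' j) :=
      Real.sqrt_le_sqrt (Finset.sum_le_sum_of_subset_of_nonneg (Finset.filter_subset _ _)
        fun i hi _ => hf.rG i (hGrG r' hi))
    have n1 := mul_le_mul_of_nonneg_left
      (mul_le_mul_of_nonneg_right m1 (Real.sqrt_nonneg (∑ j ∈ Gr r', R' j))) hB0
    have n2 := mul_le_mul_of_nonneg_left
      (mul_le_mul_of_nonneg_left m2 (Real.sqrt_nonneg (∑ i ∈ Fr r, R i))) hB0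
    linarith
  -- the pairs with one label
  have hsame : ∑ i ∈ F, ∑ j ∈ G, ind (ρ' j = c * ρ i ∧ Rl i j) * ov e e' R R' i j ≤
      2 * (1 / √U0 + C1 * Lp ^ (-(1 / 16) : ℝ)) * (√S * √T) := by
    set V : Finset ℚ := (F.image ρ).filter (fun r => Lp ≤ r.den) with hV
    set B : ℝ := 1 / √U0 + C1 * Lp ^ (-(1 / 16) : ℝ) with hB
    have hB0 : 0 ≤ B := by positivity
    have e1 : ∑ i ∈ F, ∑ j ∈ G, ind (ρ' j = c * ρ i ∧ Rl i j) * ov e e' R R' i j ≤
        ∑ r ∈ V, ∑ i ∈ Fr r, ∑ j ∈ Gr (c * r), ind (ρ' j = c * ρ i ∧ Rl i j) *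
          ov e e' R R' i j := by
      rw [sum_fib ρ, ← Finset.sum_filter_add_sum_filter_not (F.image ρ) (fun r => Lp ≤ r.den)]
      have z1 : ∑ r ∈ (F.image ρ).filter (fun r => ¬ Lp ≤ (r.den:ℝ)), ∑ i ∈ F.filter (fun i => ρ i = r),
          ∑ j ∈ G, ind (ρ' j = c * ρ i ∧ Rl i j) * ov e e' R R' i j = 0 := by
        refine Finset.sum_eq_zero fun r hr => Finset.sum_eq_zero fun i hi =>
          Finset.sum_eq_zero fun j hj => ?_
        rw [ind_f, zero_mul]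
        rintro ⟨-, h5⟩
        obtain ⟨hi1, hi2⟩ := Finset.mem_filter.1 hi
        have := (hRl i hi1 j hj h5).d1
        rw [hi2] at this
        exact (Finset.mem_filter.1 hr).2 this
      rw [z1, add_zero]
      refine Finset.sum_le_sum fun r hr => Finset.sum_le_sum fun i hi => ?_
      have hi2 := (Finset.mem_filter.1 hi).2
      rw [← Finset.sum_filter_add_sum_filter_not G (fun j => ρ' j = c * r)]
      have z2 : ∑ j ∈ G.filter (fun j => ¬ ρ' j = c * r), ind (ρ' j = c * ρ i ∧ Rl i j) *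
          ov e e' R R' i j = 0 := by
        refine Finset.sum_eq_zero fun j hj => ?_
        rw [ind_f, zero_mul]
        rintro ⟨h5, -⟩
        rw [hi2] at h5
        exact (Finset.mem_filter.1 hj).2 h5
      rw [z2, add_zero]
    have e2 : ∀ r ∈ V, ∑ i ∈ Fr r, ∑ j ∈ Gr (c * r), ind (ρ' j = c * ρ i ∧ Rl i j) *
        ov e e' R R' i j ≤ 2 * B * (√(∑ i ∈ Fr r, R i) * √(∑ j ∈ Gr (c * r), R' j)) := by
      intro r hr
      have hrd : Lp ≤ (r.den : ℝ) := (Finset.mem_filter.1 hr).2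
      by_cases hd2 : Lp ≤ (((c:ℚ) * r).den : ℝ)
      · refine hone r (c * r) hrd hd2 _ (fun i j => mul_nonneg (ind_nn _) (ov_nn _ _))
          (fun i hi j hj h => ?_) B (fun F' G' hF' hG' hcd => ?_) hB0
        · by_contra h6
          apply h
          rw [ind_f (fun h7 => h6 h7.2), zero_mul]
        · have hKd : KK r (c * r) = r.den := by
            unfold KK
            refine max_eq_left ?_
            have := den_mul_le c r
            exact_mod_cast this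
          rw [hKd] at hcd
          have key := h1 ι κ z c r.den U0 F' G' e e' R R' hz hc r.pos hU0 (hz1.trans hrd) hcd
            (Fam.subG (hf.sub (hF'.trans (hFrF r))) (hG'.trans (hGrG _)))
            (fun j hj => hcG j (hGrG _ (hG' hj)))
            (fun i hi => hs i (hFrF r (hF' hi))) (fun j hj => hs' j (hGrG _ (hG' hj)))
          refine (Finset.sum_le_sum fun i hi => Finset.sum_le_sum fun j hj => ?_).trans
            (key.trans ?_)
          · refine mul_le_mul_of_nonneg_right ?_ (Real.sqrt_nonneg _)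
            by_cases h5 : ρ' j = c * ρ i ∧ Rl i j
            · rw [ind_t h5, ind_t]
              have hi1 := hFrF r (hF' hi)
              have hj1 := hGrG _ (hG' hj)
              have a1 := hRl i hi1 j hj1 h5.2
              have e5 : ρ i = r := (Finset.mem_filter.1 (hF' hi)).2
              have e6 : ρ' j = c * r := (Finset.mem_filter.1 (hG' hj)).2
              have a2 := a1.co
              rw [e5, e6] at a2
              refine ⟨?_, co_cong a2⟩
              rcases a1.sp with a3 | a3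
              · exact a3.2
              · exfalso
                rw [e5, e6] at a3
                have hcg := co_cong a2
                have hcd' : ¬ c ∣ r.den := by
                  intro hh
                  have h8 : c ∣ (rd (e i) (e' j)).2 :=
                    ((hcg.of_dvd hh).dvd_iff (dvd_refl c)).1 (dvd_mul_right _ _)
                  exact hcG j hj1 (h8.trans (Nat.div_dvd_of_dvd (Nat.gcd_dvd_right _ _)))
                have hde := den_cop ((Nat.Prime.coprime_iff_not_dvd hc).2 hcd')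
                rw [hKd, hde] at a3
                have b0 : (1:ℝ) < r.den := lt_of_lt_of_le h3L hrd
                have b2 : (1:ℝ) < (r.den:ℝ) ^ δ := Real.one_lt_rpow b0 hδ
                rcases a3 with a3 | a3 <;> nlinarith
            · rw [ind_f h5]; exact ind_nn _
          · refine mul_le_mul_of_nonneg_right ?_ (by positivity)
            rw [hB]
            have b1 : (r.den : ℝ) ^ (-(1 / 16) : ℝ) ≤ Lp ^ (-(1 / 16) : ℝ) :=
              Real.rpow_le_rpow_of_nonpos hLp0 hrd (by norm_num)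
            have b2 : 0 ≤ C1 := by linarith
            have b3 := mul_le_mul_of_nonneg_left b1 b2
            linarith
      · rw [Finset.sum_eq_zero]
        · positivity
        · intro i hi
          refine Finset.sum_eq_zero fun j hj => ?_
          rw [ind_f, zero_mul]
          rintro ⟨-, h5⟩
          have a1 := (hRl i (hFrF r hi) j (hGrG _ hj) h5).d2
          have e6 : ρ' j = c * r := (Finset.mem_filter.1 hj).2
          rw [e6] at a1
          exact hd2 a1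
    have e3 : ∑ r ∈ V, √(∑ i ∈ Fr r, R i) * √(∑ j ∈ Gr (c * r), R' j) ≤ √S * √T := by
      refine (cs_w V (fun _ => 0) (fun r => ∑ i ∈ Fr r, R i) (fun r => ∑ j ∈ Gr (c * r), R' j)
        (fun _ _ => le_rfl) (fun r _ => Finset.sum_nonneg fun i hi => hf.rF i (hFrF r hi))
        (fun r _ => Finset.sum_nonneg fun j hj => hf.rG j (hGrG _ hj))).trans ?_
      refine mul_le_mul (Real.sqrt_le_sqrt ?_) (Real.sqrt_le_sqrt ?_) (Real.sqrt_nonneg _)
        (Real.sqrt_nonneg _)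
      · rw [hS, sum_fib ρ]
        exact Finset.sum_le_sum_of_subset_of_nonneg (Finset.filter_subset _ _) fun r _ _ =>
          Finset.sum_nonneg fun i hi => hf.rF i (hFrF r hi)
      · have hc0 : (c:ℚ) ≠ 0 := by exact_mod_cast hc.ne_zero
        have hinj : ∀ r ∈ V, ∀ r' ∈ V, (c:ℚ) * r = c * r' → r = r' := fun r _ r' _ h =>
          mul_left_cancel₀ hc0 h
        rw [← Finset.sum_image (f := fun r' => ∑ j ∈ Gr r', R' j) hinj]
        rw [hT, sum_fib ρ']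
        set W := V.image fun r => (c:ℚ) * r with hW
        rw [← Finset.sum_filter_add_sum_filter_not W (fun r => r ∈ G.image ρ')]
        have z3 : ∑ r ∈ W.filter (fun r => ¬ r ∈ G.image ρ'), ∑ j ∈ Gr r, R' j = 0 := by
          refine Finset.sum_eq_zero fun r hr => Finset.sum_eq_zero fun j hj => ?_
          obtain ⟨h5, h6⟩ := Finset.mem_filter.1 hj
          exact absurd (h6 ▸ Finset.mem_image_of_mem ρ' h5) (Finset.mem_filter.1 hr).2
        rw [z3, add_zero]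
        exact Finset.sum_le_sum_of_subset_of_nonneg
          (fun r hr => (Finset.mem_filter.1 hr).2) fun r _ _ =>
          Finset.sum_nonneg fun j hj => hf.rG j (hGrG _ hj)
    refine e1.trans ((Finset.sum_le_sum e2).trans ?_)
    rw [← Finset.mul_sum]
    exact mul_le_mul_of_nonneg_left e3 (by positivity)
  -- the pairs with two labels
  have hdiff : ∑ i ∈ F, ∑ j ∈ G, ind (ρ' j ≠ c * ρ i ∧ Rl i j) * ov e e' R R' i j ≤
      2 * C2 * Lp ^ (-(δ / 16)) * (√S * √T) := by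
    have hM : 0 ≤ √S * √T := by positivity
    rcases hlac with hl | ⟨hl1, hl2⟩
    · rw [Finset.sum_eq_zero]
      · positivity
      · intro i hi
        refine Finset.sum_eq_zero fun j hj => ?_
        rw [ind_f, zero_mul]
        rintro ⟨h5, h6⟩
        exact h5 (hl i hi j hj h6)
    set V : Finset ℚ := (F.image ρ).filter (fun r => Lp ≤ r.den) with hV
    set V' : Finset ℚ := (G.image ρ').filter (fun r => Lp ≤ r.den) with hV'
    have e1 : ∑ i ∈ F, ∑ j ∈ G, ind (ρ' j ≠ c * ρ i ∧ Rl i j) * ov e e' R R' i j ≤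
        ∑ r ∈ V, ∑ r' ∈ V', ∑ i ∈ Fr r, ∑ j ∈ Gr r', ind (ρ' j ≠ c * ρ i ∧ Rl i j) *
          ov e e' R R' i j := by
      rw [sum_fib ρ, ← Finset.sum_filter_add_sum_filter_not (F.image ρ) (fun r => Lp ≤ r.den)]
      have z1 : ∑ r ∈ (F.image ρ).filter (fun r => ¬ Lp ≤ (r.den:ℝ)), ∑ i ∈ F.filter (fun i => ρ i = r),
          ∑ j ∈ G, ind (ρ' j ≠ c * ρ i ∧ Rl i j) * ov e e' R R' i j = 0 := by
        refine Finset.sum_eq_zero fun r hr => Finset.sum_eq_zero fun i hi =>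
          Finset.sum_eq_zero fun j hj => ?_
        rw [ind_f, zero_mul]
        rintro ⟨-, h5⟩
        obtain ⟨hi1, hi2⟩ := Finset.mem_filter.1 hi
        have := (hRl i hi1 j hj h5).d1
        rw [hi2] at this
        exact (Finset.mem_filter.1 hr).2 this
      rw [z1, add_zero]
      refine Finset.sum_le_sum fun r hr => ?_
      rw [Finset.sum_comm (s := V')]
      refine Finset.sum_le_sum fun i hi => ?_
      rw [sum_fib ρ', ← Finset.sum_filter_add_sum_filter_not (G.image ρ') (fun r => Lp ≤ r.den)]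
      have z2 : ∑ r ∈ (G.image ρ').filter (fun r => ¬ Lp ≤ (r.den:ℝ)),
          ∑ j ∈ G.filter (fun j => ρ' j = r), ind (ρ' j ≠ c * ρ i ∧ Rl i j) *
          ov e e' R R' i j = 0 := by
        refine Finset.sum_eq_zero fun r hr => Finset.sum_eq_zero fun j hj => ?_
        rw [ind_f, zero_mul]
        rintro ⟨-, h5⟩
        obtain ⟨hj1, hj2⟩ := Finset.mem_filter.1 hj
        have := (hRl i (Finset.mem_filter.1 hi).1 j hj1 h5).d2
        rw [hj2] at this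
        exact (Finset.mem_filter.1 hr).2 this
      rw [z2, add_zero]
    set wt : ℚ → ℝ := fun r => (r.den : ℝ) ^ (-(δ / 16)) with hwt
    have hwt0 : ∀ r, 0 ≤ wt r := fun r => by positivity
    have e2 : ∀ r ∈ V, ∀ r' ∈ V', ∑ i ∈ Fr r, ∑ j ∈ Gr r', ind (ρ' j ≠ c * ρ i ∧ Rl i j) *
        ov e e' R R' i j ≤ 2 * C2 * ((wt r * √(∑ i ∈ Fr r, R i)) *
          (wt r' * √(∑ j ∈ Gr r', R' j))) := by
      intro r hr r' hr'
      have hrd : Lp ≤ (r.den : ℝ) := (Finset.mem_filter.1 hr).2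
      have hrd' : Lp ≤ (r'.den : ℝ) := (Finset.mem_filter.1 hr').2
      have hK1 := KK_one r r'
      have hK0 : 0 < KK r r' := by linarith
      have hKL : Lp ≤ KK r r' := hrd.trans (le_max_left _ _)
      by_cases hrat : KK r r' ^ δ * r.den ≤ r'.den ∨ KK r r' ^ δ * r'.den ≤ r.den
      · have k1 := hone r r' hrd hrd' (fun i j => ind (ρ' j ≠ c * ρ i ∧ Rl i j) *
          ov e e' R R' i j) (fun i j => mul_nonneg (ind_nn _) (ov_nn i j))
          (fun i hi j hj h => (by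
            by_contra h6
            apply h
            show ind (ρ' j ≠ c * ρ i ∧ Rl i j) * ov e e' R R' i j = 0
            rw [ind_f (fun h7 => h6 h7.2), zero_mul] : Rl i j))
          (C2 * KK r r' ^ (-(δ / 8))) (fun F' G' hF' hG' hcd => ?_) (by positivity)
        · refine k1.trans (le_of_le_of_eq (b := 2 * (C2 * (wt r * wt r')) *
            (√(∑ i ∈ Fr r, R i) * √(∑ j ∈ Gr r', R' j))) ?_ (by ring))
          refine mul_le_mul_of_nonneg_right ?_ (by positivity)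
          refine mul_le_mul_of_nonneg_left ?_ (by norm_num)
          refine mul_le_mul_of_nonneg_left ?_ (by linarith)
          have d1 : (0:ℝ) < r.den := by exact_mod_cast r.pos
          have d2 : (0:ℝ) < r'.den := by exact_mod_cast r'.pos
          have f1 : KK r r' ^ (-(δ / 16)) ≤ wt r :=
            Real.rpow_le_rpow_of_nonpos d1 (le_max_left _ _) (by linarith)
          have f2 : KK r r' ^ (-(δ / 16)) ≤ wt r' :=
            Real.rpow_le_rpow_of_nonpos d2 (le_max_right _ _) (by linarith)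
          have f3 : KK r r' ^ (-(δ / 8)) = KK r r' ^ (-(δ / 16)) * KK r r' ^ (-(δ / 16)) := by
            rw [← Real.rpow_add hK0]; congr 1; ring
          rw [f3]
          exact mul_le_mul f1 f2 (by positivity) (hwt0 r)
        · have key := h2 ι κ z r r' (KK r r') F' G' e e' R R' hz hK1 (hz2.trans hKL) hrat hcd
            (Fam.subG (hf.sub (hF'.trans (hFrF r))) (hG'.trans (hGrG _)))
            (fun i hi => hs i (hFrF r (hF' hi))) (fun j hj => hs' j (hGrG _ (hG' hj)))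
          refine (Finset.sum_le_sum fun i hi => Finset.sum_le_sum fun j hj => ?_).trans key
          refine mul_le_mul_of_nonneg_right ?_ (Real.sqrt_nonneg _)
          by_cases h5 : ρ' j ≠ c * ρ i ∧ Rl i j
          · rw [ind_t h5, ind_t]
            have a1 := (hRl i (hFrF r (hF' hi)) j (hGrG _ (hG' hj)) h5.2).co
            have e5 : ρ i = r := (Finset.mem_filter.1 (hF' hi)).2
            have e6 : ρ' j = r' := (Finset.mem_filter.1 (hG' hj)).2
            rwa [e5, e6] at a1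
          · rw [ind_f h5]; exact ind_nn _
      · rw [Finset.sum_eq_zero]
        · positivity
        · intro i hi
          refine Finset.sum_eq_zero fun j hj => ?_
          rw [ind_f, zero_mul]
          rintro ⟨h5, h6⟩
          have a1 := (hRl i (hFrF r hi) j (hGrG _ hj) h6).sp
          have e5 : ρ i = r := (Finset.mem_filter.1 hi).2
          have e6 : ρ' j = r' := (Finset.mem_filter.1 hj).2
          rcases a1 with a1 | a1
          · exact h5 a1.1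
          · rw [e5, e6] at a1
            exact hrat a1
    have hCS : ∀ (s : Finset ℚ) (q : ℚ → ℝ), (∀ r ∈ s, 0 ≤ q r) → (∀ r ∈ s, Lp ≤ (r.den:ℝ)) →
        ∑ r ∈ s, (r.den : ℝ) ^ (-(δ / 16)) ≤ 1 → ∀ Q : ℝ, ∑ r ∈ s, q r ≤ Q →
        ∑ r ∈ s, wt r * √(q r) ≤ Lp ^ (-(δ / 32)) * √Q := by
      intro s q hq hd hsum Q hQ
      have k1 := Real.sum_mul_le_sqrt_mul_sqrt s wt (fun r => √(q r))
      have k2 : ∑ r ∈ s, √(q r) ^ 2 = ∑ r ∈ s, q r :=
        Finset.sum_congr rfl fun r hr => Real.sq_sqrt (hq r hr)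
      have k3 : ∑ r ∈ s, wt r ^ 2 ≤ Lp ^ (-(δ / 16)) := by
        calc ∑ r ∈ s, wt r ^ 2 ≤ ∑ r ∈ s, Lp ^ (-(δ / 16)) * wt r := by
              refine Finset.sum_le_sum fun r hr => ?_
              rw [pow_two]
              refine mul_le_mul_of_nonneg_right ?_ (hwt0 r)
              exact Real.rpow_le_rpow_of_nonpos hLp0 (hd r hr) (by linarith)
          _ = Lp ^ (-(δ / 16)) * ∑ r ∈ s, wt r := by rw [Finset.mul_sum]
          _ ≤ Lp ^ (-(δ / 16)) * 1 := mul_le_mul_of_nonneg_left hsum (by positivity)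
          _ = _ := mul_one _
      rw [k2] at k1
      refine k1.trans (mul_le_mul ?_ (Real.sqrt_le_sqrt hQ) (Real.sqrt_nonneg _) (by positivity))
      calc √(∑ r ∈ s, wt r ^ 2) ≤ √(Lp ^ (-(δ / 16))) := Real.sqrt_le_sqrt k3
        _ = Lp ^ (-(δ / 32)) := by
            rw [Real.sqrt_eq_rpow, ← Real.rpow_mul hLp0.le]; congr 1; ring
    have c1 := hCS V (fun r => ∑ i ∈ Fr r, R i)
      (fun r _ => Finset.sum_nonneg fun i hi => hf.rF i (hFrF r hi))
      (fun r hr => (Finset.mem_filter.1 hr).2) hl1 S (by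
        rw [hS, sum_fib ρ]
        exact Finset.sum_le_sum_of_subset_of_nonneg (Finset.filter_subset _ _) fun r _ _ =>
          Finset.sum_nonneg fun i hi => hf.rF i (hFrF r hi))
    have c2 := hCS V' (fun r => ∑ j ∈ Gr r, R' j)
      (fun r _ => Finset.sum_nonneg fun j hj => hf.rG j (hGrG r hj))
      (fun r hr => (Finset.mem_filter.1 hr).2) hl2 T (by
        rw [hT, sum_fib ρ']
        exact Finset.sum_le_sum_of_subset_of_nonneg (Finset.filter_subset _ _) fun r _ _ =>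
          Finset.sum_nonneg fun j hj => hf.rG j (hGrG r hj))
    refine e1.trans ((Finset.sum_le_sum fun r hr => Finset.sum_le_sum fun r' hr' =>
      e2 r hr r' hr').trans ?_)
    have e4 : ∑ r ∈ V, ∑ r' ∈ V', 2 * C2 * ((wt r * √(∑ i ∈ Fr r, R i)) *
          (wt r' * √(∑ j ∈ Gr r', R' j))) =
        2 * C2 * ((∑ r ∈ V, wt r * √(∑ i ∈ Fr r, R i)) *
          (∑ r' ∈ V', wt r' * √(∑ j ∈ Gr r', R' j))) := by
      rw [Finset.sum_mul_sum, Finset.mul_sum]
      refine Finset.sum_congr rfl fun r _ => ?_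
      rw [Finset.mul_sum]
    rw [e4]
    have g1 : 0 ≤ ∑ r' ∈ V', wt r' * √(∑ j ∈ Gr r', R' j) :=
      Finset.sum_nonneg fun r _ => mul_nonneg (hwt0 r) (Real.sqrt_nonneg _)
    have c3 := mul_le_mul c1 c2 g1 (by positivity)
    have c4 : Lp ^ (-(δ / 32)) * √S * (Lp ^ (-(δ / 32)) * √T) =
        Lp ^ (-(δ / 16)) * (√S * √T) := by
      have : Lp ^ (-(δ / 16)) = Lp ^ (-(δ / 32)) * Lp ^ (-(δ / 32)) := by
        rw [← Real.rpow_add hLp0]; congr 1; ring
      rw [this]; ring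
    rw [c4] at c3
    have c5 := mul_le_mul_of_nonneg_left c3 (show 0 ≤ 2 * C2 by linarith)
    refine c5.trans (le_of_eq (by ring))
  -- the sum
  have hsum : ∀ i ∈ F, ∀ j ∈ G, ind (Rl i j) * ov e e' R R' i j =
      ind (ρ' j = c * ρ i ∧ Rl i j) * ov e e' R R' i j +
      ind (ρ' j ≠ c * ρ i ∧ Rl i j) * ov e e' R R' i j := by
    intro i _ j _
    rw [← add_mul]
    congr 1
    by_cases h5 : Rl i j
    · by_cases h6 : ρ' j = c * ρ i
      · rw [ind_t h5, ind_t (⟨h6, h5⟩ : _ ∧ _), ind_f (fun h7 => h7.1 h6), add_zero]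
      · rw [ind_t h5, ind_f (fun h7 => h6 h7.1), ind_t (⟨h6, h5⟩ : _ ∧ _), zero_add]
    · rw [ind_f h5, ind_f (fun h7 => h5 h7.2), ind_f (fun h7 => h5 h7.2), add_zero]
  rw [Finset.sum_congr rfl fun i hi => Finset.sum_congr rfl fun j hj => hsum i hi j hj]
  simp only [Finset.sum_add_distrib]
  refine (add_le_add hsame hdiff).trans ?_
  have hM : 0 ≤ √S * √T := by positivity
  rw [← add_mul]
  refine mul_le_mul_of_nonneg_right ?_ hM
  have b1 : Lp ^ (-(1 / 16) : ℝ) ≤ Lp ^ (-(δ / 16)) :=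
    Real.rpow_le_rpow_of_exponent_le hLp1 (by linarith)
  have b2 : 0 ≤ C1 := by linarith
  have b3 := mul_le_mul_of_nonneg_left b1 b2
  have e7 : 2 / √U0 = 2 * (1 / √U0) := by ring
  rw [e7]
  linarith

end node

end Crest.Agent.R4P.RtE28
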