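import Crest.Agent.R4P.XmN_37
import Crest.Agent.R4P.GcdU_37
import Crest.Agent.R4P.RtE_28

/-!
R4 (S0004) with powers, helper37: **pairs of two nodes with ARBITRARY offsets** (game, permissive, sticky
labels): exact centres of the related pairs are a hypothesis.

* `ExO X s s' t t' R ρ ρ'` : exact centres `(a + ρ q) w_r = (a' + ρ' r) w_q` at all the common points;
  `exO_L2` : real labels;
* **`node_off`** : `Q R (vN s) (vN s') ≤ ∑ 2 ov` over the pairs of items of `R` with `Co (D2 ρ) (D1 ρ')`;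
* **`node_same`** : one node, many labels, same label, different items, one of the two late :
  `≤ C (1 + log P) ∑_q (den ρ_q)^(-1/8) M_q`.
-/

set_option autoImplicit false
set_option linter.unusedSectionVars false
set_option linter.unusedVariables false

open MeasureTheory Filter

namespace Crest.Agent.R4P.XmO37

open Crest.Agent.R4.Tour104 Crest.Agent.R4.Tour758 Crest.Agent.R4.Avg758 Crest.Agent.R4.Clos758
open Crest.Agent.R4.ClosL758 Crest.Agent.R4.ClosG758 Crest.Agent.R4.ClosR758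
open Crest.Agent.R4.HVW560
open Crest.Agent.R4.Fam464 Crest.Agent.R4.Piece464
open Crest.Agent.R4P.Cnt588 Crest.Agent.R4P.Item758 Crest.Agent.R4P.AvgItem710
open Crest.Agent.R4P.Walk560 Crest.Agent.R4P.NodeG33
open Crest.Agent.R4P.Data758 Crest.Agent.R4P.Skel189
open Crest.Agent.R4P.Bld532 (NS All)
open Crest.Agent.R4P.Step588 (NDt CT CT_pos tot_ge totient_div_prod)
open Crest.Agent.R4.Soft104 (w)
open Crest.Agent.R4P.SameIx30 Crest.Agent.R4P.GPair33
open Crest.Agent.R4P.ShR18 (Co)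
open Crest.Agent.R4P.SpM18 Crest.Agent.R4P.XmE18 Crest.Agent.R4P.XmM18 Crest.Agent.R4P.XmG18
open Crest.Agent.R4P.GcdK37 (ind ind_t ind_f ind_nn ind_le)
open Crest.Agent.R4P.GcdS37 (rd)
open Crest.Agent.R4P.GcdU37 (Tl)
open Crest.Agent.R4P.XmN37
open Crest.Agent.R4P

variable {N : Skel189.Num} {γ : ℝ} {p0 P₀ : ℕ} {X : Ctx N γ p0 P₀}

/-- the tooth `a` of the piece `j` at the node `s` contains `y` -/
def Tth (X : Ctx N γ p0 P₀) (s : NS) (j : X.c.Lam) (y : ℝ) (a : ℤ) : Prop :=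
  (s.B : ℝ) * X.c.bp j.1.1 j.1.2 ≤ ((j.1.1 / s.A : ℕ) : ℝ) * y - s.B * X.c.γ - a ∧
    ((j.1.1 / s.A : ℕ) : ℝ) * y - s.B * X.c.γ - a < s.B * X.c.bp j.1.1 (j.1.2 + 1)

/-- **exact centres** of the pairs of `R`, offsets `ρ`, `ρ'` of the items -/
def ExO (X : Ctx N γ p0 P₀) (s s' : NS) (t t' : IT) (R : Finset (X.c.Lam × X.c.Lam))
    (ρ ρ' : ℕ → ℚ) : Prop :=
  ∀ x ∈ R, x.1.1.1 ∈ t.items → x.2.1.1 ∈ t'.items → ∀ (y : ℝ) (a a' : ℤ),
    Tth X s x.1 y a → Tth X s' x.2 y a' →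
    ((a : ℚ) + ρ x.1.1.1) * (x.2.1.1 / s'.A : ℕ) = (a' + ρ' x.2.1.1) * (x.1.1.1 / s.A : ℕ)

lemma ExO.mono {s s' : NS} {t t' : IT} {R R' : Finset (X.c.Lam × X.c.Lam)} {ρ ρ' : ℕ → ℚ}
    (h : ExO X s s' t t' R ρ ρ') (hs : R' ⊆ R) : ExO X s s' t t' R' ρ ρ' :=
  fun x hx => h x (hs hx)

/-- the centres after division by the gcd -/
lemma ExO.red {s s' : NS} {t t' : IT} (h : QX X s t) {R : Finset (X.c.Lam × X.c.Lam)} {ρ ρ' : ℕ → ℚ}
    (hE : ExO X s s' t t' R ρ ρ') {x : X.c.Lam × X.c.Lam} (hx : x ∈ R) (i1 : x.1.1.1 ∈ t.items)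
    (i2 : x.2.1.1 ∈ t'.items) {y : ℝ} {a a' : ℤ} (h1 : Tth X s x.1 y a) (h2 : Tth X s' x.2 y a') :
    ((a : ℚ) + ρ x.1.1.1) * (D2 s s' (it2 x) : ℕ) = (a' + ρ' x.2.1.1) * (D1 s s' (it2 x) : ℕ) := by
  have k := hE x hx i1 i2 y a a' h1 h2
  have hw : 0 < x.1.1.1 / s.A := Nat.pos_of_ne_zero (h.div_ne i1)
  have hg0 : (0 : ℚ) < ((x.1.1.1 / s.A).gcd (x.2.1.1 / s'.A) : ℕ) := by
    exact_mod_cast Nat.gcd_pos_of_pos_left _ hw
  have ew : ((x.1.1.1 / s.A : ℕ) : ℚ) = ((x.1.1.1 / s.A).gcd (x.2.1.1 / s'.A) : ℕ) *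
      (D1 s s' (it2 x) : ℕ) := by
    exact_mod_cast (Crest.Agent.R4.AvgItem710.mul_cof).symm
  have ew' : ((x.2.1.1 / s'.A : ℕ) : ℚ) = ((x.1.1.1 / s.A).gcd (x.2.1.1 / s'.A) : ℕ) *
      (D2 s s' (it2 x) : ℕ) := by
    exact_mod_cast (Crest.Agent.R4.AvgItem710.mul_cof').symm
  rw [ew, ew'] at k
  apply mul_left_cancel₀ hg0.ne'
  linear_combination k

/-- the congruence of a related pair with a common point -/
lemma ExO.co {s s' : NS} {t t' : IT} (h : QX X s t) (h' : QX X s' t')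
    {R : Finset (X.c.Lam × X.c.Lam)} {ρ ρ' : ℕ → ℚ}
    (hE : ExO X s s' t t' R ρ ρ') {x : X.c.Lam × X.c.Lam} (hx : x ∈ R) {y : ℝ}
    (hy : vN X (.inl (s, t)) x.1 y * vN X (.inl (s', t')) x.2 y ≠ 0) :
    x.1.1.1 ∈ t.items ∧ x.2.1.1 ∈ t'.items ∧ x.1.1.1 ∈ X.S' ∧ x.2.1.1 ∈ X.S' ∧
    Co ((D2 s s' (it2 x) : ℕ) * ρ x.1.1.1) ((D1 s s' (it2 x) : ℕ) * ρ' x.2.1.1) := by
  have y1 := left_ne_zero_of_mul hy
  have y2 := right_ne_zero_of_mul hy
  obtain ⟨i1, a, l1⟩ := tooth h y1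
  obtain ⟨i2, a', l2⟩ := tooth h' y2
  have i3 : x.1.1.1 ∈ X.S' := by
    by_contra hn
    exact y1 (vN_dead h hn y)
  have i4 : x.2.1.1 ∈ X.S' := by
    by_contra hn
    exact y2 (vN_dead h' hn y)
  refine ⟨i1, i2, i3, i4, ?_⟩
  have k := hE.red h hx i1 i2 (y := y) (a := a) (a' := a') l1 l2
  refine ⟨a' * (D1 s s' (it2 x) : ℕ) - a * (D2 s s' (it2 x) : ℕ), ?_⟩
  push_cast
  linear_combination k

/-- real labels -/
lemma exO_L2 {s s' : NS} {t t' : IT} (h : QX X s t) (h' : QX X s' t') {p : ℕ}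
    (hp : p ≤ top X.S) (hlam : X.c.lam p = 0) (hT : s.A * s.B = s'.A * s'.B)
    {R : Finset (X.c.Lam × X.c.Lam)} (hR : LB X p R) {σ : ℕ → ℚ}
    (hσ : ∀ x ∈ R, X.c.st p x.1.1.1 = some (σ x.1.1.1) ∧ X.c.st p x.2.1.1 = some (σ x.2.1.1)) :
    ExO X s s' t t' R (fun q => s.B * σ q) (fun q => s'.B * σ q) := by
  intro x hx i1 i2 y a a' l1 l2
  have hw : 0 < x.1.1.1 / s.A := Nat.pos_of_ne_zero (h.div_ne i1)
  have hg : (0 : ℚ) < ((x.1.1.1 / s.A).gcd (x.2.1.1 / s'.A) : ℕ) := by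
    exact_mod_cast Nat.gcd_pos_of_pos_left _ hw
  have k := rel_some2 h h' hp hlam one_pos one_pos (by rw [mul_one, mul_one]; exact hT)
    (Nat.coprime_one_left 1) (hR.ix x hx) i1 i2 (hσ x hx).1 (hσ x hx).2 (y := y) (a := a) (a' := a')
    (by simpa [rf] using l1.1) (by simpa [rf] using l1.2) (by simpa [rf] using l2.1)
    (by simpa [rf] using l2.2)
  set W := x.1.1.1 / s.A with hW
  set W' := x.2.1.1 / s'.A with hW'
  have e1 : rf W 1 = 1 := by simp [rf]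
  have e2 : rf W' 1 = 1 := by simp [rf]
  have e3 : W / (1 : ℕ).gcd W = W := by simp
  have e4 : W' / (1 : ℕ).gcd W' = W' := by simp
  rw [e1, e2, e3, e4, one_mul, one_mul] at k
  have k' : ((a : ℚ) + s.B * σ x.1.1.1) * (cof W' W : ℕ) =
      (a' + s'.B * σ x.2.1.1) * (cof W W' : ℕ) := by
    exact_mod_cast k
  have ew : (W : ℚ) = (W.gcd W' : ℕ) * (cof W W' : ℕ) := by
    exact_mod_cast (Crest.Agent.R4.AvgItem710.mul_cof).symm
  have ew' : (W' : ℚ) = (W.gcd W' : ℕ) * (cof W' W : ℕ) := by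
    exact_mod_cast (Crest.Agent.R4.AvgItem710.mul_cof').symm
  rw [ew, ew']
  linear_combination (W.gcd W' : ℚ) * k'

/-- **one pair of items** -/
theorem iF_off {s s' : NS} {t t' : IT} (h : QX X s t) (h' : QX X s' t')
    {R : Finset (X.c.Lam × X.c.Lam)} {ρ ρ' : ℕ → ℚ} (hE : ExO X s s' t t' R ρ ρ') {e : ℕ × ℕ}
    (he : e.1 ∈ t.items) (he' : e.2 ∈ t'.items) :
    (X.c.D.par X.Y).iF R ((X.c.D.par X.Y).uA 1 s.B s.A t Finset.univ 1)
      ((X.c.D.par X.Y).uA 1 s'.B s'.A t' Finset.univ 1) e ≤ 2 * ov X s s' e := by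
  have hrw : RW (X.c.D.par X.Y) 1 s.B s.A 1 1 s'.B s'.A 1 Finset.univ Finset.univ R e
      ((ρ e.1 : ℚ) : ℝ) ((ρ' e.2 : ℚ) : ℝ) 0 := by
    intro x hx _ _ i1 i2 y a a' l1 l2 l3 l4
    have i1' : x.1.1.1 = e.1 := i1
    have i2' : x.2.1.1 = e.2 := i2
    have hie : it2 x = e := Prod.ext i1' i2'
    have m1 : Tth X s x.1 y a := by
      constructor
      · have := l1; simp [rf, ← i1'] at this; exact this
      · have := l2; simp [rf, ← i1'] at this; exact this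
    have m2 : Tth X s' x.2 y a' := by
      constructor
      · have := l3; simp [rf, ← i2'] at this; exact this
      · have := l4; simp [rf, ← i2'] at this; exact this
    have k := hE.red h hx (by rw [i1']; exact he) (by rw [i2']; exact he') m1 m2
    rw [hie, i1', i2'] at k
    have e3 : e.1 / s.A / (1 : ℕ).gcd (e.1 / s.A) = e.1 / s.A := by simp
    have e4 : e.2 / s'.A / (1 : ℕ).gcd (e.2 / s'.A) = e.2 / s'.A := by simp
    rw [e3, e4]
    have k' : ((a : ℝ) + ((ρ e.1 : ℚ) : ℝ)) * (cof (e.2 / s'.A) (e.1 / s.A) : ℕ) =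
        (a' + ((ρ' e.2 : ℚ) : ℝ)) * (cof (e.1 / s.A) (e.2 / s'.A) : ℕ) := by
      exact_mod_cast k
    rw [k', sub_self, abs_zero]
  have key := iF_rel_avg (X.ok.rad X.Y) one_pos one_pos h.B_pos h'.B_pos h.fit h'.fit (wts_nd h X.Y)
    (wts_nd h' X.Y) (one_dvd _) (one_dvd _) R e he he' le_rfl hrw
  rw [DaI_eq, Nat.cast_one, div_one, div_one] at key
  refine key.trans (le_of_eq ?_)
  rw [← DU_one h h' he he']
  unfold RB
  ring

open Classical in
/-- **energy of a pair of nodes, arbitrary offsets** -/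
theorem node_off {s s' : NS} {t t' : IT} (h : QX X s t) (h' : QX X s' t')
    {R : Finset (X.c.Lam × X.c.Lam)} {ρ ρ' : ℕ → ℚ} (hE : ExO X s s' t t' R ρ ρ') :
    Q R (vN X (.inl (s, t))) (vN X (.inl (s', t'))) ≤
      ∑ e ∈ (t.items ×ˢ t'.items).filter (fun e => ∃ x ∈ R, it2 x = e ∧
        ∃ y, vN X (.inl (s, t)) x.1 y * vN X (.inl (s', t')) x.2 y ≠ 0), 2 * ov X s s' e := by
  set f := vN X (.inl (s, t)) with hf
  set g := vN X (.inl (s', t')) with hg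
  set R' := R.filter (fun x => ∃ y, f x.1 y * g x.2 y ≠ 0) with hR'
  have hQ : Q R f g = Q R' f g := by
    unfold Q
    rw [hR', Finset.sum_filter]
    refine Finset.sum_congr rfl fun x _ => ?_
    split_ifs with hx
    · rfl
    · push Not at hx
      have e1 : (fun y => f x.1 y * g x.2 y) = fun _ => 0 := funext hx
      rw [e1]
      simp [I]
  have hE' : ExO X s s' t t' R' ρ ρ' := hE.mono (Finset.filter_subset _ _)
  have hQ2 : Q R' f g = ∑ e ∈ (X.c.D.par X.Y).PE R' ((X.c.D.par X.Y).uA 1 s.B s.A t Finset.univ 1)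
      ((X.c.D.par X.Y).uA 1 s'.B s'.A t' Finset.univ 1),
      (X.c.D.par X.Y).iF R' ((X.c.D.par X.Y).uA 1 s.B s.A t Finset.univ 1)
      ((X.c.D.par X.Y).uA 1 s'.B s'.A t' Finset.univ 1) e := by
    rw [hf, hg, vN_eq_uA, vN_eq_uA, (X.c.D.par X.Y).Q_eq]
  rw [hQ, hQ2]
  have hpe : (X.c.D.par X.Y).PE R' ((X.c.D.par X.Y).uA 1 s.B s.A t Finset.univ 1)
      ((X.c.D.par X.Y).uA 1 s'.B s'.A t' Finset.univ 1) ⊆ (t.items ×ˢ t'.items).filter
        (fun e => ∃ x ∈ R, it2 x = e ∧ ∃ y, f x.1 y * g x.2 y ≠ 0) := by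
    intro e he
    obtain ⟨j, j', h1, -, -, h4, h5, h6, h7, -⟩ := Par.PE_ex one_pos one_pos he
    obtain ⟨h8, h9⟩ := Finset.mem_filter.1 h1
    exact Finset.mem_filter.2 ⟨Finset.mem_product.2 ⟨h6, h7⟩, (j, j'), h8, Prod.ext h4 h5, h9⟩
  have hrr := (X.ok.rad X.Y).pos
  have hnn : ∀ e ∈ (t.items ×ˢ t'.items).filter
      (fun e => ∃ x ∈ R, it2 x = e ∧ ∃ y, f x.1 y * g x.2 y ≠ 0), 0 ≤ 2 * ov X s s' e := by
    intro e he
    have := hrr e.1
    have := hrr e.2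
    unfold ov
    refine mul_nonneg (by norm_num) (le_min ?_ ?_) <;> positivity
  refine (Finset.sum_le_sum fun e he => ?_).trans
    (Finset.sum_le_sum_of_subset_of_nonneg hpe fun e he _ => hnn e he)
  have h1 := Finset.mem_product.1 (Finset.mem_filter.1 (hpe he)).1
  exact iF_off h h' hE' h1.1 h1.2

/-! ### one node, many labels, same label -/

/-- the radius as a nonnegative number -/
lemma RB_nn {s : NS} {t : IT} (h : QX X s t) (q : ℕ) : 0 ≤ RB X s q :=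
  (mul_pos (by exact_mod_cast h.B_pos : (0:ℝ) < s.B) ((X.ok.rad X.Y).pos q)).le

lemma div_inj {s : NS} {t : IT} (h : QX X s t) {q r : ℕ} (hq : q ∈ t.items) (hr : r ∈ t.items)
    (he : q / s.A = r / s.A) : q = r := by
  have h1 := h.bk.dvd _ hq
  have h2 := h.bk.dvd _ hr
  rw [← Nat.mul_div_cancel' h1, ← Nat.mul_div_cancel' h2, he]

/-- a constant is below a power of `3 + log P` -/
lemma const_pow {P : ℕ} {c : ℝ} : c ≤ (3 + Real.log (P : ℝ)) ^ c := by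
  have hlP : 0 ≤ Real.log (P : ℝ) := Real.log_natCast_nonneg P
  rcases le_total c 0 with hc | hc
  · exact hc.trans (by positivity)
  have h3 : (1 : ℝ) ≤ Real.log (3 + Real.log P) := by
    have : Real.exp 1 ≤ 3 + Real.log P := by
      have := Real.exp_one_lt_d9; linarith
    rwa [Real.le_log_iff_exp_le (by linarith)]
  rw [Real.rpow_def_of_pos (by linarith)]
  have h4 := Real.add_one_le_exp (Real.log (3 + Real.log (P : ℝ)) * c)
  have h5 : 1 * c ≤ Real.log (3 + Real.log (P : ℝ)) * c := mul_le_mul_of_nonneg_right h3 hc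
  linarith

open Classical in
/-- the alive items of a node which occur in `R` -/
noncomputable def occ (X : Ctx N γ p0 P₀) (t : IT) (R : Finset (X.c.Lam × X.c.Lam)) : Finset ℕ :=
  t.items.filter fun q => q ∈ X.S' ∧ ∃ x ∈ R, x.1.1.1 = q ∨ x.2.1.1 = q

open Classical in
/-- **ONE NODE, MANY LABELS, SAME LABEL, DIFFERENT ITEMS, ONE OF THE TWO PIECES LATE** -/
theorem node_same {A : ℝ} (hA : 0 ≤ A) : ∃ Ce : ℝ, 1 ≤ Ce ∧ ∃ C : ℝ, 1 ≤ C ∧
    ∀ (N : Skel189.Num), ∃ p₁ : ℕ, ∀ p0 ≥ p₁, ∀ (γ : ℝ) (P₀ : ℕ)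
    (X : Ctx N γ p0 P₀) (s : NS) (t : IT) (P : ℕ) (ρ : ℕ → ℚ) (R : Finset (X.c.Lam × X.c.Lam)),
    MN X s t → p0 ≤ P → (∀ r : ℕ, r.Prime → r < s.n → r ≤ P) → ExO X s s t t R ρ ρ →
    (∀ x ∈ R, x.1.1.1 ≠ x.2.1.1) → (∀ x ∈ R, ρ x.1.1.1 = ρ x.2.1.1) →
    (∀ x ∈ R, (3 + Real.log P) ^ Ce ≤ ((ρ x.1.1.1).den : ℝ)) →
    (∀ x ∈ R, 1 ≤ ((ρ x.1.1.1).den : ℝ) ^ A * RB X s x.1.1.1 ∨
      1 ≤ ((ρ x.1.1.1).den : ℝ) ^ A * RB X s x.2.1.1) →
    ∑ q ∈ occ X t R, MI X s t q ≤ (3 + Real.log P) ^ A →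
    Q R (vN X (.inl (s, t))) (vN X (.inl (s, t))) ≤
      C * (1 + Real.log P) *
        ∑ q ∈ occ X t R, ((ρ q).den : ℝ) ^ (-(1 / 8) : ℝ) * MI X s t q := by
  obtain ⟨C0, hC0, C1, hC1, cong⟩ := GcdT37.cong_min (A := A + 1) (by linarith)
  have hCT := CT_pos
  set Ce : ℝ := max (C0 + 2 * CT + 1) (4 * CT + 1 + A) with hCe
  have hCe1 : C0 + 2 * CT + 1 ≤ Ce := le_max_left _ _
  have hCe2 : 4 * CT + 1 + A ≤ Ce := le_max_right _ _
  refine ⟨Ce, by linarith, 32 * CT * C1 + 1, by nlinarith, fun N => ?_⟩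
  obtain ⟨p1, h1⟩ := lg_nd N
  refine ⟨p1 + 3, ?_⟩
  intro p0 hp0 γ P₀ X s t P ρ R h hP hl hE hne hlab hden hlate hmass
  set f := vN X (.inl (s, t)) with hf
  have hlP : 0 ≤ Real.log (P : ℝ) := Real.log_natCast_nonneg P
  have hw1 : 1 ≤ 3 + Real.log (P : ℝ) := by linarith
  have hw0 : 0 < 3 + Real.log (P : ℝ) := by linarith
  set T := occ X t R with hT
  have hTi : ∀ q ∈ T, q ∈ t.items ∧ q ∈ X.S' ∧ ∃ x ∈ R, x.1.1.1 = q ∨ x.2.1.1 = q := by
    intro q hq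
    rw [hT] at hq
    unfold occ at hq
    obtain ⟨a, b, c⟩ := Finset.mem_filter.1 hq
    exact ⟨a, b, c⟩
  have hTden : ∀ q ∈ T, (3 + Real.log P) ^ Ce ≤ ((ρ q).den : ℝ) := by
    intro q hq
    obtain ⟨-, -, x, hx, h3 | h3⟩ := hTi q hq
    · rw [← h3]; exact hden x hx
    · rw [← h3, ← hlab x hx]; exact hden x hx
  have hRB : ∀ q, 0 ≤ RB X s q := RB_nn h.nd
  have hlo : ∀ q ∈ T, RB X s q ≤ 4 * CT * Real.log P * MI X s t q := fun q hq =>
    h.lo P hP hl q (hTi q hq).2.1 (hTi q hq).1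
  -- the relation
  set Rl : ℕ → ℕ → ℕ → Prop := fun k i j => (rd (i / s.A) (j / s.A)).1 ≠ (rd (i / s.A) (j / s.A)).2 ∧
    (rd (i / s.A) (j / s.A)).1 ≡ (rd (i / s.A) (j / s.A)).2 [MOD k] with hRl
  set mn : ℕ → ℕ → ℝ := fun i j => min (RB X s i / ((rd (i / s.A) (j / s.A)).1 : ℕ))
    (RB X s j / ((rd (i / s.A) (j / s.A)).2 : ℕ)) with hmn
  have hmn0 : ∀ i j, 0 ≤ mn i j := fun i j =>
    le_min (div_nonneg (hRB i) (Nat.cast_nonneg _)) (div_nonneg (hRB j) (Nat.cast_nonneg _))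
  have hsw : ∀ i j, rd (j / s.A) (i / s.A) = (rd (i / s.A) (j / s.A)).swap := fun i j =>
    GcdU37.rd_swap _ _
  have hmns : ∀ i j, mn i j = mn j i := by
    intro i j
    show min (RB X s i / ((rd (i / s.A) (j / s.A)).1 : ℕ)) (RB X s j / ((rd (i / s.A) (j / s.A)).2 : ℕ)) =
      min (RB X s j / ((rd (j / s.A) (i / s.A)).1 : ℕ)) (RB X s i / ((rd (j / s.A) (i / s.A)).2 : ℕ))
    rw [hsw i j]
    exact min_comm _ _
  set lt : ℕ → Prop := fun i => 1 ≤ ((ρ i).den : ℝ) ^ A * RB X s i with hlt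
  set g : ℕ → ℕ → ℝ := fun i j => ind (ρ i = ρ j ∧ lt i ∧ Rl (ρ i).den i j) * mn i j with hg
  have hg0 : ∀ i j, 0 ≤ g i j := fun i j => mul_nonneg (ind_nn _) (hmn0 i j)
  -- step 1
  have step1 : Q R f f ≤ ∑ i ∈ T, ∑ j ∈ T, 2 * (g i j + g j i) := by
    refine (node_off h.nd h.nd hE).trans ?_
    rw [← Finset.sum_product' (s := T) (t := T) (f := fun i j => 2 * (g i j + g j i))]
    refine le_trans (Finset.sum_le_sum fun e he => ?_)
      (Finset.sum_le_sum_of_subset_of_nonneg (s := (t.items ×ˢ t.items).filter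
        (fun e => ∃ x ∈ R, it2 x = e ∧ ∃ y, f x.1 y * f x.2 y ≠ 0)) (t := T ×ˢ T) ?_
        fun e _ _ => mul_nonneg (by norm_num) (add_nonneg (hg0 _ _) (hg0 _ _)))
    · obtain ⟨-, x, hx, hie, y, hy⟩ := Finset.mem_filter.1 he
      obtain ⟨i1, i2, i3, i4, hco⟩ := hE.co h.nd h.nd hx hy
      have e1 : x.1.1.1 = e.1 := (Prod.ext_iff.1 hie).1
      have e2 : x.2.1.1 = e.2 := (Prod.ext_iff.1 hie).2
      rw [hie, e1, e2] at hco
      have hl2 : ρ e.1 = ρ e.2 := by rw [← e1, ← e2]; exact hlab x hx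
      have hD : D1 s s e = (rd (e.1 / s.A) (e.2 / s.A)).1 ∧
          D2 s s e = (rd (e.1 / s.A) (e.2 / s.A)).2 := by
        refine ⟨rfl, ?_⟩
        unfold D2 cof rd
        rw [Nat.gcd_comm]
      rw [hD.1, hD.2, ← hl2] at hco
      have hmod : (rd (e.1 / s.A) (e.2 / s.A)).1 ≡ (rd (e.1 / s.A) (e.2 / s.A)).2
          [MOD (ρ e.1).den] := (Co.mod hco (ShR18.Co.refl _)).symm
      have hdne : (rd (e.1 / s.A) (e.2 / s.A)).1 ≠ (rd (e.1 / s.A) (e.2 / s.A)).2 := by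
        intro hab
        have w1 : 0 < e.1 / s.A := Nat.pos_of_ne_zero (h.nd.div_ne (by rw [← e1]; exact i1))
        have hgp : 0 < (e.1 / s.A).gcd (e.2 / s.A) := Nat.gcd_pos_of_pos_left _ w1
        have a1 := Nat.div_mul_cancel (Nat.gcd_dvd_left (e.1 / s.A) (e.2 / s.A))
        have a2 := Nat.div_mul_cancel (Nat.gcd_dvd_right (e.1 / s.A) (e.2 / s.A))
        have a3 : e.1 / s.A / (e.1 / s.A).gcd (e.2 / s.A) =
            e.2 / s.A / (e.1 / s.A).gcd (e.2 / s.A) := hab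
        rw [← a3, a1] at a2
        apply hne x hx
        rw [e1, e2]
        exact div_inj h.nd (by rw [← e1]; exact i1) (by rw [← e2]; exact i2) a2
      have hov : ov X s s e = mn e.1 e.2 := by
        unfold ov
        rw [hD.1, hD.2]
      rw [hov]
      refine mul_le_mul_of_nonneg_left ?_ (by norm_num)
      have hla := hlate x hx
      rw [e1, e2] at hla
      rcases hla with hla | hla
      · have : g e.1 e.2 = mn e.1 e.2 := by
          simp only [hg]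
          rw [ind_t (⟨hl2, hla, hdne, hmod⟩ : ρ e.1 = ρ e.2 ∧ lt e.1 ∧ Rl (ρ e.1).den e.1 e.2), one_mul]
        rw [← this]
        linarith [hg0 e.2 e.1]
      · have : g e.2 e.1 = mn e.1 e.2 := by
          simp only [hg]
          rw [ind_t (⟨hl2.symm, by simp only [hlt]; rw [← hl2]; exact hla, by
            show (rd (e.2 / s.A) (e.1 / s.A)).1 ≠ (rd (e.2 / s.A) (e.1 / s.A)).2 ∧
              (rd (e.2 / s.A) (e.1 / s.A)).1 ≡ (rd (e.2 / s.A) (e.1 / s.A)).2 [MOD (ρ e.2).den]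
            rw [hsw e.1 e.2, ← hl2]
            exact ⟨hdne.symm, hmod.symm⟩⟩ :
            ρ e.2 = ρ e.1 ∧ lt e.2 ∧ Rl (ρ e.2).den e.2 e.1), one_mul, hmns]
        rw [← this]
        linarith [hg0 e.1 e.2]
    · intro e he
      obtain ⟨he1, x, hx, hie, y, hy⟩ := Finset.mem_filter.1 he
      obtain ⟨i1, i2, i3, i4, -⟩ := hE.co h.nd h.nd hx hy
      have e1 : x.1.1.1 = e.1 := (Prod.ext_iff.1 hie).1
      have e2 : x.2.1.1 = e.2 := (Prod.ext_iff.1 hie).2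
      refine Finset.mem_product.2 ⟨?_, ?_⟩
      · rw [hT]; unfold occ
        exact Finset.mem_filter.2 ⟨(Finset.mem_product.1 he1).1, by rw [← e1]; exact i3, x, hx, Or.inl e1⟩
      · rw [hT]; unfold occ
        exact Finset.mem_filter.2 ⟨(Finset.mem_product.1 he1).2, by rw [← e2]; exact i4, x, hx, Or.inr e2⟩
  have step2 : ∑ i ∈ T, ∑ j ∈ T, 2 * (g i j + g j i) = 4 * ∑ i ∈ T, ∑ j ∈ T, g i j := by
    have e1 : ∑ i ∈ T, ∑ j ∈ T, g j i = ∑ i ∈ T, ∑ j ∈ T, g i j := Finset.sum_comm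
    calc ∑ i ∈ T, ∑ j ∈ T, 2 * (g i j + g j i) =
        2 * (∑ i ∈ T, ∑ j ∈ T, g i j + ∑ i ∈ T, ∑ j ∈ T, g j i) := by
          rw [← Finset.sum_add_distrib, Finset.mul_sum]
          refine Finset.sum_congr rfl fun i _ => ?_
          rw [← Finset.sum_add_distrib, Finset.mul_sum]
      _ = _ := by rw [e1]; ring
  -- step 3 : one label
  have step3 : ∀ r ∈ T.image ρ, ∑ i ∈ T.filter (fun i => ρ i = r), ∑ j ∈ T, g i j ≤
      C1 * ((r.den : ℕ) : ℝ) ^ (-(1 / 8) : ℝ) * (2 * ∑ q ∈ T.filter (fun i => ρ i = r), RB X s q) := by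
    intro r hr
    obtain ⟨q0, hq0, hq0r⟩ := Finset.mem_image.1 hr
    set Tr := T.filter (fun i => ρ i = r) with hTr
    set Fr := Tr.filter lt with hFr
    have hk : (3 + Real.log P) ^ Ce ≤ (r.den : ℝ) := by rw [← hq0r]; exact hTden q0 hq0
    have hk0 : (0:ℝ) < r.den := by exact_mod_cast r.pos
    have hkC0 : (3 + Real.log P) ^ C0 ≤ (r.den : ℝ) :=
      (Real.rpow_le_rpow_of_exponent_le hw1 (by linarith)).trans hk
    have hkL : 2 * CT * Real.log P ≤ (r.den : ℝ) := by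
      calc 2 * CT * Real.log P ≤ (3 + Real.log (P : ℝ)) ^ (2 * CT) * (3 + Real.log (P : ℝ)) ^ (1 : ℝ) := by
            rw [Real.rpow_one]
            exact mul_le_mul const_pow (by linarith) hlP (by positivity)
        _ = (3 + Real.log (P : ℝ)) ^ (2 * CT + 1) := (Real.rpow_add hw0 _ _).symm
        _ ≤ (3 + Real.log (P : ℝ)) ^ Ce := Real.rpow_le_rpow_of_exponent_le hw1 (by linarith)
        _ ≤ _ := hk
    have hkM : 4 * CT * Real.log P * (3 + Real.log P) ^ A ≤ (r.den : ℝ) := by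
      calc 4 * CT * Real.log P * (3 + Real.log P) ^ A ≤
            (3 + Real.log (P : ℝ)) ^ (4 * CT) * (3 + Real.log (P : ℝ)) ^ (1 : ℝ) *
              (3 + Real.log P) ^ A := by
            rw [Real.rpow_one]
            exact mul_le_mul_of_nonneg_right (mul_le_mul const_pow (by linarith) hlP
              (by positivity)) (by positivity)
        _ = (3 + Real.log (P : ℝ)) ^ (4 * CT + 1 + A) := by
            rw [← Real.rpow_add hw0, ← Real.rpow_add hw0]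
        _ ≤ (3 + Real.log (P : ℝ)) ^ Ce := Real.rpow_le_rpow_of_exponent_le hw1 hCe2
        _ ≤ _ := hk
    have hTrT : ∀ q ∈ Tr, q ∈ T ∧ ρ q = r := fun q hq => Finset.mem_filter.1 hq
    have hFrT : ∀ q ∈ Fr, q ∈ T ∧ ρ q = r ∧ lt q := fun q hq =>
      ⟨(hTrT q (Finset.mem_filter.1 hq).1).1, (hTrT q (Finset.mem_filter.1 hq).1).2,
        (Finset.mem_filter.1 hq).2⟩
    -- the count
    have hcard : (Fr.card : ℝ) ≤ (r.den : ℝ) ^ (A + 1) := by
      have c1 : (Fr.card : ℝ) ≤ (r.den : ℝ) ^ A * ∑ q ∈ Fr, RB X s q := by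
        rw [Finset.mul_sum]
        have : (Fr.card : ℝ) = ∑ q ∈ Fr, (1:ℝ) := by simp
        rw [this]
        refine Finset.sum_le_sum fun q hq => ?_
        have := (hFrT q hq).2.2
        simp only [hlt] at this
        rwa [(hFrT q hq).2.1] at this
      have c2 : ∑ q ∈ Fr, RB X s q ≤ 4 * CT * Real.log P * (3 + Real.log P) ^ A := by
        calc ∑ q ∈ Fr, RB X s q ≤ ∑ q ∈ T, RB X s q :=
              Finset.sum_le_sum_of_subset_of_nonneg (fun q hq => (hFrT q hq).1) fun q _ _ => hRB q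
          _ ≤ ∑ q ∈ T, 4 * CT * Real.log P * MI X s t q := Finset.sum_le_sum fun q hq => hlo q hq
          _ = 4 * CT * Real.log P * ∑ q ∈ T, MI X s t q := by rw [Finset.mul_sum]
          _ ≤ _ := mul_le_mul_of_nonneg_left hmass (by positivity)
      calc (Fr.card : ℝ) ≤ (r.den : ℝ) ^ A * ∑ q ∈ Fr, RB X s q := c1
        _ ≤ (r.den : ℝ) ^ A * (r.den : ℝ) := mul_le_mul_of_nonneg_left (c2.trans hkM) (by positivity)
        _ = (r.den : ℝ) ^ (A + 1) := by rw [Real.rpow_add hk0, Real.rpow_one]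
    have key := cong ℕ ℕ P r.den Fr Tr (fun q => q / s.A) (fun q => q / s.A) (fun q => RB X s q)
      (fun q => RB X s q) (by omega) r.pos hkC0 hcard
      (fun q hq => Nat.pos_of_ne_zero (h.nd.div_ne (hTi q (hFrT q hq).1).1))
      (fun q hq => Nat.pos_of_ne_zero (h.nd.div_ne (hTi q (hTrT q hq).1).1))
      (fun q hq q' hq' he => div_inj h.nd (hTi q (hFrT q hq).1).1 (hTi q' (hFrT q' hq').1).1 he)
      (fun q hq q' hq' he => div_inj h.nd (hTi q (hTrT q hq).1).1 (hTi q' (hTrT q' hq').1).1 he)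
      (fun q _ => hRB q) (fun q _ => hRB q)
      (fun q hq z hz => by
        obtain ⟨g1, g2⟩ := h1 p0 (by omega) γ P₀ X s t h.nd P hP hl q (hTi q (hFrT q hq).1).2.1
          (hTi q (hFrT q hq).1).1
        refine (tail_nd h.nd hl (hTi q (hFrT q hq).1).1 g1 hz (g2 z hz)).trans ?_
        exact mul_le_mul_of_nonneg_right hkL (by positivity))
    have c3 : ∑ i ∈ Tr, ∑ j ∈ T, g i j ≤ ∑ i ∈ Fr, ∑ j ∈ Tr, ind (Rl r.den i j) * mn i j := by
      have c31 : ∑ i ∈ Fr, ∑ j ∈ Tr, ind (Rl r.den i j) * mn i j =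
          ∑ i ∈ Tr, if lt i then ∑ j ∈ Tr, ind (Rl r.den i j) * mn i j else 0 := by
        rw [hFr, Finset.sum_filter]
      rw [c31]
      refine Finset.sum_le_sum fun i hi => ?_
      have hir := (hTrT i hi).2
      split_ifs with hli
      · rw [hTr, Finset.sum_filter]
        refine Finset.sum_le_sum fun j hj => ?_
        split_ifs with hjr
        · simp only [hg]
          refine mul_le_mul_of_nonneg_right ?_ (hmn0 _ _)
          by_cases hc : ρ i = ρ j ∧ lt i ∧ Rl (ρ i).den i j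
          · rw [ind_t hc]
            have := hc.2.2
            rw [hir] at this
            rw [ind_t this]
          · rw [ind_f hc]; exact ind_nn _
        · simp only [hg]
          rw [ind_f (fun hc => hjr (by rw [← hc.1, hir])), zero_mul]
      · refine le_of_eq (Finset.sum_eq_zero fun j _ => ?_)
        simp only [hg]
        rw [ind_f (fun hc => hli hc.2.1), zero_mul]
    refine c3.trans (key.trans ?_)
    refine mul_le_mul_of_nonneg_left ?_ (by positivity)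
    have c4 : ∑ q ∈ Fr, RB X s q ≤ ∑ q ∈ Tr, RB X s q :=
      Finset.sum_le_sum_of_subset_of_nonneg (Finset.filter_subset _ _) fun q _ _ => hRB q
    linarith
  -- the sum over the labels
  have step4 : ∑ i ∈ T, ∑ j ∈ T, g i j ≤
      2 * C1 * ∑ q ∈ T, ((ρ q).den : ℝ) ^ (-(1 / 8) : ℝ) * RB X s q := by
    rw [← Finset.sum_fiberwise_of_maps_to (s := T) (t := T.image ρ) (g := ρ)
      (fun i hi => Finset.mem_image_of_mem _ hi) (fun i => ∑ j ∈ T, g i j)]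
    rw [← Finset.sum_fiberwise_of_maps_to (s := T) (t := T.image ρ) (g := ρ)
      (fun i hi => Finset.mem_image_of_mem _ hi)
      (fun q => ((ρ q).den : ℝ) ^ (-(1 / 8) : ℝ) * RB X s q), Finset.mul_sum]
    refine Finset.sum_le_sum fun r hr => (step3 r hr).trans (le_of_eq ?_)
    have : ∑ q ∈ T.filter (fun i => ρ i = r), ((ρ q).den : ℝ) ^ (-(1 / 8) : ℝ) * RB X s q =
        ((r.den : ℕ) : ℝ) ^ (-(1 / 8) : ℝ) * ∑ q ∈ T.filter (fun i => ρ i = r), RB X s q := by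
      rw [Finset.mul_sum]
      refine Finset.sum_congr rfl fun q hq => ?_
      rw [(Finset.mem_filter.1 hq).2]
    rw [this]
    ring
  have step5 : ∑ q ∈ T, ((ρ q).den : ℝ) ^ (-(1 / 8) : ℝ) * RB X s q ≤
      4 * CT * Real.log P * ∑ q ∈ T, ((ρ q).den : ℝ) ^ (-(1 / 8) : ℝ) * MI X s t q := by
    rw [Finset.mul_sum]
    refine Finset.sum_le_sum fun q hq => ?_
    have := mul_le_mul_of_nonneg_left (hlo q hq)
      (by positivity : (0:ℝ) ≤ ((ρ q).den : ℝ) ^ (-(1 / 8) : ℝ))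
    linarith
  set W := ∑ q ∈ T, ((ρ q).den : ℝ) ^ (-(1 / 8) : ℝ) * MI X s t q with hW
  have hW0 : 0 ≤ W := Finset.sum_nonneg fun q _ => mul_nonneg (by positivity) (MI_nonneg h.nd q)
  calc Q R f f ≤ ∑ i ∈ T, ∑ j ∈ T, 2 * (g i j + g j i) := step1
    _ = 4 * ∑ i ∈ T, ∑ j ∈ T, g i j := step2
    _ ≤ 4 * (2 * C1 * (4 * CT * Real.log P * W)) :=
        mul_le_mul_of_nonneg_left (step4.trans (mul_le_mul_of_nonneg_left step5 (by linarith)))
          (by norm_num)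
    _ = 32 * CT * C1 * Real.log P * W := by ring
    _ ≤ (32 * CT * C1 + 1) * (1 + Real.log P) * W := by
        refine mul_le_mul_of_nonneg_right ?_ hW0
        have h0 : 0 ≤ 32 * CT * C1 := by positivity
        nlinarith

end Crest.Agent.R4P.XmO37
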