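import Crest.Agent.R4P.AsC_407
import Crest.Agent.R4P.PrI_45
import Crest.Agent.R4P.PrK_45
import Crest.Agent.R4P.XmO_37
import Crest.Agent.R4P.FineW_33

/-!
R4 (S0004) with powers, T3, helper45: **static kernels of the separated pairs of a rule with flags**.

* `sepB`, `sepQ` : a separated pair of the tie has an event (`RF.EvT`); the pulls do not separate.
* `SpN`, `SpT` : static pairs (one node, one point, equal types above, different types below; `SpT`: the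
  first piece is in the N child); `KNr`, `KBr` : their indicators; **`sN_rf`, `sB_rf`, `sQ_rf`** : the
  hypotheses of `vSep_le`.
* **`AB_eq`** : the node of a piece at a rest column is determined up to `A`, `B`; **`SpN.node`**,
  **`SpT.node`** : the pairs in the coordinates of a node (`SpU`, `SpV`): equal `(index, tag)` above,
  different `(index, tag)` below (or a flag enters).
-/

set_option autoImplicit false
set_option linter.unusedSectionVars false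
set_option linter.unusedVariables false
open MeasureTheory Filter Set

namespace Crest.Agent.R4P.PrL45

open Crest.Agent.R4.Tour104 Crest.Agent.R4.Tour758 Crest.Agent.R4.Clos758 Crest.Agent.R4.ClosL758
open Crest.Agent.R4P.Grp36 Crest.Agent.R4P.GWa343 Crest.Agent.R4P.GWb343
open Crest.Agent.R4P.GWc343 hiding SB
open Crest.Agent.R4P.GWd343 Crest.Agent.R4P.GCol27 Crest.Agent.R4P.TrR343
open Crest.Agent.R4P.DTp26 Crest.Agent.R4P.VR407 Crest.Agent.R4P.Bp407 Crest.Agent.R4P.MSd343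
open Crest.Agent.R4P.DTm407 Crest.Agent.R4P.DTn407 Crest.Agent.R4P.DTn407.TD'
open Crest.Agent.R4P.DTo407 Crest.Agent.R4P.DTo407.TD'
open Crest.Agent.R4P.DTs407
open Crest.Agent.R4P.Walk560 (DT)
open Crest.Agent.R4P.RXm55 Crest.Agent.R4P.MSm25 Crest.Agent.R4P.RSys343
open Crest.Agent.R4.Avg758 Crest.Agent.R4.ClosG758 Crest.Agent.R4.ClosR758
open Crest.Agent.R4P.ClosR442 Crest.Agent.R4P.PN36
open Crest.Agent.R4P.GWf343 Crest.Agent.R4P.GWg343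
open Crest.Agent.R4P.Cnt588 Crest.Agent.R4P.Item758 Crest.Agent.R4P.W363
open Crest.Agent.R4P.Bld532 (NS All NodeOk Bk)
open Crest.Agent.R4P.WalkIT579 (tp isL)
open Crest.Agent.R4P.StratN36 (ex)
open Crest.Agent.R4P.Step588 Crest.Agent.R4P.RseSt23
open Crest.Agent.R4P.TYI47 Crest.Agent.R4P.TYJ47 Crest.Agent.R4P.TYK47 Crest.Agent.R4P.TYP9
open Crest.Agent.R4P.RsT47
open Crest.Agent.R4P.StE6 Crest.Agent.R4P.StF6 Crest.Agent.R4P.StG6 Crest.Agent.R4P.StJ6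
open Crest.Agent.R4P.StB21 (LvF)
open Crest.Agent.R4P.Skel189 Crest.Agent.R4P.Frame758 Crest.Agent.R4P.Data758
open Crest.Agent.R4.Soft104 Crest.Agent.R4.Fam464
open Crest.Agent.R4P.StratX36 Crest.Agent.R4P.TopX36
open Crest.Agent.R4P.RGf25 Crest.Agent.R4P.RGp25 Crest.Agent.R4P.RGd25 Crest.Agent.R4P.Prc49
open Crest.Agent.R4P.AsB407 Crest.Agent.R4P.AsC407
open Crest.Agent.R4P.JnE5 Crest.Agent.R4P.PrH45 Crest.Agent.R4P.PrK45

variable {N : Skel189.Num} {γ : ℝ} {p0 P₀ : ℕ} {X : Ctx N γ p0 P₀} {Q : NS → IT → Prop} {C : ℝ}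
  {n : ℕ} {p : ℕ} {b : Me × List (DT X.c.Lam (LbX X))} {r : RF X} {i j : X.c.Lam} {x : ℝ}

/-! ### separated pairs have events -/

/-- **separated pairs of the ties** -/
theorem sepB {m : Me} (h2 : r.D.tp p m x i = r.D.tp p m x j)
    (h3 : r.D.lt p m (p * x) i ≠ r.D.lt p m (p * x) j) : r.EvT p m x i ∨ r.EvT p m x j := by
  by_contra hc
  push Not at hc
  obtain ⟨c1, c2⟩ := hc
  unfold RF.EvT at c1 c2
  push Not at c1 c2
  rcases hz : r.D.tp p m x i with _ | z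
  · have f1 : flg r.F X.c p i.1.1 := tpF_none.1 hz
    have f2 : flg r.F X.c p j.1.1 := tpF_none.1 (h2.symm.trans hz)
    exact h3 ((tpF_none.2 f1).trans (tpF_none.2 f2).symm)
  · exact h3 ((c1 z hz).trans (c2 z (h2.symm.trans hz)).symm)

/-- **only N pieces have events at the ties** -/
def EvN (X : Ctx N γ p0 P₀) (r : RF X) : Prop :=
  ∀ {p : ℕ} {m : Me} {j : X.c.Lam} {x : ℝ}, TieP X p m j x → r.EvT p m x j →
    ex p j.1.1 = TYJ47.cnt p m.1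

/-- **the pulls do not separate** -/
theorem sepQ (cf : CtxF X Q) (hv : EvN X r) (h : InvM X Q C p b) (hp : p ≠ 0)
    (hi : pQ (bB p b.2) i (p * x) ≠ 0) (hj : pQ (bB p b.2) j (p * x) ≠ 0)
    (h2 : r.D.tp p b.1 x i = r.D.tp p b.1 x j) :
    r.D.lt p b.1 (p * x) i = r.D.lt p b.1 (p * x) j := by
  have key : ∀ {l : X.c.Lam}, pQ (bB p b.2) l (p * x) ≠ 0 → jv (bB p b.2) l x ≠ 0 ∧
      ex p l.1.1 ≠ TYJ47.cnt p b.1.1 := by
    intro l hl
    refine ⟨?_, ?_⟩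
    · have a1 := vT_nonneg h.kok (Nat.pos_of_ne_zero hp) l x
      have a2 : 0 ≤ pQ (bB p b.2) l (p * x) := (h.kok.PQ l).nonneg _
      have a3 := vTp_jv (p := p) (bB p b.2) l x
      have a4 : TD.pQx p (bB p b.2) l x = pQ (bB p b.2) l (p * x) := rfl
      intro e
      rw [a4] at a3
      exact hl (by linarith)
    · have h2 := E3X479.pQ_ex cf.hQ h hp hl
      omega
  obtain ⟨i1, i2⟩ := key hi
  obtain ⟨j1, j2⟩ := key hj
  by_contra hc
  rcases sepB h2 hc with h4 | h4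
  · exact i2 (hv (tie_node cf.hQ cf.hd1 h i1) h4)
  · exact j2 (hv (tie_node cf.hQ cf.hd1 h j1) h4)

/-! ### static kernels -/

/-- **static pair of the rest** : one node with a smaller top, equal types above at one point,
different types below (or no types) -/
def SpN (X : Ctx N γ p0 P₀) (Q : NS → IT → Prop) (r : RF X) (p : ℕ) (i j : X.c.Lam) : Prop :=
  ∃ (m : Me) (u : NS) (τ : IT) (x : ℝ), RtX X Q p m u τ ∧ tp τ < p ∧ ¬ isL τ ∧
    vx X u τ i x ≠ 0 ∧ vx X u τ j x ≠ 0 ∧ r.D.tp p m x i ≠ none ∧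
    r.D.tp p m x i = r.D.tp p m x j ∧
    (r.D.tp (p - 1) m x i ≠ r.D.tp (p - 1) m x j ∨ r.D.tp (p - 1) m x i = none)

lemma SpN.symm (h : SpN X Q r p i j) : SpN X Q r p j i := by
  obtain ⟨m, u, τ, x, h1, h2, h3, h4, h5, h6, h7, h8⟩ := h
  refine ⟨m, u, τ, x, h1, h2, h3, h5, h4, h7 ▸ h6, h7.symm, ?_⟩
  by_cases h9 : r.D.tp (p - 1) m x i = r.D.tp (p - 1) m x j
  · exact Or.inr (h9.symm.trans (h8.resolve_left fun h => h h9))
  · exact Or.inl (Ne.symm h9)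

/-- **static pair of a tie** : one node, the first piece is in the N child, the second one in the N or in
the P child, equal types above at one point, different types below -/
def SpT (X : Ctx N γ p0 P₀) (Q : NS → IT → Prop) (r : RF X) (p : ℕ) (i j : X.c.Lam) : Prop :=
  ∃ (m : Me) (s : NS) (Sp : Finset ℕ) (t₁ t₀ : IT) (x : ℝ), RtX X Q p m s (.br p Sp t₁ t₀) ∧
    TieP X p m i x ∧ TieP X p m j x ∧
    vx X ⟨p, s.c * p, s.A, s.B * p⟩ t₀ i (p * x) ≠ 0 ∧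
    (vx X ⟨p, s.c * p, s.A, s.B * p⟩ t₀ j (p * x) ≠ 0 ∨
      vx X ⟨p, s.c / (1 - 1 / (p : ℝ)), s.A * p, s.B⟩ t₁ j (p * x) ≠ 0) ∧
    r.D.tp p m x i ≠ none ∧ r.D.tp p m x i = r.D.tp p m x j ∧
    r.D.lt p m (p * x) i ≠ r.D.lt p m (p * x) j

open Classical in
/-- kernel of the rest -/
noncomputable def KNr (X : Ctx N γ p0 P₀) (Q : NS → IT → Prop) (r : RF X) (p : ℕ)
    (i j : X.c.Lam) : ℝ := if SpN X Q r p i j then 1 else 0

open Classical in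
/-- kernel of the ties -/
noncomputable def KBr (X : Ctx N γ p0 P₀) (Q : NS → IT → Prop) (r : RF X) (p : ℕ)
    (i j : X.c.Lam) : ℝ := if SpT X Q r p i j ∨ SpT X Q r p j i then 1 else 0

lemma KNr_ker (p : ℕ) : Ker (KNr X Q r p) where
  nn := fun i j => by unfold KNr; split_ifs <;> norm_num
  sy := fun i j => by
    unfold KNr
    by_cases h : SpN X Q r p i j
    · rw [if_pos h, if_pos h.symm]
    · rw [if_neg h, if_neg fun h' => h h'.symm]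

lemma KBr_ker (p : ℕ) : Ker (KBr X Q r p) where
  nn := fun i j => by unfold KBr; split_ifs <;> norm_num
  sy := fun i j => by
    unfold KBr
    by_cases h : SpT X Q r p i j ∨ SpT X Q r p j i
    · rw [if_pos h, if_pos h.symm]
    · rw [if_neg h, if_neg fun h' => h h'.symm]

/-- the values of a node, two forms -/
lemma vx_val {u : NS} {τ : IT} (h : NDt X.par (w X.ψ) X.c.t u τ) (j : X.c.Lam) (x : ℝ) :
    vx X u τ j x = ((X.c.D.par X.Y).toDT X.c.sp u.B u.A τ).g.val j x := by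
  have := congrFun (congrFun (val_eq h) j) x
  exact this.symm

/-- **sN** -/
theorem sN_rf (cf : CtxF X Q) {p : ℕ} {b : Me × List (DT X.c.Lam (LbX X))}
    (h : InvM X Q C p b) (hp : p ≠ 0) (i j : X.c.Lam) (x : ℝ) (hi : jv (bN p b.2) i x ≠ 0)
    (hj : jv (bN p b.2) j x ≠ 0) (h1 : r.D.tp p b.1 x i ≠ none)
    (h2 : r.D.tp p b.1 x i = r.D.tp p b.1 x j)
    (h3 : r.D.tp (p - 1) b.1 x i ≠ r.D.tp (p - 1) b.1 x j ∨ r.D.tp (p - 1) b.1 x i = none) :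
    1 ≤ KNr X Q r p i j := by
  rcases E3X479.rest_one cf.hQ h hp with h0 | ⟨u, τ, hs, ht, hl, hv⟩
  · exact absurd (h0 i x) hi
  · have hn := cf.hQ _ _ hs.1.rm.all.self
    have e : ∀ l, vx X u τ l x ≠ 0 ↔ jv (bN p b.2) l x ≠ 0 := by
      intro l
      rw [hv l x, vx_val hn, E3X479.val_v hn]
    unfold KNr
    rw [if_pos]
    exact ⟨b.1, u, τ, x, hs, ht, hl, (e i).2 hi, (e j).2 hj, h1, h2, h3⟩

/-- **sB** -/
theorem sB_rf (cf : CtxF X Q) (hv : EvN X r) {p : ℕ} {b : Me × List (DT X.c.Lam (LbX X))}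
    (h : InvM X Q C p b) (hp : p ≠ 0) (i j : X.c.Lam) (x : ℝ) (hi : vT p (bB p b.2) i x ≠ 0)
    (hj : vT p (bB p b.2) j x ≠ 0) (h1 : r.D.tp p b.1 x i ≠ none)
    (h2 : r.D.tp p b.1 x i = r.D.tp p b.1 x j)
    (h3 : r.D.pt (rhoX X) p b x i ≠ r.D.pt (rhoX X) p b x j) : 1 ≤ KBr X Q r p i j := by
  have hp0 : 0 < p := Nat.pos_of_ne_zero hp
  have vj : ∀ {l : X.c.Lam}, vT p (bB p b.2) l x ≠ 0 → jv (bB p b.2) l x ≠ 0 := fun hl =>
    LDat.pQ_vT h hp hl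
  have side : ∀ {l : X.c.Lam}, vT p (bB p b.2) l x ≠ 0 →
      pA (bB p b.2) l (p * x) ≠ 0 ∨ pB (bB p b.2) l (p * x) ≠ 0 := by
    intro l hl
    by_contra hc
    push Not at hc
    apply hl
    have hG : pG (bB p b.2) l x = 0 := by
      by_contra hG
      exact pG_supp h.kok hp0 hG hc.2
    rw [vT_eq h.kok]
    unfold vF
    rw [hc.1, hG]
    ring
  rw [RF.pt_lt, RF.pt_lt] at h3
  rcases E3X479.tie_one cf.hQ h hp with h0 | ⟨s, Sp, t₁, t₀, hT⟩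
  · exfalso
    rcases side hi with h4 | h4
    · exact h4 (h0 i _).1
    · exact h4 (h0 i _).2.1
  · have H := carX (X := X) cf.hQ
    obtain ⟨hP, hN⟩ := H.br hT.hs
    have nP := cf.hQ _ _ hP.1.rm.all.self
    have nN := cf.hQ _ _ hN.1.rm.all.self
    have eA : ∀ l y, pA (bB p b.2) l y =
        vx X ⟨p, s.c / (1 - 1 / (p : ℝ)), s.A * p, s.B⟩ t₁ l y := by
      intro l y
      rw [hT.A l y, ← E3X479.val_v nP, vx_val nP]
    have eB : ∀ l y, pB (bB p b.2) l y = vx X ⟨p, s.c * p, s.A, s.B * p⟩ t₀ l y := by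
      intro l y
      rw [hT.B l y, ← E3X479.val_v nN, vx_val nN]
    have key : ∀ {i j : X.c.Lam}, vT p (bB p b.2) i x ≠ 0 → vT p (bB p b.2) j x ≠ 0 →
        r.D.tp p b.1 x i ≠ none → r.D.tp p b.1 x i = r.D.tp p b.1 x j →
        r.D.lt p b.1 (p * x) i ≠ r.D.lt p b.1 (p * x) j → r.EvT p b.1 x i →
        SpT X Q r p i j := by
      intro i j hi hj h1 h2 h3 he
      have ti := tie_node cf.hQ cf.hd1 h (vj hi)
      have tj := tie_node cf.hQ cf.hd1 h (vj hj)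
      refine ⟨b.1, s, Sp, t₁, t₀, x, hT.hs, ti, tj, ?_, ?_, h1, h2, h3⟩
      · rw [← eB]
        rcases side hi with h4 | h4
        · exfalso
          have h5 := E3X479.pA_ex cf.hQ h hp h4
          have h6 := hv ti he
          omega
        · exact h4
      · rw [← eB, ← eA]
        exact (side hj).symm
    unfold KBr
    rw [if_pos]
    rcases sepB h2 h3 with h4 | h4
    · exact Or.inl (key hi hj h1 h2 h3 h4)
    · exact Or.inr (key hj hi (h2 ▸ h1) h2.symm h3.symm h4)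

/-- **sQ** -/
theorem sQ_rf (cf : CtxF X Q) (hv : EvN X r) {p : ℕ} {b : Me × List (DT X.c.Lam (LbX X))}
    (h : InvM X Q C p b) (hp : p ≠ 0) (i j : X.c.Lam) (x : ℝ)
    (hi : pQ (bB p b.2) i (p * x) ≠ 0) (hj : pQ (bB p b.2) j (p * x) ≠ 0)
    (_h1 : r.D.tp p b.1 x i ≠ none) (h2 : r.D.tp p b.1 x i = r.D.tp p b.1 x j) :
    r.D.lt p b.1 (p * x) i = r.D.lt p b.1 (p * x) j := sepQ cf hv h hp hi hj h2

/-! ### the node of an item -/

section nodes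
open Crest.Agent.R4P.Bld532
variable {P : Bld532.Par} {W : ℕ → ℝ} {t' : IT}

lemma cop_split {A A' B B' : ℕ} (h : A * B = A' * B') (c : Nat.Coprime A B')
    (c' : Nat.Coprime A' B) : A = A' := by
  refine Nat.dvd_antisymm ?_ ?_
  · exact c.dvd_of_dvd_mul_right (h ▸ Dvd.intro _ rfl)
  · exact c'.dvd_of_dvd_mul_right (h ▸ Dvd.intro _ rfl)

lemma cop_of {a b p : ℕ} (ha : ∀ l : ℕ, l.Prime → l ∣ a → p ≤ l)
    (hb : ∀ l : ℕ, l.Prime → l ∣ b → l < p) : Nat.Coprime a b := by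
  refine Nat.Coprime.symm (Nat.coprime_of_dvd fun l hl h1 h2 => ?_)
  have := hb l hl h1
  have := ha l hl h2
  omega

/-- the primes of `pp` of a node which is not a leaf are at most the top -/
lemma pp_le_top {u : NS} {τ : IT} (h : NDt P W t' u τ) (hl : ¬ isL τ) {q l : ℕ} (hp : l.Prime)
    (hd : l ∣ pp τ q) : l ≤ tp τ := by
  obtain ⟨k1, k2, k3⟩ := WalkIT579.top_of_nodeOk h.self.node hl
  exact k3 l hp (pp_prime_lt τ h.self.ok q l hp hd)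

/-- **the node of an item at a rest column** is unique up to `A`, `B` -/
theorem AB_eq (hQ : ∀ u τ, Q u τ → NDt P W t' u τ) {n : ℕ} (hO : t'.Ok n) (hp : p ≠ 0) {m : Me}
    {u u₀ : NS} {τ τ₀ : IT} (h : TYP9.Rt t' Q p m u τ) (ht : tp τ < p) (hl : ¬ isL τ)
    (h₀ : NDt P W t' u₀ τ₀) (hl₀ : ¬ isL τ₀) (ht₀ : tp τ₀ < p) (hn₀ : p ≤ u₀.n)
    (hA₀ : ∀ l : ℕ, l.Prime → l ∣ u₀.A → p ≤ l) {q : ℕ} (hq : q ∈ τ.items) (hq₀ : q ∈ τ₀.items) :
    u.A = u₀.A ∧ u.B = u₀.B := by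
  have hn := hQ _ _ h.rm.all.self
  constructor
  · refine cop_split (B := pp τ q) (B' := pp τ₀ q) ?_ (cop_of h.rm.ge fun l h1 h2 => ?_)
      (cop_of hA₀ fun l h1 h2 => ?_)
    · rw [← hn.self.pp q hq, ← h₀.self.pp q hq₀]
    · exact (pp_le_top h₀ hl₀ h1 h2).trans_lt ht₀
    · exact (pp_le_top hn hl h1 h2).trans_lt ht
  · have e1 : u.B.primeFactors = (t'.mt q).filter (p ≤ ·) :=
      (h.rm.pf hQ hO hq).trans (rest_lo hQ hO hp h ht hl hq)
    have e2 := mt_node h₀ hO hl₀ hq₀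
    have e3 : u.B.primeFactors = u₀.B.primeFactors := by
      rw [e1, ← e2]
      refine Finset.filter_congr fun l hm => ⟨fun h1 => by omega, fun h1 => ?_⟩
      have h2 : l ∈ u₀.B.primeFactors := by
        rw [← e2]
        exact Finset.mem_filter.2 ⟨hm, h1⟩
      exact hn₀.trans (h₀.bk.geB l (Nat.prime_of_mem_primeFactors h2)
        (Nat.dvd_of_mem_primeFactors h2))
    rw [← Nat.prod_primeFactors_of_squarefree hn.bk.sfB,
      ← Nat.prod_primeFactors_of_squarefree h₀.bk.sfB, e3]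

/-- **the node of an item at a tie** is unique up to `A`, `B`; the side of the item is unique -/
theorem AB_br {u u₀ : NS} {p : ℕ} {Sp Sp₀ : Finset ℕ} {t₁ t₀ t₁' t₀' : IT}
    (h : NDt P W t' u (.br p Sp t₁ t₀)) (h₀ : NDt P W t' u₀ (.br p Sp₀ t₁' t₀')) {q : ℕ}
    (hq : q ∈ (IT.br p Sp t₁ t₀).items) (hq₀ : q ∈ (IT.br p Sp₀ t₁' t₀').items) :
    u.A = u₀.A ∧ u.B = u₀.B ∧ (q ∈ t₀.items ↔ q ∈ t₀'.items) := by
  have hp : p.Prime := prime_of_br h.self.node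
  have hl : ¬ isL (IT.br p Sp t₁ t₀) := fun h => h
  have hl₀ : ¬ isL (IT.br p Sp₀ t₁' t₀') := fun h => h
  have n1 : p < u.n := (WalkIT579.top_of_nodeOk h.self.node hl).2.1
  have n2 : p < u₀.n := (WalkIT579.top_of_nodeOk h₀.self.node hl₀).2.1
  have ok1 := h.self.ok
  have ok2 := h₀.self.ok
  obtain ⟨-, -, -, hd1, o1, o0⟩ := ok1
  obtain ⟨-, -, -, hd2, o1', o0'⟩ := ok2
  have gA : ∀ l : ℕ, l.Prime → l ∣ u.A → p ≤ l := fun l h1 h2 => by
    have := h.bk.geA l h1 h2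
    omega
  have gA₀ : ∀ l : ℕ, l.Prime → l ∣ u₀.A → p ≤ l := fun l h1 h2 => by
    have := h₀.bk.geA l h1 h2
    omega
  have gB : ∀ l : ℕ, l.Prime → l ∣ u.B → p + 1 ≤ l := fun l h1 h2 => by
    have := h.bk.geB l h1 h2
    omega
  have gB₀ : ∀ l : ℕ, l.Prime → l ∣ u₀.B → p + 1 ≤ l := fun l h1 h2 => by
    have := h₀.bk.geB l h1 h2
    omega
  have eB : u.B * mp (.br p Sp t₁ t₀) q = u₀.B * mp (.br p Sp₀ t₁' t₀') q := by
    rw [← h.self.mp q hq, ← h₀.self.mp q hq₀]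
  have eA : u.A * pp (.br p Sp t₁ t₀) q = u₀.A * pp (.br p Sp₀ t₁' t₀') q := by
    rw [← h.self.pp q hq, ← h₀.self.pp q hq₀]
  have mB : ∀ {Sp : Finset ℕ} {t₁ t₀ : IT}, (IT.br p Sp t₁ t₀).Ok (p + 1) → ∀ l : ℕ, l.Prime →
      l ∣ mp (.br p Sp t₁ t₀) q → l < p + 1 := by
    intro Sp t₁ t₀ hOk l h1 h2
    rw [BldF542.mp_eq_prod _ _ hOk q] at h2
    obtain ⟨a, ha, hd⟩ := h1.prime.exists_mem_finset_dvd h2
    have h3 := BldF542.mt_lt _ _ hOk q a ha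
    have h4 := (Nat.prime_dvd_prime_iff_eq h1 h3.1).1 hd
    rw [h4]
    exact h3.2
  have ok1 : (IT.br p Sp t₁ t₀).Ok (p + 1) := by
    obtain ⟨a1, a2, a3, a4, a5, a6⟩ := h.self.ok
    exact ⟨a1, Nat.lt_succ_self p, a3, a4, a5, a6⟩
  have ok2 : (IT.br p Sp₀ t₁' t₀').Ok (p + 1) := by
    obtain ⟨a1, a2, a3, a4, a5, a6⟩ := h₀.self.ok
    exact ⟨a1, Nat.lt_succ_self p, a3, a4, a5, a6⟩
  have hB : u.B = u₀.B := cop_split eB (cop_of gB (mB ok2)) (cop_of gB₀ (mB ok1))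
  have B0 : 0 < u.B := h.B_pos
  have eM : mp (.br p Sp t₁ t₀) q = mp (.br p Sp₀ t₁' t₀') q := by
    rw [hB] at eB
    exact Nat.eq_of_mul_eq_mul_left (hB ▸ B0) eB
  have mlow : ∀ {t : IT}, t.Ok p → ¬ p ∣ mp t q := by
    intro t ht hd
    rw [BldF542.mp_eq_prod _ _ ht q] at hd
    obtain ⟨a, ha, hd⟩ := hp.prime.exists_mem_finset_dvd hd
    have h3 := BldF542.mt_lt _ _ ht q a ha
    have h4 := (Nat.prime_dvd_prime_iff_eq hp h3.1).1 hd
    omega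
  have side : ∀ {Sp : Finset ℕ} {t₁ t₀ : IT}, t₁.Ok p → (p ∣ mp (.br p Sp t₁ t₀) q ↔
      q ∈ t₀.items) := by
    intro Sp t₁ t₀ h1
    by_cases h3 : q ∈ t₀.items
    · have e : mp (.br p Sp t₁ t₀) q = p * mp t₀ q := if_pos h3
      rw [e]
      exact ⟨fun _ => h3, fun _ => Dvd.intro _ rfl⟩
    · have e : mp (.br p Sp t₁ t₀) q = mp t₁ q := if_neg h3
      rw [e]
      exact ⟨fun h4 => absurd h4 (mlow h1), fun h4 => absurd h4 h3⟩
  have hs : q ∈ t₀.items ↔ q ∈ t₀'.items := by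
    rw [← side (Sp := Sp) o1, ← side (Sp := Sp₀) (t₀ := t₀') o1', eM]
  refine ⟨?_, hB, hs⟩
  by_cases h3 : q ∈ t₀.items
  · have e1 : pp (.br p Sp t₁ t₀) q = pp t₀ q := if_pos h3
    have e2 : pp (.br p Sp₀ t₁' t₀') q = pp t₀' q := if_pos (hs.1 h3)
    rw [e1, e2] at eA
    exact cop_split eA (cop_of gA fun l h1 h2 => pp_prime_lt t₀' o0' q l h1 h2)
      (cop_of gA₀ fun l h1 h2 => pp_prime_lt t₀ o0 q l h1 h2)
  · have e1 : pp (.br p Sp t₁ t₀) q = p * pp t₁ q := if_neg h3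
    have e2 : pp (.br p Sp₀ t₁' t₀') q = p * pp t₁' q := if_neg fun h4 => h3 (hs.2 h4)
    rw [e1, e2] at eA
    have eA' : u.A * pp t₁ q = u₀.A * pp t₁' q := by
      refine Nat.eq_of_mul_eq_mul_left hp.pos ?_
      linarith
    exact cop_split eA' (cop_of gA fun l h1 h2 => pp_prime_lt t₁' o1' q l h1 h2)
      (cop_of gA₀ fun l h1 h2 => pp_prime_lt t₁ o1 q l h1 h2)

end nodes

/-! ### node form, rest -/

/-- **separated pair of the rest in the coordinates of the node `u`** (column `p`) -/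
structure SpU (X : Ctx N γ p0 P₀) (r : RF X) (p : ℕ) (u : NS) (i j : X.c.Lam) : Prop where
  /-- processed missing ties -/
  Mi : Mlo X.c p i.1.1 = u.B.primeFactors
  Mj : Mlo X.c p j.1.1 = u.B.primeFactors
  /-- not flagged -/
  fi : ¬ flg r.F X.c p i.1.1
  fj : ¬ flg r.F X.c p j.1.1
  /-- one common point with equal types above, different types below (or a flag enters) -/
  pt : ∃ (x : ℝ) (a a' : ℤ), XmO37.Tth X u i x a ∧ XmO37.Tth X u j x a' ∧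
    r.R.it p (Mlo X.c p i.1.1) (u.A * u.B) x i = r.R.it p (Mlo X.c p j.1.1) (u.A * u.B) x j ∧
    (r.R.it (p - 1) (Mlo X.c p i.1.1) (u.A * u.B) x i ≠
        r.R.it (p - 1) (Mlo X.c p j.1.1) (u.A * u.B) x j ∨
      Ent r.F X.c p i.1.1 ∨ Ent r.F X.c p j.1.1)

lemma SpU.symm {u : NS} (S : SpU X r p u i j) : SpU X r p u j i := by
  obtain ⟨x, a, a', h1, h2, h3, h4⟩ := S.pt
  refine ⟨S.Mj, S.Mi, S.fj, S.fi, x, a', a, h2, h1, h3.symm, ?_⟩
  rcases h4 with h4 | h4 | h4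
  · exact Or.inl h4.symm
  · exact Or.inr (Or.inr h4)
  · exact Or.inr (Or.inl h4)

lemma Bm_pf {u : NS} (h : Squarefree u.B) : TYP9.Bm u.B.primeFactors = u.B := by
  unfold TYP9.Bm
  exact Nat.prod_primeFactors_of_squarefree h

/-- the tooth of a content -/
lemma tth_of {u : NS} {τ : IT} (h : NDt X.par (w X.ψ) X.c.t u τ) {i : X.c.Lam} {x : ℝ}
    (hi : vx X u τ i x ≠ 0) : i.1.1 ∈ τ.items ∧ ∃ a : ℤ, XmO37.Tth X u i x a := by
  rw [vx_val h] at hi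
  obtain ⟨h1, a, -, h2, h3⟩ := ctx_supp h hi
  exact ⟨h1, a, h2, h3⟩

/-- **node form of the static pairs of the rest** -/
theorem SpN.node (hQ : ∀ u τ, Q u τ → NDt X.par (w X.ψ) X.c.t u τ) (hp : p ≠ 0)
    (h : SpN X Q r p i j) {u₀ : NS} {τ₀ : IT} (h₀ : NDt X.par (w X.ψ) X.c.t u₀ τ₀) (hl₀ : ¬ isL τ₀)
    (ht₀ : tp τ₀ < p) (hn₀ : p ≤ u₀.n) (hA₀ : ∀ l : ℕ, l.Prime → l ∣ u₀.A → p ≤ l)
    (hi : i.1.1 ∈ τ₀.items) : SpU X r p u₀ i j := by
  obtain ⟨m, u, τ, x, hs, ht, hl, vi, vj, h1, h2, h3⟩ := h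
  have hn := hQ _ _ hs.1.rm.all.self
  obtain ⟨qi, a, ti⟩ := tth_of hn vi
  obtain ⟨qj, a', tj⟩ := tth_of hn vj
  obtain ⟨eA, eB⟩ := AB_eq hQ X.tOk hp hs.1 ht hl h₀ hl₀ ht₀ hn₀ hA₀ qi hi
  have mi : pm X.c.t p m i.1.1 = Mlo X.c p i.1.1 := rest_lo hQ X.tOk hp hs.1 ht hl qi
  have mj : pm X.c.t p m j.1.1 = Mlo X.c p j.1.1 := rest_lo hQ X.tOk hp hs.1 ht hl qj
  have pi : pm X.c.t p m i.1.1 = u.B.primeFactors := (hs.1.rm.pf hQ X.tOk qi).symm
  have pj : pm X.c.t p m j.1.1 = u.B.primeFactors := (hs.1.rm.pf hQ X.tOk qj).symm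
  have hT : m.2 = u₀.A * u₀.B := by rw [← hs.1.T, eA, eB]
  have fi : ¬ flg r.F X.c p i.1.1 := fun h4 => h1 (tpF_none.2 h4)
  have fj : ¬ flg r.F X.c p j.1.1 := fun h4 => h1 (h2.trans (tpF_none.2 h4))
  refine ⟨by rw [← mi, pi, eB], by rw [← mj, pj, eB], fi, fj, x, a, a', ?_, ?_, ?_, ?_⟩
  · unfold XmO37.Tth at ti ⊢
    rwa [← eA, ← eB]
  · unfold XmO37.Tth at tj ⊢
    rwa [← eA, ← eB]
  · have h4 : r.R.tp (Skel189.top X.S) p m x i = r.R.tp (Skel189.top X.S) p m x j := by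
      have h5 : tpF r.R r.F (Skel189.top X.S) p m x i = tpF r.R r.F (Skel189.top X.S) p m x j := h2
      rwa [tpF_not fi, tpF_not fj] at h5
    have h6 := (Rule.tp_iff hs.2 hs.2 (r.le hs.2 _ _ _ _) (r.le hs.2 _ _ _ _)).1 h4
    rwa [mi, mj, hT] at h6
  · have ei : ∀ {k : X.c.Lam}, r.D.tp (p - 1) m x k = none ↔ flg r.F X.c (p - 1) k.1.1 := tpF_none
    by_cases f1 : flg r.F X.c (p - 1) i.1.1
    · exact Or.inr (Or.inl ⟨fi, f1⟩)
    by_cases f2 : flg r.F X.c (p - 1) j.1.1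
    · exact Or.inr (Or.inr ⟨fj, f2⟩)
    rcases h3 with h4 | h4
    · left
      intro h5
      apply h4
      have e1 : r.D.tp (p - 1) m x i = r.R.tp (Skel189.top X.S) (p - 1) m x i := tpF_not f1
      have e2 : r.D.tp (p - 1) m x j = r.R.tp (Skel189.top X.S) (p - 1) m x j := tpF_not f2
      have lp : p - 1 ≤ Skel189.top X.S := (Nat.sub_le p 1).trans hs.2
      rw [e1, e2, Rule.tp_iff lp lp (r.le lp _ _ _ _) (r.le lp _ _ _ _),
        rest_pm hQ X.tOk hp hs.1 ht hl qi, rest_pm hQ X.tOk hp hs.1 ht hl qj, mi, mj, hT]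
      exact h5
    · exact absurd (ei.1 h4) f1

/-! ### node form, ties -/

/-- **separated pair of the tie `br p` in the coordinates of the node `u`**: `i` is in the N child,
equal types above, different types below; `sd` = `j` is in the N child -/
structure SpV (X : Ctx N γ p0 P₀) (r : RF X) (p : ℕ) (u : NS) (sd : Prop) (i j : X.c.Lam) : Prop where
  /-- processed missing ties above the tie -/
  Mi : Mhi X.c p i.1.1 = u.B.primeFactors
  Mj : Mhi X.c p j.1.1 = u.B.primeFactors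
  /-- processed missing ties below the tie -/
  Li : Mlo X.c p i.1.1 = (u.B * p).primeFactors
  Lj : sd → Mlo X.c p j.1.1 = (u.B * p).primeFactors
  mi : p ∈ X.c.t.mt i.1.1
  mj : sd ↔ p ∈ X.c.t.mt j.1.1
  fi : ¬ flg r.F X.c p i.1.1
  fj : ¬ flg r.F X.c p j.1.1
  pt : ∃ (x : ℝ) (a a' : ℤ), XmO37.Tth X ⟨p, u.c * p, u.A, u.B * p⟩ i (p * x) a ∧
    (sd → XmO37.Tth X ⟨p, u.c * p, u.A, u.B * p⟩ j (p * x) a') ∧
    (¬ sd → XmO37.Tth X ⟨p, u.c / (1 - 1 / (p : ℝ)), u.A * p, u.B⟩ j (p * x) a') ∧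
    r.R.it p (Mhi X.c p i.1.1) (u.A * u.B) x i = r.R.it p (Mhi X.c p j.1.1) (u.A * u.B) x j ∧
    (∀ s, ixp X.c p s (Mlo X.c p i.1.1) (u.A * u.B * p) (p * x) i =
      ixp X.c p s (Mhi X.c p i.1.1) (u.A * u.B) x i) ∧
    (sd → ∀ s, ixp X.c p s (Mlo X.c p j.1.1) (u.A * u.B * p) (p * x) j =
      ixp X.c p s (Mhi X.c p j.1.1) (u.A * u.B) x j) ∧
    (¬ sd → ∀ s, ixp X.c p s (Mhi X.c p j.1.1) (u.A * u.B * p) (p * x) j =
      ixp X.c p s (Mhi X.c p j.1.1) (u.A * u.B) x j) ∧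
    (sd → r.R.it p (Mlo X.c p i.1.1) (u.A * u.B * p) (p * x) i ≠
      r.R.it p (Mlo X.c p j.1.1) (u.A * u.B * p) (p * x) j) ∧
    (¬ sd → r.R.it p (Mlo X.c p i.1.1) (u.A * u.B * p) (p * x) i ≠
      r.R.it p (Mhi X.c p j.1.1) (u.A * u.B * p) (p * x) j)

/-- **node form of the static pairs of a tie** -/
theorem SpT.node (hQ : ∀ u τ, Q u τ → NDt X.par (w X.ψ) X.c.t u τ) (h : SpT X Q r p i j) {u₀ : NS}
    {Sp₀ : Finset ℕ} {t₁' t₀' : IT} (h₀ : NDt X.par (w X.ψ) X.c.t u₀ (.br p Sp₀ t₁' t₀'))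
    (hi : i.1.1 ∈ (IT.br p Sp₀ t₁' t₀').items) (hj : j.1.1 ∈ (IT.br p Sp₀ t₁' t₀').items) :
    i.1.1 ∈ t₀'.items ∧ SpV X r p u₀ (j.1.1 ∈ t₀'.items) i j := by
  obtain ⟨m, s, Sp, t₁, t₀, x, hs, ti, tj, vi, vj, h1, h2, h3⟩ := h
  have hn := hQ _ _ hs.1.rm.all.self
  have hpr : p.Prime := prime_of_br hn.self.node
  have hl : ¬ isL (IT.br p Sp t₁ t₀) := fun h => h
  obtain ⟨hP, hN⟩ := (carX hQ).br hs
  have nP := hQ _ _ hP.1.rm.all.self
  have nN := hQ _ _ hN.1.rm.all.self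
  obtain ⟨qi, a, ai⟩ := tth_of nN vi
  have dis : Disjoint t₁.items t₀.items := hn.fit.2.2.1
  have qi' : i.1.1 ∈ (IT.br p Sp t₁ t₀).items := Finset.mem_union_right _ qi
  have qj' : j.1.1 ∈ (IT.br p Sp t₁ t₀).items := by
    rcases vj with vj | vj
    · exact Finset.mem_union_right _ (tth_of nN vj).1
    · exact Finset.mem_union_left _ (tth_of nP vj).1
  obtain ⟨eA, eB, si⟩ := AB_br hn h₀ qi' hi
  obtain ⟨-, -, sj⟩ := AB_br hn h₀ qj' hj
  have exi := E3X479.ex_N hQ hs qi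
  have hT : m.2 = u₀.A * u₀.B := by rw [← hs.1.T, eA, eB]
  have hT' : (tuM p m).2 = u₀.A * u₀.B * p := by
    show m.2 * p = _
    rw [hT]
  have ec : TYJ47.cnt p m.1 = ex p u₀.A := by rw [← hs.1.rm.exA hl rfl, eA]
  have pi : pm X.c.t p m i.1.1 = s.B.primeFactors := (hs.1.rm.pf hQ X.tOk qi').symm
  have pj : pm X.c.t p m j.1.1 = s.B.primeFactors := (hs.1.rm.pf hQ X.tOk qj').symm
  have fi : ¬ flg r.F X.c p i.1.1 := fun h4 => h1 (tpF_none.2 h4)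
  have fj : ¬ flg r.F X.c p j.1.1 := fun h4 => h1 (h2.trans (tpF_none.2 h4))
  have sidei : pm X.c.t p (tuM p m) i.1.1 = Mlo X.c p i.1.1 ∧ p ∈ X.c.t.mt i.1.1 := by
    rcases ti.side with h4 | h4
    · exact absurd exi h4.2
    · exact ⟨h4.1, h4.2.1⟩
  have pti : pm X.c.t p (tuM p m) i.1.1 = (s.B * p).primeFactors :=
    (hN.1.rm.pf hQ X.tOk qi).symm
  have hsd : j.1.1 ∈ t₀.items → pm X.c.t p (tuM p m) j.1.1 = Mlo X.c p j.1.1 ∧
      p ∈ X.c.t.mt j.1.1 ∧ pm X.c.t p (tuM p m) j.1.1 = (s.B * p).primeFactors := by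
    intro h5
    have exj := E3X479.ex_N hQ hs h5
    rcases tj.side with h4 | h4
    · exact absurd exj h4.2
    · exact ⟨h4.1, h4.2.1, (hN.1.rm.pf hQ X.tOk h5).symm⟩
  have hsn : j.1.1 ∉ t₀.items → pm X.c.t p (tuM p m) j.1.1 = Mhi X.c p j.1.1 ∧
      p ∉ X.c.t.mt j.1.1 := by
    intro h5
    have h6 : j.1.1 ∈ t₁.items := (Finset.mem_union.1 qj').resolve_right h5
    have exj := E3X479.ex_P hQ hs h6
    rcases tj.side with h4 | h4
    · refine ⟨h4.1.trans tj.hi, fun h7 => ?_⟩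
      have h8 : p ∣ mp X.c.t j.1.1 := by
        rw [BldF542.mp_eq_prod _ _ X.tOk j.1.1]
        exact Finset.dvd_prod_of_mem _ h7
      have nB : ¬ p ∣ s.B := fun h9 => by
        have h10 := hn.bk.geB p hpr h9
        have h11 := (WalkIT579.top_of_nodeOk hn.self.node hl).2.1
        have h12 : tp (IT.br p Sp t₁ t₀) = p := rfl
        omega
      rw [hn.self.mp _ qj'] at h8
      have h13 : mp (.br p Sp t₁ t₀) j.1.1 = mp t₁ j.1.1 := if_neg h5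
      rw [h13] at h8
      rcases (Nat.Prime.dvd_mul hpr).1 h8 with h9 | h9
      · exact nB h9
      · obtain ⟨-, -, -, -, o1, -⟩ := hn.self.ok
        rw [BldF542.mp_eq_prod _ _ o1 j.1.1] at h9
        obtain ⟨l, hl1, hd⟩ := hpr.prime.exists_mem_finset_dvd h9
        have h14 := BldF542.mt_lt _ _ o1 _ l hl1
        have h15 := (Nat.prime_dvd_prime_iff_eq hpr h14.1).1 hd
        omega
    · exact absurd h4.2.2 (by omega)
  refine ⟨si.1 qi, ti.hi.symm.trans (pi.trans (by rw [eB])), tj.hi.symm.trans (pj.trans (by rw [eB])),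
    sidei.1.symm.trans (pti.trans (by rw [eB])), fun h4 => ?_, sidei.2, ?_, fi, fj, ?_⟩
  · have h5 := hsd (sj.2 h4)
    exact h5.1.symm.trans (h5.2.2.trans (by rw [eB]))
  · constructor
    · intro h4
      exact (hsd (sj.2 h4)).2.1
    · intro h4
      by_contra h5
      exact (hsn fun h6 => h5 (sj.1 h6)).2 h4
  · have hit : r.R.it p (Mhi X.c p i.1.1) (u₀.A * u₀.B) x i =
        r.R.it p (Mhi X.c p j.1.1) (u₀.A * u₀.B) x j := by
      have h4 : r.R.tp (Skel189.top X.S) p m x i = r.R.tp (Skel189.top X.S) p m x j := by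
        have h5 : tpF r.R r.F (Skel189.top X.S) p m x i = tpF r.R r.F (Skel189.top X.S) p m x j :=
          h2
        rwa [tpF_not fi, tpF_not fj] at h5
      have h6 := (Rule.tp_iff hs.2 hs.2 (r.le hs.2 _ _ _ _) (r.le hs.2 _ _ _ _)).1 h4
      rwa [ti.hi, tj.hi, hT] at h6
    have ixi := ti.ix
    rw [sidei.1, hT', ti.hi, hT] at ixi
    have ixj := tj.ix
    rw [hT', tj.hi, hT] at ixj
    have ev : r.R.it p (Mlo X.c p i.1.1) (u₀.A * u₀.B * p) (p * x) i ≠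
        r.R.it p (pm X.c.t p (tuM p m) j.1.1) (u₀.A * u₀.B * p) (p * x) j := by
      intro h4
      apply h3
      have e1 : r.D.lt p m (p * x) i = r.R.tp (Skel189.top X.S) p (tuM p m) (p * x) i := tpF_not fi
      have e2 : r.D.lt p m (p * x) j = r.R.tp (Skel189.top X.S) p (tuM p m) (p * x) j := tpF_not fj
      rw [e1, e2, Rule.tp_iff hs.2 hs.2 (r.le hs.2 _ _ _ _) (r.le hs.2 _ _ _ _), sidei.1, hT']
      exact h4
    have ai' : XmO37.Tth X ⟨p, u₀.c * p, u₀.A, u₀.B * p⟩ i (p * x) a := by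
      unfold XmO37.Tth at ai ⊢
      rw [eA, eB] at ai
      exact ai
    by_cases h5 : j.1.1 ∈ t₀.items
    · have vj' : vx X ⟨p, s.c * p, s.A, s.B * p⟩ t₀ j (p * x) ≠ 0 := by
        rcases vj with vj | vj
        · exact vj
        · exact absurd h5 (Finset.disjoint_left.1 dis (tth_of nP vj).1)
      obtain ⟨-, a', aj⟩ := tth_of nN vj'
      have h6 := hsd h5
      refine ⟨x, a, a', ai', fun _ => ?_, fun h7 => absurd (sj.1 h5) h7, hit, ixi, fun _ => ?_,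
        fun h7 => absurd (sj.1 h5) h7, fun _ => ?_, fun h7 => absurd (sj.1 h5) h7⟩
      · unfold XmO37.Tth at aj ⊢
        rw [eA, eB] at aj
        exact aj
      · rw [h6.1] at ixj
        exact ixj
      · rw [h6.1] at ev
        exact ev
    · have vj' : vx X ⟨p, s.c / (1 - 1 / (p : ℝ)), s.A * p, s.B⟩ t₁ j (p * x) ≠ 0 := by
        rcases vj with vj | vj
        · exact absurd (tth_of nN vj).1 h5
        · exact vj
      obtain ⟨-, a', aj⟩ := tth_of nP vj'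
      have h6 := hsn h5
      refine ⟨x, a, a', ai', fun h7 => absurd (sj.2 h7) h5, fun _ => ?_, hit, ixi,
        fun h7 => absurd (sj.2 h7) h5, fun _ => ?_, fun h7 => absurd (sj.2 h7) h5, fun _ => ?_⟩
      · unfold XmO37.Tth at aj ⊢
        rw [eA, eB] at aj
        exact aj
      · rw [h6.1] at ixj
        exact ixj
      · rw [h6.1] at ev
        exact ev

/-! ### exact centres -/

section exact
open Crest.Agent.R4P.WPex189 (LbW Fine)
open Crest.Agent.R4P.FineW33 (exact_twoW)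
open Crest.Agent.R4P.XmO37 (Tth ExO)
open Crest.Agent.R4.HVW560 (cof)

variable {u u' : NS} {τ τ' : IT}

/-- the point of a tooth -/
lemma tth_pt (hn : NDt X.par (w X.ψ) X.c.t u τ) (hd1 : X.c.d1 * Kc X.S ≤ 1) (hq : i.1.1 ∈ τ.items)
    {M : Finset ℕ} (hM : TYP9.Bm M = u.B) {a : ℤ} (h : Tth X u i x a) :
    ∃ z : ℝ, (u.B : ℝ) * z = ((i.1.1 / u.A : ℕ) : ℝ) * x - u.B * X.c.γ - a ∧
      |z| ≤ X.c.r i.1.1 ∧
      ∀ p s, ixp X.c p s M (u.A * u.B) x i = X.c.wp.ix X.c.γ p i.1.1 s z := by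
  have hB0 : 0 < u.B := Nat.pos_of_ne_zero hn.bk.sfB.ne_zero
  obtain ⟨z, k1, k2, k3, k4⟩ := Crest.Agent.R4P.DseKid23.pt_kid (u := u) hB0 (j := i)
    (W := i.1.1 / u.A) (y := x) (a := a) (by rw [Nat.cast_one, div_one]; exact h.1)
    (by rw [Nat.cast_one, div_one]; exact h.2)
  have hwm : wm M (u.A * u.B) i.1.1 = i.1.1 / u.A := by
    unfold wm
    rw [hM, Nat.mul_div_cancel _ hB0]
  refine ⟨z, k1, k2, fun p s => ?_⟩
  refine ixp_eq (a := a) (z := z) (by rw [hM]; exact hB0) (by rw [hM, hwm]; exact k1) k3 ?_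
  rw [hM]
  have hwl := AddNode7.win_len hd1 hn (j := i) hq
  rw [Nat.cast_one, div_one, ← mul_sub] at hwl
  refine lt_of_lt_of_le (mul_lt_mul_of_pos_left ?_ (by exact_mod_cast hB0)) hwl
  have h6 : X.c.D.be i = X.c.bp i.1.1 (i.1.2 + 1) := rfl
  have h7 : X.c.D.al i = X.c.bp i.1.1 i.1.2 := rfl
  rw [h6] at k4
  linarith

/-- **equal index at a common point of one circle, labels of small height: one exact centre** -/
theorem ex_at (hn : NDt X.par (w X.ψ) X.c.t u τ) (hn' : NDt X.par (w X.ψ) X.c.t u' τ')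
    (hd1 : X.c.d1 * Kc X.S ≤ 1) (hq : i.1.1 ∈ τ.items) (hq' : j.1.1 ∈ τ'.items)
    (hT : u.A * u.B = u'.A * u'.B) {M M' : Finset ℕ} (hM : TYP9.Bm M = u.B)
    (hM' : TYP9.Bm M' = u'.B) {a a' : ℤ} (h : Tth X u i x a) (h' : Tth X u' j x a') {σ σ' : ℚ}
    (hσ : LbW X.c.γ (X.c.r i.1.1) σ) (hσ' : LbW X.c.γ (X.c.r j.1.1) σ') {p₁ p₂ : ℕ}
    (hix : ixp X.c p₁ (some σ) M (u.A * u.B) x i = ixp X.c p₂ (some σ') M' (u'.A * u'.B) x j) :
    ((a : ℚ) + u.B * σ) * (j.1.1 / u'.A : ℕ) = (a' + u'.B * σ') * (i.1.1 / u.A : ℕ) := by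
  obtain ⟨z, k1, k2, k3⟩ := tth_pt hn hd1 hq hM h
  obtain ⟨z', l1, l2, l3⟩ := tth_pt hn' hd1 hq' hM' h'
  rw [k3, l3] at hix
  have hB0 : 0 < u.B := Nat.pos_of_ne_zero hn.bk.sfB.ne_zero
  have w0 : 0 < i.1.1 / u.A := Nat.div_pos (Nat.le_of_dvd (hn.bk.pos _ hq) (hn.bk.dvd _ hq))
    hn.bk.Apos
  have w0' : 0 < j.1.1 / u'.A :=
    Nat.div_pos (Nat.le_of_dvd (hn'.bk.pos _ hq') (hn'.bk.dvd _ hq')) hn'.bk.Apos
  have key := exact_twoW X.fine (Cf.mem_S i) (Cf.mem_S j) (X.sys.pos _ (X.mem_S i))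
    (X.sys.pos _ (X.mem_S j)) hσ hσ' hn.bk.Apos hB0 hn'.bk.Apos w0 w0'
    (Nat.mul_div_cancel' (hn.bk.dvd _ hq)).symm (Nat.mul_div_cancel' (hn'.bk.dvd _ hq')).symm hT
    ((AddNode7.B_le_Kc hn hq).trans (Nat.le_mul_of_pos_right _ hn'.bk.Apos)) k1 l1 k2 l2 hix
  set W := i.1.1 / u.A with hW
  set W' := j.1.1 / u'.A with hW'
  have key' : ((a : ℚ) + u.B * σ) * (cof W' W : ℕ) = (a' + u'.B * σ') * (cof W W' : ℕ) := by
    exact_mod_cast key
  have ew : (W : ℚ) = (W.gcd W' : ℕ) * (cof W W' : ℕ) := by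
    exact_mod_cast (Crest.Agent.R4.AvgItem710.mul_cof).symm
  have ew' : (W' : ℚ) = (W.gcd W' : ℕ) * (cof W' W : ℕ) := by
    exact_mod_cast (Crest.Agent.R4.AvgItem710.mul_cof').symm
  rw [ew, ew']
  linear_combination (W.gcd W' : ℚ) * key'

/-- the products of missing ties against `Kc` -/
lemma B_mul_le (hn : NDt X.par (w X.ψ) X.c.t u τ) {q q' : ℕ} (hq : q ∈ τ.items) (hq' : q' ∈ X.S) :
    4 * (u.B * q') ≤ Kc X.S := by
  have h1 : u.B ≤ ∏ s ∈ Finset.Icc 1 (Skel189.top X.S), s := by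
    have e := hn.self.mp _ hq
    have h2 : 0 < mp τ q := by
      rw [BldF542.mp_eq_prod τ u.n hn.self.ok]
      exact Finset.prod_pos fun s hs => (BldF542.mt_lt τ u.n hn.self.ok _ s hs).1.pos
    refine (Nat.le_mul_of_pos_right u.B h2).trans ?_
    rw [← e, BldF542.mp_eq_prod X.c.t (Skel189.top X.S) X.tOk q]
    have h3 := BldF542.mt_lt X.c.t (Skel189.top X.S) X.tOk q
    exact Finset.prod_le_prod_of_subset_of_one_le' (fun s hs =>
      Finset.mem_Icc.2 ⟨(h3 s hs).1.one_lt.le, (h3 s hs).2.le⟩) fun i hi _ =>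
        (Finset.mem_Icc.1 hi).1
  have h2 : q' ≤ Skel189.top X.S := by
    have : q' ≤ X.S.sup id := Finset.le_sup (f := id) hq'
    unfold Skel189.top
    omega
  have h3 : 4 * Skel189.top X.S ≤ 4 ^ (8 * Skel189.top X.S ^ 4) := by
    set t := Skel189.top X.S with ht
    have t1 : 1 ≤ t := by
      rw [ht]
      unfold Skel189.top
      omega
    have t4 : t ≤ t ^ 4 := by
      calc t = t ^ 1 := (pow_one t).symm
        _ ≤ t ^ 4 := Nat.pow_le_pow_right t1 (by norm_num)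
    calc 4 * t ≤ 4 * 4 ^ t := Nat.mul_le_mul_left _ (Nat.lt_pow_self (by norm_num)).le
      _ = 4 ^ (t + 1) := by rw [pow_succ]; ring
      _ ≤ 4 ^ (8 * t ^ 4) := Nat.pow_le_pow_right (by norm_num) (by omega)
  unfold Kc
  calc 4 * (u.B * q') = u.B * (4 * q') := by ring
    _ ≤ (∏ s ∈ Finset.Icc 1 (Skel189.top X.S), s) * (4 * Skel189.top X.S) :=
        Nat.mul_le_mul h1 (Nat.mul_le_mul_left _ h2)
    _ ≤ _ := Nat.mul_le_mul_left _ h3

/-- the window of a piece is short -/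
lemma tth_sub (hd0 : 0 < X.c.d1) {y₁ y₂ : ℝ} {a₁ a₂ : ℤ} (h1 : Tth X u i y₁ a₁)
    (h2 : Tth X u i y₂ a₂) :
    |((i.1.1 / u.A : ℕ) : ℝ) * (y₁ - y₂) - ((a₁ : ℝ) - a₂)| ≤ u.B * X.c.d1 := by
  have h3 := X.ok.fine i.1.1 (Cf.mem_S i) (Cf.r_pos i) i.1.2 (Cf.k_lt i)
  have hB : (0 : ℝ) ≤ u.B := Nat.cast_nonneg _
  obtain ⟨p1, p2⟩ := h1
  obtain ⟨p3, p4⟩ := h2
  have h4 := mul_le_mul_of_nonneg_left h3 hB
  rw [abs_le]
  constructor <;> nlinarith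

/-- **the difference of the centres is the same at all the common points**, any two nodes -/
theorem diff_eq (hd1 : X.c.d1 * Kc X.S ≤ 1) (hn : NDt X.par (w X.ψ) X.c.t u τ)
    (hn' : NDt X.par (w X.ψ) X.c.t u' τ') (hq : i.1.1 ∈ τ.items) (hq' : j.1.1 ∈ τ'.items)
    {y₁ y₂ : ℝ} {a₁ a₂ a₁' a₂' : ℤ} (h1 : Tth X u i y₁ a₁) (h1' : Tth X u' j y₁ a₁')
    (h2 : Tth X u i y₂ a₂) (h2' : Tth X u' j y₂ a₂') :
    (a₁ - a₂) * ((j.1.1 / u'.A : ℕ) : ℤ) = (a₁' - a₂') * ((i.1.1 / u.A : ℕ) : ℤ) := by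
  have hd0 : 0 < X.c.d1 := by rw [X.d1]; exact N.hd1 p0 X.ψ X.S
  have e1 := tth_sub hd0 h1 h2
  have e2 := tth_sub hd0 h1' h2'
  set W := i.1.1 / u.A with hW
  set W' := j.1.1 / u'.A with hW'
  have b1 : 4 * (u.B * W') ≤ Kc X.S :=
    le_trans (Nat.mul_le_mul_left _ (Nat.mul_le_mul_left _ (Nat.div_le_self _ _)))
      (B_mul_le hn hq (X.mem_S j))
  have b2 : 4 * (u'.B * W) ≤ Kc X.S :=
    le_trans (Nat.mul_le_mul_left _ (Nat.mul_le_mul_left _ (Nat.div_le_self _ _)))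
      (B_mul_le hn' hq' (X.mem_S i))
  have b1' : 4 * ((u.B : ℝ) * W') ≤ Kc X.S := by exact_mod_cast b1
  have b2' : 4 * ((u'.B : ℝ) * W) ≤ Kc X.S := by exact_mod_cast b2
  have w1 : (0 : ℝ) ≤ W := Nat.cast_nonneg _
  have w2 : (0 : ℝ) ≤ W' := Nat.cast_nonneg _
  have key : |(((a₁ - a₂) * (W' : ℤ) - (a₁' - a₂') * (W : ℤ) : ℤ) : ℝ)| < 1 := by
    have e3 : (((a₁ - a₂) * (W' : ℤ) - (a₁' - a₂') * (W : ℤ) : ℤ) : ℝ) =
        W * ((W' : ℝ) * (y₁ - y₂) - ((a₁' : ℝ) - a₂')) -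
          W' * ((W : ℝ) * (y₁ - y₂) - ((a₁ : ℝ) - a₂)) := by
      push_cast; ring
    rw [e3]
    refine lt_of_le_of_lt (abs_sub _ _) ?_
    rw [abs_mul, abs_mul, abs_of_nonneg w1, abs_of_nonneg w2]
    have f1 := mul_le_mul_of_nonneg_left e1 w2
    have f2 := mul_le_mul_of_nonneg_left e2 w1
    have f3 : W' * (u.B * X.c.d1) ≤ 1 / 4 := by
      have : W' * (u.B * X.c.d1) = X.c.d1 * ((u.B : ℝ) * W') := by ring
      rw [this]
      have := mul_le_mul_of_nonneg_left b1' hd0.le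
      linarith
    have f4 : W * (u'.B * X.c.d1) ≤ 1 / 4 := by
      have : W * (u'.B * X.c.d1) = X.c.d1 * ((u'.B : ℝ) * W) := by ring
      rw [this]
      have := mul_le_mul_of_nonneg_left b2' hd0.le
      linarith
    linarith
  have h0 : (a₁ - a₂) * (W' : ℤ) - (a₁' - a₂') * (W : ℤ) = 0 := by
    rw [← Int.cast_abs] at key
    have : |(a₁ - a₂) * (W' : ℤ) - (a₁' - a₂') * (W : ℤ)| < 1 := by exact_mod_cast key
    exact Int.abs_lt_one_iff.1 this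
  linarith

/-- **exact at one common point, exact at all**, any offsets -/
theorem ex_all (hd1 : X.c.d1 * Kc X.S ≤ 1) (hn : NDt X.par (w X.ψ) X.c.t u τ)
    (hn' : NDt X.par (w X.ψ) X.c.t u' τ') (hq : i.1.1 ∈ τ.items) (hq' : j.1.1 ∈ τ'.items)
    {ρ ρ' : ℚ} {x : ℝ} {a₀ a₀' : ℤ} (h1 : Tth X u i x a₀) (h1' : Tth X u' j x a₀')
    (he : ((a₀ : ℚ) + ρ) * (j.1.1 / u'.A : ℕ) = (a₀' + ρ') * (i.1.1 / u.A : ℕ))
    {y : ℝ} {a a' : ℤ} (h2 : Tth X u i y a) (h2' : Tth X u' j y a') :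
    ((a : ℚ) + ρ) * (j.1.1 / u'.A : ℕ) = (a' + ρ') * (i.1.1 / u.A : ℕ) := by
  have h3 := diff_eq hd1 hn hn' hq hq' h1 h1' h2 h2'
  have h4 : ((a₀ : ℚ) - a) * (j.1.1 / u'.A : ℕ) = (a₀' - a') * (i.1.1 / u.A : ℕ) := by
    have h5 := congrArg (fun z : ℤ => (z : ℚ)) h3
    simp only [Int.cast_mul, Int.cast_sub, Int.cast_natCast] at h5
    exact h5
  linear_combination he - h4

/-- **labels of an `SpU` pair**: both or none -/
lemma SpU.some_iff (S : SpU X r p u i j) {lb : Finset ℕ → ℕ → Option ℚ}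
    (hl : ∀ M x (k : X.c.Lam), r.R.lb p M x k = lb M k.1.1) :
    (lb u.B.primeFactors i.1.1).isSome = (lb u.B.primeFactors j.1.1).isSome := by
  obtain ⟨x, a, a', -, -, h, -⟩ := S.pt
  have h1 := (Prod.ext_iff.1 h).1
  have h2 : (ixp X.c p (r.R.lb p (Mlo X.c p i.1.1) x i) (Mlo X.c p i.1.1) (u.A * u.B) x i).1 =
    (ixp X.c p (r.R.lb p (Mlo X.c p j.1.1) x j) (Mlo X.c p j.1.1) (u.A * u.B) x j).1 :=
    (Prod.ext_iff.1 h1).1
  rw [ixp_fst, ixp_fst, hl, hl, S.Mi, S.Mj] at h2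
  exact h2

/-- **exact centres of an `SpU` pair at all the common points** -/
theorem SpU.exact (hd1 : X.c.d1 * Kc X.S ≤ 1) (hn : NDt X.par (w X.ψ) X.c.t u τ)
    (S : SpU X r p u i j) (hq : i.1.1 ∈ τ.items) (hq' : j.1.1 ∈ τ.items)
    {lb : Finset ℕ → ℕ → Option ℚ} (hl : ∀ M x (k : X.c.Lam), r.R.lb p M x k = lb M k.1.1)
    {σ σ' : ℚ} (h1 : lb u.B.primeFactors i.1.1 = some σ) (h2 : lb u.B.primeFactors j.1.1 = some σ')
    (hσ : LbW X.c.γ (X.c.r i.1.1) σ) (hσ' : LbW X.c.γ (X.c.r j.1.1) σ') {y : ℝ} {a a' : ℤ}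
    (t1 : Tth X u i y a) (t2 : Tth X u j y a') :
    ((a : ℚ) + u.B * σ) * (j.1.1 / u.A : ℕ) = (a' + u.B * σ') * (i.1.1 / u.A : ℕ) := by
  obtain ⟨x, a₀, a₀', s1, s2, h, -⟩ := S.pt
  have h3 := (Prod.ext_iff.1 h).1
  have h4 : ixp X.c p (r.R.lb p (Mlo X.c p i.1.1) x i) (Mlo X.c p i.1.1) (u.A * u.B) x i =
    ixp X.c p (r.R.lb p (Mlo X.c p j.1.1) x j) (Mlo X.c p j.1.1) (u.A * u.B) x j := h3
  rw [hl, hl, S.Mi, S.Mj, h1, h2] at h4
  exact ex_all hd1 hn hn hq hq' s1 s2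
    (ex_at hn hn hd1 hq hq' rfl (Bm_pf hn.bk.sfB) (Bm_pf hn.bk.sfB) s1 s2 hσ hσ' h4) t1 t2

/-! #### ties -/

/-- **labels of an `SpV` pair**: both or none -/
lemma SpV.some_iff {sd : Prop} (S : SpV X r p u sd i j) {lb : Finset ℕ → ℕ → Option ℚ}
    (hl : ∀ M x (k : X.c.Lam), r.R.lb p M x k = lb M k.1.1) :
    (lb u.B.primeFactors i.1.1).isSome = (lb u.B.primeFactors j.1.1).isSome := by
  obtain ⟨x, a, a', -, -, -, h, -⟩ := S.pt
  have h1 := (Prod.ext_iff.1 h).1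
  have h2 : (ixp X.c p (r.R.lb p (Mhi X.c p i.1.1) x i) (Mhi X.c p i.1.1) (u.A * u.B) x i).1 =
    (ixp X.c p (r.R.lb p (Mhi X.c p j.1.1) x j) (Mhi X.c p j.1.1) (u.A * u.B) x j).1 :=
    (Prod.ext_iff.1 h1).1
  rw [ixp_fst, ixp_fst, hl, hl, S.Mi, S.Mj] at h2
  exact h2

/-- the N child -/
abbrev nN (p : ℕ) (u : NS) : NS := ⟨p, u.c * p, u.A, u.B * p⟩

/-- the P child -/
noncomputable abbrev nP (p : ℕ) (u : NS) : NS := ⟨p, u.c / (1 - 1 / (p : ℝ)), u.A * p, u.B⟩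

/-- **exact centres of an `SpV` pair of the N child**, labels above the tie -/
theorem SpV.exactN {sd : Prop} (hd1 : X.c.d1 * Kc X.S ≤ 1) {t₀ : IT}
    (hn : NDt X.par (w X.ψ) X.c.t (nN p u) t₀) (S : SpV X r p u sd i j) (hsd : sd)
    (hq : i.1.1 ∈ t₀.items) (hq' : j.1.1 ∈ t₀.items)
    {lb : Finset ℕ → ℕ → Option ℚ} (hl : ∀ M x (k : X.c.Lam), r.R.lb p M x k = lb M k.1.1)
    {σ σ' : ℚ} (h1 : lb u.B.primeFactors i.1.1 = some σ) (h2 : lb u.B.primeFactors j.1.1 = some σ')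
    (hσ : LbW X.c.γ (X.c.r i.1.1) σ) (hσ' : LbW X.c.γ (X.c.r j.1.1) σ') {y : ℝ} {a a' : ℤ}
    (t1 : Tth X (nN p u) i y a) (t2 : Tth X (nN p u) j y a') :
    ((a : ℚ) + (nN p u).B * σ) * (j.1.1 / (nN p u).A : ℕ) =
      (a' + (nN p u).B * σ') * (i.1.1 / (nN p u).A : ℕ) := by
  obtain ⟨x, a₀, a₀', s1, s2, -, h, k1, k2, -⟩ := S.pt
  have s2' := s2 hsd
  have k2' := k2 hsd
  have h4 : ixp X.c p (r.R.lb p (Mhi X.c p i.1.1) x i) (Mhi X.c p i.1.1) (u.A * u.B) x i =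
    ixp X.c p (r.R.lb p (Mhi X.c p j.1.1) x j) (Mhi X.c p j.1.1) (u.A * u.B) x j :=
    (Prod.ext_iff.1 h).1
  rw [hl, hl, S.Mi, S.Mj, h1, h2] at h4
  have e1 := k1 (some σ)
  have e2 := k2' (some σ')
  rw [S.Mi, S.Li] at e1
  rw [S.Mj, S.Lj hsd] at e2
  have hT : u.A * u.B * p = (nN p u).A * (nN p u).B := Nat.mul_assoc _ _ _
  rw [hT] at e1 e2
  have h5 := e1.trans (h4.trans e2.symm)
  have hB : TYP9.Bm (u.B * p).primeFactors = (nN p u).B := Bm_pf (u := nN p u) hn.bk.sfB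
  exact ex_all hd1 hn hn hq hq' s1 s2' (ex_at hn hn hd1 hq hq' rfl hB hB s1 s2' hσ hσ' h5) t1 t2

/-- **exact centres of an `SpV` pair, `j` in the P child**, labels above the tie -/
theorem SpV.exactP {sd : Prop} (hd1 : X.c.d1 * Kc X.S ≤ 1) {t₀ t₁ : IT}
    (hn : NDt X.par (w X.ψ) X.c.t (nN p u) t₀) (hn' : NDt X.par (w X.ψ) X.c.t (nP p u) t₁)
    (S : SpV X r p u sd i j) (hsd : ¬ sd) (hq : i.1.1 ∈ t₀.items) (hq' : j.1.1 ∈ t₁.items)
    {lb : Finset ℕ → ℕ → Option ℚ} (hl : ∀ M x (k : X.c.Lam), r.R.lb p M x k = lb M k.1.1)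
    {σ σ' : ℚ} (h1 : lb u.B.primeFactors i.1.1 = some σ) (h2 : lb u.B.primeFactors j.1.1 = some σ')
    (hσ : LbW X.c.γ (X.c.r i.1.1) σ) (hσ' : LbW X.c.γ (X.c.r j.1.1) σ') {y : ℝ} {a a' : ℤ}
    (t1 : Tth X (nN p u) i y a) (t2 : Tth X (nP p u) j y a') :
    ((a : ℚ) + (nN p u).B * σ) * (j.1.1 / (nP p u).A : ℕ) =
      (a' + (nP p u).B * σ') * (i.1.1 / (nN p u).A : ℕ) := by
  obtain ⟨x, a₀, a₀', s1, -, s2, h, k1, -, k2, -⟩ := S.pt
  have s2' := s2 hsd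
  have k2' := k2 hsd
  have h4 : ixp X.c p (r.R.lb p (Mhi X.c p i.1.1) x i) (Mhi X.c p i.1.1) (u.A * u.B) x i =
    ixp X.c p (r.R.lb p (Mhi X.c p j.1.1) x j) (Mhi X.c p j.1.1) (u.A * u.B) x j :=
    (Prod.ext_iff.1 h).1
  rw [hl, hl, S.Mi, S.Mj, h1, h2] at h4
  have e1 := k1 (some σ)
  have e2 := k2' (some σ')
  rw [S.Mi, S.Li] at e1
  rw [S.Mj] at e2
  have hT : u.A * u.B * p = (nN p u).A * (nN p u).B := Nat.mul_assoc _ _ _
  have hT' : u.A * u.B * p = (nP p u).A * (nP p u).B := by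
    show u.A * u.B * p = u.A * p * u.B
    ring
  rw [hT] at e1
  rw [hT'] at e2
  have h5 := e1.trans (h4.trans e2.symm)
  have hB : TYP9.Bm (u.B * p).primeFactors = (nN p u).B := Bm_pf (u := nN p u) hn.bk.sfB
  have hB' : TYP9.Bm u.B.primeFactors = (nP p u).B := Bm_pf (u := nP p u) hn'.bk.sfB
  exact ex_all hd1 hn hn' hq hq' s1 s2'
    (ex_at hn hn' hd1 hq hq' (hT.symm.trans hT') hB hB' s1 s2' hσ hσ' h5) t1 t2

end exact

end Crest.Agent.R4P.PrL45
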