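import Crest.Agent.R4P.XmD_41
import Crest.Agent.R4P.PrL_45
import Crest.Agent.R4P.RseRI_17

/-!
R4 (S0004), powers pass, helper41: **dense accuracy pairs inside one node** (rest columns, children of a
tie): the pairs are never comparable, the cofactors are smooth.

* `cmp_num`, `cmp_same`, `cmp_diff` : two overlapping pieces of one exact class with comparable cofactors;
* `smA` : smooth cofactors of alive pieces with dense labels; `CoD` : the numbers of a column;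
* `PaJ` : static pair of one node, the first piece is an accuracy death; **`rest_ac`** : `RN K` form;
* `PbJ`, `PcJ` : static pairs of the children of a tie; **`tieB_ac`**, **`tieP_ac`** : `FB K`, `FP K`.
-/

set_option autoImplicit false
set_option linter.unusedSectionVars false
set_option linter.unusedVariables false

open MeasureTheory Filter

namespace Crest.Agent.R4P.AcJ41

open Crest.Agent.R4.Tour104 Crest.Agent.R4.Tour758 Crest.Agent.R4.Avg758 Crest.Agent.R4.Clos758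
open Crest.Agent.R4.ClosL758 Crest.Agent.R4.ClosG758 Crest.Agent.R4.ClosR758
open Crest.Agent.R4.HVW560
open Crest.Agent.R4.Fam464 Crest.Agent.R4.Piece464
open Crest.Agent.R4P.Cnt588 Crest.Agent.R4P.Item758 Crest.Agent.R4P.AvgItem710
open Crest.Agent.R4P.W363 Crest.Agent.R4P.LfDat734
open Crest.Agent.R4P.Walk560 Crest.Agent.R4P.NodeG33
open Crest.Agent.R4P.Data758 Crest.Agent.R4P.Skel189 Crest.Agent.R4P.WPex189
open Crest.Agent.R4P.Bld532 (NS All NodeOk Bk)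
open Crest.Agent.R4P.Step588 (NDt CT CT_pos ctx_NDt uq_lt)
open Crest.Agent.R4.Soft104 (w)
open Crest.Agent.R4P.SameIx30 Crest.Agent.R4P.GPair33
open Crest.Agent.R4P.XmE18 Crest.Agent.R4P.XmM18 Crest.Agent.R4P.XmG18
open Crest.Agent.R4.LF363 (Lab)
open Crest.Agent.R4P.WalkIT579 (tp isL nodeOk_hi top_of_nodeOk prime_ge)
open Crest.Agent.R4P.StM6 (dense)
open Crest.Agent.R4P.StB21 (Bl_node TH)
open Crest.Agent.R4P.AcH41 (C8 K8 C8_nn K8_nn)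
open Crest.Agent.R4P.AcT41 (lab_cnt root5 thin_unique)
open Crest.Agent.R4P.XmO37 (Tth)
open Crest.Agent.R4P.XmQ37 (ExP prs mem_prs prs_alive)
open Crest.Agent.R4P.E3V479 (qe)
open Crest.Agent.R4P.DTp26 (MP)
open Crest.Agent.R4P.JnE5 (Ker bil)
open Crest.Agent.R4P.PrH45 (RN FB)
open Crest.Agent.R4P.PrK45
open Crest.Agent.R4P.RtL28
open Crest.Agent.R4P.RtC28 (tF)
open Crest.Agent.R4P.XmB41 Crest.Agent.R4P.XmC41 Crest.Agent.R4P.XmD41
open Crest.Agent.R4P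

/-! ### numbers of one pair -/

section num

/-- two overlapping pieces of one exact class with comparable cofactors -/
lemma cmp_num {a b : ℕ} {K R R' η E E' z z' : ℝ} (hK : 1 ≤ K) (ma : (a:ℝ) ≤ K) (mb : (b:ℝ) ≤ K)
    (hz : |z| ≤ R) (hz' : |z'| ≤ R') (hR' : R' ≤ K * R) (hR : R ≤ η * |E|)
    (h : (b:ℝ) * (E + z) = a * (E' + z')) : |(b:ℝ) * E - a * E'| ≤ 2 * K ^ 2 * η * |E| := by
  have e : (b:ℝ) * E - a * E' = a * z' - b * z := by linear_combination h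
  have a0 : (0:ℝ) ≤ a := Nat.cast_nonneg _
  have b0 : (0:ℝ) ≤ b := Nat.cast_nonneg _
  have R0 : 0 ≤ R := (abs_nonneg _).trans hz
  have R0' : 0 ≤ R' := (abs_nonneg _).trans hz'
  rw [e]
  calc |(a:ℝ) * z' - b * z| ≤ |(a:ℝ) * z'| + |(b:ℝ) * z| := abs_sub _ _
    _ = a * |z'| + b * |z| := by rw [abs_mul, abs_mul, abs_of_nonneg a0, abs_of_nonneg b0]
    _ ≤ K * (K * R) + K * R := by
        refine add_le_add ?_ ?_
        · exact mul_le_mul ma (hz'.trans hR') (abs_nonneg _) (by linarith)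
        · exact mul_le_mul mb hz (abs_nonneg _) (by linarith)
    _ ≤ 2 * K ^ 2 * R := by nlinarith
    _ ≤ 2 * K ^ 2 * (η * |E|) := mul_le_mul_of_nonneg_left hR (by positivity)
    _ = _ := by ring

/-- one distance: one cofactor -/
lemma cmp_same {a b : ℕ} {δ E : ℝ} (hE : E ≠ 0) (hδ : δ < 1)
    (h : |(b:ℝ) * E - a * E| ≤ δ * |E|) : a = b := by
  have hE0 : 0 < |E| := abs_pos.2 hE
  have e : (b:ℝ) * E - a * E = (((b:ℤ) - a : ℤ) : ℝ) * E := by push_cast; ring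
  rw [e, abs_mul] at h
  have h2 : |((((b:ℤ) - a : ℤ)) : ℝ)| < 1 := by
    by_contra hc
    push Not at hc
    nlinarith
  have h3 : |(b:ℤ) - a| < 1 := by exact_mod_cast h2
  have h4 := Int.abs_lt_one_iff.1 h3
  omega

/-- the first distance by the second one -/
lemma cmp_diff {a b : ℕ} {K δ E E' : ℝ} (hb : 1 ≤ b) (hK : 1 ≤ K) (ma : (a:ℝ) ≤ K)
    (hδ : δ ≤ 1 / 2) (h : |(b:ℝ) * E - a * E'| ≤ δ * |E|) : |E| ≤ 2 * K * |E'| := by
  have a0 : (0:ℝ) ≤ a := Nat.cast_nonneg _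
  have b1 : (1:ℝ) ≤ b := by exact_mod_cast hb
  have h1 : (b:ℝ) * |E| ≤ a * |E'| + δ * |E| := by
    have e : (b:ℝ) * E = a * E' + (b * E - a * E') := by ring
    have := abs_add_le ((a:ℝ) * E') ((b:ℝ) * E - a * E')
    rw [← e, abs_mul, abs_mul, abs_of_nonneg a0, abs_of_nonneg (by linarith : (0:ℝ) ≤ b)] at this
    linarith
  have h2 := mul_le_mul_of_nonneg_right ma (abs_nonneg E')
  have h3 := mul_le_mul_of_nonneg_right b1 (abs_nonneg E)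
  have h4 := mul_le_mul_of_nonneg_right hδ (abs_nonneg E)
  nlinarith

/-- distance of two dense rationals -/
lemma rat_dist {ρ σ : ℚ} (hne : ρ ≠ σ) {θ : ℝ} (hθ : 0 ≤ θ) (h1 : (ρ.den : ℝ) ^ 5 * θ ≤ 1)
    (h2 : (σ.den : ℝ) ^ 5 * θ ≤ 1) : θ ^ 2 ≤ |(ρ : ℝ) - σ| ^ 5 := by
  have g := Crest.Agent.R4.LF363.rat_gap hne
  have k1 : (0:ℝ) < ρ.den := by exact_mod_cast ρ.den_pos
  have k2 : (0:ℝ) < σ.den := by exact_mod_cast σ.den_pos
  have g1 : 1 ≤ |(ρ : ℝ) - σ| * (ρ.den * σ.den) := g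
  have g5 : 1 ≤ |(ρ : ℝ) - σ| ^ 5 * ((ρ.den : ℝ) * σ.den) ^ 5 := by
    rw [← mul_pow]
    exact one_le_pow₀ g1
  have h3 : ((ρ.den : ℝ) * σ.den) ^ 5 * θ ^ 2 ≤ 1 := by
    have := mul_le_mul h1 h2 (by positivity) zero_le_one
    calc ((ρ.den : ℝ) * σ.den) ^ 5 * θ ^ 2 = ((ρ.den : ℝ) ^ 5 * θ) * ((σ.den : ℝ) ^ 5 * θ) := by ring
      _ ≤ 1 := by linarith
  have h4 : 0 ≤ |(ρ : ℝ) - σ| ^ 5 := by positivity
  calc θ ^ 2 = 1 * θ ^ 2 := by ring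
    _ ≤ (|(ρ : ℝ) - σ| ^ 5 * ((ρ.den : ℝ) * σ.den) ^ 5) * θ ^ 2 :=
        mul_le_mul_of_nonneg_right g5 (by positivity)
    _ = |(ρ : ℝ) - σ| ^ 5 * (((ρ.den : ℝ) * σ.den) ^ 5 * θ ^ 2) := by ring
    _ ≤ |(ρ : ℝ) - σ| ^ 5 * 1 := mul_le_mul_of_nonneg_left h3 h4
    _ = _ := by ring

end num

/-! ### smooth cofactors -/

variable {N : Skel189.Num} {γ : ℝ} {p0 P₀ : ℕ} {X : Ctx N γ p0 P₀}

/-- one side -/
lemma sm1 {v v' : NS} {τ τ' : IT} (h : QX X v τ) (h' : QX X v' τ') {c : ℕ}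
    (hn : ∀ l : ℕ, l.Prime → c < l → v.n ≤ l ∧ v'.n ≤ l) {j i : X.c.Lam} {y : ℝ}
    (y1 : vN X (.inl (v, τ)) j y ≠ 0) (y2 : vN X (.inl (v', τ')) i y ≠ 0) {σ σ' : ℚ}
    (s1 : X.c.st c j.1.1 = some σ)
    (hex : ∀ a a' : ℤ, Tth X v j y a → Tth X v' i y a' →
      ((a:ℚ) + v.B * σ) * (i.1.1 / v'.A : ℕ) = (a' + v'.B * σ') * (j.1.1 / v.A : ℕ))
    (d2 : ∀ l : ℕ, l.Prime → c < l → ¬ l ∣ ((v'.B : ℚ) * σ').den)
    {l : ℕ} (hl : l.Prime) (hd : l ∣ cof (j.1.1 / v.A) (i.1.1 / v'.A)) : l ≤ c := by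
  by_contra hc
  push Not at hc
  obtain ⟨n1, n2⟩ := hn l hl hc
  have q1 : j.1.1 ∈ τ.items := by
    by_contra hq
    exact y1 (vN_out hq y)
  have g1 : cof (j.1.1 / v.A) (i.1.1 / v'.A) * Nat.gcd (j.1.1 / v.A) (i.1.1 / v'.A) = j.1.1 / v.A :=
    Nat.div_mul_cancel (Nat.gcd_dvd_left _ _)
  have g2 : l ∣ j.1.1 / v.A := by rw [← g1]; exact hd.mul_right _
  have g3 : ¬ l ∣ i.1.1 / v'.A := by
    intro g3
    have g4 : l ∣ Nat.gcd (j.1.1 / v.A) (i.1.1 / v'.A) := Nat.dvd_gcd g2 g3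
    refine h.self.rad _ q1 l hl n1 ?_
    rw [← g1, pow_two]
    exact Nat.mul_dvd_mul hd g4
  have hb : l ∈ X.c.t.uq j.1.1 := (h.uq_ge X.tOk q1 n1).2 ⟨hl, g2⟩
  have v1 : ((X.c.D.par X.Y).toDT X.c.sp v.B v.A τ).g.val j y ≠ 0 := by
    have := PrL45.vx_val h j y
    rw [← this]
    exact y1
  obtain ⟨-, a, ha, t1, t2⟩ := TYK47.ctx_supp h v1
  obtain ⟨-, a', t3, t4⟩ := tooth h' y2
  have k := hex a a' ⟨t1, t2⟩ ⟨t3, t4⟩
  have k' : ((a:ℝ) + ((v.B * σ : ℚ) : ℝ)) * (i.1.1 / v'.A : ℕ) =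
      ((a':ℝ) + ((v'.B * σ' : ℚ) : ℝ)) * (j.1.1 / v.A : ℕ) := by
    exact_mod_cast k
  exact d2 l hl hc (RseRI17.alive_denT h q1 s1 hb hc.le g2 ha g3 k')

/-- **smooth cofactors** of two alive pieces with one exact centre and labels of small height -/
theorem smA {v v' : NS} {τ τ' : IT} (h : QX X v τ) (h' : QX X v' τ') {c : ℕ}
    (hn : ∀ l : ℕ, l.Prime → c < l → v.n ≤ l ∧ v'.n ≤ l) {j i : X.c.Lam} {y : ℝ}
    (y1 : vN X (.inl (v, τ)) j y ≠ 0) (y2 : vN X (.inl (v', τ')) i y ≠ 0) {σ σ' : ℚ}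
    (s1 : X.c.st c j.1.1 = some σ) (s2 : X.c.st c i.1.1 = some σ')
    (hex : ∀ a a' : ℤ, Tth X v j y a → Tth X v' i y a' →
      ((a:ℚ) + v.B * σ) * (i.1.1 / v'.A : ℕ) = (a' + v'.B * σ') * (j.1.1 / v.A : ℕ))
    (d1 : ∀ l : ℕ, l.Prime → c < l → ¬ l ∣ ((v.B : ℚ) * σ).den)
    (d2 : ∀ l : ℕ, l.Prime → c < l → ¬ l ∣ ((v'.B : ℚ) * σ').den)
    {l : ℕ} (hl : l.Prime) (hd : l ∣ D1 v v' (j.1.1, i.1.1) * D2 v v' (j.1.1, i.1.1)) :
    l ≤ c := by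
  rcases hl.dvd_mul.1 hd with k | k
  · exact sm1 h h' hn y1 y2 s1 hex d2 hl k
  · exact sm1 h' h (fun l a b => (hn l a b).symm) y2 y1 s2
      (fun a a' t1 t2 => (hex a' a t2 t1).symm) d1 hl k

/-- a dense label has no large prime in its denominator -/
lemma den_small {θ : ℝ} {c : ℕ} (hθ : 0 ≤ θ) (hbig : 1 < (c:ℝ) ^ 5 * θ) {ρ : ℚ}
    (h : (ρ.den : ℝ) ^ 5 * θ ≤ 1) {l : ℕ} (hc : c < l) : ¬ l ∣ ρ.den := by
  intro hd
  have h1 : l ≤ ρ.den := Nat.le_of_dvd ρ.den_pos hd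
  have h2 : (c:ℝ) ≤ ρ.den := by exact_mod_cast (hc.le.trans h1)
  have h3 : (c:ℝ) ^ 5 * θ ≤ (ρ.den : ℝ) ^ 5 * θ :=
    mul_le_mul_of_nonneg_right (pow_le_pow_left₀ (Nat.cast_nonneg _) h2 5) hθ
  linarith

/-! ### the numbers of a column -/

/-- **the numbers of a column** `c` : `t` = bound of the radii of the events below the column -/
structure CoD (X : Ctx N γ p0 P₀) (c : ℕ) (s β t : ℝ) : Prop where
  hp : p0 ≤ c
  c2 : 2 ≤ c
  lg : LgOk c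
  t0 : 0 < X.c.wp.thr c
  t6 : 32 * X.c.wp.thr c ^ 2 < 1
  κ : ∀ s' : ℕ, c < s' → Real.log c ^ (N.c2 + 2) ≤ s' * X.c.wp.thr s'
  κ4 : 32 * (Real.log c ^ (N.c2 + 2)) ^ 4 < (c : ℝ) ^ 2 * X.c.wp.thr c ^ 2
  M : ∃ M : ℕ, 1 / X.c.wp.thr c < 2 ^ (M + 1) ∧ (M : ℝ) + 2 ≤ Real.log c
  big : 1 < (c : ℝ) ^ 5 * X.c.wp.thr c
  tt : X.c.wp.thr c ≤ t
  t4 : t ^ 4 ≤ X.c.wp.thr c ^ 3
  tL : t ≤ Real.log c ^ (-aA (s + 1 + 2) β)
  Kf : 4 * Real.log c ^ kA (s + 1 + 2) < c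

/-- the comparability constant -/
noncomputable def Kc (c : ℕ) (s : ℝ) : ℝ := Real.log c ^ kA (s + 1 + 2)

lemma CoD.K1 {c : ℕ} {s β t : ℝ} (C : CoD X c s β t) (hs : 0 ≤ s) : 1 ≤ Kc c s :=
  Real.one_le_rpow (by have := C.lg.1; linarith) (kA_nn (by linarith))

/-- `4 K² t^(1/5) ≤ 1` -/
lemma CoD.K2 {c : ℕ} {s β t : ℝ} (C : CoD X c s β t) (hs : 0 ≤ s) (hβ : 0 ≤ β) :
    2 * Kc c s ^ 2 * t ^ (1/5 : ℝ) ≤ 1 / 2 := by
  have hK8 := K8_nn
  have L1 : 1024 ≤ Real.log (c:ℝ) := C.lg.1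
  set L := Real.log (c:ℝ) with hL
  have L0 : 0 < L := by linarith
  have t0 : 0 < t := C.t0.trans_le C.tt
  have h1 : t ^ (1/5 : ℝ) ≤ L ^ (-aA (s + 1 + 2) β / 5) := by
    refine (Real.rpow_le_rpow t0.le C.tL (by norm_num)).trans (le_of_eq ?_)
    rw [← Real.rpow_mul L0.le]
    congr 1
    ring
  have h2 : Kc c s ^ 2 = L ^ (2 * kA (s + 1 + 2)) := by
    unfold Kc
    rw [← hL, ← Real.rpow_natCast, ← Real.rpow_mul L0.le]
    congr 1
    push_cast; ring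
  have h3 : L ^ (2 * kA (s + 1 + 2)) * L ^ (-aA (s + 1 + 2) β / 5) ≤ L ^ (-1 : ℝ) := by
    rw [← Real.rpow_add L0]
    refine Real.rpow_le_rpow_of_exponent_le (by linarith) ?_
    unfold kA aA
    have : 0 ≤ (β + 10 * (s + 1 + 2 + 1)) / 16384 := by positivity
    linarith
  rw [h2]
  calc 2 * L ^ (2 * kA (s + 1 + 2)) * t ^ (1/5 : ℝ)
      ≤ 2 * L ^ (2 * kA (s + 1 + 2)) * L ^ (-aA (s + 1 + 2) β / 5) :=
        mul_le_mul_of_nonneg_left h1 (by positivity)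
    _ = 2 * (L ^ (2 * kA (s + 1 + 2)) * L ^ (-aA (s + 1 + 2) β / 5)) := by ring
    _ ≤ 2 * L ^ (-1 : ℝ) := mul_le_mul_of_nonneg_left h3 (by norm_num)
    _ ≤ 1 / 2 := by
        rw [Real.rpow_neg_one, ← div_eq_mul_inv, div_le_iff₀ L0]
        linarith

/-- `243 K^9 t^4 < thr²` -/
lemma CoD.K9 {c : ℕ} {s β t : ℝ} (C : CoD X c s β t) (hs : 0 ≤ s) (hβ : 0 ≤ β) :
    243 * Kc c s ^ 9 * t ^ 4 < X.c.wp.thr c ^ 2 := by
  have hK8 := K8_nn
  have L1 : 1024 ≤ Real.log (c:ℝ) := C.lg.1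
  set L := Real.log (c:ℝ) with hL
  have L0 : 0 < L := by linarith
  have θ0 := C.t0
  set θ := X.c.wp.thr c with hθ
  have t0 : 0 < t := θ0.trans_le C.tt
  have h2 : Kc c s ^ 9 = L ^ (9 * kA (s + 1 + 2)) := by
    unfold Kc
    rw [← hL, ← Real.rpow_natCast, ← Real.rpow_mul L0.le]
    congr 1
    push_cast; ring
  have h3 : L ^ (9 * kA (s + 1 + 2)) * θ ≤ L ^ (-1 : ℝ) := by
    calc L ^ (9 * kA (s + 1 + 2)) * θ ≤ L ^ (9 * kA (s + 1 + 2)) * L ^ (-aA (s + 1 + 2) β) :=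
          mul_le_mul_of_nonneg_left (C.tt.trans C.tL) (by positivity)
      _ = L ^ (9 * kA (s + 1 + 2) + -aA (s + 1 + 2) β) := (Real.rpow_add L0 _ _).symm
      _ ≤ _ := by
        refine Real.rpow_le_rpow_of_exponent_le (by linarith) ?_
        unfold kA aA
        have : 0 ≤ (β + 10 * (s + 1 + 2 + 1)) / 16384 := by positivity
        linarith
  have h4 : L ^ (-1 : ℝ) ≤ 1 / 1024 := by
    rw [Real.rpow_neg_one, ← one_div]
    exact one_div_le_one_div_of_le (by norm_num) L1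
  rw [h2]
  have h5 : 0 ≤ L ^ (9 * kA (s + 1 + 2)) := by positivity
  calc 243 * L ^ (9 * kA (s + 1 + 2)) * t ^ 4 ≤ 243 * L ^ (9 * kA (s + 1 + 2)) * θ ^ 3 :=
        mul_le_mul_of_nonneg_left C.t4 (by positivity)
    _ = 243 * (L ^ (9 * kA (s + 1 + 2)) * θ) * θ ^ 2 := by ring
    _ ≤ 243 * (1 / 1024) * θ ^ 2 := by gcongr; exact h3.trans h4
    _ < θ ^ 2 := by nlinarith [sq_nonneg θ, pow_pos θ0 2]

/-! ### labels of one list of missing ties -/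

section list
variable {wp wpL : WP} {lam : ℕ → ℝ} {lv : ℕ → ℕ} {γ' : ℝ} {r : ℕ → ℝ} {t' : IT} {c b : ℕ}
  {I : Finset ℕ}

/-- the items of a column with one list of missing ties above the column (product `b`) -/
structure LsC (t' : IT) (c b : ℕ) (I : Finset ℕ) : Prop where
  sf : Squarefree b
  hB : ∀ l : ℕ, l.Prime → l ∣ b → c < l
  c0 : 0 < c
  ls : ∀ q ∈ I, lst (t'.mt q) c = RseSt23.LB b

lemma LsC.b0 (h : LsC t' c b I) : 0 < b := Nat.pos_of_ne_zero h.sf.ne_zero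

lemma LsC.mono (h : LsC t' c b I) {J : Finset ℕ} (hJ : J ⊆ I) : LsC t' c b J :=
  ⟨h.sf, h.hB, h.c0, fun q hq => h.ls q (hJ hq)⟩

/-- the two cases of a labelled item -/
theorem LsC.two (h : LsC t' c b I) {K : ℝ} (hK : ∀ s : ℕ, c < s → K ≤ s * wp.thr s) :
    ∃ b₀ s : ℕ, 0 < b₀ ∧ (c < s ∧ b₀ * s = b ∨ b = 1) ∧
      ∀ q ∈ I, (b : ℝ) * r q ≤ K → ∀ σ : ℚ, wp.st γ' r t' c q = some σ →
        Lab (b * γ') (b * r q) (b * σ) ∨
        (c < s ∧ b₀ * s = b ∧ wp.thr c < b * r q ∧ Lab (b₀ * γ') (b₀ * r q) (b₀ * σ)) := by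
  have hprod := RseSt23.LB_prod h.sf
  have hmem : ∀ s ∈ RseSt23.LB b, s.Prime ∧ c < s := by
    intro s hs
    unfold RseSt23.LB at hs
    rw [Finset.mem_sort] at hs
    have h1 := Nat.prime_of_mem_primeFactors hs
    exact ⟨h1, h.hB s h1 (Nat.dvd_of_mem_primeFactors hs)⟩
  have hst : ∀ q ∈ I, wp.st γ' r t' c q = sta wp.thr γ' (r q) (RseSt23.LB b) c := by
    intro q hq
    unfold WP.st
    rw [h.ls q hq]
  cases hL : RseSt23.LB b with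
  | nil =>
    have hB1 : b = 1 := by rw [← hprod, hL]; rfl
    refine ⟨1, 0, one_pos, Or.inr hB1, fun q hq _ σ hσ => Or.inl ?_⟩
    rw [hst q hq, hL] at hσ
    have h1 : lab0 γ' (r q) 1 = some σ := hσ
    have h2 := lab0_spec one_pos h1
    rw [hB1]
    exact h2
  | cons s L' =>
    have hs := hmem s (by rw [hL]; exact List.mem_cons_self)
    have hBs : s * L'.prod = b := by rw [← hprod, hL, List.prod_cons]
    have hB0 : 0 < b := h.b0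
    have hL0 : 0 < L'.prod := by
      rcases Nat.eq_zero_or_pos L'.prod with h0 | h0
      · rw [h0, mul_zero] at hBs; omega
      · exact h0
    refine ⟨L'.prod, s, hL0, Or.inl ⟨hs.2, by rw [mul_comm]; exact hBs⟩,
      fun q hq hKq σ hσ => ?_⟩
    rw [hst q hq, hL] at hσ
    unfold Crest.Agent.R4.W363.sta at hσ
    split_ifs at hσ with hth
    · left
      rw [hBs] at hσ
      exact lab0_spec hB0 hσ
    · right
      rw [hBs] at hth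
      refine ⟨hs.2, by rw [mul_comm]; exact hBs, not_le.1 hth, ?_⟩
      have hs0 : (0:ℝ) < s := by exact_mod_cast hs.1.pos
      have hthin : (L'.prod : ℝ) * r q ≤ wp.thr s := by
        have h1 := hKq.trans (hK s hs.2)
        have hc : (b : ℝ) = (s:ℝ) * (L'.prod : ℕ) := by rw [← hBs, Nat.cast_mul]
        rw [hc, mul_assoc] at h1
        exact le_of_mul_le_mul_left h1 hs0
      rw [sta_thin hthin] at hσ
      exact lab0_spec hL0 hσ

/-- **labels of one list**: at the radius of the item, or one common label for the fat items -/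
theorem LsC.lab (h : LsC t' c b I) {K : ℝ} (hK : ∀ s : ℕ, c < s → K ≤ s * wp.thr s)
    (hthr : 0 < wp.thr c) (hK4 : 32 * K ^ 4 < (c : ℝ) ^ 2 * wp.thr c ^ 2) :
    ∃ Λf : Finset ℚ, Λf.card ≤ 1 ∧ ∀ q ∈ I, (b : ℝ) * r q ≤ K →
      ∀ σ : ℚ, wp.st γ' r t' c q = some σ →
        Lab (b * γ') (b * r q) (b * σ) ∨
        (((b : ℚ) * σ) ∈ Λf ∧ wp.thr c < b * r q) := by
  classical
  obtain ⟨b₀, s, hb₀, hbs, key⟩ := h.two (wp := wp) (γ' := γ') (r := r) hK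
  by_cases hex : ∃ q ∈ I, (b : ℝ) * r q ≤ K ∧ ∃ σ : ℚ, wp.st γ' r t' c q = some σ ∧
      (c < s ∧ b₀ * s = b ∧ wp.thr c < b * r q ∧ Lab (b₀ * γ') (b₀ * r q) (b₀ * σ))
  · obtain ⟨q₀, hq₀, hK₀, σ₀, hσ₀, hs1, hs2, hf₀, hL₀⟩ := hex
    refine ⟨{(b : ℚ) * σ₀}, by simp, fun q hq hKq σ hσ => ?_⟩
    rcases key q hq hKq σ hσ with h1 | ⟨-, -, hf, hL⟩
    · exact Or.inl h1
    · right
      refine ⟨?_, hf⟩
      rw [Finset.mem_singleton]
      have hs0 : (0:ℝ) < s := by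
        have : 0 < s := by omega
        exact_mod_cast this
      have hb0 : (0:ℝ) < b₀ := by exact_mod_cast hb₀
      have hBe : (b : ℝ) = b₀ * s := by rw [← hs2]; push_cast; ring
      have hp0 : (0:ℝ) < (c : ℝ) := by exact_mod_cast h.c0
      have hps : (c : ℝ) ≤ s := by exact_mod_cast hs1.le
      have f1 : wp.thr c / s ≤ b₀ * r q := by
        rw [div_le_iff₀ hs0]; rw [hBe] at hf; nlinarith
      have f2 : wp.thr c / s ≤ b₀ * r q₀ := by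
        rw [div_le_iff₀ hs0]; rw [hBe] at hf₀; nlinarith
      have f3 : b₀ * r q ≤ K / s := by
        rw [le_div_iff₀ hs0]; rw [hBe] at hKq; nlinarith
      have f4 : b₀ * r q₀ ≤ K / s := by
        rw [le_div_iff₀ hs0]; rw [hBe] at hK₀; nlinarith
      have f5 : 32 * (K / s) ^ 4 < (wp.thr c / s) ^ 2 := by
        rw [div_pow, div_pow, mul_div_assoc', div_lt_div_iff₀ (by positivity) (by positivity)]
        have g1 : (c : ℝ) ^ 2 ≤ s ^ 2 := pow_le_pow_left₀ hp0.le hps 2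
        have g2 : (c : ℝ) ^ 2 * wp.thr c ^ 2 ≤ s ^ 2 * wp.thr c ^ 2 :=
          mul_le_mul_of_nonneg_right g1 (sq_nonneg _)
        have g3 : 32 * K ^ 4 < s ^ 2 * wp.thr c ^ 2 := hK4.trans_le g2
        calc 32 * K ^ 4 * (s:ℝ) ^ 2 < (s ^ 2 * wp.thr c ^ 2) * s ^ 2 :=
              mul_lt_mul_of_pos_right g3 (by positivity)
          _ = wp.thr c ^ 2 * (s:ℝ) ^ 4 := by ring
      have he := RseSt23.lab_unique_of hL hL₀ (div_pos hthr hs0) f1 f2 f3 f4 f5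
      have hb0q : (b₀ : ℚ) ≠ 0 := by exact_mod_cast hb₀.ne'
      have : σ = σ₀ := mul_left_cancel₀ hb0q he
      rw [this]
  · refine ⟨∅, by simp, fun q hq hKq σ hσ => ?_⟩
    rcases key q hq hKq σ hσ with h1 | h1
    · exact Or.inl h1
    · exact absurd ⟨q, hq, hKq, σ, hσ, h1⟩ hex

/-- **column states** -/
theorem LsC.labB (h : LsC t' c b I) {K : ℝ} (hK : ∀ s : ℕ, c < s → K ≤ s * wp.thr s)
    (hthr : 0 < wp.thr c) (hK4 : 32 * K ^ 4 < (c : ℝ) ^ 2 * wp.thr c ^ 2) :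
    ∃ Λf : Finset ℚ, Λf.card ≤ 1 ∧ ∀ q ∈ I, (b : ℝ) * r q ≤ K →
      ∀ σ : ℚ, stB wp wpL lam γ' r t' lv c q = some σ →
        Lab (b * γ') (b * r q) (b * σ) ∨
        (((b : ℚ) * σ) ∈ Λf ∧ wp.thr c < b * r q) := by
  obtain ⟨Λf, h1, h2⟩ := h.lab (wp := wp) (γ' := γ') (r := r) hK hthr hK4
  refine ⟨Λf, h1, fun q hq hKq σ hσ => ?_⟩
  rcases stB_lbAt hσ with h3 | h3
  · exact h2 q hq hKq σ h3
  · left
    rw [h.ls q hq, RseSt23.LB_prod h.sf] at h3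
    exact lab0_spec h.b0 h3

end list

/-- **the labels of one list at a column of a context** -/
theorem LsC.ctx {c b : ℕ} {I : Finset ℕ} (h : LsC X.c.t c b I) {s β t : ℝ} (C : CoD X c s β t) :
    ∃ Λf : Finset ℚ, Λf.card ≤ 1 ∧ ∀ q ∈ I, (b : ℝ) * X.c.r q ≤ Real.log c ^ (N.c2 + 2) →
      ∀ σ : ℚ, X.c.st c q = some σ → Lab (b * X.c.γ) (b * X.c.r q) (b * σ) ∨
        (((b : ℚ) * σ) ∈ Λf ∧ X.c.wp.thr c < b * X.c.r q) :=
  h.labB (wp := X.c.wp) (wpL := X.c.wpL) (lam := X.c.lam) (lv := X.c.lv) (γ' := X.c.γ)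
    (r := X.c.r) C.κ C.t0 C.κ4

/-- **number of the dense labels of one list** -/
theorem LsC.cnt {c b : ℕ} {I : Finset ℕ} (h : LsC X.c.t c b I) {s β t : ℝ} (C : CoD X c s β t)
    {J : Finset ℕ} (hJ : J ⊆ I) {f : ℕ → ℚ} {m : ℕ}
    (hf : ∀ q ∈ J, ∃ σ, X.c.st c q = some σ ∧ dense (X.c.wp.thr c) b σ ∧ f q = m * (b * σ) ∧
      (b : ℝ) * X.c.r q ≤ Real.log c ^ (N.c2 + 2)) :
    ((J.image f).card : ℝ) ≤ Real.log c ^ (1 : ℝ) := by
  classical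
  obtain ⟨Λf, hΛ, H⟩ := h.ctx C
  obtain ⟨M, hM, hML⟩ := C.M
  set I' : Finset ℕ := J.filter fun q => ∃ σ : ℚ, X.c.st c q = some σ ∧
    dense (X.c.wp.thr c) b σ ∧ Lab (b * X.c.γ) (b * X.c.r q) (b * σ) with hI
  set ρ : ℕ → ℚ := fun q => (b : ℚ) * ((X.c.st c q).getD 0) with hρ
  have hI' : ∀ q ∈ I', Lab (b * X.c.γ) (b * X.c.r q) (ρ q) ∧
      ((ρ q).den : ℝ) ^ 5 * X.c.wp.thr c ≤ 1 := by
    intro q hq
    obtain ⟨-, σ, h1, h2, h3⟩ := Finset.mem_filter.1 hq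
    have e : ρ q = (b : ℚ) * σ := by
      show (b : ℚ) * ((X.c.st c q).getD 0) = _
      rw [h1, Option.getD_some]
    rw [e]
    exact ⟨by exact_mod_cast h3, h2⟩
  have hcnt := lab_cnt (I := I') (a := fun q => b * X.c.r q) (ρ := ρ) C.t0 C.t6
    (fun q hq => (hI' q hq).1) (fun q hq => (hI' q hq).2) hM
  have hsub : J.image f ⊆ (I'.image ρ ∪ Λf).image fun x => (m : ℚ) * x := by
    intro x hx
    obtain ⟨q, hq, rfl⟩ := Finset.mem_image.1 hx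
    obtain ⟨σ, hσ, hd, e, hK⟩ := hf q hq
    refine Finset.mem_image.2 ⟨b * σ, ?_, e.symm⟩
    rcases H q (hJ hq) hK σ hσ with h1 | h1
    · refine Finset.mem_union_left _ (Finset.mem_image.2 ⟨q, Finset.mem_filter.2
        ⟨hq, σ, hσ, hd, h1⟩, ?_⟩)
      show (b : ℚ) * ((X.c.st c q).getD 0) = _
      rw [hσ, Option.getD_some]
    · exact Finset.mem_union_right _ h1.1
  have h3 : (J.image f).card ≤ M + 2 :=
    (Finset.card_le_card hsub).trans (Finset.card_image_le.trans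
      ((Finset.card_union_le _ _).trans (by omega)))
  rw [Real.rpow_one]
  have h4 : ((J.image f).card : ℝ) ≤ M + 2 := by exact_mod_cast h3
  exact h4.trans hML

/-! ### static pairs -/

/-- **static dense accuracy pair** at the column `c` (`b` = product of the missing ties above the column):
real labels, dense for `b`; the first piece is inaccurate in its node `v`, its radius is at most `t` -/
structure PgJ (X : Ctx N γ p0 P₀) (c b : ℕ) (v v' : NS) (t : ℝ) (j i : X.c.Lam) : Prop where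
  sj : ∃ σ : ℚ, X.c.st c j.1.1 = some σ ∧ dense (X.c.wp.thr c) b σ ∧
    RB X v j.1.1 ^ 4 < |(v.B : ℝ) * X.c.γ - (((v.B : ℚ) * σ : ℚ) : ℝ)| ^ 5
  si : ∃ σ : ℚ, X.c.st c i.1.1 = some σ ∧ dense (X.c.wp.thr c) b σ
  ex : ∀ (y : ℝ) (a a' : ℤ), Tth X v j y a → Tth X v' i y a' →
    ((a : ℚ) + ofs X c v j.1.1) * (i.1.1 / v'.A : ℕ) =
      (a' + ofs X c v' i.1.1) * (j.1.1 / v.A : ℕ)
  thin : RB X v j.1.1 ≤ t

/-- one center: one cofactor -/
lemma nc_eq {a b : ℕ} {K R R' t E z z' : ℝ} (hK : 1 ≤ K) (ma : (a:ℝ) ≤ K) (mb : (b:ℝ) ≤ K)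
    (hz : |z| ≤ R) (hz' : |z'| ≤ R') (hR' : R' ≤ K * R) (ht : 0 < t) (hR : R ≤ t)
    (hacc : R ^ 4 < |E| ^ 5) (hδ : 2 * K ^ 2 * t ^ (1/5 : ℝ) ≤ 1 / 2)
    (h : (b:ℝ) * (E + z) = a * (E + z')) : a = b := by
  have R0 : 0 ≤ R := (abs_nonneg _).trans hz
  have h1 := root5 R0 (abs_nonneg E) ht.le hR hacc
  have h2 := cmp_num hK ma mb hz hz' hR' h1 h
  have hE : E ≠ 0 := by
    rintro rfl
    rw [abs_zero] at hacc
    have : 0 ≤ R ^ 4 := by positivity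
    linarith [hacc, (by norm_num : (0:ℝ) ^ 5 = 0)]
  exact cmp_same hE (by linarith : 2 * K ^ 2 * t ^ (1/5 : ℝ) < 1) h2

/-- two centers, the second one accurate -/
lemma nc_ne {a b : ℕ} {K R R' t E E' z z' : ℝ} (hb : 1 ≤ b) (hK : 1 ≤ K) (ma : (a:ℝ) ≤ K)
    (mb : (b:ℝ) ≤ K) (hz : |z| ≤ R) (hz' : |z'| ≤ R') (hR' : R' ≤ K * R) (ht : 0 < t) (hR : R ≤ t)
    (hacc : R ^ 4 < |E| ^ 5) (hδ : 2 * K ^ 2 * t ^ (1/5 : ℝ) ≤ 1 / 2)
    (h : (b:ℝ) * (E + z) = a * (E' + z')) (hE' : |E'| ^ 5 ≤ R' ^ 4) :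
    |E - E'| ^ 5 ≤ 243 * K ^ 9 * t ^ 4 := by
  have R0 : 0 ≤ R := (abs_nonneg _).trans hz
  have R0' : 0 ≤ R' := (abs_nonneg _).trans hz'
  have h1 := root5 R0 (abs_nonneg E) ht.le hR hacc
  have h2 := cmp_num hK ma mb hz hz' hR' h1 h
  have h3 := cmp_diff hb hK ma hδ h2
  have h4 : |E - E'| ≤ 3 * K * |E'| := by
    have := abs_sub E E'
    have h5 : |E'| ≤ K * |E'| := by nlinarith [abs_nonneg E']
    linarith
  calc |E - E'| ^ 5 ≤ (3 * K * |E'|) ^ 5 := pow_le_pow_left₀ (abs_nonneg _) h4 5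
    _ = 243 * K ^ 5 * |E'| ^ 5 := by ring
    _ ≤ 243 * K ^ 5 * R' ^ 4 := mul_le_mul_of_nonneg_left hE' (by positivity)
    _ ≤ 243 * K ^ 5 * (K * R) ^ 4 := by gcongr
    _ = 243 * K ^ 9 * R ^ 4 := by ring
    _ ≤ 243 * K ^ 9 * t ^ 4 := by gcongr

section pairs
variable {c b : ℕ} {v v' : NS} {τ τ' : IT} {s β t : ℝ} {R : ℝ → X.c.Lam → X.c.Lam → Prop}

/-- the static pairs are exact -/
lemma exP_pg (hR : ∀ y j i, R y j i → j.1.1 ≠ i.1.1 ∧ PgJ X c b v v' t j i) :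
    ExP X v v' τ τ' R (ofs X c v) (ofs X c v') :=
  fun y j i hr _ _ a a' l1 l2 => (hR y j i hr).2.ex y a a' l1 l2

/-- the real radius of an alive item -/
lemma RB_al {q : ℕ} (hq : q ∈ X.S') : RB X v q = v.B * X.c.r q := by
  have e : X.c.rr q = X.c.r q := if_pos (X.rpos hq)
  show (v.B : ℝ) * X.c.rr q = _
  rw [e]

/-- the cofactors of two items of one node -/
lemma D_eq (h : QX X v τ) {e : ℕ × ℕ} (h1 : e.1 ∈ τ.items) (h2 : e.2 ∈ τ.items)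
    (he : D1 v v e = D2 v v e) : e.1 = e.2 := by
  have g1 : cof (e.1 / v.A) (e.2 / v.A) * Nat.gcd (e.1 / v.A) (e.2 / v.A) = e.1 / v.A :=
    Nat.div_mul_cancel (Nat.gcd_dvd_left _ _)
  have g2 : cof (e.2 / v.A) (e.1 / v.A) * Nat.gcd (e.2 / v.A) (e.1 / v.A) = e.2 / v.A :=
    Nat.div_mul_cancel (Nat.gcd_dvd_left _ _)
  have he' : cof (e.1 / v.A) (e.2 / v.A) = cof (e.2 / v.A) (e.1 / v.A) := he
  rw [Nat.gcd_comm, ← he'] at g2
  have e1 : e.1 / v.A = e.2 / v.A := g1.symm.trans g2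
  have k1 := Nat.mul_div_cancel' (h.bk.dvd _ h1)
  have k2 := Nat.mul_div_cancel' (h.bk.dvd _ h2)
  rw [← k1, ← k2, e1]

/-- the second cofactor is positive -/
lemma D2_pos (h' : QX X v' τ') {e : ℕ × ℕ} (h2 : e.2 ∈ τ'.items) : 1 ≤ D2 v v' e := by
  have w0' : 0 < e.2 / v'.A := Nat.div_pos (Nat.le_of_dvd (h'.bk.pos _ h2) (h'.bk.dvd _ h2))
    h'.bk.Apos
  have : 0 < cof (e.2 / v'.A) (e.1 / v.A) :=
    Nat.div_pos (Nat.le_of_dvd w0' (Nat.gcd_dvd_left _ _)) (Nat.gcd_pos_of_pos_left _ w0')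
  exact this

/-- **not comparable**, one node, labels at the radii of the node -/
theorem nc_rest (h : QX X v τ) (C : CoD X c s β t) (hs : 0 ≤ s) (hβ : 0 ≤ β)
    (L : LsC X.c.t c v.B τ.items)
    (hκ : ∀ q ∈ τ.items, q ∈ X.S' → RB X v q ≤ Real.log c ^ (N.c2 + 2))
    (hR : ∀ y j i, R y j i → j.1.1 ≠ i.1.1 ∧ PgJ X c v.B v v t j i) :
    ∀ e ∈ prs X v v τ τ R, Kc c s < ((max (D1 v v e) (D2 v v e) : ℕ) : ℝ) ∨
      Kc c s * RB X v e.2 ≤ RB X v e.1 ∨ Kc c s * RB X v e.1 ≤ RB X v e.2 := by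
  intro e he
  by_contra hc
  push Not at hc
  obtain ⟨c1, -, c3⟩ := hc
  obtain ⟨z, z', hz, hz', hp⟩ := pt_of h h (exP_pg hR) he
  obtain ⟨i1, i3, i2, i4⟩ := prs_alive h h he
  obtain ⟨-, -, j, i, y, e1, e2, hr, y1, y2⟩ := mem_prs.1 he
  obtain ⟨hne, P⟩ := hR y j i hr
  obtain ⟨σ, sj, dj, acc⟩ := P.sj
  obtain ⟨σ', si, di⟩ := P.si
  have thin := P.thin
  rw [e1] at sj acc thin hne
  rw [e2] at si hne
  have oj : ofs X c v e.1 = v.B * σ := ofs_some sj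
  have oi : ofs X c v e.2 = v.B * σ' := ofs_some si
  rw [oj, oi] at hp
  have hK := C.K1 hs
  have t0 : 0 < t := C.t0.trans_le C.tt
  have m1 : ((D1 v v e : ℕ) : ℝ) ≤ Kc c s := le_trans (by exact_mod_cast le_max_left _ _) c1
  have m2 : ((D2 v v e : ℕ) : ℝ) ≤ Kc c s := le_trans (by exact_mod_cast le_max_right _ _) c1
  obtain ⟨Λf, hΛ, H⟩ := L.ctx C
  have a1 := H e.1 i1 (by rw [← RB_al i3]; exact hκ _ i1 i3) σ sj
  have a2 := H e.2 i2 (by rw [← RB_al i4]; exact hκ _ i2 i4) σ' si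
  rw [← RB_al i3] at a1
  rw [← RB_al i4] at a2
  have b1 : (v.B : ℚ) * σ ∈ Λf := by
    rcases a1 with a1 | a1
    · exfalso
      have := a1.near
      push_cast at acc this
      linarith
    · exact a1.1
  have same : (v.B : ℚ) * σ = v.B * σ' → False := by
    intro ee
    rw [ee] at hp acc
    have := nc_eq hK m1 m2 hz hz' c3.le t0 thin acc (C.K2 hs hβ) hp
    exact hne (D_eq h i1 i2 this)
  rcases a2 with a2 | a2
  · have acc' : |(v.B : ℝ) * X.c.γ - (((v.B : ℚ) * σ' : ℚ) : ℝ)| ^ 5 ≤ RB X v e.2 ^ 4 := by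
      have := a2.near
      push_cast at this ⊢
      exact this
    have k1 := nc_ne (D2_pos h i2) hK m1 m2 hz hz' c3.le t0 thin acc (C.K2 hs hβ) hp acc'
    have k2 := C.K9 hs hβ
    refine same ?_
    by_contra hn
    have k3 := rat_dist (fun h => hn h.symm) C.t0.le di dj
    have e3 : (v.B : ℝ) * X.c.γ - (((v.B : ℚ) * σ : ℚ) : ℝ) -
        ((v.B : ℝ) * X.c.γ - (((v.B : ℚ) * σ' : ℚ) : ℝ)) =
          (((v.B : ℚ) * σ' : ℚ) : ℝ) - (((v.B : ℚ) * σ : ℚ) : ℝ) := by ring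
    rw [e3] at k1
    linarith
  · exact same (Finset.card_le_one.1 hΛ _ b1 _ a2.1)

/-- `K t ≤ 1 / 4` -/
lemma CoD.Kt (C : CoD X c s β t) (hs : 0 ≤ s) (hβ : 0 ≤ β) : Kc c s * t ≤ 1 / 4 ∧ t ≤ 1 := by
  have hK := C.K1 hs
  have h2 := C.K2 hs hβ
  have t0 : 0 < t := C.t0.trans_le C.tt
  have t1 : t ≤ 1 := by
    refine C.tL.trans (Real.rpow_le_one_of_one_le_of_nonpos (by have := C.lg.1; linarith) ?_)
    have := aA_nn (s := s + 1 + 2) (b := β) (by linarith) hβ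
    linarith
  have h3 : t ≤ t ^ (1/5 : ℝ) := by
    conv_lhs => rw [← Real.rpow_one t]
    exact Real.rpow_le_rpow_of_exponent_ge t0 t1 (by norm_num)
  refine ⟨?_, t1⟩
  have h4 : Kc c s * t ≤ Kc c s ^ 2 * t ^ (1/5 : ℝ) := by
    refine mul_le_mul (by nlinarith) h3 t0.le (by positivity)
  linarith

/-- `1 < c thr` -/
lemma CoD.ct (C : CoD X c s β t) : 1 < (c : ℝ) * X.c.wp.thr c := by
  have L1 : 1024 ≤ Real.log (c:ℝ) := C.lg.1
  have hc2 : 0 ≤ N.c2 := N.hc2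
  have h1 : 1 ≤ Real.log (c:ℝ) ^ (N.c2 + 2) := Real.one_le_rpow (by linarith) (by linarith)
  have h2 := C.κ4
  have h3 : 1 ≤ (Real.log (c:ℝ) ^ (N.c2 + 2)) ^ 4 := one_le_pow₀ h1
  have h4 : 0 ≤ (c : ℝ) * X.c.wp.thr c := mul_nonneg (Nat.cast_nonneg _) C.t0.le
  nlinarith

/-- **not comparable**, one node, labels one tie above -/
theorem nc_N (h : QX X v τ) (C : CoD X c s β t) (hs : 0 ≤ s) (hβ : 0 ≤ β) (hb : v.B = b * c)
    (L : LsC X.c.t c b τ.items)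
    (hκ : ∀ q ∈ τ.items, q ∈ X.S' → b * X.c.r q ≤ Real.log c ^ (N.c2 + 2))
    (hR : ∀ y j i, R y j i → j.1.1 ≠ i.1.1 ∧ PgJ X c b v v t j i) :
    ∀ e ∈ prs X v v τ τ R, Kc c s < ((max (D1 v v e) (D2 v v e) : ℕ) : ℝ) ∨
      Kc c s * RB X v e.2 ≤ RB X v e.1 ∨ Kc c s * RB X v e.1 ≤ RB X v e.2 := by
  intro e he
  by_contra hc
  push Not at hc
  obtain ⟨c1, -, c3⟩ := hc
  obtain ⟨z, z', hz, hz', hp⟩ := pt_of h h (exP_pg hR) he
  obtain ⟨i1, i3, i2, i4⟩ := prs_alive h h he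
  obtain ⟨-, -, j, i, y, e1, e2, hr, y1, y2⟩ := mem_prs.1 he
  obtain ⟨hne, P⟩ := hR y j i hr
  obtain ⟨σ, sj, dj, acc⟩ := P.sj
  obtain ⟨σ', si, di⟩ := P.si
  have thin := P.thin
  rw [e1] at sj acc thin hne
  rw [e2] at si hne
  have oj : ofs X c v e.1 = v.B * σ := ofs_some sj
  have oi : ofs X c v e.2 = v.B * σ' := ofs_some si
  rw [oj, oi] at hp
  have hK := C.K1 hs
  have t0 : 0 < t := C.t0.trans_le C.tt
  have m1 : ((D1 v v e : ℕ) : ℝ) ≤ Kc c s := le_trans (by exact_mod_cast le_max_left _ _) c1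
  have m2 : ((D2 v v e : ℕ) : ℝ) ≤ Kc c s := le_trans (by exact_mod_cast le_max_right _ _) c1
  obtain ⟨Λf, hΛ, H⟩ := L.ctx C
  have a1 := H e.1 i1 (hκ _ i1 i3) σ sj
  have a2 := H e.2 i2 (hκ _ i2 i4) σ' si
  have hc0 : (0:ℝ) < c := by exact_mod_cast L.c0
  have r1 : RB X v e.1 = c * (b * X.c.r e.1) := by rw [RB_al i3, hb]; push_cast; ring
  have r2 : RB X v e.2 = c * (b * X.c.r e.2) := by rw [RB_al i4, hb]; push_cast; ring
  have k1 := (C.Kt hs hβ).1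
  have k2 := C.ct
  have b1 : (b:ℝ) * X.c.r e.1 ≤ X.c.wp.thr c := by
    by_contra hn
    push Not at hn
    have := mul_lt_mul_of_pos_left hn hc0
    have h3 : t ≤ Kc c s * t := by nlinarith
    linarith
  have b2 : (b:ℝ) * X.c.r e.2 ≤ X.c.wp.thr c := by
    by_contra hn
    push Not at hn
    have := mul_lt_mul_of_pos_left hn hc0
    have h3 : Kc c s * RB X v e.1 ≤ Kc c s * t := mul_le_mul_of_nonneg_left thin (by linarith)
    linarith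
  have L1 := a1.resolve_right fun h => absurd h.2 (not_lt.2 b1)
  have L2 := a2.resolve_right fun h => absurd h.2 (not_lt.2 b2)
  have ee := thin_unique (ρ := (b : ℚ) * σ) (σ := (b : ℚ) * σ') (by exact_mod_cast L1)
    (by exact_mod_cast L2) C.t0 C.t6 b1 b2 dj di
  have hb0 : (b : ℚ) ≠ 0 := by exact_mod_cast L.b0.ne'
  have es : σ = σ' := mul_left_cancel₀ hb0 ee
  rw [es] at hp acc
  have := nc_eq hK m1 m2 hz hz' c3.le t0 thin acc (C.K2 hs hβ) hp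
  exact hne (D_eq h i1 i2 this)

/-- two small distances -/
lemma two_acc {x y A : ℝ} (hx : |x| ^ 5 ≤ A) (hy : |y| ^ 5 ≤ A) : |x - y| ^ 5 ≤ 32 * A := by
  have h1 := abs_sub x y
  rcases le_total |x| |y| with h | h
  · calc |x - y| ^ 5 ≤ (2 * |y|) ^ 5 := pow_le_pow_left₀ (abs_nonneg _) (by linarith) 5
      _ = 32 * |y| ^ 5 := by ring
      _ ≤ _ := by linarith
  · calc |x - y| ^ 5 ≤ (2 * |x|) ^ 5 := pow_le_pow_left₀ (abs_nonneg _) (by linarith) 5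
      _ = 32 * |x| ^ 5 := by ring
      _ ≤ _ := by linarith

/-- **not comparable**, N piece against P piece; no P piece straddles the threshold -/
theorem nc_PN (h : QX X v τ) (h' : QX X v' τ') (C : CoD X c s β t) (hs : 0 ≤ s) (hβ : 0 ≤ β)
    (hb : v.B = b * c) (hb' : v'.B = b)
    (L : LsC X.c.t c b (τ.items ∪ τ'.items))
    (hκ : ∀ q ∈ τ.items ∪ τ'.items, q ∈ X.S' → b * X.c.r q ≤ Real.log c ^ (N.c2 + 2))
    (hstr : ∀ q ∈ τ'.items, q ∈ X.S' → X.c.wp.thr c < RB X v' q → Kc c s * t < RB X v' q)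
    (hR : ∀ y j i, R y j i → j.1.1 ≠ i.1.1 ∧ PgJ X c b v v' t j i) :
    ∀ e ∈ prs X v v' τ τ' R, Kc c s < ((max (D1 v v' e) (D2 v v' e) : ℕ) : ℝ) ∨
      Kc c s * RB X v' e.2 ≤ RB X v e.1 ∨ Kc c s * RB X v e.1 ≤ RB X v' e.2 := by
  intro e he
  by_contra hc
  push Not at hc
  obtain ⟨c1, -, c3⟩ := hc
  obtain ⟨z, z', hz, hz', hp⟩ := pt_of h h' (exP_pg hR) he
  obtain ⟨i1, i3, i2, i4⟩ := prs_alive h h' he
  obtain ⟨-, -, j, i, y, e1, e2, hr, y1, y2⟩ := mem_prs.1 he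
  obtain ⟨hne, P⟩ := hR y j i hr
  obtain ⟨σ, sj, dj, acc⟩ := P.sj
  obtain ⟨σ', si, di⟩ := P.si
  have thin := P.thin
  rw [e1] at sj acc thin hne
  rw [e2] at si hne
  have oj : ofs X c v e.1 = v.B * σ := ofs_some sj
  have oi : ofs X c v' e.2 = v'.B * σ' := ofs_some si
  rw [oj, oi] at hp
  have hK := C.K1 hs
  have t0 : 0 < t := C.t0.trans_le C.tt
  have m1 : ((D1 v v' e : ℕ) : ℝ) ≤ Kc c s := le_trans (by exact_mod_cast le_max_left _ _) c1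
  have m2 : ((D2 v v' e : ℕ) : ℝ) ≤ Kc c s := le_trans (by exact_mod_cast le_max_right _ _) c1
  obtain ⟨Λf, hΛ, H⟩ := L.ctx C
  have a1 := H e.1 (Finset.mem_union_left _ i1) (hκ _ (Finset.mem_union_left _ i1) i3) σ sj
  have a2 := H e.2 (Finset.mem_union_right _ i2) (hκ _ (Finset.mem_union_right _ i2) i4) σ' si
  have hc0 : (0:ℝ) < c := by exact_mod_cast L.c0
  have hc2 : (2:ℝ) ≤ c := by exact_mod_cast C.c2
  have r1 : RB X v e.1 = c * (b * X.c.r e.1) := by rw [RB_al i3, hb]; push_cast; ring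
  have r2 : RB X v' e.2 = b * X.c.r e.2 := by rw [RB_al i4, hb']
  obtain ⟨k1, k3⟩ := C.Kt hs hβ
  have k2 := C.ct
  have b1 : (b:ℝ) * X.c.r e.1 ≤ X.c.wp.thr c := by
    by_contra hn
    push Not at hn
    have := mul_lt_mul_of_pos_left hn hc0
    have h3 : t ≤ Kc c s * t := by nlinarith
    linarith
  have L1 := a1.resolve_right fun h => absurd h.2 (not_lt.2 b1)
  have kR : RB X v' e.2 ≤ Kc c s * t :=
    c3.le.trans (mul_le_mul_of_nonneg_left thin (by linarith))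
  have L2 : Lab (b * X.c.γ) (RB X v' e.2) (b * σ') := by
    rcases a2 with a2 | a2
    · rw [r2]; exact a2
    · exfalso
      have := hstr e.2 i2 i4 (by rw [r2]; exact a2.2)
      linarith
  have hb0 : (b : ℚ) ≠ 0 := by exact_mod_cast L.b0.ne'
  have es : σ = σ' := by
    by_contra hn
    have hn' : (b : ℚ) * σ' ≠ b * σ := fun h => hn (mul_left_cancel₀ hb0 h).symm
    have k4 := rat_dist hn' C.t0.le di dj
    have n1 : |(b : ℝ) * X.c.γ - (((b : ℚ) * σ : ℚ) : ℝ)| ^ 5 ≤ (Kc c s * t) ^ 4 := by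
      have h5 := L1.near
      have h6 : (b:ℝ) * X.c.r e.1 ≤ Kc c s * t := by
        have h7 : (b:ℝ) * X.c.r e.1 ≤ RB X v e.1 := by
          rw [r1]
          have : 0 < (b:ℝ) * X.c.r e.1 := L1.pos
          nlinarith
        have h3 : t ≤ Kc c s * t := by nlinarith
        linarith
      push_cast at h5 ⊢
      exact h5.trans (pow_le_pow_left₀ L1.pos.le h6 4)
    have n2 : |(b : ℝ) * X.c.γ - (((b : ℚ) * σ' : ℚ) : ℝ)| ^ 5 ≤ (Kc c s * t) ^ 4 := by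
      have h5 := L2.near
      push_cast at h5 ⊢
      exact h5.trans (pow_le_pow_left₀ L2.pos.le kR 4)
    have n3 := two_acc n1 n2
    have e3 : (b : ℝ) * X.c.γ - (((b : ℚ) * σ : ℚ) : ℝ) -
        ((b : ℝ) * X.c.γ - (((b : ℚ) * σ' : ℚ) : ℝ)) =
          (((b : ℚ) * σ' : ℚ) : ℝ) - (((b : ℚ) * σ : ℚ) : ℝ) := by ring
    rw [e3] at n3
    have k5 := C.K9 hs hβ
    have k6 : 32 * (Kc c s * t) ^ 4 ≤ 243 * Kc c s ^ 9 * t ^ 4 := by
      have h8 : Kc c s ^ 4 ≤ Kc c s ^ 9 := pow_le_pow_right₀ hK (by norm_num)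
      have h9 : 0 ≤ t ^ 4 := by positivity
      have h10 : 0 ≤ Kc c s ^ 9 := by positivity
      calc 32 * (Kc c s * t) ^ 4 = 32 * Kc c s ^ 4 * t ^ 4 := by ring
        _ ≤ 243 * Kc c s ^ 9 * t ^ 4 := mul_le_mul_of_nonneg_right (by nlinarith) h9
    linarith
  rw [es] at hp acc
  have R0 : 0 ≤ RB X v e.1 := (abs_nonneg _).trans hz
  have g1 := root5 R0 (abs_nonneg _) t0.le thin acc
  have g2 := cmp_num hK m1 m2 hz hz' c3.le g1 hp
  have e4 : (v.B : ℝ) * X.c.γ - (((v.B : ℚ) * σ' : ℚ) : ℝ) =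
      c * ((v'.B : ℝ) * X.c.γ - (((v'.B : ℚ) * σ' : ℚ) : ℝ)) := by
    rw [hb, hb']; push_cast; ring
  set E := (v'.B : ℝ) * X.c.γ - (((v'.B : ℚ) * σ' : ℚ) : ℝ) with hE
  rw [e4] at g2 acc
  have E0 : 0 < |E| := by
    refine abs_pos.2 fun h0 => ?_
    rw [h0, mul_zero, abs_zero] at acc
    have : 0 ≤ RB X v e.1 ^ 4 := by positivity
    linarith [(by norm_num : (0:ℝ) ^ 5 = 0)]
  have e5 : ((D2 v v' e : ℕ) : ℝ) * (c * E) - (D1 v v' e : ℕ) * E =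
      (((D2 v v' e : ℕ) : ℝ) * c - (D1 v v' e : ℕ)) * E := by ring
  rw [e5, abs_mul, abs_mul, abs_of_nonneg hc0.le] at g2
  have g3 := C.K2 hs hβ
  have g4 : |((D2 v v' e : ℕ) : ℝ) * c - (D1 v v' e : ℕ)| ≤ 1 / 2 * c := by
    refine le_of_mul_le_mul_right ?_ E0
    calc _ ≤ 2 * Kc c s ^ 2 * t ^ (1/5 : ℝ) * (c * |E|) := g2
      _ ≤ 1 / 2 * (c * |E|) := mul_le_mul_of_nonneg_right g3 (by positivity)
      _ = _ := by ring
  have g5 := (abs_le.1 g4).2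
  have g6 : (1:ℝ) ≤ (D2 v v' e : ℕ) := by exact_mod_cast D2_pos h' i2
  have g7 := mul_le_mul_of_nonneg_right g6 hc0.le
  have g8 : 4 * Kc c s < c := C.Kf
  linarith

/-- **the data of the number estimate** -/
theorem acM_of (h : QX X v τ) (h' : QX X v' τ') (C : CoD X c s β t) (hs : 0 ≤ s) (hβ : 0 ≤ β)
    {m m' : ℕ} (hb : v.B = b * m) (hb' : v'.B = b * m') (L : LsC X.c.t c b (τ.items ∪ τ'.items))
    (hn : ∀ l : ℕ, l.Prime → c < l → v.n ≤ l ∧ v'.n ≤ l)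
    (hκ : ∀ q ∈ τ.items ∪ τ'.items, q ∈ X.S' → b * X.c.r q ≤ Real.log c ^ (N.c2 + 2))
    (mR : ∀ j i, MP fun y => R y j i)
    (hR : ∀ y j i, R y j i → j.1.1 ≠ i.1.1 ∧ PgJ X c b v v' t j i)
    (sum : ∀ F : Finset ℕ, F ⊆ τ.items → (∀ q ∈ F, q ∈ X.S') →
      ∑ q ∈ F, RB X v q ≤ Real.log c ^ β)
    (nc : ∀ e ∈ prs X v v' τ τ' R, Kc c s < ((max (D1 v v' e) (D2 v v' e) : ℕ) : ℝ) ∨
      Kc c s * RB X v' e.2 ≤ RB X v e.1 ∨ Kc c s * RB X v e.1 ≤ RB X v' e.2) :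
    AcM X v v' τ τ' R (ofs X c v) (ofs X c v') c 1 (Real.log c ^ kA (s + 1 + 2)) t
      (Real.log c ^ (1 : ℝ)) (Real.log c ^ β) := by
  classical
  have dd : ∀ {w : NS} {k : ℕ}, w.B = b * k → ∀ {σ : ℚ}, dense (X.c.wp.thr c) b σ →
      ∀ l : ℕ, l.Prime → c < l → ¬ l ∣ ((w.B : ℚ) * σ).den := by
    intro w k hw σ hd l _ hlc h1
    refine den_small C.t0.le C.big (ρ := (b : ℚ) * σ) hd hlc (h1.trans ?_)
    have e : (w.B : ℚ) * σ = (k : ℚ) * (b * σ) := by rw [hw]; push_cast; ring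
    rw [e]
    have := Rat.mul_den_dvd (k : ℚ) ((b : ℚ) * σ)
    rwa [Rat.den_natCast, one_mul] at this
  refine ⟨mR, exP_pg hR, fun e he l hl hd => ?_, fun e he => ?_, fun e he => ?_, ?_, ?_, ?_, nc⟩
  · obtain ⟨-, -, j, i, y, e1, e2, hr, y1, y2⟩ := mem_prs.1 he
    obtain ⟨hne, P⟩ := hR y j i hr
    obtain ⟨σ, sj, dj, acc⟩ := P.sj
    obtain ⟨σ', si, di⟩ := P.si
    have ee : (j.1.1, i.1.1) = e := Prod.ext e1 e2
    rw [← ee] at hd
    refine smA h h' hn y1 y2 sj si (fun a a' t1 t2 => ?_) (dd hb dj) (dd hb' di) hl hd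
    have := P.ex y a a' t1 t2
    rwa [ofs_some sj, ofs_some si] at this
  · obtain ⟨-, -, j, i, y, e1, e2, hr, y1, y2⟩ := mem_prs.1 he
    rw [one_mul, ← e1]
    exact (hR y j i hr).2.thin
  · obtain ⟨-, -, j, i, y, e1, e2, hr, y1, y2⟩ := mem_prs.1 he
    obtain ⟨σ, sj, dj, acc⟩ := (hR y j i hr).2.sj
    rw [one_mul, one_mul, ← e1, ofs_some sj]
    exact acc
  · rw [div_one]
    refine sum _ (fun q hq => ?_) fun q hq => ?_
    · obtain ⟨e, he, rfl⟩ := Finset.mem_image.1 hq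
      exact (prs_alive h h' he).1
    · obtain ⟨e, he, rfl⟩ := Finset.mem_image.1 hq
      exact (prs_alive h h' he).2.1
  · have e : ((prs X v v' τ τ' R).image fun e => ofs X c v e.1) =
        ((prs X v v' τ τ' R).image Prod.fst).image (ofs X c v) := by
      rw [Finset.image_image]
      rfl
    rw [e]
    refine L.cnt C (m := m) (fun q hq => ?_) fun q hq => ?_
    · obtain ⟨e, he, rfl⟩ := Finset.mem_image.1 hq
      exact Finset.mem_union_left _ (prs_alive h h' he).1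
    · obtain ⟨e, he, rfl⟩ := Finset.mem_image.1 hq
      have al := prs_alive h h' he
      obtain ⟨-, -, j, i, y, e1, e2, hr, y1, y2⟩ := mem_prs.1 he
      obtain ⟨σ, sj, dj, acc⟩ := (hR y j i hr).2.sj
      rw [e1] at sj
      refine ⟨σ, sj, dj, ?_, hκ _ (Finset.mem_union_left _ al.1) al.2.1⟩
      rw [ofs_some sj, hb]
      push_cast
      ring
  · have e : ((prs X v v' τ τ' R).image fun e => ofs X c v' e.2) =
        ((prs X v v' τ τ' R).image Prod.snd).image (ofs X c v') := by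
      rw [Finset.image_image]
      rfl
    rw [e]
    refine L.cnt C (m := m') (fun q hq => ?_) fun q hq => ?_
    · obtain ⟨e, he, rfl⟩ := Finset.mem_image.1 hq
      exact Finset.mem_union_right _ (prs_alive h h' he).2.2.1
    · obtain ⟨e, he, rfl⟩ := Finset.mem_image.1 hq
      have al := prs_alive h h' he
      obtain ⟨-, -, j, i, y, e1, e2, hr, y1, y2⟩ := mem_prs.1 he
      obtain ⟨σ, si, di⟩ := (hR y j i hr).2.si
      rw [e2] at si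
      refine ⟨σ, si, di, ?_, hκ _ (Finset.mem_union_right _ al.2.2.1) al.2.2.2⟩
      rw [ofs_some si, hb']
      push_cast
      ring

end pairs

/-! ### the lists of the nodes -/

section nodes
variable {P : Bld532.Par} {W : ℕ → ℝ} {t' : IT} {u : NS} {τ : IT}

/-- the items of a node, column above the top, primes of `u.B` above the column -/
lemma lsC_node (h : NDt P W t' u τ) {n : ℕ} (hO : t'.Ok n) (hl : ¬ isL τ) {c : ℕ} (hc : tp τ ≤ c)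
    (hB : ∀ l : ℕ, l.Prime → l ∣ u.B → c < l) : LsC t' c u.B τ.items where
  sf := h.bk.sfB
  hB := hB
  c0 := (top_of_nodeOk h.self.node hl).1.pos.trans_le hc
  ls := fun q hq => lst_nodeC h hO hl hc hB hq

/-- the items of a node, column `c` = a prime of `u.B` -/
lemma lsC_div (h : NDt P W t' u τ) {n : ℕ} (hO : t'.Ok n) (hl : ¬ isL τ) {c b : ℕ} (hc : tp τ < c)
    (hcp : c.Prime) (hb : u.B = b * c) (hB : ∀ l : ℕ, l.Prime → l ∣ u.B → c ≤ l) :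
    LsC t' c b τ.items := by
  have hsf := h.bk.sfB
  have hsf' : Squarefree b := Squarefree.squarefree_of_dvd ⟨c, hb⟩ hsf
  have hcb : ¬ c ∣ b := by
    intro hd
    have h2 : c * c ∣ u.B := by rw [hb]; exact Nat.mul_dvd_mul hd dvd_rfl
    exact hcp.one_lt.ne' (Nat.isUnit_iff.1 (hsf c h2))
  have hb0 : b ≠ 0 := hsf'.ne_zero
  have hpf : b.primeFactors = u.B.primeFactors.filter (c < ·) := by
    ext l
    rw [Finset.mem_filter, Nat.mem_primeFactors, Nat.mem_primeFactors]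
    constructor
    · rintro ⟨h1, h2, -⟩
      have h3 : l ∣ u.B := by rw [hb]; exact h2.mul_right _
      refine ⟨⟨h1, h3, hsf.ne_zero⟩, lt_of_le_of_ne (hB l h1 h3) ?_⟩
      rintro rfl
      exact hcb h2
    · rintro ⟨⟨h1, h2, -⟩, h3⟩
      refine ⟨h1, ?_, hb0⟩
      rw [hb] at h2
      rcases h1.dvd_mul.1 h2 with h4 | h4
      · exact h4
      · have := (Nat.prime_dvd_prime_iff_eq h1 hcp).1 h4
        omega
  refine ⟨hsf', fun l hl1 hd => ?_, hcp.pos, fun q hq => ?_⟩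
  · have : l ∈ b.primeFactors := Nat.mem_primeFactors.2 ⟨hl1, hd, hb0⟩
    rw [hpf] at this
    exact (Finset.mem_filter.1 this).2
  · have h1 := RseSt23.mt_node h hO hl hq
    unfold Crest.Agent.R4.W363.lst RseSt23.LB
    have e : (t'.mt q).filter (c < ·) = b.primeFactors := by
      rw [hpf, ← h1, Finset.filter_filter]
      refine Finset.filter_congr fun l _ => ?_
      constructor
      · intro h2
        exact ⟨by omega, h2⟩
      · exact fun h2 => h2.2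
    rw [e]

end nodes

/-! ### node forms -/

/-- logarithms of a smaller column -/
lemma log_up {a c : ℕ} {e β : ℝ} (ha : 1 ≤ Real.log (a:ℝ)) (h : a ≤ c) (he : 0 ≤ e) (heβ : e ≤ β) :
    Real.log (a:ℝ) ^ e ≤ Real.log c ^ β := by
  have a0 : (0:ℝ) < a := by
    rcases Nat.eq_zero_or_pos a with h0 | h0
    · rw [h0] at ha
      norm_num at ha
    · exact_mod_cast h0
  have h1 : Real.log (a:ℝ) ≤ Real.log c := Real.log_le_log a0 (by exact_mod_cast h)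
  exact (Real.rpow_le_rpow (by linarith) h1 he).trans
    (Real.rpow_le_rpow_of_exponent_le (by linarith) heβ)

/-- **REST COLUMN OF A NODE**: `b = u.B`, or `u.B = b c` when the column `c` is a missing tie of the node -/
theorem rest_ac {s β t : ℝ} (hs : 0 ≤ s) (hβ : N.c2 + 2 ≤ β) {u : NS} {τ : IT} {c b : ℕ}
    {K K₁ : X.c.Lam → X.c.Lam → ℝ} {W₀ : ℝ} {ε : X.c.Lam → ℝ} (C : CoD X c s β t)
    (h : NL X u τ) (hn : NcE14.Nc X u τ) (hl : ¬ isL τ) (hc : tp τ < c)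
    (hb : (u.B = b ∧ ∀ l : ℕ, l.Prime → l ∣ u.B → c < l) ∨
      (c.Prime ∧ u.B = b * c ∧ ∀ l : ℕ, l.Prime → l ∣ u.B → c ≤ l))
    (hW : 0 ≤ W₀) (hK : ∀ j i, K₁ j i ≤ W₀) (hKK : ∀ j i, K j i ≤ K₁ j i + K₁ i j)
    (hP : ∀ j i, K₁ j i ≠ 0 → j.1.1 ≠ i.1.1 ∧ PgJ X c b u u t j i) (c0 : ∀ j, 0 ≤ ε j)
    (hε : ∀ j i, K₁ j i ≠ 0 → ∀ k : X.c.Lam, k.1.1 = j.1.1 ∨ k.1.1 = i.1.1 →
      W₀ * Real.log c ^ (-s) ≤ ε k) :
    2 * bil K (vx X u τ) (vx X u τ) ≤ lm X (fun j => 8 * ε j) u τ := by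
  classical
  have hc2 : 0 ≤ N.c2 := N.hc2
  have hβ0 : 0 ≤ β := by linarith
  have h1 := h.mn.nd
  obtain ⟨k1, k2, k3, k4⟩ := nodeOk_hi h1.self.node hl
  have t0 : 0 < t := C.t0.trans_le C.tt
  have hR : ∀ y j i, rl K₁ y j i → j.1.1 ≠ i.1.1 ∧ PgJ X c b u u t j i := fun y j i hr => hP j i hr
  have hRB : ∀ q ∈ τ.items, q ∈ X.S' → RB X u q ≤ Real.log c ^ (N.c2 + 2) := fun q hq hS =>
    (hn.hi q hq hS).trans (log_up hn.l1 hc.le (by linarith) le_rfl)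
  have hnn : ∀ l : ℕ, l.Prime → c < l → u.n ≤ l ∧ u.n ≤ l := by
    intro l hl1 hcl
    have : u.n ≤ l := by
      by_contra hlt
      push Not at hlt
      have := k4 l hl1 hlt
      omega
    exact ⟨this, this⟩
  have hu : ∀ r : ℕ, r.Prime → r < u.n → r ≤ c := fun r hr h2 => (k4 r hr h2).trans hc.le
  have hsum : ∀ F : Finset ℕ, F ⊆ τ.items → (∀ q ∈ F, q ∈ X.S') →
      ∑ q ∈ F, RB X u q ≤ Real.log c ^ β := fun F hF hS =>
    (hn.sumR' hF hS).trans (log_up hn.l1 hc.le (by linarith) hβ)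
  have key : ∃ m : ℕ, u.B = b * m ∧ LsC X.c.t c b (τ.items ∪ τ.items) ∧
      (∀ q ∈ τ.items ∪ τ.items, q ∈ X.S' → (b:ℝ) * X.c.r q ≤ Real.log c ^ (N.c2 + 2)) ∧
      (∀ e ∈ prs X u u τ τ (rl K₁), Kc c s < ((max (D1 u u e) (D2 u u e) : ℕ) : ℝ) ∨
        Kc c s * RB X u e.2 ≤ RB X u e.1 ∨ Kc c s * RB X u e.1 ≤ RB X u e.2) := by
    rw [Finset.union_self]
    rcases hb with ⟨hb, hB⟩ | ⟨hcp, hb, hB⟩
    · have L := lsC_node h1 X.tOk hl hc.le hB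
      rw [← hb] at hR ⊢
      refine ⟨1, by rw [mul_one], L, fun q hq hS => ?_, nc_rest h1 C hs hβ0 L hRB hR⟩
      rw [← RB_al hS]
      exact hRB q hq hS
    · have L := lsC_div h1 X.tOk hl hc hcp hb hB
      have hκ : ∀ q ∈ τ.items, q ∈ X.S' → (b:ℝ) * X.c.r q ≤ Real.log c ^ (N.c2 + 2) := by
        intro q hq hS
        refine le_trans ?_ (hRB q hq hS)
        rw [RB_al hS, hb]
        push_cast
        have r0 : 0 < X.c.r q := X.rpos hS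
        have b0 : (0:ℝ) ≤ b := Nat.cast_nonneg _
        have c1 : (1:ℝ) ≤ c := by exact_mod_cast hcp.one_lt.le
        have : 0 ≤ (b:ℝ) * X.c.r q := by positivity
        nlinarith
      exact ⟨c, hb, L, hκ, nc_N h1 C hs hβ0 hb L hκ hR⟩
  obtain ⟨m, hm, L, hκ, nc⟩ := key
  refine vn_ac (ρ := ofs X c u) (β₁ := 1) (β₂ := β) (Z := 1) (t := t) (W := W₀) hs (by norm_num)
    hβ0 h C.hp C.c2 C.lg hu hW hK hKK one_pos t0 C.tL
    (acM_of h1 h1 C hs hβ0 hm hm L hnn hκ (mp_rl K₁) hR hsum nc) c0 ?_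
  intro k e he hk
  obtain ⟨-, -, j, i, y, e1, e2, hr, -, -⟩ := mem_prs.1 he
  exact hε j i hr k (by rw [e1, e2]; exact hk)

/-- radii of the children of a tie -/
lemma RB_N {u : NS} {p q : ℕ} : RB X (nN p u) q = p * RB X u q := by
  show ((u.B * p : ℕ) : ℝ) * X.c.rr q = p * ((u.B : ℝ) * X.c.rr q)
  push_cast; ring

lemma RB_P {u : NS} {p q : ℕ} : RB X (nP p u) q = RB X u q := rfl

/-- the data of a tie -/
lemma tie_dat {u : NS} {p : ℕ} {Sp : Finset ℕ} {t₁ t₀ : IT}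
    (h : NL X u (.br p Sp t₁ t₀)) (hn : NcE14.Nc X u (.br p Sp t₁ t₀)) :
    LsC X.c.t p u.B (t₁.items ∪ t₀.items) ∧
      (∀ q ∈ t₁.items ∪ t₀.items, q ∈ X.S' → (u.B:ℝ) * X.c.r q ≤ Real.log p ^ (N.c2 + 2)) ∧
      (∀ F : Finset ℕ, F ⊆ t₀.items → (∀ q ∈ F, q ∈ X.S') →
        ∑ q ∈ F, RB X (nN p u) q ≤ 2 * Real.log p ^ (N.B + N.c2 + 2)) := by
  have h1 := h.mn.nd
  have hl : ¬ isL (IT.br p Sp t₁ t₀) := fun h => h
  obtain ⟨k1, k2, k3, k4⟩ := nodeOk_hi h1.self.node hl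
  have hpr : p.Prime := (top_of_nodeOk h1.self.node hl).1
  have k5 : p < u.n := (top_of_nodeOk h1.self.node hl).2.1
  refine ⟨lsC_node h1 X.tOk hl le_rfl fun l hl1 hd => k5.trans_le (h1.bk.geB l hl1 hd),
    fun q hq hS => ?_, fun F hF hS => ?_⟩
  · rw [← RB_al hS]
    exact hn.hi q hq hS
  · have hp0 : (0:ℝ) < p := by exact_mod_cast hpr.pos
    have h3 := hn.miss hF hS
    rw [le_div_iff₀ hp0] at h3
    calc ∑ q ∈ F, RB X (nN p u) q = (∑ q ∈ F, RB X u q) * p := by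
          rw [Finset.sum_mul]
          exact Finset.sum_congr rfl fun q _ => by rw [RB_N]; ring
      _ ≤ _ := h3

/-- the sum of the radii of the N child against the exponent -/
lemma sum_up {s β t : ℝ} {p : ℕ} (C : CoD X p s β t) (hβ : N.B + N.c2 + 3 ≤ β) :
    2 * Real.log p ^ (N.B + N.c2 + 2) ≤ Real.log p ^ β := by
  have L1 : 1024 ≤ Real.log (p:ℝ) := C.lg.1
  have L0 : 0 < Real.log (p:ℝ) := by linarith
  calc 2 * Real.log p ^ (N.B + N.c2 + 2) ≤ Real.log p ^ (1:ℝ) * Real.log p ^ (N.B + N.c2 + 2) := by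
        refine mul_le_mul_of_nonneg_right ?_ (by positivity)
        rw [Real.rpow_one]; linarith
    _ = Real.log p ^ (1 + (N.B + N.c2 + 2)) := (Real.rpow_add L0 _ _).symm
    _ ≤ _ := Real.rpow_le_rpow_of_exponent_le (by linarith) (by linarith)

lemma NB_nn : 0 ≤ N.B + N.c2 := by
  have h1 := N.hB
  have h2 := N.hc2
  have h3 : 0 ≤ N.C1 := N.hC1
  linarith

/-- **CHILDREN OF A TIE**, N against N -/
theorem tieB_ac {s β t : ℝ} (hs : 0 ≤ s) (hβ : N.B + N.c2 + 3 ≤ β) {u : NS} {p : ℕ}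
    {Sp : Finset ℕ} {t₁ t₀ : IT} {K K₁ : X.c.Lam → X.c.Lam → ℝ} {W₀ : ℝ} {ε : X.c.Lam → ℝ}
    (C : CoD X p s β t)
    (h : NL X u (.br p Sp t₁ t₀)) (h1 : NL X (nP p u) t₁) (h0 : NL X (nN p u) t₀)
    (hn : NcE14.Nc X u (.br p Sp t₁ t₀))
    (hW : 0 ≤ W₀) (hK : ∀ j i, K₁ j i ≤ W₀)
    (hPP : ∀ j i, j.1.1 ∈ t₁.items → i.1.1 ∈ t₁.items → K j i ≤ 0)
    (hKK : ∀ j i, j.1.1 ∈ t₀.items → i.1.1 ∈ t₀.items → K j i ≤ K₁ j i + K₁ i j)
    (hP : ∀ j i, K₁ j i ≠ 0 → j.1.1 ≠ i.1.1 ∧ PgJ X p u.B (nN p u) (nN p u) t j i)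
    (c0 : ∀ j, 0 ≤ ε j)
    (hε : ∀ j i, K₁ j i ≠ 0 → ∀ k : X.c.Lam, k.1.1 = j.1.1 ∨ k.1.1 = i.1.1 →
      W₀ * Real.log p ^ (-s) ≤ ε k) :
    FB (fun _ => K) p (vx X (nP p u) t₁) (vx X (nN p u) t₀) ≤
      lm X (fun j => 8 * ε j) u (.br p Sp t₁ t₀) := by
  classical
  have hNB : 0 ≤ N.B + N.c2 := NB_nn
  have hβ0 : 0 ≤ β := by linarith
  obtain ⟨L, hκ, hsum⟩ := tie_dat h hn
  have t0 : 0 < t := C.t0.trans_le C.tt
  have hR : ∀ y j i, rl K₁ y j i → j.1.1 ≠ i.1.1 ∧ PgJ X p u.B (nN p u) (nN p u) t j i :=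
    fun y j i hr => hP j i hr
  have L0 : LsC X.c.t p u.B t₀.items := L.mono Finset.subset_union_right
  have hκ0 : ∀ q ∈ t₀.items, q ∈ X.S' → (u.B:ℝ) * X.c.r q ≤ Real.log p ^ (N.c2 + 2) :=
    fun q hq => hκ q (Finset.mem_union_right _ hq)
  have hb : (nN p u).B = u.B * p := rfl
  have q0 := h0.mn.nd
  have nc := nc_N q0 C hs hβ0 hb L0 hκ0 hR
  refine fb_ac (ρ := ofs X p (nN p u)) (β₁ := 1) (β₂ := β) (Z := 1) (t := t) (W := W₀) hs
    (by norm_num) hβ0 h h1 h0 C.hp C.c2 C.lg hW hK hPP hKK one_pos t0 C.tL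
    (acM_of q0 q0 C hs hβ0 hb hb (by rw [Finset.union_self]; exact L0)
      (fun l _ hl => ⟨hl.le, hl.le⟩) (by rw [Finset.union_self]; exact hκ0) (mp_rl K₁) hR
      (fun F hF hS => (hsum F hF hS).trans (sum_up C hβ)) nc) c0 ?_
  intro k e he hk
  obtain ⟨-, -, j, i, y, e1, e2, hr, -, -⟩ := mem_prs.1 he
  exact hε j i hr k (by rw [e1, e2]; exact hk)

/-- **CHILDREN OF A TIE**, N piece with the event against P piece; no P piece straddles the threshold -/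
theorem tieP_ac {s β t : ℝ} (hs : 0 ≤ s) (hβ : N.B + N.c2 + 3 ≤ β) {u : NS} {p : ℕ}
    {Sp : Finset ℕ} {t₁ t₀ : IT} {K K₁ : X.c.Lam → X.c.Lam → ℝ} {W₀ : ℝ} {ε : X.c.Lam → ℝ}
    (C : CoD X p s β t)
    (h : NL X u (.br p Sp t₁ t₀)) (h1 : NL X (nP p u) t₁) (h0 : NL X (nN p u) t₀)
    (hn : NcE14.Nc X u (.br p Sp t₁ t₀))
    (hstr : ∀ q ∈ t₁.items, q ∈ X.S' → X.c.wp.thr p < RB X u q → Kc p s * t < RB X u q)
    (hW : 0 ≤ W₀) (hK : ∀ j i, K₁ j i ≤ W₀)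
    (hKK : ∀ j i, j.1.1 ∈ t₁.items → i.1.1 ∈ t₀.items → K j i ≤ K₁ i j)
    (hP : ∀ j i, K₁ j i ≠ 0 → j.1.1 ≠ i.1.1 ∧ PgJ X p u.B (nN p u) (nP p u) t j i)
    (c0 : ∀ j, 0 ≤ ε j)
    (hε : ∀ j i, K₁ j i ≠ 0 → ∀ k : X.c.Lam,
      (k.1.1 = i.1.1 → 4 / (p : ℝ) * (W₀ * Real.log p ^ (-s)) ≤ ε k) ∧
      (k.1.1 = j.1.1 → 2 * (W₀ * Real.log p ^ (-s)) ≤ ε k)) :
    1 / (p : ℝ) * (2 * bil K (vx X (nP p u) t₁) (vx X (nN p u) t₀)) ≤
      lm X ε u (.br p Sp t₁ t₀) := by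
  classical
  have hNB : 0 ≤ N.B + N.c2 := NB_nn
  have hβ0 : 0 ≤ β := by linarith
  obtain ⟨L, hκ, hsum⟩ := tie_dat h hn
  have t0 : 0 < t := C.t0.trans_le C.tt
  have hR : ∀ y j i, rl K₁ y j i → j.1.1 ≠ i.1.1 ∧ PgJ X p u.B (nN p u) (nP p u) t j i :=
    fun y j i hr => hP j i hr
  have hb : (nN p u).B = u.B * p := rfl
  have hb' : (nP p u).B = u.B * 1 := by show u.B = u.B * 1; rw [mul_one]
  have q0 := h0.mn.nd
  have q1 := h1.mn.nd
  have L' : LsC X.c.t p u.B (t₀.items ∪ t₁.items) := by rw [Finset.union_comm]; exact L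
  have hκ' : ∀ q ∈ t₀.items ∪ t₁.items, q ∈ X.S' →
      (u.B:ℝ) * X.c.r q ≤ Real.log p ^ (N.c2 + 2) := by rw [Finset.union_comm]; exact hκ
  have nc := nc_PN q0 q1 C hs hβ0 hb rfl L' hκ' (fun q hq hS => hstr q hq hS) hR
  refine fp_ac (ρ₀ := ofs X p (nN p u)) (ρ₁ := ofs X p (nP p u)) (β₁ := 1) (β₂ := β) (Z := 1)
    (t := t) (W := W₀) hs
    (by norm_num) hβ0 h h1 h0 C.hp C.c2 C.lg hW hK hKK one_pos t0 C.tL
    (acM_of q0 q1 C hs hβ0 hb hb' L' (fun l _ hl => ⟨hl.le, hl.le⟩) hκ' (mp_rl K₁) hR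
      (fun F hF hS => (hsum F hF hS).trans (sum_up C hβ)) nc) c0 ?_ ?_
  · intro k e he hk
    obtain ⟨-, -, j, i, y, e1, e2, hr, -, -⟩ := mem_prs.1 he
    exact (hε j i hr k).1 (by rw [e2]; exact hk)
  · intro k e he hk
    obtain ⟨-, -, j, i, y, e1, e2, hr, -, -⟩ := mem_prs.1 he
    exact (hε j i hr k).2 (by rw [e1]; exact hk)

end Crest.Agent.R4P.AcJ41
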