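import Crest.Agent.R4P.NumG_23
import Crest.Agent.R4P.Bir_30

/-!
R4 (S0004), powers, helper21: **consequences of the grid and of the prune of the straddling stages**.

For the final numbers (`NumOK` with `thF Ct`, `SxF γ N.C1`; `NumFin`), contexts `X`, items `q ∈ X.S'`:

* `strOk` : `StrOk Ct a (u0F Ct p0) X.c.t X.ψ q` with `a = aF Ct p0 X.ψ X.S` (the shift of the system);
* **`fat_gap`** : a stage `s ∈ mt q` which is fat at a column `p ≤ s` (`thr p < R`, `R = rS`) and a radius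
  `R' ≤ thr p` : `R' < R exp (-u^(1/4))`, `u = log (1/R)`;
* **`same_status`** : radii `R, R'` of two stages, `|log (R/R')| ≤` the fourth roots: same status
  (fat / thin) at every column below the two ties;
* `thP X p` (`= thrN`): `thr p ≤ thP p`, `thr (p-1) ≤ thP p`, `thP p ≤ (log p)^(-(Ct-δ))`.
-/

set_option autoImplicit false
set_option linter.unusedSectionVars false
set_option linter.unusedVariables false

open Filter

namespace Crest.Agent.R4P.ThrC21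

open Crest.Agent.R4P.Skel189 Crest.Agent.R4P.ParF5 Crest.Agent.R4P.NumX34 Crest.Agent.R4P.ThrG21
open Crest.Agent.R4P.Cnt588 Crest.Agent.R4P.Bld532 Crest.Agent.R4.Max709 Crest.Agent.R4.Soft104
open Crest.Agent.R4P.ParT21 (thF)
open Crest.Agent.R4P.NumG23 (SxF NumG)
open Crest.Agent.R4P.FinAll26 (NumFin)
open Crest.Agent.R4P.Data758 (Cf)
open Crest.Agent.R4P.PruneAcc17 (Bab)

variable {N : Skel189.Num} {Ct C₀ c γ : ℝ}

/-- **the shift of the system** -/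
noncomputable abbrev aX (Ct : ℝ) {p0 P₀ : ℕ} (X : Ctx N γ p0 P₀) : ℝ := aF Ct p0 X.ψ X.S

/-- **the next value of the grid** -/
noncomputable abbrev thP (Ct : ℝ) {p0 P₀ : ℕ} (X : Ctx N γ p0 P₀) (p : ℕ) : ℝ := thrN Ct (aX Ct X) p

/-- **no straddling stages** -/
theorem strOk (h : NumOK N (thF Ct) Ct C₀ (SxF γ N.C1)) (hF : NumFin N (thF Ct) Ct c)
    (h1 : 1 ≤ N.C1) {p0 P₀ : ℕ} (X : Ctx N γ p0 P₀) {q : ℕ} (hq : q ∈ X.S') :
    StrOk Ct (aX Ct X) (u0F Ct p0) X.c.t X.ψ q := by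
  classical
  have hS : N.S2 p0 X.ψ X.S ⊆ SxF γ N.C1 p0 X.ψ X.S := by
    rw [h.S2]; exact Finset.inter_subset_right
  have e1 := NumG23.SxF_subG γ h1 p0 X.ψ X.S (hS (X.prn.sub2 hq))
  have e2 := (Finset.mem_filter.1 e1).2
  have e3 : 120 * N.C1 = Ct := hF.Ct.symm
  rw [e3] at e2
  have e4 : trF Ct p0 X.ψ X.S = X.c.t := by
    rw [X.ht', trF, Ctx.par]
    have e5 : Ct / 120 = N.C1 := by rw [hF.Ct]; ring
    rw [e5, ← hF.B, hF.c2]
  rw [e4] at e2
  exact e2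

/-- the levels of the fat radii -/
theorem fat_u (hCt : 0 < Ct) : ∃ p₁ : ℕ, ∀ p0 ≥ p₁, ∀ a : ℝ, 0 ≤ a → a < 1 → ∀ p ≥ p0, ∀ u : ℝ,
    0 ≤ u → ((iG Ct a p : ℝ) + a) ^ 2 ≤ u + u ^ (1 / 4 : ℝ) → u0F Ct p0 ≤ u := by
  have hl2 : 0 < Real.log 2 := Real.log_pos (by norm_num)
  have hl2' : Real.log 2 < 1 := by have := Real.log_two_lt_d9; linarith
  -- `s` = root of `uG`
  obtain ⟨b, hb⟩ := eventually_atTop.1 ((tendsto_sqrt_uG hCt).eventually_ge_atTop
    (40 + 8 * Ct))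
  refine ⟨b + 16, fun p0 hp0 a ha ha1 p hp u hu h => ?_⟩
  have hs := hb p0 (by omega)
  have hsp := hb p (by omega)
  set s := Real.sqrt (uG Ct p0) with hsd
  have h1 : s ≤ Real.sqrt (uG Ct p) :=
    Real.sqrt_le_sqrt (uG_mono hCt.le (by omega) hp)
  have h2 := lt_iG Ct a p
  have h3 : s - 1 ≤ (iG Ct a p : ℝ) + a := by linarith
  have h4 : (s - 1) ^ 2 ≤ ((iG Ct a p : ℝ) + a) ^ 2 := pow_le_pow_left₀ (by linarith) h3 2
  have h5 : s ^ 2 = uG Ct p0 := Real.sq_sqrt (uG_nn hCt.le p0)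
  -- `log log p0 ≤ (rg p0 + 1) log 2`
  have h6 : Real.log (Real.log p0) ≤ ((rg p0 : ℝ) + 1) * Real.log 2 := by
    have hl0 : 0 < Real.log (p0 : ℝ) := by
      have := one_lt_log (p := p0) (by omega)
      linarith
    have := Real.log_le_log hl0 (lt_rg (p := p0)).le
    rw [Real.log_pow] at this
    push_cast at this
    exact this
  have h7 : Ct * Real.log (Real.log p0) ≤ s ^ 2 + Ct := by
    rw [h5]; unfold uG
    nlinarith
  have h8 : u0F Ct p0 ≤ (s ^ 2 + Ct) / 4 := by unfold u0F; linarith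
  refine h8.trans ?_
  -- `u + u^(1/4) ≤ 2 u` for `u ≥ 1`
  by_contra hc
  push Not at hc
  have h9 : u ^ (1 / 4 : ℝ) ≤ 1 + u := by
    rcases le_total u 1 with h | h
    · have := Real.rpow_le_one hu h (show (0:ℝ) ≤ 1 / 4 by norm_num)
      linarith
    · have := Real.rpow_le_rpow_of_exponent_le h (show (1 / 4 : ℝ) ≤ 1 by norm_num)
      rw [Real.rpow_one] at this
      linarith
  have h10 : Ct ≤ s ^ 2 / 320 := by nlinarith
  nlinarith

/-- **gap below the fat stages** -/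
theorem fat_gap (h : NumOK N (thF Ct) Ct C₀ (SxF γ N.C1)) (hF : NumFin N (thF Ct) Ct c)
    (h1 : 1 ≤ N.C1) : ∃ p₁ : ℕ, ∀ p0 ≥ p₁, ∀ (P₀ : ℕ) (X : Ctx N γ p0 P₀), ∀ q ∈ X.S',
      ∀ s ∈ X.c.t.mt q, ∀ p : ℕ, p0 ≤ p → p ≤ s → X.c.wp.thr p < rS X.c.t X.ψ q s →
        rS X.c.t X.ψ q s ≤ 1 → ∀ R' : ℝ, 0 < R' → R' ≤ X.c.wp.thr p →
          Real.log (1 / rS X.c.t X.ψ q s) ^ (1 / 4 : ℝ) <
            Real.log (1 / R') - Real.log (1 / rS X.c.t X.ψ q s) := by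
  have hCt : 0 < Ct := by rw [hF.Ct]; linarith
  obtain ⟨p1, e1⟩ := fat_u hCt
  obtain ⟨b, hb⟩ := eventually_atTop.1 ((tendsto_sqrt_uG hCt).eventually_ge_atTop 1)
  refine ⟨p1 + b + 1, fun p0 hp0 P₀ X q hq s hs p hp hps hfat hR1 R' hR' hR't => ?_⟩
  set R := rS X.c.t X.ψ q s with hR
  set u := Real.log (1 / R) with hu
  have eT : ∀ p, X.c.wp.thr p = thrG Ct (aX Ct X) p := fun p => ParT21.thr_eqF h X p
  have ha := aF_nn Ct p0 X.ψ X.S
  have ha1 := aF_lt Ct p0 X.ψ X.S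
  by_contra hc
  push Not at hc
  have hR0 : 0 < R := lt_trans (by rw [eT]; exact thrG_pos _ _ _) hfat
  have hu0 : 0 ≤ u := Real.log_nonneg (by rw [one_div]; exact (one_le_inv₀ hR0).2 hR1)
  set y := ((iG Ct (aX Ct X) p : ℝ) + aX Ct X) ^ 2 with hy
  have eth : X.c.wp.thr p = Real.exp (-y) := eT p
  have h2 : u < y := by
    have : Real.log (Real.exp (-y)) < Real.log R :=
      Real.log_lt_log (Real.exp_pos _) (by rw [← eth]; exact hfat)
    rw [Real.log_exp] at this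
    rw [hu, one_div, Real.log_inv]
    linarith
  have h3 : y ≤ Real.log (1 / R') := by
    have : Real.log R' ≤ Real.log (Real.exp (-y)) :=
      Real.log_le_log hR' (by rw [← eth]; exact hR't)
    rw [Real.log_exp] at this
    rw [one_div, Real.log_inv]
    linarith
  have h4 : y ≤ u + u ^ (1 / 4 : ℝ) := by linarith
  have h5 := e1 p0 (by omega) _ ha ha1 p hp u hu0 h4
  refine strOk h hF h1 X hq s hs ?_ h5 ⟨iG Ct (aX Ct X) p, ?_⟩
  · refine lt_of_le_of_lt ?_ hfat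
    have h6 := hb s (by omega)
    rw [eT p]
    exact (thrF_le_thrG ha hCt.le (by linarith)).trans (thrG_anti hCt.le ha (by omega) hps)
  · rw [abs_le]
    constructor
    · linarith
    · have := Real.rpow_nonneg hu0 (1 / 4 : ℝ)
      linarith

/-- **comparable stages have the same status at every column** : `q, q' ∈ S'`, stages `s, s'`, radii
`R, R'` with `|log (1/R) - log (1/R')| ≤` the fourth roots -/
theorem same_status (h : NumOK N (thF Ct) Ct C₀ (SxF γ N.C1)) (hF : NumFin N (thF Ct) Ct c)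
    (h1 : 1 ≤ N.C1) : ∃ p₁ : ℕ, ∀ p0 ≥ p₁, ∀ (P₀ : ℕ) (X : Ctx N γ p0 P₀), ∀ q ∈ X.S', ∀ q' ∈ X.S',
      ∀ s ∈ X.c.t.mt q, ∀ s' ∈ X.c.t.mt q', ∀ p : ℕ, p0 ≤ p → p ≤ s → p ≤ s' →
        rS X.c.t X.ψ q s ≤ 1 → rS X.c.t X.ψ q' s' ≤ 1 → 0 < rS X.c.t X.ψ q s →
        0 < rS X.c.t X.ψ q' s' →
        |Real.log (1 / rS X.c.t X.ψ q s) - Real.log (1 / rS X.c.t X.ψ q' s')| ≤
          min (Real.log (1 / rS X.c.t X.ψ q s) ^ (1 / 4 : ℝ))
            (Real.log (1 / rS X.c.t X.ψ q' s') ^ (1 / 4 : ℝ)) →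
        (rS X.c.t X.ψ q s ≤ X.c.wp.thr p ↔ rS X.c.t X.ψ q' s' ≤ X.c.wp.thr p) := by
  obtain ⟨p1, e1⟩ := fat_gap h hF h1
  refine ⟨p1, fun p0 hp0 P₀ X q hq q' hq' s hs s' hs' p hp hps hps' hR hR' h0 h0' hz => ?_⟩
  obtain ⟨z1, z2⟩ := abs_le.1 hz
  constructor
  · intro ht
    by_contra hc
    push Not at hc
    have := e1 p0 hp0 P₀ X q' hq' s' hs' p hp hps' hc hR' _ h0 ht
    have := z2.trans (min_le_right _ _)
    linarith
  · intro ht
    by_contra hc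
    push Not at hc
    have := e1 p0 hp0 P₀ X q hq s hs p hp hps hc hR _ h0' ht
    have := (neg_le_neg z1).trans (le_of_eq (neg_neg _))
    have := this.trans (min_le_left _ _)
    linarith

/-- **the next value of the grid** -/
theorem thP_facts (h : NumOK N (thF Ct) Ct C₀ (SxF γ N.C1)) (hCt : 0 < Ct) :
    ∃ p₁ : ℕ, ∀ (p0 P₀ : ℕ) (X : Ctx N γ p0 P₀), ∀ p ≥ p₁,
      X.c.wp.thr (p - 1) ≤ thP Ct X p ∧ X.c.wp.thr p ≤ thP Ct X p := by
  obtain ⟨p₁, h1⟩ := thrG_pred hCt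
  refine ⟨p₁, fun p0 P₀ X p hp => ?_⟩
  rw [ParT21.thr_eqF h X, ParT21.thr_eqF h X]
  exact h1 _ (aF_nn _ _ _ _) (aF_lt _ _ _ _) p hp

/-- **upper bound of the next value** -/
theorem thP_le (hCt : 0 < Ct) {δ : ℝ} (hδ : 0 < δ) : ∃ p₁ : ℕ, ∀ (p0 P₀ : ℕ) (X : Ctx N γ p0 P₀),
    ∀ p ≥ p₁, thP Ct X p ≤ Real.log p ^ (-(Ct - δ)) := by
  obtain ⟨p₁, h1⟩ := thrG_le_log hCt (half_pos hδ)
  -- `thrN ≤ thrG · exp (2 (i + a))`, `2 √u ≤ (δ/2) log log p`
  have hl2 : 0 < Real.log 2 := Real.log_pos (by norm_num)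
  have e1 : ∀ᶠ x : ℝ in atTop, 2 * x ≤ δ / (2 * Ct) * x ^ 2 := by
    have hd : 0 < δ / (2 * Ct) := by positivity
    filter_upwards [eventually_ge_atTop (2 / (δ / (2 * Ct))), eventually_ge_atTop (1 : ℝ)] with x h1 h2
    rw [div_le_iff₀ hd] at h1
    nlinarith
  obtain ⟨b, hb⟩ := eventually_atTop.1 (((tendsto_sqrt_uG hCt).eventually e1).and
    ((tendsto_sqrt_uG hCt).eventually_ge_atTop 1))
  refine ⟨p₁ + b + 3, fun p0 P₀ X p hp => ?_⟩
  have hp3 : 3 ≤ p := by omega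
  have hl : 1 < Real.log p := one_lt_log hp3
  have hl0 : 0 < Real.log p := by linarith
  have k1 := h1 (aX Ct X) p (by omega)
  obtain ⟨k2, k3⟩ := hb p (by omega)
  have ha := aF_nn Ct p0 X.ψ X.S
  have ha1 := aF_lt Ct p0 X.ψ X.S
  have k4 : (iG Ct (aX Ct X) p : ℝ) + aX Ct X ≤ Real.sqrt (uG Ct p) := iG_le (by linarith)
  have k5 : thP Ct X p ≤ thrG Ct (aX Ct X) p * Real.exp (2 * Real.sqrt (uG Ct p)) := by
    show thrN Ct (aX Ct X) p ≤ _
    unfold thrN thrG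
    rw [← Real.exp_add, Real.exp_le_exp]
    nlinarith
  have k6 : Real.exp (2 * Real.sqrt (uG Ct p)) ≤ Real.log p ^ (δ / 2) := by
    rw [Real.rpow_def_of_pos hl0, Real.exp_le_exp]
    refine k2.trans ?_
    rw [Real.sq_sqrt (uG_nn hCt.le p)]
    have h4 : (rg p : ℝ) * Real.log 2 ≤ Real.log (Real.log p) := by
      have := Real.log_le_log (by positivity) (rg_le hp3)
      rwa [Real.log_pow] at this
    have h6 : δ / (2 * Ct) * uG Ct p = rg p * Real.log 2 * (δ / 2) := by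
      unfold uG; field_simp
    rw [h6]
    exact mul_le_mul_of_nonneg_right h4 (by positivity)
  calc thP Ct X p ≤ thrG Ct (aX Ct X) p * Real.exp (2 * Real.sqrt (uG Ct p)) := k5
    _ ≤ Real.log p ^ (-(Ct - δ / 2)) * Real.log p ^ (δ / 2) :=
        mul_le_mul k1 k6 (Real.exp_pos _).le (Real.rpow_nonneg hl0.le _)
    _ = Real.log p ^ (-(Ct - δ)) := by
        rw [← Real.rpow_add hl0]; congr 1; ring

end Crest.Agent.R4P.ThrC21
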