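import Crest.Agent.R4P.AcJ_41
import Crest.Agent.R4P.ThrC_21

/-!
R4 (S0004), powers pass, helper41: **accuracy deaths, one label of any denominator, one node**, and the
numbers of a column (`CoD`) on helper21's grid.

* `sm_den` : a large prime of a cofactor divides the denominator of the other label; **`smS`** : one node,
  one label: smooth cofactors (any denominator);
* `PsJ`, **`rest_acS`** : static pairs of one node with one label, the first piece is inaccurate;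
* **`coD_ev`** : `CoD X c s (B+c2+3) (thP Ct X c)` for all large columns.
-/

set_option autoImplicit false
set_option linter.unusedSectionVars false
set_option linter.unusedVariables false

open MeasureTheory Filter

namespace Crest.Agent.R4P.AcK41

open Crest.Agent.R4.Tour104 Crest.Agent.R4.Tour758 Crest.Agent.R4.Avg758 Crest.Agent.R4.Clos758
open Crest.Agent.R4.ClosL758 Crest.Agent.R4.ClosG758 Crest.Agent.R4.ClosR758
open Crest.Agent.R4.HVW560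
open Crest.Agent.R4.Fam464 Crest.Agent.R4.Piece464
open Crest.Agent.R4P.Cnt588 Crest.Agent.R4P.Item758 Crest.Agent.R4P.AvgItem710
open Crest.Agent.R4P.W363 Crest.Agent.R4P.LfDat734
open Crest.Agent.R4P.Walk560 Crest.Agent.R4P.NodeG33
open Crest.Agent.R4P.Data758 Crest.Agent.R4P.Skel189 Crest.Agent.R4P.WPex189
open Crest.Agent.R4P.Bld532 (NS All NodeOk Bk)
open Crest.Agent.R4P.Step588 (NDt CT CT_pos ctx_NDt uq_lt)
open Crest.Agent.R4.Soft104 (w)
open Crest.Agent.R4P.SameIx30 Crest.Agent.R4P.GPair33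
open Crest.Agent.R4P.XmE18 Crest.Agent.R4P.XmM18 Crest.Agent.R4P.XmG18
open Crest.Agent.R4.LF363 (Lab)
open Crest.Agent.R4P.WalkIT579 (tp isL nodeOk_hi top_of_nodeOk prime_ge)
open Crest.Agent.R4P.StM6 (dense)
open Crest.Agent.R4P.StB21 (Bl_node TH)
open Crest.Agent.R4P.AcH41 (C8 K8 C8_nn K8_nn)
open Crest.Agent.R4P.AcT41 (lab_cnt root5 thin_unique big_p)
open Crest.Agent.R4P.XmO37 (Tth)
open Crest.Agent.R4P.XmQ37 (ExP prs mem_prs prs_alive)
open Crest.Agent.R4P.E3V479 (qe)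
open Crest.Agent.R4P.DTp26 (MP)
open Crest.Agent.R4P.JnE5 (Ker bil)
open Crest.Agent.R4P.PrH45 (RN FB)
open Crest.Agent.R4P.PrK45
open Crest.Agent.R4P.RtL28
open Crest.Agent.R4P.RtC28 (tF)
open Crest.Agent.R4P.XmB41 Crest.Agent.R4P.XmC41 Crest.Agent.R4P.XmD41 Crest.Agent.R4P.AcJ41
open Crest.Agent.R4P

/-! ### smooth cofactors -/

variable {N : Skel189.Num} {γ : ℝ} {p0 P₀ : ℕ} {X : Ctx N γ p0 P₀}

/-- **a large prime of a cofactor divides the denominator of the other label** -/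
lemma sm_den {v v' : NS} {τ τ' : IT} (h : QX X v τ) (h' : QX X v' τ') {c : ℕ}
    (hn : ∀ l : ℕ, l.Prime → c < l → v.n ≤ l ∧ v'.n ≤ l) {j i : X.c.Lam} {y : ℝ}
    (y1 : vN X (.inl (v, τ)) j y ≠ 0) (y2 : vN X (.inl (v', τ')) i y ≠ 0) {σ σ' : ℚ}
    (s1 : X.c.st c j.1.1 = some σ)
    (hex : ∀ a a' : ℤ, Tth X v j y a → Tth X v' i y a' →
      ((a:ℚ) + v.B * σ) * (i.1.1 / v'.A : ℕ) = (a' + v'.B * σ') * (j.1.1 / v.A : ℕ))
    {l : ℕ} (hl : l.Prime) (hc : c < l) (hd : l ∣ cof (j.1.1 / v.A) (i.1.1 / v'.A)) :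
    l ∣ ((v'.B : ℚ) * σ').den ∧ l ∣ j.1.1 / v.A ∧ ¬ l ∣ i.1.1 / v'.A := by
  obtain ⟨n1, n2⟩ := hn l hl hc
  have q1 : j.1.1 ∈ τ.items := by
    by_contra hq
    exact y1 (vN_out hq y)
  have g1 : cof (j.1.1 / v.A) (i.1.1 / v'.A) * Nat.gcd (j.1.1 / v.A) (i.1.1 / v'.A) = j.1.1 / v.A :=
    Nat.div_mul_cancel (Nat.gcd_dvd_left _ _)
  have g2 : l ∣ j.1.1 / v.A := by rw [← g1]; exact hd.mul_right _
  have g3 : ¬ l ∣ i.1.1 / v'.A := by
    intro g3
    have g4 : l ∣ Nat.gcd (j.1.1 / v.A) (i.1.1 / v'.A) := Nat.dvd_gcd g2 g3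
    refine h.self.rad _ q1 l hl n1 ?_
    rw [← g1, pow_two]
    exact Nat.mul_dvd_mul hd g4
  have hb : l ∈ X.c.t.uq j.1.1 := (h.uq_ge X.tOk q1 n1).2 ⟨hl, g2⟩
  have v1 : ((X.c.D.par X.Y).toDT X.c.sp v.B v.A τ).g.val j y ≠ 0 := by
    have := PrL45.vx_val h j y
    rw [← this]
    exact y1
  obtain ⟨-, a, ha, t1, t2⟩ := TYK47.ctx_supp h v1
  obtain ⟨-, a', t3, t4⟩ := tooth h' y2
  have k := hex a a' ⟨t1, t2⟩ ⟨t3, t4⟩
  have k' : ((a:ℝ) + ((v.B * σ : ℚ) : ℝ)) * (i.1.1 / v'.A : ℕ) =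
      ((a':ℝ) + ((v'.B * σ' : ℚ) : ℝ)) * (j.1.1 / v.A : ℕ) := by
    exact_mod_cast k
  exact ⟨RseRI17.alive_denT h q1 s1 hb hc.le g2 ha g3 k', g2, g3⟩

/-- one exact centre, one offset: the denominator divides the difference -/
lemma dvd_diff {ρ : ℚ} {a a' : ℤ} {D D' : ℕ} (h : ((a:ℚ) + ρ) * (D' : ℕ) = (a' + ρ) * (D : ℕ))
    {l : ℕ} (hl : l.Prime) (hd : l ∣ ρ.den) (h1 : l ∣ D) : l ∣ D' := by
  have k0 : (ρ.den : ℚ) ≠ 0 := by exact_mod_cast ρ.den_pos.ne'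
  have e : ρ * ρ.den = ρ.num := Rat.mul_den_eq_num ρ
  have h2 : ((a : ℚ) * ρ.den + ρ.num) * D' = (a' * ρ.den + ρ.num) * D := by
    rw [← e]
    linear_combination (ρ.den : ℚ) * h
  have h3 : ((a : ℤ) * ρ.den + ρ.num) * D' = (a' * ρ.den + ρ.num) * D := by exact_mod_cast h2
  have hl' : Prime (l : ℤ) := Nat.prime_iff_prime_int.1 hl
  have h4 : (l : ℤ) ∣ (a * ρ.den + ρ.num) * D' := by
    rw [h3]
    exact Dvd.dvd.mul_left (Int.natCast_dvd_natCast.2 h1) _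
  rcases hl'.dvd_or_dvd h4 with h5 | h5
  · exfalso
    have h6 : (l : ℤ) ∣ a * ρ.den := Dvd.dvd.mul_left (Int.natCast_dvd_natCast.2 hd) _
    have h7 : (l : ℤ) ∣ ρ.num := (dvd_add_right h6).1 h5
    have h8 : l ∣ ρ.num.natAbs := Int.natCast_dvd.1 h7
    have h9 := Nat.dvd_gcd h8 hd
    rw [ρ.reduced.gcd_eq_one] at h9
    exact hl.one_lt.ne' (Nat.dvd_one.1 h9)
  · exact Int.natCast_dvd_natCast.1 h5

/-- **one node, one label: smooth cofactors** -/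
theorem smS {v : NS} {τ : IT} (h : QX X v τ) {c : ℕ}
    (hn : ∀ l : ℕ, l.Prime → c < l → v.n ≤ l) {j i : X.c.Lam} {y : ℝ}
    (y1 : vN X (.inl (v, τ)) j y ≠ 0) (y2 : vN X (.inl (v, τ)) i y ≠ 0) {σ : ℚ}
    (s1 : X.c.st c j.1.1 = some σ) (s2 : X.c.st c i.1.1 = some σ)
    (hex : ∀ a a' : ℤ, Tth X v j y a → Tth X v i y a' →
      ((a:ℚ) + v.B * σ) * (i.1.1 / v.A : ℕ) = (a' + v.B * σ) * (j.1.1 / v.A : ℕ))
    {l : ℕ} (hl : l.Prime) (hd : l ∣ D1 v v (j.1.1, i.1.1) * D2 v v (j.1.1, i.1.1)) : l ≤ c := by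
  by_contra hc
  push Not at hc
  have hn' : ∀ l : ℕ, l.Prime → c < l → v.n ≤ l ∧ v.n ≤ l := fun l a b => ⟨hn l a b, hn l a b⟩
  obtain ⟨-, a, t1⟩ := tooth h y1
  obtain ⟨-, a', t2⟩ := tooth h y2
  have k := hex a a' t1 t2
  rcases hl.dvd_mul.1 hd with h1 | h1
  · obtain ⟨g1, g2, g3⟩ := sm_den h h hn' y1 y2 s1 hex hl hc h1
    exact g3 (dvd_diff k hl g1 g2)
  · obtain ⟨g1, g2, g3⟩ := sm_den h h hn' y2 y1 s2 (fun a a' t1 t2 => (hex a' a t2 t1).symm) hl hc h1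
    exact g3 (dvd_diff k.symm hl g1 g2)

/-! ### static pairs with one label -/

/-- **static accuracy pair with one label** (any denominator) -/
structure PsJ (X : Ctx N γ p0 P₀) (c : ℕ) (v : NS) (t : ℝ) (j i : X.c.Lam) : Prop where
  st : ∃ σ : ℚ, X.c.st c j.1.1 = some σ ∧ X.c.st c i.1.1 = some σ ∧
    RB X v j.1.1 ^ 4 < |(v.B : ℝ) * X.c.γ - (((v.B : ℚ) * σ : ℚ) : ℝ)| ^ 5
  ex : ∀ (y : ℝ) (a a' : ℤ), Tth X v j y a → Tth X v i y a' →
    ((a : ℚ) + ofs X c v j.1.1) * (i.1.1 / v.A : ℕ) =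
      (a' + ofs X c v i.1.1) * (j.1.1 / v.A : ℕ)
  thin : RB X v j.1.1 ≤ t

section pairs
variable {c : ℕ} {v : NS} {τ : IT} {s β t : ℝ} {R : ℝ → X.c.Lam → X.c.Lam → Prop}

/-- **not comparable**, one label -/
theorem nc_S (h : QX X v τ) (C : CoD X c s β t) (hs : 0 ≤ s) (hβ : 0 ≤ β)
    (hR : ∀ y j i, R y j i → j.1.1 ≠ i.1.1 ∧ PsJ X c v t j i) :
    ∀ e ∈ prs X v v τ τ R, Kc c s < ((max (D1 v v e) (D2 v v e) : ℕ) : ℝ) ∨
      Kc c s * RB X v e.2 ≤ RB X v e.1 ∨ Kc c s * RB X v e.1 ≤ RB X v e.2 := by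
  intro e he
  by_contra hc
  push Not at hc
  obtain ⟨c1, -, c3⟩ := hc
  have hE : ExP X v v τ τ R (ofs X c v) (ofs X c v) :=
    fun y j i hr _ _ a a' l1 l2 => (hR y j i hr).2.ex y a a' l1 l2
  obtain ⟨z, z', hz, hz', hp⟩ := pt_of h h hE he
  obtain ⟨i1, i3, i2, i4⟩ := prs_alive h h he
  obtain ⟨-, -, j, i, y, e1, e2, hr, y1, y2⟩ := mem_prs.1 he
  obtain ⟨hne, P⟩ := hR y j i hr
  obtain ⟨σ, sj, si, acc⟩ := P.st
  have thin := P.thin
  rw [e1] at sj acc thin hne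
  rw [e2] at si hne
  have oj : ofs X c v e.1 = v.B * σ := ofs_some sj
  have oi : ofs X c v e.2 = v.B * σ := ofs_some si
  rw [oj, oi] at hp
  have hK := C.K1 hs
  have t0 : 0 < t := C.t0.trans_le C.tt
  have m1 : ((D1 v v e : ℕ) : ℝ) ≤ Kc c s := le_trans (by exact_mod_cast le_max_left _ _) c1
  have m2 : ((D2 v v e : ℕ) : ℝ) ≤ Kc c s := le_trans (by exact_mod_cast le_max_right _ _) c1
  have := nc_eq hK m1 m2 hz hz' c3.le t0 thin acc (C.K2 hs hβ) hp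
  exact hne (D_eq h i1 i2 this)

/-- **the data of the number estimate**, one label `ρ` -/
theorem acM_S (h : QX X v τ) (C : CoD X c s β t) (hs : 0 ≤ s) (hβ : 0 ≤ β)
    (hn : ∀ l : ℕ, l.Prime → c < l → v.n ≤ l)
    (mR : ∀ j i, MP fun y => R y j i)
    (hR : ∀ y j i, R y j i → j.1.1 ≠ i.1.1 ∧ PsJ X c v t j i) (ρ : ℚ)
    (hρ : ∀ y j i, R y j i → ofs X c v j.1.1 = ρ)
    (sum : ∀ F : Finset ℕ, F ⊆ τ.items → (∀ q ∈ F, q ∈ X.S') →
      ∑ q ∈ F, RB X v q ≤ Real.log c ^ β) :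
    AcM X v v τ τ R (ofs X c v) (ofs X c v) c 1 (Real.log c ^ kA (s + 1 + 2)) t
      (Real.log c ^ (1 : ℝ)) (Real.log c ^ β) := by
  classical
  have one : (1:ℝ) ≤ Real.log c ^ (1 : ℝ) := by
    rw [Real.rpow_one]
    have := C.lg.1
    linarith
  have hc1 : ∀ {S : Finset ℚ}, (∀ x ∈ S, x = ρ) → (S.card : ℝ) ≤ Real.log c ^ (1 : ℝ) := by
    intro S hS
    have h1 : S.card ≤ 1 := Finset.card_le_one.2 fun a ha b hb => (hS a ha).trans (hS b hb).symm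
    exact le_trans (by exact_mod_cast h1) one
  refine ⟨mR, fun y j i hr _ _ a a' l1 l2 => (hR y j i hr).2.ex y a a' l1 l2,
    fun e he l hl hd => ?_, fun e he => ?_, fun e he => ?_, ?_, hc1 ?_, hc1 ?_,
    nc_S h C hs hβ hR⟩
  · obtain ⟨-, -, j, i, y, e1, e2, hr, y1, y2⟩ := mem_prs.1 he
    obtain ⟨hne, P⟩ := hR y j i hr
    obtain ⟨σ, sj, si, acc⟩ := P.st
    have ee : (j.1.1, i.1.1) = e := Prod.ext e1 e2
    rw [← ee] at hd
    refine smS h hn y1 y2 sj si (fun a a' t1 t2 => ?_) hl hd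
    have := P.ex y a a' t1 t2
    rwa [ofs_some sj, ofs_some si] at this
  · obtain ⟨-, -, j, i, y, e1, e2, hr, y1, y2⟩ := mem_prs.1 he
    rw [one_mul, ← e1]
    exact (hR y j i hr).2.thin
  · obtain ⟨-, -, j, i, y, e1, e2, hr, y1, y2⟩ := mem_prs.1 he
    obtain ⟨σ, sj, si, acc⟩ := (hR y j i hr).2.st
    rw [one_mul, one_mul, ← e1, ofs_some sj]
    exact acc
  · rw [div_one]
    refine sum _ (fun q hq => ?_) fun q hq => ?_
    · obtain ⟨e, he, rfl⟩ := Finset.mem_image.1 hq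
      exact (prs_alive h h he).1
    · obtain ⟨e, he, rfl⟩ := Finset.mem_image.1 hq
      exact (prs_alive h h he).2.1
  · intro x hx
    obtain ⟨e, he, rfl⟩ := Finset.mem_image.1 hx
    obtain ⟨-, -, j, i, y, e1, e2, hr, y1, y2⟩ := mem_prs.1 he
    rw [← e1]
    exact hρ y j i hr
  · intro x hx
    obtain ⟨e, he, rfl⟩ := Finset.mem_image.1 hx
    obtain ⟨-, -, j, i, y, e1, e2, hr, y1, y2⟩ := mem_prs.1 he
    obtain ⟨σ, sj, si, acc⟩ := (hR y j i hr).2.st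
    rw [← e2, ofs_some si, ← ofs_some (u := v) sj]
    exact hρ y j i hr

end pairs

/-- **REST COLUMN OF A NODE, one label**: the labels of the pair at the column `c` are equal (any
denominator), the first piece is inaccurate in the node -/
theorem rest_acS {s β t : ℝ} (hs : 0 ≤ s) (hβ : N.c2 + 2 ≤ β) {u : NS} {τ : IT} {c : ℕ}
    {K K₁ : X.c.Lam → X.c.Lam → ℝ} {W₀ : ℝ} {ε : X.c.Lam → ℝ} (C : CoD X c s β t)
    (h : NL X u τ) (hn : NcE14.Nc X u τ) (hl : ¬ isL τ) (hc : tp τ < c)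
    (hW : 0 ≤ W₀) (hK0 : ∀ j i, 0 ≤ K₁ j i) (hK : ∀ j i, K₁ j i ≤ W₀)
    (hKK : ∀ j i, K j i ≤ K₁ j i + K₁ i j)
    (hP : ∀ j i, K₁ j i ≠ 0 → j.1.1 ≠ i.1.1 ∧ PsJ X c u t j i) (c0 : ∀ j, 0 ≤ ε j)
    (hε : ∀ j i, K₁ j i ≠ 0 → ∀ k : X.c.Lam, k.1.1 = j.1.1 ∨ k.1.1 = i.1.1 →
      W₀ * Real.log c ^ (-s) ≤ ε k) :
    2 * bil K (vx X u τ) (vx X u τ) ≤ lm X (fun j => 8 * ε j) u τ := by
  classical
  have hc2 : 0 ≤ N.c2 := N.hc2
  have hβ0 : 0 ≤ β := by linarith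
  have h1 := h.mn.nd
  obtain ⟨k1, k2, k3, k4⟩ := nodeOk_hi h1.self.node hl
  have t0 : 0 < t := C.t0.trans_le C.tt
  have hnn : ∀ l : ℕ, l.Prime → c < l → u.n ≤ l := by
    intro l hl1 hcl
    by_contra hlt
    push Not at hlt
    have := k4 l hl1 hlt
    omega
  have hu : ∀ r : ℕ, r.Prime → r < u.n → r ≤ c := fun r hr h2 => (k4 r hr h2).trans hc.le
  have hsum : ∀ F : Finset ℕ, F ⊆ τ.items → (∀ q ∈ F, q ∈ X.S') →
      ∑ q ∈ F, RB X u q ≤ Real.log c ^ β := fun F hF hS =>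
    (hn.sumR' hF hS).trans (log_up hn.l1 hc.le (by linarith) hβ)
  have pV := fun j => pb_vx h.rg j
  -- the labels
  set o : X.c.Lam → ℚ := fun j => ofs X c u j.1.1 with ho
  have hoo : ∀ j i, K₁ j i ≠ 0 → o j = o i := by
    intro j i hr
    obtain ⟨σ, sj, si, -⟩ := (hP j i hr).2.st
    show ofs X c u j.1.1 = ofs X c u i.1.1
    rw [ofs_some sj, ofs_some si]
  set Λ : Finset ℚ := Finset.univ.image o with hΛ
  set KL : ℚ → X.c.Lam → X.c.Lam → ℝ := fun ρ j i => if o j = ρ ∧ o i = ρ then K₁ j i else 0 with hKL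
  set εL : ℚ → X.c.Lam → ℝ := fun ρ j => if o j = ρ then ε j else 0 with hεL
  -- each label
  have key : ∀ ρ : ℚ, 2 * bil (fun j i => KL ρ j i + KL ρ i j) (vx X u τ) (vx X u τ) ≤
      lm X (fun j => 8 * εL ρ j) u τ := by
    intro ρ
    have ne : ∀ j i, KL ρ j i ≠ 0 → o j = ρ ∧ o i = ρ ∧ K₁ j i ≠ 0 := by
      intro j i hr
      by_cases hh : o j = ρ ∧ o i = ρ
      · refine ⟨hh.1, hh.2, ?_⟩
        rw [hKL] at hr
        dsimp only at hr
        rwa [if_pos hh] at hr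
      · rw [hKL] at hr
        exact absurd (if_neg hh) hr
    refine vn_ac (ρ := ofs X c u) (β₁ := 1) (β₂ := β) (Z := 1) (t := t) (W := W₀) (K₁ := KL ρ) hs
      (by norm_num) hβ0 h C.hp C.c2 C.lg hu hW ?_ (fun j i => le_rfl) one_pos t0 C.tL
      (acM_S h1 C hs hβ0 hnn (mp_rl (KL ρ)) (fun y j i hr => hP j i (ne j i hr).2.2) ρ
        (fun y j i hr => (ne j i hr).1) hsum) ?_ ?_
    · intro j i
      rw [hKL]
      dsimp only
      split_ifs
      · exact hK j i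
      · exact hW
    · intro j
      rw [hεL]
      dsimp only
      split_ifs
      · exact c0 j
      · exact le_rfl
    · intro k e he hk
      obtain ⟨-, -, j, i, y, e1, e2, hr, -, -⟩ := mem_prs.1 he
      obtain ⟨a1, a2, a3⟩ := ne j i hr
      have hk' : k.1.1 = j.1.1 ∨ k.1.1 = i.1.1 := by rw [e1, e2]; exact hk
      have ok : o k = ρ := by
        rcases hk' with h5 | h5
        · rw [← a1]; show ofs X c u k.1.1 = ofs X c u j.1.1; rw [h5]
        · rw [← a2]; show ofs X c u k.1.1 = ofs X c u i.1.1; rw [h5]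
      rw [hεL]
      dsimp only
      rw [if_pos ok]
      exact hε j i a3 k hk'
  -- the sum over the labels
  have sK : ∀ j i, K₁ j i ≤ ∑ ρ ∈ Λ, KL ρ j i := by
    intro j i
    have nn : ∀ ρ ∈ Λ, 0 ≤ KL ρ j i := fun ρ _ => by
      rw [hKL]; dsimp only; split_ifs
      · exact hK0 j i
      · exact le_rfl
    by_cases hz : K₁ j i = 0
    · rw [hz]; exact Finset.sum_nonneg nn
    · have m : o j ∈ Λ := Finset.mem_image_of_mem _ (Finset.mem_univ _)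
      refine le_trans (le_of_eq ?_) (Finset.single_le_sum nn m)
      rw [hKL]; dsimp only
      rw [if_pos ⟨rfl, (hoo j i hz).symm⟩]
  have b1 : bil K (vx X u τ) (vx X u τ) ≤
      ∑ ρ ∈ Λ, bil (fun j i => KL ρ j i + KL ρ i j) (vx X u τ) (vx X u τ) := by
    unfold bil
    rw [Finset.sum_comm (s := Λ)]
    refine Finset.sum_le_sum fun j _ => ?_
    rw [Finset.sum_comm (s := Λ)]
    refine Finset.sum_le_sum fun i _ => ?_
    rw [← Finset.sum_mul]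
    refine mul_le_mul_of_nonneg_right ?_
      (I_nonneg fun x => mul_nonneg ((pV j).nonneg x) ((pV i).nonneg x))
    rw [Finset.sum_add_distrib]
    exact (hKK j i).trans (add_le_add (sK j i) (sK i j))
  have b2 : ∑ ρ ∈ Λ, lm X (fun j => 8 * εL ρ j) u τ ≤ lm X (fun j => 8 * ε j) u τ := by
    unfold lm
    rw [Finset.sum_comm]
    refine Finset.sum_le_sum fun j _ => ?_
    rw [← Finset.sum_mul]
    refine mul_le_mul_of_nonneg_right ?_ (I_vx_nonneg h.rg j)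
    have m : o j ∈ Λ := Finset.mem_image_of_mem _ (Finset.mem_univ _)
    refine le_of_eq ?_
    rw [Finset.sum_eq_single_of_mem _ m]
    · show 8 * εL (o j) j = _
      rw [hεL]; dsimp only
      rw [if_pos rfl]
    · intro ρ _ hne
      show 8 * εL ρ j = 0
      rw [hεL]; dsimp only
      rw [if_neg (fun h => hne h.symm), mul_zero]
  calc 2 * bil K (vx X u τ) (vx X u τ)
      ≤ ∑ ρ ∈ Λ, 2 * bil (fun j i => KL ρ j i + KL ρ i j) (vx X u τ) (vx X u τ) := by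
        rw [← Finset.mul_sum]
        exact mul_le_mul_of_nonneg_left b1 (by norm_num)
    _ ≤ ∑ ρ ∈ Λ, lm X (fun j => 8 * εL ρ j) u τ := Finset.sum_le_sum fun ρ _ => key ρ
    _ ≤ _ := b2

/-! ### the numbers of the large columns -/

section numbers
open Crest.Agent.R4P.ParF5 (NumOK one_lt_log rg rg_le)
open Crest.Agent.R4P.ParT21 (thF)
open Crest.Agent.R4P.ThrG21 Crest.Agent.R4P.ThrC21

variable {Ct C₀ : ℝ} {Sx : ℕ → (ℕ → ℝ) → Finset ℕ → Finset ℕ}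

/-- powers of the logarithm against the column -/
lemma pow_log_ev (e : ℝ) {C : ℝ} (hC : 0 ≤ C) :
    ∃ p₁ : ℕ, ∀ p : ℕ, p₁ ≤ p → C * Real.log p ^ e < p := by
  have h1 : ∀ᶠ x : ℝ in atTop, C * Real.log x ^ e < x := by
    have h2 := (isLittleO_log_rpow_rpow_atTop e (show (0 : ℝ) < 1 by norm_num)).bound
      (show (0 : ℝ) < 1 / (2 * (C + 1)) by positivity)
    filter_upwards [h2, eventually_ge_atTop (1 : ℝ)] with x hx hx1
    have hl : 0 ≤ Real.log x := Real.log_nonneg hx1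
    have hx0 : (0:ℝ) ≤ x := by linarith
    rw [Real.norm_eq_abs, Real.norm_eq_abs, abs_of_nonneg (Real.rpow_nonneg hl _),
      Real.rpow_one, abs_of_nonneg hx0] at hx
    have h3 : C * Real.log x ^ e ≤ (C + 1) * Real.log x ^ e :=
      mul_le_mul_of_nonneg_right (by linarith) (Real.rpow_nonneg hl _)
    have h4 : (C + 1) * Real.log x ^ e ≤ (C + 1) * (1 / (2 * (C + 1)) * x) :=
      mul_le_mul_of_nonneg_left hx (by positivity)
    have h5 : (C + 1) * (1 / (2 * (C + 1)) * x) = x / 2 := by field_simp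
    linarith
  obtain ⟨a, ha⟩ := eventually_atTop.1 ((tendsto_natCast_atTop_atTop (R := ℝ)).eventually h1)
  exact ⟨a, fun p hp => ha p hp⟩

/-- upper bound of the next value of the grid, any phase -/
lemma thrN_le {Ct : ℝ} (hCt : 0 < Ct) {δ : ℝ} (hδ : 0 < δ) : ∃ p₁ : ℕ, ∀ a : ℝ, 0 ≤ a → a < 1 →
    ∀ p ≥ p₁, thrN Ct a p ≤ Real.log p ^ (-(Ct - δ)) := by
  obtain ⟨p₁, h1⟩ := thrG_le_log hCt (half_pos hδ)
  have hl2 : 0 < Real.log 2 := Real.log_pos (by norm_num)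
  have e1 : ∀ᶠ x : ℝ in atTop, 2 * x ≤ δ / (2 * Ct) * x ^ 2 := by
    have hd : 0 < δ / (2 * Ct) := by positivity
    filter_upwards [eventually_ge_atTop (2 / (δ / (2 * Ct))), eventually_ge_atTop (1 : ℝ)] with x h1 h2
    rw [div_le_iff₀ hd] at h1
    nlinarith
  obtain ⟨b, hb⟩ := eventually_atTop.1 (((tendsto_sqrt_uG hCt).eventually e1).and
    ((tendsto_sqrt_uG hCt).eventually_ge_atTop 1))
  refine ⟨p₁ + b + 3, fun a ha ha1 p hp => ?_⟩
  have hp3 : 3 ≤ p := by omega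
  have hl : 1 < Real.log p := one_lt_log hp3
  have hl0 : 0 < Real.log p := by linarith
  have k1 := h1 a p (by omega)
  obtain ⟨k2, k3⟩ := hb p (by omega)
  have k4 : (iG Ct a p : ℝ) + a ≤ Real.sqrt (uG Ct p) := iG_le (by linarith)
  have k5 : thrN Ct a p ≤ thrG Ct a p * Real.exp (2 * Real.sqrt (uG Ct p)) := by
    unfold thrN thrG
    rw [← Real.exp_add, Real.exp_le_exp]
    nlinarith
  have k6 : Real.exp (2 * Real.sqrt (uG Ct p)) ≤ Real.log p ^ (δ / 2) := by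
    rw [Real.rpow_def_of_pos hl0, Real.exp_le_exp]
    refine k2.trans ?_
    rw [Real.sq_sqrt (uG_nn hCt.le p)]
    have h4 : (rg p : ℝ) * Real.log 2 ≤ Real.log (Real.log p) := by
      have := Real.log_le_log (by positivity) (rg_le hp3)
      rwa [Real.log_pow] at this
    have h6 : δ / (2 * Ct) * uG Ct p = rg p * Real.log 2 * (δ / 2) := by
      unfold uG; field_simp
    rw [h6]
    exact mul_le_mul_of_nonneg_right h4 (by positivity)
  calc thrN Ct a p ≤ thrG Ct a p * Real.exp (2 * Real.sqrt (uG Ct p)) := k5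
    _ ≤ Real.log p ^ (-(Ct - δ / 2)) * Real.log p ^ (δ / 2) :=
        mul_le_mul k1 k6 (Real.exp_pos _).le (Real.rpow_nonneg hl0.le _)
    _ = Real.log p ^ (-(Ct - δ)) := by
        rw [← Real.rpow_add hl0]; congr 1; ring

/-- **the numbers of the large columns**, `t` = next value of the grid -/
theorem coD_ev {s : ℝ} (hs : 0 ≤ s) (hN : NumOK N (thF Ct) Ct C₀ Sx) (hC2 : 2 ≤ N.C1)
    (hCt : aA (s + 1 + 2) (N.B + N.c2 + 3) + 1 ≤ Ct) (hCC : N.C1 - 2 < Ct) :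
    ∃ p₁ : ℕ, ∀ p0 ≥ p₁, ∀ (γ : ℝ) (P₀ : ℕ) (X : Ctx N γ p0 P₀), ∀ c : ℕ, p0 ≤ c →
      CoD X c s (N.B + N.c2 + 3) (thP Ct X c) := by
  have hNB : 0 ≤ N.B + N.c2 := NB_nn
  have hc2 : 0 ≤ N.c2 := N.hc2
  have hB : 0 ≤ N.B := by have := N.hB; have := N.hC1; linarith
  have haA := aA_nn (s := s + 1 + 2) (b := N.B + N.c2 + 3) (by linarith) (by linarith)
  have hCt1 : 1 ≤ Ct := by linarith
  have hCt0 : 0 < Ct := by linarith
  obtain ⟨a, ha⟩ := lgOk_ev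
  obtain ⟨b, hb⟩ := big_p N hCt0 1
  obtain ⟨d, hd⟩ := ParT21.ctx_small hN hCt0 (show (0:ℝ) < 1 / 16 by norm_num)
  obtain ⟨e, he⟩ := ParT21.ctx_lo hN hCt0
  obtain ⟨f, hf⟩ := ParT21.ctx_TH hN hC2 hCC
  obtain ⟨g, hg⟩ := thrN_le hCt0 one_pos
  obtain ⟨m, hm⟩ := pow_log_ev (kA (s + 1 + 2)) (show (0:ℝ) ≤ 4 by norm_num)
  obtain ⟨m', hm'⟩ := pow_log_ev Ct (show (0:ℝ) ≤ 1 by norm_num)
  obtain ⟨r, hr⟩ := eventually_atTop.1 ((tendsto_sqrt_uG hCt0).eventually_ge_atTop 10)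
  refine ⟨a + b + d + e + f + g + m + m' + r + 3, fun p0 hp0 γ P₀ X c hc => ?_⟩
  have hT := hf p0 (by omega) γ P₀ X
  have lg := ha c (by omega)
  have L1 : 1024 ≤ Real.log (c:ℝ) := lg.1
  have L0 : 0 < Real.log (c:ℝ) := by linarith
  have hc0 : (0:ℝ) < c := by exact_mod_cast (by omega : 0 < c)
  have hc1 : (1:ℝ) ≤ c := by exact_mod_cast (by omega : 1 ≤ c)
  have eT : X.c.wp.thr c = thrG Ct (aX Ct X) c := ParT21.thr_eqF hN X c
  have haa := aF_nn Ct p0 X.ψ X.S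
  have hab := aF_lt Ct p0 X.ψ X.S
  have θ0 : 0 < X.c.wp.thr c := by rw [eT]; exact thrG_pos _ _ _
  have θs : X.c.wp.thr c ≤ 1 / 16 := hd γ p0 P₀ X c (by omega)
  have lθ : Real.log c ^ (-Ct) ≤ X.c.wp.thr c := he γ p0 P₀ X c (by omega)
  obtain ⟨c1, c2, c3, c4, c5⟩ := hb c (by omega)
  -- the grid
  have hrc := hr c (by omega)
  have hi := lt_iG Ct (aX Ct X) c
  set x : ℝ := (iG Ct (aX Ct X) c : ℝ) + aX Ct X with hx
  have hx9 : 9 ≤ x := by linarith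
  have eG : X.c.wp.thr c = Real.exp (-x ^ 2) := eT
  have eN : thP Ct X c = Real.exp (-(x - 1) ^ 2) := by
    show thrN Ct (aX Ct X) c = _
    unfold thrN
    rw [hx]
    congr 3
    ring
  have tt : X.c.wp.thr c ≤ thP Ct X c := by
    rw [eG, eN, Real.exp_le_exp]
    nlinarith
  refine ⟨hc, by omega, lg, θ0, by nlinarith, fun s' hs' => ?_, ?_, ?_, ?_, tt, ?_, ?_, hm c (by omega)⟩
  · have f1 := hT.hi s' (by omega)
    refine le_trans ?_ f1
    have f2 : Real.log (c:ℝ) ≤ Real.log s' := Real.log_le_log hc0 (by exact_mod_cast hs'.le)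
    calc Real.log (c:ℝ) ^ (N.c2 + 2) ≤ Real.log s' ^ (N.c2 + 2) :=
          Real.rpow_le_rpow L0.le f2 (by linarith)
      _ ≤ Real.log s' ^ (N.B + N.c2 + 2) :=
          Real.rpow_le_rpow_of_exponent_le (by linarith) (by linarith)
  · refine lt_of_lt_of_le c3 ?_
    refine mul_le_mul_of_nonneg_left ?_ (by positivity)
    exact pow_le_pow_left₀ (by positivity) lθ 2
  · have hi1 : 1 ≤ 1 / X.c.wp.thr c := by
      rw [le_div_iff₀ θ0]; linarith
    obtain ⟨M, hM1, hM2⟩ := exists_nat_pow_near hi1 (by norm_num : (1:ℝ) < 2)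
    refine ⟨M, hM2, ?_⟩
    have d1 : (2:ℝ) ^ M ≤ Real.log c ^ Ct := by
      refine hM1.trans ?_
      rw [div_le_iff₀ θ0]
      calc (1:ℝ) = Real.log c ^ Ct * Real.log c ^ (-Ct) := by
            rw [← Real.rpow_add L0]; simp
        _ ≤ Real.log c ^ Ct * X.c.wp.thr c := mul_le_mul_of_nonneg_left lθ (by positivity)
    have d2 := Real.log_le_log (by positivity) d1
    rw [Real.log_pow, Real.log_rpow L0] at d2
    have d3 := Real.log_two_gt_d9
    have d4 : (0:ℝ) ≤ M := Nat.cast_nonneg M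
    nlinarith
  · have h1 := hm' c (by omega)
    rw [one_mul] at h1
    have h2 : 1 < (c:ℝ) * X.c.wp.thr c := by
      calc (1:ℝ) = Real.log c ^ Ct * Real.log c ^ (-Ct) := by
            rw [← Real.rpow_add L0]; simp
        _ < c * Real.log c ^ (-Ct) := mul_lt_mul_of_pos_right h1 (by positivity)
        _ ≤ _ := mul_le_mul_of_nonneg_left lθ hc0.le
    have h3 : (c:ℝ) ≤ (c:ℝ) ^ 5 := by
      calc (c:ℝ) = (c:ℝ) ^ 1 := (pow_one _).symm
        _ ≤ (c:ℝ) ^ 5 := pow_le_pow_right₀ hc1 (by norm_num)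
    have h4 := mul_le_mul_of_nonneg_right h3 θ0.le
    linarith
  · rw [eG, eN, ← Real.exp_nat_mul, ← Real.exp_nat_mul, Real.exp_le_exp]
    push_cast
    nlinarith
  · have h1 : thP Ct X c ≤ Real.log c ^ (-(Ct - 1)) := hg _ haa hab c (by omega)
    exact h1.trans (Real.rpow_le_rpow_of_exponent_le (by linarith) (by linarith))

end numbers

end Crest.Agent.R4P.AcK41
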