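import Crest.Agent.R4P.AcK_41

/-!
R4 (S0004), powers pass, helper41: **accuracy pairs of one node, small denominators in the node, radii
not comparable** (rest columns; the column may be a missing tie of the node).

* `lab_cntD` : labels of one circle with denominators below `2 ^ (2 ^ M)`: at most `M + 1`;
* `PuJ`, **`rest_acU`** : static pairs of one node, both labels of denominator `< c` in the node, the first
  piece inaccurate, the radii (or the cofactors) not comparable.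
-/

set_option autoImplicit false
set_option linter.unusedSectionVars false
set_option linter.unusedVariables false

open MeasureTheory Filter

namespace Crest.Agent.R4P.AcM41

open Crest.Agent.R4.Tour104 Crest.Agent.R4.Tour758 Crest.Agent.R4.Avg758 Crest.Agent.R4.Clos758
open Crest.Agent.R4.ClosL758 Crest.Agent.R4.ClosG758 Crest.Agent.R4.ClosR758
open Crest.Agent.R4.HVW560
open Crest.Agent.R4.Fam464 Crest.Agent.R4.Piece464
open Crest.Agent.R4P.Cnt588 Crest.Agent.R4P.Item758 Crest.Agent.R4P.AvgItem710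
open Crest.Agent.R4P.W363 Crest.Agent.R4P.LfDat734
open Crest.Agent.R4P.Walk560 Crest.Agent.R4P.NodeG33
open Crest.Agent.R4P.Data758 Crest.Agent.R4P.Skel189 Crest.Agent.R4P.WPex189
open Crest.Agent.R4P.Bld532 (NS All NodeOk Bk)
open Crest.Agent.R4P.Step588 (NDt CT CT_pos ctx_NDt uq_lt)
open Crest.Agent.R4.Soft104 (w)
open Crest.Agent.R4P.SameIx30 Crest.Agent.R4P.GPair33
open Crest.Agent.R4P.XmE18 Crest.Agent.R4P.XmM18 Crest.Agent.R4P.XmG18
open Crest.Agent.R4.LF363 (Lab)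
open Crest.Agent.R4P.WalkIT579 (tp isL nodeOk_hi top_of_nodeOk prime_ge)
open Crest.Agent.R4P.StM6 (dense)
open Crest.Agent.R4P.StB21 (Bl_node TH)
open Crest.Agent.R4P.AcH41 (C8 K8 C8_nn K8_nn)
open Crest.Agent.R4P.AcT41 (lab_cnt root5 thin_unique big_p)
open Crest.Agent.R4P.XmO37 (Tth)
open Crest.Agent.R4P.XmQ37 (ExP prs mem_prs prs_alive)
open Crest.Agent.R4P.E3V479 (qe)
open Crest.Agent.R4P.DTp26 (MP)
open Crest.Agent.R4P.JnE5 (Ker bil)
open Crest.Agent.R4P.PrH45 (RN FB)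
open Crest.Agent.R4P.PrK45
open Crest.Agent.R4P.RtL28
open Crest.Agent.R4P.RtC28 (tF)
open Crest.Agent.R4P.XmB41 Crest.Agent.R4P.XmC41 Crest.Agent.R4P.XmD41 Crest.Agent.R4P.AcJ41
open Crest.Agent.R4P

/-! ### number of labels of one circle -/

/-- the class of a denominator -/
def cls (x : ℚ) : ℕ := if x.den = 1 then 0 else Nat.log 2 (Nat.log 2 x.den) + 1

/-- two labels of one circle: different classes -/
lemma cls_lt {θ a b : ℝ} {x y : ℚ} (h : Lab θ a x) (h' : Lab θ b y) (hne : x ≠ y)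
    (hle : x.den ≤ y.den) : cls x < cls y := by
  have h2 := Crest.Agent.R4.LL207.double h h' hne hle
  have hx := x.den_pos
  have hy := y.den_pos
  have hcub : x.den ^ 3 ≤ 2 * y.den := by
    rcases (Crest.Agent.R4.LL207.two_labels h h' hne).2 with h1 | h1
    · exact_mod_cast h1
    · exfalso
      have h3 : y.den ^ 3 ≤ 2 * x.den := by exact_mod_cast h1
      have h4 : y.den ^ 3 ≤ y.den := h3.trans h2
      have h5 : y.den < 2 := by
        by_contra h6
        push Not at h6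
        nlinarith [Nat.mul_le_mul h6 h6, Nat.mul_le_mul (Nat.mul_le_mul h6 h6) (le_refl y.den)]
      omega
  have hy1 : y.den ≠ 1 := by omega
  unfold cls
  rw [if_neg hy1]
  split_ifs with hx1
  · omega
  · have hx2 : 2 ≤ x.den := by omega
    set k := Nat.log 2 x.den with hk
    set l := Nat.log 2 y.den with hl
    have k1 : 1 ≤ k := Nat.log_pos (by norm_num) hx2
    have k2 : 2 ^ k ≤ x.den := Nat.pow_log_le_self 2 (by omega)
    have l2 : y.den < 2 ^ (l + 1) := Nat.lt_pow_succ_log_self (by norm_num) _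
    have e1 : 2 ^ (3 * k) < 2 ^ (l + 2) := by
      calc 2 ^ (3 * k) = (2 ^ k) ^ 3 := by rw [← pow_mul, mul_comm]
        _ ≤ x.den ^ 3 := Nat.pow_le_pow_left k2 3
        _ ≤ 2 * y.den := hcub
        _ < 2 * 2 ^ (l + 1) := by omega
        _ = 2 ^ (l + 2) := by ring
    have e2 : 3 * k < l + 2 := (Nat.pow_lt_pow_iff_right (by norm_num)).1 e1
    have e3 : k * 2 ≤ l := by omega
    have e4 : Nat.log 2 k + 1 ≤ Nat.log 2 l := by
      rw [← Nat.log_mul_base (by norm_num) (by omega)]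
      exact Nat.log_mono_right e3
    omega

/-- **number of the labels of one circle** -/
lemma lab_cntD {θ : ℝ} {I : Finset ℕ} {a : ℕ → ℝ} {ρ : ℕ → ℚ} (hL : ∀ q ∈ I, Lab θ (a q) (ρ q))
    {M : ℕ} (hd : ∀ q ∈ I, (ρ q).den < 2 ^ (2 ^ M)) : (I.image ρ).card ≤ M + 1 := by
  classical
  have hm : ∀ x ∈ I.image ρ, cls x ∈ Finset.range (M + 1) := by
    intro x hx
    obtain ⟨q, hq, rfl⟩ := Finset.mem_image.1 hx
    rw [Finset.mem_range]
    unfold cls
    split_ifs with h1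
    · omega
    · have h0 := (ρ q).den_pos
      have h2 : Nat.log 2 (ρ q).den < 2 ^ M := Nat.log_lt_of_lt_pow (by omega) (hd q hq)
      have h3 : Nat.log 2 (ρ q).den ≠ 0 := by
        have : 0 < Nat.log 2 (ρ q).den := Nat.log_pos (by norm_num) (by omega)
        omega
      have h4 := Nat.log_lt_of_lt_pow h3 h2
      omega
  have hinj : ∀ x ∈ I.image ρ, ∀ y ∈ I.image ρ, cls x = cls y → x = y := by
    intro x hx y hy hxy
    obtain ⟨q, hq, rfl⟩ := Finset.mem_image.1 hx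
    obtain ⟨q', hq', rfl⟩ := Finset.mem_image.1 hy
    by_contra hne
    rcases le_total (ρ q).den (ρ q').den with h1 | h1
    · exact absurd hxy (cls_lt (hL q hq) (hL q' hq') hne h1).ne
    · exact absurd hxy (cls_lt (hL q' hq') (hL q hq) (fun h => hne h.symm) h1).ne'
  have := Finset.card_le_card_of_injOn cls hm (fun x hx y hy h => hinj x hx y hy h)
  rwa [Finset.card_range] at this

/-- the exponent of a column -/
lemma lgM {c : ℕ} (hc : 2 ≤ c) (hL : 1024 ≤ Real.log (c:ℝ)) :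
    ∃ M : ℕ, c * c ≤ 2 ^ (2 ^ M) ∧ (M : ℝ) + 2 ≤ Real.log c := by
  set l := Nat.log 2 c with hl
  have l1 : 1 ≤ l := Nat.log_pos (by norm_num) hc
  have l2 : c < 2 ^ (l + 1) := Nat.lt_pow_succ_log_self (by norm_num) _
  refine ⟨Nat.log 2 l + 3, ?_, ?_⟩
  · have h1 : l < 2 ^ (Nat.log 2 l + 1) := Nat.lt_pow_succ_log_self (by norm_num) _
    have h2 : 2 ^ (Nat.log 2 l + 3) = 4 * 2 ^ (Nat.log 2 l + 1) := by ring
    have h3 : (l + 1) + (l + 1) ≤ 2 ^ (Nat.log 2 l + 3) := by omega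
    calc c * c ≤ 2 ^ (l + 1) * 2 ^ (l + 1) := Nat.mul_le_mul l2.le l2.le
      _ = 2 ^ ((l + 1) + (l + 1)) := (pow_add 2 _ _).symm
      _ ≤ _ := Nat.pow_le_pow_right (by norm_num) h3
  · have h1 : 2 ^ (Nat.log 2 l) ≤ l := Nat.pow_log_le_self 2 (by omega)
    have h2 : ∀ k : ℕ, 2 * k ≤ 2 ^ k + 0 := by
      intro k
      induction k with
      | zero => norm_num
      | succ k ih =>
        rcases Nat.eq_zero_or_pos k with h0 | h0
        · rw [h0]; norm_num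
        · have : 2 ≤ 2 ^ k := by
            calc 2 = 2 ^ 1 := by norm_num
              _ ≤ 2 ^ k := Nat.pow_le_pow_right (by norm_num) h0
          rw [pow_succ]; omega
    have h3 : 2 * Nat.log 2 l ≤ l := (h2 _).trans (by omega)
    have h3' : 2 * ((Nat.log 2 l : ℕ) : ℝ) ≤ l := by exact_mod_cast h3
    have h4 : (2:ℝ) ^ l ≤ c := by exact_mod_cast Nat.pow_log_le_self 2 (by omega : c ≠ 0)
    have h5 : (l : ℝ) * Real.log 2 ≤ Real.log c := by
      have := Real.log_le_log (by positivity) h4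
      rwa [Real.log_pow] at this
    have h6 : (0.6931471803 : ℝ) < Real.log 2 := Real.log_two_gt_d9
    have l0 : (0:ℝ) ≤ l := Nat.cast_nonneg _
    push_cast
    nlinarith

/-- the denominator of a divided rational -/
lemma den_div {m : ℕ} (hm : 0 < m) (x : ℚ) : x.den ≤ m * ((m : ℚ) * x).den := by
  have hq : (m : ℚ) ≠ 0 := by exact_mod_cast hm.ne'
  have e : x = (m : ℚ)⁻¹ * ((m : ℚ) * x) := by field_simp
  have h1 := Rat.mul_den_dvd ((m : ℚ)⁻¹) ((m : ℚ) * x)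
  rw [← e] at h1
  have h2 : ((m : ℚ)⁻¹).den = m := by
    rw [Rat.inv_natCast_den_of_pos hm]
  rw [h2] at h1
  exact Nat.le_of_dvd (Nat.mul_pos hm ((m : ℚ) * x).den_pos) h1

variable {N : Skel189.Num} {γ : ℝ} {p0 P₀ : ℕ} {X : Ctx N γ p0 P₀}

/-- **number of the labels of one list with small denominators** -/
theorem cntD {c b : ℕ} {I : Finset ℕ} (h : LsC X.c.t c b I) {s β t : ℝ} (C : CoD X c s β t)
    {J : Finset ℕ} (hJ : J ⊆ I) {f : ℕ → ℚ} {m : ℕ} (hm0 : 0 < m) (hm : m ≤ c)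
    (hf : ∀ q ∈ J, ∃ σ, X.c.st c q = some σ ∧ ((m : ℚ) * (b * σ)).den < c ∧ f q = m * (b * σ) ∧
      (b : ℝ) * X.c.r q ≤ Real.log c ^ (N.c2 + 2)) :
    ((J.image f).card : ℝ) ≤ Real.log c ^ (1 : ℝ) := by
  classical
  obtain ⟨Λf, hΛ, H⟩ := h.ctx C
  obtain ⟨M, hM, hML⟩ := lgM C.c2 C.lg.1
  set I' : Finset ℕ := J.filter fun q => ∃ σ : ℚ, X.c.st c q = some σ ∧
    ((m : ℚ) * (b * σ)).den < c ∧ Lab (b * X.c.γ) (b * X.c.r q) (b * σ) with hI
  set ρ : ℕ → ℚ := fun q => (b : ℚ) * ((X.c.st c q).getD 0) with hρ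
  have hI' : ∀ q ∈ I', Lab (b * X.c.γ) (b * X.c.r q) (ρ q) ∧ (ρ q).den < 2 ^ (2 ^ M) := by
    intro q hq
    obtain ⟨-, σ, h1, h2, h3⟩ := Finset.mem_filter.1 hq
    have e : ρ q = (b : ℚ) * σ := by
      show (b : ℚ) * ((X.c.st c q).getD 0) = _
      rw [h1, Option.getD_some]
    rw [e]
    refine ⟨by exact_mod_cast h3, ?_⟩
    refine lt_of_lt_of_le ?_ hM
    calc ((b : ℚ) * σ).den ≤ m * ((m : ℚ) * (b * σ)).den := den_div hm0 _
      _ < m * c := Nat.mul_lt_mul_of_pos_left h2 hm0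
      _ ≤ c * c := Nat.mul_le_mul_right _ hm
  have hcnt := lab_cntD (I := I') (a := fun q => b * X.c.r q) (ρ := ρ)
    (fun q hq => (hI' q hq).1) (M := M) (fun q hq => (hI' q hq).2)
  have hsub : J.image f ⊆ (I'.image ρ ∪ Λf).image fun x => (m : ℚ) * x := by
    intro x hx
    obtain ⟨q, hq, rfl⟩ := Finset.mem_image.1 hx
    obtain ⟨σ, hσ, hd, e, hK⟩ := hf q hq
    refine Finset.mem_image.2 ⟨b * σ, ?_, e.symm⟩
    rcases H q (hJ hq) hK σ hσ with h1 | h1
    · refine Finset.mem_union_left _ (Finset.mem_image.2 ⟨q, Finset.mem_filter.2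
        ⟨hq, σ, hσ, hd, h1⟩, ?_⟩)
      show (b : ℚ) * ((X.c.st c q).getD 0) = _
      rw [hσ, Option.getD_some]
    · exact Finset.mem_union_right _ h1.1
  have h3 : (J.image f).card ≤ M + 2 :=
    (Finset.card_le_card hsub).trans (Finset.card_image_le.trans
      ((Finset.card_union_le _ _).trans (by omega)))
  rw [Real.rpow_one]
  have h4 : ((J.image f).card : ℝ) ≤ M + 2 := by exact_mod_cast h3
  exact h4.trans hML

/-! ### static pairs -/

/-- **static pair, small denominators in the node, not comparable** : the first piece is inaccurate -/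
structure PuJ (X : Ctx N γ p0 P₀) (c : ℕ) (s : ℝ) (u : NS) (t : ℝ) (j i : X.c.Lam) : Prop where
  sj : ∃ σ : ℚ, X.c.st c j.1.1 = some σ ∧ ((u.B : ℚ) * σ).den < c ∧
    RB X u j.1.1 ^ 4 < |(u.B : ℝ) * X.c.γ - (((u.B : ℚ) * σ : ℚ) : ℝ)| ^ 5
  si : ∃ σ : ℚ, X.c.st c i.1.1 = some σ ∧ ((u.B : ℚ) * σ).den < c
  ex : ∀ (y : ℝ) (a a' : ℤ), Tth X u j y a → Tth X u i y a' →
    ((a : ℚ) + ofs X c u j.1.1) * (i.1.1 / u.A : ℕ) =
      (a' + ofs X c u i.1.1) * (j.1.1 / u.A : ℕ)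
  thin : RB X u j.1.1 ≤ t
  un : Kc c s < ((max (D1 u u (j.1.1, i.1.1)) (D2 u u (j.1.1, i.1.1)) : ℕ) : ℝ) ∨
    Kc c s * RB X u i.1.1 ≤ RB X u j.1.1 ∨ Kc c s * RB X u j.1.1 ≤ RB X u i.1.1

section pairs
variable {c b m : ℕ} {v : NS} {τ : IT} {s β t : ℝ} {R : ℝ → X.c.Lam → X.c.Lam → Prop}

/-- **the data of the number estimate** -/
theorem acM_U (h : QX X v τ) (C : CoD X c s β t) (hs : 0 ≤ s) (hβ : 0 ≤ β)
    (hb : v.B = b * m) (hm0 : 0 < m) (hm : m ≤ c) (L : LsC X.c.t c b τ.items)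
    (hn : ∀ l : ℕ, l.Prime → c < l → v.n ≤ l ∧ v.n ≤ l)
    (hκ : ∀ q ∈ τ.items, q ∈ X.S' → b * X.c.r q ≤ Real.log c ^ (N.c2 + 2))
    (mR : ∀ j i, MP fun y => R y j i)
    (hR : ∀ y j i, R y j i → PuJ X c s v t j i)
    (sum : ∀ F : Finset ℕ, F ⊆ τ.items → (∀ q ∈ F, q ∈ X.S') →
      ∑ q ∈ F, RB X v q ≤ Real.log c ^ β) :
    AcM X v v τ τ R (ofs X c v) (ofs X c v) c 1 (Real.log c ^ kA (s + 1 + 2)) t
      (Real.log c ^ (1 : ℝ)) (Real.log c ^ β) := by
  classical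
  have hex : ExP X v v τ τ R (ofs X c v) (ofs X c v) :=
    fun y j i hr _ _ a a' l1 l2 => (hR y j i hr).ex y a a' l1 l2
  have eB : ∀ σ : ℚ, (v.B : ℚ) * σ = (m : ℚ) * (b * σ) := by
    intro σ
    rw [hb]; push_cast; ring
  refine ⟨mR, hex, fun e he l hl hd => ?_, fun e he => ?_, fun e he => ?_, ?_, ?_, ?_,
    fun e he => ?_⟩
  · obtain ⟨-, -, j, i, y, e1, e2, hr, y1, y2⟩ := mem_prs.1 he
    have P := hR y j i hr
    obtain ⟨σ, sj, dj, acc⟩ := P.sj
    obtain ⟨σ', si, di⟩ := P.si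
    have ee : (j.1.1, i.1.1) = e := Prod.ext e1 e2
    rw [← ee] at hd
    refine smA h h hn y1 y2 sj si (fun a a' t1 t2 => ?_) (fun l _ hlc hd => ?_)
      (fun l _ hlc hd => ?_) hl hd
    · have := P.ex y a a' t1 t2
      rwa [ofs_some sj, ofs_some si] at this
    · have := Nat.le_of_dvd ((v.B : ℚ) * σ).den_pos hd
      omega
    · have := Nat.le_of_dvd ((v.B : ℚ) * σ').den_pos hd
      omega
  · obtain ⟨-, -, j, i, y, e1, e2, hr, y1, y2⟩ := mem_prs.1 he
    rw [one_mul, ← e1]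
    exact (hR y j i hr).thin
  · obtain ⟨-, -, j, i, y, e1, e2, hr, y1, y2⟩ := mem_prs.1 he
    obtain ⟨σ, sj, dj, acc⟩ := (hR y j i hr).sj
    rw [one_mul, one_mul, ← e1, ofs_some sj]
    exact acc
  · rw [div_one]
    refine sum _ (fun q hq => ?_) fun q hq => ?_
    · obtain ⟨e, he, rfl⟩ := Finset.mem_image.1 hq
      exact (prs_alive h h he).1
    · obtain ⟨e, he, rfl⟩ := Finset.mem_image.1 hq
      exact (prs_alive h h he).2.1
  · have e : ((prs X v v τ τ R).image fun e => ofs X c v e.1) =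
        ((prs X v v τ τ R).image Prod.fst).image (ofs X c v) := by
      rw [Finset.image_image]
      rfl
    rw [e]
    refine cntD L C (m := m) (fun q hq => ?_) hm0 hm fun q hq => ?_
    · obtain ⟨e, he, rfl⟩ := Finset.mem_image.1 hq
      exact (prs_alive h h he).1
    · obtain ⟨e, he, rfl⟩ := Finset.mem_image.1 hq
      have al := prs_alive h h he
      obtain ⟨-, -, j, i, y, e1, e2, hr, y1, y2⟩ := mem_prs.1 he
      obtain ⟨σ, sj, dj, acc⟩ := (hR y j i hr).sj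
      rw [e1] at sj
      refine ⟨σ, sj, by rwa [← eB], ?_, hκ _ al.1 al.2.1⟩
      rw [ofs_some sj, eB]
  · have e : ((prs X v v τ τ R).image fun e => ofs X c v e.2) =
        ((prs X v v τ τ R).image Prod.snd).image (ofs X c v) := by
      rw [Finset.image_image]
      rfl
    rw [e]
    refine cntD L C (m := m) (fun q hq => ?_) hm0 hm fun q hq => ?_
    · obtain ⟨e, he, rfl⟩ := Finset.mem_image.1 hq
      exact (prs_alive h h he).2.2.1
    · obtain ⟨e, he, rfl⟩ := Finset.mem_image.1 hq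
      have al := prs_alive h h he
      obtain ⟨-, -, j, i, y, e1, e2, hr, y1, y2⟩ := mem_prs.1 he
      obtain ⟨σ, si, di⟩ := (hR y j i hr).si
      rw [e2] at si
      refine ⟨σ, si, by rwa [← eB], ?_, hκ _ al.2.2.1 al.2.2.2⟩
      rw [ofs_some si, eB]
  · obtain ⟨-, -, j, i, y, e1, e2, hr, y1, y2⟩ := mem_prs.1 he
    have ee : (j.1.1, i.1.1) = e := Prod.ext e1 e2
    have P := (hR y j i hr).un
    rw [← ee]
    exact P

end pairs

/-- **REST COLUMN OF A NODE, small denominators in the node, not comparable** : `b = u.B`, or `u.B = b c`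
when the column `c` is a missing tie of the node -/
theorem rest_acU {s β t : ℝ} (hs : 0 ≤ s) (hβ : N.c2 + 2 ≤ β) {u : NS} {τ : IT} {c b : ℕ}
    {K K₁ : X.c.Lam → X.c.Lam → ℝ} {W₀ : ℝ} {ε : X.c.Lam → ℝ} (C : CoD X c s β t)
    (h : NL X u τ) (hn : NcE14.Nc X u τ) (hl : ¬ isL τ) (hc : tp τ < c)
    (hb : (u.B = b ∧ ∀ l : ℕ, l.Prime → l ∣ u.B → c < l) ∨
      (c.Prime ∧ u.B = b * c ∧ ∀ l : ℕ, l.Prime → l ∣ u.B → c ≤ l))
    (hW : 0 ≤ W₀) (hK : ∀ j i, K₁ j i ≤ W₀) (hKK : ∀ j i, K j i ≤ K₁ j i + K₁ i j)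
    (hP : ∀ j i, K₁ j i ≠ 0 → PuJ X c s u t j i) (c0 : ∀ j, 0 ≤ ε j)
    (hε : ∀ j i, K₁ j i ≠ 0 → ∀ k : X.c.Lam, k.1.1 = j.1.1 ∨ k.1.1 = i.1.1 →
      W₀ * Real.log c ^ (-s) ≤ ε k) :
    2 * bil K (vx X u τ) (vx X u τ) ≤ lm X (fun j => 8 * ε j) u τ := by
  classical
  have hc2 : 0 ≤ N.c2 := N.hc2
  have hβ0 : 0 ≤ β := by linarith
  have h1 := h.mn.nd
  obtain ⟨k1, k2, k3, k4⟩ := nodeOk_hi h1.self.node hl
  have t0 : 0 < t := C.t0.trans_le C.tt
  have hR : ∀ y j i, rl K₁ y j i → PuJ X c s u t j i := fun y j i hr => hP j i hr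
  have hRB : ∀ q ∈ τ.items, q ∈ X.S' → RB X u q ≤ Real.log c ^ (N.c2 + 2) := fun q hq hS =>
    (hn.hi q hq hS).trans (log_up hn.l1 hc.le (by linarith) le_rfl)
  have hnn : ∀ l : ℕ, l.Prime → c < l → u.n ≤ l ∧ u.n ≤ l := by
    intro l hl1 hcl
    have : u.n ≤ l := by
      by_contra hlt
      push Not at hlt
      have := k4 l hl1 hlt
      omega
    exact ⟨this, this⟩
  have hu : ∀ r : ℕ, r.Prime → r < u.n → r ≤ c := fun r hr h2 => (k4 r hr h2).trans hc.le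
  have hsum : ∀ F : Finset ℕ, F ⊆ τ.items → (∀ q ∈ F, q ∈ X.S') →
      ∑ q ∈ F, RB X u q ≤ Real.log c ^ β := fun F hF hS =>
    (hn.sumR' hF hS).trans (log_up hn.l1 hc.le (by linarith) hβ)
  have key : ∃ m : ℕ, u.B = b * m ∧ 0 < m ∧ m ≤ c ∧ LsC X.c.t c b τ.items ∧
      (∀ q ∈ τ.items, q ∈ X.S' → (b:ℝ) * X.c.r q ≤ Real.log c ^ (N.c2 + 2)) := by
    rcases hb with ⟨hb, hB⟩ | ⟨hcp, hb, hB⟩
    · have L := lsC_node h1 X.tOk hl hc.le hB
      rw [hb] at L
      refine ⟨1, by rw [mul_one]; exact hb, one_pos, by have := C.c2; omega, L, fun q hq hS => ?_⟩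
      rw [← hb, ← RB_al hS]
      exact hRB q hq hS
    · have L := lsC_div h1 X.tOk hl hc hcp hb hB
      have hκ : ∀ q ∈ τ.items, q ∈ X.S' → (b:ℝ) * X.c.r q ≤ Real.log c ^ (N.c2 + 2) := by
        intro q hq hS
        refine le_trans ?_ (hRB q hq hS)
        rw [RB_al hS, hb]
        push_cast
        have r0 : 0 < X.c.r q := X.rpos hS
        have b0 : (0:ℝ) ≤ b := Nat.cast_nonneg _
        have c1 : (1:ℝ) ≤ c := by exact_mod_cast hcp.one_lt.le
        have : 0 ≤ (b:ℝ) * X.c.r q := by positivity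
        nlinarith
      exact ⟨c, hb, hcp.pos, le_rfl, L, hκ⟩
  obtain ⟨m, hm, hm0, hmc, L, hκ⟩ := key
  refine vn_ac (ρ := ofs X c u) (β₁ := 1) (β₂ := β) (Z := 1) (t := t) (W := W₀) hs (by norm_num)
    hβ0 h C.hp C.c2 C.lg hu hW hK hKK one_pos t0 C.tL
    (acM_U h1 C hs hβ0 hm hm0 hmc L hnn hκ (mp_rl K₁) hR hsum) c0 ?_
  intro k e he hk
  obtain ⟨-, -, j, i, y, e1, e2, hr, -, -⟩ := mem_prs.1 he
  exact hε j i hr k (by rw [e1, e2]; exact hk)

end Crest.Agent.R4P.AcM41
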