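import Crest.Agent.R4P.DseTk_23

/-!
R4 (S0004), powers pass, helper23: **the target `TgtD` for the final numbers and the end of the proof**.

* `tgtD_end` : `TgtD N γ` from the statement on the lost labels (helper24) and the far nodes (helper7);
* `S0004_end` : S0004 from the three targets for the concrete thinness `thF` and prune `SxF`.
-/

set_option autoImplicit false
set_option linter.unusedSectionVars false
set_option linter.unusedVariables false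

open MeasureTheory Filter

namespace Crest.Agent.R4P.EndD23

open Crest.Agent.R4P.Skel189 Crest.Agent.R4P.Cnt588 Crest.Agent.R4.Max709
open Crest.Agent.R4.Soft104
open Crest.Agent.R4P.ParF5 Crest.Agent.R4P.NumX34 Crest.Agent.R4P.ParT21
open Crest.Agent.R4P.FinAll26 (TgtX TgtB TgtD NumFin)
open Crest.Agent.R4P.FinD21 (TChK TFar tgtD_of)
open Crest.Agent.R4P.NumG23 Crest.Agent.R4P.DseTk23 Crest.Agent.R4P.DseN23

lemma NumFin.weaken {N : Skel189.Num} {th : ℕ → (ℕ → ℝ) → Finset ℕ → ℕ → ℝ} {Ct c c' : ℝ} (h : NumFin N th Ct c)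
    (hc : c' ≤ c) : NumFin N th Ct c' :=
  ⟨hc.trans h.C1, h.c2, h.B, h.A, h.a', h.a, h.Ct, h.rg⟩

/-- **the target of [W-dseR]** from the lost labels and the far nodes -/
theorem tgtD_end (hW : ∃ K₀ : ℝ, ∀ CL C2 Cθ κ : ℝ, 0 ≤ CL → 0 ≤ C2 → 0 ≤ κ → K₀ < Cθ →
      κ + 2 + C2/500 < 47/5000 * Cθ → WL CL C2 Cθ κ)
    (hF : ∃ c : ℝ, ∀ (N : Skel189.Num) (Ct C₀ γ : ℝ), NumOK N (thF Ct) Ct C₀ (SxF γ N.C1) →
      NumFin N (thF Ct) Ct c → NumG N → TFar N γ) :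
    ∃ c : ℝ, ∀ (N : Skel189.Num) (Ct C₀ γ : ℝ), NumOK N (thF Ct) Ct C₀ (SxF γ N.C1) →
      NumFin N (thF Ct) Ct c → NumG N → TgtD N γ := by
  obtain ⟨c1, h1⟩ := tchk_of hW
  obtain ⟨c2, h2⟩ := tgtD_of
  obtain ⟨c3, h3⟩ := hF
  refine ⟨max (max c1 c2) (max c3 10), fun N Ct C₀ γ h hN hG => ?_⟩
  have n1 : NumFin N (thF Ct) Ct c1 := NumFin.weaken hN ((le_max_left _ _).trans (le_max_left _ _))
  have n2 : NumFin N (thF Ct) Ct c2 := NumFin.weaken hN ((le_max_right _ _).trans (le_max_left _ _))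
  have n3 : NumFin N (thF Ct) Ct c3 := NumFin.weaken hN ((le_max_left _ _).trans (le_max_right _ _))
  have e1 : 10 ≤ N.C1 := ((le_max_right _ _).trans (le_max_right _ _)).trans hN.C1
  have eB := hN.B
  have ec := hN.c2
  have k1 : TChK N γ (N.B + 2) (N.C1 + 3) := by
    refine h1 N Ct C₀ _ h n1 hG γ (aAcc N.C1) (by unfold aAcc; linarith) ?_ ?_
    · intro p0 ψ S
      rw [eB, ec]
      exact NumG23.SxF_subA γ N.C1 p0 ψ S
    · intro p0 ψ S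
      rw [eB, ec]
      exact NumG23.SxF_subB γ N.C1 p0 ψ S
  exact h2 N Ct C₀ _ h n2 γ (N.B + 2) (N.C1 + 3) le_rfl (by rw [ec]; linarith)
    (by rw [eB]; linarith) k1 (h3 N Ct C₀ γ h n3 hG)

/-- **S0004 from the three targets** for the thinness `thF` and the prune `SxF` -/
theorem S0004_end
    (hX : ∃ c : ℝ, ∀ (N : Skel189.Num) (Ct C₀ γ : ℝ), NumOK N (thF Ct) Ct C₀ (SxF γ N.C1) →
      NumFin N (thF Ct) Ct c → NumG N → TgtX N γ)
    (hB : ∃ c : ℝ, ∀ (N : Skel189.Num) (Ct C₀ γ : ℝ), NumOK N (thF Ct) Ct C₀ (SxF γ N.C1) →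
      NumFin N (thF Ct) Ct c → NumG N → TgtB N γ)
    (hD : ∃ c : ℝ, ∀ (N : Skel189.Num) (Ct C₀ γ : ℝ), NumOK N (thF Ct) Ct C₀ (SxF γ N.C1) →
      NumFin N (thF Ct) Ct c → NumG N → TgtD N γ)
    (γ : ℝ) (ψ : ℕ → ℝ)
    (hψ : ∀ q, 0 ≤ ψ q) (hdiv : ¬ Summable fun q : ℕ => (Nat.totient q : ℝ) / q * ψ q) :
    ∀ᵐ x : ℝ, ∃ᶠ q : ℕ in atTop, |(q : ℝ) * x - γ - round ((q : ℝ) * x - γ)| < ψ q :=
  S0004_numG (th := thF) (Sx := SxF) (cS := 0) thF_ok (fun γ C1 hC1 => SxF_mass γ C1 hC1)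
    hX hB hD γ ψ hψ hdiv

end Crest.Agent.R4P.EndD23
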