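import Crest.Agent.R4P.ExL_36
import Crest.Agent.R4P.EndD_23

/-!
R4 (S0004), POWERS, helper26: **the target `TgtX` of group [X] for the final numbers**.

* `tgtX_fin` : `TgtX N γ` from `NumOK` and `NumFin` (`C1` large).
* `S0004_of_BD` : S0004 from the two targets `TgtB` (births) and `TgtD` (`dseR`).
-/

set_option autoImplicit false
set_option linter.unusedSectionVars false
set_option linter.unusedVariables false

open MeasureTheory Filter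

namespace Crest.Agent.R4P.TgtXF26

open Crest.Agent.R4P.Skel189 Crest.Agent.R4P.Cnt588 Crest.Agent.R4.Max709
open Crest.Agent.R4.Soft104
open Crest.Agent.R4P.ParF5 Crest.Agent.R4P.NumX34 Crest.Agent.R4P.ParT21
open Crest.Agent.R4P.FinAll26 Crest.Agent.R4P.NumG23 Crest.Agent.R4P.TgtX26
open Crest.Agent.R4.ClsS (eps1)
open Crest.Agent.R4.ShotG223 (eps2)
open Crest.Agent.R4P.KindPay36 (CA KOk)

/-- **the target of [X]** : `C1` large -/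
theorem tgtX_fin : ∃ c : ℝ, ∀ (N : Skel189.Num) (th : ℕ → (ℕ → ℝ) → Finset ℕ → ℕ → ℝ) (Ct C₀ γ : ℝ)
    (Sx : ℕ → (ℕ → ℝ) → Finset ℕ → Finset ℕ), NumOK N th Ct C₀ Sx → NumFin N th Ct c →
      TgtX N γ := by
  refine ⟨max 2000 LowT33.clT, fun N th Ct C₀ γ Sx h hN => ?_⟩
  have e0 : (2000:ℝ) ≤ max 2000 LowT33.clT := le_max_left _ _
  have e1 := hN.C1
  have e2 : LowT33.clT ≤ N.C1 := (le_max_right _ _).trans e1
  have e3 : (2000:ℝ) ≤ N.C1 := e0.trans e1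
  have eCt := hN.Ct
  have hcl : LowT33.clT ≤ 121 * N.C1 := by linarith
  have hCt : Ct ≤ 121 * N.C1 := by rw [eCt]; linarith
  obtain ⟨B₁, Ce, K₁, hK₁, H⟩ := CzCtx36.ctx_CBX h (K := 6) (Kf := 6) (by norm_num) (by norm_num)
    (CzCtx36.exLTT N) hcl hCt
  have hk := kok_fin e0 hK₁ hN
  have hA : 3 * ((N.B + 2) + (CA (Cf N.C1) N.c2 (1/2+eps2) + N.C1 + 1) + 4) ≤ Af N := le_rfl
  have hA0 : 0 ≤ Af N := by
    have hCA : 0 ≤ CA (Cf N.C1) N.c2 (1/2+eps2) := by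
      unfold KindPay36.CA Cf
      have e2 : eps2 = 1/4000 := rfl
      rw [hN.c2, e2]
      refine div_nonneg ?_ (by norm_num)
      linarith
    have := hN.B
    unfold Af
    rw [this]
    linarith
  obtain ⟨p₁, hp⟩ := H (Af N) (Cf N.C1) hA0 (cf_fin e0 hN le_rfl)
  exact ⟨Cf N.C1, Ce, K₁, 1/2+eps1, 1/2+eps2, B₁, Af N, hk, hA,
    Ev_P2 N ⟨p₁, fun p0 hp0 P₀ hP X hC j₀ => hp p0 hp0 (hN.rg p0) γ P₀ hP X hC j₀⟩⟩

/-- **S0004 from the two targets** `TgtB`, `TgtD` -/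
theorem S0004_of_BD
    (hB : ∃ c : ℝ, ∀ (N : Skel189.Num) (Ct C₀ γ : ℝ), NumOK N (thF Ct) Ct C₀ (SxF γ N.C1) →
      NumFin N (thF Ct) Ct c → NumG N → TgtB N γ)
    (hD : ∃ c : ℝ, ∀ (N : Skel189.Num) (Ct C₀ γ : ℝ), NumOK N (thF Ct) Ct C₀ (SxF γ N.C1) →
      NumFin N (thF Ct) Ct c → NumG N → TgtD N γ)
    (γ : ℝ) (ψ : ℕ → ℝ)
    (hψ : ∀ q, 0 ≤ ψ q) (hdiv : ¬ Summable fun q : ℕ => (Nat.totient q : ℝ) / q * ψ q) :
    ∀ᵐ x : ℝ, ∃ᶠ q : ℕ in atTop, |(q : ℝ) * x - γ - round ((q : ℝ) * x - γ)| < ψ q := by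
  refine EndD23.S0004_end ?_ hB hD γ ψ hψ hdiv
  obtain ⟨c, hc⟩ := tgtX_fin
  exact ⟨c, fun N Ct C₀ γ h hN hG => hc N (thF Ct) Ct C₀ γ (SxF γ N.C1) h hN⟩

end Crest.Agent.R4P.TgtXF26
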