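import Crest.Agent.R4P.StripT_26
import Crest.Agent.R4P.SkelT_26
import Crest.Agent.R4P.TgtXF_26

/-!
R4 (S0004), POWERS, helper26, [W-eSHR] / M6: **MAIN and S0004 from the targets of the flagged walk**.

* `TgtW N γ loc` : a local error `loc` of the flagged walk of the strategy `SXN` is paid at the self
  states of the contexts with large `p0`.
* `TgtSelf` (`xS`), `TgtTop` (`xC`), `TgtCrs` (`xX`), `TgtExit` (`xE`), `TgtOld` (`xO`); `TgtS` = all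
  (`xF`), `tgtS_of`.
* `MAIN_T` : MAIN from `NumOK`, `TgtX`, `TgtD`, `TgtS`.
* `S0004_T` : **S0004 from `TgtS` and `TgtD`** (any thinness, any prune which depends on `γ`),
  `S0004_TF` : for the thinness `thF` and the prune `SxF`.
-/

set_option autoImplicit false
set_option linter.unusedSectionVars false
set_option linter.unusedVariables false

open MeasureTheory Filter

namespace Crest.Agent.R4P.FinT26

open Crest.Agent.R4.Tour104 Crest.Agent.R4.Tour758 Crest.Agent.R4.Avg758 Crest.Agent.R4.Clos758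
open Crest.Agent.R4.ClosL758 Crest.Agent.R4.ClosG758 Crest.Agent.R4.ClosR758
open Crest.Agent.R4.Fam464 Crest.Agent.R4P.Cnt588 Crest.Agent.R4P.Walk560 Crest.Agent.R4P.Item758
open Crest.Agent.R4.Soft104 Crest.Agent.R4.Max709
open Crest.Agent.R4P.Bld532 (NS All NodeOk)
open Crest.Agent.R4P.Data758 Crest.Agent.R4P.SkelF29 Crest.Agent.R4P.Strip29
open Crest.Agent.R4P.Skel189 Crest.Agent.R4P.OSWS245 Crest.Agent.R4P.ParF5 Crest.Agent.R4P.Fin5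
open Crest.Agent.R4P.NumX34
open Crest.Agent.R4.Fin532 (MAIN)
open Crest.Agent.R4P.PayA26 Crest.Agent.R4P.FinX26 Crest.Agent.R4P.Mrg35 Crest.Agent.R4P.PayR26
open Crest.Agent.R4P.KindPay36 (CA KOk)
open Crest.Agent.R4P.AccAl31 (alX)
open Crest.Agent.R4P.FinAll26 Crest.Agent.R4P.TW17 Crest.Agent.R4P.StripT26
open Crest.Agent.R4P.SkelT26 Crest.Agent.R4P.FrameT26
open Crest.Agent.R4P.NumG23 (exists_numFinG NumG)
open Crest.Agent.R4P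

/-- the part of a local error of the flagged walk -/
def PartT {N : Skel189.Num} {γ : ℝ} {p0 P₀ : ℕ} (X : Ctx N γ p0 P₀) (j₀ : X.c.Lam)
    (Hb : NS → IT → Prop) (loc : Fl × X.Sta → ℝ) (η : ℝ) : Prop :=
  PartF X j₀ Hb (fun u τ A => WF (SXN X j₀) loc (Fl.self, X.self u τ A)) η

/-- **a local error of the flagged walk is paid** -/
def TgtW (N : Skel189.Num) (γ : ℝ)
    (loc : ∀ {p0 P₀ : ℕ} (X : Ctx N γ p0 P₀) (j₀ : X.c.Lam), Fl × X.Sta → ℝ) : Prop :=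
  ∃ a : ℝ, 0 ≤ a ∧ Ev N γ fun p0 P₀ X => CF X → ∀ (j₀ : X.c.Lam) (Hb : NS → IT → Prop),
    PartT X j₀ Hb (loc X j₀) a

variable {N : Skel189.Num} {γ : ℝ}

/-- the births at the self states -/
def TgtSelf (N : Skel189.Num) (γ : ℝ) : Prop :=
  TgtW N γ fun X j₀ => xS (X.c.D.par X.Y).rho (SXN X j₀)

/-- the two-sided columns of the top states -/
def TgtTop (N : Skel189.Num) (γ : ℝ) : Prop := TgtW N γ fun X j₀ => xC (SXN X j₀)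

/-- the crossing states of the top states -/
def TgtCrs (N : Skel189.Num) (γ : ℝ) : Prop :=
  TgtW N γ fun X j₀ => xX (X.c.D.par X.Y).rho (SXN X j₀)

/-- the exits -/
def TgtExit (N : Skel189.Num) (γ : ℝ) : Prop := TgtW N γ fun X j₀ => xE (SXN X j₀)

/-- the states after the exit -/
def TgtOld (N : Skel189.Num) (γ : ℝ) : Prop :=
  TgtW N γ fun X j₀ => xO (X.c.D.par X.Y).rho (SXN X j₀)

/-- **all the extra errors of the flagged walk** -/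
def TgtS (N : Skel189.Num) (γ : ℝ) : Prop :=
  TgtW N γ fun X j₀ => xF (X.c.D.par X.Y).rho (SXN X j₀)

theorem tgtS_of (h1 : TgtSelf N γ) (h2 : TgtTop N γ) (h3 : TgtCrs N γ) (h4 : TgtExit N γ)
    (h5 : TgtOld N γ) : TgtS N γ := by
  obtain ⟨a1, b1, h1⟩ := h1
  obtain ⟨a2, b2, h2⟩ := h2
  obtain ⟨a3, b3, h3⟩ := h3
  obtain ⟨a4, b4, h4⟩ := h4
  obtain ⟨a5, b5, h5⟩ := h5
  refine ⟨a1 + a2 + a3 + a4 + a5, by positivity, ?_⟩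
  refine ((((h1.and h2).and h3).and h4).and h5).mono fun p0 P₀ X hh hC j₀ Hb => ?_
  obtain ⟨⟨⟨⟨x1, x2⟩, x3⟩, x4⟩, x5⟩ := hh
  have k := ((((x1 hC j₀ Hb).add (x2 hC j₀ Hb)).add (x3 hC j₀ Hb)).add (x4 hC j₀ Hb)).add
    (x5 hC j₀ Hb)
  refine All.mono (fun u τ hh hp hb => ?_) k
  have key := hh hp hb
  show WF (SXN X j₀) (xF (X.c.D.par X.Y).rho (SXN X j₀)) (Fl.self, X.self u τ Finset.univ) ≤ _
  rw [WF_xF]
  exact key

/-- a births bound for the whole walk without flags pays nothing less: the errors which do not depend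
on the flag -/
lemma partT_snd {p0 P₀ : ℕ} {X : Ctx N γ p0 P₀} {j₀ : X.c.Lam} {Hb : NS → IT → Prop}
    {loc : X.Sta → ℝ} {a : ℝ} (h : PartWF X j₀ Hb (SXN X j₀) loc a) :
    PartT X j₀ Hb (fun z => loc z.2) a :=
  All.mono (fun u τ hh hp hb => by
    show WF (SXN X j₀) (fun z => loc z.2) (Fl.self, X.self u τ Finset.univ) ≤ _
    rw [WF_snd]
    exact hh hp hb) h

/-- monotonicity in the local error -/
lemma PartT.mono {p0 P₀ : ℕ} {X : Ctx N γ p0 P₀} {j₀ : X.c.Lam} {Hb : NS → IT → Prop}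
    {loc loc' : Fl × X.Sta → ℝ} {a a' : ℝ}
    (hl : ∀ (n : ℕ) (z : Fl × X.Sta),
      Inv (X.c.D.par X.Y).rho (Item758.AdI (X.c.D.par X.Y).it) (X.tm j₀) (X.tn j₀) n z.2 →
      loc z ≤ loc' z) (ha : a ≤ a') (h : PartT X j₀ Hb loc' a) : PartT X j₀ Hb loc a' := by
  have h' : PartT X j₀ Hb loc' a' := PartF.mono h ha
  refine All.mono (fun u τ hh hp hb => ?_) (All.and h' (ctx_side X j₀))
  refine le_trans ?_ (hh.1 hp hb)
  exact WF_mono (Ad := Item758.AdI (X.c.D.par X.Y).it) (μ := X.tm j₀) (ν := X.tn j₀)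
      (wr := (X.c.D.par X.Y).rho) (fun z hs => by
        obtain ⟨n, hs⟩ := hs
        exact hl n z hs) ⟨u.n, Inv_self hh.2.2⟩

/-- **the error of the flagged certificate in a context** -/
theorem part_eF {p0 P₀ : ℕ} {X : Ctx N γ p0 P₀} {j₀ : X.c.Lam} {Hb : NS → IT → Prop} {B : ℝ}
    {a3 a4 a6 a7 aS : ℝ}
    (h3 : PartWF X j₀ Hb (SXN X j₀) (eNM (SXN X j₀)) a3)
    (h4 : PartWF X j₀ Hb (SXN X j₀) (eOS (SXN X j₀)) a4)
    (h6 : PartWF X j₀ Hb (SXN X j₀) (eXR (SXN X j₀) (X.c.D.par X.Y).rho (X.tm j₀) B) a6)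
    (h7 : PartWF X j₀ Hb (SXN X j₀) (eSTOP (SXN X j₀) (X.tm j₀) (X.tn j₀) B) a7)
    (hS : PartT X j₀ Hb (xF (X.c.D.par X.Y).rho (SXN X j₀)) aS) :
    PartT X j₀ Hb (eF (SXN X j₀) (X.tm j₀) (X.tn j₀) B) (a3 + a4 + a6 + a7 + aS) := by
  have k : PartF X j₀ Hb (fun u τ A => (((WS (SXN X j₀) (eNM (SXN X j₀)) (X.self u τ A) +
      WS (SXN X j₀) (eOS (SXN X j₀)) (X.self u τ A)) +
      WS (SXN X j₀) (eXR (SXN X j₀) (X.c.D.par X.Y).rho (X.tm j₀) B) (X.self u τ A)) +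
      WS (SXN X j₀) (eSTOP (SXN X j₀) (X.tm j₀) (X.tn j₀) B) (X.self u τ A)) +
      WF (SXN X j₀) (xF (X.c.D.par X.Y).rho (SXN X j₀)) (Fl.self, X.self u τ A))
      (a3 + a4 + a6 + a7 + aS) :=
    PartF.add (PartF.add (PartF.add (PartF.add h3 h4) h6) h7) hS
  refine All.mono (fun u τ hh hp hb => ?_) (All.and k (ctx_side X j₀))
  refine le_trans ?_ (hh.1 hp hb)
  exact WF_eF_le (Ad := Item758.AdI (X.c.D.par X.Y).it) (μ := X.tm j₀) (ν := X.tn j₀)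
      (wr := (X.c.D.par X.Y).rho) (stp := SXN X j₀) (B := B)
      (z := (Fl.self, X.self u τ Finset.univ)) ⟨u.n, Inv_self hh.2.2⟩

/-- **`MAIN` from the targets of the flagged walk** -/
theorem MAIN_T {th : ℕ → (ℕ → ℝ) → Finset ℕ → ℕ → ℝ} {Ct C₀ : ℝ}
    {Sx : ℕ → (ℕ → ℝ) → Finset ℕ → Finset ℕ} (h : NumOK N th Ct C₀ Sx) (hX : TgtX N γ)
    (hS : TgtS N γ) (hD : TgtD N γ) : MAIN γ := by
  obtain ⟨C, Ce, K₁, s₁, s₂, B₁, A, hk, hA, hX⟩ := hX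
  obtain ⟨aS, haS, hS⟩ := hS
  obtain ⟨a', ha', hD⟩ := hD
  obtain ⟨pX, hpX⟩ := part_eXR N (Ce := Ce) hk hA
  have hXR : Ev N γ fun p0 P₀ X => ∀ (j₀ : X.c.Lam) (Q' : NS → IT → Prop),
      All Q' ⟨top X.S, 1, 1, 1⟩ X.c.t → ∀ B₁ B : ℝ, B₁ + 1 ≤ B →
      CBX X j₀ Q' B₁ C Ce K₁ s₁ s₂ (alX A γ (1 / (1 - s₂))) → ∀ Hb : NS → IT → Prop,
      PartWF X j₀ Hb (SXN X j₀) (eXR (SXN X j₀) (X.c.D.par X.Y).rho (X.tm j₀) B) (a6X N.B K₁) :=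
    Ev_P2 N ⟨pX, fun p0 hp0 P₀ hP X j₀ => hpX p0 hp0 γ P₀ hP X j₀⟩
  obtain ⟨B₀, p7, h7⟩ := StopCtx9.part_eSTOP N
  obtain ⟨p2, h2⟩ := RseNd23.part_rse N (κ := 1) one_pos
  obtain ⟨p3, h3⟩ := NMPart10.part_eNM N (κ := 1) one_pos
  obtain ⟨p4, h4⟩ := OSCtxF710.part_eOS N
  obtain ⟨p1, h1⟩ := NumOK.facts h
  have h6 := a6X_nonneg (B := N.B) hk.K0
  set B : ℝ := max 0 (max B₀ (B₁ + 1)) with hBd
  have hB0 : 0 ≤ B := le_max_left _ _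
  have hB1 : B₀ ≤ B := (le_max_left _ _).trans (le_max_right _ _)
  have hB2 : B₁ + 1 ≤ B := (le_max_right _ _).trans (le_max_right _ _)
  refine MAIN_of_nodesT N h.hS2 (C₀ := C₀) (by have := h.C₀1; linarith) h.leaf
    (fun {p0 P₀} X j₀ b d A => WF (SXN X j₀) (eF (SXN X j₀) (X.tm j₀) (X.tn j₀) b)
      (Fl.self, selfSt d A))
    (B := fun _ => B) (a₁ := fun _ => a') (a₂ := fun _ => 1)
    (a₃ := fun _ => 8 + 20 + a6X N.B K₁ + 1 + aS) (fun _ => hB0) (fun _ => ha')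
    (fun _ => by norm_num) (fun _ => by positivity) ?_ ?_
  · refine Ev_P2 N ⟨0, fun p0 _ P₀ _ X j₀ => ?_⟩
    exact selfE_walkF hB0 (SXN_blind X j₀) (SXN_nosplit X j₀)
      (fun s hO hO' hs => stpN_root s hO hO' ((SXN_st X j₀ s).1 hs))
      (fun d A => SXN_jt X j₀ d A)
  · intro K hK Kb hKb
    have hcl : Ev N γ fun _ _ X => CF X ∧ ∀ j₀ : X.c.Lam,
        (∀ Hb : NS → IT → Prop, Part X j₀ Hb (fun u τ A => rseR A (X.g u τ)) 1) ∧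
        (∀ (Hb : NS → IT → Prop) (stp : X.STP), (∀ s : X.Sta, ¬ stp s → ¬ stpN s) →
          PartW X j₀ Hb stp (eNM stp) (4 * (1 + 1))) ∧
        (∀ (Hb : NS → IT → Prop) (stp : X.STP), (∀ s : X.Sta, ¬ stp s → ¬ stpN s) →
          PartW X j₀ Hb stp (eOS stp) 20) ∧
        (∀ (Hb : NS → IT → Prop) (stp : X.STP), (∀ s, stp s → stpN s) →
          (∀ s : X.Sta, ¬ stp s → ¬ stpN s) → ∀ (B η : ℝ), B₀ ≤ B → 0 ≤ η →
          PartW X j₀ Hb stp (eSTOP stp (X.tm j₀) (X.tn j₀) B) η) := by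
      refine Ev.of (p₁ := p1 + p2 + p3 + p4 + p7) fun p0 hp0 P₀ hP X => ?_
      have hC := h1 p0 (by omega) γ P₀ X
      exact ⟨hC, fun j₀ => ⟨fun Hb => h2 p0 (by omega) γ P₀ hP X hC.rse j₀ Hb,
        fun Hb stp hst => h3 p0 (by omega) γ P₀ hP X hC.wnm j₀ Hb stp hst,
        fun Hb stp hst => h4 p0 (by omega) γ P₀ hP X hC.wnm j₀ Hb stp hst,
        fun Hb stp hstp hst B η hB hη => h7 p0 (by omega) γ P₀ hP X hC.tag hC.d1 hC.dep hC.wnm j₀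
          Hb stp hstp hst B η hB hη⟩⟩
    refine ((((hcl.and hX).and hXR).and hS).and hD).mono ?_
    rintro p0 P₀ X ⟨⟨⟨⟨⟨hC, hc⟩, x1⟩, x2⟩, x3⟩, x4⟩ j₀
    obtain ⟨c2, c3, c4, c7⟩ := hc j₀
    obtain ⟨Q', hQ, hQ'⟩ := x1 hC j₀
    have hs1 : ∀ s, SXN X j₀ s → stpN s := fun s => (SXN_st X j₀ s).1
    have hs2 : ∀ s : X.Sta, ¬ SXN X j₀ s → ¬ stpN s :=
      fun s hn hh => hn ((SXN_st X j₀ s).2 hh)
    refine ⟨x4 hC j₀ _, (c2 _).toF, ?_⟩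
    have y3 := c3 (BootF X j₀ (fun _ _ => 0) (Kb p0)) (SXN X j₀) hs2
    have e : (4 * (1 + 1) : ℝ) = 8 := by norm_num
    rw [e] at y3
    exact part_eF y3.toF (c4 _ _ hs2).toF (x2 j₀ Q' hQ B₁ B hB2 hQ' _)
      (c7 _ _ hs1 hs2 B 1 hB1 zero_le_one).toF (x3 hC j₀ _)

/-- **S0004 from the targets of the flagged walk**, the prune depends on `γ` -/
theorem S0004_T {th : ℝ → ℕ → (ℕ → ℝ) → Finset ℕ → ℕ → ℝ} {Sx : ℝ → ℝ → ℕ → (ℕ → ℝ) → Finset ℕ → Finset ℕ} {cS : ℝ}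
    (hth : ∀ Ct : ℝ, 0 < Ct → (∃ p₁ : ℕ, ∀ p0 ≥ p₁, ∀ (ψ : ℕ → ℝ) (S : Finset ℕ),
      ∀ p ≥ p0, Real.log p ^ (-Ct) ≤ th Ct p0 ψ S p) ∧
      ∀ p0 : ℕ, RgTh (th Ct) p0)
    (hSx : ∀ γ C1 : ℝ, cS ≤ C1 → ∃ p₁ : ℕ, ∀ p0 ≥ p₁, ∃ Q₁ : ℕ, ∀ P₀ ≥ Q₁, ∀ (ψ : ℕ → ℝ)
      (S : Finset ℕ), SysM P₀ ψ S →
      Sx γ C1 p0 ψ S ⊆ S ∧ (1 - 1 / 8) * Ws (w ψ) S ≤ Ws (w ψ) (Sx γ C1 p0 ψ S))
    (hS : ∃ c : ℝ, ∀ (N : Skel189.Num) (Ct C₀ γ : ℝ), NumOK N (th Ct) Ct C₀ (Sx γ N.C1) →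
      NumFin N (th Ct) Ct c → NumG N → TgtS N γ)
    (hD : ∃ c : ℝ, ∀ (N : Skel189.Num) (Ct C₀ γ : ℝ), NumOK N (th Ct) Ct C₀ (Sx γ N.C1) →
      NumFin N (th Ct) Ct c → NumG N → TgtD N γ)
    (γ : ℝ) (ψ : ℕ → ℝ)
    (hψ : ∀ q, 0 ≤ ψ q) (hdiv : ¬ Summable fun q : ℕ => (Nat.totient q : ℝ) / q * ψ q) :
    ∀ᵐ x : ℝ, ∃ᶠ q : ℕ in atTop, |(q : ℝ) * x - γ - round ((q : ℝ) * x - γ)| < ψ q := by
  obtain ⟨cX, hX⟩ := TgtXF26.tgtX_fin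
  obtain ⟨cB, hB⟩ := hS
  obtain ⟨cD, hD⟩ := hD
  obtain ⟨C₀, -, H⟩ := exists_numFinG
  refine Fin5.S0004_of (fun γ => ?_) γ ψ hψ hdiv
  obtain ⟨N, Ct, h1, h2, h3⟩ := H (max (max cX cB) (max cD cS)) th (Sx γ) hth (fun C1 hC1 =>
    hSx γ C1 (((le_max_right _ _).trans (le_max_right _ _)).trans hC1))
  have red : ∀ c : ℝ, c ≤ max (max cX cB) (max cD cS) → NumFin N (th Ct) Ct c := fun c hc =>
    ⟨hc.trans h2.C1, h2.c2, h2.B, h2.A, h2.a', h2.a, h2.Ct, h2.rg⟩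
  exact MAIN_T h1 (hX N (th Ct) Ct C₀ γ _ h1 (red _ ((le_max_left _ _).trans (le_max_left _ _))))
    (hB N Ct C₀ γ h1 (red _ ((le_max_right _ _).trans (le_max_left _ _))) h3)
    (hD N Ct C₀ γ h1 (red _ ((le_max_left _ _).trans (le_max_right _ _))) h3)

/-- **S0004 from the targets of the flagged walk** for `thF`, `SxF` -/
theorem S0004_TF
    (hS : ∃ c : ℝ, ∀ (N : Skel189.Num) (Ct C₀ γ : ℝ),
      NumOK N (ParT21.thF Ct) Ct C₀ (NumG23.SxF γ N.C1) →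
      NumFin N (ParT21.thF Ct) Ct c → NumG N → TgtS N γ)
    (hD : ∃ c : ℝ, ∀ (N : Skel189.Num) (Ct C₀ γ : ℝ),
      NumOK N (ParT21.thF Ct) Ct C₀ (NumG23.SxF γ N.C1) →
      NumFin N (ParT21.thF Ct) Ct c → NumG N → TgtD N γ)
    (γ : ℝ) (ψ : ℕ → ℝ)
    (hψ : ∀ q, 0 ≤ ψ q) (hdiv : ¬ Summable fun q : ℕ => (Nat.totient q : ℝ) / q * ψ q) :
    ∀ᵐ x : ℝ, ∃ᶠ q : ℕ in atTop, |(q : ℝ) * x - γ - round ((q : ℝ) * x - γ)| < ψ q :=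
  S0004_T (th := ParT21.thF) (Sx := NumG23.SxF) (cS := 0) ParT21.thF_ok
    (fun γ C1 hC1 => NumG23.SxF_mass γ C1 hC1) hS hD γ ψ hψ hdiv

end Crest.Agent.R4P.FinT26
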