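import Crest.Agent.R4P.RseC2_23

/-!
R4 (S0004), powers pass, helper14: **radii, masses and numbers of the items of a node** (`NcE`), in one
structure `Nc X u τ` (`nce` : all the nodes of a context which are not leaves).

`R_q = RB X u q = B ψ_q / 2` (own radius at the node), `m_q = u.c * w X.ψ q` (mass of the item at the
node), `p = tp τ` (column of the node), alive items = items in `X.S'`.

* `Nc.lo` : `R_q ≤ (log p)² m_q`;  `Nc.hi` : `R_q ≤ (log p)^(c2+2)`;  `Nc.tot` : total mass `≤ (log p)^c2`;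
* `Nc.sumR` : `∑_F R ≤ (log p)² ∑_F m`, `Nc.sumR'` : `≤ (log p)^(c2+2)`;
* `Nc.card` : a late family (`1 ≤ K R` on `F`) has `card F ≤ K (log p)² ∑_F m`, `Nc.card'`;
* `Nc.miss` : at a tie `p` the missing pieces are tiny: `∑_{q ∈ t₀} R_q ≤ 2 (log p)^(B+c2+2) / p`.
-/

set_option autoImplicit false
set_option linter.unusedSectionVars false
set_option linter.unusedVariables false

open MeasureTheory Filter

namespace Crest.Agent.R4P.NcE14

open Crest.Agent.R4P.Cnt588 Crest.Agent.R4P.Item758 Crest.Agent.R4P.W363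
open Crest.Agent.R4P.Data758 Crest.Agent.R4P.OmSt532 Crest.Agent.R4P.OmData532
open Crest.Agent.R4P.LfDat734 Crest.Agent.R4P.WPex189
open Crest.Agent.R4P.Bld532 (NS All NodeOk Bk)
open Crest.Agent.R4P.Step588 (NDt ND1 ctx_NDt uq_lt)
open Crest.Agent.R4P.WalkIT579 (tp isL nodeOk_hi top_of_nodeOk)
open Crest.Agent.R4P.Skel189 Crest.Agent.R4P.RseSt23 Crest.Agent.R4P.RseNd23
open Crest.Agent.R4.Soft104 (w)
open Crest.Agent.R4

variable {N : Skel189.Num} {γ : ℝ} {p0 P₀ : ℕ}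

/-- **radii, masses and numbers of the items of a node** -/
structure Nc (X : Ctx N γ p0 P₀) (u : NS) (τ : IT) : Prop where
  /-- the column is large -/
  pn : p0 < tp τ
  l1 : 1 ≤ Real.log (tp τ)
  c0 : 0 < u.c
  w0 : ∀ q, 0 ≤ w X.ψ q
  /-- positive radius -/
  R0 : ∀ q ∈ τ.items, q ∈ X.S' → 0 < RB X u q
  /-- lower bound of the mass -/
  lo : ∀ q ∈ τ.items, q ∈ X.S' → RB X u q ≤ Real.log (tp τ) ^ 2 * (u.c * w X.ψ q)
  /-- largest radius -/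
  hi : ∀ q ∈ τ.items, q ∈ X.S' → RB X u q ≤ Real.log (tp τ) ^ (N.c2 + 2)
  /-- mass of the node -/
  tot : u.c * Ws (w X.ψ) τ.items ≤ Real.log (tp τ) ^ N.c2
  /-- mass of the missing items of a tie -/
  m0 : ∀ p Sp t₁ t₀, τ = .br p Sp t₁ t₀ →
    u.c * Ws (w X.ψ) t₀.items ≤ 2 * Real.log p ^ (N.B + N.c2) / p

theorem nce (N : Skel189.Num) : ∃ p₁ : ℕ, ∀ p0 ≥ p₁, ∀ (γ : ℝ) (P₀ : ℕ), 2 ≤ P₀ →
    ∀ X : Ctx N γ p0 P₀, ∀ (u : NS) (τ : IT), NF X u τ → ¬ isL τ → Nc X u τ := by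
  obtain ⟨p1, h1⟩ := alive_facts N
  obtain ⟨p2, h2⟩ : ∃ p2 : ℕ, ∀ p ≥ p2, max 1 (2 * Step588.CT) ≤ Real.log (p : ℝ) := by
    refine ⟨⌈Real.exp (max 1 (2 * Step588.CT))⌉₊ + 1, fun p hp => ?_⟩
    have h3 : Real.exp (max 1 (2 * Step588.CT)) ≤ p :=
      (Nat.le_ceil _).trans (by exact_mod_cast (by omega :
        ⌈Real.exp (max 1 (2 * Step588.CT))⌉₊ ≤ p))
    exact (Real.le_log_iff_exp_le (lt_of_lt_of_le (Real.exp_pos _) h3)).2 h3
  refine ⟨p1 + p2 + 2, fun p0 hp0 γ P₀ hP X u τ hN hl => ?_⟩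
  have h := hN.nd
  obtain ⟨k1, k2, k3, k4⟩ := nodeOk_hi h.self.node hl
  have k2' : p0 < tp τ := k2
  have hlog := h2 (tp τ) (by omega)
  have l1 : 1 ≤ Real.log (tp τ) := (le_max_left _ _).trans hlog
  have lC : 2 * Step588.CT ≤ Real.log (tp τ) := (le_max_right _ _).trans hlog
  have hw : ∀ q, 0 ≤ w X.ψ q := fun q => Soft104.w_nonneg (fun q => X.sys.nonneg q) q
  have hc := hN.c0
  have tot : u.c * Ws (w X.ψ) τ.items ≤ Real.log (tp τ) ^ N.c2 := k1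
  refine
    { pn := k2'
      l1 := l1
      c0 := hc
      w0 := hw
      R0 := fun q hq hs => (h1 p0 (by omega) γ P₀ hP X u τ hN hl q hq hs).R0
      lo := fun q hq hs => ?_
      hi := fun q hq hs => ?_
      tot := tot
      m0 := ?_ }
  · have A := h1 p0 (by omega) γ P₀ hP X u τ hN hl q hq hs
    have hm : 0 ≤ u.c * w X.ψ q := mul_nonneg hc.le (hw q)
    have hCT := Step588.CT_pos
    calc RB X u q ≤ 2 * Step588.CT * Real.log (tp τ) * wA u.A (RB X u) q := A.lo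
      _ ≤ 2 * Step588.CT * Real.log (tp τ) * (u.c * w X.ψ q) :=
          mul_le_mul_of_nonneg_left A.wle (by positivity)
      _ ≤ Real.log (tp τ) * Real.log (tp τ) * (u.c * w X.ψ q) :=
          mul_le_mul_of_nonneg_right (mul_le_mul_of_nonneg_right lC (by linarith)) hm
      _ = Real.log (tp τ) ^ 2 * (u.c * w X.ψ q) := by ring
  · have A := h1 p0 (by omega) γ P₀ hP X u τ hN hl q hq hs
    show (u.B : ℝ) * X.c.rr q ≤ _
    rw [A.rr]
    exact A.hi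
  · intro p Sp t₁ t₀ hτ
    subst hτ
    have n := h.self.node
    obtain ⟨n1, n2, n3, n4, n5, n6, n7, n8, n9, n10, n11, n12, n13⟩ := n
    have hp : (0 : ℝ) < p := by exact_mod_cast n1.pos
    have lp : 1 ≤ Real.log (p : ℝ) := l1
    have hsg : X.par.sg p = Real.log p ^ N.B / p := rfl
    have hsg0 : 0 ≤ X.par.sg p := by rw [hsg]; positivity
    have t' : u.c * Ws (w X.ψ) (t₁.items ∪ t₀.items) ≤ Real.log p ^ N.c2 := tot
    calc u.c * Ws (w X.ψ) t₀.items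
        ≤ u.c * (2 * X.par.sg p * Ws (w X.ψ) (t₁.items ∪ t₀.items)) :=
          mul_le_mul_of_nonneg_left n12 hc.le
      _ = 2 * X.par.sg p * (u.c * Ws (w X.ψ) (t₁.items ∪ t₀.items)) := by ring
      _ ≤ 2 * X.par.sg p * Real.log p ^ N.c2 := mul_le_mul_of_nonneg_left t' (by positivity)
      _ = 2 * Real.log p ^ (N.B + N.c2) / p := by
          rw [hsg, Real.rpow_add (by linarith)]
          ring

section
variable {X : Ctx N γ p0 P₀} {u : NS} {τ : IT}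

lemma Nc.m_nonneg (H : Nc X u τ) (q : ℕ) : 0 ≤ u.c * w X.ψ q := mul_nonneg H.c0.le (H.w0 q)

/-- mass of a family -/
lemma Nc.Ws_le (H : Nc X u τ) {F : Finset ℕ} (hF : F ⊆ τ.items) :
    u.c * Ws (w X.ψ) F ≤ Real.log (tp τ) ^ N.c2 := by
  refine le_trans (mul_le_mul_of_nonneg_left ?_ H.c0.le) H.tot
  exact Finset.sum_le_sum_of_subset_of_nonneg hF fun q _ _ => H.w0 q

/-- **sum of the radii** -/
theorem Nc.sumR (H : Nc X u τ) {F : Finset ℕ} (hF : F ⊆ τ.items) (hS : ∀ q ∈ F, q ∈ X.S') :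
    ∑ q ∈ F, RB X u q ≤ Real.log (tp τ) ^ 2 * (u.c * Ws (w X.ψ) F) := by
  refine (Finset.sum_le_sum fun q hq => H.lo q (hF hq) (hS q hq)).trans (le_of_eq ?_)
  unfold Ws
  rw [← Finset.mul_sum, ← Finset.mul_sum]

lemma log_add {x a b : ℝ} (hx : 1 ≤ x) : x ^ a * x ^ b = x ^ (a + b) :=
  (Real.rpow_add (by linarith) _ _).symm

theorem Nc.sumR' (H : Nc X u τ) {F : Finset ℕ} (hF : F ⊆ τ.items) (hS : ∀ q ∈ F, q ∈ X.S') :
    ∑ q ∈ F, RB X u q ≤ Real.log (tp τ) ^ (N.c2 + 2) := by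
  have l1 := H.l1
  refine (H.sumR hF hS).trans ((mul_le_mul_of_nonneg_left (H.Ws_le hF) (by positivity)).trans
    (le_of_eq ?_))
  rw [Real.rpow_add (by linarith), Real.rpow_two]
  ring

/-- **number of the items of a late family** -/
theorem Nc.card (H : Nc X u τ) {F : Finset ℕ} (hF : F ⊆ τ.items) (hS : ∀ q ∈ F, q ∈ X.S') {K : ℝ}
    (hK : 0 ≤ K) (hR : ∀ q ∈ F, 1 ≤ K * RB X u q) :
    (F.card : ℝ) ≤ K * (Real.log (tp τ) ^ 2 * (u.c * Ws (w X.ψ) F)) := by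
  calc (F.card : ℝ) = ∑ q ∈ F, (1 : ℝ) := by simp
    _ ≤ ∑ q ∈ F, K * RB X u q := Finset.sum_le_sum hR
    _ = K * ∑ q ∈ F, RB X u q := by rw [Finset.mul_sum]
    _ ≤ _ := mul_le_mul_of_nonneg_left (H.sumR hF hS) hK

theorem Nc.card' (H : Nc X u τ) {F : Finset ℕ} (hF : F ⊆ τ.items) (hS : ∀ q ∈ F, q ∈ X.S') {K : ℝ}
    (hK : 0 ≤ K) (hR : ∀ q ∈ F, 1 ≤ K * RB X u q) :
    (F.card : ℝ) ≤ K * Real.log (tp τ) ^ (N.c2 + 2) := by
  calc (F.card : ℝ) = ∑ q ∈ F, (1 : ℝ) := by simp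
    _ ≤ ∑ q ∈ F, K * RB X u q := Finset.sum_le_sum hR
    _ = K * ∑ q ∈ F, RB X u q := by rw [Finset.mul_sum]
    _ ≤ _ := mul_le_mul_of_nonneg_left (H.sumR' hF hS) hK

end

section tie
variable {X : Ctx N γ p0 P₀} {u : NS} {p : ℕ} {Sp : Finset ℕ} {t₁ t₀ : IT}

/-- **the missing pieces of a tie are tiny** (own radii above the tie) -/
theorem Nc.miss (H : Nc X u (.br p Sp t₁ t₀)) {F : Finset ℕ} (hF : F ⊆ t₀.items)
    (hS : ∀ q ∈ F, q ∈ X.S') :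
    ∑ q ∈ F, RB X u q ≤ 2 * Real.log p ^ (N.B + N.c2 + 2) / p := by
  have l1 : 1 ≤ Real.log (p : ℝ) := H.l1
  have hF' : F ⊆ (IT.br p Sp t₁ t₀).items := hF.trans Finset.subset_union_right
  have h1 := H.sumR hF' hS
  have h2 : u.c * Ws (w X.ψ) F ≤ u.c * Ws (w X.ψ) t₀.items :=
    mul_le_mul_of_nonneg_left (Finset.sum_le_sum_of_subset_of_nonneg hF fun q _ _ => H.w0 q)
      H.c0.le
  refine h1.trans ((mul_le_mul_of_nonneg_left (h2.trans (H.m0 p Sp t₁ t₀ rfl))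
    (by positivity)).trans (le_of_eq ?_))
  show Real.log (p : ℝ) ^ 2 * (2 * Real.log p ^ (N.B + N.c2) / p) = _
  rw [Real.rpow_add (by linarith : (0:ℝ) < Real.log p) (N.B + N.c2) 2, Real.rpow_two]
  ring

/-- one missing piece -/
theorem Nc.missR (H : Nc X u (.br p Sp t₁ t₀)) {q : ℕ} (hq : q ∈ t₀.items) (hS : q ∈ X.S') :
    RB X u q ≤ 2 * Real.log p ^ (N.B + N.c2 + 2) / p := by
  have h1 := H.miss (F := {q}) (Finset.singleton_subset_iff.2 hq) (by simpa using hS)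
  rwa [Finset.sum_singleton] at h1

/-- **free zone**: sum over the missing items of the overlaps with one present item of own radius
`≥ p^(-1/2)`: `∑_q min (R_j / v_q, R_q / x_q) ≤ 2 (log p)^(B+c2+2) p^(-1/2) R_j` -/
theorem Nc.free (H : Nc X u (.br p Sp t₁ t₀)) {F : Finset ℕ} (hF : F ⊆ t₀.items)
    (hS : ∀ q ∈ F, q ∈ X.S') {R : ℝ} (hR : 1 ≤ (p : ℝ) ^ (1/2:ℝ) * R) :
    ∑ q ∈ F, RB X u q ≤ 2 * Real.log p ^ (N.B + N.c2 + 2) * (p : ℝ) ^ (-(1/2:ℝ)) * R := by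
  have l1 : 1 ≤ Real.log (p : ℝ) := H.l1
  have hp : (0:ℝ) < p := by
    have : 0 < p := lt_of_le_of_lt (Nat.zero_le _) H.pn
    exact_mod_cast this
  refine (H.miss hF hS).trans ?_
  have e : (1:ℝ) / p ≤ (p : ℝ) ^ (-(1/2:ℝ)) * R := by
    have e1 : (1:ℝ) / p = (p : ℝ) ^ (-(1/2:ℝ)) * (p : ℝ) ^ (-(1/2:ℝ)) := by
      rw [← Real.rpow_add hp, one_div, ← Real.rpow_neg_one]; norm_num
    rw [e1]
    refine mul_le_mul_of_nonneg_left ?_ (Real.rpow_nonneg hp.le _)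
    have e2 : (p : ℝ) ^ (-(1/2:ℝ)) * ((p : ℝ) ^ (1/2:ℝ) * R) = R := by
      rw [← mul_assoc, ← Real.rpow_add hp]; norm_num
    calc (p : ℝ) ^ (-(1/2:ℝ)) = (p : ℝ) ^ (-(1/2:ℝ)) * 1 := (mul_one _).symm
      _ ≤ (p : ℝ) ^ (-(1/2:ℝ)) * ((p : ℝ) ^ (1/2:ℝ) * R) :=
          mul_le_mul_of_nonneg_left hR (Real.rpow_nonneg hp.le _)
      _ = R := e2
  have h3 : 2 * Real.log p ^ (N.B + N.c2 + 2) / (p:ℝ) =
      2 * Real.log p ^ (N.B + N.c2 + 2) * (1 / (p:ℝ)) := by ring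
  rw [h3, mul_assoc (2 * Real.log (p:ℝ) ^ (N.B + N.c2 + 2))]
  exact mul_le_mul_of_nonneg_left e (by positivity)

end tie

end Crest.Agent.R4P.NcE14
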