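import Crest.Agent.R4P.RtG_28

/-!
R4 (S0004), powers pass, helper28: **P|N pairs of a column relation, from one tie to the whole walk.**

* `walkT` : if at every tie node the energy `PG = (1/p) Q (PNg ..) P N` of the separated pairs is at most
  `(1/p) ε p * mass`, then the whole walk with weights `f` costs at most
  `(∑_{p0 < p ≤ tp, prime} f p ε p / p) * mass`.
* `sum_log` : `∑_{p0 < n < K} (log n)^(-(A'+2)) / n ≤ (log p0)^(-A')`.
* **`pn_rootT`** : `PG ≤ (1/p) (log p)^(-s') mass` at all the ties, `s' ≥ s + A' + 3` gives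
  `pn (KR R s) ≤ (log p0)^(-A') mass` at all the nodes.
-/

set_option autoImplicit false
set_option linter.unusedSectionVars false
set_option linter.unusedVariables false

open MeasureTheory Filter

namespace Crest.Agent.R4P.RtW28

open Crest.Agent.R4P.Cnt588 Crest.Agent.R4P.Item758 Crest.Agent.R4P.W363
open Crest.Agent.R4P.Data758 Crest.Agent.R4P.LfDat734
open Crest.Agent.R4P.Bld532 (NS All NodeOk Bk)
open Crest.Agent.R4P.Step588 (NDt ND1 ctx_NDt)
open Crest.Agent.R4P.WalkIT579 (tp isL nodeOk_hi top_of_nodeOk)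
open Crest.Agent.R4P.Skel189 Crest.Agent.R4P.RseSt23 Crest.Agent.R4P.RseNd23
open Crest.Agent.R4P.RtC28 (TF tF tp_le)
open Crest.Agent.R4P.Frame758
open Crest.Agent.R4.Soft104 (w)
open Crest.Agent.R4P.RtS28 (Mn Mn_nonneg Mn_br Ws_union)
open Crest.Agent.R4P.RtG28
open Crest.Agent.R4P.PrD45 (pn)
open Crest.Agent.R4P.Fin5 (CF)

section ctx
variable {N : Skel189.Num} {γ : ℝ} {p0 P₀ : ℕ} {X : Ctx N γ p0 P₀}
  {R : ℕ → Finset (X.c.Lam × X.c.Lam)} {Y : Finset (ℕ × ℕ × Finset ℕ)} {A : Finset X.c.Lam}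

/-- sum of the rates of the columns `p0 < p < n` -/
noncomputable def SR (p0 : ℕ) (g : ℕ → ℝ) (n : ℕ) : ℝ :=
  ∑ p ∈ (Finset.range n).filter (fun p => p.Prime ∧ p0 < p), g p

lemma SR_mono {g : ℕ → ℝ} (hg : ∀ p, 0 ≤ g p) {n m : ℕ} (h : n ≤ m) : SR p0 g n ≤ SR p0 g m := by
  unfold SR
  exact Finset.sum_le_sum_of_subset_of_nonneg
    (Finset.filter_subset_filter _ (Finset.range_mono h)) fun p _ _ => hg p

lemma SR_nonneg {g : ℕ → ℝ} (hg : ∀ p, 0 ≤ g p) (n : ℕ) : 0 ≤ SR p0 g n :=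
  Finset.sum_nonneg fun p _ => hg p

lemma SR_succ {g : ℕ → ℝ} {p : ℕ} (hp : p.Prime) (h : p0 < p) :
    SR p0 g (p + 1) = SR p0 g p + g p := by
  unfold SR
  rw [Finset.range_add_one, Finset.filter_insert, if_pos ⟨hp, h⟩,
    Finset.sum_insert (by simp)]
  ring

/-- **from the ties to the walk** -/
theorem walkT {f ε : ℕ → ℝ} (hf : ∀ p, 0 ≤ f p) (hε : ∀ p, 0 ≤ ε p)
    (h1 : ∀ (u : NS) (p : ℕ) (Sp : Finset ℕ) (t₁ t₀ : IT), All (NF X) u (.br p Sp t₁ t₀) →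
      PG R Y A u p t₁ t₀ ≤ 1 / (p : ℝ) * (ε p * Mn X u (.br p Sp t₁ t₀))) :
    ∀ (τ : IT) (u : NS), All (NF X) u τ →
      GW R Y A f u τ ≤ SR p0 (fun p => f p * ε p / p) (tp τ + 1) * Mn X u τ := by
  have hg : ∀ p : ℕ, 0 ≤ f p * ε p / p := fun p =>
    div_nonneg (mul_nonneg (hf p) (hε p)) (Nat.cast_nonneg p)
  intro τ
  induction τ with
  | leaf S => intro u h; exact mul_nonneg (SR_nonneg hg _) (Mn_nonneg h)
  | br p Sp t₁ t₀ ih₁ ih₀ =>
    intro u h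
    have F := tF h.1.nd
    have hO := h.1.nd.self.ok
    have hp0 : p0 < p := h.1.nd.self.node.2.2.1
    have hp2 : (2:ℝ) ≤ p := by exact_mod_cast F.pr.two_le
    have hpp : (0:ℝ) < p := by linarith
    have hq : 0 ≤ 1 - 1 / (p:ℝ) := by
      rw [sub_nonneg, div_le_one hpp]; linarith
    have t1 := tp_le hO.2.2.2.2.1 (S := 0) hO.1.pos
    have t0 := tp_le hO.2.2.2.2.2 (S := 0) hO.1.pos
    obtain ⟨m1, m0, m⟩ := Mn_br (X := X) (Sp := Sp) F
    have M1 := Mn_nonneg h.2.1.self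
    have M0 := Mn_nonneg h.2.2.self
    have M := Mn_nonneg h.1
    have i1 : GW R Y A f ⟨p, u.c / (1 - 1 / (p : ℝ)), u.A * p, u.B⟩ t₁ ≤
        SR p0 (fun p => f p * ε p / p) p * Mn X ⟨p, u.c / (1 - 1 / (p : ℝ)), u.A * p, u.B⟩ t₁ :=
      (ih₁ _ h.2.1).trans (mul_le_mul_of_nonneg_right (SR_mono hg t1) M1)
    have i0 : GW R Y A f ⟨p, u.c * p, u.A, u.B * p⟩ t₀ ≤
        SR p0 (fun p => f p * ε p / p) p * Mn X ⟨p, u.c * p, u.A, u.B * p⟩ t₀ :=
      (ih₀ _ h.2.2).trans (mul_le_mul_of_nonneg_right (SR_mono hg t0) M0)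
    have hl := mul_le_mul_of_nonneg_left (h1 u p Sp t₁ t₀ h) (hf p)
    show f p * PG R Y A u p t₁ t₀ +
      ((1 - 1 / (p : ℝ)) * GW R Y A f ⟨p, u.c / (1 - 1 / (p : ℝ)), u.A * p, u.B⟩ t₁ +
        1 / (p : ℝ) * GW R Y A f ⟨p, u.c * p, u.A, u.B * p⟩ t₀) ≤
      SR p0 (fun p => f p * ε p / p) (p + 1) * Mn X u (.br p Sp t₁ t₀)
    rw [SR_succ F.pr hp0]
    have j1 := mul_le_mul_of_nonneg_left i1 hq
    have j0 := mul_le_mul_of_nonneg_left i0 (show (0:ℝ) ≤ 1 / (p:ℝ) by positivity)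
    have e1 : (1 - 1 / (p : ℝ)) * (SR p0 (fun p => f p * ε p / p) p *
        Mn X ⟨p, u.c / (1 - 1 / (p : ℝ)), u.A * p, u.B⟩ t₁) =
        SR p0 (fun p => f p * ε p / p) p * (u.c * Ws (w X.ψ) t₁.items) := by
      rw [← m1]; ring
    have e0 : 1 / (p : ℝ) * (SR p0 (fun p => f p * ε p / p) p *
        Mn X ⟨p, u.c * p, u.A, u.B * p⟩ t₀) =
        SR p0 (fun p => f p * ε p / p) p * (u.c * Ws (w X.ψ) t₀.items) := by
      rw [← m0]; ring
    rw [e1] at j1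
    rw [e0] at j0
    have e2 : (SR p0 (fun p => f p * ε p / p) p + f p * ε p / p) * Mn X u (.br p Sp t₁ t₀) =
        f p * (1 / (p:ℝ) * (ε p * Mn X u (.br p Sp t₁ t₀))) +
        (SR p0 (fun p => f p * ε p / p) p * (u.c * Ws (w X.ψ) t₁.items) +
          SR p0 (fun p => f p * ε p / p) p * (u.c * Ws (w X.ψ) t₀.items)) := by
      rw [← mul_add, ← m]; ring
    have e3 : SR p0 (fun p => f p * ε p / p) p + (fun p : ℕ => f p * ε p / (p:ℝ)) p =
      SR p0 (fun p => f p * ε p / p) p + f p * ε p / p := rfl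
    rw [e3, e2]
    exact add_le_add hl (add_le_add j1 j0)
  | add b t₁ t₀ ih₁ ih₀ =>
    intro u h
    have hO := h.1.nd.self.ok
    have hds : Disjoint t₁.items t₀.items := hO.2.2.1
    have t1 := tp_le hO.2.2.2.1 (S := 0) (Nat.succ_pos b)
    have t0 := tp_le hO.2.2.2.2 (S := 0) (Nat.succ_pos b)
    have em : Mn X u (.add b t₁ t₀) = Mn X ⟨b + 1, u.c, u.A, u.B⟩ t₁ +
        Mn X ⟨b + 1, u.c, u.A, u.B⟩ t₀ := by
      show u.c * Ws (w X.ψ) (t₁.items ∪ t₀.items) = _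
      rw [Ws_union hds, mul_add]
    rw [em, mul_add]
    refine add_le_add ((ih₁ _ h.2.1).trans ?_) ((ih₀ _ h.2.2).trans ?_)
    · exact mul_le_mul_of_nonneg_right (SR_mono hg (show tp t₁ + 1 ≤ b + 1 by omega))
        (Mn_nonneg h.2.1.self)
    · exact mul_le_mul_of_nonneg_right (SR_mono hg (show tp t₀ + 1 ≤ b + 1 by omega))
        (Mn_nonneg h.2.2.self)
  | up b Sp t ih =>
    intro u h
    have hO := h.1.nd.self.ok
    have t1 := tp_le hO.2.2.2 (S := 0) hO.1.pos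
    exact (ih _ h.2).trans (mul_le_mul_of_nonneg_right
      (SR_mono hg (show tp t + 1 ≤ b + 1 by omega)) (Mn_nonneg h.2.self))
  | pl b t ih =>
    intro u h
    have hO := h.1.nd.self.ok
    have t1 := tp_le hO.2.2 (S := 0) (Nat.succ_pos b)
    exact (ih _ h.2).trans (mul_le_mul_of_nonneg_right
      (SR_mono hg (show tp t + 1 ≤ b + 1 by omega)) (Mn_nonneg h.2.self))
  | far b t₁ t₀ ih₁ ih₀ =>
    intro u h
    have hO := h.1.nd.self.ok
    have hds : Disjoint t₁.items t₀.items := hO.2.2.1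
    have t1 := tp_le hO.2.2.2.1 (S := 0) (Nat.succ_pos b)
    have t0 := tp_le hO.2.2.2.2 (S := 0) (Nat.succ_pos b)
    have em : Mn X u (.far b t₁ t₀) = Mn X ⟨b + 1, u.c, u.A, u.B⟩ t₁ +
        Mn X ⟨b + 1, u.c, u.A, u.B⟩ t₀ := by
      show u.c * Ws (w X.ψ) (t₁.items ∪ t₀.items) = _
      rw [Ws_union hds, mul_add]
    rw [em, mul_add]
    refine add_le_add ((ih₁ _ h.2.1).trans ?_) ((ih₀ _ h.2.2).trans ?_)
    · exact mul_le_mul_of_nonneg_right (SR_mono hg (show tp t₁ + 1 ≤ b + 1 by omega))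
        (Mn_nonneg h.2.1.self)
    · exact mul_le_mul_of_nonneg_right (SR_mono hg (show tp t₀ + 1 ≤ b + 1 by omega))
        (Mn_nonneg h.2.2.self)

end ctx

/-! ## the sum over the columns -/

/-- one step of the telescoping comparison -/
lemma step_log {a : ℝ} (ha : 1 ≤ a) {n : ℕ} (hn : 2 ≤ n) :
    Real.log ((n + 1 : ℕ) : ℝ) ^ (-(a + 1)) / ((n + 1 : ℕ) : ℝ) ≤
      Real.log (n : ℝ) ^ (-a) - Real.log ((n + 1 : ℕ) : ℝ) ^ (-a) := by
  have hn1 : (1:ℝ) < n := by exact_mod_cast hn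
  have hn0 : (0:ℝ) < n := by linarith
  have hm0 : (0:ℝ) < ((n + 1 : ℕ) : ℝ) := by positivity
  set L := Real.log (n:ℝ) with hL
  set M := Real.log ((n + 1 : ℕ) : ℝ) with hM
  have hL0 : 0 < L := Real.log_pos hn1
  have hd : 1 / ((n + 1 : ℕ) : ℝ) ≤ M - L := by
    have h1 : M - L = Real.log (((n + 1 : ℕ) : ℝ) / n) := by
      rw [Real.log_div hm0.ne' hn0.ne']
    have h2 := Real.one_sub_inv_le_log_of_pos (x := ((n + 1 : ℕ) : ℝ) / n) (by positivity)
    rw [h1]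
    refine le_trans (le_of_eq ?_) h2
    rw [inv_div]
    push_cast
    field_simp
    ring
  have hLM : L ≤ M := by
    have : 0 ≤ 1 / ((n + 1 : ℕ) : ℝ) := by positivity
    linarith
  have hM0 : 0 < M := lt_of_lt_of_le hL0 hLM
  have h3 : M / L ≤ (M / L) ^ a := by
    have h1 : 1 ≤ M / L := by rw [le_div_iff₀ hL0]; linarith
    calc M / L = (M / L) ^ (1:ℝ) := (Real.rpow_one _).symm
      _ ≤ (M / L) ^ a := Real.rpow_le_rpow_of_exponent_le h1 ha
  have h4 : L ^ (-a) = (M / L) ^ a * M ^ (-a) := by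
    rw [Real.div_rpow hM0.le hL0.le, Real.rpow_neg hL0.le, Real.rpow_neg hM0.le]
    have := (Real.rpow_pos_of_pos hM0 a).ne'
    have := (Real.rpow_pos_of_pos hL0 a).ne'
    field_simp
  have h5 : M ^ (-(a + 1)) = M ^ (-a) / M := by
    rw [neg_add, Real.rpow_add hM0, Real.rpow_neg_one, div_eq_mul_inv]
  have hMa : 0 < M ^ (-a) := Real.rpow_pos_of_pos hM0 _
  rw [h4, h5]
  have h6 : M ^ (-a) * (M / L - 1) ≤ (M / L) ^ a * M ^ (-a) - M ^ (-a) := by
    have := mul_le_mul_of_nonneg_right h3 hMa.le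
    nlinarith
  refine le_trans ?_ h6
  have h7 : 1 / M * (1 / ((n + 1 : ℕ) : ℝ)) ≤ M / L - 1 := by
    have e1 : M / L - 1 = (M - L) / L := by field_simp
    rw [e1]
    have e2 : 1 / M * (1 / ((n + 1 : ℕ) : ℝ)) ≤ 1 / L * (M - L) := by
      apply mul_le_mul _ hd (by positivity) (by positivity)
      exact one_div_le_one_div_of_le hL0 hLM
    refine e2.trans (le_of_eq ?_)
    ring
  have h8 := mul_le_mul_of_nonneg_left h7 hMa.le
  refine le_trans (le_of_eq ?_) h8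
  field_simp

/-- `∑_{m < n ≤ K} (log n)^(-(a+1)) / n ≤ (log m)^(-a)` for `a ≥ 1`, `m ≥ 2` -/
lemma sum_log {a : ℝ} (ha : 1 ≤ a) {m : ℕ} (hm : 2 ≤ m) : ∀ K : ℕ, m ≤ K →
    ∑ n ∈ Finset.Ioc m K, Real.log (n:ℝ) ^ (-(a + 1)) / (n:ℝ) ≤
      Real.log (m:ℝ) ^ (-a) - Real.log (K:ℝ) ^ (-a) := by
  intro K hK
  induction K, hK using Nat.le_induction with
  | base => simp
  | succ K hK ih =>
    have h1 : Finset.Ioc m (K + 1) = insert (K + 1) (Finset.Ioc m K) := by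
      ext x; simp only [Finset.mem_Ioc, Finset.mem_insert]; omega
    rw [h1, Finset.sum_insert (by simp)]
    have h2 := step_log ha (n := K) (by omega)
    linarith

/-- the sum of the rates `(log p)^s (log p)^(-s') / p` over all the columns -/
lemma SR_log {p0 : ℕ} (hp0 : 3 ≤ p0) {s s' a : ℝ} (ha : 1 ≤ a) (hs : s + a + 1 ≤ s') (n : ℕ) :
    SR p0 (fun p => Real.log p ^ s * Real.log p ^ (-s') / p) n ≤ Real.log (p0:ℝ) ^ (-a) := by
  have hl : ∀ p : ℕ, p0 < p → 1 ≤ Real.log (p:ℝ) := by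
    intro p hp
    exact Bld532.one_le_log_nat (by omega)
  have hpos : 0 ≤ Real.log (p0:ℝ) ^ (-a) := Real.rpow_nonneg (Real.log_natCast_nonneg _) _
  rcases Nat.lt_or_ge n (p0 + 1) with hn | hn
  · unfold SR
    rw [Finset.sum_eq_zero]
    · exact hpos
    · intro x hx
      simp only [Finset.mem_filter, Finset.mem_range] at hx
      omega
  · unfold SR
    have h1 : ∑ p ∈ (Finset.range n).filter (fun p => p.Prime ∧ p0 < p),
        Real.log (p:ℝ) ^ s * Real.log p ^ (-s') / p ≤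
        ∑ p ∈ Finset.Ioc p0 n, Real.log (p:ℝ) ^ (-(a + 1)) / (p:ℝ) := by
      refine (Finset.sum_le_sum (g := fun p : ℕ => Real.log (p:ℝ) ^ (-(a + 1)) / (p:ℝ))
        fun p hp => ?_).trans ?_
      · simp only [Finset.mem_filter, Finset.mem_range] at hp
        have hlp := hl p hp.2.2
        have hp0' : (0:ℝ) ≤ (p:ℝ) := Nat.cast_nonneg _
        refine div_le_div_of_nonneg_right ?_ hp0'
        rw [← Real.rpow_add (by linarith)]
        exact Real.rpow_le_rpow_of_exponent_le hlp (by linarith)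
      · refine Finset.sum_le_sum_of_subset_of_nonneg ?_ fun p hp _ => ?_
        · intro x hx
          simp only [Finset.mem_filter, Finset.mem_range, Finset.mem_Ioc] at hx ⊢
          omega
        · exact div_nonneg (Real.rpow_nonneg (Real.log_natCast_nonneg _) _) (Nat.cast_nonneg _)
    have h2 := sum_log ha (m := p0) (by omega) n (by omega)
    have h3 : 0 ≤ Real.log (n:ℝ) ^ (-a) := Real.rpow_nonneg (Real.log_natCast_nonneg _) _
    linarith

/-- every tie is good: the energy `PG` of the separated pairs of the relation is at most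
`(1/p) (log p)^(-s')` times the mass of the node -/
def TiB {N : Skel189.Num} {γ : ℝ} {p0 P₀ : ℕ} (X : Ctx N γ p0 P₀)
    (R : ℕ → Finset (X.c.Lam × X.c.Lam)) (Y : Finset (ℕ × ℕ × Finset ℕ))
    (A : Finset X.c.Lam) (s' : ℝ) : Prop :=
  ∀ (u : NS) (p : ℕ) (Sp : Finset ℕ) (t₁ t₀ : IT), All (NF X) u (.br p Sp t₁ t₀) →
    PG R Y A u p t₁ t₀ ≤ 1 / (p : ℝ) * (Real.log p ^ (-s') * Mn X u (.br p Sp t₁ t₀))

/-- **the root bound** of the kernel of a column relation, from single ties -/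
theorem pn_rootT (N : Skel189.Num) {s A' : ℝ} (hA' : 0 ≤ A') : ∃ p₁ : ℕ, ∀ p0 ≥ p₁,
    ∀ (γ : ℝ) (P₀ : ℕ), 2 ≤ P₀ → ∀ (X : Ctx N γ p0 P₀) (R : ℕ → Finset (X.c.Lam × X.c.Lam))
    (s' : ℝ), s + A' + 2 ≤ s' → TiB X R X.Y Finset.univ s' → ∀ j₀ : X.c.Lam,
    All (fun u τ => pn (KR R s) (X.self u τ Finset.univ).t ≤
      Real.log p0 ^ (-A') * X.mu j₀ u τ Finset.univ) ⟨top X.S, 1, 1, 1⟩ X.c.t := by
  obtain ⟨p2, h2⟩ := ctx_NF N
  obtain ⟨p3, h3⟩ := Crest.Agent.R4.RseN207.log_large 2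
  refine ⟨p2 + p3 + 3, fun p0 hp0 γ P₀ hP₀ X R s' hs' hch j₀ => ?_⟩
  have hall := h2 p0 (by omega) γ P₀ hP₀ X
  have hQE := AsmX26.ctx_QE X j₀ (Q' := fun _ _ => True)
    (All.mono (fun _ _ _ => trivial) (ctx_NDt X))
  refine All.mono (fun u τ hh => ?_) ((Step588.All_All _ _ hall).and hQE)
  obtain ⟨h, g7⟩ := hh
  have hmu : X.mu j₀ u τ Finset.univ = Mn X u τ := g7.mass
  rw [hmu]
  show pn (KR R s) ((X.c.D.par X.Y).toDT X.c.sp u.B u.A τ) ≤ _
  rw [pn_eqG s τ u h]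
  have k1 := walkT (R := R) (Y := X.Y) (A := Finset.univ) (f := fun p => Real.log (p:ℝ) ^ s)
    (ε := fun p => Real.log (p:ℝ) ^ (-s'))
    (fun p => Real.rpow_nonneg (Real.log_natCast_nonneg p) _)
    (fun p => Real.rpow_nonneg (Real.log_natCast_nonneg p) _) hch τ u h
  have k2 := SR_log (p0 := p0) (by omega) (s := s) (s' := s') (a := A' + 1) (by linarith)
    (by linarith) (tp τ + 1)
  have k3 := h3 p0 (by omega)
  have hl0 : 0 < Real.log (p0:ℝ) := by linarith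
  have M0 : 0 ≤ Mn X u τ := Mn_nonneg h.self
  have k4 := k1.trans (mul_le_mul_of_nonneg_right k2 M0)
  have e1 : Real.log (p0:ℝ) ^ (-A') = Real.log p0 * Real.log p0 ^ (-(A' + 1)) := by
    conv_rhs => rw [← Real.rpow_one (Real.log (p0:ℝ)), ← Real.rpow_mul hl0.le,
      ← Real.rpow_add hl0]
    congr 1; ring
  have e2 : 0 ≤ Real.log (p0:ℝ) ^ (-(A' + 1)) := Real.rpow_nonneg hl0.le _
  rw [e1]
  have e3 : 0 ≤ Real.log (p0:ℝ) ^ (-(A' + 1)) * Mn X u τ := mul_nonneg e2 M0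
  nlinarith

end Crest.Agent.R4P.RtW28
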