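import Crest.Agent.R4P.AcH_41
import Crest.Agent.R4P.PairX_41
import Crest.Agent.R4P.NcE_14
import Crest.Agent.R4P.RtW_28
import Crest.Agent.R4P.FinE_26

/-!
R4 (S0004), powers pass, helper41: **P|N pairs of a dense label at an accuracy death with a large
cofactor** (leaf C2: the `BigC` pairs of `PairX41.cross_all`, dense labels).

* `thin_unique`, `lab_cnt` : the dense labels of one circle, at most `log₂ (1/thr) + 1` of them;
* `AD X p q σ` : the label `σ` of the missing item `q` dies by accuracy at its own missing tie `p`;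
* `RAc X K p` : pairs of pieces of one index and one retained part: dense label of the first piece,
  accuracy death of the second one, `BigC`;
* **`tie_acc`** : the energy `PG` of these pairs at a tie.
-/

set_option autoImplicit false
set_option linter.unusedSectionVars false
set_option linter.unusedVariables false

open MeasureTheory Filter

namespace Crest.Agent.R4P.AcT41

open Crest.Agent.R4P.Cnt588 Crest.Agent.R4P.Item758 Crest.Agent.R4P.W363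
open Crest.Agent.R4P.Data758 Crest.Agent.R4P.OmSt532 Crest.Agent.R4P.OmData532
open Crest.Agent.R4P.LfDat734 Crest.Agent.R4P.WPex189
open Crest.Agent.R4P.Bld532 (NS All NodeOk Bk)
open Crest.Agent.R4P.Step588 (NDt ND1 ctx_NDt uq_lt)
open Crest.Agent.R4P.WalkIT579 (tp isL nodeOk_hi top_of_nodeOk)
open Crest.Agent.R4P.Skel189 Crest.Agent.R4P.RseSt23 Crest.Agent.R4P.RseNd23
open Crest.Agent.R4P.RtC28 (TF tF Q_eq_sum cof1 cof2 UP UN)
open Crest.Agent.R4.LF363 (Lab)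
open Crest.Agent.R4.HVW560 (cof)
open Crest.Agent.R4.AvgItem710 (Dp mul_cof mul_cof' cof_pos cof_coprime)
open Crest.Agent.R4P.AvgItem710
open Crest.Agent.R4.ClosL758 Crest.Agent.R4.ClosR758 Crest.Agent.R4.Tour104
open Crest.Agent.R4P.Frame758
open Crest.Agent.R4.Soft104 (w)
open Crest.Agent.R4P.RtS28 (Mn Mn_nonneg Mn_br Ws_union)
open Crest.Agent.R4P.RtG28 Crest.Agent.R4P.RtW28
open Crest.Agent.R4P.StB21 (TH Bl_node)
open Crest.Agent.R4P.Link758 (Bl)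
open Crest.Agent.R4P.StM6 (dense)
open Crest.Agent.R4P.TYK47 (rhoX)
open Crest.Agent.R4P.NcE14 (Nc)
open Crest.Agent.R4P.PairX41 (BigC)
open Crest.Agent.R4P.GcdK37 (ind ind_t ind_f ind_nn ind_le)
open Crest.Agent.R4P.AcG41 (dt dt_spec Fam)
open Crest.Agent.R4P
open Crest.Agent.R4P.AcH41 (Rp K8 C8 C8_nn acc_energy8)

/-! ### the dense labels of one circle -/

/-- **thin dense labels are unique** -/
lemma thin_unique {θ a b t : ℝ} {ρ σ : ℚ} (h : Lab θ a ρ) (h' : Lab θ b σ) (ht : 0 < t)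
    (ht6 : 32 * t ^ 2 < 1) (ha : a ≤ t) (hb : b ≤ t) (d : (ρ.den : ℝ) ^ 5 * t ≤ 1)
    (d' : (σ.den : ℝ) ^ 5 * t ≤ 1) : ρ = σ := by
  by_contra hne
  have key := (Crest.Agent.R4.LL207.two_labels h h' hne).1
  have hm : max a b ≤ t := max_le ha hb
  have hm0 : 0 ≤ max a b := h.pos.le.trans (le_max_left _ _)
  have e1 : ((ρ.den : ℝ) * σ.den) ^ 5 * t ^ 2 ≤ 1 := by
    have := mul_le_mul d d' (by positivity) zero_le_one
    calc ((ρ.den : ℝ) * σ.den) ^ 5 * t ^ 2 = ((ρ.den : ℝ) ^ 5 * t) * ((σ.den : ℝ) ^ 5 * t) := by ring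
      _ ≤ 1 := by linarith
  have hm4 : (max a b) ^ 4 ≤ t ^ 4 := pow_le_pow_left₀ hm0 hm 4
  have e2 : 32 * (max a b) ^ 4 * ((ρ.den : ℝ) * σ.den) ^ 5 ≤
      32 * t ^ 4 * ((ρ.den : ℝ) * σ.den) ^ 5 := by gcongr
  have e3 : 32 * t ^ 4 * ((ρ.den : ℝ) * σ.den) ^ 5 =
      32 * t ^ 2 * (((ρ.den : ℝ) * σ.den) ^ 5 * t ^ 2) := by ring
  have e4 : 32 * t ^ 2 * (((ρ.den : ℝ) * σ.den) ^ 5 * t ^ 2) ≤ 32 * t ^ 2 * 1 :=
    mul_le_mul_of_nonneg_left e1 (by positivity)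
  linarith

/-- **number of the dense labels of one circle** -/
lemma lab_cnt {θ t : ℝ} {I : Finset ℕ} {a : ℕ → ℝ} {ρ : ℕ → ℚ} (ht : 0 < t)
    (ht6 : 32 * t ^ 2 < 1) (hL : ∀ q ∈ I, Lab θ (a q) (ρ q))
    (hd : ∀ q ∈ I, ((ρ q).den : ℝ) ^ 5 * t ≤ 1) {M : ℕ} (hM : 1 / t < 2 ^ (M + 1)) :
    (I.image ρ).card ≤ M + 1 := by
  classical
  have hcl : ∀ q : ℕ, ∃ k : ℕ, q ∈ I → (a q ≤ t → k = 0) ∧
      (t < a q → (2:ℝ) ^ k ≤ 1 / a q ∧ 1 / a q < 2 ^ (k + 1) ∧ 3 ≤ k) := by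
    intro q
    by_cases hq : q ∈ I
    · by_cases h1 : a q ≤ t
      · exact ⟨0, fun _ => ⟨fun _ => rfl, fun h2 => absurd h1 (not_le.2 h2)⟩⟩
      · have hl := hL q hq
        have h10 : 1 ≤ 1 / a q := by
          rw [le_div_iff₀ hl.pos]; linarith [hl.le]
        obtain ⟨k, hk1, hk2⟩ := exists_nat_pow_near h10 (by norm_num : (1:ℝ) < 2)
        refine ⟨k, fun _ => ⟨fun h2 => absurd h2 h1, fun _ => ⟨hk1, hk2, ?_⟩⟩⟩
        by_contra hc
        have h3 : k + 1 ≤ 3 := by omega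
        have h4 : (2:ℝ) ^ (k + 1) ≤ 2 ^ 3 := pow_le_pow_right₀ (by norm_num) h3
        have h5 : (10:ℝ) ≤ 1 / a q := by
          rw [le_div_iff₀ hl.pos]; linarith [hl.le]
        norm_num at h4
        linarith
    · exact ⟨0, fun h => absurd h hq⟩
  choose kk hkk using hcl
  have hinj : ∀ q ∈ I, ∀ r ∈ I, kk q = kk r → ρ q = ρ r := by
    intro q hq r hr hqr
    have lq := hL q hq
    have lr := hL r hr
    rcases le_or_gt (a q) t with h1 | h1 <;> rcases le_or_gt (a r) t with h2 | h2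
    · exact thin_unique lq lr ht ht6 h1 h2 (hd q hq) (hd r hr)
    · have g1 := (hkk q hq).1 h1
      have g2 := ((hkk r hr).2 h2).2.2
      omega
    · have g1 := (hkk r hr).1 h2
      have g2 := ((hkk q hq).2 h1).2.2
      omega
    · obtain ⟨b1, b2, b3⟩ := (hkk q hq).2 h1
      obtain ⟨c1, c2, c3⟩ := (hkk r hr).2 h2
      rw [← hqr] at c1 c2
      set k := kk q with hk
      have p2 : (0:ℝ) < 2 ^ k := by positivity
      have lo : ∀ x : ℝ, 0 < x → 1 / x < 2 ^ (k + 1) → (1/2:ℝ) ^ (k + 1) ≤ x := by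
        intro x hx h3
        rw [one_div_pow, one_div_le (by positivity) hx]
        exact h3.le
      have hi : ∀ x : ℝ, 0 < x → (2:ℝ) ^ k ≤ 1 / x → x ≤ (1/2:ℝ) ^ k := by
        intro x hx h3
        rw [one_div_pow, le_one_div hx (by positivity)]
        exact h3
      have hlo : (0:ℝ) < (1/2:ℝ) ^ (k + 1) := by positivity
      rcases Nat.lt_or_ge k 4 with h4 | h4
      · have hk3 : k = 3 := by omega
        refine lab_unique_of lq lr (lo := (1/2:ℝ) ^ (k + 1)) (hi := 1/10) hlo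
          (lo _ lq.pos b2) (lo _ lr.pos c2) lq.le lr.le ?_
        rw [hk3]; norm_num
      · refine lab_unique_of lq lr (lo := (1/2:ℝ) ^ (k + 1)) (hi := (1/2:ℝ) ^ k) hlo
          (lo _ lq.pos b2) (lo _ lr.pos c2) (hi _ lq.pos b1) (hi _ lr.pos c1) ?_
        have e1 : ((1/2:ℝ) ^ (k + 1)) ^ 2 = 1 / 4 * ((1/2:ℝ) ^ k) ^ 2 := by ring
        have e2 : 32 * ((1/2:ℝ) ^ k) ^ 4 = 32 * (((1/2:ℝ) ^ k) ^ 2) * ((1/2:ℝ) ^ k) ^ 2 := by ring
        rw [e1, e2]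
        refine mul_lt_mul_of_pos_right ?_ (by positivity)
        have h5 : (1/2:ℝ) ^ k ≤ (1/2:ℝ) ^ 4 := pow_le_pow_of_le_one (by norm_num) (by norm_num) h4
        have h6 : ((1/2:ℝ) ^ k) ^ 2 ≤ ((1/2:ℝ) ^ 4) ^ 2 := pow_le_pow_left₀ (by positivity) h5 2
        norm_num at h6 ⊢
        linarith
  set g : ℕ → ℚ := fun k => if h : ∃ q ∈ I, kk q = k then ρ h.choose else 0 with hg
  have hsub : I.image ρ ⊆ (Finset.range (M + 1)).image g := by
    intro x hx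
    obtain ⟨q, hq, rfl⟩ := Finset.mem_image.1 hx
    refine Finset.mem_image.2 ⟨kk q, ?_, ?_⟩
    · rw [Finset.mem_range]
      rcases le_or_gt (a q) t with h1 | h1
      · rw [(hkk q hq).1 h1]; omega
      · obtain ⟨b1, b2, b3⟩ := (hkk q hq).2 h1
        have lq := hL q hq
        have h2 : 1 / a q < 1 / t := one_div_lt_one_div_of_lt ht h1
        have h3 : (2:ℝ) ^ (kk q) < 2 ^ (M + 1) := b1.trans_lt (h2.trans hM)
        exact (pow_lt_pow_iff_right₀ (by norm_num)).1 h3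
    · have hex : ∃ r ∈ I, kk r = kk q := ⟨q, hq, rfl⟩
      show (if h : ∃ r ∈ I, kk r = kk q then ρ h.choose else 0) = ρ q
      rw [dif_pos hex]
      exact hinj _ hex.choose_spec.1 q hq hex.choose_spec.2
  calc (I.image ρ).card ≤ ((Finset.range (M + 1)).image g).card := Finset.card_le_card hsub
    _ ≤ (Finset.range (M + 1)).card := Finset.card_image_le
    _ = M + 1 := Finset.card_range _

section ctx
variable {N : Skel189.Num} {γ : ℝ} {p0 P₀ : ℕ}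

/-- **the dense labels of a node** -/
theorem labs_node {X : Ctx N γ p0 P₀} {u : NS} {τ : IT} (h : NDt X.par (w X.ψ) X.c.t u τ)
    (hl : ¬ isL τ) {κ : ℝ} (hκ : ∀ s : ℕ, tp τ < s → κ ≤ s * X.c.wp.thr s)
    (ht : 0 < X.c.wp.thr (tp τ)) (hκ4 : 32 * κ ^ 4 < (tp τ : ℝ) ^ 2 * X.c.wp.thr (tp τ) ^ 2)
    (ht6 : 32 * X.c.wp.thr (tp τ) ^ 2 < 1) {M : ℕ} (hM : 1 / X.c.wp.thr (tp τ) < 2 ^ (M + 1)) :
    ∃ Λ : Finset ℚ, Λ.card ≤ M + 2 ∧ ∀ q ∈ τ.items, (u.B : ℝ) * X.c.r q ≤ κ → ∀ σ : ℚ,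
      X.c.st (tp τ) q = some σ → dense (X.c.wp.thr (tp τ)) u.B σ → (u.B : ℚ) * σ ∈ Λ := by
  classical
  obtain ⟨Λf, hΛ, H⟩ := lab_nodeB h X.tOk hl (wp := X.c.wp) (wpL := X.c.wpL) (lam := X.c.lam)
    (lv := X.c.lv) (γ := X.c.γ) (r := X.c.r) hκ ht hκ4
  set I : Finset ℕ := τ.items.filter fun q => ∃ σ : ℚ, X.c.st (tp τ) q = some σ ∧
    dense (X.c.wp.thr (tp τ)) u.B σ ∧ Lab (u.B * X.c.γ) (u.B * X.c.r q) (u.B * σ) with hI
  set ρ : ℕ → ℚ := fun q => (u.B : ℚ) * ((X.c.st (tp τ) q).getD 0) with hρ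
  have hI' : ∀ q ∈ I, Lab (u.B * X.c.γ) (u.B * X.c.r q) (ρ q) ∧
      ((ρ q).den : ℝ) ^ 5 * X.c.wp.thr (tp τ) ≤ 1 := by
    intro q hq
    obtain ⟨-, σ, h1, h2, h3⟩ := Finset.mem_filter.1 hq
    have e : ρ q = (u.B : ℚ) * σ := by
      show (u.B : ℚ) * ((X.c.st (tp τ) q).getD 0) = _
      rw [h1, Option.getD_some]
    rw [e]
    exact ⟨by exact_mod_cast h3, h2⟩
  have hc := lab_cnt (I := I) (a := fun q => u.B * X.c.r q) (ρ := ρ) ht ht6
    (fun q hq => (hI' q hq).1) (fun q hq => (hI' q hq).2) hM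
  refine ⟨I.image ρ ∪ Λf, (Finset.card_union_le _ _).trans (by omega), ?_⟩
  intro q hq hK σ hσ hd
  rcases H q hq hK σ hσ with h1 | h1
  · refine Finset.mem_union_left _ (Finset.mem_image.2 ⟨q, Finset.mem_filter.2
      ⟨hq, σ, hσ, hd, h1⟩, ?_⟩)
    show (u.B : ℚ) * ((X.c.st (tp τ) q).getD 0) = _
    rw [hσ, Option.getD_some]
  · exact Finset.mem_union_right _ h1.1

/-! ### the relation -/

/-- **accuracy death** of the dense label `σ` of the item `q` at its own missing tie `p` -/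
structure AD (X : Ctx N γ p0 P₀) (p q : ℕ) (σ : ℚ) : Prop where
  mt : p ∈ X.c.t.mt q
  st : X.c.st p q = some σ
  own : lab0 X.c.γ (X.c.r q) (Bl X.c p q) = some σ
  den : dense (X.c.wp.thr p) (Bl X.c p q) σ
  thin : ((p * Bl X.c p q : ℕ) : ℝ) * X.c.r q ≤ X.c.wp.thr p
  acc : (((p * Bl X.c p q : ℕ) : ℝ) * X.c.r q) ^ 4 <
    |((p * Bl X.c p q : ℕ) : ℝ) * X.c.γ - ((p * Bl X.c p q : ℕ) : ℝ) * σ| ^ 5

/-- P piece `j`, N piece `i` -/
def R1 (X : Ctx N γ p0 P₀) (K : ℝ) (p : ℕ) (j i : X.c.Lam) : Prop :=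
  ((X.c.world p j.1).1 = (X.c.world p i.1).1 ∧ ret X.c.t p j.1.1 = ret X.c.t p i.1.1) ∧
  (∃ σ : ℚ, X.c.st p j.1.1 = some σ ∧ dense (X.c.wp.thr p) (Bl X.c p j.1.1) σ) ∧
  (∃ σ : ℚ, AD X p i.1.1 σ) ∧ BigC X K p j i

open Classical in
/-- **the relation**: dense label, accuracy death of the missing piece, large cofactor -/
noncomputable def RAc (X : Ctx N γ p0 P₀) (K : ℝ) (p : ℕ) : Finset (X.c.Lam × X.c.Lam) :=
  Finset.univ.filter fun x => R1 X K p x.1 x.2 ∨ R1 X K p x.2 x.1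

variable {X : Ctx N γ p0 P₀}

lemma mem_RAc {K : ℝ} {p : ℕ} {x : X.c.Lam × X.c.Lam} :
    x ∈ RAc X K p ↔ R1 X K p x.1 x.2 ∨ R1 X K p x.2 x.1 := by
  classical
  unfold RAc
  rw [Finset.mem_filter]
  exact ⟨fun h => h.2, fun h => ⟨Finset.mem_univ _, h⟩⟩

lemma RAc_symm {K : ℝ} (p : ℕ) (i j : X.c.Lam) (h : (i, j) ∈ RAc X K p) : (j, i) ∈ RAc X K p := by
  rw [mem_RAc] at h ⊢
  exact h.symm

/-- the retained parts of the pieces of one real class -/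
lemma cls_ret {p : ℕ} {i j : X.c.Lam} (h : rhoX X p j = rhoX X p i) :
    ret X.c.t p j.1.1 = ret X.c.t p i.1.1 := by
  have h1 := (X.c.D.rho_eq X.Y p j i).1 h
  have h2 := (Cf.D_rho _ _ _ _).1 h1
  exact congrArg (fun x => x.2.1) h2

/-- the items of the P child do not miss the tie -/
lemma mt_P {u : NS} {p : ℕ} {Sp : Finset ℕ} {t₁ t₀ : IT}
    (h : NDt X.par (w X.ψ) X.c.t u (.br p Sp t₁ t₀)) {q : ℕ} (hq : q ∈ t₁.items) :
    p ∉ X.c.t.mt q := by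
  have F := tF h
  have hO := h.self.ok
  have hq' : q ∈ (IT.br p Sp t₁ t₀).items := Finset.mem_union_left _ hq
  have e1 := BldF542.mp_eq_prod X.c.t _ X.tOk q
  have e2 := BldF542.mp_eq_prod t₁ p hO.2.2.2.2.1 q
  have e3 := h.self.mp q hq'
  have hn0 : q ∉ t₀.items := fun h0 => Finset.disjoint_left.1 F.ds hq h0
  have em : mp (.br p Sp t₁ t₀) q = mp t₁ q := by
    show (if _ then _ else _) = _
    rw [if_neg hn0]
  have hB0 : u.B ≠ 0 := h.bk.sfB.ne_zero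
  have hp' : ∀ s ∈ X.c.t.mt q, s.Prime := fun s hs => (BldF542.mt_lt X.c.t _ X.tOk q s hs).1
  have hp : ∀ s ∈ t₁.mt q, s.Prime := fun s hs =>
    (BldF542.mt_lt t₁ p hO.2.2.2.2.1 q s hs).1
  have m0 : mp t₁ q ≠ 0 := by
    rw [e2]; exact Finset.prod_ne_zero_iff.2 fun s h => (hp s h).ne_zero
  rw [em] at e3
  have e4 : X.c.t.mt q = u.B.primeFactors ∪ t₁.mt q := by
    have f1 : (mp X.c.t q).primeFactors = X.c.t.mt q := by rw [e1]; exact Nat.primeFactors_prod hp'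
    have f2 : (mp t₁ q).primeFactors = t₁.mt q := by rw [e2]; exact Nat.primeFactors_prod hp
    rw [← f1, ← f2, e3, Nat.primeFactors_mul hB0 m0]
  rw [e4, Finset.mem_union]
  rintro (h1 | h1)
  · have h2 := Nat.mem_primeFactors.1 h1
    have h3 := h.bk.geB p h2.1 h2.2.1
    have h4 : p < u.n := hO.2.1
    omega
  · have h2 := (BldF542.mt_lt t₁ p hO.2.2.2.2.1 q p h1).2
    exact absurd h2 (lt_irrefl _)


/-! ### pairs of items of a tie -/

variable {K : ℝ} {Y : Finset (ℕ × ℕ × Finset ℕ)} {A : Finset X.c.Lam} {u : NS} {p : ℕ}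
  {Sp : Finset ℕ} {t₁ t₀ : IT}

/-- data of a pair of items with nonzero energy (`q` present, `r` missing) -/
structure PD (X : Ctx N γ p0 P₀) (K : ℝ) (u : NS) (p q r : ℕ) (σ σ₀ : ℚ) : Prop where
  S1 : q ∈ X.S'
  S0 : r ∈ X.S'
  st1 : X.c.st p q = some σ
  den1 : dense (X.c.wp.thr p) u.B σ
  ad : AD X p r σ₀
  rt : ret X.c.t p q = ret X.c.t p r
  big : ¬ (((q / Nat.gcd q r : ℕ) : ℝ) ≤ p * Real.log p ^ K ∧
    ((r / Nat.gcd r q : ℕ) : ℝ) ≤ Real.log p ^ K)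
  pt : ∃ z z' : ℝ, |z| ≤ X.c.r q ∧ |z'| ≤ X.c.r r ∧
    ((r / Nat.gcd r q : ℕ) : ℝ) * (z + (X.c.γ - σ)) =
      ((q / Nat.gcd q r : ℕ) : ℝ) * (z' + (X.c.γ - σ₀))

/-- world indices of a related pair -/
lemma RAc_ix {x : X.c.Lam × X.c.Lam} (h : x ∈ RAc X K p) :
    (X.c.world p x.1.1).1 = (X.c.world p x.2.1).1 := by
  rcases mem_RAc.1 h with h | h
  · exact h.1.1
  · exact h.1.1.symm

theorem pd_of (h : NDt X.par (w X.ψ) X.c.t u (.br p Sp t₁ t₀)) (hpt : p ≤ top X.S) {q r : ℕ}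
    (hne : pG (RAc X K) Y A u p t₁ t₀ (q, r) ≠ 0) :
    q ∈ t₁.items ∧ r ∈ t₀.items ∧ ∃ σ σ₀ : ℚ, PD X K u p q r σ σ₀ := by
  obtain ⟨m1, m0, hPE⟩ := pG_ne hne
  obtain ⟨j, j', hA, hA', ee, i1, i2, hR, y, a, a', o1, o2, l1, l2, l3, l4⟩ := link h hPE
  have e1 : q = j.1.1 := congrArg Prod.fst ee
  have e2 : r = j'.1.1 := congrArg Prod.snd ee
  subst e1 e2
  refine ⟨m1, m0, ?_⟩
  have hl : ¬ isL (IT.br p Sp t₁ t₀) := fun h => h
  have b1 : Bl X.c p j.1.1 = u.B := Bl_node h hl (Finset.mem_union_left _ i1)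
  rcases mem_RAc.1 hR with hR | hR
  · obtain ⟨⟨hix, hret⟩, ⟨σ, s1, d1⟩, ⟨σ₀, ad⟩, big⟩ := hR
    have hs1 : j.1.1 ∈ X.S' := by
      by_contra hc
      exact o1 (X.om_zero hc _ _)
    have hs2 : j'.1.1 ∈ X.S' := by
      by_contra hc
      exact o2 (X.om_zero hc _ _)
    obtain ⟨z, q1, q2, q3, q4⟩ := DseKid23.pt_kid h.B_pos l1 l2
    obtain ⟨z', r1, r2, r3, r4⟩ := DseKid23.pt_kid h.B_pos l3 l4
    refine ⟨σ, σ₀, hs1, hs2, s1, by rw [← b1]; exact d1, ad, hret, big, z, z', q2, r2, ?_⟩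
    exact PurN41.node_E h hpt hix (Finset.mem_union_left _ i1) (Finset.mem_union_right _ i2)
      (y := y) ⟨q1, q2, q3, q4⟩ ⟨r1, r2, r3, r4⟩ s1 ad.st
  · obtain ⟨-, -, ⟨σ₀, ad⟩, -⟩ := hR
    exact absurd ad.mt (mt_P h i1)

lemma xy_max {x y a b : ℝ} (hx : 0 < x) (hy : 0 < y) (ha : 0 < a) (hb : 0 < b) :
    x * y / max (a * x) (b * y) ≤ min (y / a) (x / b) := by
  have h0 : 0 < max (a * x) (b * y) := lt_of_lt_of_le (mul_pos ha hx) (le_max_left _ _)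
  refine le_min ?_ ?_
  · rw [div_le_div_iff₀ h0 ha]
    have := mul_le_mul_of_nonneg_left (le_max_left (a * x) (b * y)) hy.le
    linarith
  · rw [div_le_div_iff₀ h0 hb]
    have := mul_le_mul_of_nonneg_left (le_max_right (a * x) (b * y)) hx.le
    linarith

/-- the cofactors on the circle of the children -/
lemma cof_dt (F : TF X u p t₁ t₀) {q r : ℕ} (hq : q ∈ t₁.items) (hr : r ∈ t₀.items) :
    cof (r / u.A) (q / u.A) = (dt (r / u.A) (q / (u.A * p))).1 ∧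
      cof (q / u.A) (r / u.A) = p * (dt (r / u.A) (q / (u.A * p))).2 ∧
      r / Nat.gcd r q = (dt (r / u.A) (q / (u.A * p))).1 ∧
      q / Nat.gcd q r = p * (dt (r / u.A) (q / (u.A * p))).2 := by
  have hd1 := F.d1 q hq
  have hd0 := F.d0 r hr
  have hAq : u.A ∣ q := (Dvd.intro p rfl).trans hd1.2
  have c1 : cof (r / u.A) (q / u.A) = (dt (r / u.A) (q / (u.A * p))).1 := by
    rw [F.div1 hq, cof2 F.pr hd0.2.2]
    rfl
  have c2 : cof (q / u.A) (r / u.A) = p * (dt (r / u.A) (q / (u.A * p))).2 := by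
    rw [F.div1 hq, cof1 F.pr hd0.2.2]
    show p * (_ / Nat.gcd _ _) = p * (_ / Nat.gcd _ _)
    rw [Nat.gcd_comm]
  have k1 : (r / u.A) / Nat.gcd (r / u.A) (q / u.A) = r / Nat.gcd r q :=
    cof_div F.a0 hd0.2.1 hAq
  have k2 : (q / u.A) / Nat.gcd (q / u.A) (r / u.A) = q / Nat.gcd q r :=
    cof_div F.a0 hAq hd0.2.1
  exact ⟨c1, c2, by rw [← k1, ← c1]; rfl, by rw [← k2, ← c2]; rfl⟩

theorem pd_le (h : NDt X.par (w X.ψ) X.c.t u (.br p Sp t₁ t₀)) (hpt : p ≤ top X.S)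
    (hlam : X.c.lam p = 0) {q r : ℕ} (hq : q ∈ t₁.items) (hr : r ∈ t₀.items) {σ σ₀ : ℚ}
    (D : PD X K u p q r σ σ₀) :
    pG (RAc X K) Y A u p t₁ t₀ (q, r) ≤
      2 * min (RB X u r / ((dt (r / u.A) (q / (u.A * p))).1 : ℝ))
        (RB X u q / p / ((dt (r / u.A) (q / (u.A * p))).2 : ℝ)) := by
  have F := tF h
  obtain ⟨c1, c2, -, -⟩ := cof_dt F hq hr
  have hrr : ∀ q, 0 < X.c.rr q := (X.ok.rad Y).pos
  have hB : (0 : ℝ) < u.B := by exact_mod_cast h.B_pos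
  have hp : (0 : ℝ) < p := by exact_mod_cast F.pr.pos
  have key := pG_le (R := RAc X K) (Y := Y) (A := A) h (e := (q, r)) hq hr (C := u.B * σ)
    (C' := u.B * σ₀) (δ := 0) le_rfl (fun x hx a1 a2 i1 i2 y a a' l1 l2 l3 l4 => by
      have hix := RAc_ix (mem_PNg.1 hx).1
      have g1 : x.1.1.1 ∈ (IT.br p Sp t₁ t₀).items :=
        Finset.mem_union_left _ (by rw [i1]; exact hq)
      have g2 : x.2.1.1 ∈ (IT.br p Sp t₁ t₀).items :=
        Finset.mem_union_right _ (by rw [i2]; exact hr)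
      have s1 : X.c.st p x.1.1.1 = some σ := by rw [i1]; exact D.st1
      have s2 : X.c.st p x.2.1.1 = some σ₀ := by rw [i2]; exact D.ad.st
      rw [← i1] at l1 l2
      rw [← i2] at l3 l4
      have k := (RseNd23.rel_some h hpt hlam hix g1 g2 s1 s2 l1 l2 l3 l4).2
      rw [i1, i2] at k
      push_cast at k
      rw [k, sub_self, abs_zero])
  have hW : 0 < r / u.A := Nat.pos_of_ne_zero (h.div_ne (Finset.mem_union_right _ hr))
  have hW1 : 0 < q / (u.A * p) :=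
    Nat.div_pos (Nat.le_of_dvd (F.d1 q hq).1 (F.d1 q hq).2) (Nat.mul_pos F.a0 F.pr.pos)
  obtain ⟨d1, d2, -, -⟩ := dt_spec hW hW1
  have d1' : (0 : ℝ) < ((dt (r / u.A) (q / (u.A * p))).1 : ℝ) := by exact_mod_cast d1
  have d2' : (0 : ℝ) < ((dt (r / u.A) (q / (u.A * p))).2 : ℝ) := by exact_mod_cast d2
  have hx : 0 < RB X u q := mul_pos hB (hrr q)
  have hy : 0 < RB X u r := mul_pos hB (hrr r)
  have e1 : DA u.A (RB X u) (q, r) =
      max (((dt (r / u.A) (q / (u.A * p))).1 : ℝ) * RB X u q)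
        ((p * ((dt (r / u.A) (q / (u.A * p))).2 : ℝ)) * RB X u r) := by
    unfold DA Crest.Agent.R4.AvgItem710.Dp
    simp only
    rw [c1, c2]
    push_cast
    rfl
  rw [e1] at key
  have k2 := xy_max hx hy d1' (mul_pos hp d2')
  have e2 : RB X u q / p / ((dt (r / u.A) (q / (u.A * p))).2 : ℝ) =
      RB X u q / (p * ((dt (r / u.A) (q / (u.A * p))).2 : ℝ)) := by
    rw [div_div]
  rw [e2]
  simp only at key
  linarith


/-! ### the node theorem -/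

lemma root5 {a b θ : ℝ} (ha : 0 ≤ a) (hb : 0 ≤ b) (hθ : 0 ≤ θ) (h1 : a ≤ θ) (h2 : a ^ 4 < b ^ 5) :
    a ≤ θ ^ (1/5 : ℝ) * b := by
  have h3 : a ^ 5 ≤ (θ ^ (1/5 : ℝ) * b) ^ 5 := by
    rw [mul_pow, ← Real.rpow_natCast (θ ^ (1/5 : ℝ)) 5, ← Real.rpow_mul hθ]
    norm_num
    calc a ^ 5 = a * a ^ 4 := by ring
      _ ≤ θ * b ^ 5 := mul_le_mul h1 h2.le (by positivity) hθ
  exact le_of_pow_le_pow_left₀ (by norm_num) (by positivity) h3

/-- the offset of an accuracy death -/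
lemma ad_E {r : ℕ} {σ : ℚ} (D : AD X p r σ) (hp : 0 < p) (hB : Bl X.c p r = u.B)
    (hr : 0 < X.c.r r) (hθ : 0 ≤ X.c.wp.thr p) :
    (u.B : ℝ) * (X.c.γ - σ) ≠ 0 ∧
    u.B * X.c.r r ≤ X.c.wp.thr p ^ (1/5 : ℝ) * |(u.B : ℝ) * (X.c.γ - σ)| ∧
    (p * (u.B * X.c.r r)) ^ 4 < (p * |(u.B : ℝ) * (X.c.γ - σ)|) ^ 5 := by
  have hp' : (0 : ℝ) < p := by exact_mod_cast hp
  have h1 := D.thin
  have h2 := D.acc
  rw [hB] at h1 h2
  push_cast at h1 h2
  have e1 : (p : ℝ) * u.B * X.c.γ - p * u.B * σ = p * (u.B * (X.c.γ - σ)) := by ring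
  rw [e1, abs_mul, abs_of_pos hp', mul_assoc] at h2
  rw [mul_assoc] at h1
  have hR : 0 ≤ (u.B : ℝ) * X.c.r r := mul_nonneg (Nat.cast_nonneg _) hr.le
  refine ⟨fun h0 => ?_, ?_, h2⟩
  · rw [h0, abs_zero, mul_zero] at h2
    have : 0 ≤ ((p : ℝ) * (u.B * X.c.r r)) ^ 4 := by positivity
    linarith
  · have h3 := root5 (by positivity) (by positivity) hθ h1 h2
    have h4 : (p : ℝ) * (u.B * X.c.r r) ≤
        p * (X.c.wp.thr p ^ (1/5 : ℝ) * |(u.B : ℝ) * (X.c.γ - σ)|) := by linarith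
    exact le_of_mul_le_mul_left h4 hp'

/-- **the label of the accuracy deaths of a node is unique** -/
lemma ad_unique (h : NDt X.par (w X.ψ) X.c.t u (.br p Sp t₁ t₀)) {r r' : ℕ} {σ σ' : ℚ}
    (hr : r ∈ t₀.items) (hr' : r' ∈ t₀.items) (D : AD X p r σ) (D' : AD X p r' σ')
    (h0 : 0 < X.c.r r) (h0' : 0 < X.c.r r') (hθ : 0 < X.c.wp.thr p)
    (ht6 : 32 * X.c.wp.thr p ^ 2 < 1) : σ = σ' := by
  have hl : ¬ isL (IT.br p Sp t₁ t₀) := fun h => h
  have F := tF h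
  have b1 : Bl X.c p r = u.B := Bl_node h hl (Finset.mem_union_right _ hr)
  have b2 : Bl X.c p r' = u.B := Bl_node h hl (Finset.mem_union_right _ hr')
  have o1 := D.own
  have o2 := D'.own
  rw [b1] at o1
  rw [b2] at o2
  have L1 := lab0_spec h.B_pos o1
  have L2 := lab0_spec h.B_pos o2
  have p1 : (1 : ℝ) ≤ p := by exact_mod_cast F.pr.one_le
  have B0 : (0 : ℝ) ≤ u.B := Nat.cast_nonneg _
  have t1 : (u.B : ℝ) * X.c.r r ≤ X.c.wp.thr p := by
    have := D.thin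
    rw [b1] at this
    push_cast at this
    rw [mul_assoc] at this
    have h2 : 0 ≤ (u.B : ℝ) * X.c.r r := mul_nonneg B0 h0.le
    nlinarith
  have t2 : (u.B : ℝ) * X.c.r r' ≤ X.c.wp.thr p := by
    have := D'.thin
    rw [b2] at this
    push_cast at this
    rw [mul_assoc] at this
    have h2 : 0 ≤ (u.B : ℝ) * X.c.r r' := mul_nonneg B0 h0'.le
    nlinarith
  have d1 := D.den
  have d2 := D'.den
  rw [b1] at d1
  rw [b2] at d2
  have e := thin_unique (ρ := (u.B : ℚ) * σ) (σ := (u.B : ℚ) * σ') (by exact_mod_cast L1)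
    (by exact_mod_cast L2) hθ ht6 t1 t2 d1 d2
  have hB0 : (u.B : ℚ) ≠ 0 := by exact_mod_cast h.B_pos.ne'
  exact mul_left_cancel₀ hB0 e

/-- the gain of a tie -/
noncomputable def gn (N : Skel189.Num) (K t : ℝ) (p : ℕ) : ℝ :=
  4 / √(Real.log p ^ K) + C8 * (2 * Real.log p ^ (N.B + N.c2 + 2)) ^ ((1:ℝ)/16384) *
    Real.log p ^ K8 * (t ^ (1/5 : ℝ)) ^ (1/7 : ℝ)

open Classical in
/-- one label -/
theorem tie_one (h : NDt X.par (w X.ψ) X.c.t u (.br p Sp t₁ t₀))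
    (hn : Nc X u (.br p Sp t₁ t₀))
    (hrr : ∀ q ∈ (IT.br p Sp t₁ t₀).items, q ∈ X.S' → X.c.rr q = X.c.r q)
    (hpt : p ≤ top X.S) (hθ : 0 < X.c.wp.thr p) (ht5 : X.c.wp.thr p ^ (1/5 : ℝ) ≤ 1 / 1024)
    (ht6 : 32 * X.c.wp.thr p ^ 2 < 1) (hK : 0 ≤ K) (lam : ℚ) :
    ∑ r ∈ t₀.items.filter (fun r => r ∈ X.S' ∧ ∃ σ₀, AD X p r σ₀),
      ∑ q ∈ t₁.items.filter (fun q => q ∈ X.S'),
        ind (pG (RAc X K) Y A u p t₁ t₀ (q, r) ≠ 0 ∧
          ∃ σ, X.c.st p q = some σ ∧ (u.B : ℚ) * σ = lam) *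
        min (RB X u r / ((dt (r / u.A) (q / (u.A * p))).1 : ℝ))
          (RB X u q / p / ((dt (r / u.A) (q / (u.A * p))).2 : ℝ)) ≤
      gn N K (X.c.wp.thr p) p *
        (√(∑ r ∈ t₀.items.filter (fun r => r ∈ X.S' ∧ ∃ σ₀, AD X p r σ₀), RB X u r) *
          √(∑ q ∈ t₁.items.filter (fun q => q ∈ X.S'), RB X u q / p)) := by
  classical
  set FF := t₀.items.filter (fun r => r ∈ X.S' ∧ ∃ σ₀, AD X p r σ₀) with hFF
  set GG := t₁.items.filter (fun q => q ∈ X.S') with hGG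
  have F := tF h
  have hl : ¬ isL (IT.br p Sp t₁ t₀) := fun h => h
  have hB : (0 : ℝ) < u.B := by exact_mod_cast h.B_pos
  have hp : (0 : ℝ) < p := by exact_mod_cast F.pr.pos
  have l1 : 1 ≤ Real.log (p : ℝ) := hn.l1
  have l0 : 0 < Real.log (p : ℝ) := by linarith
  have hF : ∀ r ∈ FF, r ∈ t₀.items ∧ r ∈ X.S' ∧ ∃ σ₀, AD X p r σ₀ := fun r hr =>
    Finset.mem_filter.1 hr
  have hG : ∀ q ∈ GG, q ∈ t₁.items ∧ q ∈ X.S' := fun q hq => Finset.mem_filter.1 hq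
  have rF : ∀ r ∈ FF, 0 < RB X u r := fun r hr =>
    hn.R0 r (Finset.mem_union_right _ (hF r hr).1) (hF r hr).2.1
  have rG : ∀ q ∈ GG, 0 < RB X u q := fun q hq =>
    hn.R0 q (Finset.mem_union_left _ (hG q hq).1) (hG q hq).2
  have rrF : ∀ r ∈ FF, RB X u r = u.B * X.c.r r := fun r hr => by
    show (u.B : ℝ) * X.c.rr r = _
    rw [hrr r (Finset.mem_union_right _ (hF r hr).1) (hF r hr).2.1]
  have rrG : ∀ q ∈ GG, RB X u q = u.B * X.c.r q := fun q hq => by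
    show (u.B : ℝ) * X.c.rr q = _
    rw [hrr q (Finset.mem_union_left _ (hG q hq).1) (hG q hq).2]
  have r0F : ∀ r ∈ FF, 0 < X.c.r r := fun r hr => by
    have h1 := rF r hr
    rw [rrF r hr] at h1
    exact (mul_pos_iff_of_pos_left hB).1 h1
  have gn0 : 0 ≤ gn N K (X.c.wp.thr p) p := by
    unfold gn
    have := C8_nn
    positivity
  rcases FF.eq_empty_or_nonempty with h0 | ⟨r₀, hr₀⟩
  · rw [h0, Finset.sum_empty]
    positivity
  obtain ⟨m0, s0, σ₀, D₀⟩ := hF r₀ hr₀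
  have bF : ∀ r ∈ FF, Bl X.c p r = u.B := fun r hr =>
    Bl_node h hl (Finset.mem_union_right _ (hF r hr).1)
  have huq : ∀ r ∈ FF, ∀ σ, AD X p r σ → σ = σ₀ := fun r hr σ D =>
    ad_unique h (hF r hr).1 m0 D D₀ (r0F r hr) (r0F r₀ hr₀) hθ ht6
  have hAD : ∀ r ∈ FF, AD X p r σ₀ := fun r hr => by
    obtain ⟨σ, D⟩ := (hF r hr).2.2
    rwa [huq r hr σ D] at D
  have hE := fun r hr => ad_E (hAD r hr) F.pr.pos (bF r hr) (r0F r hr) hθ.le
  set E : ℝ := (u.B : ℝ) * (X.c.γ - σ₀) with hEd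
  have hE0 : E ≠ 0 := (hE r₀ hr₀).1
  have hEp : 0 < |E| := abs_pos.2 hE0
  have hfam : Fam FF GG (fun r => r / u.A) (fun q => q / (u.A * p)) (RB X u)
      (fun q => RB X u q / p) :=
    { pF := fun r hr => Nat.pos_of_ne_zero (h.div_ne (Finset.mem_union_right _ (hF r hr).1))
      pG := fun q hq => Nat.div_pos (Nat.le_of_dvd (F.d1 q (hG q hq).1).1 (F.d1 q (hG q hq).1).2)
        (Nat.mul_pos F.a0 F.pr.pos)
      iF := fun r hr r' hr' e => by
        have d := (F.d0 r (hF r hr).1).2.1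
        have d' := (F.d0 r' (hF r' hr').1).2.1
        have e' : r / u.A = r' / u.A := e
        rw [← Nat.mul_div_cancel' d, ← Nat.mul_div_cancel' d', e']
      iG := fun q hq q' hq' e => by
        have d := (F.d1 q (hG q hq).1).2
        have d' := (F.d1 q' (hG q' hq').1).2
        have e' : q / (u.A * p) = q' / (u.A * p) := e
        rw [← Nat.mul_div_cancel' d, ← Nat.mul_div_cancel' d', e']
      rF := fun r hr => (rF r hr).le
      rG := fun q hq => div_nonneg (rG q hq).le hp.le }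
  have hN0 : (1 : ℝ) ≤ 2 * Real.log p ^ (N.B + N.c2 + 2) := by
    have := Real.one_le_rpow l1 (show 0 ≤ N.B + N.c2 + 2 by
      have := N.hB; have := N.hc2; have := N.hC1; linarith)
    linarith
  have key := acc_energy8 hfam F.pr.two_le
    (S := fun r q => pG (RAc X K) Y A u p t₁ t₀ (q, r) ≠ 0 ∧
      ∃ σ, X.c.st p q = some σ ∧ (u.B : ℚ) * σ = lam)
    (fun r hr q hq hS l hlp hd => by
      obtain ⟨m1, m2, σ, σ', D⟩ := pd_of h hpt hS.1
      obtain ⟨c1, c2, -, -⟩ := cof_dt F m1 m2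
      have g1 : q ∈ (IT.br p Sp t₁ t₀).items := Finset.mem_union_left _ m1
      have g2 : r ∈ (IT.br p Sp t₁ t₀).items := Finset.mem_union_right _ m2
      rcases hlp.dvd_mul.1 hd with hd | hd
      · exact smooth_ret h X.tOk hl g2 g1 D.rt.symm hlp (by rw [c1]; exact hd)
      · exact smooth_ret h X.tOk hl g1 g2 D.rt hlp (by rw [c2]; exact hd.mul_left _))
    (E := E) (Γ := ((u.B : ℝ) * X.c.γ - lam) / p) (U := Real.log p ^ K)
    (η := X.c.wp.thr p ^ (1/5 : ℝ)) (N0 := 2 * Real.log p ^ (N.B + N.c2 + 2)) hE0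
    (Real.one_le_rpow l1 hK) (Real.rpow_pos_of_pos hθ _) ht5 hN0
    (fun r hr => ⟨rF r hr, by rw [rrF r hr]; exact (hE r hr).2.1⟩)
    (fun t ht => by
      rcases (FF.filter (fun i => t * |E| < RB X u i)).eq_empty_or_nonempty with h1 | ⟨r₁, hr₁⟩
      · rw [h1, Finset.card_empty, Nat.cast_zero]
        positivity
      obtain ⟨hr₁F, hr₁t⟩ := Finset.mem_filter.1 hr₁
      have k1 : t ^ 4 < p * |E| := by
        have a1 := (hE r₁ hr₁F).2.2
        rw [← rrF r₁ hr₁F] at a1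
        have a2 : (p * (t * |E|)) ^ 4 ≤ (p * RB X u r₁) ^ 4 :=
          pow_le_pow_left₀ (by positivity) (mul_le_mul_of_nonneg_left hr₁t.le hp.le) 4
        have a3 := a2.trans_lt a1
        have a4 : (p * (t * |E|)) ^ 4 = t ^ 4 * (p * |E|) ^ 4 := by ring
        have a5 : ((p : ℝ) * |E|) ^ 5 = (p * |E|) * (p * |E|) ^ 4 := by ring
        rw [a4, a5] at a3
        exact lt_of_mul_lt_mul_right a3 (by positivity)
      have k2 : ((FF.filter (fun i => t * |E| < RB X u i)).card : ℝ) * (t * |E|) ≤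
          2 * Real.log p ^ (N.B + N.c2 + 2) / p := by
        have a1 : ((FF.filter (fun i => t * |E| < RB X u i)).card : ℝ) * (t * |E|) =
            ∑ r ∈ FF.filter (fun i => t * |E| < RB X u i), t * |E| := by
          rw [Finset.sum_const, nsmul_eq_mul]
        rw [a1]
        refine (Finset.sum_le_sum fun r hr => (Finset.mem_filter.1 hr).2.le).trans ?_
        exact hn.miss (fun r hr => (hF r (Finset.mem_filter.1 hr).1).1)
          (fun r hr => (hF r (Finset.mem_filter.1 hr).1).2.1)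
      rw [le_div_iff₀ (by positivity)]
      rw [le_div_iff₀ hp] at k2
      have k3 : ((FF.filter (fun i => t * |E| < RB X u i)).card : ℝ) * t ^ 5 ≤
          ((FF.filter (fun i => t * |E| < RB X u i)).card : ℝ) * (t * (p * |E|)) := by
        refine mul_le_mul_of_nonneg_left ?_ (Nat.cast_nonneg _)
        calc t ^ 5 = t * t ^ 4 := by ring
          _ ≤ t * (p * |E|) := mul_le_mul_of_nonneg_left k1.le ht.le
      refine k3.trans (le_of_eq_of_le ?_ k2)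
      ring)
    (fun r hr q hq hS => by
      obtain ⟨hS1, σ, hs, hlam⟩ := hS
      obtain ⟨m1, m2, σ', σ'', D⟩ := pd_of h hpt hS1
      have eσ : σ' = σ := by
        have := D.st1
        rw [hs] at this
        exact (Option.some.inj this).symm
      have eσ0 : σ'' = σ₀ := huq r hr σ'' D.ad
      subst eσ eσ0
      obtain ⟨-, -, c3, c4⟩ := cof_dt F m1 m2
      set d1 := (dt (r / u.A) (q / (u.A * p))).1 with hd1
      set d2 := (dt (r / u.A) (q / (u.A * p))).2 with hd2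
      refine ⟨?_, fun _ => ?_⟩
      · obtain ⟨z, z', hz, hz', hrel⟩ := D.pt
        refine ⟨u.B * z', u.B * z / p, ?_, ?_, ?_⟩
        · rw [abs_mul, abs_of_pos hB, rrF r hr]
          exact mul_le_mul_of_nonneg_left hz' hB.le
        · rw [abs_div, abs_mul, abs_of_pos hB, abs_of_pos hp, rrG q hq]
          exact div_le_div_of_nonneg_right (mul_le_mul_of_nonneg_left hz hB.le) hp.le
        · rw [c3, c4] at hrel
          show (d2 : ℝ) * (E + u.B * z') = d1 * (((u.B : ℝ) * X.c.γ - lam) / p + u.B * z / p)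
          have hl' : (lam : ℝ) = u.B * σ' := by rw [← hlam]; push_cast; ring
          rw [hl', hEd]
          push_cast at hrel
          have f1 : (d1 : ℝ) * (((u.B : ℝ) * X.c.γ - u.B * σ') / p + u.B * z / p) =
              u.B / p * (d1 * (z + (X.c.γ - σ'))) := by ring
          rw [f1, hrel]
          field_simp
          ring
      · have hb := D.big
        rw [c3, c4] at hb
        by_contra hc
        push Not at hc
        have e1 : ((max d1 d2 : ℕ) : ℝ) = max (d1 : ℝ) d2 := Nat.cast_max _ _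
        have hc' : ((max d1 d2 : ℕ) : ℝ) ≤ Real.log p ^ K := hc
        rw [e1] at hc'
        apply hb
        refine ⟨?_, (le_max_left _ _).trans hc'⟩
        push_cast
        exact mul_le_mul_of_nonneg_left ((le_max_right _ _).trans hc') hp.le)
  exact key


/-- **the node theorem**: the energy of the pairs `RAc` at a tie -/
theorem tie_acc (h : NDt X.par (w X.ψ) X.c.t u (.br p Sp t₁ t₀))
    (hn : Nc X u (.br p Sp t₁ t₀))
    (hrr : ∀ q ∈ (IT.br p Sp t₁ t₀).items, q ∈ X.S' → X.c.rr q = X.c.r q)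
    (hpt : p ≤ top X.S) (hlam : X.c.lam p = 0)
    (hθ : 0 < X.c.wp.thr p) (ht5 : X.c.wp.thr p ^ (1/5 : ℝ) ≤ 1 / 1024)
    (ht6 : 32 * X.c.wp.thr p ^ 2 < 1) (hK : 0 ≤ K) {Λ : Finset ℚ}
    (hΛ : ∀ q ∈ t₁.items, q ∈ X.S' → ∀ σ : ℚ, X.c.st p q = some σ →
      dense (X.c.wp.thr p) u.B σ → (u.B : ℚ) * σ ∈ Λ) :
    PG (RAc X K) Y A u p t₁ t₀ ≤ 4 * Λ.card * gn N K (X.c.wp.thr p) p *
      (Real.log p ^ (2 + N.B / 2) / p * Mn X u (.br p Sp t₁ t₀)) := by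
  classical
  have F := tF h
  set FF := t₀.items.filter (fun r => r ∈ X.S' ∧ ∃ σ₀, AD X p r σ₀) with hFF
  set GG := t₁.items.filter (fun q => q ∈ X.S') with hGG
  have hp : (0 : ℝ) < p := by exact_mod_cast F.pr.pos
  have l1 : 1 ≤ Real.log (p : ℝ) := hn.l1
  have l0 : 0 < Real.log (p : ℝ) := by linarith
  have hrr0 : ∀ q, 0 < X.c.rr q := (X.ok.rad Y).pos
  have hB : (0 : ℝ) < u.B := by exact_mod_cast h.B_pos
  have gn0 : 0 ≤ gn N K (X.c.wp.thr p) p := by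
    unfold gn
    have := C8_nn
    positivity
  set M : ℝ := Mn X u (.br p Sp t₁ t₀) with hM
  have M0 : 0 ≤ M := mul_nonneg hn.c0.le (Finset.sum_nonneg fun q _ => hn.w0 q)
  -- the energy is the sum over the pairs of items
  have hsum : PG (RAc X K) Y A u p t₁ t₀ = ∑ e ∈ GG ×ˢ FF, pG (RAc X K) Y A u p t₁ t₀ e := by
    unfold PG
    rw [Q_eq_sum (X.c.D.par Y) (PNg (RAc X K) p t₁ t₀) (UP X Y u p t₁ A) (UN X Y u p t₀ A)
      (E := (X.c.D.par Y).PE (PNg (RAc X K) p t₁ t₀) (UP X Y u p t₁ A) (UN X Y u p t₀ A) ∪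
        GG ×ˢ FF) Finset.subset_union_left, Finset.mul_sum]
    symm
    refine Finset.sum_subset Finset.subset_union_right fun e _ he => ?_
    by_contra h0
    have h0' : pG (RAc X K) Y A u p t₁ t₀ (e.1, e.2) ≠ 0 := h0
    obtain ⟨m1, m2, σ, σ₀, D⟩ := pd_of h hpt h0'
    exact he (Finset.mem_product.2 ⟨Finset.mem_filter.2 ⟨m1, D.S1⟩,
      Finset.mem_filter.2 ⟨m2, D.S0, σ₀, D.ad⟩⟩)
  set f : ℚ → ℕ → ℕ → ℝ := fun lam r q => ind (pG (RAc X K) Y A u p t₁ t₀ (q, r) ≠ 0 ∧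
      ∃ σ, X.c.st p q = some σ ∧ (u.B : ℚ) * σ = lam) *
        min (RB X u r / ((dt (r / u.A) (q / (u.A * p))).1 : ℝ))
          (RB X u q / p / ((dt (r / u.A) (q / (u.A * p))).2 : ℝ)) with hf
  have f0 : ∀ lam r q, 0 ≤ f lam r q := fun lam r q => by
    refine mul_nonneg (ind_nn _) (le_min ?_ ?_)
    · have := (hrr0 r).le
      positivity
    · have := (hrr0 q).le
      positivity
  have hpair : ∀ q ∈ GG, ∀ r ∈ FF, pG (RAc X K) Y A u p t₁ t₀ (q, r) ≤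
      ∑ lam ∈ Λ, 2 * f lam r q := by
    intro q hq r hr
    by_cases h0 : pG (RAc X K) Y A u p t₁ t₀ (q, r) = 0
    · rw [h0]
      exact Finset.sum_nonneg fun lam _ => mul_nonneg (by norm_num) (f0 lam r q)
    · obtain ⟨m1, m2, σ, σ₀, D⟩ := pd_of h hpt h0
      have h1 := pd_le (Y := Y) (A := A) h hpt hlam m1 m2 D
      have h2 : (u.B : ℚ) * σ ∈ Λ := hΛ q m1 D.S1 σ D.st1 D.den1
      refine h1.trans ?_
      refine le_trans (le_of_eq ?_) (Finset.single_le_sum (f := fun lam => 2 * f lam r q)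
        (fun lam _ => mul_nonneg (by norm_num) (f0 lam r q)) h2)
      show _ = 2 * (ind _ * _)
      rw [ind_t ⟨h0, σ, D.st1, rfl⟩, one_mul]
  rw [hsum, Finset.sum_product]
  have e1 : ∑ q ∈ GG, ∑ r ∈ FF, pG (RAc X K) Y A u p t₁ t₀ (q, r) ≤
      ∑ lam ∈ Λ, 2 * ∑ r ∈ FF, ∑ q ∈ GG, f lam r q := by
    refine (Finset.sum_le_sum fun q hq => Finset.sum_le_sum fun r hr => hpair q hq r hr).trans ?_
    rw [Finset.sum_comm]
    have : ∀ r ∈ FF, ∑ q ∈ GG, ∑ lam ∈ Λ, 2 * f lam r q = ∑ lam ∈ Λ, ∑ q ∈ GG, 2 * f lam r q :=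
      fun r _ => Finset.sum_comm
    rw [Finset.sum_congr rfl this, Finset.sum_comm]
    refine (Finset.sum_congr rfl fun lam _ => ?_).le
    rw [Finset.mul_sum]
    refine Finset.sum_congr rfl fun r _ => ?_
    rw [Finset.mul_sum]
  -- masses
  have sF : ∑ r ∈ FF, RB X u r ≤ Real.log p ^ 2 * (2 * (Real.log p ^ N.B / p) * M) := by
    have a1 := hn.sumR (F := FF) (fun r hr => Finset.mem_union_right _ (Finset.mem_filter.1 hr).1)
      (fun r hr => (Finset.mem_filter.1 hr).2.1)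
    have n := h.self.node
    obtain ⟨n1, n2, n3, n4, n5, n6, n7, n8, n9, n10, n11, n12, n13⟩ := n
    have hsg : X.par.sg p = Real.log p ^ N.B / p := rfl
    have a2 : u.c * Ws (w X.ψ) FF ≤ 2 * (Real.log p ^ N.B / p) * M := by
      calc u.c * Ws (w X.ψ) FF ≤ u.c * Ws (w X.ψ) t₀.items :=
            mul_le_mul_of_nonneg_left (Finset.sum_le_sum_of_subset_of_nonneg
              (Finset.filter_subset _ _) fun q _ _ => hn.w0 q) hn.c0.le
        _ ≤ u.c * (2 * X.par.sg p * Ws (w X.ψ) (t₁.items ∪ t₀.items)) :=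
            mul_le_mul_of_nonneg_left n12 hn.c0.le
        _ = 2 * X.par.sg p * (u.c * Ws (w X.ψ) (t₁.items ∪ t₀.items)) := by ring
        _ = 2 * (Real.log p ^ N.B / p) * M := by rw [hsg]; rfl
    exact a1.trans (mul_le_mul_of_nonneg_left a2 (by positivity))
  have sG : ∑ q ∈ GG, RB X u q / p ≤ Real.log p ^ 2 / p * M := by
    have a1 := hn.sumR (F := GG) (fun r hr => Finset.mem_union_left _ (Finset.mem_filter.1 hr).1)
      (fun r hr => (Finset.mem_filter.1 hr).2)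
    have a2 : u.c * Ws (w X.ψ) GG ≤ M := by
      refine mul_le_mul_of_nonneg_left (Finset.sum_le_sum_of_subset_of_nonneg
        (fun r hr => Finset.mem_union_left _ (Finset.mem_filter.1 hr).1) fun q _ _ => hn.w0 q)
        hn.c0.le
    rw [← Finset.sum_div]
    have a3 := a1.trans (mul_le_mul_of_nonneg_left a2 (by positivity))
    calc (∑ q ∈ GG, RB X u q) / p ≤ Real.log p ^ 2 * M / p :=
          div_le_div_of_nonneg_right a3 hp.le
      _ = Real.log p ^ 2 / p * M := by ring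
  have hsq : √(∑ r ∈ FF, RB X u r) * √(∑ q ∈ GG, RB X u q / p) ≤
      2 * (Real.log p ^ (2 + N.B / 2) / p * M) := by
    have b0 : 0 ≤ 2 * (Real.log p ^ (2 + N.B / 2) / p * M) := by positivity
    have hL : (Real.log (p:ℝ) ^ (2 + N.B / 2)) ^ 2 = Real.log p ^ 2 * Real.log p ^ 2 *
        Real.log p ^ N.B := by
      rw [← Real.rpow_natCast (Real.log (p:ℝ) ^ (2 + N.B / 2)) 2, ← Real.rpow_mul l0.le]
      have e3 : (2 + N.B / 2) * ((2 : ℕ) : ℝ) = 2 + 2 + N.B := by push_cast; ring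
      rw [e3, Real.rpow_add l0, Real.rpow_add l0, Real.rpow_two]
    rw [← Real.sqrt_mul' _ (Finset.sum_nonneg fun q _ => by
      have := (hrr0 q).le
      positivity)]
    refine Real.sqrt_le_iff.2 ⟨b0, ?_⟩
    have c1 : (∑ r ∈ FF, RB X u r) * (∑ q ∈ GG, RB X u q / p) ≤
        (Real.log p ^ 2 * (2 * (Real.log p ^ N.B / p) * M)) * (Real.log p ^ 2 / p * M) :=
      mul_le_mul sF sG (Finset.sum_nonneg fun q _ => by
        have := (hrr0 q).le
        positivity) (by positivity)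
    refine c1.trans ?_
    have c2 : (2 * (Real.log (p:ℝ) ^ (2 + N.B / 2) / p * M)) ^ 2 =
        4 * ((Real.log (p:ℝ) ^ (2 + N.B / 2)) ^ 2 / p ^ 2 * M ^ 2) := by ring
    rw [c2, hL]
    have c3 : (Real.log (p:ℝ) ^ 2 * (2 * (Real.log p ^ N.B / p) * M)) * (Real.log p ^ 2 / p * M) =
        2 * (Real.log p ^ 2 * Real.log p ^ 2 * Real.log p ^ N.B / p ^ 2 * M ^ 2) := by
      field_simp
    rw [c3]
    have c4 : 0 ≤ Real.log (p:ℝ) ^ 2 * Real.log p ^ 2 * Real.log p ^ N.B / p ^ 2 * M ^ 2 := by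
      positivity
    linarith
  refine e1.trans ?_
  have e2 : ∀ lam ∈ Λ, 2 * ∑ r ∈ FF, ∑ q ∈ GG, f lam r q ≤
      2 * (gn N K (X.c.wp.thr p) p * (2 * (Real.log p ^ (2 + N.B / 2) / p * M))) := fun lam _ => by
    refine mul_le_mul_of_nonneg_left ?_ (by norm_num)
    exact (tie_one (Y := Y) (A := A) h hn hrr hpt hθ ht5 ht6 hK lam).trans
      (mul_le_mul_of_nonneg_left hsq gn0)
  refine (Finset.sum_le_sum e2).trans (le_of_eq ?_)
  rw [Finset.sum_const, nsmul_eq_mul]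
  ring

end ctx


/-! ### numbers -/

/-- the gain in powers of `log p` -/
lemma gn_le (N : Skel189.Num) {K s' Ct t : ℝ} {p : ℕ} (h1 : 2 * (s' + N.B / 2 + 4) ≤ K)
    (h2 : s' + (N.B + N.c2 + 2) / 16384 + K8 + N.B / 2 + 4 ≤ Ct / 35) (ht : 0 < t)
    (ht2 : t ≤ 2 ^ Ct * Real.log p ^ (-Ct))
    (hL : 32 + 16 * C8 * 2 ^ (Ct / 35) ≤ Real.log p) :
    4 * Real.log p * gn N K t p * Real.log p ^ (2 + N.B / 2) ≤ Real.log p ^ (-s') := by
  have hC8 := C8_nn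
  set L := Real.log (p : ℝ) with hLd
  have q0 : (0:ℝ) ≤ 16 * C8 * 2 ^ (Ct / 35) := by positivity
  have L32 : 32 ≤ L := by linarith
  have L0 : 0 < L := by linarith
  have L1 : 1 ≤ L := by linarith
  -- first term
  have e1 : 4 * L * (4 / √(L ^ K)) * L ^ (2 + N.B / 2) ≤ 1 / 2 * L ^ (-s') := by
    have a1 : √(L ^ K) = L ^ (K / 2) := by
      rw [Real.sqrt_eq_rpow, ← Real.rpow_mul L0.le]; congr 1; ring
    rw [a1]
    have a2 : 4 * L * (4 / L ^ (K / 2)) * L ^ (2 + N.B / 2) = 16 * L ^ (1 + -(K/2) + (2 + N.B/2)) := by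
      rw [Real.rpow_add L0 (1 + -(K/2)) (2 + N.B/2), Real.rpow_add L0 1 (-(K/2)), Real.rpow_one,
        Real.rpow_neg L0.le]
      field_simp
      norm_num
    rw [a2]
    have a3 : L ^ (1 + -(K/2) + (2 + N.B/2)) ≤ L ^ (-s' + -1) :=
      Real.rpow_le_rpow_of_exponent_le L1 (by linarith)
    have a4 : L ^ (-s' + -1) = L ^ (-s') * L⁻¹ := by
      rw [Real.rpow_add L0, Real.rpow_neg_one]
    have a5 : L⁻¹ ≤ 1 / 32 := by
      rw [inv_eq_one_div]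
      exact one_div_le_one_div_of_le (by norm_num) L32
    have a6 : 0 < L ^ (-s') := Real.rpow_pos_of_pos L0 _
    calc 16 * L ^ (1 + -(K/2) + (2 + N.B/2)) ≤ 16 * (L ^ (-s') * L⁻¹) := by
          rw [← a4]; linarith
      _ ≤ 16 * (L ^ (-s') * (1/32)) := by gcongr
      _ = 1 / 2 * L ^ (-s') := by ring
  -- second term
  have e2 : 4 * L * (C8 * (2 * L ^ (N.B + N.c2 + 2)) ^ ((1:ℝ)/16384) * L ^ K8 *
      (t ^ (1/5 : ℝ)) ^ (1/7 : ℝ)) * L ^ (2 + N.B / 2) ≤ 1 / 2 * L ^ (-s') := by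
    have b1 : (2 * L ^ (N.B + N.c2 + 2)) ^ ((1:ℝ)/16384) ≤ 2 * L ^ ((N.B + N.c2 + 2) / 16384) := by
      rw [Real.mul_rpow (by norm_num) (by positivity), ← Real.rpow_mul L0.le]
      have c1 : (2:ℝ) ^ ((1:ℝ)/16384) ≤ 2 := by
        calc (2:ℝ) ^ ((1:ℝ)/16384) ≤ (2:ℝ) ^ (1:ℝ) :=
              Real.rpow_le_rpow_of_exponent_le (by norm_num) (by norm_num)
          _ = 2 := Real.rpow_one _
      have c2 : (N.B + N.c2 + 2) * ((1:ℝ)/16384) = (N.B + N.c2 + 2) / 16384 := by ring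
      rw [c2]
      exact mul_le_mul_of_nonneg_right c1 (by positivity)
    have b2 : (t ^ (1/5 : ℝ)) ^ (1/7 : ℝ) ≤ 2 ^ (Ct / 35) * L ^ (-(Ct / 35)) := by
      rw [← Real.rpow_mul ht.le]
      have c1 : t ^ ((1/5 : ℝ) * (1/7)) ≤ (2 ^ Ct * L ^ (-Ct)) ^ ((1/5 : ℝ) * (1/7)) :=
        Real.rpow_le_rpow ht.le ht2 (by norm_num)
      refine c1.trans (le_of_eq ?_)
      rw [Real.mul_rpow (by positivity) (by positivity), ← Real.rpow_mul (by norm_num),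
        ← Real.rpow_mul L0.le]
      congr 2 <;> ring
    have b3 : 0 ≤ (2 * L ^ (N.B + N.c2 + 2)) ^ ((1:ℝ)/16384) := by positivity
    have b4 : 0 ≤ (t ^ (1/5 : ℝ)) ^ (1/7 : ℝ) := by positivity
    calc 4 * L * (C8 * (2 * L ^ (N.B + N.c2 + 2)) ^ ((1:ℝ)/16384) * L ^ K8 *
          (t ^ (1/5 : ℝ)) ^ (1/7 : ℝ)) * L ^ (2 + N.B / 2)
        ≤ 4 * L * (C8 * (2 * L ^ ((N.B + N.c2 + 2) / 16384)) * L ^ K8 *
          (2 ^ (Ct / 35) * L ^ (-(Ct / 35)))) * L ^ (2 + N.B / 2) := by gcongr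
      _ = 8 * C8 * 2 ^ (Ct / 35) * (L * L ^ ((N.B + N.c2 + 2) / 16384) * L ^ K8 *
          L ^ (-(Ct / 35)) * L ^ (2 + N.B / 2)) := by ring
      _ = 8 * C8 * 2 ^ (Ct / 35) *
          L ^ (1 + (N.B + N.c2 + 2) / 16384 + K8 + -(Ct / 35) + (2 + N.B / 2)) := by
          rw [Real.rpow_add L0 (1 + (N.B + N.c2 + 2) / 16384 + K8 + -(Ct / 35)) (2 + N.B / 2),
            Real.rpow_add L0 (1 + (N.B + N.c2 + 2) / 16384 + K8) (-(Ct / 35)),
            Real.rpow_add L0 (1 + (N.B + N.c2 + 2) / 16384) K8,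
            Real.rpow_add L0 1 ((N.B + N.c2 + 2) / 16384), Real.rpow_one]
      _ ≤ 8 * C8 * 2 ^ (Ct / 35) * L ^ (-s' + -1) := by
          refine mul_le_mul_of_nonneg_left ?_ (by positivity)
          exact Real.rpow_le_rpow_of_exponent_le L1 (by linarith)
      _ = (8 * C8 * 2 ^ (Ct / 35) * L⁻¹) * L ^ (-s') := by
          rw [Real.rpow_add L0, Real.rpow_neg_one]; ring
      _ ≤ 1 / 2 * L ^ (-s') := by
          refine mul_le_mul_of_nonneg_right ?_ (by positivity)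
          rw [← div_eq_mul_inv, div_le_iff₀ L0]
          linarith
  unfold gn
  rw [← hLd]
  calc 4 * L * (4 / √(L ^ K) + C8 * (2 * L ^ (N.B + N.c2 + 2)) ^ ((1:ℝ)/16384) * L ^ K8 *
        (t ^ (1/5 : ℝ)) ^ (1/7 : ℝ)) * L ^ (2 + N.B / 2)
      = 4 * L * (4 / √(L ^ K)) * L ^ (2 + N.B / 2) +
        4 * L * (C8 * (2 * L ^ (N.B + N.c2 + 2)) ^ ((1:ℝ)/16384) * L ^ K8 *
        (t ^ (1/5 : ℝ)) ^ (1/7 : ℝ)) * L ^ (2 + N.B / 2) := by ring
    _ ≤ 1 / 2 * L ^ (-s') + 1 / 2 * L ^ (-s') := add_le_add e1 e2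
    _ = L ^ (-s') := by ring

/-- the large columns -/
lemma big_p (N : Skel189.Num) {Ct : ℝ} (hCt : 0 < Ct) (c : ℝ) : ∃ p₁ : ℕ, ∀ p : ℕ, p₁ ≤ p →
    3 ≤ p ∧ c ≤ Real.log p ∧
    32 * (Real.log p ^ (N.c2 + 2)) ^ 4 < (p : ℝ) ^ 2 * (Real.log p ^ (-Ct)) ^ 2 ∧
    2 * Ct * Real.log (Real.log p) + 3 ≤ Real.log p ∧
    ParF5.thrF Ct p ≤ (1 / 1024) ^ 5 := by
  obtain ⟨a, ha⟩ := AccF41.thr_small hCt (show (0:ℝ) < (1 / 1024) ^ 5 by positivity)
  have e0 := (Real.tendsto_log_atTop.comp (tendsto_natCast_atTop_atTop (R := ℝ)))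
  have e1 : ∀ᶠ p : ℕ in atTop, c ≤ Real.log (p:ℝ) := e0.eventually_ge_atTop _
  have e2 : ∀ᶠ x : ℝ in atTop, Real.log x ^ (4 * (N.c2 + 2) + 2 * Ct) ≤ 1 / 64 * x := by
    have h1 := (isLittleO_log_rpow_rpow_atTop (4 * (N.c2 + 2) + 2 * Ct)
      (show (0 : ℝ) < 1 by norm_num)).bound (show (0 : ℝ) < 1 / 64 by norm_num)
    filter_upwards [h1, eventually_ge_atTop (1 : ℝ)] with x hx hx1
    have hl : 0 ≤ Real.log x := Real.log_nonneg hx1
    rw [Real.norm_eq_abs, Real.norm_eq_abs, abs_of_nonneg (Real.rpow_nonneg hl _),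
      Real.rpow_one, abs_of_nonneg (by linarith)] at hx
    exact hx
  have e3 : ∀ᶠ x : ℝ in atTop, 2 * Ct * Real.log x + 3 ≤ x := by
    have h1 := Real.isLittleO_log_id_atTop.bound (show (0:ℝ) < 1 / (4 * Ct) by positivity)
    filter_upwards [h1, eventually_ge_atTop (6 : ℝ)] with x hx hx1
    have hl : 0 ≤ Real.log x := Real.log_nonneg (by linarith)
    rw [Real.norm_eq_abs, abs_of_nonneg hl] at hx
    have h2 : ‖id x‖ = x := by rw [id, Real.norm_eq_abs, abs_of_nonneg (by linarith)]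
    rw [h2] at hx
    have h3 : 2 * Ct * Real.log x ≤ 2 * Ct * (1 / (4 * Ct) * x) :=
      mul_le_mul_of_nonneg_left hx (by positivity)
    have h4 : 2 * Ct * (1 / (4 * Ct) * x) = x / 2 := by field_simp; norm_num
    linarith
  obtain ⟨b, hb⟩ := eventually_atTop.1 (e1.and
    (((tendsto_natCast_atTop_atTop (R := ℝ)).eventually e2).and (e0.eventually e3)))
  refine ⟨a + b + 3, fun p hp => ?_⟩
  obtain ⟨h1, h2, h3⟩ := hb p (by omega)
  have hp3 : 3 ≤ p := by omega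
  have hl := ParF5.one_lt_log hp3
  have hl0 : 0 < Real.log (p:ℝ) := by linarith
  have hp1 : (1:ℝ) ≤ p := by exact_mod_cast (by omega : 1 ≤ p)
  refine ⟨hp3, h1, ?_, h3, ha p (by omega)⟩
  have g1 : (Real.log (p:ℝ) ^ (N.c2 + 2)) ^ 4 = Real.log p ^ (4 * (N.c2 + 2)) := by
    rw [← Real.rpow_natCast, ← Real.rpow_mul hl0.le]
    congr 1
    push_cast; ring
  have g2 : (Real.log (p:ℝ) ^ (-Ct)) ^ 2 = Real.log p ^ (-(2 * Ct)) := by
    rw [← Real.rpow_natCast, ← Real.rpow_mul hl0.le]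
    congr 1
    push_cast; ring
  have g3 : Real.log (p:ℝ) ^ (4 * (N.c2 + 2)) =
      Real.log p ^ (4 * (N.c2 + 2) + 2 * Ct) * Real.log p ^ (-(2 * Ct)) := by
    rw [← Real.rpow_add hl0]; congr 1; ring
  rw [g1, g2, g3]
  have g4 : 0 < Real.log (p:ℝ) ^ (-(2 * Ct)) := Real.rpow_pos_of_pos hl0 _
  rw [← mul_assoc]
  refine mul_lt_mul_of_pos_right ?_ g4
  have h2' : Real.log (p:ℝ) ^ (4 * (N.c2 + 2) + 2 * Ct) ≤ 1 / 64 * p := h2
  nlinarith

/-- **every tie is good** for the relation `RAc` -/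
theorem tib_acc {N : Skel189.Num} {Ct C₀ K s' : ℝ} {Sx : ℕ → (ℕ → ℝ) → Finset ℕ → Finset ℕ}
    (hN : ParF5.NumOK N (ParT21.thF Ct) Ct C₀ Sx) (hCt : 1 ≤ Ct) (hK : 0 ≤ K)
    (h1 : 2 * (s' + N.B / 2 + 4) ≤ K)
    (h2 : s' + (N.B + N.c2 + 2) / 16384 + K8 + N.B / 2 + 4 ≤ (Ct - 1) / 35) :
    ∃ p₁ : ℕ, ∀ p0 ≥ p₁, ∀ (γ : ℝ) (P₀ : ℕ), 2 ≤ P₀ → ∀ X : Ctx N γ p0 P₀, TH X →
      ∀ (Y : Finset (ℕ × ℕ × Finset ℕ)) (A : Finset X.c.Lam), TiB X (RAc X K) Y A s' := by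
  obtain ⟨a, ha⟩ := NcE14.nce N
  obtain ⟨b, hb⟩ := alive_facts N
  have hCt0 : 0 < Ct := by linarith
  obtain ⟨c, hc⟩ := big_p N hCt0 (32 + 16 * C8 * 2 ^ ((Ct - 1) / 35))
  obtain ⟨d, hd⟩ := ParT21.ctx_small hN hCt0 (show (0:ℝ) < (1 / 1024) ^ 5 by positivity)
  obtain ⟨e, he⟩ := ParT21.ctx_lo hN hCt0
  obtain ⟨f, hf⟩ := ParT21.ctx_hi hN hCt0 one_pos
  refine ⟨a + b + c + d + e + f, fun p0 hp0 γ P₀ hP₀ X hT Y A u p Sp t₁ t₀ hall => ?_⟩
  have hNF := hall.self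
  have h := hNF.nd
  have hl : ¬ isL (IT.br p Sp t₁ t₀) := fun h => h
  have hn := ha p0 (by omega) γ P₀ hP₀ X u _ hNF hl
  have hAl := hb p0 (by omega) γ P₀ hP₀ X u _ hNF hl
  obtain ⟨k1, k2, k3, k4⟩ := nodeOk_hi h.self.node hl
  have k2' : p0 < p := k2
  have hpt : p ≤ top X.S := k3.le.trans hNF.lvl
  obtain ⟨c1, c2, c3, c4, c5⟩ := hc p (by omega)
  have F := tF h
  have hp : (0 : ℝ) < p := by exact_mod_cast F.pr.pos
  have hθ : 0 < X.c.wp.thr p := hT.pos p k2'.le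
  have l1 : 1 ≤ Real.log (p : ℝ) := hn.l1
  have l0 : 0 < Real.log (p : ℝ) := by linarith
  have lθ : Real.log p ^ (-Ct) ≤ X.c.wp.thr p := he γ p0 P₀ X p (by omega)
  have uθ : X.c.wp.thr p ≤ 2 ^ (Ct - 1) * Real.log p ^ (-(Ct - 1)) :=
    (hf γ p0 P₀ X p (by omega)).trans (le_mul_of_one_le_left (Real.rpow_nonneg l0.le _)
      (Real.one_le_rpow (by norm_num) (by linarith)))
  have sθ : X.c.wp.thr p ≤ (1 / 1024) ^ 5 := hd γ p0 P₀ X p (by omega)
  have ht5 : X.c.wp.thr p ^ (1/5 : ℝ) ≤ 1 / 1024 := by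
    have := Real.rpow_le_rpow hθ.le sθ (show (0:ℝ) ≤ 1/5 by norm_num)
    refine this.trans (le_of_eq ?_)
    rw [← Real.rpow_natCast, ← Real.rpow_mul (by norm_num)]
    norm_num
  have sθ' : X.c.wp.thr p ≤ 1 / 1024 := sθ.trans (by norm_num)
  have ht6 : 32 * X.c.wp.thr p ^ 2 < 1 := by nlinarith
  -- the number of labels
  have hi1 : 1 ≤ 1 / X.c.wp.thr p := by
    rw [le_div_iff₀ hθ]; linarith
  obtain ⟨M, hM1, hM2⟩ := exists_nat_pow_near hi1 (by norm_num : (1:ℝ) < 2)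
  have hMl : ((M + 2 : ℕ) : ℝ) ≤ Real.log p := by
    have d1 : (2:ℝ) ^ M ≤ Real.log p ^ Ct := by
      refine hM1.trans ?_
      rw [div_le_iff₀ hθ]
      calc (1:ℝ) = Real.log p ^ Ct * Real.log p ^ (-Ct) := by
            rw [← Real.rpow_add l0]; simp
        _ ≤ Real.log p ^ Ct * X.c.wp.thr p := mul_le_mul_of_nonneg_left lθ (by positivity)
    have d2 := Real.log_le_log (by positivity) d1
    rw [Real.log_pow, Real.log_rpow l0] at d2
    have d3 := Real.log_two_gt_d9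
    push_cast
    have d4 : (0:ℝ) ≤ M := Nat.cast_nonneg M
    nlinarith
  obtain ⟨Λ, hΛc, hΛ⟩ := labs_node (X := X) (κ := Real.log p ^ (N.c2 + 2)) h hl (fun s hs => by
      have hs' : p < s := hs
      have f1 := hT.hi s (by omega)
      refine le_trans ?_ f1
      have f2 : Real.log (p:ℝ) ≤ Real.log s :=
        Real.log_le_log hp (by exact_mod_cast hs'.le)
      have f3 : (0:ℝ) ≤ N.B := by have := N.hB; have := N.hc2; have := N.hC1; linarith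
      calc Real.log (p:ℝ) ^ (N.c2 + 2) ≤ Real.log s ^ (N.c2 + 2) :=
            Real.rpow_le_rpow l0.le f2 (by have := N.hc2; linarith)
        _ ≤ Real.log s ^ (N.B + N.c2 + 2) :=
            Real.rpow_le_rpow_of_exponent_le (by linarith) (by linarith)) hθ
    (by
      refine lt_of_lt_of_le c3 ?_
      refine mul_le_mul_of_nonneg_left ?_ (by positivity)
      exact pow_le_pow_left₀ (by positivity) lθ 2) ht6 hM2
  have hcard : (Λ.card : ℝ) ≤ Real.log p := le_trans (by exact_mod_cast hΛc) hMl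
  have key := tie_acc (K := K) (Y := Y) (A := A) (Λ := Λ) h hn
    (fun q hq hs => (hAl q hq hs).rr) hpt (hT.lam p) hθ ht5 ht6 hK
    (fun q hq hs σ hσ hd => hΛ q (Finset.mem_union_left _ hq)
      (hAl q (Finset.mem_union_left _ hq) hs).hi σ hσ hd)
  have hg := gn_le N h1 h2 hθ uθ c2
  have M0 : 0 ≤ Mn X u (.br p Sp t₁ t₀) := Mn_nonneg hNF
  have gn0 : 0 ≤ gn N K (X.c.wp.thr p) p := by
    unfold gn
    have := C8_nn
    positivity
  refine key.trans ?_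
  calc 4 * Λ.card * gn N K (X.c.wp.thr p) p *
        (Real.log p ^ (2 + N.B / 2) / p * Mn X u (.br p Sp t₁ t₀))
      ≤ 4 * Real.log p * gn N K (X.c.wp.thr p) p *
        (Real.log p ^ (2 + N.B / 2) / p * Mn X u (.br p Sp t₁ t₀)) := by gcongr
    _ = (4 * Real.log p * gn N K (X.c.wp.thr p) p * Real.log p ^ (2 + N.B / 2)) *
        (1 / p * Mn X u (.br p Sp t₁ t₀)) := by ring
    _ ≤ Real.log p ^ (-s') * (1 / p * Mn X u (.br p Sp t₁ t₀)) := by gcongr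
    _ = _ := by ring

/-- **the target**: dense label against accuracy death, large cofactor -/
def TgtPNA (a : ℝ) (N : Skel189.Num) (γ : ℝ) : Prop :=
  ∀ s A' K : ℝ, 0 ≤ A' → s + A' ≤ N.C1 + a → 6 * N.C1 + 2 * a + 12 ≤ K → 0 ≤ K →
    Ev N γ fun p0 P₀ (X : Ctx N γ p0 P₀) => ∀ j₀ : X.c.Lam,
    All (fun u τ => PrD45.pn (KR (RAc X K) s) (X.self u τ Finset.univ).t ≤
      Real.log p0 ^ (-A') * X.mu j₀ u τ Finset.univ) ⟨top X.S, 1, 1, 1⟩ X.c.t

theorem tgtPNA_fin (a : ℝ) : FinE26.ForN ParT21.thF NumG23.SxF (TgtPNA a) := by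
  have hK8 := AcH41.K8_nn
  refine ⟨5 / 2 * (K8 + |a| + 8) + 10, fun N Ct C₀ γ hN hF hG s A' K hA' hs hK hK0 => ?_⟩
  have ha := le_abs_self a
  have ha0 := abs_nonneg a
  have hC1 := hF.C1
  have hc2 := hF.c2
  have hB := hF.B
  have hCt := hF.Ct
  have hCt0 : 1 ≤ Ct := by rw [hCt]; linarith
  obtain ⟨p1, h1⟩ := tib_acc (K := K) (s' := s + A' + 2) hN hCt0 hK0 (by rw [hB]; linarith)
    (by rw [hB, hc2, hCt]; linarith)
  obtain ⟨p2, h2⟩ := pn_rootT N (s := s) hA'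
  obtain ⟨p3, h3⟩ := ParT21.ctx_TH hN (by linarith) (by rw [hCt]; linarith)
  refine ⟨p1 + p2 + p3, fun p0 hp0 => ⟨2, fun P₀ hP₀ X j₀ => ?_⟩⟩
  exact h2 p0 (by omega) γ P₀ hP₀ X (RAc X K) _ le_rfl
    (h1 p0 (by omega) γ P₀ hP₀ X (h3 p0 (by omega) γ P₀ X) X.Y Finset.univ) j₀

end Crest.Agent.R4P.AcT41
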