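import Crest.Agent.R4P.Zone2_11

/-!
R4 (S0004), helper24: **integer union bound for adapted walks** and the counts which go with it.

The members of a group have distinct integer products of missing ties and a member with the (relative)
product `m` has weight at most `1 / m`, whatever the (adapted) choices of the ties were.

* `V_rel` : flags of relative lists; `V_prod` : one product; **`V_mem`, `V_int`** :
  `weight (product ∈ S) ≤ ∑_{m ∈ S} 1/m`;
* **`stage_le`** : flags `g U L` (`U` = stage, `L` = missing ties below it) with weight `≤ η` for every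
  stage have total weight `≤ η (1 + D X - D n)` over all stages if `L` lies in the columns `(n, X]`;
  `D_sub` : `D X - D n ≤ log log X - log log n + 7 / log n`;
* `win_sum`, `near_sum`, **`near_le`** : near ratios `0 < |x m' - y m| ≤ a y m`, `x, y ≤ Z` :
  weight `≤ 6 a Z^3` (inaccurate content has a small group weight at every point);
* `card_cong`, **`cnt_le`** : `#{m : ‖m β - τ‖ ≤ ω}` in an interval of length `M`, `β = ρ + e`, `den ρ = K`;
* `sum_hit`, `sum_hit0`, **`hit_share`, `hit_share0`** : the same as weight of the nodes below a stage `U`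
  (relative product in `[2^i₀, 2^J)`), adapted ties.
-/

set_option autoImplicit false

namespace Crest.Agent.R4P.AccW24

open Finset Crest.Agent.R4P.Zone11 Crest.Agent.Lib.Mertens

/-! ### relative flags -/

/-- flags of relative lists -/
lemma V_rel (g : List ℕ → Prop) (U : List ℕ) (p : ℕ) (L : List ℕ) :
    V (fun B => ∃ L, B = L ++ U ∧ g L) p (L ++ U) = V g p L := by
  induction p generalizing L with
  | zero =>
    have h : (∃ L', L ++ U = L' ++ U ∧ g L') ↔ g L := by
      constructor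
      · rintro ⟨L', h, hg⟩
        rwa [List.append_cancel_right h]
      · intro hg
        exact ⟨L, rfl, hg⟩
    unfold V
    by_cases hg : g L
    · rw [if_pos hg, if_pos (h.2 hg)]
    · rw [if_neg hg, if_neg fun h' => hg (h.1 h')]
  | succ p ih =>
    unfold V
    split_ifs with hp
    · rw [ih L, ← List.cons_append, ih ((p + 1) :: L)]
    · exact ih L

lemma V_rel0 (g : List ℕ → Prop) (U : List ℕ) (p : ℕ) :
    V (fun B => ∃ L, B = L ++ U ∧ g L) p U = V g p [] := by
  have := V_rel g U p []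
  simpa using this

/-! ### one product -/

open Classical in
/-- the bound of the weight of a product -/
noncomputable def Pb1 (m p l : ℕ) : ℝ :=
  if l ∣ m ∧ ∀ r : ℕ, r.Prime → r ∣ m / l → r ≤ p then (l : ℝ) / m else 0

lemma Pb1_nonneg (m p l : ℕ) : 0 ≤ Pb1 m p l := by
  unfold Pb1
  split_ifs
  · positivity
  · exact le_rfl

lemma Pb1_le (m p l : ℕ) : Pb1 m p l ≤ (l : ℝ) / m := by
  unfold Pb1
  split_ifs
  · exact le_rfl
  · positivity

lemma Pb1_mono (m p l : ℕ) : Pb1 m p l ≤ Pb1 m (p + 1) l := by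
  by_cases h : l ∣ m ∧ ∀ r : ℕ, r.Prime → r ∣ m / l → r ≤ p
  · have h' : l ∣ m ∧ ∀ r : ℕ, r.Prime → r ∣ m / l → r ≤ p + 1 :=
      ⟨h.1, fun r h1 h2 => (h.2 r h1 h2).trans (Nat.le_succ p)⟩
    unfold Pb1
    rw [if_pos h, if_pos h']
  · unfold Pb1
    rw [if_neg h]
    exact Pb1_nonneg m (p + 1) l

lemma V_prod {m : ℕ} (hm : 0 < m) (p : ℕ) (B : List ℕ) :
    V (fun B => B.prod = m) p B ≤ Pb1 m p B.prod := by
  induction p generalizing B with
  | zero =>
    by_cases h : B.prod = m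
    · rw [V_flag (F := fun B : List ℕ => B.prod = m) h]
      unfold Pb1
      have hm' : (m : ℝ) ≠ 0 := by exact_mod_cast hm.ne'
      rw [h, if_pos, div_self hm']
      refine ⟨dvd_rfl, fun r hr hd => ?_⟩
      rw [Nat.div_self hm] at hd
      exact absurd (Nat.dvd_one.1 hd) hr.one_lt.ne'
    · have h0 : V (fun B : List ℕ => B.prod = m) 0 B = 0 := by unfold V; rw [if_neg h]
      rw [h0]
      exact Pb1_nonneg _ _ _
  | succ p ih =>
    unfold V
    split_ifs with hp
    · refine max_le ((ih B).trans (Pb1_mono _ _ _)) ?_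
      have hw := w_bd p
      set l := B.prod with hl
      have h1 := ih B
      have h2 := ih ((p + 1) :: B)
      rw [List.prod_cons, ← hl] at h2
      have n1 := Pb1_nonneg m p l
      by_cases hd : (p + 1) * l ∣ m
      · -- the product needs the tie
        have hl1 : l ∣ m := (dvd_mul_left l (p + 1)).trans hd
        have hlp : 0 < l := Nat.pos_of_dvd_of_pos hl1 hm
        have hnot : ¬ (l ∣ m ∧ ∀ r : ℕ, r.Prime → r ∣ m / l → r ≤ p) := by
          rintro ⟨-, h⟩
          have h3 : (p + 1) ∣ m / l := by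
            obtain ⟨c, hc⟩ := hd
            refine ⟨c, ?_⟩
            rw [hc, mul_assoc, mul_comm l c, ← mul_assoc, Nat.mul_div_cancel _ hlp]
          have := h _ hp h3
          omega
        have e1 : Pb1 m p l = 0 := by unfold Pb1; rw [if_neg hnot]
        have v1 : V (fun B : List ℕ => B.prod = m) p B ≤ 0 := by rw [← e1]; exact h1
        have hV0 := V_nonneg (F := fun B : List ℕ => B.prod = m) p B
        by_cases hs : ∀ r : ℕ, r.Prime → r ∣ m / ((p + 1) * l) → r ≤ p
        · have e2 : Pb1 m (p + 1) l = (l : ℝ) / m := by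
            unfold Pb1
            rw [if_pos]
            refine ⟨hl1, fun r hr hrd => ?_⟩
            obtain ⟨c, hc⟩ := hd
            have h3 : m / l = (p + 1) * c := by
              rw [hc, mul_assoc, mul_comm l c, ← mul_assoc, Nat.mul_div_cancel _ hlp]
            rw [h3] at hrd
            rcases (hr.dvd_mul).1 hrd with h4 | h4
            · exact Nat.le_of_dvd (Nat.succ_pos p) h4
            · have h5 : m / ((p + 1) * l) = c := by
                rw [hc, Nat.mul_div_cancel_left _ (Nat.mul_pos (Nat.succ_pos p) hlp)]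
              rw [← h5] at h4
              exact (hs r hr h4).trans (Nat.le_succ p)
          rw [e2]
          have h3 := h2.trans (Pb1_le m p ((p + 1) * l))
          have h4 := mul_le_mul_of_nonneg_left h3 hw.1
          have e3 : 1 / ((p : ℝ) + 1) * (((p + 1) * l : ℕ) / (m : ℝ)) = (l : ℝ) / m := by
            have : (p : ℝ) + 1 ≠ 0 := by positivity
            push_cast
            field_simp
          rw [e3] at h4
          have h5 : (1 - 1 / ((p : ℝ) + 1)) * V (fun B : List ℕ => B.prod = m) p B ≤ 0 := by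
            have : V (fun B : List ℕ => B.prod = m) p B = 0 := le_antisymm v1 hV0
            rw [this, mul_zero]
          linarith
        · have e2 : Pb1 m p ((p + 1) * l) = 0 := by
            unfold Pb1
            rw [if_neg fun h => hs h.2]
          rw [e2] at h2
          have h5 : V (fun B : List ℕ => B.prod = m) p B = 0 := le_antisymm v1 hV0
          have h6 : V (fun B : List ℕ => B.prod = m) p ((p + 1) :: B) = 0 :=
            le_antisymm h2 (V_nonneg _ _)
          rw [h5, h6, mul_zero, mul_zero, add_zero]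
          exact Pb1_nonneg _ _ _
      · have e2 : Pb1 m p ((p + 1) * l) = 0 := by
          unfold Pb1
          rw [if_neg fun h => hd h.1]
        rw [e2] at h2
        have h6 : V (fun B : List ℕ => B.prod = m) p ((p + 1) :: B) = 0 :=
          le_antisymm h2 (V_nonneg _ _)
        rw [h6, mul_zero, add_zero]
        have h7 : (1 - 1 / ((p : ℝ) + 1)) * V (fun B : List ℕ => B.prod = m) p B ≤
            1 * V (fun B : List ℕ => B.prod = m) p B :=
          mul_le_mul_of_nonneg_right (by linarith [hw.1]) (V_nonneg _ _)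
        rw [one_mul] at h7
        exact h7.trans (h1.trans (Pb1_mono _ _ _))
    · exact (ih B).trans (Pb1_mono _ _ _)

/-- **integer union bound** (relative lists) -/
theorem V_mem {S : Finset ℕ} (hS : ∀ m ∈ S, 0 < m) (p : ℕ) :
    V (fun L => L.prod ∈ S) p [] ≤ ∑ m ∈ S, 1 / (m : ℝ) := by
  refine (V_le_sum (F := fun L : List ℕ => L.prod ∈ S) S (fun m L => L.prod = m)
    (fun L hL => ⟨L.prod, hL, rfl⟩) p []).trans ?_
  refine Finset.sum_le_sum fun m hm => ?_
  refine (V_prod (hS m hm) p []).trans ((Pb1_le _ _ _).trans ?_)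
  simp

/-- **integer union bound**: the weight of the nodes below `U` whose relative product is in `S` -/
theorem V_int {S : Finset ℕ} (hS : ∀ m ∈ S, 0 < m) (p : ℕ) (U : List ℕ) :
    V (fun B => ∃ L, B = L ++ U ∧ L.prod ∈ S) p U ≤ ∑ m ∈ S, 1 / (m : ℝ) := by
  rw [V_rel0 (fun L => L.prod ∈ S) U p]
  exact V_mem hS p

/-! ### stages -/

section stage

variable {g : List ℕ → List ℕ → Prop} {F : List ℕ → Prop}

/-- the potential of the stages of `B` -/
noncomputable def SG (g : List ℕ → List ℕ → Prop) (p : ℕ) (B : List ℕ) : ℝ :=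
  ∑ i ∈ Finset.range (B.length + 1), V (g (B.drop i)) p (B.take i)

lemma SG_nonneg (p : ℕ) (B : List ℕ) : 0 ≤ SG g p B := Finset.sum_nonneg fun _ _ => V_nonneg _ _

lemma SG_mono (p : ℕ) (B : List ℕ) : SG g p B ≤ SG g (p + 1) B :=
  Finset.sum_le_sum fun _ _ => V_succ _ _

lemma SG_nil (p : ℕ) : SG g p [] = V (g []) p [] := by simp [SG]

lemma SG_cons (p q : ℕ) (B : List ℕ) : SG g p (q :: B) = V (g (q :: B)) p [] +
    ∑ i ∈ Finset.range (B.length + 1), V (g (B.drop i)) p (q :: B.take i) := by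
  unfold SG
  rw [List.length_cons, Finset.sum_range_succ', add_comm]
  rfl

/-- nothing happens below the column `n` -/
lemma V_low {n : ℕ} (h : ∀ B, F B → ∀ q ∈ B, n < q) {p : ℕ} (hp : p ≤ n) (B : List ℕ) :
    V F p B = V F 0 B := by
  induction p generalizing B with
  | zero => rfl
  | succ p ih =>
    conv_lhs => unfold V
    have h1 : V F p ((p + 1) :: B) = 0 := by
      rw [ih (by omega)]
      unfold V
      rw [if_neg]
      intro hF
      have := h _ hF (p + 1) (by simp)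
      omega
    rw [h1, ih (by omega), mul_zero, add_zero]
    split_ifs
    · refine max_eq_left ?_
      have hw := w_bd p
      have := mul_le_mul_of_nonneg_right (show 1 - 1 / ((p : ℝ) + 1) ≤ 1 by linarith [hw.1])
        (V_nonneg (F := F) 0 B)
      linarith
    · rfl

/-- **all stages**, flags `g U L`, `L` the missing ties below the stage `U`, columns above `n` -/
lemma stage_small {η : ℝ} (hc : ∀ p U, V (g U) p [] ≤ η) {n : ℕ}
    (hF : ∀ B, F B → (∀ q ∈ B, n < q) ∧ ∃ L U, B = L ++ U ∧ g U L) {p : ℕ} (hp : n ≤ p) (B : List ℕ)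
    (hB : ∀ q ∈ B, p < q) : V F p B ≤ SG g p B + η * (D p - D n) := by
  have hη : 0 ≤ η := (V_nonneg 0 []).trans (hc 0 [])
  refine V_le_of (p₀ := n) (Φ := fun p B => SG g p B + η * (D p - D n)) ?_ ?_ ?_ hp B hB
  · intro B _
    have h0 := SG_nonneg (g := g) n B
    show V F n B ≤ SG g n B + η * (D n - D n)
    rw [sub_self, mul_zero, add_zero, V_low (fun B h => (hF B h).1) le_rfl]
    by_cases hFB : F B
    · rw [V_flag hFB]
      obtain ⟨-, L, U, rfl, h1⟩ := hF B hFB
      unfold SG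
      have hi : L.length ∈ Finset.range ((L ++ U).length + 1) := by
        rw [Finset.mem_range, List.length_append]; omega
      refine le_trans ?_ (Finset.single_le_sum
        (f := fun i => V (g ((L ++ U).drop i)) n ((L ++ U).take i))
        (fun i _ => V_nonneg _ _) hi)
      simp only [List.take_left', List.drop_left']
      rw [V_flag h1]
    · have e0 : V F 0 B = 0 := by unfold V; rw [if_neg hFB]
      rw [e0]; exact h0
  · intro p _ B _
    show SG g p B + η * (D p - D n) ≤ SG g (p + 1) B + η * (D (p + 1) - D n)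
    have h1 := SG_mono (g := g) p B
    have h2 := mul_le_mul_of_nonneg_left (D_succ_le p) hη
    nlinarith
  · intro p _ hp B _
    show (1 - 1 / ((p : ℝ) + 1)) * (SG g p B + η * (D p - D n)) +
      1 / ((p : ℝ) + 1) * (SG g p ((p + 1) :: B) + η * (D p - D n)) ≤
      SG g (p + 1) B + η * (D (p + 1) - D n)
    have hw := w_bd p
    rw [D_succ_prime hp, SG_cons]
    set w : ℝ := 1 / ((p : ℝ) + 1) with hwdef
    have h1 := mul_le_mul_of_nonneg_left (hc p ((p + 1) :: B)) hw.1
    have h2 : (1 - w) * SG g p B + w * ∑ i ∈ Finset.range (B.length + 1),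
        V (g (B.drop i)) p ((p + 1) :: B.take i) ≤ SG g (p + 1) B := by
      unfold SG
      rw [Finset.mul_sum, Finset.mul_sum, ← Finset.sum_add_distrib]
      refine Finset.sum_le_sum fun i _ => ?_
      have := V_tie (F := g (B.drop i)) hp hw.1
        (by rw [hwdef]; push_cast; exact le_rfl) (B.take i)
      rw [Nat.add_sub_cancel] at this
      exact this
    nlinarith [h1, h2]

/-- **all stages**: if every stage has flagged weight `≤ η` and the missing ties below the stage are in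
the columns `(n, X]`, then the total flagged weight is `≤ η (1 + ∑_{n < q ≤ X} 1/q)` -/
theorem stage_le {η : ℝ} (hc : ∀ p U, V (g U) p [] ≤ η) {n X : ℕ} (hnX : n ≤ X)
    (hF : ∀ B, F B → (∀ q ∈ B, n < q) ∧ ∃ L U, B = L ++ U ∧ (∀ q ∈ L, q ≤ X) ∧ g U L)
    (p : ℕ) : V F p [] ≤ η * (1 + (D X - D n)) := by
  have hη : 0 ≤ η := (V_nonneg 0 []).trans (hc 0 [])
  have hD : 0 ≤ D X - D n := sub_nonneg.2 (D_mono hnX)
  -- below the column `X`
  have low : ∀ B : List ℕ, (∀ q ∈ B, X < q) → V F X B ≤ η * (1 + (D X - D n)) := by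
    intro B hB
    -- flags below the list `B` : stages `U` which contain `B`
    set g' : List ℕ → List ℕ → Prop := fun U L => (∀ q ∈ L, q ≤ X) ∧ g U L ∧ ∃ M, U = M ++ B with hg'
    have h1 : ∀ (p : ℕ) (L : List ℕ), V F p (L ++ B) ≤
        V (fun L' => ∃ L'', L' = L'' ∧ F (L'' ++ B)) p L := by
      intro p L
      have := V_rel (fun L => F (L ++ B)) B p L
      have h2 : V F p (L ++ B) ≤ V (fun B' => ∃ L', B' = L' ++ B ∧ F (L' ++ B)) p (L ++ B) := by
        clear this
        induction p generalizing L with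
        | zero =>
          unfold V
          by_cases h : F (L ++ B)
          · rw [if_pos h, if_pos ⟨L, rfl, h⟩]
          · rw [if_neg h]
            split_ifs <;> norm_num
        | succ p ih =>
          unfold V
          have hw := w_bd p
          split_ifs
          · refine max_le_max (ih L) (add_le_add
              (mul_le_mul_of_nonneg_left (ih L) (sub_nonneg.2 hw.2))
              (mul_le_mul_of_nonneg_left ?_ hw.1))
            exact ih ((p + 1) :: L)
          · exact ih L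
      rw [this] at h2
      refine h2.trans (le_of_eq ?_)
      congr 1
      funext L'
      simp
    have h2 := h1 X []
    rw [List.nil_append] at h2
    refine h2.trans ?_
    have h3 := stage_small (g := fun U L => (∀ q ∈ L, q ≤ X) ∧ g (U ++ B) L)
      (F := fun L' => ∃ L'', L' = L'' ∧ F (L'' ++ B) ) (η := η) ?_ (n := n) ?_ hnX []
      (by simp)
    · rw [SG_nil] at h3
      refine h3.trans ?_
      have h4 : V (fun L => (∀ q ∈ L, q ≤ X) ∧ g ([] ++ B) L) X [] ≤ η :=
        (V_mono (fun L h => h.2) X []).trans (hc X ([] ++ B))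
      linarith
    · intro p U
      exact (V_mono (fun L h => h.2) p []).trans (hc p (U ++ B))
    · rintro L' ⟨L'', rfl, hFL⟩
      obtain ⟨h5, L, U, h6, h7, h8⟩ := hF _ hFL
      refine ⟨fun q hq => h5 q (by simp [hq]), ?_⟩
      -- the stage `U` contains `B`
      have h9 : ∃ M, U = M ++ B := by
        have h10 : B <:+ L ++ U := ⟨L', h6⟩
        have h11 : U <:+ L ++ U := ⟨L, rfl⟩
        rcases List.suffix_or_suffix_of_suffix h10 h11 with h12 | h12
        · obtain ⟨M, hM⟩ := h12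
          exact ⟨M, hM.symm⟩
        · obtain ⟨M, hM⟩ := h12
          rcases List.eq_nil_or_concat M with rfl | ⟨M', a, rfl⟩
          · exact ⟨[], by simpa using hM⟩
          · exfalso
            -- an element of `B` would be in `L`
            have h13 : L' ++ (M' ++ [a]) = L := by
              have : L' ++ ((M' ++ [a]) ++ U) = L ++ U := by
                rw [← h6, ← hM]; simp
              rw [← List.append_assoc] at this
              exact List.append_cancel_right this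
            have h14 : a ∈ L := by rw [← h13]; simp
            have h15 : a ∈ B := by rw [← hM]; simp
            have := h7 a h14
            have := hB a h15
            omega
      obtain ⟨M, rfl⟩ := h9
      refine ⟨L, M, ?_, h7, h8⟩
      have : L' ++ B = (L ++ M) ++ B := by rw [h6]; simp
      exact List.append_cancel_right this
  rcases le_total p X with hpX | hpX
  · exact (V_mono_col hpX []).trans (low [] (by simp))
  · refine V_le_of (p₀ := X) (Φ := fun _ _ => η * (1 + (D X - D n))) low ?_ ?_ hpX [] (by simp)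
    · intro _ _ _ _
      exact le_rfl
    · intro p _ _ B _
      show (1 - 1 / ((p : ℝ) + 1)) * (η * (1 + (D X - D n))) +
        1 / ((p : ℝ) + 1) * (η * (1 + (D X - D n))) ≤ η * (1 + (D X - D n))
      linarith

end stage

/-- the Mertens sum of the columns `(n, X]` -/
lemma D_sub {n X : ℕ} (hn : 2 ≤ n) (hnX : n ≤ X) :
    D X - D n ≤ Real.log (Real.log X) - Real.log (Real.log n) + 7 / Real.log n := by
  have h1 : D X = D n + S n X := by
    unfold D S primesIoc
    have h2 : Ps X = Ps n ∪ (Finset.Ioc n X).filter Nat.Prime := by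
      ext q
      unfold Ps
      simp only [Finset.mem_filter, Finset.mem_range, Finset.mem_union, Finset.mem_Ioc]
      constructor
      · rintro ⟨a, b⟩
        by_cases h : q < n + 1
        · exact Or.inl ⟨h, b⟩
        · exact Or.inr ⟨⟨by omega, by omega⟩, b⟩
      · rintro (⟨a, b⟩ | ⟨⟨a, c⟩, b⟩)
        · exact ⟨by omega, b⟩
        · exact ⟨by omega, b⟩
    rw [h2, Finset.sum_union]
    rw [Finset.disjoint_left]
    intro q hq hq'
    have a := (Finset.mem_filter.1 hq).1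
    have b := (Finset.mem_filter.1 hq').1
    rw [Finset.mem_range] at a
    rw [Finset.mem_Ioc] at b
    omega
  have h3 := (abs_le.1 (mertens_two_nat n X hn hnX)).2
  linarith

/-! ### near ratios -/

/-- integers of a short window -/
lemma win_sum {Q a : ℝ} (hQ : 0 < Q) (ha0 : 0 ≤ a) (ha : a ≤ 1 / 2) (S : Finset ℕ)
    (hS : ∀ m ∈ S, |(m : ℝ) - Q| ≤ a * Q) :
    ∑ m ∈ S, 1 / (m : ℝ) ≤ 4 * a + 2 / Q := by
  have hlo : 0 < (1 - a) * Q := mul_pos (by linarith) hQ
  have h1 : ∑ m ∈ S, 1 / (m : ℝ) ≤ S.card * (1 / ((1 - a) * Q)) := by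
    rw [← nsmul_eq_mul]
    refine Finset.sum_le_card_nsmul S _ _ fun m hm => ?_
    have := abs_le.1 (hS m hm)
    exact one_div_le_one_div_of_le hlo (by linarith [this.1])
  have h2 : (S.card : ℝ) ≤ 2 * a * Q + 1 := by
    have hsub : S ⊆ Finset.Icc ⌈(1 - a) * Q⌉₊ ⌊(1 + a) * Q⌋₊ := by
      intro m hm
      have := abs_le.1 (hS m hm)
      rw [Finset.mem_Icc]
      exact ⟨Nat.ceil_le.2 (by linarith [this.1]), Nat.le_floor (by linarith [this.2])⟩
    have h3 := Finset.card_le_card hsub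
    rw [Nat.card_Icc] at h3
    by_cases h4 : ⌈(1 - a) * Q⌉₊ ≤ ⌊(1 + a) * Q⌋₊ + 1
    · have h5 : (S.card : ℝ) ≤ (⌊(1 + a) * Q⌋₊ + 1 : ℕ) - (⌈(1 - a) * Q⌉₊ : ℕ) := by
        rw [← Nat.cast_sub h4]
        exact_mod_cast h3
      have h6 := Nat.floor_le (show 0 ≤ (1 + a) * Q by positivity)
      have h7 := Nat.le_ceil ((1 - a) * Q)
      push_cast at h5
      linarith
    · have h5 : S.card = 0 := by omega
      rw [h5]
      push_cast
      positivity
  have h3 : (S.card : ℝ) * (1 / ((1 - a) * Q)) ≤ (2 * a * Q + 1) * (1 / ((1 - a) * Q)) :=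
    mul_le_mul_of_nonneg_right h2 (by positivity)
  refine h1.trans (h3.trans ?_)
  have h4 : (1 / ((1 - a) * Q)) ≤ 2 / Q := by
    rw [div_le_div_iff₀ hlo hQ]
    nlinarith
  calc (2 * a * Q + 1) * (1 / ((1 - a) * Q)) ≤ (2 * a * Q + 1) * (2 / Q) :=
        mul_le_mul_of_nonneg_left h4 (by positivity)
    _ = 4 * a + 2 / Q := by field_simp; ring

/-- two products `l`, `m` have a near ratio: cofactors at most `Z`, relative precision `a`, not equal -/
def Near (Z : ℕ) (a : ℝ) (m l : ℕ) : Prop :=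
  ∃ x y : ℕ, 1 ≤ x ∧ x ≤ Z ∧ 1 ≤ y ∧ y ≤ Z ∧ x * l ≠ y * m ∧
    |(x : ℝ) * l - y * m| ≤ a * (y * m)

lemma Near.bd {Z : ℕ} {a : ℝ} {m l : ℕ} (ha : a ≤ 1 / 2) (h : Near Z a m l) :
    0 < l ∧ l ≤ 2 * Z * m := by
  obtain ⟨x, y, hx, hxZ, hy, hyZ, hne, hab⟩ := h
  have hm : 0 < m := by
    rcases Nat.eq_zero_or_pos m with rfl | hm
    · exfalso
      simp only [Nat.cast_zero, mul_zero, sub_zero] at hab
      have h1 : (x : ℝ) * l = 0 := abs_eq_zero.1 (le_antisymm hab (abs_nonneg _))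
      have h2 : x * l = 0 := by exact_mod_cast h1
      exact hne (by rw [h2, mul_zero])
    · exact hm
  have hx' : (1 : ℝ) ≤ x := by exact_mod_cast hx
  have hy' : (1 : ℝ) ≤ y := by exact_mod_cast hy
  have hm' : (1 : ℝ) ≤ m := by exact_mod_cast hm
  have h0 : (0 : ℝ) < y * m := by positivity
  have h1 := abs_le.1 hab
  have h2 : a * ((y : ℝ) * m) ≤ 1 / 2 * (y * m) := mul_le_mul_of_nonneg_right ha h0.le
  constructor
  · rcases Nat.eq_zero_or_pos l with rfl | hl
    · exfalso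
      simp only [Nat.cast_zero, mul_zero, zero_sub] at h1
      linarith [h1.1]
    · exact hl
  · have h3 : (x : ℝ) * l ≤ 2 * (y * m) := by linarith [h1.2]
    have h4 : (l : ℝ) ≤ x * l := le_mul_of_one_le_left (Nat.cast_nonneg l) hx'
    have h5 : (y : ℝ) * m ≤ Z * m :=
      mul_le_mul_of_nonneg_right (by exact_mod_cast hyZ) (by positivity)
    have h6 : (l : ℝ) ≤ ((2 * Z * m : ℕ) : ℝ) := by push_cast; linarith
    exact_mod_cast h6

open Classical in
/-- sum over the near ratios of one number -/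
lemma near_sum {Z : ℕ} {a : ℝ} (ha0 : 0 ≤ a) (ha : a ≤ 1 / 2) (m : ℕ) (S : Finset ℕ)
    (hS : ∀ l ∈ S, Near Z a m l) : ∑ l ∈ S, 1 / (l : ℝ) ≤ 6 * a * Z ^ 3 := by
  set I := (Finset.Icc 1 Z) ×ˢ (Finset.Icc 1 Z) with hI
  set T : ℕ × ℕ → Finset ℕ := fun e => S.filter fun l => e.1 * l ≠ e.2 * m ∧
    |(e.1 : ℝ) * l - e.2 * m| ≤ a * (e.2 * m) with hT
  have h1 : ∑ l ∈ S, 1 / (l : ℝ) ≤ ∑ e ∈ I, ∑ l ∈ T e, 1 / (l : ℝ) := by
    have e1 : ∑ e ∈ I, ∑ l ∈ T e, 1 / (l : ℝ) = ∑ l ∈ S, ∑ e ∈ I,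
        if (e.1 * l ≠ e.2 * m ∧ |(e.1 : ℝ) * l - e.2 * m| ≤ a * (e.2 * m)) then 1 / (l : ℝ) else 0 := by
      rw [Finset.sum_comm]
      refine Finset.sum_congr rfl fun e _ => ?_
      rw [hT, Finset.sum_filter]
    rw [e1]
    refine Finset.sum_le_sum fun l hl => ?_
    obtain ⟨x, y, hx, hxZ, hy, hyZ, h3⟩ := hS l hl
    have he : (x, y) ∈ I := by
      rw [hI, Finset.mem_product, Finset.mem_Icc, Finset.mem_Icc]
      exact ⟨⟨hx, hxZ⟩, hy, hyZ⟩
    refine le_trans ?_ (Finset.single_le_sum (f := fun e : ℕ × ℕ =>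
      if (e.1 * l ≠ e.2 * m ∧ |(e.1 : ℝ) * l - e.2 * m| ≤ a * (e.2 * m)) then 1 / (l : ℝ) else 0)
      (fun e _ => by split_ifs <;> positivity) he)
    simp only
    rw [if_pos h3]
  refine h1.trans ?_
  have h2 : ∀ e ∈ I, ∑ l ∈ T e, 1 / (l : ℝ) ≤ 6 * a * Z := by
    rintro ⟨x, y⟩ he
    rw [hI, Finset.mem_product, Finset.mem_Icc, Finset.mem_Icc] at he
    obtain ⟨⟨hx, hxZ⟩, hy, hyZ⟩ := he
    have hx' : (1 : ℝ) ≤ x := by exact_mod_cast hx
    have hy' : (1 : ℝ) ≤ y := by exact_mod_cast hy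
    have hxZ' : (x : ℝ) ≤ Z := by exact_mod_cast hxZ
    rcases (T (x, y)).eq_empty_or_nonempty with h0 | ⟨l0, hl0⟩
    · rw [h0, Finset.sum_empty]; positivity
    · have h3 := (Finset.mem_filter.1 hl0).2
      have h4 : (1 : ℝ) ≤ |(x : ℝ) * l0 - y * m| := by
        have h5 : ((x * l0 : ℕ) : ℤ) - ((y * m : ℕ) : ℤ) ≠ 0 := by
          intro h
          exact h3.1 (by exact_mod_cast sub_eq_zero.1 h)
        have h6 := Int.one_le_abs h5
        have h7 : ((1 : ℤ) : ℝ) ≤ ((|((x * l0 : ℕ) : ℤ) - ((y * m : ℕ) : ℤ)| : ℤ) : ℝ) := by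
          exact_mod_cast h6
        push_cast at h7
        exact h7
      have hym : 1 ≤ a * ((y : ℝ) * m) := h4.trans h3.2
      have hym0 : (0 : ℝ) < y * m := by
        by_contra hc
        have hz : (y : ℝ) * m = 0 := le_antisymm (not_lt.1 hc) (by positivity)
        rw [hz, mul_zero] at hym
        linarith
      have hQ : (0 : ℝ) < y * m / x := by positivity
      have h8 := win_sum hQ ha0 ha (T (x, y)) (fun l hl => by
        have h9 := ((Finset.mem_filter.1 hl).2).2
        have e1 : (l : ℝ) - y * m / x = ((x : ℝ) * l - y * m) / x := by field_simp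
        rw [e1, abs_div, abs_of_pos (show (0 : ℝ) < x by linarith), mul_div_assoc']
        exact div_le_div_of_nonneg_right h9 (by linarith))
      refine h8.trans ?_
      have h9 : 2 / ((y : ℝ) * m / x) ≤ 2 * x * a := by
        rw [div_div_eq_mul_div, div_le_iff₀ hym0]
        nlinarith
      nlinarith
  refine (Finset.sum_le_card_nsmul I _ _ h2).trans ?_
  rw [nsmul_eq_mul, hI, Finset.card_product, Nat.card_Icc, Nat.add_sub_cancel]
  push_cast
  apply le_of_eq
  ring

/-- **NEAR RATIOS ARE RARE** (adapted ties): the members below `U` whose relative product has a near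
ratio (relative precision `a`, cofactors `≤ Z`, not equal) with a given number have weight `≤ 6 a Z^3` -/
theorem near_le {Z : ℕ} {a : ℝ} (ha0 : 0 ≤ a) (ha : a ≤ 1 / 2) (m p : ℕ) (U : List ℕ) :
    V (fun B => ∃ L, B = L ++ U ∧ Near Z a m L.prod) p U ≤ 6 * a * Z ^ 3 := by
  classical
  rw [V_rel0 (fun L => Near Z a m L.prod) U p]
  set S : Finset ℕ := (Finset.range (2 * Z * m + 1)).filter fun l => Near Z a m l with hS
  have h1 : V (fun L : List ℕ => Near Z a m L.prod) p [] ≤ V (fun L : List ℕ => L.prod ∈ S) p [] := by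
    refine V_mono (fun L hL => ?_) p []
    rw [hS, Finset.mem_filter, Finset.mem_range]
    exact ⟨Nat.lt_succ_of_le (hL.bd ha).2, hL⟩
  refine h1.trans ((V_mem (fun l hl => ?_) p).trans (near_sum ha0 ha m S fun l hl => ?_))
  · exact ((Finset.mem_filter.1 hl).2.bd ha).1
  · exact (Finset.mem_filter.1 hl).2

/-! ### the count of hits -/

/-- naturals of one residue class in an interval of length `ℓ` -/
lemma card_cong (S : Finset ℕ) {K : ℕ} (hK : 0 < K) {ℓ : ℝ} (hℓ : 0 ≤ ℓ)
    (h1 : ∀ m ∈ S, ∀ m' ∈ S, m ≤ m' → K ∣ m' - m) (h2 : ∀ m ∈ S, ∀ m' ∈ S, (m' : ℝ) - m ≤ ℓ) :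
    (S.card : ℝ) ≤ ℓ / K + 1 := by
  have hK' : (0 : ℝ) < K := by exact_mod_cast hK
  rcases S.eq_empty_or_nonempty with rfl | hne
  · simp only [Finset.card_empty, Nat.cast_zero]; positivity
  · set m0 := S.min' hne with hm0
    have hmin : ∀ m ∈ S, m0 ≤ m := fun m hm => S.min'_le m hm
    have h0 : m0 ∈ S := S.min'_mem hne
    have h3 : S.card ≤ (Finset.range (⌊ℓ / K⌋₊ + 1)).card := by
      refine Finset.card_le_card_of_injOn (fun m => (m - m0) / K) ?_ ?_
      · intro m hm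
        have hm' : m ∈ S := hm
        rw [Finset.coe_range, Set.mem_Iio, Nat.lt_succ_iff]
        refine Nat.le_floor ?_
        have h4 : (((m - m0) / K : ℕ) : ℝ) ≤ ((m - m0 : ℕ) : ℝ) / K := Nat.cast_div_le
        refine h4.trans (div_le_div_of_nonneg_right ?_ hK'.le)
        rw [Nat.cast_sub (hmin m hm')]
        exact h2 m0 h0 m hm'
      · intro m hm m' hm' he
        have a1 : K * ((m - m0) / K) = m - m0 := Nat.mul_div_cancel' (h1 m0 h0 m hm (hmin m hm))
        have a2 : K * ((m' - m0) / K) = m' - m0 := Nat.mul_div_cancel' (h1 m0 h0 m' hm' (hmin m' hm'))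
        have a3 : m - m0 = m' - m0 := by
          rw [← a1, ← a2]
          exact congrArg (K * ·) he
        have a4 := hmin m hm
        have a5 := hmin m' hm'
        omega
    rw [Finset.card_range] at h3
    have h5 : (S.card : ℝ) ≤ ((⌊ℓ / K⌋₊ + 1 : ℕ) : ℝ) := by exact_mod_cast h3
    push_cast at h5
    have h6 := Nat.floor_le (show 0 ≤ ℓ / K by positivity)
    linarith

/-- integers in an interval of length `ℓ` -/
lemma card_int (S : Finset ℤ) {ℓ : ℝ} (hℓ : 0 ≤ ℓ) (h2 : ∀ a ∈ S, ∀ b ∈ S, (b : ℝ) - a ≤ ℓ) :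
    (S.card : ℝ) ≤ ℓ + 1 := by
  rcases S.eq_empty_or_nonempty with rfl | hne
  · simp only [Finset.card_empty, Nat.cast_zero]; linarith
  · set a := S.min' hne with ha
    set b := S.max' hne with hb
    have hsub : S ⊆ Finset.Icc a b := by
      intro x hx
      rw [Finset.mem_Icc]
      exact ⟨S.min'_le x hx, S.le_max' x hx⟩
    have h3 := Finset.card_le_card hsub
    rw [Int.card_Icc] at h3
    have h4 : a ≤ b := S.min'_le b (S.max'_mem hne)
    have h5 : (S.card : ℤ) ≤ b + 1 - a := by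
      have : ((b + 1 - a).toNat : ℤ) = b + 1 - a := Int.toNat_of_nonneg (by omega)
      rw [← this]
      exact_mod_cast h3
    have h6 : (S.card : ℝ) ≤ (b : ℝ) + 1 - a := by exact_mod_cast h5
    have h7 := h2 a (S.min'_mem hne) b (S.max'_mem hne)
    linarith

open Classical in
/-- **COUNT OF HITS** : `β = ρ + e`, `den ρ = K`; the `m` in an interval of length `M` with
`‖m β - τ‖ ≤ ω` : at most `(K (M |e| + 2 ω) + 1) (min (2 ω / (K |e|)) (M / K) + 1)` -/
theorem cnt_le {β τ ω M G : ℝ} {ρ : ℚ} (hω : 0 ≤ ω) (hM : 0 ≤ M)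
    (hG : G = M / ρ.den ∨ (β ≠ ρ ∧ G = 2 * ω / (ρ.den * |β - ρ|)))
    (S : Finset ℕ) (h1 : ∀ m ∈ S, ∀ m' ∈ S, (m' : ℝ) - m ≤ M)
    (h2 : ∀ m ∈ S, ∃ n : ℤ, |(m : ℝ) * β - τ - n| ≤ ω) :
    (S.card : ℝ) ≤ (ρ.den * (M * |β - ρ| + 2 * ω) + 1) * (G + 1) := by
  set K := ρ.den with hKd
  have hK : 0 < K := ρ.den_pos
  have hK' : (0 : ℝ) < K := by exact_mod_cast hK
  set e := β - ρ with he
  have hρ : (ρ : ℝ) * K = ρ.num := by exact_mod_cast Rat.mul_den_eq_num ρ
  -- the integers
  set n : ℕ → ℤ := fun m => if h : m ∈ S then (h2 m h).choose else 0 with hn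
  have hn' : ∀ m ∈ S, |(m : ℝ) * β - τ - n m| ≤ ω := by
    intro m hm
    have := (h2 m hm).choose_spec
    rw [hn]
    simp only [dif_pos hm]
    exact this
  set h : ℕ → ℤ := fun m => m * ρ.num - K * n m with hh
  have hcast : ∀ m, ((h m : ℤ) : ℝ) = K * ((m : ℝ) * ρ - n m) := by
    intro m
    rw [hh]
    push_cast
    rw [← hρ]
    ring
  -- `h m / K = τ - m e + O(ω)`
  have key : ∀ m ∈ S, |((h m : ℤ) : ℝ) - K * (τ - m * e)| ≤ K * ω := by
    intro m hm
    rw [hcast]
    have e1 : (K : ℝ) * ((m : ℝ) * ρ - n m) - K * (τ - m * e) = K * ((m : ℝ) * β - τ - n m) := by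
      rw [he]; ring
    rw [e1, abs_mul, abs_of_pos hK']
    exact mul_le_mul_of_nonneg_left (hn' m hm) hK'.le
  have hdiff : ∀ m ∈ S, ∀ m' ∈ S, |(m' : ℝ) - m| ≤ M := by
    intro m hm m' hm'
    exact abs_le.2 ⟨by linarith [h1 m' hm' m hm], h1 m hm m' hm'⟩
  -- number of values of `h`
  have hv : ((S.image h).card : ℝ) ≤ K * (M * |e| + 2 * ω) + 1 := by
    refine card_int _ (by positivity) ?_
    intro a ha b hb
    obtain ⟨m, hm, rfl⟩ := Finset.mem_image.1 ha
    obtain ⟨m', hm', rfl⟩ := Finset.mem_image.1 hb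
    have k1 := abs_le.1 (key m hm)
    have k2 := abs_le.1 (key m' hm')
    have k3 : ((m : ℝ) - m') * e ≤ M * |e| := by
      refine (le_abs_self _).trans ?_
      rw [abs_mul]
      exact mul_le_mul_of_nonneg_right (hdiff m' hm' m hm) (abs_nonneg e)
    have k4 : (K : ℝ) * (((m : ℝ) - m') * e) ≤ K * (M * |e|) := mul_le_mul_of_nonneg_left k3 hK'.le
    nlinarith [k1.1, k2.2]
  -- fibres
  have hG0 : 0 ≤ G := by
    rcases hG with rfl | ⟨-, rfl⟩ <;> positivity
  have hf : ∀ c ∈ S.image h, (((S.filter fun m => h m = c).card : ℕ) : ℝ) ≤ G + 1 := by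
    intro c _
    have hcop : IsCoprime (K : ℤ) ρ.num := by
      have := ρ.reduced
      rw [Nat.Coprime, ← Int.natAbs_natCast ρ.den, ← Nat.Coprime] at this
      exact (Int.isCoprime_iff_gcd_eq_one.2 (by
        rw [Int.gcd_comm]; exact this))
    have hcong : ∀ m ∈ S.filter (fun m => h m = c), ∀ m' ∈ S.filter (fun m => h m = c),
        m ≤ m' → K ∣ m' - m := by
      intro m hm m' hm' hmm
      have a1 := (Finset.mem_filter.1 hm).2
      have a2 := (Finset.mem_filter.1 hm').2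
      have a3 : ((m' : ℤ) - m) * ρ.num = K * (n m' - n m) := by
        have : h m' = h m := by rw [a1, a2]
        rw [hh] at this
        simp only at this
        linarith
      have a4 : (K : ℤ) ∣ ((m' : ℤ) - m) * ρ.num := ⟨_, a3⟩
      have a5 : (K : ℤ) ∣ (m' : ℤ) - m := hcop.dvd_of_dvd_mul_right a4
      have a6 : ((m' - m : ℕ) : ℤ) = (m' : ℤ) - m := by push_cast [Nat.cast_sub hmm]; rfl
      rw [← a6] at a5
      exact_mod_cast a5
    rcases hG with rfl | ⟨hne, rfl⟩
    · exact card_cong _ hK hM hcong fun m hm m' hm' =>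
        h1 m (Finset.mem_filter.1 hm).1 m' (Finset.mem_filter.1 hm').1
    · have he0 : 0 < |e| := abs_pos.2 (sub_ne_zero.2 hne)
      have := card_cong (S.filter fun m => h m = c) hK (ℓ := 2 * ω / |e|) (by positivity) hcong ?_
      · rw [div_div, mul_comm |e|] at this
        exact this
      · intro m hm m' hm'
        have b1 := abs_le.1 (key m (Finset.mem_filter.1 hm).1)
        have b2 := abs_le.1 (key m' (Finset.mem_filter.1 hm').1)
        rw [(Finset.mem_filter.1 hm).2] at b1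
        rw [(Finset.mem_filter.1 hm').2] at b2
        rw [le_div_iff₀ he0]
        have b3 : |(((m' : ℝ) - m) * e)| ≤ 2 * ω := by
          have c1 : (K : ℝ) * (((m' : ℝ) - m) * e) ≤ K * (2 * ω) := by nlinarith [b1.1, b2.2]
          have c2 : (K : ℝ) * (-(((m' : ℝ) - m) * e)) ≤ K * (2 * ω) := by nlinarith [b2.1, b1.2]
          exact abs_le.2 ⟨by linarith [le_of_mul_le_mul_left c2 hK'],
            le_of_mul_le_mul_left c1 hK'⟩
        rw [abs_mul] at b3
        exact (mul_le_mul_of_nonneg_right (le_abs_self _) he0.le).trans b3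
  -- assembly
  have hcard : (S.card : ℝ) = ∑ c ∈ S.image h, (((S.filter fun m => h m = c).card : ℕ) : ℝ) := by
    rw [Finset.card_eq_sum_card_image h S]
    push_cast
    rfl
  rw [hcard]
  refine (Finset.sum_le_card_nsmul _ _ _ hf).trans ?_
  rw [nsmul_eq_mul]
  exact mul_le_mul_of_nonneg_right hv (by linarith)

/-! ### sums over dyadic blocks -/

/-- sum over dyadic blocks -/
lemma sum_dy (S : Finset ℕ) {i₀ J : ℕ} (hS : ∀ m ∈ S, 2 ^ i₀ ≤ m ∧ m < 2 ^ J) :
    ∑ m ∈ S, 1 / (m : ℝ) ≤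
      ∑ i ∈ Finset.Ico i₀ J, ((S.filter fun m => Nat.log 2 m = i).card : ℝ) / 2 ^ i := by
  have h1 : ∀ m ∈ S, Nat.log 2 m ∈ Finset.Ico i₀ J := by
    intro m hm
    obtain ⟨h2, h3⟩ := hS m hm
    have hm0 : m ≠ 0 := by have := Nat.pos_of_ne_zero (show (2 ^ i₀ : ℕ) ≠ 0 by positivity); omega
    rw [Finset.mem_Ico]
    exact ⟨Nat.le_log_of_pow_le one_lt_two h2, Nat.log_lt_of_lt_pow hm0 h3⟩
  rw [← Finset.sum_fiberwise_of_maps_to h1 fun m => 1 / (m : ℝ)]
  refine Finset.sum_le_sum fun i _ => ?_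
  refine (Finset.sum_le_card_nsmul _ _ (1 / 2 ^ i) fun m hm => ?_).trans (le_of_eq ?_)
  · obtain ⟨hm, hi⟩ := Finset.mem_filter.1 hm
    have hm0 : m ≠ 0 := by
      have h2 := (hS m hm).1
      have := Nat.pos_of_ne_zero (show (2 ^ i₀ : ℕ) ≠ 0 by positivity); omega
    have h2 : 2 ^ i ≤ m := by rw [← hi]; exact Nat.pow_log_le_self 2 hm0
    exact one_div_le_one_div_of_le (by positivity) (by exact_mod_cast h2)
  · rw [nsmul_eq_mul]; ring

lemma geo_dy (i₀ J : ℕ) : ∑ i ∈ Finset.Ico i₀ J, (1 : ℝ) / 2 ^ i ≤ 2 / 2 ^ i₀ := by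
  rcases le_total i₀ J with h | h
  · have : ∀ n : ℕ, ∑ i ∈ Finset.Ico i₀ (i₀ + n), (1 : ℝ) / 2 ^ i = 2 / 2 ^ i₀ - 2 / 2 ^ (i₀ + n) := by
      intro n
      induction n with
      | zero => simp
      | succ n ih =>
        rw [← add_assoc, Finset.sum_Ico_succ_top (by omega), ih, pow_succ]
        field_simp
        ring
    obtain ⟨n, rfl⟩ := Nat.exists_eq_add_of_le h
    rw [this n]
    have : (0 : ℝ) < 2 / 2 ^ (i₀ + n) := by positivity
    linarith
  · rw [Finset.Ico_eq_empty_of_le h, Finset.sum_empty]; positivity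

lemma dy_diff {S : Finset ℕ} {i : ℕ} (hS : ∀ m ∈ S, m ≠ 0) :
    ∀ m ∈ S.filter (fun m => Nat.log 2 m = i), ∀ m' ∈ S.filter (fun m => Nat.log 2 m = i),
      (m' : ℝ) - m ≤ 2 ^ i := by
  intro m hm m' hm'
  obtain ⟨a1, a2⟩ := Finset.mem_filter.1 hm
  obtain ⟨b1, b2⟩ := Finset.mem_filter.1 hm'
  have c1 : 2 ^ i ≤ m := by rw [← a2]; exact Nat.pow_log_le_self 2 (hS m a1)
  have c2 : m' < 2 ^ (i + 1) := by rw [← b2]; exact Nat.lt_pow_succ_log_self one_lt_two m'
  have c3 : ((2 ^ i : ℕ) : ℝ) ≤ m := by exact_mod_cast c1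
  have c4 : (m' : ℝ) < ((2 ^ (i + 1) : ℕ) : ℝ) := by exact_mod_cast c2
  push_cast at c3 c4
  rw [pow_succ] at c4
  linarith

/-- **sum of the hits** in `[2^i₀, 2^J)`, `e ≠ 0` -/
theorem sum_hit {β τ ω : ℝ} {ρ : ℚ} (hω : 0 ≤ ω) (hne : β ≠ ρ) {i₀ J : ℕ} (hJ : i₀ ≤ J)
    (S : Finset ℕ) (hS : ∀ m ∈ S, 2 ^ i₀ ≤ m ∧ m < 2 ^ J)
    (h2 : ∀ m ∈ S, ∃ n : ℤ, |(m : ℝ) * β - τ - n| ≤ ω) :
    ∑ m ∈ S, 1 / (m : ℝ) ≤ (J - i₀) * (2 * ω + ρ.den * |β - ρ|) +
      2 * (2 * ρ.den * ω + 1) * (2 * ω / (ρ.den * |β - ρ|) + 1) / 2 ^ i₀ := by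
  classical
  set K : ℝ := (ρ.den : ℝ) with hK
  have hK0 : 0 < K := by rw [hK]; exact_mod_cast ρ.den_pos
  set e : ℝ := |β - ρ| with he
  have he0 : 0 < e := abs_pos.2 (sub_ne_zero.2 hne)
  set G : ℝ := 2 * ω / (K * e) with hG
  have hG0 : 0 ≤ G := by positivity
  have hm0 : ∀ m ∈ S, m ≠ 0 := fun m hm => by
    have := (hS m hm).1
    have := Nat.pos_of_ne_zero (show (2 ^ i₀ : ℕ) ≠ 0 by positivity)
    omega
  refine (sum_dy S hS).trans ?_
  have h3 : ∀ i ∈ Finset.Ico i₀ J, ((S.filter fun m => Nat.log 2 m = i).card : ℝ) / 2 ^ i ≤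
      K * e * (G + 1) + (2 * K * ω + 1) * (G + 1) * (1 / 2 ^ i) := by
    intro i _
    have h4 := cnt_le (β := β) (τ := τ) (ω := ω) (M := 2 ^ i) (G := G) (ρ := ρ) hω (by positivity)
      (Or.inr ⟨hne, rfl⟩) (S.filter fun m => Nat.log 2 m = i) (dy_diff hm0)
      (fun m hm => h2 m (Finset.mem_filter.1 hm).1)
    rw [div_le_iff₀ (by positivity)]
    refine h4.trans (le_of_eq ?_)
    have : (2 : ℝ) ^ i ≠ 0 := by positivity
    rw [← hK, ← he]
    field_simp
    ring
  refine (Finset.sum_le_sum h3).trans ?_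
  have e1 : ∑ i ∈ Finset.Ico i₀ J, (K * e * (G + 1) + (2 * K * ω + 1) * (G + 1) * (1 / 2 ^ i)) =
      (J - i₀) * (K * e * (G + 1)) +
        (2 * K * ω + 1) * (G + 1) * ∑ i ∈ Finset.Ico i₀ J, (1 : ℝ) / 2 ^ i := by
    rw [Finset.sum_add_distrib, Finset.sum_const, Nat.card_Ico, nsmul_eq_mul, Nat.cast_sub hJ,
      Finset.mul_sum]
  rw [e1]
  have h5 := mul_le_mul_of_nonneg_left (geo_dy i₀ J)
    (show 0 ≤ (2 * K * ω + 1) * (G + 1) by positivity)
  have h6 : K * e * (G + 1) = 2 * ω + K * e := by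
    rw [hG]; field_simp
  rw [h6]
  have h7 : (2 * K * ω + 1) * (G + 1) * (2 / 2 ^ i₀) = 2 * (2 * K * ω + 1) * (G + 1) / 2 ^ i₀ := by
    ring
  linarith

/-- **sum of the hits**, no condition on the error -/
theorem sum_hit0 {β τ ω : ℝ} {ρ : ℚ} (hω : 0 ≤ ω) {i₀ J : ℕ} (hJ : i₀ ≤ J)
    (S : Finset ℕ) (hS : ∀ m ∈ S, 2 ^ i₀ ≤ m ∧ m < 2 ^ J)
    (h2 : ∀ m ∈ S, ∃ n : ℤ, |(m : ℝ) * β - τ - n| ≤ ω) :
    ∑ m ∈ S, 1 / (m : ℝ) ≤ 2 ^ J * |β - ρ| +
      (J - i₀) * (ρ.den * |β - ρ| + 2 * ω + 1 / ρ.den) + 2 * (2 * ρ.den * ω + 1) / 2 ^ i₀ := by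
  classical
  set K : ℝ := (ρ.den : ℝ) with hK
  have hK0 : 0 < K := by rw [hK]; exact_mod_cast ρ.den_pos
  set e : ℝ := |β - ρ| with he
  have he0 : 0 ≤ e := abs_nonneg _
  have hm0 : ∀ m ∈ S, m ≠ 0 := fun m hm => by
    have := (hS m hm).1
    have := Nat.pos_of_ne_zero (show (2 ^ i₀ : ℕ) ≠ 0 by positivity)
    omega
  refine (sum_dy S hS).trans ?_
  have h3 : ∀ i ∈ Finset.Ico i₀ J, ((S.filter fun m => Nat.log 2 m = i).card : ℝ) / 2 ^ i ≤
      2 ^ i * e + (K * e + 2 * ω + 1 / K) + (2 * K * ω + 1) * (1 / 2 ^ i) := by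
    intro i _
    have h4 := cnt_le (β := β) (τ := τ) (ω := ω) (M := 2 ^ i) (G := 2 ^ i / K) (ρ := ρ) hω
      (by positivity) (Or.inl rfl) (S.filter fun m => Nat.log 2 m = i) (dy_diff hm0)
      (fun m hm => h2 m (Finset.mem_filter.1 hm).1)
    rw [div_le_iff₀ (by positivity)]
    refine h4.trans (le_of_eq ?_)
    have : (2 : ℝ) ^ i ≠ 0 := by positivity
    rw [← hK, ← he]
    field_simp
    ring
  refine (Finset.sum_le_sum h3).trans ?_
  have e1 : ∑ i ∈ Finset.Ico i₀ J, (2 ^ i * e + (K * e + 2 * ω + 1 / K) +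
      (2 * K * ω + 1) * (1 / 2 ^ i)) = (∑ i ∈ Finset.Ico i₀ J, (2 : ℝ) ^ i) * e +
      (J - i₀) * (K * e + 2 * ω + 1 / K) +
        (2 * K * ω + 1) * ∑ i ∈ Finset.Ico i₀ J, (1 : ℝ) / 2 ^ i := by
    rw [Finset.sum_add_distrib, Finset.sum_add_distrib, Finset.sum_const, Nat.card_Ico,
      nsmul_eq_mul, Nat.cast_sub hJ, Finset.mul_sum, Finset.sum_mul]
  rw [e1]
  have h5 := mul_le_mul_of_nonneg_left (geo_dy i₀ J) (show 0 ≤ 2 * K * ω + 1 by positivity)
  have h6 : ∑ i ∈ Finset.Ico i₀ J, (2 : ℝ) ^ i ≤ 2 ^ J := by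
    have : ∀ n : ℕ, ∑ i ∈ Finset.Ico i₀ (i₀ + n), (2 : ℝ) ^ i = 2 ^ (i₀ + n) - 2 ^ i₀ := by
      intro n
      induction n with
      | zero => simp
      | succ n ih =>
        rw [← add_assoc, Finset.sum_Ico_succ_top (by omega), ih, pow_succ]
        ring
    obtain ⟨n, rfl⟩ := Nat.exists_eq_add_of_le hJ
    rw [this n]
    have : (0 : ℝ) < 2 ^ i₀ := by positivity
    linarith
  have h7 := mul_le_mul_of_nonneg_right h6 he0
  have h8 : (2 * K * ω + 1) * (2 / 2 ^ i₀) = 2 * (2 * K * ω + 1) / 2 ^ i₀ := by ring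
  linarith

/-- a dyadic hit -/
def Hit (β τ ω : ℝ) (i₀ J : ℕ) (m : ℕ) : Prop :=
  2 ^ i₀ ≤ m ∧ m < 2 ^ J ∧ ∃ n : ℤ, |(m : ℝ) * β - τ - n| ≤ ω

/-- **share of the hits** (adapted ties), `e ≠ 0` -/
theorem hit_share {β τ ω : ℝ} {ρ : ℚ} (hω : 0 ≤ ω) (hne : β ≠ ρ) {i₀ J : ℕ} (hJ : i₀ ≤ J)
    (p : ℕ) (U : List ℕ) : V (fun B => ∃ L, B = L ++ U ∧ Hit β τ ω i₀ J L.prod) p U ≤
      (J - i₀) * (2 * ω + ρ.den * |β - ρ|) +
      2 * (2 * ρ.den * ω + 1) * (2 * ω / (ρ.den * |β - ρ|) + 1) / 2 ^ i₀ := by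
  classical
  rw [V_rel0 (fun L => Hit β τ ω i₀ J L.prod) U p]
  set S : Finset ℕ := (Finset.range (2 ^ J)).filter fun l => Hit β τ ω i₀ J l with hS
  have h1 : V (fun L : List ℕ => Hit β τ ω i₀ J L.prod) p [] ≤
      V (fun L : List ℕ => L.prod ∈ S) p [] := by
    refine V_mono (fun L hL => ?_) p []
    rw [hS, Finset.mem_filter, Finset.mem_range]
    exact ⟨hL.2.1, hL⟩
  refine h1.trans ((V_mem (fun l hl => ?_) p).trans (sum_hit hω hne hJ S
    (fun m hm => ⟨((Finset.mem_filter.1 hm).2).1, ((Finset.mem_filter.1 hm).2).2.1⟩)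
    (fun m hm => ((Finset.mem_filter.1 hm).2).2.2)))
  have := ((Finset.mem_filter.1 hl).2).1
  have := Nat.pos_of_ne_zero (show (2 ^ i₀ : ℕ) ≠ 0 by positivity)
  omega

/-- **share of the hits** (adapted ties), no condition on the error -/
theorem hit_share0 {β τ ω : ℝ} {ρ : ℚ} (hω : 0 ≤ ω) {i₀ J : ℕ} (hJ : i₀ ≤ J)
    (p : ℕ) (U : List ℕ) : V (fun B => ∃ L, B = L ++ U ∧ Hit β τ ω i₀ J L.prod) p U ≤
      2 ^ J * |β - ρ| +
      (J - i₀) * (ρ.den * |β - ρ| + 2 * ω + 1 / ρ.den) + 2 * (2 * ρ.den * ω + 1) / 2 ^ i₀ := by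
  classical
  rw [V_rel0 (fun L => Hit β τ ω i₀ J L.prod) U p]
  set S : Finset ℕ := (Finset.range (2 ^ J)).filter fun l => Hit β τ ω i₀ J l with hS
  have h1 : V (fun L : List ℕ => Hit β τ ω i₀ J L.prod) p [] ≤
      V (fun L : List ℕ => L.prod ∈ S) p [] := by
    refine V_mono (fun L hL => ?_) p []
    rw [hS, Finset.mem_filter, Finset.mem_range]
    exact ⟨hL.2.1, hL⟩
  refine h1.trans ((V_mem (fun l hl => ?_) p).trans (sum_hit0 hω hJ S
    (fun m hm => ⟨((Finset.mem_filter.1 hm).2).1, ((Finset.mem_filter.1 hm).2).2.1⟩)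
    (fun m hm => ((Finset.mem_filter.1 hm).2).2.2)))
  have := ((Finset.mem_filter.1 hl).2).1
  have := Nat.pos_of_ne_zero (show (2 ^ i₀ : ℕ) ≠ 0 by positivity)
  omega

end Crest.Agent.R4P.AccW24
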