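import Crest.Agent.R4P.AsB_407
import Crest.Agent.R4P.E3X_479

/-!
R4 (S0004) with powers, dual potential, helper48: **the letter weight is an invariant of the group**.

* `hasL X s p b` : the bundle has a piece with the missing tie `s` processed (`s ∈ pm X.c.t p b.1 q`);
* `LW X P₁ p g` : `∑_k c_k [hasL s p (g.L k)] ≤ 1 / s` for all the columns `s ≤ P₁`;
* **`okL H P₁ p g`** : `okG H p g` and `LW`; `okL.C`, `okL.N`, `okL.one`; `okL.w`, `okL.rest`.
-/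

set_option autoImplicit false
set_option linter.unusedSectionVars false
set_option linter.unusedVariables false
open MeasureTheory Filter Set

namespace Crest.Agent.R4P.LwG48

open Crest.Agent.R4.Tour104 Crest.Agent.R4.Tour758 Crest.Agent.R4.Clos758
open Crest.Agent.R4.ClosL758
open Crest.Agent.R4P.Grp36 Crest.Agent.R4P.GWa343 Crest.Agent.R4P.GWb343 Crest.Agent.R4P.GWc343
open Crest.Agent.R4P.GMer27 Crest.Agent.R4P.GCol27 Crest.Agent.R4P.RSys343
open Crest.Agent.R4P.RXm55 Crest.Agent.R4P.RXm55.RXm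
open Crest.Agent.R4P.MSm25 Crest.Agent.R4P.PayR45 Crest.Agent.R4P.GSK55
open Crest.Agent.R4P.DTp26 (jv PB_jv hz MP)
open Crest.Agent.R4P.MSd343 Crest.Agent.R4P.Bp407 Crest.Agent.R4P.VR407
open Crest.Agent.R4P.Walk560 (DT)
open Crest.Agent.R4.Avg758 Crest.Agent.R4.ClosG758 Crest.Agent.R4.ClosR758
open Crest.Agent.R4P.ClosR442 Crest.Agent.R4P.Xfer36 Crest.Agent.R4P.TopC36 Crest.Agent.R4P.PN36
open Crest.Agent.R4P.GWd343 Crest.Agent.R4P.GWf343 Crest.Agent.R4P.TrR343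
open Crest.Agent.R4P.DTm407 Crest.Agent.R4P.DTn407 Crest.Agent.R4P.DTo407
open Crest.Agent.R4P.Cnt588 Crest.Agent.R4P.Item758
open Crest.Agent.R4P.Bld532 (NS All NodeOk)
open Crest.Agent.R4P.WalkIT579 (tp isL toDT_top toDT_leaf)
open Crest.Agent.R4P.StratN36 (ex)
open Crest.Agent.R4P.Step588 Crest.Agent.R4P.RseSt23
open Crest.Agent.R4P.TYI47 Crest.Agent.R4P.TYJ47 Crest.Agent.R4P.TYK47 Crest.Agent.R4P.TYP9
open Crest.Agent.R4P.RsT47
open Crest.Agent.R4P.Skel189 Crest.Agent.R4P.Frame758 Crest.Agent.R4P.Data758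
open Crest.Agent.R4.Soft104 Crest.Agent.R4.Fam464
open Crest.Agent.R4P.StratX36 hiding mm
open Crest.Agent.R4P.TopX36
open Crest.Agent.R4P.PVe45 (LB)
open Crest.Agent.R4P.PVd45 (DI jv_split3)
open Crest.Agent.R4P.AsB407
open Crest.Agent.R4P.E3X479 (pA_ex pQ_ex pB_ex)

variable {Nu : Skel189.Num} {γ : ℝ} {p0 P₀ : ℕ} {X : Ctx Nu γ p0 P₀} {Q : NS → IT → Prop} {Cb : ℝ}
  {p s P₁ : ℕ} {b : Me × List (DT X.c.Lam (LbX X))} {ζ : Type} [Fintype ζ] [DecidableEq ζ]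
  {D : TD Me X.c.Lam (LbX X) ζ} {H : TYp (rhoX X) D (InvM X Q Cb)}
  {g : Gs (Me × List (DT X.c.Lam (LbX X)))}

/-! ### contents of the children -/

/-- **the bundle has the letter `s`** -/
def hasL (X : Ctx Nu γ p0 P₀) (s p : ℕ) (b : Me × List (DT X.c.Lam (LbX X))) : Prop :=
  ∃ j x, jv b.2 j x ≠ 0 ∧ s ∈ pm X.c.t p b.1 j.1.1

/-- content of the ties is content -/
lemma jv_of_bB (h : InvM X Q Cb p b) {j : X.c.Lam} {x : ℝ} (hj : jv (bB p b.2) j x ≠ 0) :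
    jv b.2 j x ≠ 0 := by
  have h1 := jv_split3 p b.2 j x
  have hb : 0 ≤ jv (bB p b.2) j x := (PB_jv ((diX.pb h.bi).bB p).self j).nonneg x
  have hl : 0 ≤ jv (bL p b.2) j x := (PB_jv ((diX.pb h.bi).bL p).self j).nonneg x
  have hn : 0 ≤ jv (bN p b.2) j x := (PB_jv ((diX.pb h.bi).bN p).self j).nonneg x
  have hb' : 0 < jv (bB p b.2) j x := lt_of_le_of_ne hb (Ne.symm hj)
  intro h0
  linarith

/-- content of the rest is content -/
lemma jv_of_bN (h : InvM X Q Cb p b) {j : X.c.Lam} {x : ℝ} (hj : jv (bN p b.2) j x ≠ 0) :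
    jv b.2 j x ≠ 0 := by
  have h1 := jv_split3 p b.2 j x
  have hb : 0 ≤ jv (bB p b.2) j x := (PB_jv ((diX.pb h.bi).bB p).self j).nonneg x
  have hl : 0 ≤ jv (bL p b.2) j x := (PB_jv ((diX.pb h.bi).bL p).self j).nonneg x
  have hn : 0 ≤ jv (bN p b.2) j x := (PB_jv ((diX.pb h.bi).bN p).self j).nonneg x
  have hb' : 0 < jv (bN p b.2) j x := lt_of_le_of_ne hn (Ne.symm hj)
  intro h0
  linarith

/-- content of a child : content above -/
lemma ch_up (H : TYp (rhoX X) D (InvM X Q Cb)) (h : InvM X Q Cb p b) (hp : 2 ≤ p) {j : X.c.Lam}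
    {y : ℝ} (hj : jv (D.cP p b).2 j y ≠ 0 ∨ jv (D.cN p b).2 j y ≠ 0) :
    ∃ x, jv b.2 j x ≠ 0 := by
  have hp0 : p ≠ 0 := by omega
  have hpr : (2:ℝ) ≤ p := by exact_mod_cast hp
  have Kk := H.bok h hp0
  have c1 := jv_chP Kk j y
  have c2 := jv_chN Kk j y
  have a1 : 0 ≤ jv (D.cP p b).2 j y := by
    show 0 ≤ jv ((bB p b.2).map chP) j y
    rw [c1]; exact add_nonneg ((Kk.PA j).nonneg y) ((Kk.PQ j).nonneg y)
  have a2 : 0 ≤ jv (D.cN p b).2 j y := by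
    show 0 ≤ jv ((bB p b.2).map chN) j y
    rw [c2]; exact add_nonneg ((Kk.PBb j).nonneg y) ((Kk.PQ j).nonneg y)
  have hm : (1 - 1 / (p : ℝ)) * jv (D.cP p b).2 j y + 1 / (p : ℝ) * jv (D.cN p b).2 j y ≤
      Ep p (jv (bB p b.2) j) y := ((lbX H).pv diX).mean (b := b) h hp0 j y
  have w0 : (0:ℝ) < 1 / p := by positivity
  have w1 : (0:ℝ) < 1 - 1 / p := by
    have : (1:ℝ) / p ≤ 1 / 2 := by
      apply one_div_le_one_div_of_le (by norm_num) hpr
    linarith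
  have hpos : 0 < Ep p (jv (bB p b.2) j) y := by
    refine lt_of_lt_of_le ?_ hm
    rcases hj with hj | hj
    · have := mul_pos w1 (lt_of_le_of_ne a1 (Ne.symm hj))
      have := mul_nonneg w0.le a2
      linarith
    · have := mul_pos w0 (lt_of_le_of_ne a2 (Ne.symm hj))
      have := mul_nonneg w1.le a1
      linarith
  by_contra hc
  push Not at hc
  have h0 : Ep p (jv (bB p b.2) j) y = 0 := by
    unfold Ep
    rw [Finset.sum_eq_zero, zero_div]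
    intro k _
    by_contra hk
    exact jv_of_bB h hk (hc _)
  linarith

/-- the column of a child with content is a prime -/
lemma ch_prime (hQ : ∀ u τ, Q u τ → NDt X.par (w X.ψ) X.c.t u τ)
    (H : TYp (rhoX X) D (InvM X Q Cb)) (h : InvM X Q Cb p b) (hp : p ≠ 0) {j : X.c.Lam}
    {y : ℝ} (hj : jv (D.cP p b).2 j y ≠ 0 ∨ jv (D.cN p b).2 j y ≠ 0) : p.Prime := by
  have Kk := H.bok h hp
  have c1 : jv (D.cP p b).2 j y = pA (bB p b.2) j y + pQ (bB p b.2) j y := jv_chP Kk j y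
  have c2 : jv (D.cN p b).2 j y = pB (bB p b.2) j y + pQ (bB p b.2) j y := jv_chN Kk j y
  have h3 : pA (bB p b.2) j y ≠ 0 ∨ pB (bB p b.2) j y ≠ 0 ∨ pQ (bB p b.2) j y ≠ 0 := by
    by_contra hc
    push Not at hc
    obtain ⟨e1, e2, e3⟩ := hc
    rw [c1, c2, e1, e2, e3] at hj
    rcases hj with hj | hj <;> exact hj (by norm_num)
  rcases h3 with h3 | h3 | h3
  · obtain ⟨s, Sp, t₁, t₀, hs, h1, h2⟩ := pA_node (carX hQ) hp h.mi h3
    exact prime_of_br (hQ _ _ hs.1.rm.all.self).self.node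
  · obtain ⟨s, Sp, t₁, t₀, hs, h1, h2⟩ := pB_node (carX hQ) hp h.mi h3
    exact prime_of_br (hQ _ _ hs.1.rm.all.self).self.node
  · obtain ⟨s, t₁, hs, h1, h2⟩ := pQ_node (carX hQ) hp h.mi h3
    exact prime_of_pl (hQ _ _ hs.1.rm.all.self).self.node

/-- the letters of the other columns do not change at a C-step -/
lemma pm_ne {m : Me} {q : ℕ} (hs : s ≠ p) (h : s ∈ pm X.c.t p (tuM p m) q) :
    s ∈ pm X.c.t p m q := by
  obtain ⟨h1, h2⟩ := Finset.mem_filter.1 h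
  refine Finset.mem_filter.2 ⟨h1, ?_⟩
  rcases h2 with h2 | ⟨h2, -⟩
  · exact Or.inl h2
  · exact absurd h2 hs

/-- **no letter `p` in the P child** -/
lemma hasL_P (hQ : ∀ u τ, Q u τ → NDt X.par (w X.ψ) X.c.t u τ)
    (H : TYp (rhoX X) D (InvM X Q Cb)) (htu : D.tu = tuM) (h : InvM X Q Cb p b) (hp : p ≠ 0) :
    ¬ hasL X p p (D.cP p b) := by
  rintro ⟨j, y, hj, hs⟩
  have Kk := H.bok h hp
  have c1 : jv (D.cP p b).2 j y = pA (bB p b.2) j y + pQ (bB p b.2) j y := jv_chP Kk j y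
  have h3 : pA (bB p b.2) j y ≠ 0 ∨ pQ (bB p b.2) j y ≠ 0 := by
    by_contra hc
    push Not at hc
    obtain ⟨e1, e3⟩ := hc
    rw [c1, e1, e3] at hj
    exact hj (by norm_num)
  have hx : TYJ47.cnt p b.1.1 + 1 ≤ ex p j.1.1 := by
    rcases h3 with h3 | h3
    · exact pA_ex hQ h hp h3
    · exact pQ_ex hQ h hp h3
  have e : (D.cP p b).1 = tuM p b.1 := by
    show D.tu p b.1 = _
    rw [htu]
  rw [e] at hs
  obtain ⟨-, h2⟩ := Finset.mem_filter.1 hs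
  rcases h2 with h2 | ⟨-, h2⟩
  · exact lt_irrefl _ h2
  · have e2 : TYJ47.cnt p (tuM p b.1).1 = TYJ47.cnt p b.1.1 + 1 := TYJ47.cnt_tu p b.1.1
    rw [e2] at h2
    omega

/-- the letters of the other columns come from above -/
lemma hasL_up (hQ : ∀ u τ, Q u τ → NDt X.par (w X.ψ) X.c.t u τ)
    (H : TYp (rhoX X) D (InvM X Q Cb)) (htu : D.tu = tuM) (h : InvM X Q Cb p b) (hp : p ≠ 0)
    (hs : s ≠ p) (hc : hasL X s p (D.cP p b) ∨ hasL X s p (D.cN p b)) : hasL X s p b := by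
  have e : (D.cP p b).1 = tuM p b.1 := by
    show D.tu p b.1 = _
    rw [htu]
  have e' : (D.cN p b).1 = tuM p b.1 := by
    show D.tu p b.1 = _
    rw [htu]
  rcases hc with ⟨j, y, hj, hm⟩ | ⟨j, y, hj, hm⟩
  · have h2 := (ch_prime hQ H h hp (Or.inl hj)).two_le
    obtain ⟨x, hx⟩ := ch_up H h h2 (Or.inl hj)
    rw [e] at hm
    exact ⟨j, x, hx, pm_ne hs hm⟩
  · have h2 := (ch_prime hQ H h hp (Or.inr hj)).two_le
    obtain ⟨x, hx⟩ := ch_up H h h2 (Or.inr hj)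
    rw [e'] at hm
    exact ⟨j, x, hx, pm_ne hs hm⟩

/-- the letters of the rest -/
lemma hasL_N (hQ : ∀ u τ, Q u τ → NDt X.par (w X.ψ) X.c.t u τ) (h : InvM X Q Cb p b) (hp : p ≠ 0)
    (hc : hasL X s (p - 1) (b.1, bN p b.2)) : hasL X s p b := by
  obtain ⟨j, x, hj, hm⟩ := hc
  refine ⟨j, x, jv_of_bN h hj, ?_⟩
  have e := (rest_pmX hQ h hp hj).1
  have hm' : s ∈ pm X.c.t (p - 1) b.1 j.1.1 := hm
  rwa [e] at hm'

/-! ### the invariant -/

/-- **the letter weights** -/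
def LW (X : Ctx Nu γ p0 P₀) (P₁ p : ℕ) (g : Gs (Me × List (DT X.c.Lam (LbX X)))) : Prop :=
  ∀ s : ℕ, s ≤ P₁ → ∑ k, g.c k * ch (hasL X s p (g.L k)) (1 : ℝ) ≤ 1 / (s : ℝ)

/-- **good group states with letter weights** -/
def okL (H : TYp (rhoX X) D (InvM X Q Cb)) (P₁ p : ℕ)
    (g : Gs (Me × List (DT X.c.Lam (LbX X)))) : Prop := okG H p g ∧ LW X P₁ p g

lemma okL.okG (h : okL H P₁ p g) : okG H p g := h.1

lemma ch01 (P : Prop) : 0 ≤ ch P (1:ℝ) ∧ ch P (1:ℝ) ≤ 1 := by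
  by_cases h : P
  · rw [ch_on h]; norm_num
  · rw [ch_off h]; norm_num

/-- **C-steps** -/
theorem okL.C (hQ : ∀ u τ, Q u τ → NDt X.par (w X.ψ) X.c.t u τ) (htu : D.tu = tuM)
    (h : okL H P₁ p g) (hp : p ≠ 0) : okL H P₁ p ((bm (rxm H)).C p g) := by
  refine ⟨h.1.C hp, fun s hs => ?_⟩
  have inv : ∀ k, InvM X Q Cb p (g.L k) := fun k => h.1.gok.2 k
  have c0 := h.1.gok.1.c0
  have c1 := h.1.gok.1.c1
  have hp0 : (0:ℝ) < p := by exact_mod_cast Nat.pos_of_ne_zero hp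
  have up : ∀ k, s ≠ p → ch (hasL X s p (D.cP p (g.L k))) (1:ℝ) ≤ ch (hasL X s p (g.L k)) 1 ∧
      ch (hasL X s p (D.cN p (g.L k))) (1:ℝ) ≤ ch (hasL X s p (g.L k)) 1 := fun k hne => by
    constructor
    · by_cases hc : hasL X s p (D.cP p (g.L k))
      · rw [ch_on hc, ch_on (hasL_up hQ H htu (inv k) hp hne (Or.inl hc))]
      · rw [ch_off hc]; exact (ch01 _).1
    · by_cases hc : hasL X s p (D.cN p (g.L k))
      · rw [ch_on hc, ch_on (hasL_up hQ H htu (inv k) hp hne (Or.inr hc))]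
      · rw [ch_off hc]; exact (ch01 _).1
  by_cases h2 : 2 ≤ p
  · rw [GSK55.BC_pos _ h2]
    show ∑ x : g.J × Bool, cT (1 - 1 / (p : ℝ)) g.c x *
      ch (hasL X s p (if x.2 then D.cP p (g.L x.1) else D.cN p (g.L x.1))) (1:ℝ) ≤ _
    rw [Fintype.sum_prod_type]
    have e : ∀ k, ∑ t : Bool, cT (1 - 1 / (p : ℝ)) g.c (k, t) *
        ch (hasL X s p (if t then D.cP p (g.L k) else D.cN p (g.L k))) (1:ℝ) =
        g.c k * ((1 - 1 / (p : ℝ)) * ch (hasL X s p (D.cP p (g.L k))) 1 +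
          1 / (p : ℝ) * ch (hasL X s p (D.cN p (g.L k))) 1) := fun k => by
      rw [Fintype.sum_bool]
      simp only [cT, if_true, Bool.false_eq_true, if_false]
      ring
    rw [Finset.sum_congr rfl fun k _ => e k]
    have w0 : (0:ℝ) ≤ 1 / p := by positivity
    have w1 : (0:ℝ) ≤ 1 - 1 / p := by
      have : (1:ℝ) / p ≤ 1 := by
        rw [div_le_one hp0]
        exact_mod_cast Nat.one_le_iff_ne_zero.2 hp
      linarith
    by_cases hsp : s = p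
    · subst hsp
      have h3 : ∀ k, g.c k * ((1 - 1 / (s : ℝ)) * ch (hasL X s s (D.cP s (g.L k))) 1 +
          1 / (s : ℝ) * ch (hasL X s s (D.cN s (g.L k))) 1) ≤ 1 / (s : ℝ) * g.c k := fun k => by
        rw [ch_off (hasL_P hQ H htu (inv k) hp)]
        have := mul_le_mul_of_nonneg_left (ch01 (hasL X s s (D.cN s (g.L k)))).2 w0
        have := mul_le_mul_of_nonneg_left this (c0 k)
        linarith
      refine (Finset.sum_le_sum fun k _ => h3 k).trans ?_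
      rw [← Finset.mul_sum, c1, mul_one]
    · have h3 : ∀ k, g.c k * ((1 - 1 / (p : ℝ)) * ch (hasL X s p (D.cP p (g.L k))) 1 +
          1 / (p : ℝ) * ch (hasL X s p (D.cN p (g.L k))) 1) ≤
          g.c k * ch (hasL X s p (g.L k)) 1 := fun k => by
        refine mul_le_mul_of_nonneg_left ?_ (c0 k)
        obtain ⟨a1, a2⟩ := up k hsp
        have := mul_le_mul_of_nonneg_left a1 w1
        have := mul_le_mul_of_nonneg_left a2 w0
        linarith
      exact (Finset.sum_le_sum fun k _ => h3 k).trans (h.2 s hs)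
  · rw [GSK55.BC_neg _ h2]
    show ∑ k, g.c k * ch (hasL X s p (D.cP p (g.L k))) (1:ℝ) ≤ _
    have h0 : ∀ k, ch (hasL X s p (D.cP p (g.L k))) (1:ℝ) = 0 := fun k => by
      refine ch_off ?_
      rintro ⟨j, y, hj, -⟩
      exact h2 (ch_prime hQ H (inv k) hp (Or.inl hj)).two_le
    rw [Finset.sum_congr rfl fun k _ => by rw [h0 k, mul_zero], Finset.sum_const_zero]
    positivity

/-- **rests** -/
theorem okL.N (hQ : ∀ u τ, Q u τ → NDt X.par (w X.ψ) X.c.t u τ)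
    (h : okL H P₁ p g) (hp : p ≠ 0) : okL H P₁ (p - 1) ((bm (rxm H)).N p g) := by
  refine ⟨h.1.N hp, fun s hs => ?_⟩
  have inv : ∀ k, InvM X Q Cb p (g.L k) := fun k => h.1.gok.2 k
  have c0 := h.1.gok.1.c0
  refine le_trans (Finset.sum_le_sum fun k _ => ?_) (h.2 s hs)
  refine mul_le_mul_of_nonneg_left ?_ (c0 k)
  by_cases hc : hasL X s (p - 1) ((g.L k).1, bN p (g.L k).2)
  · refine le_trans (ch01 _).2 ?_
    rw [ch_on (hasL_N hQ (inv k) hp hc)]
  · have e : ch (hasL X s (p - 1) (((bm (rxm H)).N p g).L k)) (1:ℝ) = 0 := ch_off hc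
    rw [e]
    exact (ch01 _).1

/-- **the start** -/
theorem okL.one (hQ : ∀ u τ, Q u τ → NDt X.par (w X.ψ) X.c.t u τ) {u : NS} {τ : IT}
    (hA : All Q u τ) (hB : InvM X Q Cb (X.self u τ Finset.univ).p (b₀ X u τ)) :
    okL H (X.self u τ Finset.univ).p (X.self u τ Finset.univ).p (GSK55.one (b₀ X u τ)) := by
  have hn := hQ _ _ hA.self
  refine ⟨okG.one hB, fun s hs => ?_⟩
  rw [self_p X u τ] at hs ⊢
  have h0 : ¬ hasL X s (tp τ) (b₀ X u τ) := by
    rintro ⟨j, x, hj, hm⟩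
    obtain ⟨t, ht, h1⟩ := jv_mem hj
    have e : t = (X.c.D.par X.Y).toDT X.c.sp u.B u.A τ := List.mem_singleton.1 ht
    rw [e] at h1
    have hq : j.1.1 ∈ τ.items := (ctx_supp hn h1).1
    obtain ⟨-, h2⟩ := Finset.mem_filter.1 hm
    rcases h2 with h2 | ⟨h2, h3⟩
    · exact absurd hs (not_le.2 h2)
    · have e2 : TYJ47.cnt (tp τ) (mS u τ).1 = ex (tp τ) u.A := TYJ47.cnt_m0 u τ
      have h4 : ex (tp τ) u.A ≤ ex (tp τ) j.1.1 :=
        Crest.Agent.R4P.StratN36.ex_le (hn.bk.pos _ hq) (hn.bk.dvd _ hq)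
      have h5 : ex (tp τ) j.1.1 < TYJ47.cnt (tp τ) (mS u τ).1 := h3
      rw [e2] at h5
      omega
  have e : ∑ k, (GSK55.one (b₀ X u τ)).c k * ch (hasL X s (tp τ)
      ((GSK55.one (b₀ X u τ)).L k)) (1:ℝ) = 0 := by
    refine Finset.sum_eq_zero fun k _ => ?_
    have : ch (hasL X s (tp τ) ((GSK55.one (b₀ X u τ)).L k)) (1:ℝ) = 0 := ch_off h0
    rw [this, mul_zero]
  rw [e]
  positivity

/-- **the weight of the members with the letter `s` in their rest** -/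
theorem okL.rest (h : okL H P₁ p g) (hs : s ≤ P₁) : ∑ k, g.c k *
    ch (∃ j x, jv (bN p (g.L k).2) j x ≠ 0 ∧ s ∈ pm X.c.t p (g.L k).1 j.1.1) (1 : ℝ) ≤
      1 / (s : ℝ) := by
  have inv : ∀ k, InvM X Q Cb p (g.L k) := fun k => h.1.gok.2 k
  refine le_trans (Finset.sum_le_sum fun k _ => ?_) (h.2 s hs)
  refine mul_le_mul_of_nonneg_left ?_ (h.1.gok.1.c0 k)
  by_cases hc : ∃ j x, jv (bN p (g.L k).2) j x ≠ 0 ∧ s ∈ pm X.c.t p (g.L k).1 j.1.1
  · obtain ⟨j, x, hj, hm⟩ := hc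
    have h2 : hasL X s p (g.L k) := ⟨j, x, jv_of_bN (inv k) hj, hm⟩
    refine le_trans (ch01 _).2 ?_
    rw [ch_on h2]
  · rw [ch_off hc]; exact (ch01 _).1

end Crest.Agent.R4P.LwG48
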