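import Crest.Agent.R4P.BthX_48
import Crest.Agent.R4P.EvC_47
import Crest.Agent.R4P.E3X_479
import Crest.Agent.R4P.LwG_48

/-!
R4 (S0004) with powers, T3, helper407: **the games of a rule with flags**, unmarked (`spc = False`).

* **`yE_rateW`** : the linear part `8 θ` of the second order births (`BthX48.lprO`) is at most
  `40 θ / (p - 1) [pA ≠ 0] vT` (only P pieces pay: a convergent series over all the columns);
* `CtxF` (facts of a context), **`RF X`** (rule, flags `F` of `StJ_6`, maps of types `fr`, `ft`), `RF.D`,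
  `RF.H` (typing), `RF.EvR`, `RF.EvT` (events: the low type is not the image of the type above);
* **`VDat X Q C r`** : the class changes of the rests (dual potential): a piece which changes its type pays
  `2 Cr0 θx` (`V`), a piece which leaves pays `14` (`Vo`), the linear class `Lc` pays `2 Cr0` (`Vc`); the
  joined pairs of two members have the letter `lst` or are in the kernel `KX`; no change at the ties;
  **`VDat.prc : Prc`** (`Pod`), group states `LwG48.okL`;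
* **`GDat`** (prices `Pc` abstract, births `T`, `Lo`, `Rb`, `Sb` of `BthW_48`, credits, payments by the side of
  the piece) → `GDat.pay`, **`GDat.gm : Gm X Q C n`**;
* **`LDat`** (class changes `VDat`, `W` events of the births, all `CrZ41.Evs`) →
  **`LDat.gd : GDat`**, `Z1 = crA cv cw`, `Z2 = 0`, `vCS = 0`, **`LDat.vX_eq`**.
-/

set_option autoImplicit false
set_option linter.unusedSectionVars false
set_option linter.unusedVariables false
open MeasureTheory Filter Set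

namespace Crest.Agent.R4P.AsC407

open Crest.Agent.R4.Tour104 Crest.Agent.R4.Tour758 Crest.Agent.R4.Clos758 Crest.Agent.R4.ClosL758
open Crest.Agent.R4P.Grp36 Crest.Agent.R4P.GWa343 Crest.Agent.R4P.GWb343
open Crest.Agent.R4P.GWc343 hiding SB
open Crest.Agent.R4P.GWd343 Crest.Agent.R4P.GCol27 Crest.Agent.R4P.TrR343
open Crest.Agent.R4P.DTp26 Crest.Agent.R4P.VR407 Crest.Agent.R4P.Bp407 Crest.Agent.R4P.MSd343
open Crest.Agent.R4P.DTm407 Crest.Agent.R4P.DTn407 Crest.Agent.R4P.DTn407.TD'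
open Crest.Agent.R4P.DTo407 Crest.Agent.R4P.DTo407.TD'
open Crest.Agent.R4P.DTe407 hiding ch_mul
open Crest.Agent.R4P.DTs407
open Crest.Agent.R4P.Walk560 (DT)
open Crest.Agent.R4P.RXm55 Crest.Agent.R4P.MSm25 Crest.Agent.R4P.RSys343
open Crest.Agent.R4P.BthR48 Crest.Agent.R4P.BthS48 Crest.Agent.R4P.BthT48 Crest.Agent.R4P.BthU48
open Crest.Agent.R4P.BthW48
open Crest.Agent.R4P.BthX48 (lprO)
open Crest.Agent.R4P.LwG48 (okL)
open Crest.Agent.R4P.GMer27 (M M_mono M_add M_smul M_nonneg)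
open Crest.Agent.R4P.TyS16 (Ep_smul' Ep_add' Ep_mono_fib)

/-! ### the linear part of the second order births -/

section births
variable {μ Λ κ ζ : Type} [Fintype Λ] [DecidableEq Λ] [Fintype κ] [DecidableEq κ]
  [Fintype ζ] [DecidableEq ζ]
variable {wr : ℕ → Λ → κ} {D : TD μ Λ κ ζ} {Inv : ℕ → μ × List (DT Λ κ) → Prop}
  (H : TYp wr D Inv)
  (hU : ∀ {p b}, Inv p b → p ≠ 0 → ∀ z x, ¬ D.spc p b z x)
  (T : ℕ → μ × List (DT Λ κ) → ℝ → Λ → Λ → Prop) (Lo : ℕ → μ × List (DT Λ κ) → ℝ → Λ → Prop)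
  (hT : ∀ {p b}, Inv p b → p ≠ 0 → ∀ j i, MP fun y => T p b y j i)
  (hL : ∀ {p b}, Inv p b → p ≠ 0 → ∀ i, MP fun y => Lo p b y i)

/-- no second order pairs -/
def T0 : ℕ → μ × List (DT Λ κ) → ℝ → Λ → Λ → Prop := fun _ _ _ _ _ => False
def L0 : ℕ → μ × List (DT Λ κ) → ℝ → Λ → Prop := fun _ _ _ _ => False

lemma cr0 {p : ℕ} {b : μ × List (DT Λ κ)} {P : ℝ → Λ → Λ → Prop} (hP : ∀ y j i, ¬ P y j i)
    (y : ℝ) : cr D wr p b P y = 0 :=
  Finset.sum_eq_zero fun j _ => Finset.sum_eq_zero fun i _ => ch_off fun h => hP _ _ _ h.2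

lemma crG0 {p : ℕ} {b : μ × List (DT Λ κ)} {P : ℝ → Λ → Λ → Prop} (hP : ∀ y j i, ¬ P y j i)
    (x : ℝ) : crG D wr p b P x = 0 :=
  Finset.sum_eq_zero fun j _ => Finset.sum_eq_zero fun i _ => ch_off fun h => hP _ _ _ h.2

lemma ElT0 {p : ℕ} {b : μ × List (DT Λ κ)} (z : ζ) (x : ℝ) :
    ElT D wr p b (T0 p b) (L0 p b) z x = 0 := by
  unfold ElT
  have e1 : LgT D wr p b (T0 p b) z x = 0 := crG0 (fun y j i h => h.2) x
  have e2 : EtT D wr p b (T0 p b) (L0 p b) z x = 0 := by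
    unfold EtT
    refine Finset.sum_eq_zero fun i _ => ?_
    have e3 : kT D wr p b (T0 p b) (L0 p b) z i (p * x) = 0 := by
      unfold kT
      have e4 : ∑ j, ch (D.lt p b.1 (p * x) j = some z ∧ T0 p b (p * x) j i)
          (uA wr p b j (p * x)) = 0 :=
        Finset.sum_eq_zero fun j _ => ch_off fun h => h.2
      have e5 : ch (L0 p b (p * x) i) (MaT D wr p b (T0 p b) z (p * x)) = 0 :=
        ch_off fun h => h
      rw [e4, e5, add_zero, zero_div]
    rw [e3, zero_mul]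
    unfold ch
    simp
  rw [e1, e2, add_zero]

lemma EsT0 {p : ℕ} {b : μ × List (DT Λ κ)} (z : ζ) (x : ℝ) : EsT D wr p b (T0 p b) z x = 0 := by
  unfold EsT
  have e1 : MbT D wr p b (T0 p b) z (p * x) = 0 := cr0 (fun y j i h => h.2) _
  have e2 : MaT D wr p b (T0 p b) z (p * x) = 0 := cr0 (fun y j i h => h.2) _
  rw [e1, e2]
  ring

/-- **the linear part of the second order births**, paid by the P pieces -/
theorem yE_rateW {D' : RGx (rb H)} {θ τ : ℕ → ℝ} (hθ : ∀ p, 0 < θ p)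
    (hτ : ∀ p, 0 < τ p) {p : ℕ} {b : μ × List (DT Λ κ)} (hb : Inv p b) (hp : p ≠ 0) (y : ℝ) :
    Ep p ((lprO (D := D') (rowsW H hU T Lo hT hL) hθ hτ).yE p b) y ≤ ∑ j, Ep p (fun x =>
      40 * θ p * (1 / ((p : ℝ) - 1)) * ch (pA (bB p b.2) j (p * x) ≠ 0) 1 *
        vT p (bB p b.2) j x) y := by
  have hp0 : 0 < p := Nat.pos_of_ne_zero hp
  have m0 : ∀ {p b}, Inv p b → p ≠ 0 → ∀ j i, MP fun y => T0 (Λ := Λ) p b y j i :=
    fun _ _ _ _ => MP.const False
  have l0 : ∀ {p b}, Inv p b → p ≠ 0 → ∀ i, MP fun y => L0 (Λ := Λ) p b y i :=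
    fun _ _ _ => MP.const False
  have h1 := e1_rateW H hU T0 L0 m0 l0 hb hp (R := fun _ _ => True) (S := fun _ _ => False)
    (fun _ _ => rfl) (fun _ _ => rfl) (y := y) (fun _ _ _ _ _ _ => Or.inl trivial)
    (fun _ _ _ _ _ _ _ _ => Or.inl trivial) (fun _ _ _ _ h _ _ _ _ _ _ => absurd h id)
    (fun i _ h => absurd h id)
  have h2 : Ep p ((lprO (D := D') (rowsW H hU T Lo hT hL) hθ hτ).yE p b) y ≤
      8 * θ p * Ep p ((rowsW H hU T0 L0 m0 l0).e1 p b) y := by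
    rw [← Ep_smul']
    refine Ep_mono_fib hp0 fun k _ => ?_
    set x := (y + (k : ℕ)) / (p : ℝ)
    rw [e1_eqW H hU T0 L0 m0 l0 hb hp x]
    show ∑ z, 8 * θ p * (rowsW H hU T Lo hT hL).E2 p b z x ≤ _
    rw [← Finset.mul_sum]
    refine mul_le_mul_of_nonneg_left (Finset.sum_le_sum fun z _ => ?_) (by linarith [hθ p])
    have e1 : (rowsW H hU T Lo hT hL).E2 p b z x =
        ElT D wr p b (T p b) (Lo p b) z x + EsT D wr p b (T p b) z x + 0 := rfl
    have a1 := ElT_le H hb hp (T := T p b) (Lo := Lo p b) (hU hb hp) z x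
    have a2 := EsT_le H hb hp (T := T p b) z x
    rw [e1, ElT0, EsT0]
    linarith
  refine h2.trans ?_
  have h3 := mul_le_mul_of_nonneg_left h1 (show 0 ≤ 8 * θ p / 14 by have := hθ p; positivity)
  have e2 : 8 * θ p / 14 * (14 * Ep p ((rowsW H hU T0 L0 m0 l0).e1 p b) y) =
    8 * θ p * Ep p ((rowsW H hU T0 L0 m0 l0).e1 p b) y := by ring
  rw [e2] at h3
  refine h3.trans (le_of_eq ?_)
  rw [Finset.mul_sum]
  refine Finset.sum_congr rfl fun j _ => ?_
  rw [← Ep_smul']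
  congr 1
  funext x
  have e3 : ch (pG (bB p b.2) j x ≠ 0 ∧ False) (1 : ℝ) = 0 := ch_off fun h => h.2
  rw [e3]
  have e4 : ch (pA (bB p b.2) j (p * x) ≠ 0 ∧ True) (1 : ℝ) =
      ch (pA (bB p b.2) j (p * x) ≠ 0) 1 := ch_congr (by tauto)
  rw [e4]
  ring

end births

/-! ### a rule with flags in a context -/

section game
open Crest.Agent.R4.Avg758 Crest.Agent.R4.ClosG758 Crest.Agent.R4.ClosR758
open Crest.Agent.R4P.ClosR442 Crest.Agent.R4P.Xfer36 Crest.Agent.R4P.TopC36 Crest.Agent.R4P.PN36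
open Crest.Agent.R4P.GWf343 Crest.Agent.R4P.GWg343
open Crest.Agent.R4P.Cnt588 Crest.Agent.R4P.Item758 Crest.Agent.R4P.W363
open Crest.Agent.R4P.Bld532 (NS All NodeOk Bk)
open Crest.Agent.R4P.WalkIT579 (tp isL)
open Crest.Agent.R4P.StratN36 (ex)
open Crest.Agent.R4P.Step588 Crest.Agent.R4P.RseSt23
open Crest.Agent.R4P.TYI47 Crest.Agent.R4P.TYJ47 Crest.Agent.R4P.TYK47 Crest.Agent.R4P.TYP9
open Crest.Agent.R4P.RsT47
open Crest.Agent.R4P.StE6 Crest.Agent.R4P.StF6 Crest.Agent.R4P.StG6 Crest.Agent.R4P.StJ6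
open Crest.Agent.R4P.StB21 (LvF)
open Crest.Agent.R4P.PayR45 (BM PV)
open Crest.Agent.R4P.PVe45 (LB Cr)
open Crest.Agent.R4P.MSi343 (su)
open Crest.Agent.R4P.Skel189 Crest.Agent.R4P.Frame758 Crest.Agent.R4P.Data758
open Crest.Agent.R4.Soft104 Crest.Agent.R4.Fam464
open Crest.Agent.R4P.StratX36 Crest.Agent.R4P.TopX36
open Crest.Agent.R4P.RGf25 Crest.Agent.R4P.RGp25 Crest.Agent.R4P.RGd25 Crest.Agent.R4P.Prc49
open Crest.Agent.R4P.Pay349 Crest.Agent.R4P.BthL48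
open Crest.Agent.R4P.E3V479
open Crest.Agent.R4P.E3X479 hiding diX
open Crest.Agent.R4P.AsB407 Crest.Agent.R4P.EvC47 Crest.Agent.R4P.CrZ41

variable {N : Skel189.Num} {γ : ℝ} {p0 P₀ : ℕ} {X : Ctx N γ p0 P₀} {Q : NS → IT → Prop} {C : ℝ}
  {n : ℕ}

/-- **facts of a context** -/
structure CtxF (X : Ctx N γ p0 P₀) (Q : NS → IT → Prop) : Prop where
  hQ : ∀ u τ, Q u τ → NDt X.par (w X.ψ) X.c.t u τ
  hLv : ∀ u τ, Q u τ → LvF X u τ
  hd1 : X.c.d1 * Kc X.S ≤ 1
  hd : ∀ p, X.c.wp.dep (p - 1) ≤ X.c.wp.dep p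

/-- types of a rule -/
abbrev TyX (X : Ctx N γ p0 P₀) (R : Rule X.c) : Type := Ty (Nix X.c (Skel189.top X.S)) R.K

/-- **a rule with flags** and its maps of types : rest (column `p`, memory, point), ties (column `p`,
memory above, point of the child) -/
structure RF (X : Ctx N γ p0 P₀) where
  R : Rule X.c
  le : ∀ {p}, p ≤ Skel189.top X.S → ∀ M T x j, R.tg p M T x j ≤ R.K
  F : ℕ → Finset ℕ → Prop
  mon : FMon F
  fr : ℕ → Me → ℝ → TyX X R → TyX X R
  ft : ℕ → Me → ℝ → TyX X R → TyX X R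
  act : LbX X

namespace RF
variable (r : RF X)

/-- types -/
abbrev ζ : Type := TyX X r.R

/-- typing data, no marks -/
noncomputable abbrev D : TD Me X.c.Lam (LbX X) r.ζ :=
  TXF X r.R r.F (fun _ _ _ _ => False) (fun _ _ _ _ => r.act)

/-- typing -/
noncomputable def H (cf : CtxF X Q) : TYp (rhoX X) r.D (InvM X Q C) :=
  typF cf.hQ (fun _ _ _ => MP.const False) (fun _ _ _ => MP.const r.act)
    (fun _ _ _ _ _ _ _ _ h => absurd h id)

/-- **event of the rest**: the low type is not the image of the type above -/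
def EvR (p : ℕ) (m : Me) (x : ℝ) (j : X.c.Lam) : Prop :=
  ∃ z, r.D.tp p m x j = some z ∧ r.D.tp (p - 1) m x j ≠ some (r.fr p m x z)

/-- **event of a tie**: the low type is not the image of the type above -/
def EvT (p : ℕ) (m : Me) (x : ℝ) (j : X.c.Lam) : Prop :=
  ∃ z, r.D.tp p m x j = some z ∧ r.D.tp p (tuM p m) (p * x) j ≠ some (r.ft p m (p * x) z)

variable {r} {p : ℕ} {b : Me × List (DT X.c.Lam (LbX X))}

lemma pt_lt (j : X.c.Lam) (x : ℝ) : r.D.pt (rhoX X) p b x j = r.D.lt p b.1 (p * x) j := by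
  unfold TD.pt TD.pm
  rcases r.D.lt p b.1 (p * x) j with _ | z
  · rfl
  · show some _ = some _
    congr 1
    exact if_neg fun h => h.1

variable {cf : CtxF X Q} {U : RBm (rxm (r.H (C := C) cf))}

/-- **moved content of the rest** -/
theorem rest_mv (h : InvM X Q C p b) (hp : p ≠ 0) {i : X.c.Lam × Bool} {x : ℝ} {z : r.ζ}
    (hv : (pmdx (r.H cf) U).vN p b i x ≠ 0) (hk : (pmdx (r.H cf) U).kO p b x i = some z)
    (hk' : (pmdx (r.H cf) U).kN p b x i ≠ some (r.fr p b.1 x z)) :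
    i.2 = true ∧ jv (bN p b.2) i.1 x ≠ 0 ∧ r.EvR p b.1 x i.1 := by
  obtain ⟨j, t⟩ := i
  cases t
  · exact absurd rfl hv
  · exact ⟨rfl, hv, z, hk, hk'⟩

/-- **moved content of the ties** -/
theorem tie_mv (h : InvM X Q C p b) (hp : p ≠ 0) {i : X.c.Lam × Bool} {x : ℝ} {z : r.ζ}
    (hv : (pmdx (r.H cf) U).vB p b i x ≠ 0) (hk : (pmdx (r.H cf) U).kO p b x i = some z)
    (hk' : (pmdx (r.H cf) U).kR p b x i ≠ some (r.ft p b.1 (p * x) z)) :
    jv (bB p b.2) i.1 x ≠ 0 ∧ TieP X p b.1 i.1 x ∧ r.EvT p b.1 x i.1 := by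
  obtain ⟨j, t⟩ := i
  have hp0 : 0 < p := Nat.pos_of_ne_zero hp
  have a1 := vT_nonneg ((r.H (C := C) cf).bok h hp) hp0 j x
  have a2 : 0 ≤ TD.pQx p (bB p b.2) j x := (((r.H (C := C) cf).bok h hp).PQ j).nonneg _
  have a3 := vTp_jv (p := p) (bB p b.2) j x
  have hj : jv (bB p b.2) j x ≠ 0 := by
    intro e
    cases t
    · exact hv (show TD.pQx p (bB p b.2) j x = 0 by linarith)
    · exact hv (show vT p (bB p b.2) j x = 0 by linarith)
  refine ⟨hj, tie_node cf.hQ cf.hd1 h hj, z, hk, fun e => hk' ?_⟩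
  have e3 : r.D.lt p b.1 (p * x) j = some (r.ft p b.1 (p * x) z) := e
  cases t
  · exact e3
  · show r.D.pt (rhoX X) p b x j = _
    rw [pt_lt, e3]

/-- a tie piece with content -/
theorem tie_ct (h : InvM X Q C p b) (hp : p ≠ 0) {i : X.c.Lam × Bool} {x : ℝ}
    (hv : (pmdx (r.H cf) U).vB p b i x ≠ 0) : jv (bB p b.2) i.1 x ≠ 0 ∧ TieP X p b.1 i.1 x := by
  obtain ⟨j, t⟩ := i
  have hp0 : 0 < p := Nat.pos_of_ne_zero hp
  have a1 := vT_nonneg ((r.H (C := C) cf).bok h hp) hp0 j x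
  have a2 : 0 ≤ TD.pQx p (bB p b.2) j x := (((r.H (C := C) cf).bok h hp).PQ j).nonneg _
  have a3 := vTp_jv (p := p) (bB p b.2) j x
  have hj : jv (bB p b.2) j x ≠ 0 := by
    intro e
    cases t
    · exact hv (show TD.pQx p (bB p b.2) j x = 0 by linarith)
    · exact hv (show vT p (bB p b.2) j x = 0 by linarith)
  exact ⟨hj, tie_node cf.hQ cf.hd1 h hj⟩

lemma kR_eq (i : X.c.Lam × Bool) (x : ℝ) :
    (pmdx (r.H (C := C) cf) U).kR p b x i = r.D.lt p b.1 (p * x) i.1 := by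
  obtain ⟨j, t⟩ := i
  cases t
  · rfl
  · exact pt_lt j x

end RF

/-! ### the class changes -/

open Classical in
/-- **joined pairs of two members**, kernel `KX` (the first piece changes) -/
noncomputable def Xg {μ Λ κ : Type} [Fintype Λ] (KX : ℕ → Λ → Λ → ℝ) (p : ℕ)
    (s : Gs (μ × List (DT Λ κ))) (x : ℝ) : ℝ :=
  ∑ j, ∑ j', if j = j' then 0 else s.c j * s.c j' * ∑ i, ∑ i',
    KX p i i' * jv (bN p (s.L j).2) i x * jv (bN p (s.L j').2) i' x

/-- **data of the class changes** of a rule with flags, all at the rests -/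
structure VDat (X : Ctx N γ p0 P₀) (Q : NS → IT → Prop) (C : ℝ) (r : RF X) where
  /-- the start column -/
  P1 : ℕ
  θx : ℕ → ℝ
  θx0 : ∀ p, 0 < θx p
  /-- last own tie -/
  lst : ℕ → X.c.Lam → ℕ
  /-- linear class -/
  Lc : ℕ → X.c.Lam → Prop
  V : Evs X.c.Lam
  Vo : Evs X.c.Lam
  Vc : Evs X.c.Lam
  vr : ∀ {p b}, InvM X Q C p b → p ≠ 0 → ∀ j x, jv (bN p b.2) j x ≠ 0 → ∀ z z',
    r.D.tp p b.1 x j = some z → r.D.tp (p - 1) b.1 x j = some z' → z ≠ z' →
    2 * Cr0 * θx p ≤ V.c' p ∧ V.E' p j (zb X.c p b.1 x j)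
  ltx : ∀ {p b}, InvM X Q C p b → p ≠ 0 → ∀ j x, jv (bN p b.2) j x ≠ 0 → ∀ z z',
    r.D.tp p b.1 x j = some z → r.D.tp (p - 1) b.1 x j = some z' → z ≠ z' →
    1 / (lst p j : ℝ) ≤ θx p
  vo : ∀ {p b}, InvM X Q C p b → p ≠ 0 → ∀ j x, jv (bN p b.2) j x ≠ 0 → ∀ z,
    r.D.tp p b.1 x j = some z → r.D.tp (p - 1) b.1 x j = none →
    14 ≤ Vo.c' p ∧ Vo.E' p j (zb X.c p b.1 x j)
  vc : ∀ {p b}, InvM X Q C p b → p ≠ 0 → ∀ j x, jv (bN p b.2) j x ≠ 0 → ∀ z z',
    r.D.tp p b.1 x j = some z → r.D.tp (p - 1) b.1 x j = some z' → z ≠ z' → Lc p j →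
    2 * Cr0 ≤ Vc.c' p ∧ Vc.E' p j (zb X.c p b.1 x j)
  /-- joined pairs without the letter -/
  KX : ℕ → X.c.Lam → X.c.Lam → ℝ
  KX0 : ∀ p i j, 0 ≤ KX p i j
  crs : ∀ {p} {b b' : Me × List (DT X.c.Lam (LbX X))}, InvM X Q C p b → InvM X Q C p b' →
    b'.1 = b.1 → p ≠ 0 → ∀ j j' x, jv (bN p b.2) j x ≠ 0 → jv (bN p b'.2) j' x ≠ 0 → ∀ z z',
    r.D.tp p b.1 x j = some z → r.D.tp (p - 1) b.1 x j = some z' → z ≠ z' →
    r.D.tp (p - 1) b.1 x j' = some z' → r.D.tp p b.1 x j' ≠ none →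
    r.D.tp p b.1 x j' ≠ some z → ¬ Lc p j →
    (lst p j ≤ P1 ∧ lst p j ∈ pm X.c.t p b.1 j'.1.1) ∨ 1 ≤ KX p j j'
  /-- no class change at the ties -/
  tie : ∀ {p b}, InvM X Q C p b → p ≠ 0 → ∀ j x, jv (bB p b.2) j x ≠ 0 → TieP X p b.1 j x →
    r.D.lt p b.1 (p * x) j = r.D.tp p b.1 x j

namespace VDat
variable {r : RF X} (v : VDat X Q C r) (cf : CtxF X Q)

/-- credits of the class changes -/
noncomputable abbrev cv : Cr ((lbX (r.H (C := C) cf)).pv diX) :=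
  crA (crX (r.H cf) rfl cf.hQ cf.hd1 v.V) (crA (crX (r.H cf) rfl cf.hQ cf.hd1 v.Vo)
    (crX (r.H cf) rfl cf.hQ cf.hd1 v.Vc))

lemma cv_e (p : ℕ) (b : Me × List (DT X.c.Lam (LbX X))) (j : X.c.Lam) (x : ℝ) :
    (v.cv cf (C := C)).e p b j x = v.V.c' p * ind (v.V.E' p j (zb X.c p b.1 x j)) +
      (v.Vo.c' p * ind (v.Vo.E' p j (zb X.c p b.1 x j)) +
        v.Vc.c' p * ind (v.Vc.E' p j (zb X.c p b.1 x j))) := rfl

variable {p : ℕ} {b : Me × List (DT X.c.Lam (LbX X))}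

/-- the second order part -/
noncomputable def xN (p : ℕ) (s : Gs (Me × List (DT X.c.Lam (LbX X)))) (x : ℝ) : ℝ :=
  Cr0 / v.θx p * (su s (prs ((pmdx (r.H (C := C) cf) (rb (r.H cf))).fl.fN p)) x +
    Xg v.KX p s x)

lemma Cr0_pos : 0 < Cr0 := by unfold Cr0; norm_num

lemma PB_Xg {KX : ℕ → X.c.Lam → X.c.Lam → ℝ} (h0 : ∀ p i j, 0 ≤ KX p i j) {p : ℕ}
    {s : Gs (Me × List (DT X.c.Lam (LbX X)))} (c0 : ∀ j, 0 ≤ s.c j)
    (hb : ∀ j, InvM X Q C p (s.L j)) : PB (Xg KX p s) := by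
  classical
  unfold Xg
  refine PB.sum _ fun j _ => PB.sum _ fun j' _ => ?_
  by_cases hj : j = j'
  · simp only [if_pos hj]
    exact PB.const le_rfl
  · simp only [if_neg hj]
    refine PB.smul (PB.sum _ fun i _ => PB.sum _ fun i' _ => ?_) (mul_nonneg (c0 j) (c0 j'))
    exact (PB.smul (PB_jv ((diX.pb (hb j).bi).bN p).self i) (h0 p i i')).mul
      (PB_jv ((diX.pb (hb j').bi).bN p).self i')

/-- **the price of the rest** -/
theorem prN {s : Gs (Me × List (DT X.c.Lam (LbX X)))} (hs : okL (r.H (C := C) cf) v.P1 p s)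
    (hp : p ≠ 0) (x : ℝ) : PrG s ((pmdx (r.H (C := C) cf) (rb (r.H cf))).kO p)
      ((pmdx (r.H (C := C) cf) (rb (r.H cf))).kN p) ((pmdx (r.H (C := C) cf) (rb (r.H cf))).vN p)
      (fun b i x => (v.cv cf (C := C)).e p b i.1 x) ((rxm (r.H (C := C) cf)).hN p)
      (v.xN cf (C := C) p s x) x := by
  classical
  obtain ⟨hg, m, hm⟩ := hs.okG
  have hI : ∀ j, InvM X Q C p (s.L j) := fun j => hg.2 j
  have C0 := Cr0_pos
  have T0 := v.θx0 p
  set hasl : ℕ → s.J → Prop := fun l j' => ∃ (i' : X.c.Lam) (x' : ℝ),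
    jv (bN p (s.L j').2) i' x' ≠ 0 ∧ l ∈ pm X.c.t p (s.L j').1 i'.1.1 with hhasl
  have V1 : ∀ (j : s.J) (i : X.c.Lam × Bool),
      (pmdx (r.H (C := C) cf) (rb (r.H cf))).vN p (s.L j) i x ≠ 0 →
      i.2 = true ∧ jv (bN p (s.L j).2) i.1 x ≠ 0 := fun j i hv => by
    obtain ⟨i, t⟩ := i
    cases t
    · exact absurd rfl hv
    · exact ⟨rfl, hv⟩
  obtain ⟨LtP, hLP⟩ : ∃ L : s.J → X.c.Lam × Bool → s.J → Prop, ∀ j i j', L j i j' ↔
    (v.Lc p i.1 ∨ (v.lst p i.1 ≤ v.P1 ∧ hasl (v.lst p i.1) j')) := ⟨_, fun _ _ _ => Iff.rfl⟩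
  refine Pod.prg ⟨fun z z' => z ≠ z', v.θx p, LtP, T0, ?_, ?_, ?_, ?_, ?_⟩
  · intro z a b' j i j' i' e1 e2 _ _ _ _ _ _
    exact (not_not.1 e1).symm.trans (not_not.1 e2)
  · intro z z₁ a j i j' i' e1 e2 _ _ _ _ _ _
    exact (not_not.1 e1).trans (not_not.1 e2).symm
  · intro j i z hv h1 h2
    obtain ⟨-, hj⟩ := V1 j i hv
    obtain ⟨a1, a2⟩ := v.vo (hI j) hp i.1 x hj z h1 h2
    show 14 ≤ (v.cv cf (C := C)).e p (s.L j) i.1 x
    rw [cv_e, ind_on a2]
    have b1 := mul_nonneg (v.V.c0' p) (ind_nonneg (v.V.E' p i.1 (zb X.c p (s.L j).1 x i.1)))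
    have b2 := mul_nonneg (v.Vc.c0' p) (ind_nonneg (v.Vc.E' p i.1 (zb X.c p (s.L j).1 x i.1)))
    linarith
  · intro j i z a hv h1 h2 hne
    obtain ⟨-, hj⟩ := V1 j i hv
    obtain ⟨a1, a2⟩ := v.vr (hI j) hp i.1 x hj z a h1 h2 hne
    have a3 := v.ltx (hI j) hp i.1 x hj z a h1 h2 hne
    show Cr0 * (v.θx p + ∑ j', (if LtP j i j' then s.c j' else 0)) ≤
      (v.cv cf (C := C)).e p (s.L j) i.1 x
    rw [cv_e, ind_on a2]
    have b1 := mul_nonneg (v.Vo.c0' p) (ind_nonneg (v.Vo.E' p i.1 (zb X.c p (s.L j).1 x i.1)))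
    by_cases hL : v.Lc p i.1
    · obtain ⟨a4, a5⟩ := v.vc (hI j) hp i.1 x hj z a h1 h2 hne hL
      rw [ind_on a5]
      have e : ∑ j', (if LtP j i j' then s.c j' else 0) = 1 := by
        rw [← hg.1.c1]
        exact Finset.sum_congr rfl fun j' _ => if_pos ((hLP _ _ _).2 (Or.inl hL))
      rw [e]
      have a6 := v.θx0 p
      have a7 : 0 ≤ Cr0 * v.θx p := mul_nonneg C0.le a6.le
      linarith
    · have b2 := mul_nonneg (v.Vc.c0' p) (ind_nonneg (v.Vc.E' p i.1 (zb X.c p (s.L j).1 x i.1)))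
      have e : ∑ j', (if LtP j i j' then s.c j' else 0) ≤ v.θx p := by
        by_cases hl : v.lst p i.1 ≤ v.P1
        · refine le_trans (le_of_eq ?_) ((hs.rest hl).trans a3)
          refine Finset.sum_congr rfl fun j' _ => ?_
          by_cases h3 : hasl (v.lst p i.1) j'
          · rw [if_pos ((hLP _ _ _).2 (Or.inr ⟨hl, h3⟩)), ch_on h3, mul_one]
          · rw [if_neg fun h5 => by
              rcases (hLP _ _ _).1 h5 with h4 | h4
              exacts [hL h4, h3 h4.2], ch_off h3, mul_zero]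
        · refine le_trans (le_of_eq ?_) T0.le
          refine Finset.sum_eq_zero fun j' _ => if_neg fun h5 => ?_
          rcases (hLP _ _ _).1 h5 with h4 | h4
          exacts [hL h4, hl h4.1]
      have e2 := mul_le_mul_of_nonneg_left e C0.le
      linarith
  · -- second order
    have n0 : ∀ j i, 0 ≤ (pmdx (r.H (C := C) cf) (rb (r.H cf))).vN p (s.L j) i x := fun j i =>
      ((pmdx (r.H (C := C) cf) (rb (r.H cf))).pvN (hI j) hp i).nonneg x
    have jn : ∀ j i, 0 ≤ jv (bN p (s.L j).2) i x := fun j i => n0 j (i, true)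
    refine mul_le_mul_of_nonneg_left (add_le_add ?_ ?_) (div_nonneg C0.le T0.le)
    · -- separated pairs
      unfold Ein
      show M s.c _ ≤ M s.c _
      refine M_mono hg.1.c0 fun j => ?_
      show _ ≤ 2 * ∑ z, ((∑ z', _) ^ 2 - ∑ z', _ ^ 2)
      have h0 : 0 ≤ ∑ z, ((∑ z', flw s ((pmdx (r.H (C := C) cf) (rb (r.H cf))).kO p)
          ((pmdx (r.H (C := C) cf) (rb (r.H cf))).kN p)
          ((pmdx (r.H (C := C) cf) (rb (r.H cf))).vN p) x z z' j) ^ 2 -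
          ∑ z', flw s ((pmdx (r.H (C := C) cf) (rb (r.H cf))).kO p)
          ((pmdx (r.H (C := C) cf) (rb (r.H cf))).kN p)
          ((pmdx (r.H (C := C) cf) (rb (r.H cf))).vN p) x z z' j ^ 2) :=
        Finset.sum_nonneg fun z _ => sub_nonneg.2 (PN36.sum_sq_le _ _ fun z' _ =>
          ((pmdx (r.H (C := C) cf) (rb (r.H cf))).fl.pN (hI j) hp z z').nonneg x)
      refine le_trans (by linarith) (le_of_eq (b := 2 * ∑ z, ((∑ z',
        flw s ((pmdx (r.H (C := C) cf) (rb (r.H cf))).kO p)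
          ((pmdx (r.H (C := C) cf) (rb (r.H cf))).kN p)
          ((pmdx (r.H (C := C) cf) (rb (r.H cf))).vN p) x z z' j) ^ 2 -
          ∑ z', flw s ((pmdx (r.H (C := C) cf) (rb (r.H cf))).kO p)
          ((pmdx (r.H (C := C) cf) (rb (r.H cf))).kN p)
          ((pmdx (r.H (C := C) cf) (rb (r.H cf))).vN p) x z z' j ^ 2)) rfl)
    · -- joined pairs
      unfold Ecr Xg
      refine Finset.sum_le_sum fun j _ => Finset.sum_le_sum fun j' _ => ?_
      by_cases hjj : j = j'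
      · rw [if_pos hjj, if_pos hjj]
      rw [if_neg hjj, if_neg hjj]
      refine mul_le_mul_of_nonneg_left ?_ (mul_nonneg (hg.1.c0 j) (hg.1.c0 j'))
      rw [sum_two]
      refine Finset.sum_le_sum fun i _ => ?_
      have K0 : 0 ≤ ∑ i', v.KX p i i' * jv (bN p (s.L j).2) i x * jv (bN p (s.L j').2) i' x :=
        Finset.sum_nonneg fun i' _ => mul_nonneg (mul_nonneg (v.KX0 p i i') (jn j i)) (jn j' i')
      have e0 : (pmdx (r.H (C := C) cf) (rb (r.H cf))).vN p (s.L j) (i, false) x = 0 := rfl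
      have e1 : (pmdx (r.H (C := C) cf) (rb (r.H cf))).vN p (s.L j) (i, true) x =
        jv (bN p (s.L j).2) i x := rfl
      rw [e0, e1, mul_zero, ite_self, add_zero]
      by_cases hLt : LtP j (i, true) j'
      · rw [if_pos hLt]
        exact K0
      rw [if_neg hLt]
      by_cases v0 : jv (bN p (s.L j).2) i x = 0
      · rw [v0, mul_zero]
        rw [v0] at K0
        exact K0
      show gE _ _ (r.D.tp p (s.L j).1 x i) (r.D.tp (p - 1) (s.L j).1 x i) * _ ≤ _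
      rcases h1 : r.D.tp p (s.L j).1 x i with _ | z
      · show (0:ℝ) * _ ≤ _
        rw [zero_mul]
        exact K0
      rcases h2 : r.D.tp (p - 1) (s.L j).1 x i with _ | z'
      · show (0:ℝ) * _ ≤ _
        rw [zero_mul]
        exact K0
      by_cases hne : z ≠ z'
      · rw [gE_pos (Ev := fun z z' : r.ζ => z ≠ z') hne]
        unfold Ym
        rw [sum_two, Finset.sum_mul]
        refine Finset.sum_le_sum fun i' _ => ?_
        have e2 : (pmdx (r.H (C := C) cf) (rb (r.H cf))).vN p (s.L j') (i', false) x = 0 := rfl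
        have e3 : (pmdx (r.H (C := C) cf) (rb (r.H cf))).vN p (s.L j') (i', true) x =
          jv (bN p (s.L j').2) i' x := rfl
        have k1 : ∀ t, (pmdx (r.H (C := C) cf) (rb (r.H cf))).kO p (s.L j') x (i', t) =
          r.D.tp p (s.L j').1 x i' := fun t => rfl
        have k2 : ∀ t, (pmdx (r.H (C := C) cf) (rb (r.H cf))).kN p (s.L j') x (i', t) =
          r.D.tp (p - 1) (s.L j').1 x i' := fun t => rfl
        simp only [e2, e3, k1, k2, ite_self, add_zero]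
        have q0 : 0 ≤ v.KX p i i' * jv (bN p (s.L j).2) i x * jv (bN p (s.L j').2) i' x :=
          mul_nonneg (mul_nonneg (v.KX0 p i i') (jn j i)) (jn j' i')
        split_ifs with h3
        · by_cases v1 : jv (bN p (s.L j').2) i' x = 0
          · rw [v1, zero_mul, mul_zero]
          have hm1 : (s.L j').1 = (s.L j).1 := by rw [hm j, hm j']
          rcases v.crs (hI j) (hI j') hm1 hp i i' x v0 v1 z z' h1 h2 hne (by rw [← hm1]; exact h3.1)
            (by rw [← hm1]; exact h3.2.1) (by rw [← hm1]; exact h3.2.2)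
            (fun h => hLt ((hLP _ _ _).2 (Or.inl h))) with h4 | h4
          · exact absurd ((hLP _ _ _).2 (Or.inr ⟨h4.1, i', x, v1, by rw [hm1]; exact h4.2⟩)) hLt
          · have := mul_nonneg (jn j i) (jn j' i')
            nlinarith
        · rw [zero_mul]
          exact q0
      · rw [gE_neg (Ev := fun z z' : r.ζ => z ≠ z') hne, zero_mul]
        exact K0

/-- **no price at the ties** -/
theorem prB {s : Gs (Me × List (DT X.c.Lam (LbX X)))} (hs : okL (r.H (C := C) cf) v.P1 p s)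
    (hp : p ≠ 0) (x : ℝ) : PrG s ((pmdx (r.H (C := C) cf) (rb (r.H cf))).kO p)
      ((pmdx (r.H (C := C) cf) (rb (r.H cf))).kR p) ((pmdx (r.H (C := C) cf) (rb (r.H cf))).vB p)
      (fun _ _ _ => 0) ((rxm (r.H (C := C) cf)).hB p) 0 x := by
  classical
  obtain ⟨hg, m, hm⟩ := hs.okG
  have hI : ∀ j, InvM X Q C p (s.L j) := fun j => hg.2 j
  have kk : ∀ (j : s.J) (i : X.c.Lam × Bool),
      (pmdx (r.H (C := C) cf) (rb (r.H cf))).vB p (s.L j) i x ≠ 0 →
      (pmdx (r.H (C := C) cf) (rb (r.H cf))).kR p (s.L j) x i =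
        (pmdx (r.H (C := C) cf) (rb (r.H cf))).kO p (s.L j) x i := fun j i hv => by
    obtain ⟨h1, h2⟩ := RF.tie_ct (hI j) hp hv
    rw [RF.kR_eq]
    exact v.tie (hI j) hp i.1 x h1 h2
  refine Pod.prg ⟨fun _ _ => False, 1, fun _ _ _ => False, one_pos, ?_, ?_, ?_, ?_, ?_⟩
  · intro z a b' j i j' i' _ _ v1 k1 l1 v2 k2 l2
    rw [kk j i v1, k1] at l1
    rw [kk j' i' v2, k2] at l2
    exact Option.some.inj (l1.symm.trans l2)
  · intro z z₁ a j i j' i' _ _ v1 k1 l1 v2 k2 l2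
    rw [kk j i v1, k1] at l1
    rw [kk j' i' v2, k2] at l2
    exact Option.some.inj (l1.trans l2.symm)
  · intro j i z v1 k1 l1
    rw [kk j i v1, k1] at l1
    exact absurd l1 (by simp)
  · intro j i z a _ _ _ h
    exact absurd h id
  · have e1 : Ein s ((pmdx (r.H (C := C) cf) (rb (r.H cf))).kO p)
      ((pmdx (r.H (C := C) cf) (rb (r.H cf))).kR p) ((pmdx (r.H (C := C) cf) (rb (r.H cf))).vB p)
      x = 0 := by
      unfold Ein M
      refine Finset.sum_eq_zero fun j _ => ?_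
      have e2 : ∀ z z', z' ≠ z → Prc49.flw s ((pmdx (r.H (C := C) cf) (rb (r.H cf))).kO p)
          ((pmdx (r.H (C := C) cf) (rb (r.H cf))).kR p)
          ((pmdx (r.H (C := C) cf) (rb (r.H cf))).vB p) x z z' j = 0 := fun z z' hz => by
        unfold Prc49.flw
        rw [fh_eq]
        refine Finset.sum_eq_zero fun i _ => ?_
        split_ifs with h
        · by_contra hv
          have h3 := kk j i hv
          rw [h.1, h.2] at h3
          exact hz (Option.some.inj h3)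
        · rfl
      have e3 : ∀ z, (∑ z', Prc49.flw s ((pmdx (r.H (C := C) cf) (rb (r.H cf))).kO p)
          ((pmdx (r.H (C := C) cf) (rb (r.H cf))).kR p)
          ((pmdx (r.H (C := C) cf) (rb (r.H cf))).vB p) x z z' j) ^ 2 -
          ∑ z', Prc49.flw s ((pmdx (r.H (C := C) cf) (rb (r.H cf))).kO p)
          ((pmdx (r.H (C := C) cf) (rb (r.H cf))).kR p)
          ((pmdx (r.H (C := C) cf) (rb (r.H cf))).vB p) x z z' j ^ 2 = 0 := fun z => by
        rw [Finset.sum_eq_single z (fun z' _ hz => e2 z z' hz)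
          (fun h => absurd (Finset.mem_univ z) h), Finset.sum_eq_single z
          (fun z' _ hz => by rw [e2 z z' hz]; norm_num) (fun h => absurd (Finset.mem_univ z) h)]
        ring
      refine mul_eq_zero_of_right _ ?_
      exact Finset.sum_eq_zero fun z _ => e3 z
    have e4 : Ecr s ((pmdx (r.H (C := C) cf) (rb (r.H cf))).kO p)
      ((pmdx (r.H (C := C) cf) (rb (r.H cf))).kR p) ((pmdx (r.H (C := C) cf) (rb (r.H cf))).vB p)
      (fun _ _ => False) (fun _ _ _ => False) x = 0 := by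
      unfold Ecr
      refine Finset.sum_eq_zero fun j _ => Finset.sum_eq_zero fun j' _ => ?_
      by_cases hj : j = j'
      · rw [if_pos hj]
      rw [if_neg hj]
      have e5 : ∀ (g : r.ζ → r.ζ → ℝ) (a c : Option r.ζ), gE (fun _ _ => False) g a c = 0 := by
        intro g a c
        rcases a with _ | a
        · rfl
        rcases c with _ | c
        · rfl
        exact gE_neg (Ev := fun _ _ : r.ζ => False) (fun h => h)
      rw [Finset.sum_eq_zero fun i _ => ?_, mul_zero]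
      rw [e5, zero_mul, ite_self]
    rw [e1, e4]
    simp

/-- **the prices** -/
noncomputable def prc : Prc (pmdx (r.H (C := C) cf) (rb (r.H cf))) where
  ok := okL (r.H cf) v.P1
  gk := fun h => h.okG.gok
  gs := fun h _ => h.okG.grp
  okC := fun h hp => h.C cf.hQ rfl hp
  okN := fun h hp => h.N cf.hQ hp
  cN := fun p b i x => (v.cv cf).e p b i.1 x
  cB := fun _ _ _ _ => 0
  pcN := fun hb hp i => (v.cv cf).pe hb hp i.1
  pcB := fun _ _ _ => PB.const le_rfl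
  xN := v.xN cf
  xB := fun _ _ _ => 0
  pxN := fun {p s} hs hp => by
    refine PB.smul (PB.add ?_ ?_) (div_nonneg Cr0_pos.le (v.θx0 p).le)
    · exact PB_prs hs.okG.gok.1 fun j z z' => (pmdx (r.H cf) (rb (r.H cf))).fl.pN
        (hs.okG.gok.2 j) hp z z'
    · exact PB_Xg v.KX0 hs.okG.gok.1.c0 fun j => hs.okG.gok.2 j
  pxB := fun _ _ => PB.const le_rfl
  hN := fun hs hp x => v.prN cf hs hp x
  hB := fun hs hp x => v.prB cf hs hp x

end VDat

/-! ### the game -/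

/-- **data of a game over a rule with flags**: prices of the class changes, births of second order `T`,
`Lo`, linear births `Rb`, `Sb`, credits -/
structure GDat (X : Ctx N γ p0 P₀) (Q : NS → IT → Prop) (C : ℝ) (n : ℕ) (cf : CtxF X Q) where
  r : RF X
  Pc : Prc (pmdx (r.H (C := C) cf) (rb (r.H cf)))
  hok : ∀ {p s}, Pc.ok p s → okG (r.H (C := C) cf) p s
  /-- births: second order pairs, N pieces with second order births -/
  T : ℕ → Me × List (DT X.c.Lam (LbX X)) → ℝ → X.c.Lam → X.c.Lam → Prop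
  Lo : ℕ → Me × List (DT X.c.Lam (LbX X)) → ℝ → X.c.Lam → Prop
  mT : ∀ {p b}, InvM X Q C p b → p ≠ 0 → ∀ j i, MP fun y => T p b y j i
  mL : ∀ {p b}, InvM X Q C p b → p ≠ 0 → ∀ i, MP fun y => Lo p b y i
  θ : ℕ → ℝ
  τ : ℕ → ℝ
  θ0 : ∀ p, 0 < θ p
  τ0 : ∀ p, 0 < τ p
  /-- births: linear events of the P and of the N pieces -/
  Rb : ℕ → Me × List (DT X.c.Lam (LbX X)) → ℝ → X.c.Lam → Prop
  Sb : ℕ → Me × List (DT X.c.Lam (LbX X)) → ℝ → X.c.Lam → Prop
  pR : ∀ {p b}, InvM X Q C p b → p ≠ 0 → ∀ y j, Rb p b (y + 1) j = Rb p b y j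
  pS : ∀ {p b}, InvM X Q C p b → p ≠ 0 → ∀ y j, Sb p b (y + 1) j = Sb p b y j
  hX : ∀ {p b}, InvM X Q C p b → p ≠ 0 → ∀ y j i, XX r.D (rhoX X) p b y j i →
    pA (bB p b.2) j y ≠ 0 → pB (bB p b.2) i y ≠ 0 → ¬ T p b y j i → Rb p b y j ∨ Sb p b y i
  hN : ∀ {p b}, InvM X Q C p b → p ≠ 0 → ∀ y j i, r.D.lt p b.1 y j = r.D.lt p b.1 y i →
    r.D.lt p b.1 y j ≠ none → pA (bB p b.2) j y ≠ 0 → pB (bB p b.2) i y ≠ 0 →
    rhoX X p j ≠ rhoX X p i → ¬ T p b y j i → Rb p b y j ∨ Sb p b y i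
  hLS : ∀ {p b}, InvM X Q C p b → p ≠ 0 → ∀ y j k i, XX r.D (rhoX X) p b y j k → T p b y j k →
    pA (bB p b.2) j y ≠ 0 → pB (bB p b.2) k y ≠ 0 → r.D.lt p b.1 y i = r.D.lt p b.1 y j →
    r.D.lt p b.1 y j ≠ none → pB (bB p b.2) i y ≠ 0 → ¬ Lo p b y i → Sb p b y i
  /-- linear and Cauchy-Schwarz credits -/
  Z1 : Cr ((lbX (r.H (C := C) cf)).pv diX)
  Z2 : Cr ((lbX (r.H (C := C) cf)).pv diX)
  payN : ∀ {p b}, InvM X Q C p b → p ≠ 0 → ∀ j x, pG (bB p b.2) j x ≠ 0 →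
    pB (bB p b.2) j (p * x) ≠ 0 → 70 * ch (Sb p b (p * x) j) 1 +
      Pc.cB p b (j, true) x ≤ Z1.r p b j x + Z2.r p b j x
  payP : ∀ {p b}, InvM X Q C p b → p ≠ 0 → ∀ j x, pA (bB p b.2) j (p * x) ≠ 0 →
    vT p (bB p b.2) j x ≠ 0 → 70 * (1 / ((p : ℝ) - 1)) * ch (Rb p b (p * x) j) 1 +
      40 * θ p * (1 / ((p : ℝ) - 1)) + Pc.cB p b (j, true) x ≤ Z1.r p b j x + Z2.r p b j x
  payQ : ∀ {p b}, InvM X Q C p b → p ≠ 0 → ∀ j x, pQ (bB p b.2) j (p * x) ≠ 0 →
    Pc.cB p b (j, false) x ≤ Z1.r p b j x + Z2.r p b j x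
  payR : ∀ {p b}, InvM X Q C p b → p ≠ 0 → ∀ j x, jv (bN p b.2) j x ≠ 0 →
    Pc.cN p b (j, true) x ≤ Z1.e p b j x + Z2.e p b j x
  /-- groups of the lifts and related pieces (E3) -/
  gr : ℕ → X.c.Lam → Option r.ζ × Option r.ζ → Fin n
  hgr : ∀ p i u v, gr p i u = gr p i v → (u.1 = none ↔ v.1 = none)
  R3 : PR Me X.c.Lam
  mR3 : ∀ p m j i, MP fun x => R3 p m x j i

namespace GDat
variable {cf : CtxF X Q} (G : GDat X Q C n cf)

/-- no marks -/
lemma unm {p : ℕ} {b : Me × List (DT X.c.Lam (LbX X))} (_h : InvM X Q C p b) (_hp : p ≠ 0)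
    (z : G.r.ζ) (x : ℝ) : ¬ G.r.D.spc p b z x := fun h => h

/-- rows -/
noncomputable abbrev rows : RowsL (rxm (G.r.H (C := C) cf)) :=
  rowsW (G.r.H cf) (fun h hp => G.unm h hp) G.T G.Lo (fun h hp => G.mT h hp)
    (fun h hp => G.mL h hp)

/-- births -/
noncomputable abbrev Lp : LPr G.Pc.rg G.rows := lprO G.rows G.θ0 G.τ0

/-- the rates of the births -/
noncomputable def eb (p : ℕ) (b : Me × List (DT X.c.Lam (LbX X))) (j : X.c.Lam) (x : ℝ) : ℝ :=
  70 * (1 / ((p : ℝ) - 1) * ch (pA (bB p b.2) j (p * x) ≠ 0 ∧ G.Rb p b (p * x) j) 1 +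
    ch (pG (bB p b.2) j x ≠ 0 ∧ G.Sb p b (p * x) j) 1) +
  40 * G.θ p * (1 / ((p : ℝ) - 1)) * ch (pA (bB p b.2) j (p * x) ≠ 0) 1

/-- **the payments** -/
theorem pay : BPay3L G.Pc.rg G.Lp.bl G.Z1.bch G.Z2.bch (secL G.Pc G.Lp) := by
  refine payX (lbX (G.r.H cf)) diX G.Lp (eb := G.eb) (fun {p b} hb hp y => ?_)
    (fun {p b} hb hp j x hv => ?_) (fun {p b} hb hp j x hv => G.payQ hb hp j x hv)
    (fun {p b} hb hp j x hv => G.payR hb hp j x hv)
  · have hex : ∀ i, pB (bB p b.2) i y ≠ 0 → pA (bB p b.2) i y = 0 := fun i hi => by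
      by_contra hA
      have h1 := pA_ex cf.hQ hb hp hA
      have h2 := pB_ex cf.hQ hb hp hi
      omega
    have h1 := e1_rateW (G.r.H cf) (fun h hp => G.unm h hp) G.T G.Lo (fun h hp => G.mT h hp)
      (fun h hp => G.mL h hp) hb hp (R := G.Rb p b) (S := G.Sb p b) (G.pR hb hp) (G.pS hb hp)
      (y := y) (G.hX hb hp y) (G.hN hb hp y) (G.hLS hb hp y) (fun i hi _ => hex i hi)
    have h2 := yE_rateW (G.r.H cf) (fun h hp => G.unm h hp) G.T G.Lo (fun h hp => G.mT h hp)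
      (fun h hp => G.mL h hp) (D' := G.Pc.rg) G.θ0 G.τ0 hb hp y
    have e1 : Ep p (fun x => 14 * G.rows.e1 p b x + G.Lp.yE p b x) y =
        14 * Ep p (G.rows.e1 p b) y + Ep p (G.Lp.yE p b) y := by
      rw [TyS16.Ep_add', TyS16.Ep_smul']
    rw [e1]
    refine (add_le_add h1 h2).trans (le_of_eq ?_)
    rw [← Finset.sum_add_distrib]
    refine Finset.sum_congr rfl fun j _ => ?_
    rw [← TyS16.Ep_add']
    congr 1
    funext x
    unfold eb
    ring
  · have hb' : InvM X Q C p b := hb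
    have hp0 : 0 < p := Nat.pos_of_ne_zero hp
    have Kk := (G.r.H (C := C) cf).bok hb' hp
    by_cases hg : pG (bB p b.2) j x = 0
    · -- P content
      have hA : pA (bB p b.2) j (p * x) ≠ 0 := by
        intro hA
        apply hv
        rw [vT_eq Kk]
        unfold vF
        rw [hA, hg]
        ring
      have h1 := G.payP hb hp j x hA hv
      unfold eb
      have e1 : ch (pG (bB p b.2) j x ≠ 0 ∧ G.Sb p b (p * x) j) (1 : ℝ) = 0 :=
        ch_off fun h => h.1 hg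
      have e2 : ch (pA (bB p b.2) j (p * x) ≠ 0) (1 : ℝ) = 1 := ch_on hA
      have e3 : ch (pA (bB p b.2) j (p * x) ≠ 0 ∧ G.Rb p b (p * x) j) (1 : ℝ) =
          ch (G.Rb p b (p * x) j) 1 := ch_congr ⟨fun h => h.2, fun h => ⟨hA, h⟩⟩
      rw [e1, e2, e3]
      linarith
    · -- N content
      have hB : pB (bB p b.2) j (p * x) ≠ 0 := pG_supp Kk hp0 hg
      have hA : pA (bB p b.2) j (p * x) = 0 := by
        by_contra hA
        have h1 := pA_ex cf.hQ hb' hp hA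
        have h2 := pB_ex cf.hQ hb' hp hB
        omega
      have h1 := G.payN hb hp j x hg hB
      unfold eb
      have e1 : ch (pG (bB p b.2) j x ≠ 0 ∧ G.Sb p b (p * x) j) (1 : ℝ) =
          ch (G.Sb p b (p * x) j) 1 := ch_congr ⟨fun h => h.2, fun h => ⟨hg, h⟩⟩
      have e2 : ch (pA (bB p b.2) j (p * x) ≠ 0) (1 : ℝ) = 0 := ch_off fun h => h hA
      have e3 : ch (pA (bB p b.2) j (p * x) ≠ 0 ∧ G.Rb p b (p * x) j) (1 : ℝ) = 0 :=
        ch_off fun h => h.1 hA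
      rw [e1, e2, e3]
      linarith

/-- **the game** -/
noncomputable def gm : Gm X Q C n where
  ζ := G.r.ζ
  D := G.r.D
  tu := rfl
  H := G.r.H cf
  Pc := G.Pc
  hok := G.hok
  rows := G.rows
  Lp := G.Lp
  Z1 := G.Z1
  Z2 := G.Z2
  pay := G.pay
  gr := G.gr
  hgr := G.hgr
  R3 := G.R3
  mR3 := G.mR3
  sd := sdX X
  hsd := fun h hp => sd_InvM cf.hQ h hp

end GDat

/-! ### the game with linear prices only -/

/-- **linear prices**: `V` events of the moved pieces (`E` ties, `E'` rests), `W` events of the births -/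
structure LDat (X : Ctx N γ p0 P₀) (Q : NS → IT → Prop) (C : ℝ) (n : ℕ) (cf : CtxF X Q) where
  r : RF X
  T : ℕ → Me × List (DT X.c.Lam (LbX X)) → ℝ → X.c.Lam → X.c.Lam → Prop
  Lo : ℕ → Me × List (DT X.c.Lam (LbX X)) → ℝ → X.c.Lam → Prop
  mT : ∀ {p b}, InvM X Q C p b → p ≠ 0 → ∀ j i, MP fun y => T p b y j i
  mL : ∀ {p b}, InvM X Q C p b → p ≠ 0 → ∀ i, MP fun y => Lo p b y i
  θ : ℕ → ℝ
  τ : ℕ → ℝ
  θ0 : ∀ p, 0 < θ p
  τ0 : ∀ p, 0 < τ p
  Rb : ℕ → Me × List (DT X.c.Lam (LbX X)) → ℝ → X.c.Lam → Prop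
  Sb : ℕ → Me × List (DT X.c.Lam (LbX X)) → ℝ → X.c.Lam → Prop
  pR : ∀ {p b}, InvM X Q C p b → p ≠ 0 → ∀ y j, Rb p b (y + 1) j = Rb p b y j
  pS : ∀ {p b}, InvM X Q C p b → p ≠ 0 → ∀ y j, Sb p b (y + 1) j = Sb p b y j
  hX : ∀ {p b}, InvM X Q C p b → p ≠ 0 → ∀ y j i, XX r.D (rhoX X) p b y j i →
    pA (bB p b.2) j y ≠ 0 → pB (bB p b.2) i y ≠ 0 → ¬ T p b y j i → Rb p b y j ∨ Sb p b y i
  hN : ∀ {p b}, InvM X Q C p b → p ≠ 0 → ∀ y j i, r.D.lt p b.1 y j = r.D.lt p b.1 y i →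
    r.D.lt p b.1 y j ≠ none → pA (bB p b.2) j y ≠ 0 → pB (bB p b.2) i y ≠ 0 →
    rhoX X p j ≠ rhoX X p i → ¬ T p b y j i → Rb p b y j ∨ Sb p b y i
  hLS : ∀ {p b}, InvM X Q C p b → p ≠ 0 → ∀ y j k i, XX r.D (rhoX X) p b y j k → T p b y j k →
    pA (bB p b.2) j y ≠ 0 → pB (bB p b.2) k y ≠ 0 → r.D.lt p b.1 y i = r.D.lt p b.1 y j →
    r.D.lt p b.1 y j ≠ none → pB (bB p b.2) i y ≠ 0 → ¬ Lo p b y i → Sb p b y i
  /-- class changes -/
  v : VDat X Q C r
  /-- events of the births -/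
  ι : Type
  W : ι → Evs X.c.Lam
  l : List ι
  wN : ∀ {p b}, InvM X Q C p b → p ≠ 0 → ∀ j x, pG (bB p b.2) j x ≠ 0 →
    pB (bB p b.2) j (p * x) ≠ 0 → 70 * ch (Sb p b (p * x) j) 1 ≤
      (l.map fun i => (W i).c p * ind ((W i).E p j (zb X.c p b.1 x j))).sum
  wP : ∀ {p b}, InvM X Q C p b → p ≠ 0 → ∀ j x, pA (bB p b.2) j (p * x) ≠ 0 →
    vT p (bB p b.2) j x ≠ 0 → 70 * (1 / ((p : ℝ) - 1)) * ch (Rb p b (p * x) j) 1 +
      40 * θ p * (1 / ((p : ℝ) - 1)) ≤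
      (l.map fun i => (W i).c p * ind ((W i).E p j (zb X.c p b.1 x j))).sum
  gr : ℕ → X.c.Lam → Option r.ζ × Option r.ζ → Fin n
  hgr : ∀ p i u v, gr p i u = gr p i v → (u.1 = none ↔ v.1 = none)
  R3 : PR Me X.c.Lam
  mR3 : ∀ p m j i, MP fun x => R3 p m x j i

namespace LDat
variable {cf : CtxF X Q} (G : LDat X Q C n cf)

/-- credits of the class changes -/
noncomputable abbrev cv : Cr ((lbX (G.r.H (C := C) cf)).pv diX) := G.v.cv cf

/-- credits of the births -/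
noncomputable abbrev cw : Cr ((lbX (G.r.H (C := C) cf)).pv diX) :=
  crS (fun i => crX (G.r.H cf) rfl cf.hQ cf.hd1 (G.W i)) G.l

lemma pQ_vT {p : ℕ} {b : Me × List (DT X.c.Lam (LbX X))} (h : InvM X Q C p b) (hp : p ≠ 0)
    {j : X.c.Lam} {x : ℝ} (hv : vT p (bB p b.2) j x ≠ 0) : jv (bB p b.2) j x ≠ 0 := by
  have hp0 : 0 < p := Nat.pos_of_ne_zero hp
  have a1 := vT_nonneg h.kok hp0 j x
  have a2 : 0 ≤ TD.pQx p (bB p b.2) j x := (h.kok.PQ j).nonneg _
  have a3 := vTp_jv (p := p) (bB p b.2) j x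
  intro e
  exact hv (by linarith)

/-- the sum of the charges at a tie -/
lemma cw_r {p : ℕ} {b : Me × List (DT X.c.Lam (LbX X))} (h : InvM X Q C p b) (hp : p ≠ 0)
    {j : X.c.Lam} {x : ℝ} (hv : vT p (bB p b.2) j x ≠ 0) : G.cw.r p b j x =
    (G.l.map fun i => (G.W i).c p * ind ((G.W i).E p j (zb X.c p b.1 x j))).sum := by
  unfold cw
  rw [crS_r]
  congr 1
  refine List.map_congr_left fun i _ => ?_
  rw [crX_r, if_pos (vT_TT cf.hQ h hp h.kok hv)]

/-- **the data of the game** -/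
noncomputable def gd : GDat X Q C n cf where
  r := G.r
  Pc := G.v.prc cf
  hok := fun h => h.okG
  T := G.T
  Lo := G.Lo
  mT := fun h hp => G.mT h hp
  mL := fun h hp => G.mL h hp
  θ := G.θ
  τ := G.τ
  θ0 := G.θ0
  τ0 := G.τ0
  Rb := G.Rb
  Sb := G.Sb
  pR := fun h hp => G.pR h hp
  pS := fun h hp => G.pS h hp
  hX := fun h hp => G.hX h hp
  hN := fun h hp => G.hN h hp
  hLS := fun h hp => G.hLS h hp
  Z1 := crA G.cv G.cw
  Z2 := crZ _
  payN := fun {p b} hb hp j x hg hB => by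
    have hv : vT p (bB p b.2) j x ≠ 0 := by
      have hA : pA (bB p b.2) j (p * x) = 0 := by
        by_contra hA
        have h1 := pA_ex cf.hQ hb hp hA
        have h2 := pB_ex cf.hQ hb hp hB
        omega
      rw [← pG_le_vT (G.r.H (C := C) cf) hb hp hA]
      exact hg
    have h1 := G.wN hb hp j x hg hB
    rw [← G.cw_r hb hp hv] at h1
    have h2 := (G.cv.pr hb hp j).nonneg x
    show 70 * ch (G.Sb p b (p * x) j) 1 + 0 ≤ (G.cv.r p b j x + G.cw.r p b j x) + 0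
    linarith
  payP := fun {p b} hb hp j x hA hv => by
    have h1 := G.wP hb hp j x hA hv
    rw [← G.cw_r hb hp hv] at h1
    have h2 := (G.cv.pr hb hp j).nonneg x
    show 70 * (1 / ((p : ℝ) - 1)) * ch (G.Rb p b (p * x) j) 1 +
      40 * G.θ p * (1 / ((p : ℝ) - 1)) + 0 ≤ (G.cv.r p b j x + G.cw.r p b j x) + 0
    linarith
  payQ := fun {p b} hb hp j x hq => by
    show (0:ℝ) ≤ (G.cv.r p b j x + G.cw.r p b j x) + 0
    have h1 := (G.cv.pr hb hp j).nonneg x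
    have h2 := (G.cw.pr hb hp j).nonneg x
    linarith
  payR := fun {p b} hb hp j x hj => by
    show G.cv.e p b j x ≤ (G.cv.e p b j x + G.cw.e p b j x) + 0
    have h2 := (G.cw.pe hb hp j).nonneg x
    linarith
  gr := G.gr
  hgr := G.hgr
  R3 := G.R3
  mR3 := G.mR3

/-- **the second order part of the class changes** -/
theorem vX_eq (u : NS) (τ : IT) (k : ℕ) : G.gd.gm.vX u τ k =
    Crest.Agent.R4P.GSK55.Kw (bm G.gd.gm.R) (fun p s => I (G.v.xN cf p s)) k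
      (X.self u τ Finset.univ).p (GSK55.one (b₀ X u τ)) := by
  unfold Gm.vX
  congr 1
  funext p s
  show I (G.v.xN cf p s) + I (fun _ => 0) = _
  simp [I]

/-- no Cauchy-Schwarz credits -/
theorem vCS_zero (u : NS) (τ : IT) : G.gd.gm.vCS u τ = 0 := by
  unfold Gm.vCS
  have e : ∀ (p : ℕ) (b : Me × List (DT X.c.Lam (LbX X))) (x : ℝ),
      G.gd.gm.Z2.bch.Y p b x = 0 := by
    intro p b x
    show ∑ j, (0:ℝ) * _ = 0
    simp
  have e1 : ∀ (p : ℕ) (b : Me × List (DT X.c.Lam (LbX X))),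
      G.gd.gm.Z2.bch.Y p b = fun _ => 0 := fun p b => funext fun x => e p b x
  rw [e1]
  simp [I]

end LDat

end game

end Crest.Agent.R4P.AsC407
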