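import Crest.Agent.R4P.E3X_479

/-!
R4 (S0004) with powers, T3, helper479 (PLAN v1, D1): **the jumps of the telescope E3V and the direct
pairs, reduced to energies of PAIRS OF NODES**.

* `lin e V = Σ_j ∫ e_j V_j` : linear charges; `qe_fin` : a relation with a point is a set of pairs.
* `nR`, `tR`, `xR` : the pairs at the rests, at the ties (two N pieces), below the ties (one N piece, one
  piece with one factor `p` left).
* `rest_red`, `tie_red`, `mix_red` : from nodes to bundles.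
* **`JIn`** : the inputs (energies of pairs of nodes with linear rates), pairs `G` (rests, ties), `Gx`
  (below the ties) excepted; `gP` : the pairs of the exceptions (group form); **`pair_le`** : a pair of
  bundles; `okE` : good group states; **`Kw_JIn`** : the walk sum of the jumps and direct pairs.
-/

set_option autoImplicit false
set_option linter.unusedSectionVars false
set_option linter.unusedVariables false
open MeasureTheory Filter Set

namespace Crest.Agent.R4P.E3Y479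

open Crest.Agent.R4.Tour104 Crest.Agent.R4.Tour758 Crest.Agent.R4.Avg758 Crest.Agent.R4.Clos758
open Crest.Agent.R4P.Cnt588 Crest.Agent.R4P.Item758 Crest.Agent.R4P.W363
open Crest.Agent.R4P.Data758
open Crest.Agent.R4P.Bld532 (NS All NodeOk Bk dv nd farS nearS mem_dv mem_nd mem_farS mem_nearS)
open Crest.Agent.R4P.WalkIT579 (tp isL toDT_top toDT_leaf)
open Crest.Agent.R4P.StratN36 (ex)
open Crest.Agent.R4P.Step588 Crest.Agent.R4P.RseSt23
open Crest.Agent.R4P.DTp26 Crest.Agent.R4P.DTm407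
open Crest.Agent.R4P.TYI47 Crest.Agent.R4P.TYJ47 Crest.Agent.R4P.TYK47
open Crest.Agent.R4P.TYP9 Crest.Agent.R4P.RsT47
open Crest.Agent.R4P.Walk560 (DT WrN)
open Crest.Agent.R4P.Skel189 Crest.Agent.R4P.Frame758
open Crest.Agent.R4.Soft104 Crest.Agent.R4.Fam464
open Crest.Agent.R4P.StratX36 hiding mm
open Crest.Agent.R4P.TopX36
open Crest.Agent.R4P.GWa343 Crest.Agent.R4P.GWb343 Crest.Agent.R4P.GWc343 Crest.Agent.R4P.GWf343
open Crest.Agent.R4P.TrR343 Crest.Agent.R4P.XEx29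
open Crest.Agent.R4P.Grp36 Crest.Agent.R4P.Bp407 Crest.Agent.R4P.VR407
open Crest.Agent.R4P.GCol27 (wT)
open Crest.Agent.R4P.PairX41 Crest.Agent.R4P.CrZ41
open Crest.Agent.R4P.PayR45 (BM PV BCh)
open Crest.Agent.R4P.PVe45 (Cr LB)
open Crest.Agent.R4P.PVd45 (DI)
open Crest.Agent.R4P.RSys343 Crest.Agent.R4P.RXm55 Crest.Agent.R4P.MSm25
open Crest.Agent.R4P.GSK55 (Kw)
open Crest.Agent.R4P.MSi343 (su)
open Crest.Agent.R4P.E3E479 Crest.Agent.R4P.E3P479
open Crest.Agent.R4P.E3V479 Crest.Agent.R4P.E3W479 Crest.Agent.R4P.E3F479 Crest.Agent.R4P.E3X479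
open Crest.Agent.R4P.GPair33 (vN)

/-! ### tools -/

section tools
variable {Λ : Type} [Fintype Λ] {R S W : ℝ → Λ → Λ → Prop} {V V' U U' : Λ → ℝ → ℝ} {x : ℝ}

/-- **linear charge** -/
noncomputable def lin (e V : Λ → ℝ → ℝ) : ℝ := ∑ j, I (fun x => e j x * V j x)

lemma lin_nonneg {e : Λ → ℝ → ℝ} (he : ∀ j, PB (e j)) (hV : ∀ j, PB (V j)) : 0 ≤ lin e V :=
  Finset.sum_nonneg fun j _ => I_nonneg fun x => mul_nonneg ((he j).nonneg x) ((hV j).nonneg x)

lemma lin_mono {e e' : Λ → ℝ → ℝ} (he : ∀ j, PB (e j)) (hV : ∀ j, PB (V j)) (he' : ∀ j, PB (e' j))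
    (hV' : ∀ j, PB (V' j)) (h : ∀ j x, V j x ≠ 0 → e j x * V j x ≤ e' j x * V' j x) :
    lin e V ≤ lin e' V' := by
  refine Finset.sum_le_sum fun j _ => I_mono ((he j).mul (hV j)).integrableOn
    ((he' j).mul (hV' j)).integrableOn fun x => ?_
  by_cases h0 : V j x = 0
  · rw [h0, mul_zero]
    exact mul_nonneg ((he' j).nonneg x) ((hV' j).nonneg x)
  · exact h j x h0

lemma lin_add {e e' : Λ → ℝ → ℝ} (he : ∀ j, PB (e j)) (he' : ∀ j, PB (e' j)) (hV : ∀ j, PB (V j)) :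
    lin (fun j x => e j x + e' j x) V = lin e V + lin e' V := by
  unfold lin
  rw [← Finset.sum_add_distrib]
  refine Finset.sum_congr rfl fun j _ => ?_
  rw [← I_add ((he j).mul (hV j)).integrableOn ((he' j).mul (hV j)).integrableOn]
  congr 1
  funext x
  ring

lemma lin_smul (c : ℝ) (e V : Λ → ℝ → ℝ) : lin (fun j x => c * e j x) V = c * lin e V := by
  unfold lin
  rw [Finset.mul_sum]
  refine Finset.sum_congr rfl fun j _ => ?_
  rw [← I_smul]
  congr 1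
  funext x
  ring

lemma lin_smul' (c : ℝ) (e V : Λ → ℝ → ℝ) : lin e (fun j x => c * V j x) = c * lin e V := by
  unfold lin
  rw [Finset.mul_sum]
  refine Finset.sum_congr rfl fun j _ => ?_
  rw [← I_smul]
  congr 1
  funext x
  ring

lemma lin_zero (e : Λ → ℝ → ℝ) : lin e (fun _ _ => 0) = 0 := by
  unfold lin
  refine Finset.sum_eq_zero fun j _ => ?_
  have : (fun x => e j x * (0:ℝ)) = fun _ => 0 := funext fun x => mul_zero _
  rw [this]
  unfold I
  simp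

lemma qe_congr (h : ∀ j i, R x j i → V j x * U i x = V' j x * U' i x) :
    qe R V U x = qe R V' U' x := by
  classical
  unfold qe
  refine Finset.sum_congr rfl fun j _ => Finset.sum_congr rfl fun i _ => ?_
  by_cases hr : R x j i
  · rw [if_pos hr, if_pos hr, h j i hr]
  · rw [if_neg hr, if_neg hr]

lemma qe_zero (h : ∀ j i, R x j i → V j x * U i x = 0) : qe R V U x = 0 := by
  classical
  unfold qe
  refine Finset.sum_eq_zero fun j _ => Finset.sum_eq_zero fun i _ => ?_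
  by_cases hr : R x j i
  · rw [if_pos hr, h j i hr]
  · rw [if_neg hr]

lemma qe_swap : qe (fun x j i => R x i j) V U x = qe R U V x := by
  classical
  unfold qe
  rw [Finset.sum_comm]
  refine Finset.sum_congr rfl fun j _ => Finset.sum_congr rfl fun i _ => ?_
  split_ifs
  · ring
  · rfl

/-- larger on the pairs of the relation -/
lemma qe_le (hV : ∀ j, 0 ≤ V j x) (hU : ∀ j, 0 ≤ U j x) (hV' : ∀ j, 0 ≤ V' j x)
    (hU' : ∀ j, 0 ≤ U' j x)
    (h : ∀ j i, V j x ≠ 0 → U i x ≠ 0 → R x j i → S x j i ∧ V j x ≤ V' j x ∧ U i x ≤ U' i x) :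
    qe R V U x ≤ qe S V' U' x := by
  classical
  unfold qe
  refine Finset.sum_le_sum fun j _ => Finset.sum_le_sum fun i _ => ?_
  have n0 : 0 ≤ if S x j i then V' j x * U' i x else 0 := by
    split_ifs
    · exact mul_nonneg (hV' j) (hU' i)
    · exact le_rfl
  by_cases hr : R x j i
  · by_cases hj : V j x = 0
    · rw [hj, zero_mul, ite_self]; exact n0
    by_cases hi : U i x = 0
    · rw [hi, mul_zero, ite_self]; exact n0
    obtain ⟨h1, h2, h3⟩ := h j i hj hi hr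
    rw [if_pos hr, if_pos h1]
    exact mul_le_mul h2 h3 (hU i) (hV' j)
  · rw [if_neg hr]; exact n0

lemma qe_smul1 (a : ℝ) : qe R (fun j x => a * V j x) U x = a * qe R V U x := by
  classical
  unfold qe
  simp only [Finset.mul_sum]
  refine Finset.sum_congr rfl fun j _ => Finset.sum_congr rfl fun i _ => ?_
  split_ifs <;> ring

open Classical in
/-- **a relation with a point as a set of pairs** -/
lemma qe_Q (hR : ∀ j i, MP fun x => R x j i) (hV : ∀ j, PB (V j)) (hU : ∀ j, PB (U j)) :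
    I (qe R V U) ≤ Q (Finset.univ.filter fun e : Λ × Λ =>
      ∃ x, R x e.1 e.2 ∧ V e.1 x ≠ 0 ∧ U e.2 x ≠ 0) V U := by
  classical
  unfold Q
  rw [← I_sum _ fun e _ => ((hV e.1).mul (hU e.2)).integrableOn]
  refine I_mono (PB_qe hR hV hU).integrableOn
    (PB.sum _ fun e _ => (hV e.1).mul (hU e.2)).integrableOn fun x => ?_
  rw [Finset.sum_filter, ← Finset.univ_product_univ, Finset.sum_product]
  unfold qe
  refine Finset.sum_le_sum fun j _ => Finset.sum_le_sum fun i _ => ?_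
  have n0 := mul_nonneg ((hV j).nonneg x) ((hU i).nonneg x)
  by_cases hr : R x j i
  · by_cases hj : V j x = 0
    · rw [hj, zero_mul, ite_self, ite_self]
    by_cases hi : U i x = 0
    · rw [hi, mul_zero, ite_self, ite_self]
    rw [if_pos hr, if_pos (show ∃ x, R x j i ∧ V j x ≠ 0 ∧ U i x ≠ 0 from ⟨x, hr, hj, hi⟩)]
  · rw [if_neg hr]
    split_ifs
    · exact n0
    · exact le_rfl

end tools

/-! ### bundles -/

section ctx
variable {N : Skel189.Num} {γ : ℝ} {p0 P₀ : ℕ} {X : Ctx N γ p0 P₀} {Q : NS → IT → Prop} {C : ℝ}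
  {p : ℕ} {b b' : Me × List (DT X.c.Lam (LbX X))}

lemma I_zero : I (fun _ => (0:ℝ)) = 0 := by unfold I; simp

lemma pbN (h : InvM X Q C p b) (hp : p ≠ 0) (j : X.c.Lam) : PB (jv (bN p b.2) j) :=
  PB_jv (diX.pb (diX.toR h.bi hp)).self j

/-- **THE REST** -/
theorem rest_red (hQ : ∀ u τ, Q u τ → NDt X.par (w X.ψ) X.c.t u τ) (h : InvM X Q C p b)
    (h' : InvM X Q C p b') (hm : b'.1 = b.1) (hp : p ≠ 0) {W : ℝ → X.c.Lam → X.c.Lam → Prop}
    {e : X.c.Lam → ℝ → ℝ} (he : ∀ j, PB (e j))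
    (hin : ∀ u τ u' τ', RtX X Q p b.1 u τ → RtX X Q p b.1 u' τ' → tp τ < p → tp τ' < p →
      ¬ isL τ → ¬ isL τ' → I (qe W (vN X (.inl (u, τ))) (vN X (.inl (u', τ')))) ≤
        lin e (vN X (.inl (u, τ))) + lin e (vN X (.inl (u', τ')))) :
    I (qe W (jv (bN p b.2)) (jv (bN p b'.2))) ≤ lin e (jv (bN p b.2)) + lin e (jv (bN p b'.2)) := by
  have n1 := lin_nonneg he fun j => pbN h hp j
  have n2 := lin_nonneg he fun j => pbN h' hp j
  rcases rest_one hQ h hp with h0 | ⟨u, τ, hu, k1, k2, k3⟩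
  · have e0 : qe W (jv (bN p b.2)) (jv (bN p b'.2)) = fun _ => 0 := funext fun x =>
      qe_zero fun j i _ => by rw [h0 j x, zero_mul]
    rw [e0, I_zero]
    linarith
  rcases rest_one hQ h' hp with h0 | ⟨u', τ', hu', k1', k2', k3'⟩
  · have e0 : qe W (jv (bN p b.2)) (jv (bN p b'.2)) = fun _ => 0 := funext fun x =>
      qe_zero fun j i _ => by rw [h0 i x, mul_zero]
    rw [e0, I_zero]
    linarith
  have e1 : jv (bN p b.2) = vN X (.inl (u, τ)) := funext fun j => funext fun x => k3 j x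
  have e2 : jv (bN p b'.2) = vN X (.inl (u', τ')) := funext fun j => funext fun x => k3' j x
  rw [hm] at hu'
  rw [e1, e2]
  exact hin u τ u' τ' hu hu' k1 k1' k2 k2'

lemma pbB (h : InvM X Q C p b) (j : X.c.Lam) : PB (jv (bB p b.2) j) :=
  PB_jv ((diX.pb h.bi).bB p).self j

/-- content of an N piece without a tie -/
lemma N_zero (hQ : ∀ u τ, Q u τ → NDt X.par (w X.ψ) X.c.t u τ) (h : InvM X Q C p b) (hp : p ≠ 0)
    {kd : X.c.Lam → LbX X} (hK : KOk kd p (bB p b.2)) (h0 : ∀ j x, pG (bB p b.2) j x = 0)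
    {j : X.c.Lam} (hj : sdX X p b.1 j) (x : ℝ) : jv (bB p b.2) j x = 0 := by
  have hp0 : 0 < p := Nat.pos_of_ne_zero hp
  have h1 := (sd_InvM hQ h hp j (p * x)).1 hj
  have h2 := jv_N hK hp0 h1.1 h1.2 0 hp0
  have e : ((p : ℝ) * x + ((0 : ℕ) : ℝ)) / p = x := by
    have : (p : ℝ) ≠ 0 := by exact_mod_cast hp
    rw [Nat.cast_zero, add_zero]
    field_simp
  rw [e] at h2
  rw [h2, h0]

/-- **THE TIES, two N pieces** -/
theorem tie_red (hQ : ∀ u τ, Q u τ → NDt X.par (w X.ψ) X.c.t u τ) (h : InvM X Q C p b)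
    (h' : InvM X Q C p b') (hm : b'.1 = b.1) (hp : p ≠ 0) {kd : X.c.Lam → LbX X}
    (hK : KOk kd p (bB p b.2)) (hK' : KOk kd p (bB p b'.2)) {W : ℝ → X.c.Lam → X.c.Lam → Prop}
    (hW : ∀ x j i, W x j i → sdX X p b.1 j ∧ sdX X p b.1 i)
    {r : X.c.Lam → ℝ → ℝ} (hr : ∀ j, PB (r j))
    (hin : ∀ s Sp t₁ t₀ s' Sp' t₁' t₀', RtX X Q p b.1 s (.br p Sp t₁ t₀) →
      RtX X Q p b.1 s' (.br p Sp' t₁' t₀') →
      I (qe W (vN X (.inl (s, .br p Sp t₁ t₀))) (vN X (.inl (s', .br p Sp' t₁' t₀')))) ≤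
        lin r (vN X (.inl (s, .br p Sp t₁ t₀))) + lin r (vN X (.inl (s', .br p Sp' t₁' t₀')))) :
    I (qe W (jv (bB p b.2)) (jv (bB p b'.2))) ≤ lin r (jv (bB p b.2)) + lin r (jv (bB p b'.2)) := by
  have n1 := lin_nonneg hr fun j => pbB h j
  have n2 := lin_nonneg hr fun j => pbB h' j
  rcases tie_one hQ h hp with h0 | ⟨s, Sp, t₁, t₀, T⟩
  · have e0 : qe W (jv (bB p b.2)) (jv (bB p b'.2)) = fun _ => 0 := funext fun x =>
      qe_zero fun j i hr => by
        rw [N_zero hQ h hp hK (fun j x => (h0 j x).2.2) (hW x j i hr).1 x, zero_mul]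
    rw [e0, I_zero]
    linarith
  rcases tie_one hQ h' hp with h0 | ⟨s', Sp', t₁', t₀', T'⟩
  · have e0 : qe W (jv (bB p b.2)) (jv (bB p b'.2)) = fun _ => 0 := funext fun x =>
      qe_zero fun j i hr => by
        rw [N_zero hQ h' hp hK' (fun j x => (h0 j x).2.2) (by rw [hm]; exact (hW x j i hr).2) x,
          mul_zero]
    rw [e0, I_zero]
    linarith
  rw [hm] at T'
  have e1 : qe W (jv (bB p b.2)) (jv (bB p b'.2)) =
      qe W (vN X (.inl (s, .br p Sp t₁ t₀))) (vN X (.inl (s', .br p Sp' t₁' t₀'))) :=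
    funext fun x => qe_congr fun j i hr => by
      rw [T.N j x (hW x j i hr).1, T'.N i x (hW x j i hr).2]
  rw [e1]
  refine (hin s Sp t₁ t₀ s' Sp' t₁' t₀' T.hs T'.hs).trans (add_le_add ?_ ?_)
  · exact lin_mono hr (fun j => GPair33.PB_vN_inl (hQ _ _ T.hs.1.rm.all.self) j) hr
      (fun j => pbB h j) fun j x _ => mul_le_mul_of_nonneg_left (T.le j x) ((hr j).nonneg x)
  · exact lin_mono hr (fun j => GPair33.PB_vN_inl (hQ _ _ T'.hs.1.rm.all.self) j) hr
      (fun j => pbB h' j) fun j x _ => mul_le_mul_of_nonneg_left (T'.le j x) ((hr j).nonneg x)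

open Classical in
/-- rates of a set of pieces -/
noncomputable def cut {Λ : Type} (P : Λ → Prop) (a : Λ → ℝ → ℝ) : Λ → ℝ → ℝ := fun j y =>
  if P j then a j y else 0

lemma PB_cut {Λ : Type} {P : Λ → Prop} {a : Λ → ℝ → ℝ} (ha : ∀ j, PB (a j)) (j : Λ) :
    PB (cut P a j) := by
  by_cases h : P j
  · have e : cut P a j = a j := funext fun y => if_pos h
    rw [e]; exact ha j
  · have e : cut P a j = fun _ => 0 := funext fun y => if_neg h
    rw [e]; exact PB.const le_rfl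

/-- one factor `p` left -/
def nx (X : Ctx N γ p0 P₀) (p : ℕ) (m : Me) (j : X.c.Lam) : Prop :=
  ex p j.1.1 = TYJ47.cnt p m.1 + 1

/-- the N child -/
def kN (p : ℕ) (s : NS) : NS := ⟨p, s.c * p, s.A, s.B * p⟩

lemma pmm (h : InvM X Q C p b) (hp : p ≠ 0) {kd : X.c.Lam → LbX X} (hK : KOk kd p (bB p b.2))
    (j : X.c.Lam) : PB (mm p (bB p b.2) j) := PB_mm hK (Nat.pos_of_ne_zero hp) j

lemma mm_eq {kd : X.c.Lam → LbX X} (hK : KOk kd p (bB p b.2)) (j : X.c.Lam) (y : ℝ) :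
    mm p (bB p b.2) j y = (1 - 1 / (p : ℝ)) * (pA (bB p b.2) j y + pQ (bB p b.2) j y) +
      1 / (p : ℝ) * (pB (bB p b.2) j y + pQ (bB p b.2) j y) := by
  unfold mm
  rw [jv_chP hK, jv_chN hK]

/-- **BELOW THE TIES, one N piece, one piece with one factor `p` left** -/
theorem mix_red (hQ : ∀ u τ, Q u τ → NDt X.par (w X.ψ) X.c.t u τ) (h : InvM X Q C p b)
    (h' : InvM X Q C p b') (hm : b'.1 = b.1) (hp : p ≠ 0) (hE' : ED X p b'.2)
    {kd : X.c.Lam → LbX X} (hK : KOk kd p (bB p b.2)) (hK' : KOk kd p (bB p b'.2))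
    {W : ℝ → X.c.Lam → X.c.Lam → Prop} (mW : ∀ j i, MP fun y => W y j i)
    (hW : ∀ y j i, W y j i → sdX X p b.1 j ∧ nx X p b.1 i)
    {aN aP : X.c.Lam → ℝ → ℝ} (hN : ∀ j, PB (aN j)) (hP : ∀ j, PB (aP j))
    (hin : ∀ s Sp t₁ t₀ u' τ', RtX X Q p b.1 s (.br p Sp t₁ t₀) →
      RtX X Q p (tuM p b.1) (kN p s) t₀ → RtX X Q p (tuM p b.1) u' τ' → p ∣ u'.A →
      I (qe W (vN X (.inl (kN p s, t₀))) (vN X (.inl (u', τ')))) ≤
        lin aN (vN X (.inl (kN p s, t₀))) +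
          p * lin (cut (nx X p b.1) aP) (vN X (.inl (u', τ')))) :
    I (qe W (mm p (bB p b.2)) (mm p (bB p b'.2))) ≤
      lin aN (mm p (bB p b.2)) + 2 * lin (cut (nx X p b.1) aP) (mm p (bB p b'.2)) := by
  have hp0 : 0 < p := Nat.pos_of_ne_zero hp
  have hpr : (0 : ℝ) < p := by exact_mod_cast hp0
  have hp1 : (1 : ℝ) ≤ p := by exact_mod_cast hp0
  have w1 : (0:ℝ) ≤ 1 - 1 / p := by
    have : (1:ℝ) / p ≤ 1 := by rw [div_le_one hpr]; exact hp1
    linarith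
  have w0 : (0:ℝ) ≤ 1 / p := by positivity
  have pm := fun j => pmm h hp hK j
  have pm' := fun j => pmm h' hp hK' j
  have pc := fun j => PB_cut (P := nx X p b.1) hP j
  have n1 := lin_nonneg hN pm
  have n2 := lin_nonneg pc pm'
  rcases tie_one hQ h hp with h0 | ⟨s, Sp, t₁, t₀, T⟩
  · have e0 : qe W (mm p (bB p b.2)) (mm p (bB p b'.2)) = fun _ => 0 := funext fun y =>
      qe_zero fun j i hr => by
        have h1 := (sd_InvM hQ h hp j y).1 (hW y j i hr).1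
        rw [mm_eq hK, h1.1, h1.2, (h0 j y).2.1]
        ring
    rw [e0, I_zero]
    linarith
  rcases near_one hQ h' hE' hp hK' with h0 | ⟨u', τ', hu', hd, k⟩
  · have e0 : qe W (mm p (bB p b.2)) (mm p (bB p b'.2)) = fun _ => 0 := funext fun y =>
      qe_zero fun j i hr => by
        rw [h0 i y (by rw [hm]; exact (hW y j i hr).2), mul_zero]
    rw [e0, I_zero]
    linarith
  rw [hm] at hu' k
  have hz := ((carX hQ).br T.hs).2
  have pz := fun j => GPair33.PB_vN_inl (hQ _ _ hz.1.rm.all.self) j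
  have pz' := fun j => GPair33.PB_vN_inl (hQ _ _ hu'.1.rm.all.self) j
  have h1 := hin s Sp t₁ t₀ u' τ' T.hs hz hu' hd
  -- the energy
  have b1 : I (qe W (mm p (bB p b.2)) (mm p (bB p b'.2))) ≤
      1 / (p : ℝ) * I (qe W (vN X (.inl (kN p s, t₀))) (vN X (.inl (u', τ')))) := by
    rw [← I_smul]
    refine I_mono (PB_qe mW pm pm').integrableOn ((PB_qe mW pz pz').smul w0).integrableOn
      fun y => ?_
    rw [← qe_smul1]
    refine qe_le (fun j => (pm j).nonneg y) (fun j => (pm' j).nonneg y)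
      (fun j => mul_nonneg w0 ((pz j).nonneg y)) (fun j => (pz' j).nonneg y)
      fun j i _ _ hr => ⟨hr, ?_, (k i y (hW y j i hr).2).1⟩
    have h2 := (sd_InvM hQ h hp j y).1 (hW y j i hr).1
    rw [mm_eq hK, h2.1, h2.2, T.B j y]
    exact le_of_eq (by unfold kN; ring)
  have b2 : lin aN (fun j y => 1 / (p : ℝ) * vN X (.inl (kN p s, t₀)) j y) ≤
      lin aN (mm p (bB p b.2)) := by
    refine lin_mono hN (fun j => (pz j).smul w0) hN pm fun j y _ =>
      mul_le_mul_of_nonneg_left ?_ ((hN j).nonneg y)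
    have c1 := (hK.PA j).nonneg y
    have c2 := (hK.PQ j).nonneg y
    have e1 : vN X (.inl (kN p s, t₀)) j y = pB (bB p b.2) j y := (T.B j y).symm
    rw [e1, mm_eq hK]
    have c3 := mul_nonneg w1 (add_nonneg c1 c2)
    have c4 := mul_nonneg w0 c2
    nlinarith
  have b3 : lin (cut (nx X p b.1) aP) (vN X (.inl (u', τ'))) ≤
      2 * lin (cut (nx X p b.1) aP) (mm p (bB p b'.2)) := by
    rw [← lin_smul']
    refine lin_mono pc pz' pc (fun j => (pm' j).smul (by norm_num : (0:ℝ) ≤ 2)) fun j y _ => ?_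
    by_cases hj : nx X p b.1 j
    · exact mul_le_mul_of_nonneg_left (k j y hj).2 ((pc j).nonneg y)
    · have e : cut (nx X p b.1) aP j y = 0 := if_neg hj
      rw [e]; simp
  rw [lin_smul'] at b2
  have b4 := mul_le_mul_of_nonneg_left h1 w0
  have e5 : 1 / (p : ℝ) * (lin aN (vN X (.inl (kN p s, t₀))) +
      p * lin (cut (nx X p b.1) aP) (vN X (.inl (u', τ')))) =
      1 / (p : ℝ) * lin aN (vN X (.inl (kN p s, t₀))) +
        lin (cut (nx X p b.1) aP) (vN X (.inl (u', τ'))) := by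
    field_simp
  rw [e5] at b4
  linarith

end ctx

/-! ### the inputs -/

section inp
variable {N : Skel189.Num} {γ : ℝ} {p0 P₀ : ℕ} {X : Ctx N γ p0 P₀} {Q : NS → IT → Prop} {C : ℝ}
  {p : ℕ} {b b' : Me × List (DT X.c.Lam (LbX X))} {ζ : Type} [Fintype ζ] [DecidableEq ζ] {n : ℕ}
  {D : TD Me X.c.Lam (LbX X) ζ} {gr : ℕ → X.c.Lam → Option ζ × Option ζ → Fin n}
  {R G Gx : PR Me X.c.Lam} {e r aN aP : ℕ → Me → X.c.Lam → ℝ → ℝ}

/-- newly related pairs, rest -/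
def nR (R : PR Me X.c.Lam) (p : ℕ) (m : Me) (x : ℝ) (j i : X.c.Lam) : Prop :=
  R (p - 1) m x j i ∧ ¬ R p m x j i

/-- **two N pieces at a tie** : not related above; related below, or lost inside the game -/
def tR (X : Ctx N γ p0 P₀) (D : TD Me X.c.Lam (LbX X) ζ)
    (gr : ℕ → X.c.Lam → Option ζ × Option ζ → Fin n) (R : PR Me X.c.Lam) (p : ℕ) (m : Me) (x : ℝ)
    (j i : X.c.Lam) : Prop :=
  (sdX X p m j ∧ sdX X p m i) ∧ ¬ R p m x j i ∧
    (R p (tuM p m) (p * x) j i ∨ (wA D (rhoX X) (ixL (X := X)) gr p m x j i ∧ inI D p m x j i))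

/-- **below the tie** : related, one N piece, one piece with one factor `p` left -/
def xR (X : Ctx N γ p0 P₀) (R : PR Me X.c.Lam) (p : ℕ) (m : Me) (y : ℝ) (j i : X.c.Lam) : Prop :=
  (R p (tuM p m) y j i ∨ R p (tuM p m) y i j) ∧ sdX X p m j ∧ nx X p m i

/-- a tie or a pull of the column -/
def isTP (p : ℕ) (τ : IT) : Prop := (∃ Sp t₁ t₀, τ = .br p Sp t₁ t₀) ∨ ∃ t₁, τ = .pl p t₁

/-- **THE INPUTS** : energies of pairs of nodes of one circle, linear rates of the pieces: `e` at the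
rests, `r` (two N pieces) at the ties, `aN`, `aP` below the ties; the pairs `G` (rests, ties) and `Gx`
(below the ties) are paid in another way -/
structure JIn (X : Ctx N γ p0 P₀) (Q : NS → IT → Prop) (D : TD Me X.c.Lam (LbX X) ζ)
    (gr : ℕ → X.c.Lam → Option ζ × Option ζ → Fin n) (R G Gx : PR Me X.c.Lam)
    (e r aN aP : ℕ → Me → X.c.Lam → ℝ → ℝ) : Prop where
  mR : ∀ p m j i, MP fun x => R p m x j i
  mG : ∀ p m j i, MP fun x => G p m x j i
  mGx : ∀ p m j i, MP fun x => Gx p m x j i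
  pe : ∀ p m j, PB (e p m j)
  pr : ∀ p m j, PB (r p m j)
  pN : ∀ p m j, PB (aN p m j)
  pP : ∀ p m j, PB (aP p m j)
  /-- rests -/
  rest : ∀ {p m u τ u' τ'}, p ≠ 0 → RtX X Q p m u τ → RtX X Q p m u' τ' → tp τ < p → tp τ' < p →
    ¬ isL τ → ¬ isL τ' → I (qe (fun x j i => nR R p m x j i ∧ ¬ G p m x j i)
      (vN X (.inl (u, τ))) (vN X (.inl (u', τ')))) ≤
      lin (e p m) (vN X (.inl (u, τ))) + lin (e p m) (vN X (.inl (u', τ')))
  /-- ties, two N pieces -/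
  tie : ∀ {p m s Sp t₁ t₀ s' Sp' t₁' t₀'}, p ≠ 0 → RtX X Q p m s (.br p Sp t₁ t₀) →
    RtX X Q p m s' (.br p Sp' t₁' t₀') →
    I (qe (fun x j i => tR X D gr R p m x j i ∧ ¬ G p m x j i)
      (vN X (.inl (s, .br p Sp t₁ t₀))) (vN X (.inl (s', .br p Sp' t₁' t₀')))) ≤
      lin (cut (sdX X p m) (r p m)) (vN X (.inl (s, .br p Sp t₁ t₀))) +
        lin (cut (sdX X p m) (r p m)) (vN X (.inl (s', .br p Sp' t₁' t₀')))
  /-- below the ties: N child against a node with the prime present -/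
  mix : ∀ {p m s Sp t₁ t₀ u' τ'}, p ≠ 0 → RtX X Q p m s (.br p Sp t₁ t₀) →
    RtX X Q p (tuM p m) (kN p s) t₀ → RtX X Q p (tuM p m) u' τ' → p ∣ u'.A →
    I (qe (fun y j i => xR X R p m y j i ∧ ¬ Gx p m y j i)
      (vN X (.inl (kN p s, t₀))) (vN X (.inl (u', τ')))) ≤
      lin (aN p m) (vN X (.inl (kN p s, t₀))) +
        p * lin (cut (nx X p m) (aP p m)) (vN X (.inl (u', τ')))
  /-- two pieces which are not missing: related below, then related above -/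
  pp : ∀ {p m u τ u' τ' x j i}, p ≠ 0 → RtX X Q p m u τ → RtX X Q p m u' τ' → isTP p τ →
    isTP p τ' → vN X (.inl (u, τ)) j x ≠ 0 → vN X (.inl (u', τ')) i x ≠ 0 → ¬ sdX X p m j →
    ¬ sdX X p m i → R p (tuM p m) (p * x) j i → R p m x j i
  /-- a mate of an N piece below the tie has one factor `p` left -/
  one : ∀ {p m u τ u' τ' y j i}, p ≠ 0 → RtX X Q p (tuM p m) u τ → RtX X Q p (tuM p m) u' τ' →
    p ∣ u.B → p ∣ u'.A → vN X (.inl (u, τ)) j y ≠ 0 → vN X (.inl (u', τ')) i y ≠ 0 →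
    sdX X p m j → ¬ sdX X p m i → (R p (tuM p m) y j i ∨ R p (tuM p m) y i j) → nx X p m i

/-- charge of a bundle by the rates -/
noncomputable def cg (e r aN aP : ℕ → Me → X.c.Lam → ℝ → ℝ) (p : ℕ)
    (b : Me × List (DT X.c.Lam (LbX X))) : ℝ :=
  lin (e p b.1) (jv (bN p b.2)) + lin (cut (sdX X p b.1) (r p b.1)) (jv (bB p b.2)) +
    (lin (cut (sdX X p b.1) (aN p b.1)) (mm p (bB p b.2)) +
      2 * lin (cut (nx X p b.1) (aP p b.1)) (mm p (bB p b.2)))

/-- **the excepted pairs** -/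
noncomputable def gP (X : Ctx N γ p0 P₀) (D : TD Me X.c.Lam (LbX X) ζ)
    (gr : ℕ → X.c.Lam → Option ζ × Option ζ → Fin n) (R G Gx : PR Me X.c.Lam) (p : ℕ)
    (b b' : Me × List (DT X.c.Lam (LbX X))) : ℝ :=
  I (qe (fun x j i => nR R p b.1 x j i ∧ G p b.1 x j i) (jv (bN p b.2)) (jv (bN p b'.2))) +
  I (qe (fun x j i => tR X D gr R p b.1 x j i ∧ G p b.1 x j i) (jv (bB p b.2)) (jv (bB p b'.2))) +
  (I (qe (fun y j i => xR X R p b.1 y j i ∧ Gx p b.1 y j i) (mm p (bB p b.2)) (mm p (bB p b'.2))) +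
    I (qe (fun y j i => xR X R p b.1 y j i ∧ Gx p b.1 y j i) (mm p (bB p b'.2)) (mm p (bB p b.2))))

/-- content in the ties and pulls -/
lemma bB_v (hQ : ∀ u τ, Q u τ → NDt X.par (w X.ψ) X.c.t u τ) (h : InvM X Q C p b)
    {j : X.c.Lam} {x : ℝ} (hj : jv (bB p b.2) j x ≠ 0) :
    ∃ u τ, RtX X Q p b.1 u τ ∧ isTP p τ ∧ vN X (.inl (u, τ)) j x ≠ 0 := by
  rcases jv_bB_node (carX hQ) h.mi hj with ⟨s, Sp, t₁, t₀, hs, h1⟩ | ⟨s, t₁, hs, h1⟩
  · refine ⟨s, _, hs, Or.inl ⟨Sp, t₁, t₀, rfl⟩, ?_⟩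
    rwa [← val_v (hQ _ _ hs.1.rm.all.self) j]
  · refine ⟨s, _, hs, Or.inr ⟨t₁, rfl⟩, ?_⟩
    rwa [← val_v (hQ _ _ hs.1.rm.all.self) j]

/-- content of the N child -/
lemma mmN (hQ : ∀ u τ, Q u τ → NDt X.par (w X.ψ) X.c.t u τ) (h : InvM X Q C p b) (hp : p ≠ 0)
    {kd : X.c.Lam → LbX X} (hK : KOk kd p (bB p b.2)) {j : X.c.Lam} {y : ℝ}
    (hj : mm p (bB p b.2) j y ≠ 0) (hs : sdX X p b.1 j) :
    ∃ u τ, RtX X Q p (tuM p b.1) u τ ∧ p ∣ u.B ∧ vN X (.inl (u, τ)) j y ≠ 0 := by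
  have h2 := (sd_InvM hQ h hp j y).1 hs
  have h3 : pB (bB p b.2) j y ≠ 0 := by
    intro h4
    apply hj
    rw [mm_eq hK, h2.1, h2.2, h4]
    ring
  obtain ⟨s, Sp, t₁, t₀, -, h5, h6⟩ := pB_node (carX hQ) hp h.mi h3
  refine ⟨_, _, h5, Dvd.intro_left _ rfl, ?_⟩
  have e := val_v (hQ _ _ h5.1.rm.all.self) j
  rw [← e]
  exact h6

/-- content of a P child or of a pull -/
lemma mmP (hQ : ∀ u τ, Q u τ → NDt X.par (w X.ψ) X.c.t u τ) (h : InvM X Q C p b) (hp : p ≠ 0)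
    {kd : X.c.Lam → LbX X} (hK : KOk kd p (bB p b.2)) {j : X.c.Lam} {y : ℝ}
    (hj : mm p (bB p b.2) j y ≠ 0) (hs : ¬ sdX X p b.1 j) :
    ∃ u τ, RtX X Q p (tuM p b.1) u τ ∧ p ∣ u.A ∧ vN X (.inl (u, τ)) j y ≠ 0 := by
  have h2 := (sd_InvM hQ h hp j y).2 hs
  have h3 : pA (bB p b.2) j y ≠ 0 ∨ pQ (bB p b.2) j y ≠ 0 := by
    by_contra h4
    push Not at h4
    apply hj
    rw [mm_eq hK, h4.1, h4.2, h2]
    ring
  rcases h3 with h3 | h3
  · obtain ⟨s, Sp, t₁, t₀, -, h5, h6⟩ := pA_node (carX hQ) hp h.mi h3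
    refine ⟨_, _, h5, Dvd.intro_left _ rfl, ?_⟩
    have e := val_v (hQ _ _ h5.1.rm.all.self) j
    rw [← e]
    exact h6
  · obtain ⟨s, t₁, -, h5, h6⟩ := pQ_node (carX hQ) hp h.mi h3
    refine ⟨_, _, h5, Dvd.intro_left _ rfl, ?_⟩
    have e := val_v (hQ _ _ h5.1.rm.all.self) j
    rw [← e]
    exact h6

/-- **A PAIR OF BUNDLES** -/
theorem pair_le (hQ : ∀ u τ, Q u τ → NDt X.par (w X.ψ) X.c.t u τ) (htu : D.tu = tuM)
    (H : TYp (rhoX X) D (InvM X Q C)) (J : JIn X Q D gr R G Gx e r aN aP) (hb : InvM X Q C p b)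
    (hb' : InvM X Q C p b') (hm : b'.1 = b.1) (hp : p ≠ 0) (hE : ED X p b.2)
    (hE' : ED X p b'.2) :
    I (jN R p b b') + I (jB R D.tu (sdX X) p b b') + I (jM R D.tu (sdX X) p b b') +
      ee (wI D (rhoX X) (ixL (X := X)) gr R) (rhoX X) p b b' ≤
        cg e r aN aP p b + cg e r aN aP p b' + gP X D gr R G Gx p b b' := by
  have hp0 : 0 < p := Nat.pos_of_ne_zero hp
  have hK := H.bok hb hp
  have hK' := H.bok hb' hp
  have v1 := fun j => pbB hb j
  have v2 := fun j => pbB hb' j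
  have m1 := fun j => pmm hb hp hK j
  have m2 := fun j => pmm hb' hp hK' j
  have g1 : ∀ j, PB (eg (rhoX X p) p (bB p b.2) j) := fun j => PB_eg hK j
  have g2 : ∀ j, PB (eg (rhoX X p) p (bB p b'.2) j) := fun j => PB_eg hK' j
  have mG := fun j i => J.mG p b.1 j i
  have mGx := fun j i => J.mGx p b.1 j i
  -- a relation with exceptions
  have cov : ∀ {W G : ℝ → X.c.Lam → X.c.Lam → Prop} {V U : X.c.Lam → ℝ → ℝ},
      (∀ j i, MP fun x => W x j i) → (∀ j i, MP fun x => G x j i) → (∀ j, PB (V j)) →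
      (∀ j, PB (U j)) → I (qe W V U) ≤ I (qe (fun x j i => W x j i ∧ ¬ G x j i) V U) +
        I (qe (fun x j i => W x j i ∧ G x j i) V U) := by
    intro W G V U mW mG pV pU
    have p1 := PB_qe (fun j i => ((mW j i).prod (mG j i)).map fun q => q.1 ∧ ¬ q.2) pV pU
    have p2 := PB_qe (fun j i => ((mW j i).prod (mG j i)).map fun q => q.1 ∧ q.2) pV pU
    rw [← I_add p1.integrableOn p2.integrableOn]
    refine I_mono (PB_qe mW pV pU).integrableOn (p1.add p2).integrableOn fun x => ?_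
    refine qe_cover (fun j => (pV j).nonneg x) (fun j => (pU j).nonneg x) fun j i _ _ h => ?_
    by_cases g : G x j i
    · exact Or.inr ⟨h, g⟩
    · exact Or.inl ⟨h, g⟩
  -- rest
  have mn : ∀ j i, MP fun x => nR R p b.1 x j i := fun j i =>
    ((J.mR (p - 1) b.1 j i).prod (J.mR p b.1 j i)).map fun q => q.1 ∧ ¬ q.2
  have s1 := rest_red hQ hb hb' hm hp (W := fun x j i => nR R p b.1 x j i ∧ ¬ G p b.1 x j i)
    (J.pe p b.1) fun u τ u' τ' a1 a2 a3 a4 a5 a6 => J.rest hp a1 a2 a3 a4 a5 a6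
  have s1' : I (jN R p b b') ≤
      I (qe (fun x j i => nR R p b.1 x j i ∧ ¬ G p b.1 x j i) (jv (bN p b.2)) (jv (bN p b'.2))) +
      I (qe (fun x j i => nR R p b.1 x j i ∧ G p b.1 x j i) (jv (bN p b.2)) (jv (bN p b'.2))) :=
    cov (W := fun x j i => nR R p b.1 x j i) mn mG (fun j => pbN hb hp j)
      (fun j => pbN hb' hp j)
  -- ties
  have mlo : ∀ j i, MP fun x : ℝ => R p (tuM p b.1) (p * x) j i := fun j i =>
    (J.mR p (tuM p b.1) j i).pull p
  have mup := fun j i => J.mR p b.1 j i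
  have mw := fun j i => mp_wI (ix := ixL (X := X)) H J.mR gr p b.1 j i
  have mwA := fun j i => mp_wA (ix := ixL (X := X)) H gr p b.1 j i
  have mIn := fun j i => mp_inI H p b.1 j i
  set RB : ℝ → X.c.Lam → X.c.Lam → Prop := fun x j i => (sdX X p b.1 j ∧ sdX X p b.1 i) ∧
    ¬ R p b.1 x j i ∧ R p (tuM p b.1) (p * x) j i with hRB
  set WI : ℝ → X.c.Lam → X.c.Lam → Prop := fun x j i => (sdX X p b.1 j ∧ sdX X p b.1 i) ∧
    wI D (rhoX X) (ixL (X := X)) gr R p b.1 x j i with hWI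
  have mRB : ∀ j i, MP fun x => RB x j i := fun j i => ((mup j i).prod (mlo j i)).map fun q =>
    (sdX X p b.1 j ∧ sdX X p b.1 i) ∧ ¬ q.1 ∧ q.2
  have mWI : ∀ j i, MP fun x => WI x j i := fun j i => (mw j i).map fun q =>
    (sdX X p b.1 j ∧ sdX X p b.1 i) ∧ q
  have mT : ∀ j i, MP fun x => tR X D gr R p b.1 x j i := fun j i =>
    ((mup j i).prod ((mlo j i).prod ((mwA j i).prod (mIn j i)))).map fun q =>
      (sdX X p b.1 j ∧ sdX X p b.1 i) ∧ ¬ q.1 ∧ (q.2.1 ∨ (q.2.2.1 ∧ q.2.2.2))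
  have pRB := PB_qe mRB v1 v2
  have pWI := PB_qe mWI v1 v2
  have pT := PB_qe mT v1 v2
  have t1 : I (jB R D.tu (sdX X) p b b') ≤ I (qe RB (jv (bB p b.2)) (jv (bB p b'.2))) := by
    have pj : PB (jB R D.tu (sdX X) p b b') := by
      rw [htu]
      exact PB_qe (fun j i => ((mlo j i).prod (mup j i)).map fun q =>
        (q.1 ∧ (sdX X p b.1 j ↔ sdX X p b.1 i)) ∧ ¬ q.2) v1 v2
    refine I_mono pj.integrableOn pRB.integrableOn fun x => ?_
    unfold jB
    rw [htu]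
    refine qe_le (fun j => (v1 j).nonneg x) (fun j => (v2 j).nonneg x)
      (fun j => (v1 j).nonneg x) (fun j => (v2 j).nonneg x) fun j i hj hi hr =>
      ⟨?_, le_rfl, le_rfl⟩
    obtain ⟨⟨r1, r2⟩, r3⟩ := hr
    by_cases a : sdX X p b.1 j
    · exact ⟨⟨a, r2.1 a⟩, r3, r1⟩
    · have a' : ¬ sdX X p b.1 i := fun h => a (r2.2 h)
      obtain ⟨u, τ, c1, c2, c3⟩ := bB_v hQ hb hj
      obtain ⟨u', τ', d1, d2, d3⟩ := bB_v hQ hb' hi
      rw [hm] at d1
      exact absurd (J.pp hp c1 d1 c2 d2 c3 d3 a a' r1) r3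
  have t2 : ee (wI D (rhoX X) (ixL (X := X)) gr R) (rhoX X) p b b' ≤
      I (qe WI (jv (bB p b.2)) (jv (bB p b'.2))) := by
    unfold ee
    refine I_mono (PB_qe mw g1 g2).integrableOn pWI.integrableOn fun x => ?_
    refine qe_le (fun j => (g1 j).nonneg x) (fun j => (g2 j).nonneg x)
      (fun j => (v1 j).nonneg x) (fun j => (v2 j).nonneg x) fun j i hj hi hr =>
      ⟨⟨⟨?_, ?_⟩, hr⟩, eg_le hK hp0 j x, eg_le hK' hp0 i x⟩
    · exact eg_N hK hp0 (sd_InvM hQ hb hp) hj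
    · have := eg_N hK' hp0 (sd_InvM hQ hb' hp) hi
      rwa [hm] at this
  have t3 : I (qe RB (jv (bB p b.2)) (jv (bB p b'.2))) +
      I (qe WI (jv (bB p b.2)) (jv (bB p b'.2))) ≤
      I (qe (tR X D gr R p b.1) (jv (bB p b.2)) (jv (bB p b'.2))) := by
    rw [← I_add pRB.integrableOn pWI.integrableOn]
    refine I_mono (pRB.add pWI).integrableOn pT.integrableOn fun x => ?_
    refine qe_disj (fun j => (v1 j).nonneg x) (fun j => (v2 j).nonneg x) (fun j i h => ?_)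
      (fun j i h => ?_) fun j i h h' => ?_
    · exact ⟨h.1, h.2.1, Or.inl h.2.2⟩
    · obtain ⟨h1, ⟨h2, h3⟩, h4⟩ := h
      exact ⟨h1, fun h5 => h3 (Or.inl h5), Or.inr ⟨h2, h4⟩⟩
    · obtain ⟨-, ⟨-, h3⟩, -⟩ := h'
      refine h3 (Or.inr ?_)
      rw [htu]
      exact h.2.2
  have s2 := tie_red hQ hb hb' hm hp hK hK'
    (W := fun x j i => tR X D gr R p b.1 x j i ∧ ¬ G p b.1 x j i) (fun x j i h => h.1.1)
    (r := cut (sdX X p b.1) (r p b.1)) (fun j => PB_cut (J.pr p b.1) j)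
    (fun s Sp t₁ t₀ s' Sp' t₁' t₀' a1 a2 => J.tie hp a1 a2)
  have s2' := cov mT mG v1 v2
  -- below
  have mx : ∀ j i, MP fun y => xR X R p b.1 y j i := fun j i =>
    ((J.mR p (tuM p b.1) j i).prod (J.mR p (tuM p b.1) i j)).map fun q =>
      (q.1 ∨ q.2) ∧ sdX X p b.1 j ∧ nx X p b.1 i
  have px1 := PB_qe mx m1 m2
  have px2 := PB_qe mx m2 m1
  have t4 : I (jM R D.tu (sdX X) p b b') ≤
      I (qe (xR X R p b.1) (mm p (bB p b.2)) (mm p (bB p b'.2))) +
        I (qe (xR X R p b.1) (mm p (bB p b'.2)) (mm p (bB p b.2))) := by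
    rw [← I_add px1.integrableOn px2.integrableOn]
    have pj : PB (jM R D.tu (sdX X) p b b') := by
      rw [htu]
      exact PB_qe (fun j i => (J.mR p (tuM p b.1) j i).map fun q =>
        q ∧ ¬ (sdX X p b.1 j ↔ sdX X p b.1 i)) m1 m2
    refine I_mono pj.integrableOn (px1.add px2).integrableOn fun y => ?_
    unfold jM
    rw [htu]
    have e1 : qe (xR X R p b.1) (mm p (bB p b'.2)) (mm p (bB p b.2)) y =
        qe (fun y j i => xR X R p b.1 y i j) (mm p (bB p b.2)) (mm p (bB p b'.2)) y :=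
      qe_swap.symm
    rw [e1]
    refine qe_cover (fun j => (m1 j).nonneg y) (fun j => (m2 j).nonneg y) fun j i hj hi hr => ?_
    obtain ⟨r1, r2⟩ := hr
    by_cases a : sdX X p b.1 j
    · have a' : ¬ sdX X p b.1 i := fun h => r2 ⟨fun _ => h, fun _ => a⟩
      obtain ⟨u, τ, c1, c2, c3⟩ := mmN hQ hb hp hK hj a
      obtain ⟨u', τ', d1, d2, d3⟩ := mmP hQ hb' hp hK' hi (by rwa [hm])
      rw [hm] at d1
      exact Or.inl ⟨Or.inl r1, a, J.one hp c1 d1 c2 d2 c3 d3 a a' (Or.inl r1)⟩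
    · have a' : sdX X p b.1 i := by
        by_contra h
        exact r2 ⟨fun h' => absurd h' a, fun h' => absurd h' h⟩
      obtain ⟨u, τ, c1, c2, c3⟩ := mmP hQ hb hp hK hj a
      obtain ⟨u', τ', d1, d2, d3⟩ := mmN hQ hb' hp hK' hi (by rwa [hm])
      rw [hm] at d1
      exact Or.inr ⟨Or.inr r1, a', J.one hp d1 c1 d2 c2 d3 c3 a' a (Or.inr r1)⟩
  have cN : ∀ {m : Me} {s Sp t₁ t₀}, RtX X Q p m s (.br p Sp t₁ t₀) →
      RtX X Q p (tuM p m) (kN p s) t₀ → lin (aN p m) (vN X (.inl (kN p s, t₀))) ≤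
        lin (cut (sdX X p m) (aN p m)) (vN X (.inl (kN p s, t₀))) := by
    intro m s Sp t₁ t₀ hs hz
    have hn := hQ _ _ hz.1.rm.all.self
    have pz := fun j => GPair33.PB_vN_inl hn j
    refine lin_mono (J.pN p m) pz (fun j => PB_cut (J.pN p m) j) pz fun j y hy => ?_
    have h1 : j.1.1 ∈ t₀.items := by
      by_contra h2
      have h3 : ((X.c.D.par X.Y).toDT X.c.sp (kN p s).B (kN p s).A t₀).g.val j y ≠ 0 := by
        rw [val_v hn j]; exact hy
      exact h2 (ctx_supp hn h3).1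
    have h2 : sdX X p m j := (ex_N hQ hs h1).le
    have e : cut (sdX X p m) (aN p m) j y = aN p m j y := if_pos h2
    rw [e]
  have mxG : ∀ j i, MP fun y => (xR X R p b.1 y j i ∧ ¬ Gx p b.1 y j i) := fun j i =>
    ((mx j i).prod (mGx j i)).map fun q => q.1 ∧ ¬ q.2
  have s3' := cov mx mGx m1 m2
  have s4' := cov mx mGx m2 m1
  have s3 := mix_red hQ hb hb' hm hp hE' hK hK'
    (W := fun y j i => xR X R p b.1 y j i ∧ ¬ Gx p b.1 y j i) mxG (fun y j i h => h.1.2)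
    (aN := cut (sdX X p b.1) (aN p b.1)) (aP := aP p b.1) (fun j => PB_cut (J.pN p b.1) j)
    (J.pP p b.1) (fun s Sp t₁ t₀ u' τ' a1 a2 a3 a4 => (J.mix hp a1 a2 a3 a4).trans
      (add_le_add (cN a1 a2) le_rfl))
  have s4 := mix_red hQ hb' hb hm.symm hp hE hK' hK
    (W := fun y j i => xR X R p b'.1 y j i ∧ ¬ Gx p b'.1 y j i)
    (by rw [hm]; exact mxG) (fun y j i h => h.1.2)
    (aN := cut (sdX X p b'.1) (aN p b'.1)) (aP := aP p b'.1) (fun j => PB_cut (J.pN p b'.1) j)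
    (J.pP p b'.1) (fun s Sp t₁ t₀ u' τ' a1 a2 a3 a4 => (J.mix hp a1 a2 a3 a4).trans
      (add_le_add (cN a1 a2) le_rfl))
  rw [hm] at s4
  unfold cg gP
  rw [hm]
  linarith

/-! ### the walk sum -/

/-- **good group states** : one memory, disjoint exponents in every member -/
def okE (H : TYp (rhoX X) D (InvM X Q C)) (p : ℕ) (s : Gs (Me × List (DT X.c.Lam (LbX X)))) :
    Prop := (gst (bm (DTn407.rxm H)) p s ∧ ∃ m, Cm m s) ∧ ∀ k, ED X p (s.L k).2

lemma okE.toC (hQ : ∀ u τ, Q u τ → NDt X.par (w X.ψ) X.c.t u τ) {H : TYp (rhoX X) D (InvM X Q C)}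
    {s : Gs (Me × List (DT X.c.Lam (LbX X)))} (h : okE H p s) (hp : p ≠ 0) :
    okE H p ((bm (DTn407.rxm H)).C p s) := by
  obtain ⟨m, hm⟩ := h.1.2
  refine ⟨⟨gst_C (tbD (wr := rhoX X) H).cl h.1.1 hp, D.tu p m,
    Cm_C (D := D) (fun _ _ => rfl) (fun _ _ => rfl) hm⟩, ?_⟩
  by_cases h2 : 2 ≤ p
  · rw [GSK55.BC_pos _ h2]
    intro x
    show ED X p (if x.2 = true then (bm (DTn407.rxm H)).cP p (s.L x.1) else
      (bm (DTn407.rxm H)).cN p (s.L x.1)).2
    split_ifs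
    · exact ED.toP hQ (h.1.1.2 x.1) hp (h.2 x.1)
    · exact ED.toN hQ (h.1.1.2 x.1) hp (h.2 x.1)
  · rw [GSK55.BC_neg _ h2]
    intro j
    exact ED.toP hQ (h.1.1.2 j) hp (h.2 j)

lemma okE.toN {H : TYp (rhoX X) D (InvM X Q C)} {s : Gs (Me × List (DT X.c.Lam (LbX X)))}
    (h : okE H p s) (hp : p ≠ 0) : okE H (p - 1) ((bm (DTn407.rxm H)).N p s) := by
  obtain ⟨m, hm⟩ := h.1.2
  exact ⟨⟨gst_N (tbD (wr := rhoX X) H).cl h.1.1 hp, m, Cm_N (D := D) (fun _ _ => rfl) hm⟩,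
    fun j => ED.toR (h.1.1.2 j)⟩

lemma okE.one {H : TYp (rhoX X) D (InvM X Q C)} {t : DT X.c.Lam (LbX X)} {m : Me}
    (h : InvM X Q C p (m, [t])) : okE H p (GSK55.one (m, [t])) :=
  ⟨⟨⟨GSK55.one_TC _, fun _ => h⟩, m, fun _ => rfl⟩, fun _ => ED.one t⟩

lemma I_lin {e V : X.c.Lam → ℝ → ℝ} (he : ∀ j, PB (e j)) (hV : ∀ j, PB (V j)) :
    I (fun x => ∑ j, e j x * V j x) = lin e V :=
  I_sum _ fun j _ => ((he j).mul (hV j)).integrableOn

/-- a charge below the tie as a charge of the content above the tie -/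
lemma lin_mm {Inv' : ℕ → List (DT X.c.Lam (LbX X)) → Prop} {H : TYp (rhoX X) D (InvM X Q C)}
    (L : LB (bm (DTn407.rxm H)) Prod.snd Inv') (HI : DI Inv') (hb : InvM X Q C p b) (hp : p ≠ 0)
    {a : X.c.Lam → ℝ → ℝ} (ha : ∀ j, PB (a j)) :
    lin a (mm p (bB p b.2)) ≤ lin (fun j x => a j (p * x)) (jv (bB p b.2)) := by
  have hp0 : 0 < p := Nat.pos_of_ne_zero hp
  have hpr : (p : ℝ) ≠ 0 := by exact_mod_cast hp
  have pm := fun j => pmm hb hp (H.bok hb hp) j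
  have pv := fun j => pbB hb j
  unfold lin
  refine Finset.sum_le_sum fun j _ => ?_
  have pa : PB fun x : ℝ => a j (p * x) := by
    refine ⟨(ha j).meas.comp (measurable_const.mul measurable_id), fun x => (ha j).nonneg _, ?_,
      fun x => ?_⟩
    · obtain ⟨K, hK⟩ := (ha j).bdd
      exact ⟨K, fun x => hK _⟩
    · show a j (p * (x + 1)) = a j (p * x)
      have e : (p : ℝ) * (x + 1) = p * x + (p : ℕ) := by ring
      rw [e, (ha j).per_nat]
  have pq : PB fun x => a j (p * x) * jv (bB p b.2) j x := pa.mul (pv j)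
  rw [← I_Ep hp0 pq.integrableOn]
  refine I_mono ((ha j).mul (pm j)).integrableOn (pq.Ep hp0).integrableOn fun y => ?_
  have h1 : mm p (bB p b.2) j y ≤ Ep p (jv (bB p b.2) j) y := (L.pv HI).mean (b := b) hb hp j y
  have h2 : Ep p (fun x => a j (p * x) * jv (bB p b.2) j x) y =
      a j y * Ep p (jv (bB p b.2) j) y := by
    unfold Ep
    rw [← mul_div_assoc, Finset.mul_sum]
    congr 1
    refine Finset.sum_congr rfl fun i _ => ?_
    have e : (p : ℝ) * ((y + (i : ℝ)) / p) = y + i := by field_simp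
    show a j (p * ((y + (i : ℝ)) / p)) * jv (bB p b.2) j ((y + (i : ℝ)) / p) = _
    rw [e, (ha j).per_nat]
  rw [h2]
  exact mul_le_mul_of_nonneg_left h1 ((ha j).nonneg y)

/-- **the charges of a bundle below the credits** -/
theorem cg_le {Inv' : ℕ → List (DT X.c.Lam (LbX X)) → Prop} {H : TYp (rhoX X) D (InvM X Q C)}
    (L : LB (bm (DTn407.rxm H)) Prod.snd Inv') (HI : DI Inv') (Z : Cr (L.pv HI))
    (J : JIn X Q D gr R G Gx e r aN aP)
    (hb : InvM X Q C p b) (hp : p ≠ 0)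
    (hZe : ∀ j x, jv (bN p b.2) j x ≠ 0 → e p b.1 j x ≤ Z.e p b j x)
    (hZN : ∀ j x, jv (bB p b.2) j x ≠ 0 → sdX X p b.1 j →
      r p b.1 j x + aN p b.1 j (p * x) ≤ Z.r p b j x)
    (hZP : ∀ j x, jv (bB p b.2) j x ≠ 0 → nx X p b.1 j → 2 * aP p b.1 j (p * x) ≤ Z.r p b j x) :
    cg e r aN aP p b ≤ ch Z.bch p b := by
  have hp0 : 0 < p := Nat.pos_of_ne_zero hp
  have pv := fun j => pbB hb j
  have pn := fun j => pbN hb hp j
  have zr : ∀ j, PB (Z.r p b j) := fun j => Z.pr (b := b) hb hp j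
  have ze : ∀ j, PB (Z.e p b j) := fun j => Z.pe (b := b) hb hp j
  have ps : ∀ {a : X.c.Lam → ℝ → ℝ}, (∀ j, PB (a j)) → ∀ j, PB fun x : ℝ => a j (p * x) := by
    intro a ha j
    refine ⟨(ha j).meas.comp (measurable_const.mul measurable_id), fun x => (ha j).nonneg _, ?_,
      fun x => ?_⟩
    · obtain ⟨K, hK⟩ := (ha j).bdd
      exact ⟨K, fun x => hK _⟩
    · show a j (p * (x + 1)) = a j (p * x)
      have e : (p : ℝ) * (x + 1) = p * x + (p : ℕ) := by ring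
      rw [e, (ha j).per_nat]
  have e1 : I (Z.bch.yx p b) = lin (Z.e p b) (jv (bN p b.2)) := I_lin ze pn
  have e2 : I (Z.bch.yc p b) = lin (Z.r p b) (jv (bB p b.2)) := by
    show I (fun y => ∑ j, Ep p (fun x => Z.r p b j x * jv (bB p b.2) j x) y) = _
    rw [I_sum _ fun j _ => (((zr j).mul (pv j)).Ep hp0).integrableOn]
    unfold lin
    exact Finset.sum_congr rfl fun j _ => I_Ep hp0 ((zr j).mul (pv j)).integrableOn
  have b1 : lin (e p b.1) (jv (bN p b.2)) ≤ lin (Z.e p b) (jv (bN p b.2)) :=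
    lin_mono (J.pe p b.1) pn ze pn fun j x hj =>
      mul_le_mul_of_nonneg_right (hZe j x hj) ((pn j).nonneg x)
  have cN := fun j => PB_cut (P := sdX X p b.1) (J.pN p b.1) j
  have cP := fun j => PB_cut (P := nx X p b.1) (J.pP p b.1) j
  have cr := fun j => PB_cut (P := sdX X p b.1) (J.pr p b.1) j
  have b2 := lin_mm L HI hb hp (a := cut (sdX X p b.1) (aN p b.1)) cN
  have b3 := lin_mm L HI hb hp (a := cut (nx X p b.1) (aP p b.1)) cP
  have sN := ps cN
  have sP := ps cP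
  have s2 : ∀ j, PB fun x : ℝ => 2 * cut (nx X p b.1) (aP p b.1) j (p * x) := fun j =>
    (sP j).smul (by norm_num : (0:ℝ) ≤ 2)
  have b4 : lin (fun j x => (cut (sdX X p b.1) (r p b.1) j x +
      cut (sdX X p b.1) (aN p b.1) j (p * x)) + 2 * cut (nx X p b.1) (aP p b.1) j (p * x))
      (jv (bB p b.2)) ≤ lin (Z.r p b) (jv (bB p b.2)) := by
    refine lin_mono (fun j => ((cr j).add (sN j)).add (s2 j)) pv zr pv fun j x hj =>
      mul_le_mul_of_nonneg_right ?_ ((pv j).nonneg x)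
    by_cases a : sdX X p b.1 j
    · have a' : ¬ nx X p b.1 j := by
        unfold sdX at a
        unfold nx
        omega
      have i1 : cut (sdX X p b.1) (r p b.1) j x = r p b.1 j x := if_pos a
      have i2 : cut (sdX X p b.1) (aN p b.1) j (p * x) = aN p b.1 j (p * x) := if_pos a
      have i3 : cut (nx X p b.1) (aP p b.1) j (p * x) = 0 := if_neg a'
      rw [i1, i2, i3]
      have := hZN j x hj a
      linarith
    · have i1 : cut (sdX X p b.1) (r p b.1) j x = 0 := if_neg a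
      have i2 : cut (sdX X p b.1) (aN p b.1) j (p * x) = 0 := if_neg a
      rw [i1, i2]
      by_cases a' : nx X p b.1 j
      · have i3 : cut (nx X p b.1) (aP p b.1) j (p * x) = aP p b.1 j (p * x) := if_pos a'
        rw [i3]
        have := hZP j x hj a'
        linarith
      · have i3 : cut (nx X p b.1) (aP p b.1) j (p * x) = 0 := if_neg a'
        rw [i3]
        have := (zr j).nonneg x
        linarith
  rw [lin_add (fun j => (cr j).add (sN j)) s2 pv, lin_add cr sN pv, lin_smul] at b4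
  unfold ch cg
  rw [e1, e2]
  linarith

/-- the jumps and the direct pairs of a pair of bundles, without the `p⁻²` terms `jE` -/
noncomputable def jd (X : Ctx N γ p0 P₀) (D : TD Me X.c.Lam (LbX X) ζ)
    (gr : ℕ → X.c.Lam → Option ζ × Option ζ → Fin n) (R : PR Me X.c.Lam) (p : ℕ)
    (b b' : Me × List (DT X.c.Lam (LbX X))) : ℝ :=
  I (jN R p b b') + I (jB R D.tu (sdX X) p b b') + I (jM R D.tu (sdX X) p b b') +
    ee (wI D (rhoX X) (ixL (X := X)) gr R) (rhoX X) p b b'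

/-- **THE WALK SUM OF THE JUMPS AND OF THE DIRECT PAIRS** (without the `p⁻²` terms `jE`) -/
theorem Kw_JIn (hQ : ∀ u τ, Q u τ → NDt X.par (w X.ψ) X.c.t u τ) (htu : D.tu = tuM)
    {Inv' : ℕ → List (DT X.c.Lam (LbX X)) → Prop} (H : TYp (rhoX X) D (InvM X Q C))
    (L : LB (bm (DTn407.rxm H)) Prod.snd Inv') (HI : DI Inv') (Z : Cr (L.pv HI))
    (J : JIn X Q D gr R G Gx e r aN aP)
    (hZe : ∀ {p b}, InvM X Q C p b → p ≠ 0 → ∀ j x, jv (bN p b.2) j x ≠ 0 →
      e p b.1 j x ≤ Z.e p b j x)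
    (hZN : ∀ {p b}, InvM X Q C p b → p ≠ 0 → ∀ j x, jv (bB p b.2) j x ≠ 0 → sdX X p b.1 j →
      r p b.1 j x + aN p b.1 j (p * x) ≤ Z.r p b j x)
    (hZP : ∀ {p b}, InvM X Q C p b → p ≠ 0 → ∀ j x, jv (bB p b.2) j x ≠ 0 → nx X p b.1 j →
      2 * aP p b.1 j (p * x) ≤ Z.r p b j x)
    (k p : ℕ) (s : Gs (Me × List (DT X.c.Lam (LbX X)))) (hs : okE H p s) :
    Kw (bm (DTn407.rxm H)) (Ps (jd X D gr R)) k p s ≤ 2 * I (su s (Z.bch.Y p)) +
      Kw (bm (DTn407.rxm H)) (Ps (gP X D gr R G Gx)) k p s := by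
  have hC : ∀ {p s}, okE H p s → p ≠ 0 → okE H p ((bm (DTn407.rxm H)).C p s) :=
    fun h hp => okE.toC hQ h hp
  have hN : ∀ {p s}, okE H p s → p ≠ 0 → okE H (p - 1) ((bm (DTn407.rxm H)).N p s) :=
    fun h hp => okE.toN h hp
  have h0 := Kw_Ps_mono (B := bm (DTn407.rxm H)) (ok := okE H) (fun h => h.1.1) hC hN
    (f := jd X D gr R) (g := fun p b b' => (cg e r aN aP p b + cg e r aN aP p b') +
      gP X D gr R G Gx p b b') (fun {p s} hs hp k k' => ?_) k p s hs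
  · rw [Kw_Ps_add] at h0
    refine h0.trans (add_le_add ?_ le_rfl)
    refine Kw_pairs (B := bm (DTn407.rxm H)) (tbD (wr := rhoX X) H).cl Z.bch (ok := okE H)
      (fun h => h.1.1) hC hN (fun {p s} hs hp k k' => ?_) k p s hs
    have h1 : InvM X Q C p (s.L k) := hs.1.1.2 k
    have h2 : InvM X Q C p (s.L k') := hs.1.1.2 k'
    have h4 := cg_le L HI Z J h1 hp (hZe h1 hp) (hZN h1 hp) (hZP h1 hp)
    have h5 := cg_le L HI Z J h2 hp (hZe h2 hp) (hZN h2 hp) (hZP h2 hp)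
    linarith
  · obtain ⟨m, hm⟩ := hs.1.2
    have h1 : InvM X Q C p (s.L k) := hs.1.1.2 k
    have h2 : InvM X Q C p (s.L k') := hs.1.1.2 k'
    exact pair_le hQ htu H J h1 h2 (by rw [hm k, hm k']) hp (hs.2 k) (hs.2 k')

/-- **no exceptions** -/
theorem Kw_JIn0 (hQ : ∀ u τ, Q u τ → NDt X.par (w X.ψ) X.c.t u τ) (htu : D.tu = tuM)
    {Inv' : ℕ → List (DT X.c.Lam (LbX X)) → Prop} (H : TYp (rhoX X) D (InvM X Q C))
    (L : LB (bm (DTn407.rxm H)) Prod.snd Inv') (HI : DI Inv') (Z : Cr (L.pv HI))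
    (J : JIn X Q D gr R (fun _ _ _ _ _ => False) (fun _ _ _ _ _ => False) e r aN aP)
    (hZe : ∀ {p b}, InvM X Q C p b → p ≠ 0 → ∀ j x, jv (bN p b.2) j x ≠ 0 →
      e p b.1 j x ≤ Z.e p b j x)
    (hZN : ∀ {p b}, InvM X Q C p b → p ≠ 0 → ∀ j x, jv (bB p b.2) j x ≠ 0 → sdX X p b.1 j →
      r p b.1 j x + aN p b.1 j (p * x) ≤ Z.r p b j x)
    (hZP : ∀ {p b}, InvM X Q C p b → p ≠ 0 → ∀ j x, jv (bB p b.2) j x ≠ 0 → nx X p b.1 j →
      2 * aP p b.1 j (p * x) ≤ Z.r p b j x)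
    (k p : ℕ) (s : Gs (Me × List (DT X.c.Lam (LbX X)))) (hs : okE H p s) :
    Kw (bm (DTn407.rxm H)) (Ps (jd X D gr R)) k p s ≤ 2 * I (su s (Z.bch.Y p)) := by
  have h := Kw_JIn hQ htu H L HI Z J hZe hZN hZP k p s hs
  have e0 : gP X D gr R (fun _ _ _ _ _ => False) (fun _ _ _ _ _ => False) =
      fun _ _ _ => (0 : ℝ) := by
    funext p b b'
    have e1 : ∀ (W : ℝ → X.c.Lam → X.c.Lam → Prop) (V U : X.c.Lam → ℝ → ℝ),
        I (qe (fun x j i => W x j i ∧ False) V U) = 0 := by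
      intro W V U
      have : qe (fun x j i => W x j i ∧ False) V U = fun _ => 0 := funext fun x =>
        qe_zero fun j i h => absurd h.2 id
      rw [this, I_zero]
    unfold gP
    rw [e1, e1, e1, e1]
    ring
  have e2 : Ps (β := Me × List (DT X.c.Lam (LbX X))) (fun _ _ _ => (0 : ℝ)) = fun _ _ => 0 := by
    funext p s
    unfold Ps
    simp
  have e3 : ∀ k p s, Kw (bm (DTn407.rxm H)) (fun _ _ => (0 : ℝ)) k p s = 0 := by
    intro k p s
    have h1 := GSK55.Kw_smul (M := bm (DTn407.rxm H)) (0 : ℝ) (fun _ _ => (0 : ℝ)) k p s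
    have h2 : (fun (p : ℕ) (s : Gs (Me × List (DT X.c.Lam (LbX X)))) => (0:ℝ) * (0:ℝ)) =
      fun _ _ => (0 : ℝ) := by funext p s; ring
    rw [h2] at h1
    linarith
  rw [e0, e2, e3, add_zero] at h
  exact h

end inp

end Crest.Agent.R4P.E3Y479
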