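import Crest.Agent.R4P.AvZ_32
import Crest.Agent.R4P.BirP_47
import Crest.Agent.R4P.EvP_33

/-!
R4 (S0004) with powers, helper32: **the averaged number of events of an item of a context** (`AvZ_32` with
helper47's `BFP`, zones `ZlP`, `NrP` of helper33's `EvP_33`).

* `epsN N`     : exponent of the width, `1 / (2 (C1 + c2 + 3))`, `Zi N = ZwE (epsN N)`;
* `fcP`        : `BFP N c p0 q → FcP ..`; `EB_iff`, `ED_iff` : the events in helper33's zones;
* `EI N p0 e c q s` : **the events of the item `q` at its missing tie `s`**, `r₀ = 1 / p0`;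
* `smP_of`     : a stage of radius `≤ 1 / p0` is small (`SmP (Zi N R) R`);
* `wv N`       : the weights `1 / N^2` of the grid; `item_avg` : **the average number is `≤ 12`**;
* `item_rate`  : the same as a sum over the missing ties of the average of the indicator.
-/

set_option autoImplicit false
set_option linter.unusedSectionVars false
set_option linter.unusedVariables false

namespace Crest.Agent.R4P.AvI32

open Crest.Agent.R4.W363 (lst)
open Crest.Agent.R4P.PosP33 Crest.Agent.R4P.LabD33 Crest.Agent.R4P.EvP33 Crest.Agent.R4P.AvG32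
open Crest.Agent.R4P.Bir30 (Aex BF)
open Crest.Agent.R4P.Bir30.BF (Rad)
open Crest.Agent.R4P.BirP47 (BFP)
open Crest.Agent.R4P.Skel189 Crest.Agent.R4P.ParF5 Crest.Agent.R4P.FinAll26
open Crest.Agent.R4P.Data758 Crest.Agent.R4P.SxT6

variable {N : Skel189.Num} {c : Cf} {p0 q s : ℕ} {e : UV} {ε : ℝ} {Zw : ℝ → ℝ}

/-- the exponent of the width function -/
noncomputable def epsN (N : Skel189.Num) : ℝ := 1 / (2 * (N.C1 + N.c2 + 3))

/-- **the width function** `exp ((log 1/R)^(epsN N))` -/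
noncomputable abbrev Zi (N : Skel189.Num) : ℝ → ℝ := ZwE (epsN N)

lemma Rd_eq (c : Cf) (q s : ℕ) : Rd (c.r q) (c.t.mt q) s = Rad c q s := by
  show ((((s :: lst (c.t.mt q) s).prod : ℕ) : ℝ)) * c.r q = _
  rw [List.prod_cons, Bir30.lst_prod_Bab]
  unfold Rad
  push_cast; ring

/-- **the facts of an item** -/
theorem fcP (h : BFP N c p0 q) (hr : 0 < c.r q) :
    FcP (Aex N) (N.C1 + N.c2) p0 c.γ (c.r q) (c.t.mt q) where
  ψ0 := hr
  mp := h.mp
  few := h.few
  one := fun e {s s'} hs hs' h1 h2 h3 h4 =>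
    h.sl_uniqueA (e := e) hs hs' (by rw [← Rd_eq]; exact h1) (by rw [← Rd_eq]; exact h2) h3 h4

/-! ### the events of an item -/

/-- **a birth in its zone** -/
def EBi (Zw : ℝ → ℝ) (e : UV) (c : Cf) (q s : ℕ) : Prop :=
  ∃ μ : ℚ, own e c.γ (c.r q) (s :: lst (c.t.mt q) s) = some μ ∧
    sla e c.γ (c.r q) (lst (c.t.mt q) s) ≠ some μ ∧
    ZlP e (Zw (Rad c q s)) c.γ (c.r q) (s :: lst (c.t.mt q) s).prod μ

/-- **a death by accuracy near the threshold** -/
def EDi (Zw : ℝ → ℝ) (e : UV) (c : Cf) (q s : ℕ) : Prop :=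
  ∃ κ : ℚ, sla e c.γ (c.r q) (lst (c.t.mt q) s) = some κ ∧
    own e c.γ (c.r q) (s :: lst (c.t.mt q) s) = none ∧
    ¬ acc e c.γ (c.r q) (s :: lst (c.t.mt q) s).prod κ ∧
    NrP e (Zw (Rad c q s)) c.γ (c.r q) (s :: lst (c.t.mt q) s).prod κ

/-- **an event of size** -/
def ESi (r₀ : ℝ) (e : UV) (c : Cf) (q s : ℕ) : Prop :=
  r₀ < Rad c q s ∧ ((∃ μ, own e c.γ (c.r q) (s :: lst (c.t.mt q) s) = some μ) ∨
    ∃ κ : ℚ, sla e c.γ (c.r q) (lst (c.t.mt q) s) = some κ ∧
      own e c.γ (c.r q) (s :: lst (c.t.mt q) s) = none ∧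
      ¬ acc e c.γ (c.r q) (s :: lst (c.t.mt q) s).prod κ)

/-- **the events of the item `q` at its missing tie `s`** -/
def EI (N : Skel189.Num) (p0 : ℕ) (e : UV) (c : Cf) (q s : ℕ) : Prop :=
  EBi (Zi N) e c q s ∨ EDi (Zi N) e c q s ∨ ESi (1 / p0) e c q s

lemma EB_of (h : EBi Zw e c q s) : EB Zw e c.γ (c.r q) (c.t.mt q) s := by
  obtain ⟨μ, h1, h2, h3⟩ := h
  refine ⟨μ, h1, h2, ?_⟩
  rw [Rd_eq]
  have e1 : Rad c q s = ((Pd (c.t.mt q) s : ℕ) : ℝ) * c.r q := (Rd_eq c q s).symm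
  unfold ZlP at h3
  rw [← e1] at h3
  exact h3

lemma ED_of (h : EDi Zw e c q s) : ED Zw e c.γ (c.r q) (c.t.mt q) s := by
  obtain ⟨κ, h1, h2, h3, h4⟩ := h
  refine ⟨κ, h1, h2, h3, ?_⟩
  rw [Rd_eq]
  exact h4

lemma SE_of {r₀ : ℝ} (h : ESi r₀ e c q s) : SE r₀ e c.γ (c.r q) (c.t.mt q) s := by
  obtain ⟨h1, h2⟩ := h
  refine ⟨by rw [Rd_eq]; exact h1, h2⟩

lemma EV_of (h : EI N p0 e c q s) : EV (Zi N) (1 / p0) e c.γ (c.r q) (c.t.mt q) s := by
  rcases h with h | h | h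
  · exact Or.inl (EB_of h)
  · exact Or.inr (Or.inl (ED_of h))
  · exact Or.inr (Or.inr (SE_of h))

/-- **a stage of radius `≤ 1 / p0` is small** -/
theorem smP_of {A C : ℝ} (hn : Nu A C ε p0) (hZ : ZwOK Zw ε) {R : ℝ} (hR : 0 < R)
    (h : R ≤ 1 / p0) : SmP (Zw R) R := by
  have hp8 : (8 : ℝ) ≤ p0 := by exact_mod_cast hn.three
  have hl := hn.log2
  -- `p0 ≥ 10`
  have hlR : Real.log p0 ≤ Real.log (1 / R) := by
    refine Real.log_le_log (by linarith) ?_
    rw [le_div_iff₀ hR]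
    rw [le_div_iff₀ (by linarith)] at h
    linarith
  have h1 := hn.xe _ hlR
  set l : ℝ := Real.log (1 / R) with hldef
  have hl1 : 1 ≤ l := by linarith
  have hle : 1 ≤ l ^ ε := Real.one_le_rpow hl1 hn.ε0.le
  have hlogR : Real.log R = -l := by rw [hldef, one_div, Real.log_inv]; ring
  have h10 : R ≤ 1 / 10 := by
    have h2 : Real.log R ≤ Real.log (1 / 10) := by
      rw [hlogR, one_div, Real.log_inv]
      have := Real.log_le_sub_one_of_pos (show (0 : ℝ) < 10 by norm_num)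
      linarith
    exact (Real.log_le_log_iff hR (by norm_num)).1 h2
  have hz := hZ.small R hR h10
  have hZ1 := hZ.one R
  have hz' : Real.log (Zw R) ≤ l ^ ε := hz
  unfold SmP
  have hZ11 : 0 < Zw R ^ 11 := by positivity
  rw [← Real.log_lt_log_iff (by positivity) one_pos, Real.log_one, Real.log_mul (by positivity)
    hR.ne', Real.log_mul (by norm_num) hZ11.ne', Real.log_pow, hlogR]
  have h7 : Real.log 1024 ≤ 7 := by
    have : Real.log 1024 = 10 * Real.log 2 := by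
      rw [show (1024 : ℝ) = 2 ^ 10 by norm_num, Real.log_pow]; push_cast; ring
    have h2 := Real.log_two_lt_d9
    linarith
  push_cast
  linarith

/-! ### the average -/

/-- the weights of the grid -/
noncomputable def wv (m : ℕ) : ℝ := 1 / (m : ℝ) ^ 2

lemma wv_nonneg (m : ℕ) : 0 ≤ wv m := by unfold wv; positivity

lemma wv_sum {m : ℕ} (hm : 0 < m) : ∑ _a : Fin m × Fin m, wv m = 1 := by
  rw [Finset.sum_const, Finset.card_univ, Fintype.card_prod, Fintype.card_fin, nsmul_eq_mul]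
  unfold wv
  have : (0 : ℝ) < m := by exact_mod_cast hm
  push_cast
  field_simp

open Classical in
/-- **the average number of events of an item is at most `12`** -/
theorem item_avg (hC1 : 0 ≤ N.C1) (hc2 : 0 ≤ N.c2) : ∃ p₁ : ℕ, ∀ p0 ≥ p₁, ∀ {c : Cf} {q : ℕ},
    BFP N c p0 q → 0 < c.r q → ∀ {m : ℕ}, 0 < m → 4 * (c.t.mt q).card ≤ m →
    ∑ a : Fin m × Fin m, wv m *
      (((c.t.mt q).filter fun s => EI N p0 (ge m a.1 a.2) c q s).card : ℝ) ≤ 12 := by
  have hA : 0 ≤ Aex N := by unfold Aex; linarith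
  have hC : 0 ≤ N.C1 + N.c2 := by linarith
  have hε : 0 < epsN N := by unfold epsN; positivity
  obtain ⟨p₁, h⟩ := avg_events (Aex N) (N.C1 + N.c2) (epsN N) hA hC hε (by
    unfold epsN
    rw [one_div, inv_mul_cancel₀ (by positivity)])
  refine ⟨max p₁ 1, fun p0 hp {c q} hB hr {m} hm hcard => ?_⟩
  have hp1 : (1 : ℝ) ≤ p0 := by exact_mod_cast (le_max_right _ _).trans hp
  have h1 := h p0 ((le_max_left _ _).trans hp) (fcP hB hr) (zwOK_E (epsN N)) (r₀ := 1 / p0) (by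
    rw [one_div, inv_mul_cancel₀ (by linarith)]) hm hcard
  refine (Finset.sum_le_sum fun a _ => ?_).trans h1
  refine mul_le_mul_of_nonneg_left ?_ (wv_nonneg m)
  have : ((c.t.mt q).filter fun s => EI N p0 (ge m a.1 a.2) c q s).card ≤
      ((c.t.mt q).filter fun s => EV (Zi N) (1 / p0) (ge m a.1 a.2) c.γ (c.r q) (c.t.mt q) s).card :=
    Finset.card_le_card fun s hs => by
      obtain ⟨s1, s2⟩ := Finset.mem_filter.1 hs
      exact Finset.mem_filter.2 ⟨s1, EV_of s2⟩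
  exact_mod_cast this

open Classical in
/-- the same: sum over the missing ties of the average of the indicator -/
theorem item_rate (hC1 : 0 ≤ N.C1) (hc2 : 0 ≤ N.c2) : ∃ p₁ : ℕ, ∀ p0 ≥ p₁, ∀ {c : Cf} {q : ℕ},
    BFP N c p0 q → 0 < c.r q → ∀ {m : ℕ}, 0 < m → 4 * (c.t.mt q).card ≤ m →
    ∑ s ∈ c.t.mt q, ∑ a : Fin m × Fin m, wv m *
      (if EI N p0 (ge m a.1 a.2) c q s then 1 else 0) ≤ 12 := by
  obtain ⟨p₁, h⟩ := item_avg hC1 hc2
  refine ⟨p₁, fun p0 hp {c q} hB hr {m} hm hcard => ?_⟩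
  refine le_trans (le_of_eq ?_) (h p0 hp hB hr hm hcard)
  rw [Finset.sum_comm]
  refine Finset.sum_congr rfl fun a _ => ?_
  rw [← Finset.mul_sum, Finset.card_filter]
  push_cast
  rfl

end Crest.Agent.R4P.AvI32
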