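import Crest.Agent.R4P.EvC_47
import Crest.Agent.R4P.AvI_32

/-!
R4 (S0004) with powers, helper47 (leaf (f)): **the averaged credits of the label events in a context**
(`AvI_32` of helper32 in the form of `EvC_47`).

* `EIm N p0 e c q s` : `s` is a missing tie of `q` and `AvI32.EI` (birth in its zone, accuracy death near the
  threshold, size); `mX X` : number of grid points; `fam X`, `wX X` : the family of exponents and its weights.
* **`ctx_cnt`** : the averaged number of events of every item of a context in `SyBP` is `≤ 12`;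
  **`ctx_EI_avg`** : the averaged credits with the price `κ` are `≤ 36 κ`; `ctx_hJ` : the form of `Fm.hJ`.
* game labels `G` with the own labels `lab0P e` and ANY weaker criterion `ac` (`Wk`): `EIm_of_EN`, `EIm_of_EA`,
  **`EIm_of_size`** : at an own missing tie with radius `> 1 / p0` every change of the game label is an event.
-/

set_option autoImplicit false
set_option linter.unusedSectionVars false
set_option linter.unusedVariables false
open MeasureTheory Filter Set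

namespace Crest.Agent.R4P.EvJ47

open Crest.Agent.R4.Tour104 Crest.Agent.R4.Clos758 Crest.Agent.R4.ClosR758
open Crest.Agent.R4P.Cnt588 Crest.Agent.R4P.Item758 Crest.Agent.R4P.W363
open Crest.Agent.R4P.Data758
open Crest.Agent.R4P.Bld532 (NS All NodeOk Bk dv nd)
open Crest.Agent.R4P.StratN36 (ex)
open Crest.Agent.R4P.Step588 Crest.Agent.R4P.RseSt23
open Crest.Agent.R4P.DTp26 Crest.Agent.R4P.DTm407
open Crest.Agent.R4P.TYI47 Crest.Agent.R4P.TYJ47 Crest.Agent.R4P.TYK47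
open Crest.Agent.R4P.TYP9 Crest.Agent.R4P.RsT47
open Crest.Agent.R4P.Walk560 (DT WrN)
open Crest.Agent.R4P.Skel189 Crest.Agent.R4P.Frame758
open Crest.Agent.R4.Soft104 Crest.Agent.R4.Fam464
open Crest.Agent.R4P.StratX36 Crest.Agent.R4P.TopX36
open Crest.Agent.R4P.PVe45 (Cr LB)
open Crest.Agent.R4P.GWa343 (bB)
open Crest.Agent.R4P.GWc343 (bN bt)
open Crest.Agent.R4P.CrZ41 Crest.Agent.R4P.StJ6 Crest.Agent.R4P.CrF47 Crest.Agent.R4P.EvC47
open Crest.Agent.R4.W363 (lst)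
open Crest.Agent.R4P.PosP33 Crest.Agent.R4P.LabD33 Crest.Agent.R4P.EvP33 Crest.Agent.R4P.EvA33
open Crest.Agent.R4P.StG32 Crest.Agent.R4P.GlP32 Crest.Agent.R4P.StM246
open Crest.Agent.R4P.Bir30.BF (Rad)
open Crest.Agent.R4P.BirP47 Crest.Agent.R4P.AvI32 Crest.Agent.R4P.AvG32

/-! ### the events of an item -/

section item
variable {N : Skel189.Num} {c : Cf} {p0 n p q s : ℕ} {e : UV}

/-- **the events of the item `q` at its missing tie `s`** -/
def EIm (N : Skel189.Num) (p0 : ℕ) (e : UV) (c : Cf) (q s : ℕ) : Prop :=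
  s ∈ c.t.mt q ∧ EI N p0 e c q s

lemma EIm.mem (h : EIm N p0 e c q s) : s ∈ c.t.mt q := h.1

lemma EIm_of_EMP (h : EMP e (Zi N) c q s) : EIm N p0 e c q s := ⟨h.1, Or.inl h.2⟩

lemma EIm_of_EDP (h : EDP e (Zi N) c q s) : EIm N p0 e c q s := ⟨h.1, Or.inr (Or.inl h.2)⟩

/-- **game labels with the own labels `lab0P e` and a weaker criterion** of the item `q` -/
structure Wk (e : UV) (c : Cf) (q : ℕ) (G : GLb) : Prop where
  ok : G.OK c.γ (c.r q)
  ow : ∀ b, G.ow b = lab0P e c.γ (c.r q) b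
  ac : ∀ b κ, acc e c.γ (c.r q) b κ → G.ac b κ

/-- the permissive labels -/
theorem Wk.gC (e : UV) (c : Cf) (q : ℕ) : Wk e c q (gC e c q) :=
  ⟨gC_OK e c q, fun _ => rfl, fun _ _ h => h⟩

/-- **sticky for ever**: the criterion is void -/
noncomputable def gS (e : UV) (c : Cf) (q : ℕ) : GLb := ⟨lab0P e c.γ (c.r q), fun _ _ => True⟩

theorem Wk.gS (e : UV) (c : Cf) (q : ℕ) : Wk e c q (gS e c q) :=
  ⟨⟨fun _ _ hb h => lab0P_of_real hb h, fun _ _ _ _ => trivial, fun _ _ _ _ _ => trivial⟩,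
    fun _ => rfl, fun _ _ _ => trivial⟩

variable {G : ℕ → GLb}

lemma Wk.sl {G : GLb} (h : Wk e c q G) : ∀ L : List ℕ, G.sl L = sl e c.γ (c.r q) L
  | [] => h.ow 1
  | s :: L => by rw [GLb.sl_cons, LabD33.sl_cons, h.ow, h.sl L]

/-- a label of the permissive sparse regime is a label of the game -/
lemma Wk.sla {G : GLb} (h : Wk e c q G) {L : List ℕ} {κ : ℚ}
    (h1 : LabD33.sla e c.γ (c.r q) L = some κ) : G.sla L = some κ := by
  obtain ⟨h2, h3⟩ := LabD33.sla_some.1 h1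
  exact GLb.sla_some.2 ⟨by rw [h.sl, h2], h.ac _ _ h3⟩

/-- **the zone event of the game labels** -/
theorem EIm_of_EN (hG : Wk e c q (G q)) (hO : c.t.Ok n) (hl : c.lam p = 0) (hm : p ∈ c.t.mt q)
    (hthin : ((ms c p q).prod : ℝ) * c.r q ≤ c.wp.thr p)
    (h : EN (ZlP e (Zi N (Rad c q p)) c.γ (c.r q) (p :: lst (c.t.mt q) p).prod)
      (ghiG c G p q) (glowG c G p q)
      (own e c.γ (c.r q) (p :: lst (c.t.mt q) p))) : EIm N p0 e c q p := by
  obtain ⟨μ, h1, h2, h3, h4⟩ := h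
  refine EIm_of_EMP ⟨hm, μ, h3, fun h5 => h2 ?_, h4⟩
  rw [ghiG_sla hG.ok hO hl hthin]
  exact hG.sla h5

/-- an own missing tie, a death of the game label with the permissive criterion -/
theorem dead_of (e : UV) (c : Cf) (q : ℕ) (hG : G q = gC e c q) (hO : c.t.Ok n)
    (hl : c.lam p = 0) (hm : p ∈ c.t.mt q)
    (hthin : ((ms c p q).prod : ℝ) * c.r q ≤ c.wp.thr p) {κ : ℚ} (h1 : ghiG c G p q = some κ)
    (h2 : glowG c G p q = none) :
    LabD33.sla e c.γ (c.r q) (lst (c.t.mt q) p) = some κ ∧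
      own e c.γ (c.r q) (p :: lst (c.t.mt q) p) = none ∧
      ¬ acc e c.γ (c.r q) (p :: lst (c.t.mt q) p).prod κ := by
  have hok : (G q).OK c.γ (c.r q) := by rw [hG]; exact gC_OK e c q
  have hk := glowG_kind hok hO hl hm hthin
  rw [h1, h2] at hk
  rw [ghiG_sla hok hO hl hthin, hG] at h1
  have h3 : LabD33.sla e c.γ (c.r q) (lst (c.t.mt q) p) = some κ :=
    (gP_sla e c.γ (c.r q) _).symm.trans h1
  rcases hk with ⟨k1, -⟩ | ⟨κ', -, k1, -, -⟩ | ⟨ρ, -, k1, -⟩ | ⟨κ', k1, -, k3, -, k2⟩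
  · exact absurd k1 (by simp)
  · exact absurd k1 (by simp)
  · exact absurd k1 (by simp)
  · have e1 : κ = κ' := Option.some.inj k1
    subst e1
    rw [hG] at k2 k3
    refine ⟨h3, ?_, ?_⟩
    · show lab0P e c.γ (c.r q) (p :: lst (c.t.mt q) p).prod = none
      rw [List.prod_cons]
      exact k3
    · rw [List.prod_cons]
      exact k2

/-- **the accuracy event of the permissive game labels** -/
theorem EIm_of_EA (hG : G q = gC e c q) (hO : c.t.Ok n) (hl : c.lam p = 0) (hm : p ∈ c.t.mt q)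
    (hthin : ((ms c p q).prod : ℝ) * c.r q ≤ c.wp.thr p)
    (h : EA (NrP e (Zi N (Rad c q p)) c.γ (c.r q) (p :: lst (c.t.mt q) p).prod)
      (ghiG c G p q) (glowG c G p q)
      (own e c.γ (c.r q) (p :: lst (c.t.mt q) p))) : EIm N p0 e c q p := by
  obtain ⟨κ, h1, h2, h3, h4⟩ := h
  obtain ⟨a1, a2, a3⟩ := dead_of e c q hG hO hl hm hthin h1 h2
  exact EIm_of_EDP ⟨hm, κ, a1, a2, a3, h4⟩

/-- **size**: at an own missing tie with radius `> 1 / p0` every NEW game label is an event -/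
theorem EIm_of_new (hG : Wk e c q (G q)) (hO : c.t.Ok n) (hl : c.lam p = 0) (hm : p ∈ c.t.mt q)
    (hthin : ((ms c p q).prod : ℝ) * c.r q ≤ c.wp.thr p) (hR : 1 / (p0 : ℝ) < Rad c q p) {μ : ℚ}
    (h1 : glowG c G p q = some μ) (h2 : ghiG c G p q ≠ some μ) : EIm N p0 e c q p := by
  have hk := glowG_kind hG.ok hO hl hm hthin
  rcases hk with ⟨k1, -⟩ | ⟨κ, k0, k1, -, -⟩ | ⟨ρ, -, -, k1⟩ | ⟨κ, -, k1, -, -, -⟩
  · exact absurd (k1.symm.trans h1) h2
  · exact absurd (k0.trans (k1.symm.trans h1)) h2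
  · refine ⟨hm, Or.inr (Or.inr ⟨hR, Or.inl ⟨ρ, ?_⟩⟩)⟩
    rw [hG.ow] at k1
    show lab0P e c.γ (c.r q) (p :: lst (c.t.mt q) p).prod = some ρ
    rw [List.prod_cons]
    exact k1
  · rw [k1] at h1; exact absurd h1 (by simp)

/-- **size**, permissive criterion: every change of the game label is an event -/
theorem EIm_of_size (hG : G q = gC e c q) (hO : c.t.Ok n) (hl : c.lam p = 0) (hm : p ∈ c.t.mt q)
    (hthin : ((ms c p q).prod : ℝ) * c.r q ≤ c.wp.thr p) (hR : 1 / (p0 : ℝ) < Rad c q p)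
    (h : glowG c G p q ≠ ghiG c G p q) : EIm N p0 e c q p := by
  have hW : Wk e c q (G q) := by rw [hG]; exact Wk.gC e c q
  cases h1 : glowG c G p q with
  | some μ => exact EIm_of_new hW hO hl hm hthin hR h1 fun h2 => h (h1.trans h2.symm)
  | none =>
    cases h2 : ghiG c G p q with
    | none => exact absurd (h1.trans h2.symm) h
    | some κ =>
      obtain ⟨a1, a2, a3⟩ := dead_of e c q hG hO hl hm hthin h2 h1
      exact ⟨hm, Or.inr (Or.inr ⟨hR, Or.inr ⟨κ, a1, a2, a3⟩⟩)⟩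

end item

/-! ### a context -/

section ctx
open Crest.Agent.R4P.AsB407 Crest.Agent.R4P.DTn407
open Crest.Agent.R4P.ParF5 Crest.Agent.R4P.FinAll26 Crest.Agent.R4P.SxT6
open Crest.Agent.R4P.NbP47 (SyBP)

variable {N : Skel189.Num} {γ : ℝ} {p0 P₀ : ℕ}

/-- the number of grid points -/
noncomputable def mX (X : Ctx N γ p0 P₀) : ℕ := 4 * X.S'.sup (fun q => (X.c.t.mt q).card) + 1

lemma mX_pos (X : Ctx N γ p0 P₀) : 0 < mX X := Nat.succ_pos _

lemma mX_le (X : Ctx N γ p0 P₀) {q : ℕ} (hq : q ∈ X.S') : 4 * (X.c.t.mt q).card ≤ mX X := by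
  have := Finset.le_sup (f := fun q => (X.c.t.mt q).card) hq
  unfold mX
  have h2 : (X.c.t.mt q).card ≤ X.S'.sup fun q => (X.c.t.mt q).card := this
  omega

/-- the family of the label systems of a context -/
abbrev FX (X : Ctx N γ p0 P₀) : Type := Fin (mX X) × Fin (mX X)

instance (X : Ctx N γ p0 P₀) : Nonempty (FX X) := ⟨(⟨0, mX_pos X⟩, ⟨0, mX_pos X⟩)⟩

/-- the exponents -/
noncomputable def eX (X : Ctx N γ p0 P₀) (a : FX X) : UV := ge (mX X) a.1 a.2

/-- the weights -/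
noncomputable def wX (X : Ctx N γ p0 P₀) (a : FX X) : ℝ := wv (mX X)

lemma wX_nonneg (X : Ctx N γ p0 P₀) (a : FX X) : 0 ≤ wX X a := wv_nonneg _

lemma wX_sum (X : Ctx N γ p0 P₀) : ∑ a : FX X, wX X a = 1 := wv_sum (mX_pos X)

/-- **the averaged number of events of the items of a context** -/
theorem ctx_cnt {Ct C₀ c : ℝ} {Sx : ℕ → (ℕ → ℝ) → Finset ℕ → Finset ℕ} (hc : 1 ≤ c)
    (h : NumOK N (ParT21.thF Ct) Ct C₀ Sx) (hf : NumFin N (ParT21.thF Ct) Ct c) :
    ∃ p₁ : ℕ, ∀ p0 ≥ p₁, ∀ (γ : ℝ) (P₀ : ℕ) (X : Ctx N γ p0 P₀), InS SyBP N γ X → ∀ q ∈ X.S',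
      ∑ a : FX X, wX X a * (EvC47.cnt X.c (EIm N p0 (eX X a) X.c) q : ℝ) ≤ 12 := by
  have hC1 : 0 ≤ N.C1 := by linarith [hf.C1]
  have hc2 : 0 ≤ N.c2 := by rw [hf.c2]; norm_num
  obtain ⟨p1, h1⟩ := ev_factsP hc h hf
  obtain ⟨p2, h2⟩ := item_avg hC1 hc2
  refine ⟨max p1 p2, fun p0 hp γ P₀ X hX q hq => ?_⟩
  have hB := h1 p0 ((le_max_left _ _).trans hp) γ P₀ X hX q hq
  have hav := h2 p0 ((le_max_right _ _).trans hp) hB (X.rpos hq) (mX_pos X) (mX_le X hq)
  refine le_trans (Finset.sum_le_sum fun a _ => ?_) hav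
  refine mul_le_mul_of_nonneg_left ?_ (wX_nonneg X a)
  classical
  have h3 : EvC47.cnt X.c (EIm N p0 (eX X a) X.c) q ≤
      ((X.c.t.mt q).filter fun s => EI N p0 (ge (mX X) a.1 a.2) X.c q s).card := by
    unfold EvC47.cnt
    refine Finset.card_le_card fun s hs => ?_
    obtain ⟨k1, k2⟩ := Finset.mem_filter.1 hs
    exact Finset.mem_filter.2 ⟨k1, k2.2⟩
  exact_mod_cast h3

variable {X : Ctx N γ p0 P₀} {Q : NS → IT → Prop} {C : ℝ}
  {ζ : FX X → Type} [∀ i, Fintype (ζ i)]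
  [∀ i, DecidableEq (ζ i)] {D : ∀ i, TD Me X.c.Lam (LbX X) (ζ i)}
  {H : ∀ i, TYp (rhoX X) (D i) (InvM X Q C)} {tu : ∀ i, (D i).tu = tuM}
  {hQ : ∀ u τ, Q u τ → NDt X.par (w X.ψ) X.c.t u τ} {hd1 : X.c.d1 * Kc X.S ≤ 1}

/-- **the averaged credits of the label events, one piece** -/
theorem ctx_EI_avg {κ : ℝ} {hκ : 0 ≤ κ}
    (hJ : ∀ q ∈ X.S', ∑ a : FX X, wX X a * (EvC47.cnt X.c (EIm N p0 (eX X a) X.c) q : ℝ) ≤ 12) {p : ℕ}
    {b : Me × List (DT X.c.Lam (LbX X))} (hb : InvM X Q C p b) {j : X.c.Lam} {x : ℝ}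
    (hj : jv b.2 j x ≠ 0) :
    ∑ a : FX X, wX X a *
      (crX (H a) (tu a) hQ hd1 (EvI X.c (EIm N p0 (eX X a) X.c) κ hκ)).ρ p b j x ≤ 36 * κ := by
  have h1 := EvI_avg (H := H) (tu := tu) (hQ := hQ) (hd1 := hd1) (κ := κ) (hκ := hκ) (J := 12)
    (wX_nonneg X) (P := fun a => EIm N p0 (eX X a) X.c) (fun a q s h => h.1) hJ hb hj
  linarith

/-- **the field `hJ` of `Fm`** at the start bundle: averaged linear charges from the averaged credits of the
pieces -/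
theorem fm_hJ {A : Type} [Fintype A] {ω : A → ℝ} {n : ℕ} {u : NS} {τ : IT}
    (G : A → Gm X Q C n) {J : ℝ}
    (hB : InvM X Q C (X.self u τ Finset.univ).p (b₀ X u τ))
    (hρ : ∀ j x, jv (b₀ X u τ).2 j x ≠ 0 →
      ∑ i, ω i * (G i).Z1.ρ (X.self u τ Finset.univ).p (b₀ X u τ) j x ≤ J) (x : ℝ) :
    ∑ i, ω i * (G i).Z1.bch.Y (X.self u τ Finset.univ).p (b₀ X u τ) x ≤
      J * tt Finset.univ (X.g u τ) x := by
  have h := avg_Y (H := fun i => (G i).H) (ω := ω) (fun i => (G i).Z1) hB hρ x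
  have e : bt (b₀ X u τ).2 x = tt Finset.univ (X.g u τ) x := bt_start X u τ x
  rw [e] at h
  exact h

end ctx

end Crest.Agent.R4P.EvJ47
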