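import Crest.Agent.R4P.OmW_11
import Crest.Agent.R4P.RsT_47

/-!
R4 (S0004) with powers, helper11: **the weight of the bundles with many missing ties**, for the group
states of the walk on the real trees.

* `Bs P T l B` : every prime `q ≤ P` of `B` was passed on the N side at its last C-step;
* `mem_rsR` : the trees of `rs p` for any relation closed under add, far and up nodes;
* `GT X Q P p T l b` : the trees of the bundle `b` are nodes with `Bs`; `GT.toP`, `GT.toN`, `GT.toR`, `GT.start`;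
* `St X Q P p s` : group states (`∃ T`, `OmW11.HS`), `St.one`, `St.toC`, `St.toN`;
* `Om a δ n P M` : the list `M` of the missing ties has at least `δ i` elements in some window
  `[n, P] ∩ {log log ≤ a i}`, `log log n ≤ a i`;
* **`St.om_le`** : the members with a flagged tree have weight `≤ (log p) ^ (-e)` (`2 a < δ`, `e a < δ`).
-/

set_option autoImplicit false
set_option linter.unusedSectionVars false
set_option linter.unusedVariables false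
open MeasureTheory Filter

namespace Crest.Agent.R4P.OmX11

open Crest.Agent.R4.Tour104 Crest.Agent.R4.Tour758 Crest.Agent.R4.Avg758 Crest.Agent.R4.Clos758
open Crest.Agent.R4.ClosL758 Crest.Agent.R4.ClosG758 Crest.Agent.R4.ClosR758
open Crest.Agent.R4P.ClosR442 Crest.Agent.R4P.Grp36
open Crest.Agent.R4P.Xfer36 Crest.Agent.R4P.TopC36 Crest.Agent.R4P.PN36
open Crest.Agent.R4P.GMer27 Crest.Agent.R4P.GWa343 Crest.Agent.R4P.GWb343
open Crest.Agent.R4P.GWc343 Crest.Agent.R4P.GWf343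
open Crest.Agent.R4P.RSys343 Crest.Agent.R4P.PayR45
open Crest.Agent.R4P.GSK55 (one)
open Crest.Agent.R4P.Cnt588 Crest.Agent.R4P.Item758 Crest.Agent.R4P.Data758
open Crest.Agent.R4P.Bld532 (NS All NodeOk Bk)
open Crest.Agent.R4P.WalkIT579 (tp isL toDT_top toDT_leaf)
open Crest.Agent.R4P.Walk560 (DT)
open Crest.Agent.R4P.Step588 Crest.Agent.R4P.RseSt23
open Crest.Agent.R4P.DTp26 Crest.Agent.R4P.DTm407
open Crest.Agent.R4P.TYI47 Crest.Agent.R4P.TYJ47 Crest.Agent.R4P.TYK47 Crest.Agent.R4P.TYP9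
open Crest.Agent.R4P.RsT47
open Crest.Agent.R4P.Skel189 Crest.Agent.R4P.Frame758
open Crest.Agent.R4.Soft104 Crest.Agent.R4.Fam464
open Crest.Agent.R4P.StratX36 Crest.Agent.R4P.TopX36
open Crest.Agent.R4P.OmW11

/-! ### trees -/

section nodes
variable {Λ κ : Type} [Fintype Λ] [DecidableEq Λ] [Fintype κ] [DecidableEq κ]
  {D : Par Λ κ} {sp : ℕ → Finset Λ}

/-- closed under the nodes add, far and up at the column `p` -/
structure Ad (p : ℕ) (R : NS → IT → Prop) : Prop where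
  add : ∀ {s t₁ t₀}, R s (.add p t₁ t₀) → R ⟨p + 1, s.c, s.A, s.B⟩ t₁ ∧
    R ⟨p + 1, s.c, s.A, s.B⟩ t₀
  far : ∀ {s t₁ t₀}, R s (.far p t₁ t₀) → R ⟨p + 1, s.c, s.A, s.B⟩ t₁ ∧
    R ⟨p + 1, s.c, s.A, s.B⟩ t₀
  up : ∀ {s Sp t}, R s (.up p Sp t) → R ⟨p, s.c, s.A, s.B⟩ t

/-- the trees of a list are nodes with `R` -/
def mR (D : Par Λ κ) (sp : ℕ → Finset Λ) (R : NS → IT → Prop) (L : List (DT Λ κ)) : Prop :=
  ∀ t ∈ L, ∃ s τ, R s τ ∧ t = D.toDT sp s.B s.A τ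

variable {R R' : NS → IT → Prop} {p : ℕ}

lemma mem_rsR (H : Ad p R) : ∀ (τ : IT) (s : NS), R s τ → mR D sp R (rs p (D.toDT sp s.B s.A τ)) := by
  intro τ
  induction τ with
  | leaf S =>
    intro s hs t ht
    have e : t = D.toDT sp s.B s.A (.leaf S) := by
      have h : t ∈ [D.toDT sp s.B s.A (.leaf S)] := ht
      simpa using h
    exact ⟨s, _, hs, e⟩
  | br q Sp t₁ t₀ ih₁ ih₀ =>
    intro s hs t ht
    have e : t = D.toDT sp s.B s.A (.br q Sp t₁ t₀) := by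
      have h : t ∈ [D.toDT sp s.B s.A (.br q Sp t₁ t₀)] := ht
      simpa using h
    exact ⟨s, _, hs, e⟩
  | pl q t₁ ih =>
    intro s hs t ht
    have e : t = D.toDT sp s.B s.A (.pl q t₁) := by
      have h : t ∈ [D.toDT sp s.B s.A (.pl q t₁)] := ht
      simpa using h
    exact ⟨s, _, hs, e⟩
  | add q t₁ t₀ ih₁ ih₀ =>
    intro s hs t ht
    have ht' : t ∈ (if q = p then rs p (D.toDT sp s.B s.A t₁) ++ rs p (D.toDT sp s.B s.A t₀)
      else [D.toDT sp s.B s.A (.add q t₁ t₀)]) := ht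
    split_ifs at ht' with hq
    · subst hq
      obtain ⟨h1, h0⟩ := H.add hs
      rcases List.mem_append.1 ht' with h | h
      · exact ih₁ ⟨q + 1, s.c, s.A, s.B⟩ h1 t h
      · exact ih₀ ⟨q + 1, s.c, s.A, s.B⟩ h0 t h
    · exact ⟨s, _, hs, by simpa using ht'⟩
  | far q t₁ t₀ ih₁ ih₀ =>
    intro s hs t ht
    have ht' : t ∈ (if q = p then rs p (D.toDT sp s.B s.A t₁) ++ rs p (D.toDT sp s.B s.A t₀)
      else [D.toDT sp s.B s.A (.far q t₁ t₀)]) := ht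
    split_ifs at ht' with hq
    · subst hq
      obtain ⟨h1, h0⟩ := H.far hs
      rcases List.mem_append.1 ht' with h | h
      · exact ih₁ ⟨q + 1, s.c, s.A, s.B⟩ h1 t h
      · exact ih₀ ⟨q + 1, s.c, s.A, s.B⟩ h0 t h
    · exact ⟨s, _, hs, by simpa using ht'⟩
  | up q Sp t₁ ih =>
    intro s hs t ht
    have ht' : t ∈ (if q = p then rs p (D.toDT sp s.B s.A t₁)
      else [D.toDT sp s.B s.A (.up q Sp t₁)]) := ht
    split_ifs at ht' with hq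
    · subst hq
      exact ih ⟨q, s.c, s.A, s.B⟩ (H.up hs) t ht'
    · exact ⟨s, _, hs, by simpa using ht'⟩

lemma mR.flat (H : Ad p R) {L : List (DT Λ κ)} (h : mR D sp R L) :
    mR D sp R (L.flatMap (rs p)) := by
  intro t ht
  obtain ⟨u, hu, ht⟩ := List.mem_flatMap.1 ht
  obtain ⟨s, τ, hs, rfl⟩ := h u hu
  exact mem_rsR H τ s hs t ht

lemma mR.filter {L : List (DT Λ κ)} (h : mR D sp R L) (f : DT Λ κ → Bool) :
    mR D sp R (L.filter f) := fun t ht => h t (List.mem_filter.1 ht).1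

lemma mR.bB (H : Ad p R) {L : List (DT Λ κ)} (h : mR D sp R L) : mR D sp R (GWa343.bB p L) :=
  (h.flat H).filter _

lemma mR.bN (H : Ad p R) {L : List (DT Λ κ)} (h : mR D sp R L) : mR D sp R (GWc343.bN p L) :=
  ((h.flat H).filter _).filter _

/-- a tree of `bB` is a tie or a pull at the column -/
lemma bB_casesR (H : Ad p R) {L : List (DT Λ κ)} (h : mR D sp R L)
    {t : DT Λ κ} (ht : t ∈ GWa343.bB p L) :
    (∃ s Sp t₁ t₀, R s (.br p Sp t₁ t₀) ∧ t = D.toDT sp s.B s.A (.br p Sp t₁ t₀)) ∨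
    ∃ s t₁, R s (.pl p t₁) ∧ t = D.toDT sp s.B s.A (.pl p t₁) := by
  obtain ⟨s, τ, hs, rfl⟩ := h.bB H t ht
  have hb := isB_of_bB ht
  obtain ⟨w, r, a, b, v, B, G, e⟩ := isB_eq hb
  cases τ with
  | leaf S => exact absurd e (by simp [Par.toDT])
  | add q t₁ t₀ => exact absurd e (by simp [Par.toDT])
  | far q t₁ t₀ => exact absurd e (by simp [Par.toDT])
  | up q Sp t₁ => exact absurd e (by simp [Par.toDT])
  | br q Sp t₁ t₀ =>
    have hq : q = p := by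
      have := congrArg DT.top e
      exact this
    subst hq
    exact Or.inl ⟨s, Sp, t₁, t₀, hs, rfl⟩
  | pl q t₁ =>
    have hq : q = p := by
      have := congrArg DT.top e
      exact this
    subst hq
    exact Or.inr ⟨s, t₁, hs, rfl⟩

/-- the P side -/
lemma mR.toP (H : Ad p R) {L : List (DT Λ κ)} (h : mR D sp R L)
    (hb : ∀ {s Sp t₁ t₀}, R s (.br p Sp t₁ t₀) →
      R' ⟨p, s.c / (1 - 1 / (p : ℝ)), s.A * p, s.B⟩ t₁)
    (hpl : ∀ {s t}, R s (.pl p t) → R' ⟨p + 1, s.c, s.A * p, s.B⟩ t) :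
    mR D sp R' ((GWa343.bB p L).map chP) := by
  intro t ht
  obtain ⟨u, hu, rfl⟩ := List.mem_map.1 ht
  rcases bB_casesR H h hu with ⟨s, Sp, t₁, t₀, hs, rfl⟩ | ⟨s, t₁, hs, rfl⟩
  · exact ⟨_, t₁, hb hs, rfl⟩
  · exact ⟨_, t₁, hpl hs, rfl⟩

/-- the N side -/
lemma mR.toN (H : Ad p R) (hp : p ≠ 0) {L : List (DT Λ κ)} (h : mR D sp R L)
    (hb : ∀ {s Sp t₁ t₀}, R s (.br p Sp t₁ t₀) → R' ⟨p, s.c * p, s.A, s.B * p⟩ t₀)
    (hpl : ∀ {s t}, R s (.pl p t) → R' ⟨p + 1, s.c, s.A * p, s.B⟩ t) :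
    mR D sp R' ((GWa343.bB p L).map chN) := by
  intro t ht
  obtain ⟨u, hu, rfl⟩ := List.mem_map.1 ht
  rcases bB_casesR H h hu with ⟨s, Sp, t₁, t₀, hs, rfl⟩ | ⟨s, t₁, hs, rfl⟩
  · refine ⟨_, t₀, hb hs, ?_⟩
    have hp' : (p : ℝ) ≠ 0 := by exact_mod_cast hp
    have hw : (1 / (p : ℝ)) ≠ 0 := one_div_ne_zero hp'
    show (if 1 / (p : ℝ) = 0 then _ else _) = _
    rw [if_neg hw]
  · refine ⟨_, t₁, hpl hs, ?_⟩
    show (if (0 : ℝ) = 0 then _ else _) = _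
    rw [if_pos rfl]

end nodes

/-! ### the bundles -/

/-- every prime `q ≤ P` of `B` was passed on the N side at its last C-step -/
def Bs (P : ℕ) (T : List ℕ) (l : List Bool) (B : ℕ) : Prop :=
  ∀ q : ℕ, q.Prime → q ∣ B → q ≤ P → lastN T l q

section ctx
variable {N : Skel189.Num} {γ : ℝ} {p0 P₀ : ℕ} {X : Ctx N γ p0 P₀} {Q : NS → IT → Prop}

/-- the relation of the nodes of a bundle -/
def Rb (X : Ctx N γ p0 P₀) (Q : NS → IT → Prop) (P p : ℕ) (m : Me) (T : List ℕ) (l : List Bool)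
    (u : NS) (τ : IT) : Prop := RtX X Q p m u τ ∧ Bs P T l u.B

lemma Rb.ad (hQ : ∀ u τ, Q u τ → NDt X.par (w X.ψ) X.c.t u τ) {P p : ℕ} {m : Me} {T : List ℕ}
    {l : List Bool} : Ad p (Rb X Q P p m T l) where
  add := fun h => ⟨⟨((carX hQ).add h.1).1, h.2⟩, ⟨((carX hQ).add h.1).2, h.2⟩⟩
  far := fun h => ⟨⟨((carX hQ).far h.1).1, h.2⟩, ⟨((carX hQ).far h.1).2, h.2⟩⟩
  up := fun h => ⟨(carX hQ).up h.1, h.2⟩

/-- **the trees of the bundle are nodes with `Bs`** -/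
def GT (X : Ctx N γ p0 P₀) (Q : NS → IT → Prop) (P p : ℕ) (T : List ℕ) (l : List Bool)
    (b : Me × List (DT X.c.Lam (LbX X))) : Prop :=
  mR (X.c.D.par X.Y) X.c.sp (Rb X Q P p b.1 T l) b.2

lemma GT.start {P : ℕ} {u : NS} {τ : IT} (h : RtX X Q (tp τ) (mS u τ) u τ)
    (hP : ∀ q : ℕ, q.Prime → q ∣ u.B → P < q) :
    GT X Q P (tp τ) [] [] (mS u τ, [(X.c.D.par X.Y).toDT X.c.sp u.B u.A τ]) := by
  intro t ht
  have ht' := List.mem_singleton.1 ht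
  exact ⟨u, τ, ⟨h, fun q hq hd hle => absurd hle (not_le.2 (hP q hq hd))⟩, ht'⟩

lemma prime_gt (hQ : ∀ u τ, Q u τ → NDt X.par (w X.ψ) X.c.t u τ) {p : ℕ} {m : Me} {u : NS} {τ : IT}
    (h : RtX X Q p m u τ) (hl : ¬ isL τ) {q : ℕ} (hq : q.Prime) (hd : q ∣ u.B) : tp τ < q := by
  have h1 := tp_lt_n hQ h.1.rm.all hl
  have h2 := (hQ _ _ h.1.rm.all.self).bk.geB q hq hd
  omega

lemma GT.toP (hQ : ∀ u τ, Q u τ → NDt X.par (w X.ψ) X.c.t u τ) {P p : ℕ} {T : List ℕ}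
    {l : List Bool} {b : Me × List (DT X.c.Lam (LbX X))} (h : GT X Q P p T l b) :
    GT X Q P p (p :: T) (true :: l) (tuM p b.1, (GWa343.bB p b.2).map chP) := by
  refine mR.toP (Rb.ad hQ) h ?_ ?_
  · intro s Sp t₁ t₀ hs
    refine ⟨((carX hQ).br hs.1).1, fun q hq hd hle => ?_⟩
    have h1 : p < q := prime_gt hQ hs.1 (fun h => h) hq hd
    exact (lastN_ne h1.ne' T true l).2 (hs.2 q hq hd hle)
  · intro s t hs
    refine ⟨(carX hQ).pl hs.1, fun q hq hd hle => ?_⟩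
    have h1 : p < q := prime_gt hQ hs.1 (fun h => h) hq hd
    exact (lastN_ne h1.ne' T true l).2 (hs.2 q hq hd hle)

lemma GT.toN (hQ : ∀ u τ, Q u τ → NDt X.par (w X.ψ) X.c.t u τ) {P p : ℕ} (hp : p ≠ 0) {T : List ℕ}
    {l : List Bool} {b : Me × List (DT X.c.Lam (LbX X))} (h : GT X Q P p T l b) :
    GT X Q P p (p :: T) (false :: l) (tuM p b.1, (GWa343.bB p b.2).map chN) := by
  refine mR.toN (Rb.ad hQ) hp h ?_ ?_
  · intro s Sp t₁ t₀ hs
    refine ⟨((carX hQ).br hs.1).2, fun q hq hd hle => ?_⟩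
    have hd' : q ∣ s.B * p := hd
    by_cases h2 : q = p
    · subst h2
      exact (lastN_same q T false l).2 rfl
    · have hpp : p.Prime := prime_of_br (hQ _ _ hs.1.1.rm.all.self).self.node
      have h3 : q ∣ s.B := by
        rcases (Nat.Prime.dvd_mul hq).1 hd' with h | h
        · exact h
        · exact absurd ((Nat.prime_dvd_prime_iff_eq hq hpp).1 h) h2
      exact (lastN_ne h2 T false l).2 (hs.2 q hq h3 hle)
  · intro s t hs
    refine ⟨(carX hQ).pl hs.1, fun q hq hd hle => ?_⟩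
    have h1 : p < q := prime_gt hQ hs.1 (fun h => h) hq hd
    exact (lastN_ne h1.ne' T false l).2 (hs.2 q hq hd hle)

lemma GT.toR (hQ : ∀ u τ, Q u τ → NDt X.par (w X.ψ) X.c.t u τ) {P p : ℕ} (hp : p ≠ 0)
    {F : DT X.c.Lam (LbX X) → Prop} {T : List ℕ}
    {l : List Bool} {b : Me × List (DT X.c.Lam (LbX X))} (hb : BI F p b.2) (h : GT X Q P p T l b) :
    GT X Q P (p - 1) T l (b.1, GWc343.bN p b.2) := by
  intro t ht
  obtain ⟨s, τ, hs, e⟩ := mR.bN (Rb.ad hQ) h t ht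
  have h1 := hb.bN.col t ht
  have h2 := zero_of_bN ht
  have h3 := h1.top_le
  subst e
  refine ⟨s, τ, ⟨(carX hQ).down hp hs.1 ?_ ?_, hs.2⟩, rfl⟩
  · have e1 := toDT_top (X.c.D.par X.Y) X.c.sp s.B s.A τ
    have h4 : ((X.c.D.par X.Y).toDT X.c.sp s.B s.A τ).top < p := lt_of_le_of_ne h3 h2.2.1
    rwa [e1] at h4
  · intro hl
    exact h2.2.2 ((toDT_leaf (X.c.D.par X.Y) X.c.sp s.B s.A τ).2 hl)

/-! ### the states -/

/-- the bundle maps are those of the typed bundles -/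
structure BT (X : Ctx N γ p0 P₀) (M : BM (Me × List (DT X.c.Lam (LbX X)))) : Prop where
  P : ∀ p b, M.cP p b = (tuM p b.1, (GWa343.bB p b.2).map chP)
  N : ∀ p b, M.cN p b = (tuM p b.1, (GWa343.bB p b.2).map chN)
  R : ∀ p b, M.rN p b = (b.1, GWc343.bN p b.2)

variable {C : ℝ}

lemma Inv_P (hQ : ∀ u τ, Q u τ → NDt X.par (w X.ψ) X.c.t u τ) {p : ℕ} (hp : p ≠ 0)
    {b : Me × List (DT X.c.Lam (LbX X))} (h : InvM X Q C p b) :
    InvM X Q C p (tuM p b.1, (GWa343.bB p b.2).map chP) :=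
  ⟨h.bi.toP, (TB_chP p b.2).trans h.bnd, (mokX hQ _).toP hp h.bi h.mi⟩

lemma Inv_N (hQ : ∀ u τ, Q u τ → NDt X.par (w X.ψ) X.c.t u τ) {p : ℕ} (hp : p ≠ 0)
    {b : Me × List (DT X.c.Lam (LbX X))} (h : InvM X Q C p b) :
    InvM X Q C p (tuM p b.1, (GWa343.bB p b.2).map chN) :=
  ⟨h.bi.toN, (TB_chN p b.2).trans h.bnd, (mokX hQ _).toN hp h.bi h.mi⟩

lemma Inv_R (hQ : ∀ u τ, Q u τ → NDt X.par (w X.ψ) X.c.t u τ) {p : ℕ} (hp : p ≠ 0)
    {b : Me × List (DT X.c.Lam (LbX X))} (h : InvM X Q C p b) :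
    InvM X Q C (p - 1) (b.1, GWc343.bN p b.2) :=
  ⟨h.bi.toR hp, (TB_bN p b.2).trans h.bnd, (mokX hQ _).toR hp h.bi h.mi⟩

/-- **group states of the walk from a node at the column `P`** -/
def St (X : Ctx N γ p0 P₀) (Q : NS → IT → Prop) (C : ℝ) (P p : ℕ)
    (s : Gs (Me × List (DT X.c.Lam (LbX X)))) : Prop :=
  ∃ T, HS T s fun l b => GT X Q P p T l b ∧ InvM X Q C p b

/-- the start -/
theorem St.one {u : NS} {τ : IT} (h : RtX X Q (tp τ) (mS u τ) u τ)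
    (hQ : ∀ u τ, Q u τ → NDt X.par (w X.ψ) X.c.t u τ) (hl : ¬ isL τ)
    (hI : InvM X Q C (tp τ) (mS u τ, [(X.c.D.par X.Y).toDT X.c.sp u.B u.A τ])) :
    St X Q C (tp τ) (tp τ) (one (mS u τ, [(X.c.D.par X.Y).toDT X.c.sp u.B u.A τ])) :=
  ⟨[], HS.one ⟨GT.start h fun q hq hd => prime_gt hQ h hl hq hd, hI⟩⟩

theorem St.toC (hQ : ∀ u τ, Q u τ → NDt X.par (w X.ψ) X.c.t u τ)
    {M : BM (Me × List (DT X.c.Lam (LbX X)))} (hM : BT X M) {P p : ℕ} (hp : p ≠ 0)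
    {s : Gs (Me × List (DT X.c.Lam (LbX X)))} (h : St X Q C P p s) : St X Q C P p (M.C p s) := by
  obtain ⟨T, h⟩ := h
  by_cases h2 : 2 ≤ p
  · refine ⟨p :: T, h.C M h2 ?_ ?_⟩
    · rintro l b ⟨h3, h4⟩
      rw [hM.P]
      exact ⟨h3.toP hQ, Inv_P hQ hp h4⟩
    · rintro l b ⟨h3, h4⟩
      rw [hM.N]
      exact ⟨h3.toN hQ hp, Inv_N hQ hp h4⟩
  · refine ⟨T, h.C1 M h2 ?_⟩
    rintro l b ⟨h3, h4⟩
    rw [hM.P]
    refine ⟨?_, Inv_P hQ hp h4⟩
    have e : p = 1 := by omega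
    subst e
    intro t ht
    have h5 : GWa343.bB 1 b.2 = [] := h4.bi.no1
    have ht' : t ∈ (GWa343.bB 1 b.2).map chP := ht
    rw [h5] at ht'
    simp at ht'

theorem St.toN (hQ : ∀ u τ, Q u τ → NDt X.par (w X.ψ) X.c.t u τ)
    {M : BM (Me × List (DT X.c.Lam (LbX X)))} (hM : BT X M) {P p : ℕ} (hp : p ≠ 0)
    {s : Gs (Me × List (DT X.c.Lam (LbX X)))} (h : St X Q C P p s) :
    St X Q C P (p - 1) (M.N p s) := by
  obtain ⟨T, h⟩ := h
  refine ⟨T, h.N M ?_⟩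
  rintro l b ⟨h3, h4⟩
  rw [hM.R]
  exact ⟨h3.toR hQ hp h4.bi, Inv_R hQ hp h4⟩

/-- **many missing ties**: at least `δ i` in a window `[n, P]`, `log log ≤ a i` -/
def Om (a δ : ℝ) (n P : ℕ) (M : Finset ℕ) : Prop :=
  ∃ i : ℕ, Real.log (Real.log n) ≤ a * i ∧ δ * i ≤ ((Wn a n P i ∩ M).card : ℝ)

/-- going down the flag persists -/
lemma Om.mono {a δ : ℝ} {n n' P : ℕ} {M M' : Finset ℕ} (h : Om a δ n P M) (hn : n' ≤ n)
    (h3 : 3 ≤ n') (hM : M ⊆ M') : Om a δ n' P M' := by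
  obtain ⟨i, h1, h2⟩ := h
  have hl : Real.log (Real.log n') ≤ Real.log (Real.log n) := by
    have h4 : (1 : ℝ) < n' := by exact_mod_cast (show 1 < n' by omega)
    have h5 : 0 < Real.log n' := Real.log_pos h4
    exact Real.log_le_log h5 (Real.log_le_log (by linarith) (by exact_mod_cast hn))
  refine ⟨i, hl.trans h1, h2.trans ?_⟩
  have h6 : (Wn a n P i ∩ M) ⊆ (Wn a n' P i ∩ M') := by
    intro q hq
    obtain ⟨h7, h8⟩ := Finset.mem_inter.1 hq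
    have h9 := mem_Wn.1 h7
    exact Finset.mem_inter.2 ⟨mem_Wn.2 ⟨⟨hn.trans h9.1.1, h9.1.2⟩, h9.2⟩, hM h8⟩
  exact_mod_cast Finset.card_le_card h6

/-- a present piece sits in a node of the bundle -/
lemma GT.node (hQ : ∀ u τ, Q u τ → NDt X.par (w X.ψ) X.c.t u τ) {P p : ℕ} {T : List ℕ}
    {l : List Bool} {b : Me × List (DT X.c.Lam (LbX X))} (h : GT X Q P p T l b) {j : X.c.Lam}
    {x : ℝ} (hj : jv b.2 j x ≠ 0) : ∃ u τ, RtX X Q p b.1 u τ ∧ Bs P T l u.B ∧ j.1.1 ∈ τ.items ∧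
      pm X.c.t p b.1 j.1.1 = u.B.primeFactors := by
  obtain ⟨t, ht, h1⟩ := jv_mem hj
  obtain ⟨u, τ, hs, e⟩ := h t ht
  subst e
  have h2 := (ctx_supp (hQ _ _ hs.1.1.rm.all.self) h1).1
  exact ⟨u, τ, hs.1, hs.2, h2, (hs.1.1.rm.pf hQ X.tOk h2).symm⟩

open Classical in
/-- **the members with a piece with many missing ties have weight `≤ (log p) ^ (-e)`** -/
theorem St.om_le {a δ e : ℝ} (ha : 0 < a) (h2 : 2 * a < δ) (he : e * a < δ) :
    ∃ n₀ : ℕ, 16 ≤ n₀ ∧ ∀ {N : Skel189.Num} {γ : ℝ} {p0 P₀ : ℕ} {X : Ctx N γ p0 P₀}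
      {Q : NS → IT → Prop} (hQ : ∀ u τ, Q u τ → NDt X.par (w X.ψ) X.c.t u τ) {C : ℝ} {P p : ℕ}
      {s : Gs (Me × List (DT X.c.Lam (LbX X)))}, n₀ ≤ p → St X Q C P p s → (∀ k, 0 ≤ s.c k) →
      ∑ k, (if ∃ j x, jv (s.L k).2 j x ≠ 0 ∧ Om a δ p P (pm X.c.t p (s.L k).1 j.1.1)
        then s.c k else 0) ≤ Real.log p ^ (-e) := by
  obtain ⟨n₀, hn, H⟩ := OmW11.om_le ha h2 he
  refine ⟨n₀, hn, ?_⟩
  intro N γ p0 P₀ X Q hQ C P p s hp hs c0
  obtain ⟨T, h, hW, hG⟩ := hs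
  refine H p hp P hW c0 _ fun k hk => ?_
  obtain ⟨j, x, hj, i, h3, h4⟩ := hk
  refine ⟨i, h3, h4.trans ?_⟩
  obtain ⟨u, τ, -, h5, -, h6⟩ := (hG k).1.node hQ hj
  have h7 : (Wn a p P i ∩ pm X.c.t p (s.L k).1 j.1.1).card ≤ cntN (Wn a p P i) T (h k) := by
    unfold cntN
    refine Finset.card_le_card fun q hq => ?_
    obtain ⟨h8, h9⟩ := Finset.mem_inter.1 hq
    rw [h6] at h9
    refine Finset.mem_filter.2 ⟨h8, ?_⟩
    exact h5 q (Nat.prime_of_mem_primeFactors h9) (Nat.dvd_of_mem_primeFactors h9) (mem_Wn.1 h8).1.2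
  exact_mod_cast h7

end ctx

end Crest.Agent.R4P.OmX11
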