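import Crest.Agent.R4P.FlG_845
import Crest.Agent.R4P.AsB_407
import Crest.Agent.R4P.OmX_11
import Crest.Agent.R4P.StJ_6

/-!
R4 (S0004) with powers, T3, helper845: **Lemma F in a context** (flags = pieces with many missing ties below
the start node leave the game).

* `FOk a δ F P p0` : interface of the flags of a game which starts at the column `P`; `Om_ok` : helper11's
  `Om a δ · P` is one;
* `last_le` : the members whose last step at the column `p` was on the N side have weight `≤ 1/p`;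
* `enU_leX` : the content which leaves the game at a rest, by the members;
* **`ctx_U`** : `Kw (cU) ≤ ε mu` at all nodes of a context.
-/

set_option autoImplicit false
set_option linter.unusedSectionVars false
set_option linter.unusedVariables false
open MeasureTheory Filter Set

namespace Crest.Agent.R4P.FlH845

open Crest.Agent.R4.Tour104 Crest.Agent.R4.Tour758 Crest.Agent.R4.Avg758 Crest.Agent.R4.Clos758
open Crest.Agent.R4.ClosL758 Crest.Agent.R4.ClosG758 Crest.Agent.R4.ClosR758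
open Crest.Agent.R4P.ClosR442 Crest.Agent.R4P.Grp36
open Crest.Agent.R4P.Xfer36 Crest.Agent.R4P.TopC36 Crest.Agent.R4P.PN36
open Crest.Agent.R4P.GMer27 Crest.Agent.R4P.GCol27 Crest.Agent.R4P.GWa343 Crest.Agent.R4P.GWb343
open Crest.Agent.R4P.GWc343 Crest.Agent.R4P.GWd343 Crest.Agent.R4P.GWf343 Crest.Agent.R4P.TrR343
open Crest.Agent.R4P.GWg343 (FX ctx_BI)
open Crest.Agent.R4P.RSys343 Crest.Agent.R4P.RXm55 Crest.Agent.R4P.MSm25
open Crest.Agent.R4P.MSd343 Crest.Agent.R4P.VR407 Crest.Agent.R4P.Bp407 Crest.Agent.R4P.DTm407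
open Crest.Agent.R4P.DTn407 Crest.Agent.R4P.DTo407
open Crest.Agent.R4P.DTp26
open Crest.Agent.R4P.Cnt588 Crest.Agent.R4P.Item758
open Crest.Agent.R4P.Bld532 (NS All NodeOk Bk Ws_nonneg)
open Crest.Agent.R4P.WalkIT579 (tp isL toDT_top toDT_leaf)
open Crest.Agent.R4P.Walk560 (DT WrN)
open Crest.Agent.R4P.Step588 Crest.Agent.R4P.RseSt23
open Crest.Agent.R4P.TYI47 Crest.Agent.R4P.TYJ47 Crest.Agent.R4P.TYK47 Crest.Agent.R4P.TYP9
open Crest.Agent.R4P.RsT47
open Crest.Agent.R4P.GSK55 (stp gk Pr Kw Kw_succ Kw_z Kw_mono one one_TC one_su)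
open Crest.Agent.R4P.PayR45 (BM BCh PV)
open Crest.Agent.R4P.MSi343 (su)
open Crest.Agent.R4P.Skel189 Crest.Agent.R4P.Frame758 Crest.Agent.R4P.Data758
open Crest.Agent.R4.Soft104 Crest.Agent.R4.Fam464
open Crest.Agent.R4P.StratX36 Crest.Agent.R4P.TopX36
open Crest.Agent.R4P.AsmX26 (QE ctx_QE)
open Crest.Agent.R4P.SkelF29 (BootF)
open Crest.Agent.R4P.Strip29 (AdF)
open Crest.Agent.R4P.CtxNF36 (par_PG)
open Crest.Agent.R4P.StE6 (Mhi)
open Crest.Agent.R4P.StJ6 (FMon flg)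
open Crest.Agent.R4P.OmW11 Crest.Agent.R4P.OmX11
open Crest.Agent.R4P.AsB407
open Crest.Agent.R4P.FlF845 Crest.Agent.R4P.FlG845

/-! ### flags -/

/-- **flags of a game which starts at the column `P`** -/
structure FOk (a δ : ℝ) (F : ℕ → Finset ℕ → Prop) (P p0 : ℕ) : Prop where
  mon : FMon F
  /-- nobody is flagged at the start -/
  start : ∀ {p : ℕ} {M : Finset ℕ}, p0 < p → (∀ q ∈ M, P < q) → ¬ F p M
  /-- flags appear only at missing ties -/
  ent : ∀ {p : ℕ} {M : Finset ℕ}, p0 + 1 < p → (∀ q ∈ M, p ≤ q) → F (p - 1) M →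
    ¬ F p (M.filter (p < ·)) → p ∈ M ∧ p ≤ P
  om : ∀ {p : ℕ} {M : Finset ℕ}, p0 < p → F p M → Om a δ p P M

lemma loglog_pos {n : ℕ} (h : 3 ≤ n) : 0 < Real.log (Real.log n) := by
  refine Real.log_pos ?_
  have h3 : (3 : ℝ) ≤ n := by exact_mod_cast h
  rw [Real.lt_log_iff_exp_lt (by linarith)]
  linarith [Real.exp_one_lt_d9]

lemma Om_small {a δ : ℝ} {n P : ℕ} {M : Finset ℕ} (h : n ≤ 2) : Om a δ n P M := by
  refine ⟨0, ?_, by simp⟩
  have h0 : (0 : ℝ) ≤ Real.log n := Real.log_natCast_nonneg n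
  have h1 : Real.log (n : ℝ) ≤ 1 := by
    rcases Nat.eq_zero_or_pos n with h2 | h2
    · rw [h2]; simp
    · have h3 : (0 : ℝ) < n := by exact_mod_cast h2
      have h4 : (n : ℝ) ≤ 2 := by exact_mod_cast h
      have := Real.log_le_sub_one_of_pos h3
      linarith
  have := Real.log_nonpos h0 h1
  simpa using this

/-- **helper11's flags** -/
theorem Om_ok {a δ : ℝ} (ha : 0 < a) (hδ : 0 < δ) {P p0 : ℕ} (h3 : 3 ≤ p0) :
    FOk a δ (fun n M => Om a δ n P M) P p0 where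
  mon := by
    intro p M M' hM h
    by_cases h1 : 3 ≤ p - 1
    · exact Om.mono h (Nat.sub_le _ _) h1 (by rw [← hM]; exact Finset.filter_subset _ _)
    · exact Om_small (by omega)
  start := by
    rintro p M hp hM ⟨i, h1, h2⟩
    have e : Wn a p P i ∩ M = ∅ := by
      rw [Finset.eq_empty_iff_forall_notMem]
      intro q hq
      obtain ⟨h4, h5⟩ := Finset.mem_inter.1 hq
      have h6 := (mem_Wn.1 h4).1.2
      have h7 := hM q h5
      omega
    rw [e, Finset.card_empty, Nat.cast_zero] at h2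
    have h8 : (i : ℝ) = 0 := by
      have h9 : (0 : ℝ) ≤ i := Nat.cast_nonneg i
      nlinarith
    rw [h8, mul_zero] at h1
    exact absurd h1 (not_le.2 (loglog_pos (by omega)))
  ent := by
    rintro p M hp hM ⟨i, h1, h2⟩ hn
    by_contra hc
    have hsub : ∀ q ∈ Wn a (p - 1) P i ∩ M, q ∈ Wn a p P i ∩ M.filter (p < ·) ∧
        Real.log (Real.log p) ≤ a * i := by
      intro q hq
      obtain ⟨h4, h5⟩ := Finset.mem_inter.1 hq
      have h6 := mem_Wn.1 h4
      have h7 := hM q h5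
      have h8 : q ≠ p := by
        rintro rfl
        exact hc ⟨h5, h6.1.2⟩
      refine ⟨Finset.mem_inter.2 ⟨mem_Wn.2 ⟨⟨h7, h6.1.2⟩, h6.2⟩,
        Finset.mem_filter.2 ⟨h5, by omega⟩⟩, ?_⟩
      refine le_trans ?_ h6.2.2
      have h9 : (1 : ℝ) < p := by exact_mod_cast (show 1 < p by omega)
      exact Real.log_le_log (Real.log_pos h9) (Real.log_le_log (by linarith) (by exact_mod_cast h7))
    rcases (Wn a (p - 1) P i ∩ M).eq_empty_or_nonempty with he | ⟨q, hq⟩
    · rw [he, Finset.card_empty, Nat.cast_zero] at h2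
      have h8 : (i : ℝ) = 0 := by
        have h9 : (0 : ℝ) ≤ i := Nat.cast_nonneg i
        nlinarith
      rw [h8, mul_zero] at h1
      exact absurd h1 (not_le.2 (loglog_pos (by omega)))
    · refine hn ⟨i, (hsub q hq).2, h2.trans ?_⟩
      exact_mod_cast Finset.card_le_card fun q hq => (hsub q hq).1
  om := fun _ h => h

/-! ### weights -/

open Classical in
/-- the last C-step at the column `p` on the N side: probability `≤ 1/p` -/
lemma Ex_last {p : ℕ} (hp : 1 ≤ p) {T : List ℕ} (hT : Ok2 T) :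
    Ex T (fun l => if lastN T l p then (1 : ℝ) else 0) ≤ 1 / (p : ℝ) := by
  have hp0 : (0 : ℝ) ≤ 1 / (p : ℝ) := by positivity
  induction T with
  | nil =>
    show (if lastN [] [] p then (1 : ℝ) else 0) ≤ _
    rw [if_neg (show ¬ lastN [] [] p from fun h => h)]
    exact hp0
  | cons q T ih =>
    have hq := w01 (hT q (by simp))
    have hT' : Ok2 T := fun r hr => hT r (by simp [hr])
    show (1 - 1 / (q : ℝ)) * Ex T (fun l => if lastN (q :: T) (true :: l) p then (1 : ℝ) else 0) +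
      1 / (q : ℝ) * Ex T (fun l => if lastN (q :: T) (false :: l) p then (1 : ℝ) else 0) ≤ _
    by_cases h : p = q
    · subst h
      have e1 : (fun l => if lastN (p :: T) (true :: l) p then (1 : ℝ) else 0) = fun _ => 0 := by
        funext l
        rw [if_neg]
        rw [lastN_same]
        simp
      have e2 : (fun l => if lastN (p :: T) (false :: l) p then (1 : ℝ) else 0) = fun _ => 1 := by
        funext l
        rw [if_pos]
        rw [lastN_same]
      rw [e1, e2, Ex_const, Ex_const]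
      linarith
    · have e1 : ∀ b, (fun l => if lastN (q :: T) (b :: l) p then (1 : ℝ) else 0) =
          fun l => if lastN T l p then (1 : ℝ) else 0 := by
        intro b
        funext l
        simp only [lastN_ne h]
      rw [e1, e1]
      have := ih hT'
      nlinarith [hq.1, hq.2]

open Classical in
/-- **the weight of the members with the last step at `p` on the N side** -/
lemma last_le {β : Type} {T : List ℕ} {s : Gs β} {h : s.J → List Bool} (H : HW T s h)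
    (c0 : ∀ k, 0 ≤ s.c k) {p : ℕ} (hp : 1 ≤ p) (E : s.J → Prop)
    (hE : ∀ k, E k → lastN T (h k) p) : ∑ k, (if E k then s.c k else 0) ≤ 1 / (p : ℝ) := by
  refine le_trans ?_ (Ex_last hp H.ok)
  rw [← H.sum fun l => if lastN T l p then (1 : ℝ) else 0]
  refine Finset.sum_le_sum fun k _ => ?_
  by_cases hk : E k
  · rw [if_pos hk, if_pos (hE k hk), mul_one]
  · rw [if_neg hk]
    refine mul_nonneg (c0 k) ?_
    split_ifs <;> norm_num

lemma wt_eq {β : Type} (s : Gs β) (f : β → ℝ → ℝ) (x : ℝ) : FlF845.wt s f x =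
    ∑ k, @ite ℝ (f (s.L k) x ≠ 0) (Classical.propDecidable _) (s.c k) 0 := by
  classical
  unfold FlF845.wt GMer27.M
  refine Finset.sum_congr rfl fun k _ => ?_
  beta_reduce
  by_cases hk : f (s.L k) x = 0
  · rw [if_pos hk, mul_zero, if_neg (not_not.2 hk)]
  · rw [if_neg hk, mul_one, if_pos hk]

/-! ### the nodes of a context -/

section nodes
variable {N : Skel189.Num} {γ : ℝ} {p0 P₀ : ℕ} {X : Ctx N γ p0 P₀} {Q : NS → IT → Prop} {C : ℝ}
  {ζ : Type} [Fintype ζ] [DecidableEq ζ] {D : TD Me X.c.Lam (LbX X) ζ} {F : ℕ → Finset ℕ → Prop}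

/-- the flag of a node -/
def fl (F : ℕ → Finset ℕ → Prop) (p : ℕ) (s : NS) : Prop := F p (s.B.primeFactors.filter (p < ·))

/-- the flag of an item of a node -/
lemma fl_item (hQ : ∀ u τ, Q u τ → NDt X.par (w X.ψ) X.c.t u τ) {p : ℕ} {m : Me} {s : NS} {τ : IT}
    (h : RtX X Q p m s τ) {q : ℕ} (hq : q ∈ τ.items) : fl F p s ↔ flg F X.c p q := by
  unfold fl flg
  have e : s.B.primeFactors = pm X.c.t p m q := h.1.rm.pf hQ X.tOk hq
  rw [e, StJ6.pm_hi]

lemma p0_lt {u : NS} {τ : IT} (h : NodeOk X.par (w X.ψ) u τ) (hl : ¬ isL τ) : p0 < tp τ := by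
  cases τ with
  | leaf S => exact absurd trivial hl
  | br p Sp t₁ t₀ => exact h.2.2.1
  | add b t₁ t₀ => exact h.2.2.1
  | up b Sp t => exact h.2.2.1
  | pl b t => exact h.2.2.1
  | far b t₁ t₀ => exact h.2.2.1

lemma hi_le {u : NS} {τ : IT} (h : NodeOk X.par (w X.ψ) u τ) (hl : ¬ isL τ) :
    u.c * Ws (w X.ψ) τ.items ≤ Real.log (tp τ) ^ N.c2 := by
  cases τ with
  | leaf S => exact absurd trivial hl
  | br p Sp t₁ t₀ => exact h.2.2.2.2.2.2.2.2.2.2.1
  | add b t₁ t₀ => exact h.2.2.2.2.2.2.2.1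
  | up b Sp t => exact h.2.2.2.2.2.2.2.2.1
  | pl b t => exact h.2.2.2.2.2.2
  | far b t₁ t₀ => exact h.2.2.2.2.2.2.2.1

open Classical in
/-- the content outside the game of a bundle with one node -/
lemma out_node (hD : ∀ p m x j, D.tp p m x j = none ↔ flg F X.c p j.1.1)
    (hQ : ∀ u τ, Q u τ → NDt X.par (w X.ψ) X.c.t u τ) {p : ℕ} {m : Me} {s : NS} {τ : IT}
    (h : RtX X Q p m s τ) (x : ℝ) :
    bcp (D.tp p m) [(X.c.D.par X.Y).toDT X.c.sp s.B s.A τ] none x =
      if fl F p s then tt Finset.univ (X.g s τ) x else 0 := by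
  have e0 : tt Finset.univ (X.g s τ) x =
      ∑ j, jv [(X.c.D.par X.Y).toDT X.c.sp s.B s.A τ] j x := by
    have e1 : ∀ j, jv [(X.c.D.par X.Y).toDT X.c.sp s.B s.A τ] j x =
        ((X.c.D.par X.Y).toDT X.c.sp s.B s.A τ).g.val j x := fun j => by
      unfold jv
      rw [List.map_cons, List.map_nil, List.sum_cons, List.sum_nil, add_zero]
    rw [Finset.sum_congr rfl fun j _ => e1 j, ← bt_start X s τ x]
    unfold bt
    rw [List.map_cons, List.map_nil, List.sum_cons, List.sum_nil, add_zero]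
    rfl
  rw [bcp_eq]
  unfold hz
  by_cases hf : fl F p s
  · rw [if_pos hf, e0, Finset.sum_filter]
    refine Finset.sum_congr rfl fun j _ => ?_
    by_cases hj : jv [(X.c.D.par X.Y).toDT X.c.sp s.B s.A τ] j x = 0
    · rw [hj]; split_ifs <;> rfl
    · have hj' : ((X.c.D.par X.Y).toDT X.c.sp s.B s.A τ).g.val j x ≠ 0 := by
        unfold jv at hj
        simpa using hj
      have h2 := (ctx_supp (hQ _ _ h.1.rm.all.self) hj').1
      rw [if_pos ((hD p m x j).2 ((fl_item hQ h h2).1 hf))]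
  · rw [if_neg hf, Finset.sum_filter]
    refine Finset.sum_eq_zero fun j _ => ?_
    by_cases hj : jv [(X.c.D.par X.Y).toDT X.c.sp s.B s.A τ] j x = 0
    · rw [hj]; split_ifs <;> rfl
    · have hj' : ((X.c.D.par X.Y).toDT X.c.sp s.B s.A τ).g.val j x ≠ 0 := by
        unfold jv at hj
        simpa using hj
      have h2 := (ctx_supp (hQ _ _ h.1.rm.all.self) hj').1
      rw [if_neg fun h3 => hf ((fl_item hQ h h2).2 ((hD p m x j).1 h3))]

lemma bcp_nil' (τ : ℝ → X.c.Lam → Option ζ) (x : ℝ) :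
    bcp τ ([] : List (DT X.c.Lam (LbX X))) none x = 0 := by
  rw [bcp_eq]
  unfold hz jv
  simp

/-! ### the relation and the value -/

/-- energy bound of a node -/
def En (X : Ctx N γ p0 P₀) (j₀ : X.c.Lam) (Kb : ℝ) (s : NS) (τ : IT) : Prop :=
  SMR AdF (X.tm j₀) (X.tn j₀) (fun _ _ => 0) Kb (X.g s τ)

/-- `G` at all the nodes below the first node which is not an up node -/
def BelN (G : NS → IT → Prop) : NS → IT → Prop
  | _, .leaf _ => True
  | s, .br q _ t₁ t₀ => All G ⟨q, s.c / (1 - 1 / (q : ℝ)), s.A * q, s.B⟩ t₁ ∧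
      All G ⟨q, s.c * q, s.A, s.B * q⟩ t₀
  | s, .add q t₁ t₀ => All G ⟨q + 1, s.c, s.A, s.B⟩ t₁ ∧ All G ⟨q + 1, s.c, s.A, s.B⟩ t₀
  | s, .up q _ t => BelN G ⟨q, s.c, s.A, s.B⟩ t
  | s, .pl q t => All G ⟨q + 1, s.c, s.A * q, s.B⟩ t
  | s, .far q t₁ t₀ => All G ⟨q + 1, s.c, s.A, s.B⟩ t₁ ∧ All G ⟨q + 1, s.c, s.A, s.B⟩ t₀

lemma all_im {F' : TrG X.c.Lam (Lb (WL X.c.Lam) X.Y) → Prop} (t : IT) :
    ∀ s : NS, (X.g s t).All F' → All (fun s t => F' (X.g s t)) s t := by
  induction t with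
  | leaf S => intro s h; exact h
  | br q Sp t₁ t₀ ih₁ ih₀ =>
    intro s h
    exact ⟨h.self, ih₁ ⟨q, _, s.A * q, s.B⟩ h.2.1, ih₀ ⟨q, _, s.A, s.B * q⟩ h.2.2⟩
  | add q t₁ t₀ ih₁ ih₀ =>
    intro s h
    exact ⟨h.self, ih₁ ⟨q + 1, s.c, s.A, s.B⟩ h.2.1, ih₀ ⟨q + 1, s.c, s.A, s.B⟩ h.2.2⟩
  | up q Sp t ih => intro s h; exact ⟨h.self, ih ⟨q, s.c, s.A, s.B⟩ h⟩
  | pl q t ih => intro s h; exact ⟨h.self, ih ⟨q + 1, s.c, s.A * q, s.B⟩ h.2.1⟩
  | far q t₁ t₀ ih₁ ih₀ =>
    intro s h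
    exact ⟨h.self, ih₁ ⟨q + 1, s.c, s.A, s.B⟩ h.2.1, ih₀ ⟨q + 1, s.c, s.A, s.B⟩ h.2.2⟩

lemma bel_im {F' : TrG X.c.Lam (Lb (WL X.c.Lam) X.Y) → Prop} (t : IT) :
    ∀ s : NS, Below F' (X.g s t) → BelN (fun s t => F' (X.g s t)) s t := by
  induction t with
  | leaf S => intro s h; exact trivial
  | br q Sp t₁ t₀ ih₁ ih₀ =>
    intro s h
    exact ⟨all_im t₁ ⟨q, _, s.A * q, s.B⟩ h.1, all_im t₀ ⟨q, _, s.A, s.B * q⟩ h.2⟩
  | add q t₁ t₀ ih₁ ih₀ =>
    intro s h
    exact ⟨all_im t₁ ⟨q + 1, s.c, s.A, s.B⟩ h.1, all_im t₀ ⟨q + 1, s.c, s.A, s.B⟩ h.2⟩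
  | up q Sp t ih => intro s h; exact ih ⟨q, s.c, s.A, s.B⟩ h
  | pl q t ih => intro s h; exact all_im t ⟨q + 1, s.c, s.A * q, s.B⟩ h.1
  | far q t₁ t₀ ih₁ ih₀ =>
    intro s h
    exact ⟨all_im t₁ ⟨q + 1, s.c, s.A, s.B⟩ h.1, all_im t₀ ⟨q + 1, s.c, s.A, s.B⟩ h.2⟩

/-- **the relation of the nodes of the walk below a node with the list `B0`** -/
structure RC (X : Ctx N γ p0 P₀) (Q : NS → IT → Prop) (j₀ : X.c.Lam) (Kb : ℝ) (B0 : ℕ)
    (p : ℕ) (m : Me) (s : NS) (τ : IT) : Prop where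
  rt : RtX X Q p m s τ
  qe : All (QE X j₀ fun _ _ => True) s τ
  en : All (En X j₀ Kb) s τ ∨ (BelN (En X j₀ Kb) s τ ∧ s.B = B0)

variable {j₀ : X.c.Lam} {Kb : ℝ} {B0 : ℕ}

theorem carRC (hQ : ∀ u τ, Q u τ → NDt X.par (w X.ψ) X.c.t u τ) :
    Car tuM (RC X Q j₀ Kb B0) where
  add := fun h => by
    obtain ⟨a, b⟩ := (carX hQ).add h.rt
    refine ⟨⟨a, h.qe.2.1, ?_⟩, ⟨b, h.qe.2.2, ?_⟩⟩
    · rcases h.en with e | e
      · exact Or.inl e.2.1
      · exact Or.inl e.1.1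
    · rcases h.en with e | e
      · exact Or.inl e.2.2
      · exact Or.inl e.1.2
  far := fun h => by
    obtain ⟨a, b⟩ := (carX hQ).far h.rt
    refine ⟨⟨a, h.qe.2.1, ?_⟩, ⟨b, h.qe.2.2, ?_⟩⟩
    · rcases h.en with e | e
      · exact Or.inl e.2.1
      · exact Or.inl e.1.1
    · rcases h.en with e | e
      · exact Or.inl e.2.2
      · exact Or.inl e.1.2
  up := fun h => by
    refine ⟨(carX hQ).up h.rt, h.qe.2, ?_⟩
    rcases h.en with e | e
    · exact Or.inl e.2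
    · exact Or.inr ⟨e.1, e.2⟩
  br := fun h => by
    obtain ⟨a, b⟩ := (carX hQ).br h.rt
    refine ⟨⟨a, h.qe.2.1, ?_⟩, ⟨b, h.qe.2.2, ?_⟩⟩
    · rcases h.en with e | e
      · exact Or.inl e.2.1
      · exact Or.inl e.1.1
    · rcases h.en with e | e
      · exact Or.inl e.2.2
      · exact Or.inl e.1.2
  pl := fun h => by
    refine ⟨(carX hQ).pl h.rt, h.qe.2, ?_⟩
    rcases h.en with e | e
    · exact Or.inl e.2
    · exact Or.inl e.1
  down := fun hp h h1 h2 => ⟨(carX hQ).down hp h.rt h1 h2, h.qe, h.en⟩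

open Classical in
/-- the rate of a node -/
noncomputable def cf (F : ℕ → Finset ℕ → Prop) (A : ℕ → ℝ) (E : ℝ) (p : ℕ) (s : NS) : ℝ :=
  A p + if fl F p s then 0 else E

lemma cf_fl {A : ℕ → ℝ} {E : ℝ} {p : ℕ} {s : NS} (h : fl F p s) : cf F A E p s = A p := by
  unfold cf
  rw [if_pos h, add_zero]

lemma cf_not {A : ℕ → ℝ} {E : ℝ} {p : ℕ} {s : NS} (h : ¬ fl F p s) : cf F A E p s = A p + E := by
  unfold cf
  rw [if_neg h]

lemma cf_congr {A : ℕ → ℝ} {E : ℝ} {p : ℕ} {s s' : NS} (h : fl F p s ↔ fl F p s') :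
    cf F A E p s = cf F A E p s' := by
  by_cases h1 : fl F p s
  · rw [cf_fl h1, cf_fl (h.1 h1)]
  · rw [cf_not h1, cf_not fun h2 => h1 (h.2 h2)]

/-- the value of a node -/
noncomputable def vl (X : Ctx N γ p0 P₀) (F : ℕ → Finset ℕ → Prop) (A : ℕ → ℝ) (E : ℝ) (p : ℕ)
    (s : NS) (τ : IT) : ℝ := cf F A E p s * (s.c * Ws (w X.ψ) τ.items)

open Classical in
/-- the payment of a node at the rest -/
noncomputable def ps (X : Ctx N γ p0 P₀) (F : ℕ → Finset ℕ → Prop) (β : ℕ → ℝ) (p : ℕ) (s : NS)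
    (τ : IT) : ℝ :=
  if fl F (p - 1) s then Real.sqrt (β p) * ((1 / (p : ℝ) + if fl F p s then 0 else 1) *
    I (fun x => tt Finset.univ (X.g s τ) x ^ 2)) else 0

lemma fl_mon (hF : FMon F) {p : ℕ} {s : NS} (h : fl F p s) : fl F (p - 1) s := by
  refine hF (M := s.B.primeFactors.filter (p < ·)) ?_ h
  ext q
  simp only [Finset.mem_filter]
  constructor
  · rintro ⟨⟨h1, -⟩, h2⟩
    exact ⟨h1, h2⟩
  · rintro ⟨h1, h2⟩
    exact ⟨⟨h1, by omega⟩, h2⟩

lemma fl_N {p : ℕ} (hp : p.Prime) {s : NS} (hB : s.B ≠ 0) {c : ℝ} {n A : ℕ} :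
    fl F p ⟨n, c, A, s.B * p⟩ ↔ fl F p s := by
  unfold fl
  have e : ((s.B * p).primeFactors.filter (p < ·)) = s.B.primeFactors.filter (p < ·) := by
    rw [Nat.primeFactors_mul hB hp.ne_zero, Finset.filter_union, hp.primeFactors]
    have e2 : ({p} : Finset ℕ).filter (p < ·) = ∅ := by
      rw [Finset.filter_eq_empty_iff]
      intro q hq
      rw [Finset.mem_singleton.1 hq]
      exact lt_irrefl p
    rw [e2, Finset.union_empty]
  show F p ((s.B * p).primeFactors.filter (p < ·)) ↔ _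
  rw [e]

/-- **the value** -/
theorem valRC (hψ : ∀ q, 0 ≤ w X.ψ q) (hQ : ∀ u τ, Q u τ → NDt X.par (w X.ψ) X.c.t u τ)
    {a δ : ℝ} {P : ℕ} (hF : FOk a δ F P p0) (hB0 : ∀ q ∈ B0.primeFactors, P < q) (hK : 0 ≤ Kb)
    {β A : ℕ → ℝ} {E : ℝ} (hA0 : ∀ p, 0 ≤ A p) (hA : ∀ p, A (p - 1) ≤ A p) (hE : 0 ≤ E)
    (h1 : ∀ p, p0 + 1 < p → Real.sqrt (β p) * (1 / (p : ℝ)) * (Kb * (1 + Real.log p ^ N.c2)) ≤
      A p - A (p - 1))
    (h2 : ∀ p, p0 + 1 < p → Real.sqrt (β p) * (Kb * (1 + Real.log p ^ N.c2)) ≤ E) :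
    Val tuM (RC X Q j₀ Kb B0) (vl X F A E) (ps X F β) := by
  have hdis : ∀ {A k : ℕ} {S T U : Finset ℕ}, T = Bld532.dv A k S → U = Bld532.nd A k S →
      T ∪ U = S → Ws (w X.ψ) S = Ws (w X.ψ) T + Ws (w X.ψ) U := by
    intro A k S T U h1 h2 h3
    unfold Ws
    rw [← h3, Finset.sum_union]
    rw [h1, h2]
    exact Finset.disjoint_left.2 fun q hq hq' => (Bld532.mem_nd.1 hq').2 (Bld532.mem_dv.1 hq).2
  have hc : ∀ {p m s τ}, RC X Q j₀ Kb B0 p m s τ → 0 ≤ s.c := fun h => h.qe.self.nf.c0.le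
  have hm : ∀ {p m s τ}, RC X Q j₀ Kb B0 p m s τ → 0 ≤ s.c * Ws (w X.ψ) τ.items := fun h =>
    mul_nonneg (hc h) (Ws_nonneg hψ _)
  have hcoef : ∀ p s, 0 ≤ cf F A E p s := by
    intro p s
    have := hA0 p
    by_cases h : fl F p s
    · rw [cf_fl h]; linarith
    · rw [cf_not h]; linarith
  refine ⟨fun h => mul_nonneg (hcoef _ _) (hm h), ?_, ?_, ?_, ?_, ?_, ?_⟩
  · -- add
    intro p m s t₁ t₀ h
    have hn := h.qe.self.nd.self.node
    obtain ⟨hp, g1, g2, g3, g4, ⟨j, t', hj, g5, g6, g7, g8⟩, g9⟩ := hn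
    have e := hdis g6 g7 rfl
    have e1 : (IT.add p t₁ t₀).items = t₁.items ∪ t₀.items := rfl
    unfold vl
    rw [e1, e]
    refine le_of_eq ?_
    have e2 : cf F A E p ⟨p + 1, s.c, s.A, s.B⟩ = cf F A E p s := rfl
    rw [e2]
    show cf F A E p s * (s.c * Ws (w X.ψ) t₁.items) + cf F A E p s * (s.c * Ws (w X.ψ) t₀.items) = _
    ring
  · -- far
    intro p m s t₁ t₀ h
    have hn := h.qe.self.nd.self.node
    obtain ⟨hp, g1, g2, g3, g4, ⟨K, g5, g6, g7⟩, g9⟩ := hn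
    have e : Ws (w X.ψ) (t₁.items ∪ t₀.items) = Ws (w X.ψ) t₁.items + Ws (w X.ψ) t₀.items := by
      have e1 : t₁.items = Bld532.farS p s.A K (t₁.items ∪ t₀.items) := by
        conv_lhs => rw [g5]
        rfl
      unfold Ws
      rw [Finset.sum_union]
      rw [e1, g6]
      refine Finset.disjoint_left.2 fun r hr hr' => ?_
      have a1 := (Bld532.mem_farS.1 hr).2
      have a2 := (Bld532.mem_nearS.1 hr').2
      tauto
    have e1 : (IT.far p t₁ t₀).items = t₁.items ∪ t₀.items := rfl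
    unfold vl
    rw [e1, e]
    refine le_of_eq ?_
    have e2 : cf F A E p ⟨p + 1, s.c, s.A, s.B⟩ = cf F A E p s := rfl
    rw [e2]
    show cf F A E p s * (s.c * Ws (w X.ψ) t₁.items) + cf F A E p s * (s.c * Ws (w X.ψ) t₀.items) = _
    ring
  · -- up
    intro p m s Sp t h
    exact le_rfl
  · -- br
    intro p m s Sp t₁ t₀ h
    have hnd := h.qe.self.nd
    have hn := hnd.self.node
    obtain ⟨hp, g1, g2, g3, g4, g5, g6, g7⟩ := hn
    have hq2 : (2 : ℝ) ≤ p := by exact_mod_cast hp.two_le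
    have hq0 : (0 : ℝ) < p := by linarith
    have hq1 : 0 < 1 - 1 / (p : ℝ) := by
      rw [sub_pos, div_lt_one hq0]; linarith
    have e := hdis g5 g6 rfl
    have e1 : (IT.br p Sp t₁ t₀).items = t₁.items ∪ t₀.items := rfl
    have hB : s.B ≠ 0 := hnd.bk.sfB.ne_zero
    unfold vl
    rw [e1, e]
    have e2 : cf F A E p ⟨p, s.c * p, s.A, s.B * p⟩ = cf F A E p s := cf_congr (fl_N hp hB)
    have e3 : cf F A E p ⟨p, s.c / (1 - 1 / (p : ℝ)), s.A * p, s.B⟩ = cf F A E p s := rfl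
    rw [e2, e3]
    refine le_of_eq ?_
    set κ : ℝ := cf F A E p s
    show (1 - 1 / (p : ℝ)) * (κ * (s.c / (1 - 1 / (p : ℝ)) * Ws (w X.ψ) t₁.items)) +
      1 / (p : ℝ) * (κ * (s.c * p * Ws (w X.ψ) t₀.items)) = _
    have hne := hq1.ne'
    have k1 : (1 - 1 / (p : ℝ)) * (κ * (s.c / (1 - 1 / (p : ℝ)) * Ws (w X.ψ) t₁.items)) =
        κ * (s.c * Ws (w X.ψ) t₁.items) := by
      generalize 1 - 1 / (p : ℝ) = v at hne ⊢
      field_simp
    have k0 : 1 / (p : ℝ) * (κ * (s.c * p * Ws (w X.ψ) t₀.items)) =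
        κ * (s.c * Ws (w X.ψ) t₀.items) := by
      field_simp
    rw [k1, k0]
    ring
  · -- pl
    intro p m s t h
    exact le_rfl
  · -- rest
    intro p m s τ hp h ht hl
    have hnd := h.qe.self.nd
    have g1 := p0_lt hnd.self.node hl
    have hp1 : p0 + 1 < p := by omega
    have g2 := hi_le hnd.self.node hl
    have hμ := hm h
    set μ : ℝ := s.c * Ws (w X.ψ) τ.items with hμd
    have g3 : μ ≤ Real.log p ^ N.c2 := by
      refine g2.trans (Real.rpow_le_rpow (Real.log_natCast_nonneg _) ?_ N.hc2)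
      have h5 : (0 : ℝ) < tp τ := by exact_mod_cast (show 0 < tp τ by omega)
      exact Real.log_le_log h5 (by exact_mod_cast ht.le)
    unfold ps vl
    rw [← hμd]
    by_cases hf : fl F (p - 1) s
    · rw [if_pos hf, cf_fl hf]
      have hen : En X j₀ Kb s τ := by
        rcases h.en with e | e
        · exact e.self
        · exfalso
          refine hF.start (p := p - 1) (by omega) (fun q hq => ?_) hf
          rw [e.2] at hq
          exact hB0 q (Finset.mem_filter.1 hq).1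
      have e1 : I (fun x => tt Finset.univ (X.g s τ) x ^ 2) ≤ Kb * (μ + μ * μ) := by
        have k := hen Finset.univ (Or.inr rfl)
        have hmass : X.tn j₀ (X.g s τ) = μ := h.qe.self.mass
        have e2 : X.tm j₀ (X.g s τ) Finset.univ = μ := hmass
        rw [e2, hmass, add_zero] at k
        exact k
      have e2 : Kb * (μ + μ * μ) ≤ Kb * (1 + Real.log p ^ N.c2) * μ := by
        have : μ + μ * μ ≤ (1 + Real.log p ^ N.c2) * μ := by nlinarith
        have := mul_le_mul_of_nonneg_left this hK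
        linarith
      have e3 := e1.trans e2
      set J : ℝ := I (fun x => tt Finset.univ (X.g s τ) x ^ 2)
      set K' : ℝ := Kb * (1 + Real.log p ^ N.c2)
      have r0 := Real.sqrt_nonneg (β p)
      have p0' : (0 : ℝ) ≤ 1 / (p : ℝ) := by positivity
      have q1 : Real.sqrt (β p) * (1 / (p : ℝ)) * J ≤ (A p - A (p - 1)) * μ := by
        have k1 := mul_le_mul_of_nonneg_left e3 (mul_nonneg r0 p0')
        have k2 := mul_le_mul_of_nonneg_right (h1 p hp1) hμ
        linarith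
      have q2 : Real.sqrt (β p) * J ≤ E * μ := by
        have k1 := mul_le_mul_of_nonneg_left e3 r0
        have k2 := mul_le_mul_of_nonneg_right (h2 p hp1) hμ
        linarith
      by_cases hg : fl F p s
      · rw [if_pos hg, cf_fl hg]
        linarith
      · rw [if_neg hg, cf_not hg]
        linarith
    · have hg : ¬ fl F p s := fun hg => hf (fl_mon hF.mon hg)
      rw [if_neg hf, cf_not hf, cf_not hg, zero_add]
      exact mul_le_mul_of_nonneg_right (by linarith [hA p]) hμ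

end nodes

/-! ### group states -/

section states
variable {N : Skel189.Num} {γ : ℝ} {p0 P₀ : ℕ} {X : Ctx N γ p0 P₀} {Q : NS → IT → Prop} {C : ℝ}
  {ζ : Type} [Fintype ζ] [DecidableEq ζ] {D : TD Me X.c.Lam (LbX X) ζ} {F : ℕ → Finset ℕ → Prop}
  {H : TYp (rhoX X) D (InvM X Q C)} {P p : ℕ} {b : Me × List (DT X.c.Lam (LbX X))}
  {s : Gs (Me × List (DT X.c.Lam (LbX X)))}

lemma uF_eq (x : ℝ) : uF (rb H) p b x = bcp (D.tp (p - 1) b.1) (bN p b.2) none x := rfl

lemma uN_eq (x : ℝ) : (rb H).uN p b x = bcp (D.tp p b.1) (bN p b.2) none x := rfl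

lemma btX (htu : D.tu = tuM) : BT X (bm (rxm H)) where
  P := fun p b => by
    show (D.tu p b.1, _) = _
    rw [htu]
  N := fun p b => by
    show (D.tu p b.1, _) = _
    rw [htu]
  R := fun _ _ => rfl

lemma btmX (htu : D.tu = tuM) : BTm tuM (bm (rxm H)) where
  P := fun p b => by
    show (D.tu p b.1, _) = _
    rw [htu]
  N := fun p b => by
    show (D.tu p b.1, _) = _
    rw [htu]
  R := fun _ _ => rfl

/-- no rest at the columns `≤ p0 + 1` -/
lemma bN_nil (hQ : ∀ u τ, Q u τ → NDt X.par (w X.ψ) X.c.t u τ) (h : InvM X Q C p b)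
    (hp : p ≤ p0 + 1) : GWc343.bN p b.2 = [] := by
  rw [List.eq_nil_iff_forall_not_mem]
  intro t ht
  obtain ⟨u, τ, hs, e⟩ := h.mi.bN (carX hQ) t ht
  have h2 := h.bi.bN.col t ht
  have h3 := zero_of_bN ht
  have h4 := h2.top_le
  subst e
  have e1 := toDT_top (X.c.D.par X.Y) X.c.sp u.B u.A τ
  have h5 := lt_of_le_of_ne h4 h3.2.1
  rw [e1] at h5
  have h6 : ¬ isL τ := fun hl => h3.2.2 ((toDT_leaf (X.c.D.par X.Y) X.c.sp u.B u.A τ).2 hl)
  have h7 := p0_lt (hQ _ _ hs.1.rm.all.self).self.node h6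
  omega

/-- pieces of the content outside the game below the rest -/
lemma uF_mem (hD : ∀ p m x j, D.tp p m x j = none ↔ flg F X.c p j.1.1) {x : ℝ}
    (h : uF (rb H) p b x ≠ 0) : ∃ j, jv (bN p b.2) j x ≠ 0 ∧ flg F X.c (p - 1) j.1.1 := by
  by_contra hn
  push Not at hn
  refine h ?_
  rw [uF_eq, bcp_eq]
  unfold hz
  rw [Finset.sum_filter]
  refine Finset.sum_eq_zero fun j _ => ?_
  by_cases h1 : D.tp (p - 1) b.1 x j = none
  · rw [if_pos h1]
    by_contra h2
    exact hn j h2 ((hD _ _ _ _).1 h1)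
  · rw [if_neg h1]

/-- the content outside the game grows at the rest -/
lemma uN_le_uF (hF : FMon F) (hD : ∀ p m x j, D.tp p m x j = none ↔ flg F X.c p j.1.1)
    (hb : InvM X Q C p b) (x : ℝ) : (rb H).uN p b x ≤ uF (rb H) p b x := by
  rw [uF_eq, uN_eq, bcp_eq, bcp_eq]
  unfold hz
  rw [Finset.sum_filter, Finset.sum_filter]
  refine Finset.sum_le_sum fun j _ => ?_
  have h0 := (PB_jv ((H.pb hb).bN p).self j).nonneg x
  by_cases h1 : D.tp p b.1 x j = none
  · rw [if_pos h1, if_pos ((hD _ _ _ _).2 (StJ6.flg_dn hF ((hD _ _ _ _).1 h1)))]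
  · rw [if_neg h1]
    split_ifs
    · exact h0
    · exact le_rfl

/-- pieces which leave the game at the rest -/
lemma uE_mem (hF : FMon F) (hD : ∀ p m x j, D.tp p m x j = none ↔ flg F X.c p j.1.1) {x : ℝ}
    (h : uE (rb H) p b x ≠ 0) : ∃ j, jv (bN p b.2) j x ≠ 0 ∧ flg F X.c (p - 1) j.1.1 ∧
      ¬ flg F X.c p j.1.1 := by
  classical
  by_contra hn
  push Not at hn
  refine h ?_
  unfold uE
  rw [uF_eq, uN_eq, bcp_eq, bcp_eq, sub_eq_zero]
  unfold hz
  rw [Finset.sum_filter, Finset.sum_filter]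
  refine Finset.sum_congr rfl fun j _ => ?_
  by_cases hj : jv (bN p b.2) j x = 0
  · rw [hj]; split_ifs <;> rfl
  · have e : D.tp (p - 1) b.1 x j = none ↔ D.tp p b.1 x j = none := by
      rw [hD, hD]
      exact ⟨fun h1 => hn j hj h1, fun h1 => StJ6.flg_dn hF h1⟩
    by_cases h1 : D.tp p b.1 x j = none
    · rw [if_pos h1, if_pos (e.2 h1)]
    · rw [if_neg h1, if_neg fun h2 => h1 (e.1 h2)]

/-- **the content which leaves the game at a rest** -/
theorem enU_leX {a δ e : ℝ} {n₀ : ℕ} (h16 : 16 ≤ n₀)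
    (hW : ∀ {p : ℕ} {s : Gs (Me × List (DT X.c.Lam (LbX X)))}, n₀ ≤ p → St X Q C P p s →
      (∀ k, 0 ≤ s.c k) → ∀ E : s.J → Prop, (∀ k, E k → ∃ (j : X.c.Lam) (x : ℝ),
        jv (s.L k).2 j x ≠ 0 ∧ Om a δ p P (pm X.c.t p (s.L k).1 j.1.1)) →
      @Finset.sum _ _ _ Finset.univ (fun k => @ite ℝ (E k) (Classical.propDecidable _) (s.c k) 0) ≤
        Real.log p ^ (-e))
    (hn : n₀ ≤ p0 + 1) (hF : FOk a δ F P p0)
    (hD : ∀ p m x j, D.tp p m x j = none ↔ flg F X.c p j.1.1) (htu : D.tu = tuM)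
    (hQ : ∀ u τ, Q u τ → NDt X.par (w X.ψ) X.c.t u τ)
    (hs : okG H p s) (hS : St X Q C P p s) (hp : p ≠ 0) :
    enU (rb H) p s ≤ GMer27.M s.c fun j => phE (rb H) (Real.log (p - 1 : ℕ) ^ (-e)) p (s.L j) := by
  classical
  have c0 := hs.1.1.c0
  have hI : ∀ k, InvM X Q C p (s.L k) := hs.1.2
  by_cases h1 : p ≤ p0 + 1
  · -- nothing is left
    have hN : ∀ k, GWc343.bN p (s.L k).2 = [] := fun k => bN_nil hQ (hI k) h1
    have z1 : ∀ k x, uF (rb H) p (s.L k) x = 0 := fun k x => by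
      rw [uF_eq, hN k, bcp_nil']
    have z2 : ∀ k x, (rb H).uN p (s.L k) x = 0 := fun k x => by
      rw [uN_eq, hN k, bcp_nil']
    have e1 : enU (rb H) p s = 0 := by
      unfold enU
      have a1 : (fun x => su ((rxm H).N p s) ((rb H).u (p - 1)) x ^ 2) = fun _ => 0 := by
        funext x
        have : su ((rxm H).N p s) ((rb H).u (p - 1)) x = 0 := by
          unfold su GMer27.M
          refine Finset.sum_eq_zero fun k _ => ?_
          have e2 := z1 k x
          show s.c k * uF (rb H) p (s.L k) x = 0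
          rw [e2, mul_zero]
        rw [this]; norm_num
      have a2 : (fun x => su s ((rb H).uN p) x ^ 2) = fun _ => 0 := by
        funext x
        have : su s ((rb H).uN p) x = 0 := by
          unfold su GMer27.M
          exact Finset.sum_eq_zero fun k _ => by
            show s.c k * (rb H).uN p (s.L k) x = 0
            rw [z2 k x, mul_zero]
        rw [this]; norm_num
      rw [a1, a2]
      simp [I]
    rw [e1]
    unfold GMer27.M
    refine Finset.sum_nonneg fun k _ => mul_nonneg (c0 k) ?_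
    unfold phE
    refine mul_nonneg (Real.sqrt_nonneg _) (add_nonneg (mul_nonneg (by positivity)
      (I_nonneg fun x => sq_nonneg _)) (I_nonneg fun x => sq_nonneg _))
  · have hp1 : p0 + 1 < p := by omega
    have hl : 0 < Real.log (p - 1 : ℕ) :=
      Real.log_pos (by exact_mod_cast (show 1 < p - 1 by omega))
    have hS' := St.toN hQ (btX (H := H) htu) hp hS
    refine enU_le (U := rb H) hs.1 hp (Real.rpow_pos_of_pos hl _)
      (fun k x => uN_le_uF hF.mon hD (hI k) x) (fun x => ?_) fun x => ?_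
    · -- weight of the flagged members
      have k1 := hW (p := p - 1) (s := (bm (rxm H)).N p s) (by omega) hS' c0
        (fun k => uF (rb H) p (s.L k) x ≠ 0) (fun k hk => by
          obtain ⟨j, h2, h3⟩ := uF_mem hD hk
          refine ⟨j, x, h2, ?_⟩
          have h4 := hF.om (p := p - 1) (by omega) h3
          obtain ⟨i, h5, h6⟩ := h4
          refine ⟨i, h5, h6.trans ?_⟩
          have h7 : Mhi X.c (p - 1) j.1.1 ⊆ pm X.c.t (p - 1) (s.L k).1 j.1.1 := by
            rw [← StJ6.pm_hi (s.L k).1]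
            exact Finset.filter_subset _ _
          exact_mod_cast Finset.card_le_card (Finset.inter_subset_inter_left h7))
      rw [wt_eq]
      exact k1
    · -- weight of the newly flagged members
      obtain ⟨T, h, hWt, hG⟩ := hS'
      have k1 := last_le hWt c0 (show 1 ≤ p by omega)
        (fun k => uE (rb H) p (s.L k) x ≠ 0) fun k hk => by
          obtain ⟨j, h2, h3, h4⟩ := uE_mem hF.mon hD hk
          obtain ⟨h5, h6⟩ := hF.ent (M := Mhi X.c (p - 1) j.1.1) hp1 (fun q hq => by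
            have := (Finset.mem_filter.1 hq).2
            omega) h3 (fun h7 => h4 (by
              have e : (Mhi X.c (p - 1) j.1.1).filter (p < ·) = Mhi X.c p j.1.1 := by
                ext q
                simp only [Mhi, Finset.mem_filter]
                constructor
                · rintro ⟨⟨h8, -⟩, h9⟩
                  exact ⟨h8, h9⟩
                · rintro ⟨h8, h9⟩
                  exact ⟨⟨h8, by omega⟩, h9⟩
              rw [e] at h7
              exact h7))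
          obtain ⟨u, τ, h8, h9, -, h10⟩ := (hG k).1.node hQ (j := j) (x := x) h2
          have h11 : p ∈ pm X.c.t (p - 1) (s.L k).1 j.1.1 := by
            rw [← StJ6.pm_hi (s.L k).1] at h5
            exact (Finset.mem_filter.1 h5).1
          have h12 : p ∈ u.B.primeFactors := by
            rw [← h10]
            exact h11
          exact h9 p (Nat.prime_of_mem_primeFactors h12) (Nat.dvd_of_mem_primeFactors h12) h6
      rw [wt_eq]
      exact k1

/-! ### the walk -/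

lemma I0 : I (fun _ : ℝ => (0 : ℝ) ^ 2) = 0 := by simp [I]

/-- the member form is the payment of the node -/
lemma phE_node (hF : FMon F) (hD : ∀ p m x j, D.tp p m x j = none ↔ flg F X.c p j.1.1)
    (hQ : ∀ u τ, Q u τ → NDt X.par (w X.ψ) X.c.t u τ) {β : ℕ → ℝ} {m : Me}
    {L : List (DT X.c.Lam (LbX X))} {v : NS} {σ : IT} (hp : p ≠ 0) (h : RtX X Q p m v σ)
    (ht : tp σ < p) (hl : ¬ isL σ) (hL : GWc343.bN p L = [(X.c.D.par X.Y).toDT X.c.sp v.B v.A σ]) :
    phE (rb H) (β p) p (m, L) ≤ ps X F β p v σ := by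
  have eF : uF (rb H) p (m, L) = fun x =>
      @ite ℝ (fl F (p - 1) v) (Classical.propDecidable _) (tt Finset.univ (X.g v σ) x) 0 := by
    funext x
    show bcp (D.tp (p - 1) m) (bN p L) none x = _
    rw [hL]
    exact out_node hD hQ ((carX hQ).down hp h ht hl) x
  have eN : (rb H).uN p (m, L) = fun x =>
      @ite ℝ (fl F p v) (Classical.propDecidable _) (tt Finset.univ (X.g v σ) x) 0 := by
    funext x
    show bcp (D.tp p m) (bN p L) none x = _
    rw [hL]
    exact out_node hD hQ h x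
  have eE : uE (rb H) p (m, L) = fun x => uF (rb H) p (m, L) x - (rb H).uN p (m, L) x := rfl
  unfold phE ps
  rw [eE, eF, eN]
  refine le_of_eq ?_
  by_cases hf : fl F (p - 1) v
  · by_cases hg : fl F p v
    · simp only [if_pos hf, if_pos hg, sub_self]
      rw [I0]
      ring
    · simp only [if_pos hf, if_neg hg, sub_zero]
      ring
  · have hg : ¬ fl F p v := fun hg => hf (fl_mon hF hg)
    simp only [if_neg hf, if_neg hg, sub_self]
    rw [I0]
    ring

/-- **Lemma F at a node** -/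
theorem Kw_U_le {a δ e : ℝ} {n₀ : ℕ} (h16 : 16 ≤ n₀) {u : NS} {τ : IT} (hP : tp τ = P)
    (hW : ∀ {p : ℕ} {s : Gs (Me × List (DT X.c.Lam (LbX X)))}, n₀ ≤ p → St X Q C P p s →
      (∀ k, 0 ≤ s.c k) → ∀ E : s.J → Prop, (∀ k, E k → ∃ (j : X.c.Lam) (x : ℝ),
        jv (s.L k).2 j x ≠ 0 ∧ Om a δ p P (pm X.c.t p (s.L k).1 j.1.1)) →
      @Finset.sum _ _ _ Finset.univ (fun k => @ite ℝ (E k) (Classical.propDecidable _) (s.c k) 0) ≤
        Real.log p ^ (-e))
    (hn : n₀ ≤ p0 + 1) (hF : FOk a δ F P p0)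
    (hD : ∀ p m x j, D.tp p m x j = none ↔ flg F X.c p j.1.1) (htu : D.tu = tuM)
    (hQ : ∀ u τ, Q u τ → NDt X.par (w X.ψ) X.c.t u τ) (hψ : ∀ q, 0 ≤ w X.ψ q)
    (hR : RtX X Q (tp τ) (mS u τ) u τ) (hl : ¬ isL τ)
    (hB : InvM X Q C (X.self u τ Finset.univ).p (b₀ X u τ)) {j₀ : X.c.Lam} {Kb : ℝ} (hK : 0 ≤ Kb)
    (hqe : All (QE X j₀ fun _ _ => True) u τ) (hboot : BootF X j₀ (fun _ _ => 0) Kb u τ)
    {A : ℕ → ℝ} {E : ℝ} (hA0 : ∀ p, 0 ≤ A p) (hA : ∀ p, A (p - 1) ≤ A p) (hE : 0 ≤ E)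
    (h1 : ∀ p, p0 + 1 < p → Real.sqrt (Real.log (p - 1 : ℕ) ^ (-e)) * (1 / (p : ℝ)) *
      (Kb * (1 + Real.log p ^ N.c2)) ≤ A p - A (p - 1))
    (h2 : ∀ p, p0 + 1 < p → Real.sqrt (Real.log (p - 1 : ℕ) ^ (-e)) *
      (Kb * (1 + Real.log p ^ N.c2)) ≤ E) (n : ℕ) :
    Kw (bm (rxm H)) (cU (rb H)) n (X.self u τ Finset.univ).p (one (b₀ X u τ)) ≤
      GS SecO55.SOn n (X.self u τ Finset.univ).p [((1 : ℝ), (X.self u τ Finset.univ).t)] +
        vl X F A E (X.self u τ Finset.univ).p u τ := by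
  subst hP
  rw [self_p X u τ] at hB ⊢
  have hok : okG H (tp τ) (one (b₀ X u τ)) ∧ St X Q C (tp τ) (tp τ) (one (b₀ X u τ)) :=
    ⟨okG.one hB, St.one hR hQ hl hB⟩
  have p0P : p0 < tp τ := p0_lt (hQ _ _ hR.1.rm.all.self).self.node hl
  have kC : ∀ {p s}, (okG H p s ∧ St X Q C (tp τ) p s) → p ≠ 0 →
      (okG H p ((bm (rxm H)).C p s) ∧ St X Q C (tp τ) p ((bm (rxm H)).C p s)) := fun h hp =>
    ⟨h.1.C hp, St.toC hQ (btX htu) hp h.2⟩
  have kN : ∀ {p s}, (okG H p s ∧ St X Q C (tp τ) p s) → p ≠ 0 →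
      (okG H (p - 1) ((bm (rxm H)).N p s) ∧ St X Q C (tp τ) (p - 1) ((bm (rxm H)).N p s)) :=
    fun h hp => ⟨h.1.N hp, St.toN hQ (btX htu) hp h.2⟩
  have hst : ∀ (j : (one (b₀ X u τ)).J) (x : ℝ), (rb H).u (tp τ) ((one (b₀ X u τ)).L j) x = 0 := by
    intro j x
    show bcp (D.tp (tp τ) (mS u τ)) [(X.c.D.par X.Y).toDT X.c.sp u.B u.A τ] none x = 0
    rw [out_node hD hQ hR x, if_neg]
    exact hF.start p0P fun q hq => (Finset.mem_filter.1 hq).2
  have t1 := out_tel0 (U := rb H) (ok := fun p s => okG H p s ∧ St X Q C (tp τ) p s)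
    (fun h => h.1.gok) (fun h hp => kC h hp) (fun h hp => kN h hp) n (tp τ) (one (b₀ X u τ)) hok hst
  -- second order
  have t2 : Kw (bm (rxm H)) (soU (rb H)) n (tp τ) (one (b₀ X u τ)) ≤
      GS SecO55.SOn n (tp τ) [((1 : ℝ), (X.self u τ Finset.univ).t)] := by
    have a1 : Kw (bm (rxm H)) (soU (rb H)) n (tp τ) (one (b₀ X u τ)) ≤
        Kw (bm (rxm H)) (fun p s => 1 / 8 * JnF5.so (rb H) p s) n (tp τ) (one (b₀ X u τ)) :=
      Kw_mono (ok := fun p s => okG H p s ∧ St X Q C (tp τ) p s) (fun h hp => kC h hp)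
        (fun h hp => kN h hp) (fun h hp => soU_le h.1.gok hp) n (tp τ) _ hok
    rw [GSK55.Kw_smul] at a1
    have a2 := Kw_so H (prX H) n (tp τ) (one (b₀ X u τ)) hok.1.1
    have e1 : (stp Prod.snd (one (b₀ X u τ))).g = [((1 : ℝ), (X.self u τ Finset.univ).t)] :=
      GSK55.one_g rfl
    rw [e1] at a2
    linarith
  -- the content which leaves
  have t3 : Kw (bm (rxm H)) (enU (rb H)) n (tp τ) (one (b₀ X u τ)) ≤ vl X F A E (tp τ) u τ := by
    have a1 : Kw (bm (rxm H)) (enU (rb H)) n (tp τ) (one (b₀ X u τ)) ≤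
        Kw (bm (rxm H)) (fun p s => GMer27.M s.c fun j => (fun p b =>
          phE (rb H) (Real.log (p - 1 : ℕ) ^ (-e)) p b) p (s.L j)) n (tp τ) (one (b₀ X u τ)) :=
      Kw_mono (ok := fun p s => okG H p s ∧ St X Q C (tp τ) p s) (fun h hp => kC h hp)
        (fun h hp => kN h hp) (fun h hp => enU_leX h16 hW hn hF hD htu hQ h.1 h.2 hp) n (tp τ) _ hok
    rw [Kw_lin] at a1
    have e1 : (GMer27.M (one (b₀ X u τ)).c fun j => Lw (bm (rxm H)) (fun p b =>
        phE (rb H) (Real.log (p - 1 : ℕ) ^ (-e)) p b) n (tp τ) ((one (b₀ X u τ)).L j)) =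
        Lw (bm (rxm H)) (fun p b => phE (rb H) (Real.log (p - 1 : ℕ) ^ (-e)) p b) n (tp τ)
          (b₀ X u τ) := by
      show ∑ _j : Unit, (1 : ℝ) * Lw (bm (rxm H)) (fun p b =>
        phE (rb H) (Real.log (p - 1 : ℕ) ^ (-e)) p b) n (tp τ) (b₀ X u τ) = _
      simp
    rw [e1] at a1
    refine a1.trans ?_
    have hval := valRC (X := X) (Q := Q) (j₀ := j₀) (Kb := Kb) (B0 := u.B) hψ hQ hF
      (fun q hq => prime_gt hQ hR hl (Nat.prime_of_mem_primeFactors hq)
        (Nat.dvd_of_mem_primeFactors hq)) hK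
      (β := fun p => Real.log (p - 1 : ℕ) ^ (-e)) hA0 hA hE h1 h2
    have key := Lw_val (D := X.c.D.par X.Y) (sp := X.c.sp) (F := FV (rhoX X) fun _ => True)
      (φ := fun p b => phE (rb H) (Real.log (p - 1 : ℕ) ^ (-e)) p b)
      (btmX (H := H) htu) (carRC hQ) hval
      (fun {p m L} hp hL => by
        have eF : uF (rb H) p (m, L) = fun _ => 0 := by
          funext x
          show bcp (D.tp (p - 1) m) (bN p L) none x = 0
          rw [hL]
          exact bcp_nil' _ x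
        have eN : (rb H).uN p (m, L) = fun _ => 0 := by
          funext x
          show bcp (D.tp p m) (bN p L) none x = 0
          rw [hL]
          exact bcp_nil' _ x
        have eE : uE (rb H) p (m, L) = fun x => uF (rb H) p (m, L) x - (rb H).uN p (m, L) x := rfl
        show phE (rb H) (Real.log (p - 1 : ℕ) ^ (-e)) p (m, L) ≤ 0
        unfold phE
        rw [eE, eF, eN]
        simp only [sub_self]
        rw [I0]
        simp)
      (fun {p m L v σ} hp h ht hl' hL => phE_node hF.mon hD hQ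
        (β := fun p => Real.log (p - 1 : ℕ) ^ (-e)) hp h.rt ht hl' hL)
      n (tp τ) (mS u τ) [(u, τ)] (fun z hz => by
        rw [List.mem_singleton.1 hz]
        exact ⟨hR, hqe, Or.inr ⟨bel_im τ u hboot, rfl⟩⟩) hB.bi
    rw [sv_cons, sv_nil, add_zero] at key
    exact key
  linarith

end states

/-! ### numbers -/

/-- the rate of the payments -/
lemma nums {c2 M e : ℝ} (hc : 0 ≤ c2) (hM : 0 ≤ M) (he : 2 * (M + c2 + 2) ≤ e) {p0 p : ℕ} {Kb : ℝ}
    (hp0 : 8 ≤ p0) (h : p0 + 1 < p) (hK0 : 0 ≤ Kb) (hK : Kb ≤ M * Real.log p0 ^ M) :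
    Real.sqrt (Real.log (p - 1 : ℕ) ^ (-e)) * (Kb * (1 + Real.log p ^ c2)) ≤
      2 ^ (e / 2 + 1) * M * (1 / Real.log p ^ 2) := by
  have hp : (0 : ℝ) < p := by exact_mod_cast (show 0 < p by omega)
  have hp0' : (0 : ℝ) < p0 := by exact_mod_cast (show 0 < p0 by omega)
  set L := Real.log (p : ℝ) with hL
  set L' := Real.log ((p - 1 : ℕ) : ℝ) with hL'
  have hL1 : 1 ≤ L := Bld532.one_le_log_nat (by omega)
  have hL0 : 0 < L := by linarith
  have hLL : L / 2 ≤ L' := by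
    have h1 : (p : ℝ) ≤ ((p - 1 : ℕ) : ℝ) ^ 2 := by
      have h2 : p ≤ (p - 1) ^ 2 := by
        obtain ⟨k, rfl⟩ : ∃ k, p = k + 3 := ⟨p - 3, by omega⟩
        have : k + 3 - 1 = k + 2 := by omega
        rw [this]
        nlinarith
      exact_mod_cast h2
    have h3 := Real.log_le_log hp h1
    rw [Real.log_pow] at h3
    push_cast at h3
    have : L ≤ 2 * L' := by
      rw [hL, hL']
      have h4 : ((p - 1 : ℕ) : ℝ) = ((p - 1 : ℕ) : ℝ) := rfl
      exact_mod_cast h3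
    linarith
  have hL'0 : 0 < L' := by linarith
  have he0 : 0 ≤ e := by linarith
  have s1 : Real.sqrt (L' ^ (-e)) = L' ^ (-(e / 2)) := by
    rw [Real.sqrt_eq_rpow, ← Real.rpow_mul hL'0.le]
    congr 1
    ring
  have s2 : L' ^ (-(e / 2)) ≤ 2 ^ (e / 2) * L ^ (-(e / 2)) := by
    have h1 := Real.rpow_le_rpow_of_nonpos (show 0 < L / 2 by linarith) hLL
      (show -(e / 2) ≤ 0 by linarith)
    refine h1.trans (le_of_eq ?_)
    rw [Real.div_rpow hL0.le (by norm_num), div_eq_mul_inv, ← Real.rpow_neg (by norm_num), neg_neg,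
      mul_comm]
  have s3 : Kb ≤ M * L ^ M := by
    refine hK.trans (mul_le_mul_of_nonneg_left (Real.rpow_le_rpow (Real.log_natCast_nonneg _) ?_ hM) hM)
    exact Real.log_le_log hp0' (by exact_mod_cast (show p0 ≤ p by omega))
  have s4 : 1 + L ^ c2 ≤ 2 * L ^ c2 := by
    have := Real.one_le_rpow hL1 hc
    linarith
  have s5 : Kb * (1 + L ^ c2) ≤ M * L ^ M * (2 * L ^ c2) :=
    mul_le_mul s3 s4 (by positivity) (by positivity)
  rw [s1]
  have s6 : L' ^ (-(e / 2)) * (Kb * (1 + L ^ c2)) ≤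
      2 ^ (e / 2) * L ^ (-(e / 2)) * (M * L ^ M * (2 * L ^ c2)) :=
    mul_le_mul s2 s5 (by positivity) (by positivity)
  refine s6.trans ?_
  have s7 : (2 : ℝ) ^ (e / 2 + 1) = 2 ^ (e / 2) * 2 := by
    rw [Real.rpow_add (by norm_num), Real.rpow_one]
  have s8 : L ^ (-(e / 2)) * L ^ M * L ^ c2 ≤ 1 / L ^ 2 := by
    rw [← Real.rpow_add hL0, ← Real.rpow_add hL0]
    have h1 : L ^ (-(e / 2) + M + c2) ≤ L ^ (-2 : ℝ) :=
      Real.rpow_le_rpow_of_exponent_le hL1 (by linarith)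
    refine h1.trans (le_of_eq ?_)
    rw [Real.rpow_neg hL0.le, one_div]
    congr 1
    exact Real.rpow_natCast L 2
  rw [s7]
  have h2 : 0 ≤ (2 : ℝ) ^ (e / 2) * 2 * M := by positivity
  have h3 := mul_le_mul_of_nonneg_left s8 h2
  refine le_trans (le_of_eq ?_) h3
  ring

/-- telescoping -/
lemma tele {p : ℕ} (h : 4 ≤ p) : 1 / (p : ℝ) * (1 / Real.log p ^ 2) ≤
    1 / Real.log (p - 1 : ℕ) - 1 / Real.log p := by
  have hp : (0 : ℝ) < p := by exact_mod_cast (show 0 < p by omega)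
  have hp1 : (1 : ℝ) < ((p - 1 : ℕ) : ℝ) := by exact_mod_cast (show 1 < p - 1 by omega)
  have hp2 : (1 : ℝ) < p := by exact_mod_cast (show 1 < p by omega)
  have e1 : ((p - 1 : ℕ) : ℝ) = p - 1 := by
    rw [Nat.cast_sub (by omega)]; norm_num
  set L := Real.log (p : ℝ) with hL
  set L' := Real.log ((p - 1 : ℕ) : ℝ) with hL'
  have hL'0 : 0 < L' := Real.log_pos hp1
  have hL0 : 0 < L := Real.log_pos hp2
  have h1 : 1 / (p : ℝ) ≤ L - L' := by
    have h2 := Real.log_le_sub_one_of_pos (show 0 < ((p - 1 : ℕ) : ℝ) / p by positivity)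
    rw [Real.log_div (by linarith) hp.ne'] at h2
    have h3 : ((p - 1 : ℕ) : ℝ) / p - 1 = -(1 / (p : ℝ)) := by
      rw [e1]; field_simp; ring
    rw [h3] at h2
    linarith
  have hLL : L' ≤ L := by
    have : 0 < 1 / (p : ℝ) := by positivity
    linarith
  have h4 : 1 / L' - 1 / L = (L - L') / (L' * L) := by field_simp
  rw [h4, ← div_eq_mul_one_div]
  refine div_le_div₀ (by linarith [show 0 < 1 / (p : ℝ) by positivity]) h1 (by positivity) ?_
  nlinarith

/-! ### contexts -/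

/-- **LEMMA F IN A CONTEXT** : the cost of the content outside the game is small -/
theorem ctx_U (N : Skel189.Num) (M : ℝ) (hM : 0 ≤ M) {a δ e : ℝ} (ha : 0 < a) (h2a : 2 * a < δ)
    (he : e * a < δ) (heM : 2 * (M + N.c2 + 2) ≤ e) {ε : ℝ} (hε : 0 < ε) : ∃ p₁ : ℕ,
    ∀ p0 ≥ p₁, ∀ (γ : ℝ) (P₀ : ℕ) (X : Ctx N γ p0 P₀) (j₀ : X.c.Lam) (Kb : ℝ), 0 ≤ Kb →
      Kb ≤ M * Real.log p0 ^ M →
      All (fun u τ => BootF X j₀ (fun _ _ => 0) Kb u τ →
        ∀ {Q : NS → IT → Prop} {C : ℝ} {ζ : Type} [Fintype ζ] [DecidableEq ζ]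
          {D : TD Me X.c.Lam (LbX X) ζ} (H : TYp (rhoX X) D (InvM X Q C))
          {F : ℕ → Finset ℕ → Prop}, (∀ u τ, Q u τ → NDt X.par (w X.ψ) X.c.t u τ) → All Q u τ →
          InvM X Q C (X.self u τ Finset.univ).p (b₀ X u τ) → FOk a δ F (tp τ) p0 →
          (∀ p m x j, D.tp p m x j = none ↔ flg F X.c p j.1.1) → D.tu = tuM → ∀ n,
          Kw (bm (rxm H)) (cU (rb H)) n (X.self u τ Finset.univ).p (one (b₀ X u τ)) ≤
            ε * X.mu j₀ u τ Finset.univ)
        ⟨top X.S, 1, 1, 1⟩ X.c.t := by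
  have hc0 : 0 ≤ N.c2 := N.hc2
  obtain ⟨n₀, h16, hom⟩ := St.om_le ha h2a he
  obtain ⟨p1, h1⟩ := SecO55.ctx_SOn N M hM (show 0 < ε / 2 by linarith)
  obtain ⟨p2, hp2⟩ : ∃ p2 : ℕ, ∀ p0 ≥ p2, 2 ^ (e / 2 + 1) * M * (2 / Real.log (p0 + 1 : ℕ)) ≤
      ε / 2 := by
    have h := (Real.tendsto_log_atTop.comp (tendsto_natCast_atTop_atTop (R := ℝ))).comp
      (tendsto_add_atTop_nat 1)
    obtain ⟨p2, h3⟩ := Filter.eventually_atTop.1
      (h.eventually_ge_atTop (2 ^ (e / 2 + 1) * M * 4 / ε + 1))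
    refine ⟨p2, fun p0 hp0 => ?_⟩
    have h4 : 2 ^ (e / 2 + 1) * M * 4 / ε + 1 ≤ Real.log ((p0 + 1 : ℕ) : ℝ) := h3 p0 hp0
    have h5 : (0 : ℝ) ≤ 2 ^ (e / 2 + 1) * M := by positivity
    have h6 : 0 ≤ 2 ^ (e / 2 + 1) * M * 4 / ε := by positivity
    have h7 : 0 < Real.log ((p0 + 1 : ℕ) : ℝ) := by linarith
    rw [← mul_div_assoc, div_le_iff₀ h7]
    have h8 : 2 ^ (e / 2 + 1) * M * 4 / ε ≤ Real.log ((p0 + 1 : ℕ) : ℝ) := by linarith
    rw [div_le_iff₀ hε] at h8
    linarith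
  refine ⟨p1 + p2 + n₀, fun p0 hp0 γ P₀ X j₀ Kb hK0 hK => ?_⟩
  have hψ : ∀ q, 0 ≤ w X.ψ q := fun q => by
    have := X.sys.nonneg q
    unfold w
    positivity
  have hQE := ctx_QE X j₀ (Q' := fun _ _ => True) (All.mono (fun _ _ _ => trivial) (ctx_NDt X))
  refine All.mono (fun u τ hh hb => ?_) ((All_All _ _ hQE).and
    (h1 p0 (by omega) γ P₀ X j₀ Kb hK0 hK))
  intro Q C ζ _ _ D H F hQ hall hB hF hD htu n
  obtain ⟨hqe, hso⟩ := hh
  have hmu : X.mu j₀ u τ Finset.univ = u.c * Ws (w X.ψ) τ.items := hqe.self.mass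
  have hmu0 : 0 ≤ X.mu j₀ u τ Finset.univ := by
    rw [hmu]; exact mul_nonneg hqe.self.nf.c0.le (Ws_nonneg hψ _)
  by_cases hl : isL τ
  · have e1 : (X.self u τ Finset.univ).p = 0 := by rw [self_p X u τ, tp_leaf hl]
    rw [e1]
    cases n with
    | zero =>
      show (0 : ℝ) ≤ _
      positivity
    | succ n =>
      rw [Kw_z]
      positivity
  have hR : RtX X Q (tp τ) (mS u τ) u τ :=
    ⟨TYP9.Rt.start hQ X.tOk hall, (tp_lt_n hQ hall hl).le.trans hqe.self.lv⟩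
  -- the rates
  set c₀ : ℝ := 2 ^ (e / 2 + 1) * M with hc₀
  have hc₀0 : 0 ≤ c₀ := by positivity
  set B : ℝ := Real.log ((p0 + 1 : ℕ) : ℝ) with hBd
  have hB1 : 1 ≤ B := Bld532.one_le_log_nat (by omega)
  have hB0 : 0 < B := by linarith
  set A : ℕ → ℝ := fun p => c₀ * (1 / B - 1 / Real.log ((max p (p0 + 1) : ℕ) : ℝ)) with hA
  have hlm : ∀ p : ℕ, B ≤ Real.log ((max p (p0 + 1) : ℕ) : ℝ) := fun p =>
    Real.log_le_log (by exact_mod_cast Nat.succ_pos p0) (by exact_mod_cast le_max_right _ _)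
  have hA0 : ∀ p, 0 ≤ A p := fun p => by
    refine mul_nonneg hc₀0 (sub_nonneg.2 ?_)
    exact one_div_le_one_div_of_le hB0 (hlm p)
  have hAm : ∀ p, A (p - 1) ≤ A p := fun p => by
    refine mul_le_mul_of_nonneg_left (sub_le_sub_left ?_ _) hc₀0
    have h3 := hlm (p - 1)
    have h4 : (0 : ℝ) < ((max (p - 1) (p0 + 1) : ℕ) : ℝ) := by
      exact_mod_cast lt_of_lt_of_le (Nat.succ_pos p0) (le_max_right _ _)
    refine one_div_le_one_div_of_le (by linarith) (Real.log_le_log h4 ?_)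
    exact_mod_cast max_le_max (Nat.sub_le _ _) le_rfl
  have hnum : ∀ p, p0 + 1 < p → Real.sqrt (Real.log (p - 1 : ℕ) ^ (-e)) *
      (Kb * (1 + Real.log p ^ N.c2)) ≤ c₀ * (1 / Real.log p ^ 2) := fun p hp =>
    nums hc0 hM heM (by omega) hp hK0 hK
  have key := Kw_U_le (H := H) (X := X) (u := u) (τ := τ) h16 rfl
    (fun {p s} hp hs c0 E hE => by
      classical
      refine le_trans ?_ (hom hQ hp hs c0)
      refine Finset.sum_le_sum fun k _ => ?_
      by_cases hk : E k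
      · rw [if_pos hk, if_pos (hE k hk)]
      · rw [if_neg hk]
        split_ifs
        · exact c0 k
        · exact le_rfl)
    (by omega : n₀ ≤ p0 + 1) hF hD htu hQ hψ hR hl hB hK0 hqe hb (A := A)
    (E := c₀ * (1 / B ^ 2)) hA0 hAm (by positivity)
    (fun p hp => by
      have k1 := hnum p hp
      have k2 := tele (p := p) (by omega)
      have m1 : max p (p0 + 1) = p := max_eq_left (by omega)
      have m2 : max (p - 1) (p0 + 1) = p - 1 := max_eq_left (by omega)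
      have e1 : A p - A (p - 1) = c₀ * (1 / Real.log (p - 1 : ℕ) - 1 / Real.log p) := by
        simp only [hA, m1, m2]
        ring
      rw [e1]
      have k3 := mul_le_mul_of_nonneg_left k2 hc₀0
      have k4 := mul_le_mul_of_nonneg_right k1 (show (0 : ℝ) ≤ 1 / (p : ℝ) by positivity)
      calc Real.sqrt (Real.log (p - 1 : ℕ) ^ (-e)) * (1 / (p : ℝ)) *
            (Kb * (1 + Real.log p ^ N.c2)) = Real.sqrt (Real.log (p - 1 : ℕ) ^ (-e)) *
            (Kb * (1 + Real.log p ^ N.c2)) * (1 / (p : ℝ)) := by ring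
        _ ≤ c₀ * (1 / Real.log p ^ 2) * (1 / (p : ℝ)) := k4
        _ = c₀ * (1 / (p : ℝ) * (1 / Real.log p ^ 2)) := by ring
        _ ≤ _ := k3)
    (fun p hp => by
      refine (hnum p hp).trans (mul_le_mul_of_nonneg_left ?_ hc₀0)
      refine one_div_le_one_div_of_le (by positivity) (pow_le_pow_left₀ hB0.le ?_ 2)
      exact Real.log_le_log (by exact_mod_cast Nat.succ_pos p0)
        (by exact_mod_cast (show p0 + 1 ≤ p by omega))) n
  refine key.trans ?_
  have k1 := hso hb n (X.self u τ Finset.univ).p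
  have k2 : vl X F A (c₀ * (1 / B ^ 2)) (X.self u τ Finset.univ).p u τ ≤
      ε / 2 * X.mu j₀ u τ Finset.univ := by
    rw [hmu]
    unfold vl
    rw [hmu] at hmu0
    refine mul_le_mul_of_nonneg_right ?_ hmu0
    have hAP : ∀ p, A p ≤ c₀ * (1 / B) := fun p => by
      refine mul_le_mul_of_nonneg_left (sub_le_self _ ?_) hc₀0
      have := hlm p
      have : 0 < Real.log ((max p (p0 + 1) : ℕ) : ℝ) := by linarith
      positivity
    have hE' : c₀ * (1 / B ^ 2) ≤ c₀ * (1 / B) := by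
      refine mul_le_mul_of_nonneg_left (one_div_le_one_div_of_le hB0 ?_) hc₀0
      nlinarith
    have hE0 : 0 ≤ c₀ * (1 / B ^ 2) := by positivity
    have h5 := hp2 p0 (by omega)
    have h6 : c₀ * (2 / B) = c₀ * (1 / B) + c₀ * (1 / B) := by ring
    have h7 : c₀ * (1 / B) + c₀ * (1 / B) ≤ ε / 2 := by
      rw [← h6]; exact h5
    by_cases hf : fl F (X.self u τ Finset.univ).p u
    · rw [cf_fl hf]
      have := hAP (X.self u τ Finset.univ).p
      linarith
    · rw [cf_not hf]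
      have := hAP (X.self u τ Finset.univ).p
      linarith
  linarith

end Crest.Agent.R4P.FlH845
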