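import Crest.Agent.R4P.AsB_407
import Crest.Agent.R4P.CrsFin_26

/-!
R4 (S0004) with powers, helper845: **the bootstrap constant is at most `M (log p0)^c2`**.

In `FinEB25.TgtWPB`, `TopG25.GTopW`, `GTopA50.Tgt50A`, `AsB407.TgtB` the bootstrap constant is an arbitrary
`Kb ≤ M (log p0)^M`, `M` after the constants `a`.  The real constant is
`Kbt = 16 (K (log p0)^c2 + C₀ + η + B + 1)`: the exponent is the FIXED number `N.c2` (`= 1` for the final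
numbers, `NumFin.c2`), only the factor is arbitrary.  So errors `Kb (log p0)^(-c2-e)` are payable.

* `TgtWPL`, `TgtTopL`, `GTopL`, `GameL`, **`Tgt50L`**, **`TgtBL`** : the same targets for
  `Kb ≤ M (log p0)^N.c2`; weaker than the targets with `(log p0)^M` (`TgtWPB.toL`, `Tgt50A.toL`, `TgtB.toL`).
* `MAIN_EL`, `MAIN_PL`, `S0004_PL`, `S0004_topL`, **`S0004_50L`**, **`S0004_BL`** : S0004 from them.
* `log_le_of_fin` : for the final numbers `Kb ≤ M log p0`.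
-/

set_option autoImplicit false
set_option linter.unusedSectionVars false
set_option linter.unusedVariables false

open MeasureTheory Filter

namespace Crest.Agent.R4P.KbL845

open Crest.Agent.R4.Tour104 Crest.Agent.R4.Tour758 Crest.Agent.R4.Avg758 Crest.Agent.R4.Clos758
open Crest.Agent.R4.ClosL758 Crest.Agent.R4.ClosG758 Crest.Agent.R4.ClosR758
open Crest.Agent.R4.Fam464 Crest.Agent.R4P.Cnt588 Crest.Agent.R4P.Walk560 Crest.Agent.R4P.Item758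
open Crest.Agent.R4.Soft104 Crest.Agent.R4.Max709
open Crest.Agent.R4P.Bld532 (NS All NodeOk)
open Crest.Agent.R4P.Data758 Crest.Agent.R4P.SkelF29 Crest.Agent.R4P.Strip29
open Crest.Agent.R4P.Skel189 Crest.Agent.R4P.OSWS245 Crest.Agent.R4P.ParF5 Crest.Agent.R4P.Fin5
open Crest.Agent.R4P.NumX34
open Crest.Agent.R4.Fin532 (MAIN)
open Crest.Agent.R4P.PayA26 Crest.Agent.R4P.FinX26 Crest.Agent.R4P.Mrg35 Crest.Agent.R4P.PayR26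
open Crest.Agent.R4P.KindPay36 (CA KOk)
open Crest.Agent.R4P.AccAl31 (alX)
open Crest.Agent.R4P.FinAll26 Crest.Agent.R4P.TW17 Crest.Agent.R4P.StripT26
open Crest.Agent.R4P.SkelE26 Crest.Agent.R4P.FrameT26 Crest.Agent.R4P.FinT26 Crest.Agent.R4P.FinE26
open Crest.Agent.R4P.TE26 Crest.Agent.R4P.StripE26
open Crest.Agent.R4P.NumG23 (exists_numFinG NumG SxF SxF_mass aAcc)
open Crest.Agent.R4P
open Crest.Agent.R4P.FinEE26 Crest.Agent.R4P.SxT6 Crest.Agent.R4P.SxE26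
open Crest.Agent.R4P.FinEB25

variable {N : Skel189.Num} {γ : ℝ}

/-- powers of `log p0`: the exponent `c2` is below `M + c2` -/
lemma le_pow_of {N : Skel189.Num} {M Kb : ℝ} (hM : 0 ≤ M) {p0 : ℕ} (hp : 3 ≤ p0)
    (h : Kb ≤ M * Real.log p0 ^ N.c2) :
    Kb ≤ (M + N.c2) * Real.log p0 ^ (M + N.c2) := by
  have hc := N.hc2
  have hl := Bld532.one_le_log_nat hp
  have h2 : Real.log (p0 : ℝ) ^ N.c2 ≤ Real.log (p0 : ℝ) ^ (M + N.c2) :=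
    Real.rpow_le_rpow_of_exponent_le hl (by linarith)
  have h3 : 0 ≤ Real.log (p0 : ℝ) ^ (M + N.c2) := by positivity
  have h4 := mul_le_mul_of_nonneg_left h2 hM
  have h5 := mul_nonneg hc h3
  linarith

/-- the bootstrap constant has the exponent `c2` -/
lemma Kbt_leL (N : Skel189.Num) {K C₀ η B : ℝ} (hK : 0 ≤ K) (hC : 0 ≤ C₀) (hη : 0 ≤ η)
    (hB : 0 ≤ B) : ∃ M : ℝ, 0 ≤ M ∧ ∀ p0 : ℕ, 3 ≤ p0 →
      0 ≤ Kbt N K C₀ (fun _ => η) (fun _ => B) p0 ∧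
      Kbt N K C₀ (fun _ => η) (fun _ => B) p0 ≤ M * Real.log p0 ^ N.c2 := by
  refine ⟨16 * (K + C₀ + η + B + 1), by positivity, fun p0 hp0 => ?_⟩
  have hl := Bld532.one_le_log_nat hp0
  have h1 : 1 ≤ Real.log (p0 : ℝ) ^ N.c2 := Real.one_le_rpow hl N.hc2
  unfold Kbt
  refine ⟨by positivity, ?_⟩
  have h5 : 0 ≤ (C₀ + η + B + 1) * (Real.log (p0 : ℝ) ^ N.c2 - 1) :=
    mul_nonneg (by linarith) (by linarith)
  nlinarith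

/-- **a local error is paid at the self states of the nodes with the bootstrap hypothesis**, exponent `c2` -/
def TgtWPL (ε : ℝ) (N : Skel189.Num) (γ : ℝ) (P : ∀ {p0 P₀ : ℕ} (X : Ctx N γ p0 P₀), Prop)
    (loc : ∀ {p0 P₀ : ℕ} (X : Ctx N γ p0 P₀) (j₀ : X.c.Lam), Fl × X.Sta → ℝ) : Prop :=
  ∃ a : ℝ, 0 ≤ a ∧ ∀ M : ℝ, 0 ≤ M → Ev N γ fun p0 P₀ X => CF X → P X → ∀ (j₀ : X.c.Lam) (Kb : ℝ),
    0 ≤ Kb → Kb ≤ M * Real.log p0 ^ N.c2 →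
      PartTE X j₀ (BootF X j₀ (fun _ _ => 0) Kb) (loc X j₀) ε a

/-- the same for all the contexts -/
def TgtWL (ε : ℝ) (N : Skel189.Num) (γ : ℝ)
    (loc : ∀ {p0 P₀ : ℕ} (X : Ctx N γ p0 P₀) (j₀ : X.c.Lam), Fl × X.Sta → ℝ) : Prop :=
  ∃ a : ℝ, 0 ≤ a ∧ ∀ M : ℝ, 0 ≤ M → Ev N γ fun p0 P₀ X => CF X → ∀ (j₀ : X.c.Lam) (Kb : ℝ),
    0 ≤ Kb → Kb ≤ M * Real.log p0 ^ N.c2 →
      PartTE X j₀ (BootF X j₀ (fun _ _ => 0) Kb) (loc X j₀) ε a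

/-- eventually in `p0`, `Kb ≤ M (log p0)^c2` gives `Kb ≤ (M + c2) (log p0)^(M + c2)` -/
lemma ev_pow {M : ℝ} (hM : 0 ≤ M) : Ev N γ fun p0 _ _ => ∀ Kb : ℝ, Kb ≤ M * Real.log p0 ^ N.c2 →
    Kb ≤ (M + N.c2) * Real.log p0 ^ (M + N.c2) :=
  Ev.of (p₁ := 3) fun p0 hp P₀ _ X Kb h => le_pow_of hM hp h

lemma TgtWPB.toL {ε : ℝ} {P : ∀ {p0 P₀ : ℕ} (X : Ctx N γ p0 P₀), Prop}
    {loc : ∀ {p0 P₀ : ℕ} (X : Ctx N γ p0 P₀) (j₀ : X.c.Lam), Fl × X.Sta → ℝ}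
    (h : TgtWPB ε N γ P loc) : TgtWPL ε N γ P loc := by
  obtain ⟨a, ha, h⟩ := h
  refine ⟨a, ha, fun M hM => ((h (M + N.c2) (add_nonneg hM N.hc2)).and (ev_pow hM)).mono ?_⟩
  rintro p0 P₀ X ⟨hh, hk⟩ hC hP j₀ Kb k1 k2
  exact hh hC hP j₀ Kb k1 (hk Kb k2)

lemma TgtWB.toL {ε : ℝ}
    {loc : ∀ {p0 P₀ : ℕ} (X : Ctx N γ p0 P₀) (j₀ : X.c.Lam), Fl × X.Sta → ℝ}
    (h : TgtWB ε N γ loc) : TgtWL ε N γ loc := by
  obtain ⟨a, ha, h⟩ := h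
  refine ⟨a, ha, fun M hM => ((h (M + N.c2) (add_nonneg hM N.hc2)).and (ev_pow hM)).mono ?_⟩
  rintro p0 P₀ X ⟨hh, hk⟩ hC j₀ Kb k1 k2
  exact hh hC j₀ Kb k1 (hk Kb k2)

/-- the two-sided columns of the top states -/
def TgtTopL0 (ε : ℝ) (N : Skel189.Num) (γ : ℝ) : Prop := TgtWL ε N γ fun X j₀ => xC (SXN X j₀)

/-- **`TgtTop` with absorption, bootstrap and a further prune**, exponent `c2` -/
def TgtTopL (ε : ℝ) (Sy : ℝ → ℝ → ℕ → (ℕ → ℝ) → Finset ℕ → Finset ℕ) (N : Skel189.Num) (γ : ℝ) :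
    Prop :=
  TgtWPL ε N γ (fun X => InS Sy N γ X) fun X j₀ => xC (SXN X j₀)

/-- **`MAIN` from the targets with the bootstrap hypothesis**, exponent `c2` for the top target -/
theorem MAIN_EL {th : ℕ → (ℕ → ℝ) → Finset ℕ → ℕ → ℝ} {Ct C₀ : ℝ}
    {Sx : ℕ → (ℕ → ℝ) → Finset ℕ → Finset ℕ} (h : NumOK N th Ct C₀ Sx) (hX : TgtX N γ)
    (hSe : TgtSelf N γ) (hTo : TgtTopL0 (1 / 16) N γ) (hCr : TgtCrsB (1 / 16) N γ)
    (hL : TgtL N γ) (hD : TgtD N γ) : MAIN γ := by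
  replace hCr := TgtWB.toL hCr
  obtain ⟨C, Ce, K₁, s₁, s₂, B₁, A, hk, hA, hX⟩ := hX
  obtain ⟨b1, hb1, hSe⟩ := hSe
  obtain ⟨b2, hb2, hTo⟩ := hTo
  obtain ⟨b3, hb3, hCr⟩ := hCr
  obtain ⟨B₃, b4, hb4, hL⟩ := hL
  obtain ⟨a', ha', hD⟩ := hD
  obtain ⟨pX, hpX⟩ := part_eXR N (Ce := Ce) hk hA
  have hXR : Ev N γ fun p0 P₀ X => ∀ (j₀ : X.c.Lam) (Q' : NS → IT → Prop),
      All Q' ⟨top X.S, 1, 1, 1⟩ X.c.t → ∀ B₁ B : ℝ, B₁ + 1 ≤ B →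
      CBX X j₀ Q' B₁ C Ce K₁ s₁ s₂ (alX A γ (1 / (1 - s₂))) → ∀ Hb : NS → IT → Prop,
      PartWF X j₀ Hb (SXN X j₀) (eXR (SXN X j₀) (X.c.D.par X.Y).rho (X.tm j₀) B) (a6X N.B K₁) :=
    Ev_P2 N ⟨pX, fun p0 hp0 P₀ hP X j₀ => hpX p0 hp0 γ P₀ hP X j₀⟩
  obtain ⟨B₀, p7, h7⟩ := StopCtx9.part_eSTOP N
  obtain ⟨p2, h2⟩ := RseNd23.part_rse N (κ := 1) one_pos
  obtain ⟨p3, h3⟩ := NMPart10.part_eNM N (κ := 1) one_pos
  obtain ⟨p1, h1⟩ := NumOK.facts h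
  have h6 := a6X_nonneg (B := N.B) hk.K0
  set B : ℝ := max 0 (max (max B₀ B₃) (B₁ + 1)) with hBd
  have hB0 : 0 ≤ B := le_max_left _ _
  have hB1 : B₀ ≤ B := ((le_max_left _ _).trans (le_max_left _ _)).trans (le_max_right _ _)
  have hB3 : B₃ ≤ B := ((le_max_right _ _).trans (le_max_left _ _)).trans (le_max_right _ _)
  have hB2 : B₁ + 1 ≤ B := (le_max_right _ _).trans (le_max_right _ _)
  refine MAIN_of_nodesE N h.hS2 (C₀ := C₀) (by have := h.C₀1; linarith) h.leaf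
    (fun {p0 P₀} X j₀ b d A => WF (SXN X j₀) (eT (SXN X j₀) (X.tm j₀) (X.tn j₀) b)
      (Fl.self, selfSt d A))
    (B := fun _ => B) (a₁ := fun _ => a') (a₂ := fun _ => 1)
    (a₃ := fun _ => 8 + a6X N.B K₁ + 1 + (b1 + b2 + b3 + b4)) (fun _ => hB0) (fun _ => ha')
    (fun _ => by norm_num) (fun _ => by positivity) ?_ ?_
  · refine Ev_P2 N ⟨0, fun p0 _ P₀ _ X j₀ => ?_⟩
    exact selfE_walkE hB0 (SXN_blind X j₀) (SXN_nosplit X j₀)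
      (fun s hO hO' hs => stpN_root s hO hO' ((SXN_st X j₀ s).1 hs))
      (fun d A => SXN_jt X j₀ d A)
  · intro K hK Kb hKb
    obtain ⟨M, hM, hKM⟩ := Kbt_leL N hK (C₀ := C₀) (by have := h.C₀1; linarith)
      (η := a' + 1 + (8 + a6X N.B K₁ + 1 + (b1 + b2 + b3 + b4))) (by positivity) hB0
    have hKE : Ev N γ fun p0 P₀ X => 0 ≤ Kb p0 ∧ Kb p0 ≤ M * Real.log p0 ^ N.c2 :=
      Ev.of (p₁ := 3) fun p0 hp0 P₀ _ X => by rw [hKb]; exact hKM p0 hp0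
    have hTo := hTo M hM
    have hCr := hCr M hM
    have hcl : Ev N γ fun _ _ X => CF X ∧ ∀ j₀ : X.c.Lam,
        (∀ Hb : NS → IT → Prop, Part X j₀ Hb (fun u τ A => rseR A (X.g u τ)) 1) ∧
        (∀ (Hb : NS → IT → Prop) (stp : X.STP), (∀ s : X.Sta, ¬ stp s → ¬ stpN s) →
          PartW X j₀ Hb stp (eNM stp) (4 * (1 + 1))) ∧
        (∀ (Hb : NS → IT → Prop) (stp : X.STP), (∀ s, stp s → stpN s) →
          (∀ s : X.Sta, ¬ stp s → ¬ stpN s) → ∀ (B η : ℝ), B₀ ≤ B → 0 ≤ η →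
          PartW X j₀ Hb stp (eSTOP stp (X.tm j₀) (X.tn j₀) B) η) := by
      refine Ev.of (p₁ := p1 + p2 + p3 + p7) fun p0 hp0 P₀ hP X => ?_
      have hC := h1 p0 (by omega) γ P₀ X
      exact ⟨hC, fun j₀ => ⟨fun Hb => h2 p0 (by omega) γ P₀ hP X hC.rse j₀ Hb,
        fun Hb stp hst => h3 p0 (by omega) γ P₀ hP X hC.wnm j₀ Hb stp hst,
        fun Hb stp hstp hst B η hB hη => h7 p0 (by omega) γ P₀ hP X hC.tag hC.d1 hC.dep hC.wnm j₀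
          Hb stp hstp hst B η hB hη⟩⟩
    refine ((((((((hcl.and hX).and hXR).and hSe).and hTo).and hCr).and hL).and hD).and hKE).mono ?_
    rintro p0 P₀ X ⟨⟨⟨⟨⟨⟨⟨⟨⟨hC, hc⟩, x1⟩, x2⟩, y1⟩, y2⟩, y3⟩, y4⟩, x4⟩, hK1, hK2⟩ j₀
    obtain ⟨c2, c3, c7⟩ := hc j₀
    obtain ⟨Q', hQ, hQ'⟩ := x1 hC j₀
    have hs1 : ∀ s, SXN X j₀ s → stpN s := fun s => (SXN_st X j₀ s).1
    have hs2 : ∀ s : X.Sta, ¬ SXN X j₀ s → ¬ stpN s :=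
      fun s hn hh => hn ((SXN_st X j₀ s).2 hh)
    refine ⟨x4 hC j₀ _, (c2 _).toF, ?_⟩
    have z3 := c3 (BootF X j₀ (fun _ _ => 0) (Kb p0)) (SXN X j₀) hs2
    have e : (4 * (1 + 1) : ℝ) = 8 := by norm_num
    rw [e] at z3
    exact part_eTE z3.toF (x2 j₀ Q' hQ B₁ B hB2 hQ' _)
      (c7 _ _ hs1 hs2 B 1 hB1 zero_le_one).toF (y1 hC j₀ _) (y2 hC j₀ _ hK1 hK2)
      (y3 hC j₀ _ hK1 hK2)
      (y4 hC B hB3 j₀ _)

section up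
variable {S2 : ℕ → (ℕ → ℝ) → Finset ℕ → Finset ℕ}

theorem tgtWPL_up {ε : ℝ} {th : ℕ → (ℕ → ℝ) → Finset ℕ → ℕ → ℝ} {Ct C₀ : ℝ} {Sx : ℕ → (ℕ → ℝ) → Finset ℕ → Finset ℕ}
    (h : NumOK N th Ct C₀ Sx) (hs : ∀ p0 ψ S, S2 p0 ψ S ⊆ N.S2 p0 ψ S)
    {P : ∀ {p0 P₀ : ℕ} (X : Ctx N γ p0 P₀), Prop}
    (hP : ∀ {p0 P₀ : ℕ} (X : Ctx (mk N S2) γ p0 P₀), P (upC hs X))
    {loc : ∀ {p0 P₀ : ℕ} (X : Ctx N γ p0 P₀) (j₀ : X.c.Lam), Fl × X.Sta → ℝ}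
    {loc' : ∀ {p0 P₀ : ℕ} (X : Ctx (mk N S2) γ p0 P₀) (j₀ : X.c.Lam), Fl × X.Sta → ℝ}
    (hl : ∀ {p0 P₀ : ℕ} (X : Ctx (mk N S2) γ p0 P₀) (j₀ : X.c.Lam) (Hb : NS → IT → Prop) (a : ℝ),
      PartTE (upC hs X) j₀ Hb (loc (upC hs X) j₀) ε a → PartTE X j₀ Hb (loc' X j₀) ε a)
    (hT : TgtWPL ε N γ P loc) : TgtWL ε (mk N S2) γ loc' := by
  obtain ⟨a, ha, hT⟩ := hT
  obtain ⟨p1, h1⟩ := NumOK.facts h
  have hC : Ev N γ fun p0 P₀ X => CF X := Ev.of (p₁ := p1) fun p0 hp P₀ _ X => h1 p0 hp γ P₀ X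
  exact ⟨a, ha, fun M hM => (Ev.up hs (hC.and (hT M hM))).mono fun p0 P₀ X hh _ j₀ Kb k1 k2 =>
    hl X j₀ _ a (hh.2 hh.1 (hP X) j₀ Kb k1 k2)⟩

/-- **`MAIN` from the targets with a further prune**, exponent `c2` -/
theorem MAIN_PL {th : ℕ → (ℕ → ℝ) → Finset ℕ → ℕ → ℝ} {Ct C₀ : ℝ} {Sx : ℕ → (ℕ → ℝ) → Finset ℕ → Finset ℕ}
    {Sy : ℝ → ℝ → ℕ → (ℕ → ℝ) → Finset ℕ → Finset ℕ} (h : NumOK N th Ct C₀ Sx)
    (hx : ∃ p₁ : ℕ, ∀ p0 ≥ p₁, ∃ Q₁ : ℕ, ∀ P₀ ≥ Q₁, ∀ (ψ : ℕ → ℝ) (S : Finset ℕ), SysM P₀ ψ S →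
      Sx p0 ψ S ⊆ S ∧ (1 - 1 / 8) * Ws (w ψ) S ≤ Ws (w ψ) (Sx p0 ψ S))
    (hy : MassP (Sy γ N.C1)) (hX : TgtX (mk N fun p0 ψ S => S2t p0 ψ S ∩ (Sx p0 ψ S ∩
      Sy γ N.C1 p0 ψ S)) γ)
    (hSe : TgtSelf N γ) (hTo : TgtTopL (1 / 16) Sy N γ) (hCr : TgtCrsPB (1 / 16) Sy N γ)
    (hL : TgtL N γ) (hD : TgtD N γ) : MAIN γ := by
  classical
  have hs : ∀ p0 ψ S, S2t p0 ψ S ∩ (Sx p0 ψ S ∩ Sy γ N.C1 p0 ψ S) ⊆ N.S2 p0 ψ S := by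
    intro p0 ψ S q hq
    rw [h.S2]
    rw [Finset.mem_inter] at hq ⊢
    exact ⟨hq.1, (Finset.mem_inter.1 hq.2).1⟩
  have hP : ∀ {p0 P₀ : ℕ} (X : Ctx (mk N fun p0 ψ S => S2t p0 ψ S ∩ (Sx p0 ψ S ∩
      Sy γ N.C1 p0 ψ S)) γ p0 P₀), InS Sy N γ (upC hs X) := by
    intro p0 P₀ X q hq
    have h1 := X.prn.sub2 hq
    exact (Finset.mem_inter.1 (Finset.mem_inter.1 h1).2).2
  obtain ⟨p1, h1⟩ := NumOK.facts h
  have hC : Ev N γ fun p0 P₀ X => CF X := Ev.of (p₁ := p1) fun p0 hp P₀ _ X => h1 p0 hp γ P₀ X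
  refine MAIN_EL (numOK_mk h hx hy) hX ?_ ?_ ?_ ?_ ?_
  · exact tgtWP_up h hs (P := fun _ => True) (fun _ => trivial)
      (fun X j₀ Hb a hh => partT_self hs X j₀ Hb a hh)
      (TgtW.toP (loc := fun X j₀ => xS (X.c.D.par X.Y).rho (SXN X j₀)) hSe)
  · exact tgtWPL_up h hs hP (fun X j₀ Hb a hh => partTE_top hs X j₀ Hb a hh) hTo
  · exact tgtWPB_up h hs hP (fun X j₀ Hb a hh => partTE_crs hs X j₀ Hb a hh) hCr
  · obtain ⟨B₀, a, ha, hL⟩ := hL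
    exact ⟨B₀, a, ha, (Ev.up hs (hC.and hL)).mono fun p0 P₀ X hh _ B hB j₀ Hb =>
      partT_L hs X j₀ Hb a B (hh.2 hh.1 B hB j₀ Hb)⟩
  · obtain ⟨a, ha, hD⟩ := hD
    exact ⟨a, ha, (Ev.up hs (hC.and hD)).mono fun p0 P₀ X hh _ j₀ Hb =>
      partF_D hs X j₀ Hb a (hh.2 hh.1 j₀ Hb)⟩

/-- **S0004 from the two targets with a further prune** `Sy` of mass `≥ 1 - 1/16`, exponent `c2` -/
theorem S0004_PL {Sy : ℝ → ℝ → ℕ → (ℕ → ℝ) → Finset ℕ → Finset ℕ} {cS : ℝ}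
    (hSy : ∀ γ C1 : ℝ, cS ≤ C1 → MassP (Sy γ C1))
    (hTo : ForN ParT21.thF SxF (TgtTopL (1 / 16) Sy))
    (hCr : ForN ParT21.thF SxF (TgtCrsPB (1 / 16) Sy))
    (γ : ℝ) (ψ : ℕ → ℝ)
    (hψ : ∀ q, 0 ≤ ψ q) (hdiv : ¬ Summable fun q : ℕ => (Nat.totient q : ℝ) / q * ψ q) :
    ∀ᵐ x : ℝ, ∃ᶠ q : ℕ in atTop, |(q : ℝ) * x - γ - round ((q : ℝ) * x - γ)| < ψ q := by
  obtain ⟨cX, hX⟩ := TgtXF26.tgtX_fin
  obtain ⟨c1, h1⟩ := TgSelf10.tgtSelf_fin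
  obtain ⟨c2, h2⟩ := hTo
  obtain ⟨c3, h3⟩ := hCr
  obtain ⟨c4, h4⟩ := ExL26.tgtL_fin EK17.tgtEK_fin
  obtain ⟨c5, h5⟩ := TgtDF7.tgtD_fin
  obtain ⟨C₀, -, H⟩ := exists_numFinG
  refine Fin5.S0004_of (fun γ => ?_) γ ψ hψ hdiv
  set cM := max (max (max cX c1) (max c2 c3)) (max (max c4 c5) (max cS 0)) with hcM
  have l1 : cX ≤ cM := ((le_max_left _ _).trans (le_max_left _ _)).trans (le_max_left _ _)
  have l2 : c1 ≤ cM := ((le_max_right _ _).trans (le_max_left _ _)).trans (le_max_left _ _)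
  have l3 : c2 ≤ cM := ((le_max_left _ _).trans (le_max_right _ _)).trans (le_max_left _ _)
  have l4 : c3 ≤ cM := ((le_max_right _ _).trans (le_max_right _ _)).trans (le_max_left _ _)
  have l5 : c4 ≤ cM := ((le_max_left _ _).trans (le_max_left _ _)).trans (le_max_right _ _)
  have l6 : c5 ≤ cM := ((le_max_right _ _).trans (le_max_left _ _)).trans (le_max_right _ _)
  have l7 : cS ≤ cM := ((le_max_left _ _).trans (le_max_right _ _)).trans (le_max_right _ _)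
  have l8 : 0 ≤ cM := ((le_max_right _ _).trans (le_max_right _ _)).trans (le_max_right _ _)
  have hxx : ∀ C1 : ℝ, cM ≤ C1 → ∃ p₁ : ℕ, ∀ p0 ≥ p₁, ∃ Q₁ : ℕ, ∀ P₀ ≥ Q₁, ∀ (ψ : ℕ → ℝ)
      (S : Finset ℕ), SysM P₀ ψ S →
      SxF γ C1 p0 ψ S ⊆ S ∧ (1 - 1 / 8) * Ws (w ψ) S ≤ Ws (w ψ) (SxF γ C1 p0 ψ S) :=
    fun C1 hC1 => SxF_mass γ C1 (l8.trans hC1)
  obtain ⟨N, Ct, m1, m2, m3⟩ := H cM ParT21.thF (SxF γ) ParT21.thF_ok hxx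
  have red : ∀ c : ℝ, c ≤ cM → NumFin N (ParT21.thF Ct) Ct c := fun c hc =>
    ⟨hc.trans m2.C1, m2.c2, m2.B, m2.A, m2.a', m2.a, m2.Ct, m2.rg⟩
  have hy : MassP (Sy γ N.C1) := hSy γ N.C1 (l7.trans m2.C1)
  refine MAIN_PL m1 (hxx N.C1 m2.C1) hy ?_ (h1 N Ct C₀ γ m1 (red _ l2) m3)
    (h2 N Ct C₀ γ m1 (red _ l3) m3) (h3 N Ct C₀ γ m1 (red _ l4) m3)
    (h4 N Ct C₀ γ m1 (red _ l5) m3) (h5 N Ct C₀ γ m1 (red _ l6) m3)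
  exact hX _ (ParT21.thF Ct) Ct C₀ γ _ (numOK_mk m1 (hxx N.C1 m2.C1) hy) (numFin_mk (red _ l1))

/-- **S0004 from `TgtTopL (1/16) Sy`** -/
theorem S0004_topL {Sy : ℝ → ℝ → ℕ → (ℕ → ℝ) → Finset ℕ → Finset ℕ} {cS : ℝ}
    (hSy : ∀ γ C1 : ℝ, cS ≤ C1 → MassP (Sy γ C1))
    (hTo : ForN ParT21.thF SxF (TgtTopL (1 / 16) Sy))
    (γ : ℝ) (ψ : ℕ → ℝ)
    (hψ : ∀ q, 0 ≤ ψ q) (hdiv : ¬ Summable fun q : ℕ => (Nat.totient q : ℝ) / q * ψ q) :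
    ∀ᵐ x : ℝ, ∃ᶠ q : ℕ in atTop, |(q : ℝ) * x - γ - round ((q : ℝ) * x - γ)| < ψ q := by
  obtain ⟨c3, h3⟩ := CrsFin26.tgtCrsE_fin (ε := 1 / 16) (by norm_num)
  exact S0004_PL hSy hTo ⟨c3, fun N Ct C₀ γ m1 m2 m3 =>
    TgtWPE.toB (TgtWE.toP (h3 N Ct C₀ γ m1 m2 m3))⟩ γ ψ hψ hdiv

end up

/-! ### group walks -/

section top
open Crest.Agent.R4P.Grp36 Crest.Agent.R4P.Xfer36 Crest.Agent.R4P.TopC36
open Crest.Agent.R4P.TopX36 Crest.Agent.R4P.PN36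
open Crest.Agent.R4P.TopG25 Crest.Agent.R4P.SecO25
open Crest.Agent.R4P.GWa343 Crest.Agent.R4P.GWb343 Crest.Agent.R4P.GWd343 Crest.Agent.R4P.GWe343
open Crest.Agent.R4P.GWf343 Crest.Agent.R4P.GWg343

/-- **the group walks at all nodes with the bootstrap hypothesis**, exponent `c2` -/
def GTopL (ε : ℝ) (N : Skel189.Num) (γ : ℝ) (P : ∀ {p0 P₀ : ℕ} (X : Ctx N γ p0 P₀), Prop) : Prop :=
  ∃ a : ℝ, 0 ≤ a ∧ ∀ M : ℝ, 0 ≤ M → Ev N γ fun p0 P₀ X => CF X → P X → ∀ (j₀ : X.c.Lam) (Kb : ℝ),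
    0 ≤ Kb → Kb ≤ M * Real.log p0 ^ N.c2 →
    All (fun u τ => BootF X j₀ (fun _ _ => 0) Kb u τ → ∀ n,
      GW X n u τ ≤ a * (X.mu j₀ u τ Finset.univ +
      X.mu j₀ u τ Finset.univ * X.mu j₀ u τ Finset.univ) +
      ε * I (fun x => tt Finset.univ (X.g u τ) x ^ 2)) ⟨top X.S, 1, 1, 1⟩ X.c.t

theorem GTopW.toL {ε : ℝ} {P : ∀ {p0 P₀ : ℕ} (X : Ctx N γ p0 P₀), Prop} (h : GTopW ε N γ P) :
    GTopL ε N γ P := by
  obtain ⟨a, ha, h⟩ := h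
  refine ⟨a, ha, fun M hM => ((h (M + N.c2) (add_nonneg hM N.hc2)).and (ev_pow hM)).mono ?_⟩
  rintro p0 P₀ X ⟨hh, hk⟩ hC hP j₀ Kb k1 k2
  exact hh hC hP j₀ Kb k1 (hk Kb k2)

/-- **the top target from the group walks** -/
theorem tgtWPL_ofL {ε : ℝ} {P : ∀ {p0 P₀ : ℕ} (X : Ctx N γ p0 P₀), Prop} (h : GTopL ε N γ P) :
    TgtWPL ε N γ P fun X j₀ => xC (SXN X j₀) := by
  obtain ⟨a, ha, h⟩ := h
  refine ⟨a, ha, fun M hM => (h M hM).mono fun p0 P₀ X hh hC hP j₀ Kb k1 k2 => ?_⟩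
  refine All.mono (fun u τ hh _ hb => ?_) (All.and (hh hC hP j₀ Kb k1 k2) (ctx_xC_le X j₀))
  obtain ⟨n, hn⟩ := hh.2
  have h2 := hh.1 hb n
  show WF (SXN X j₀) (xC (SXN X j₀)) (Fl.self, X.self u τ Finset.univ) -
    ε * I (fun x => tt Finset.univ (X.g u τ) x ^ 2) ≤ _
  linarith

theorem tgtTopL_ofL {ε : ℝ} {Sy : ℝ → ℝ → ℕ → (ℕ → ℝ) → Finset ℕ → Finset ℕ}
    (h : GTopL ε N γ fun X => InS Sy N γ X) : TgtTopL ε Sy N γ := tgtWPL_ofL h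

/-- **the game form** of the bound of the group walks, exponent `c2` (without the second order walk) -/
def GameL (ε : ℝ) (N : Skel189.Num) (γ : ℝ) (P : ∀ {p0 P₀ : ℕ} (X : Ctx N γ p0 P₀), Prop) : Prop :=
  ∃ a b : ℝ, 0 ≤ a ∧ 0 ≤ b ∧ ∀ M : ℝ, 0 ≤ M → Ev N γ fun p0 P₀ X => CF X → P X →
    ∀ (j₀ : X.c.Lam) (Kb : ℝ), 0 ≤ Kb → Kb ≤ M * Real.log p0 ^ N.c2 →
    All (fun u τ => BootF X j₀ (fun _ _ => 0) Kb u τ → ∀ n,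
      GW X n u τ ≤ a * (X.mu j₀ u τ Finset.univ +
      X.mu j₀ u τ Finset.univ * X.mu j₀ u τ Finset.univ) +
      b * I (fun x => tt Finset.univ (X.g u τ) x) +
      ε * I (fun x => tt Finset.univ (X.g u τ) x ^ 2)) ⟨top X.S, 1, 1, 1⟩ X.c.t

/-- **the game form is enough** -/
theorem gTopL_of_game {ε : ℝ} {P : ∀ {p0 P₀ : ℕ} (X : Ctx N γ p0 P₀), Prop} (h : GameL ε N γ P) :
    GTopL ε N γ P := by
  obtain ⟨a, b, ha, hb, h⟩ := h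
  refine ⟨a + 4 * b, by positivity, fun M hM => ?_⟩
  obtain ⟨p2, h2⟩ := VCtx29.ctx_QV N
  have hE : Ev N γ fun p0 P₀ X => ∀ (j₀ : X.c.Lam),
      All (fun u τ => VCtx29.QV X j₀ u τ) ⟨top X.S, 1, 1, 1⟩ X.c.t :=
    Ev.of (p₁ := p2) fun p0 hp0 P₀ hP X j₀ => h2 p0 (by omega) γ P₀ hP X j₀
  refine ((h M hM).and hE).mono ?_
  rintro p0 P₀ X ⟨hh, he⟩ hC hP j₀ Kb k1 k2
  refine All.mono (fun u τ hh hB n => ?_) (All.and (hh hC hP j₀ Kb k1 k2)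
    (All.and (All.and (he j₀) (ctx_side X j₀)) (ctx_mumu X j₀)))
  obtain ⟨g1, ⟨g3, g4⟩, g5⟩ := hh
  have x1 := g1 hB n
  have x3 := tot_le g3 g4.2.ok
  have x4 := (g5 Finset.univ).1
  have x5 := (g5 Finset.univ).2
  have y2 := mul_le_mul_of_nonneg_left x3 hb
  have y3 := mul_nonneg hb x5
  linarith

end top

/-! ### the contract -/

section tgt
open Crest.Agent.R4P.TopX36 Crest.Agent.R4P.PN36 Crest.Agent.R4P.Grp36 Crest.Agent.R4P.Xfer36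
open Crest.Agent.R4P.TopC36
open Crest.Agent.R4P.TopG25
open Crest.Agent.R4P.RSys343 Crest.Agent.R4P.RXm55 Crest.Agent.R4P.MSm25 Crest.Agent.R4P.PayR45
open Crest.Agent.R4P.Pay349 Crest.Agent.R4P.GSK55 Crest.Agent.R4P.GWa343 Crest.Agent.R4P.GWd343
open Crest.Agent.R4P.MSi343 (su)
open Crest.Agent.R4P.GTopW50 Crest.Agent.R4P.GTn5
open Crest.Agent.R4P.WalkIT579 (isL)
open Crest.Agent.R4P.BthL48 Crest.Agent.R4P.AvgT8 Crest.Agent.R4P.AvgM8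
open Crest.Agent.R4P.ModeS16 (MS Mx)
open Crest.Agent.R4P.GTopA50

/-- **`Tgt50A` for `Kb ≤ M (log p0)^c2`** -/
def Tgt50L (N : Skel189.Num) (γ : ℝ) (P : ∀ {p0 P₀ : ℕ} (X : Ctx N γ p0 P₀), Prop) (θ : ℝ) : Prop :=
  ∃ (J c a : ℝ) (b : ℝ → ℝ), 0 ≤ J ∧ 0 ≤ c ∧ 0 ≤ a ∧ (∀ del, 0 ≤ b del) ∧
    ∀ M : ℝ, 0 ≤ M → ∀ ϑ : ℝ, 0 < ϑ → Ev N γ fun p0 P₀ X => CF X → P X → ∀ (j₀ : X.c.Lam) (Kb : ℝ),
    0 ≤ Kb → Kb ≤ M * Real.log p0 ^ N.c2 →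
    All (fun u τ => ¬ isL τ → BootF X j₀ (fun _ _ => 0) Kb u τ →
      Nonempty (NDA X j₀ u τ J c a θ ϑ b)) ⟨top X.S, 1, 1, 1⟩ X.c.t

theorem Tgt50A.toL {P : ∀ {p0 P₀ : ℕ} (X : Ctx N γ p0 P₀), Prop} {θ : ℝ} (h : Tgt50A N γ P θ) :
    Tgt50L N γ P θ := by
  obtain ⟨J, c, a, b, hJ, hc, ha, hb, h⟩ := h
  refine ⟨J, c, a, b, hJ, hc, ha, hb, fun M hM ϑ hϑ =>
    ((h (M + N.c2) (add_nonneg hM N.hc2) ϑ hϑ).and (ev_pow hM)).mono ?_⟩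
  rintro p0 P₀ X ⟨hh, hk⟩ hC hP j₀ Kb k1 k2
  exact hh hC hP j₀ Kb k1 (hk Kb k2)

/-- **the group walks from the data** -/
theorem gTopL_of_50L {ε θ : ℝ} (hε : θ < ε) (hθ0 : 0 ≤ θ)
    {P : ∀ {p0 P₀ : ℕ} (X : Ctx N γ p0 P₀), Prop} (h : Tgt50L N γ P θ) : GTopL ε N γ P := by
  obtain ⟨J, c, a, b, hJ, hc, ha, hb, h⟩ := h
  have hεθ : 0 < ε - θ := by linarith
  obtain ⟨del, h0, h1, C, hC, H⟩ := avg_msx3L (ε := (ε - θ) / 2 / (c + 1)) (J := J) (by positivity) hJ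
  have hεc : c * ((ε - θ) / 2 / (c + 1)) ≤ (ε - θ) / 2 := by
    rw [mul_div_assoc', div_le_iff₀ (by linarith)]
    nlinarith
  have hbd := hb del
  -- the second order budget
  set W : ℝ := a + c * (28 * b del + 28 * a + C * a) with hW
  have hW0 : 0 ≤ W := by positivity
  have hϑ : 0 < (ε - θ) / 2 / (W + 1) := by positivity
  have hWϑ : W * ((ε - θ) / 2 / (W + 1)) ≤ (ε - θ) / 2 := by
    rw [mul_div_assoc', div_le_iff₀ (by linarith)]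
    nlinarith
  refine gTopL_of_game ⟨a + c * (28 * b del + 28 * a + C * a), c * C, by positivity,
    by positivity, fun M hM => ?_⟩
  refine (h M hM _ hϑ).mono fun p0 P₀ X hh hC' hP j₀ Kb k1 k2 => ?_
  refine All.mono (fun u τ hh hB n => ?_)
    ((hh hC' hP j₀ Kb k1 k2).and ((ctx_mumu X j₀).and (ctx_side X j₀)))
  have I2 : 0 ≤ I (fun x => tt Finset.univ (X.g u τ) x ^ 2) := I_nonneg fun x => sq_nonneg _
  have e2 : X.g u τ = (X.self u τ Finset.univ).t.g :=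
    (Item758.Par.toDT_g (X.c.D.par X.Y) X.c.sp τ u.B u.A).symm
  have I1 : 0 ≤ I (fun x => tt Finset.univ (X.g u τ) x) :=
    I_nonneg fun x => Finset.sum_nonneg fun j _ => by
      rw [rv_univ, e2]
      exact (hh.2.2.2.ok.pb j).nonneg x
  have m1 := (hh.2.1 Finset.univ).1
  have m2 := (hh.2.1 Finset.univ).2
  by_cases hl : isL τ
  · rw [GW_leaf X n u hl]
    have x7 : 0 ≤ ε * I (fun x => tt Finset.univ (X.g u τ) x ^ 2) :=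
      mul_nonneg (hθ0.trans hε.le) I2
    have x8 : 0 ≤ (a + c * (28 * b del + 28 * a + C * a)) * (X.mu j₀ u τ Finset.univ +
        X.mu j₀ u τ Finset.univ * X.mu j₀ u τ Finset.univ) := by positivity
    have x9 : 0 ≤ c * C * I (fun x => tt Finset.univ (X.g u τ) x) := by positivity
    linarith
  obtain ⟨Z⟩ := hh.1 hl hB
  let _ := Z.fA
  let _ := Z.nA
  set n' := max n Z.n0 with hn'
  have hn0 : Z.n0 ≤ n' := le_max_right _ _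
  choose Km hKm using fun i : Z.A => show ∃ Km : ℕ, del * (Z.G i).U.B0 ≤ 2 ^ Km from by
    obtain ⟨Km, hKm⟩ := pow_unbounded_of_one_lt (del * (Z.G i).U.B0) (one_lt_two)
    exact ⟨Km, hKm.le⟩
  -- every game bounds the group walk
  have x0 : ∀ i : Z.A, GW X n u τ ≤ c * Kr (Z.G i).R (Z.G i).rc n' (X.self u τ Finset.univ).p
      (one (Z.G i).b₀) + Kw (bm (Z.G i).R) (Z.G i).er n' (X.self u τ Finset.univ).p
      (one (Z.G i).b₀) := fun i => by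
    have y := GS_le_c (gT_E X) (Z.G i).P (Z.G i).D (fun hs hp => (Z.G i).loc hs hp) n'
      (X.self u τ Finset.univ).p (one (Z.G i).b₀) (Z.G i).ok
    rw [one_g (Z.G i).hb₀] at y
    exact (GW_mono_n X (le_max_left _ _) u τ).trans y
  have x00 : GW X n u τ ≤ c * ∑ i, Z.ω i * Kr (Z.G i).R (Z.G i).rc n' (X.self u τ Finset.univ).p
      (one (Z.G i).b₀) + ∑ i, Z.ω i * Kw (bm (Z.G i).R) (Z.G i).er n' (X.self u τ Finset.univ).p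
      (one (Z.G i).b₀) := by
    have y : ∑ i, Z.ω i * GW X n u τ ≤ ∑ i, Z.ω i * (c * Kr (Z.G i).R (Z.G i).rc n'
        (X.self u τ Finset.univ).p (one (Z.G i).b₀) + Kw (bm (Z.G i).R) (Z.G i).er n'
        (X.self u τ Finset.univ).p (one (Z.G i).b₀)) :=
      Finset.sum_le_sum fun i _ => mul_le_mul_of_nonneg_left (x0 i) (Z.ω0 i)
    rw [← Finset.sum_mul, Z.ω1, one_mul] at y
    refine y.trans (le_of_eq ?_)
    rw [Finset.mul_sum, ← Finset.sum_add_distrib]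
    exact Finset.sum_congr rfl fun i _ => by ring
  obtain ⟨i₀⟩ := Z.nA
  have e1 : ∀ i, su (one (Z.G i).b₀) (Z.G i).U.tt = fun x => tt Finset.univ (X.g u τ) x :=
    fun i => funext fun x => by rw [one_su, (Z.G i).tot]
  have e3 : ∀ i, su (one (Z.G i).b₀) ((Z.G i).Q2.Y (X.self u τ Finset.univ).p) =
      (Z.G i).Q2.Y (X.self u τ Finset.univ).p (Z.G i).b₀ := fun i => funext fun x => by rw [one_su]
  have x1 := H Z.ω0 Z.ω1 (fun i => (Z.G i).D) (fun i => (Z.G i).L) (fun i => (Z.G i).hr)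
    (fun i => (Z.G i).hQ) hKm n' (X.self u τ Finset.univ).p (fun i => one (Z.G i).b₀)
    (fun i => (Z.G i).ok) (T := fun x => tt Finset.univ (X.g u τ) x) e1
    (fun i => Z.mx i i₀ h0 h1 (hKm i) (hKm i₀) n') (fun x => by
      refine le_trans (le_of_eq ?_) (Z.hJ x)
      exact Finset.sum_congr rfl fun i _ => by rw [one_su])
  simp only [e3] at x1
  have x2 := Z.e0 h0 h1 hKm n' hn0
  have x3 := Z.her n' hn0
  have x4 := Z.hS n' hn0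
  have x5 := Z.hy
  set m := X.mu j₀ u τ Finset.univ + X.mu j₀ u τ Finset.univ * X.mu j₀ u τ Finset.univ
  set T2 := I (fun x => tt Finset.univ (X.g u τ) x ^ 2)
  set T1 := I (fun x => tt Finset.univ (X.g u τ) x)
  set ϑ := (ε - θ) / 2 / (W + 1)
  have y3 := mul_le_mul_of_nonneg_left x1 hc
  have y4 := mul_le_mul_of_nonneg_left x2 (mul_nonneg (by norm_num : (0:ℝ) ≤ 28) hc)
  have y5 := mul_le_mul_of_nonneg_left x4 (mul_nonneg (by norm_num : (0:ℝ) ≤ 28) hc)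
  have y6 := mul_le_mul_of_nonneg_left x5 (mul_nonneg hc hC)
  have y7 := mul_le_mul_of_nonneg_right hεc I2
  have y8 := mul_le_mul_of_nonneg_right hWϑ I2
  rw [hW] at y8
  have z : GW X n u τ ≤ (a + c * (28 * b del + 28 * a + C * a)) * m + c * C * T1 +
      (θ * T2 + c * ((ε - θ) / 2 / (c + 1)) * T2 +
        (a + c * (28 * b del + 28 * a + C * a)) * ϑ * T2) := by
    nlinarith
  nlinarith

/-- **S0004 from the data of the bundle level**, with a further prune `Sy`, `Kb ≤ M (log p0)^c2` -/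
theorem S0004_50L {θ : ℝ} (hθ : θ < 1 / 16) (hθ0 : 0 ≤ θ)
    {Sy : ℝ → ℝ → ℕ → (ℕ → ℝ) → Finset ℕ → Finset ℕ} {cS : ℝ}
    (hSy : ∀ γ C1 : ℝ, cS ≤ C1 → MassP (Sy γ C1))
    (hT : ForN ParT21.thF SxF fun N γ => Tgt50L N γ (fun X => InS Sy N γ X) θ) (γ : ℝ) (ψ : ℕ → ℝ)
    (hψ : ∀ q, 0 ≤ ψ q) (hdiv : ¬ Summable fun q : ℕ => (Nat.totient q : ℝ) / q * ψ q) :
    ∀ᵐ x : ℝ, ∃ᶠ q : ℕ in atTop, |(q : ℝ) * x - γ - round ((q : ℝ) * x - γ)| < ψ q :=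
  S0004_topL hSy (CrsG29.forN_mono hT fun N γ h =>
    tgtTopL_ofL (gTopL_of_50L hθ hθ0 h)) γ ψ hψ hdiv

open Crest.Agent.R4P.AsB407

/-- **the target of the leaves** : `n` groups of lifts, rate `J`, constant `a` are chosen before
`M`; the second order budget `ϑ` is arbitrarily small; `M`, `ϑ` before `p0`; `Kb ≤ M (log p0)^c2` -/
def TgtBL (N : Skel189.Num) (γ : ℝ) (P : ∀ {p0 P₀ : ℕ} (X : Ctx N γ p0 P₀), Prop) : Prop :=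
  ∃ (n : ℕ) (J a : ℝ), 1 ≤ n ∧ 0 ≤ J ∧ 1 ≤ a ∧
    ∀ M : ℝ, 0 ≤ M → ∀ ϑ : ℝ, 0 < ϑ → Ev N γ fun p0 P₀ X => CF X → P X → ∀ (j₀ : X.c.Lam) (Kb : ℝ),
    0 ≤ Kb → Kb ≤ M * Real.log p0 ^ N.c2 →
    All (fun u τ => ¬ isL τ → BootF X j₀ (fun _ _ => 0) Kb u τ →
      Nonempty (Fm X j₀ u τ n J a ϑ)) ⟨top X.S, 1, 1, 1⟩ X.c.t

/-- **the data of the contract `Tgt50L`** -/
theorem TgtBL.tgt {γ : ℝ} {P : ∀ {p0 P₀ : ℕ} (X : Ctx N γ p0 P₀), Prop}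
    (h : TgtBL N γ P) : Tgt50L N γ P 0 := by
  obtain ⟨n, J, a, hn, hJ, ha, h⟩ := h
  have ha0 : 0 ≤ a := by linarith
  refine ⟨J, n, 100 * n ^ 2 * a, cn a, hJ, by positivity, by positivity, fun del => ?_,
    fun M hM ϑ hϑ => ?_⟩
  · unfold cn
    positivity
  obtain ⟨p1, h1⟩ := SecO55.ctx_SOn N (M + N.c2) (add_nonneg hM N.hc2) (ε := 1) one_pos
  obtain ⟨p₁, h2⟩ := h M hM ϑ hϑ
  refine ⟨p1 + p₁ + 3, fun p0 hp0 => ?_⟩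
  obtain ⟨Q₁, h3⟩ := h2 p0 (by omega)
  refine ⟨Q₁, fun P₀ hP₀ X hC hP j₀ Kb k1 k2 => ?_⟩
  have h4 := h3 P₀ hP₀ X hC hP j₀ Kb k1 k2
  have h5 := h1 p0 (by omega) γ P₀ X j₀ Kb k1 (le_pow_of hM (by omega) k2)
  refine All.mono (fun u τ hh hl hB => ?_) ((h4.and h5).and (ctx_mumu X j₀))
  obtain ⟨⟨a1, a2⟩, a3⟩ := hh
  obtain ⟨F⟩ := a1 hl hB
  have m1 := (a3 Finset.univ).1
  have m2 := (a3 Finset.univ).2
  refine ⟨F.nda hn ha0 hϑ.le m1 fun k => ?_⟩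
  have b1 := a2 hB k (X.self u τ Finset.univ).p
  have I2 : 0 ≤ I (fun x => tt Finset.univ (X.g u τ) x ^ 2) := I_nonneg fun x => sq_nonneg _
  unfold Bd
  have b2 : 0 ≤ a * ϑ * I (fun x => tt Finset.univ (X.g u τ) x ^ 2) := by positivity
  have b3 : 1 * X.mu j₀ u τ Finset.univ ≤ a * (X.mu j₀ u τ Finset.univ +
      X.mu j₀ u τ Finset.univ * X.mu j₀ u τ Finset.univ) :=
    mul_le_mul ha (by linarith) m1 ha0
  linarith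


theorem TgtB.toL {P : ∀ {p0 P₀ : ℕ} (X : Ctx N γ p0 P₀), Prop} (h : TgtB N γ P) :
    TgtBL N γ P := by
  obtain ⟨n, J, a, hn, hJ, ha, h⟩ := h
  refine ⟨n, J, a, hn, hJ, ha, fun M hM ϑ hϑ =>
    ((h (M + N.c2) (add_nonneg hM N.hc2) ϑ hϑ).and (ev_pow hM)).mono ?_⟩
  rintro p0 P₀ X ⟨hh, hk⟩ hC hP j₀ Kb k1 k2
  exact hh hC hP j₀ Kb k1 (hk Kb k2)

/-- **S0004 from the families of games**, `Kb ≤ M (log p0)^c2` -/
theorem S0004_BL {Sy : ℝ → ℝ → ℕ → (ℕ → ℝ) → Finset ℕ → Finset ℕ} {cS : ℝ}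
    (hSy : ∀ γ C1 : ℝ, cS ≤ C1 → MassP (Sy γ C1))
    (hT : ForN ParT21.thF SxF fun N γ => TgtBL N γ (fun X => InS Sy N γ X)) (γ : ℝ) (ψ : ℕ → ℝ)
    (hψ : ∀ q, 0 ≤ ψ q) (hdiv : ¬ Summable fun q : ℕ => (Nat.totient q : ℝ) / q * ψ q) :
    ∀ᵐ x : ℝ, ∃ᶠ q : ℕ in atTop, |(q : ℝ) * x - γ - round ((q : ℝ) * x - γ)| < ψ q :=
  S0004_50L (by norm_num) le_rfl hSy (CrsG29.forN_mono hT fun N γ h => h.tgt) γ ψ hψ hdiv

/-- the final numbers have `c2 = 1` : `Kb ≤ M log p0` -/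
lemma log_le_of_fin {th : ℕ → (ℕ → ℝ) → Finset ℕ → ℕ → ℝ} {Ct c₁ M Kb : ℝ} (h : NumFin N th Ct c₁) {p0 : ℕ}
    (hK : Kb ≤ M * Real.log p0 ^ N.c2) : Kb ≤ M * Real.log p0 := by
  rwa [h.c2, Real.rpow_one] at hK

end tgt

end Crest.Agent.R4P.KbL845
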