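import Crest.Agent.R4P.AsC_407
import Crest.Agent.R4P.FlH_845
import Crest.Agent.R4P.KbL_845

/-!
R4 (S0004) with powers, T3, helper845: **field `hU` of `AsB407.Fm`** from Lemma F (`FlH845.ctx_U`).

* **`ctx_vU`** : at all nodes of a context with `BootF` and `Kb ≤ M (log p0)^c2`, every game `Gm` whose pieces
  are outside the game exactly if they are flagged (`FOk a δ F (tp τ) p0`) has `vU ≤ mu`;
  conditions on the flags: `2 a < δ`, `e a < δ`, `4 c2 + 6 ≤ e` (no `M`);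
* `ctx_vUG` : the same for `AsC407.GDat` (flags `G.r.F`), `bd_U` : averages, form `Bd`.
-/

set_option autoImplicit false
set_option linter.unusedSectionVars false
set_option linter.unusedVariables false
open MeasureTheory Filter Set

namespace Crest.Agent.R4P.FlI845

open Crest.Agent.R4.Tour104 Crest.Agent.R4.Tour758 Crest.Agent.R4.Avg758 Crest.Agent.R4.Clos758
open Crest.Agent.R4.ClosL758 Crest.Agent.R4.ClosG758 Crest.Agent.R4.ClosR758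
open Crest.Agent.R4P.ClosR442 Crest.Agent.R4P.Grp36
open Crest.Agent.R4P.GWa343 Crest.Agent.R4P.GWb343 Crest.Agent.R4P.GWf343
open Crest.Agent.R4P.GWg343 (FX ctx_BI)
open Crest.Agent.R4P.RXm55 Crest.Agent.R4P.MSm25 Crest.Agent.R4P.DTm407
open Crest.Agent.R4P.DTp26
open Crest.Agent.R4P.Cnt588 Crest.Agent.R4P.Item758
open Crest.Agent.R4P.Bld532 (NS All NodeOk)
open Crest.Agent.R4P.WalkIT579 (tp isL)
open Crest.Agent.R4P.Step588 Crest.Agent.R4P.RseSt23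
open Crest.Agent.R4P.TYI47 Crest.Agent.R4P.TYJ47 Crest.Agent.R4P.TYK47 Crest.Agent.R4P.TYP9
open Crest.Agent.R4P.GSK55 (Kw one)
open Crest.Agent.R4P.Skel189 Crest.Agent.R4P.Frame758 Crest.Agent.R4P.Data758
open Crest.Agent.R4.Soft104 Crest.Agent.R4.Fam464
open Crest.Agent.R4P.StratX36 Crest.Agent.R4P.TopX36
open Crest.Agent.R4P.TopC36 Crest.Agent.R4P.PN36
open Crest.Agent.R4P.SkelF29 (BootF)
open Crest.Agent.R4P.StJ6 (FMon flg tpF_none)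
open Crest.Agent.R4P.RsT47
open Crest.Agent.R4P.AsB407 Crest.Agent.R4P.AsC407
open Crest.Agent.R4P.FlF845 Crest.Agent.R4P.FlH845

variable {N : Skel189.Num}

/-- `Kb ≤ M (log p0)^c2` gives `Kb ≤ (c2 + 1) (log p0)^(c2 + 1)` for large `p0` -/
lemma Kb_le {c2 M : ℝ} (hc : 0 ≤ c2) (hM : 0 ≤ M) : ∃ p₁ : ℕ, ∀ p0 ≥ p₁, ∀ Kb : ℝ,
    Kb ≤ M * Real.log p0 ^ c2 → Kb ≤ (c2 + 1) * Real.log p0 ^ (c2 + 1) := by
  have h := Real.tendsto_log_atTop.comp (tendsto_natCast_atTop_atTop (R := ℝ))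
  obtain ⟨p₁, h1⟩ := Filter.eventually_atTop.1 (h.eventually_ge_atTop (M + 1))
  refine ⟨p₁, fun p0 hp0 Kb hK => hK.trans ?_⟩
  have h2 : M + 1 ≤ Real.log (p0 : ℝ) := h1 p0 hp0
  have h3 : 0 < Real.log (p0 : ℝ) := by linarith
  rw [Real.rpow_add h3, Real.rpow_one]
  have h4 : 0 ≤ Real.log (p0 : ℝ) ^ c2 := Real.rpow_nonneg h3.le _
  have h5 : M * Real.log (p0 : ℝ) ^ c2 ≤ Real.log (p0 : ℝ) ^ c2 * Real.log (p0 : ℝ) := by
    rw [mul_comm]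
    exact mul_le_mul_of_nonneg_left (by linarith) h4
  have h6 : 0 ≤ Real.log (p0 : ℝ) ^ c2 * Real.log (p0 : ℝ) := mul_nonneg h4 h3.le
  nlinarith

/-- **Lemma F for one game** -/
theorem ctx_vU (N : Skel189.Num) (M : ℝ) (hM : 0 ≤ M) {a δ e : ℝ} (ha : 0 < a) (h2a : 2 * a < δ)
    (he : e * a < δ) (hec : 4 * N.c2 + 6 ≤ e) {ε : ℝ} (hε : 0 < ε) : ∃ p₁ : ℕ,
    ∀ p0 ≥ p₁, ∀ (γ : ℝ) (P₀ : ℕ) (X : Ctx N γ p0 P₀) (j₀ : X.c.Lam) (Kb : ℝ), 0 ≤ Kb →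
      Kb ≤ M * Real.log p0 ^ N.c2 →
      All (fun u τ => BootF X j₀ (fun _ _ => 0) Kb u τ →
        ∀ {Q : NS → IT → Prop} {C : ℝ} {n : ℕ} (G : Gm X Q C n)
          {F : ℕ → Finset ℕ → Prop}, (∀ u τ, Q u τ → NDt X.par (w X.ψ) X.c.t u τ) → All Q u τ →
          InvM X Q C (X.self u τ Finset.univ).p (b₀ X u τ) → FOk a δ F (tp τ) p0 →
          (∀ p m x j, G.D.tp p m x j = none ↔ flg F X.c p j.1.1) → ∀ k,
          G.vU u τ k ≤ ε * X.mu j₀ u τ Finset.univ)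
        ⟨top X.S, 1, 1, 1⟩ X.c.t := by
  have hc := N.hc2
  obtain ⟨p1, h1⟩ := Kb_le hc hM
  obtain ⟨p2, h2⟩ := ctx_U N (N.c2 + 1) (by linarith) ha h2a he (by linarith) hε
  refine ⟨p1 + p2, fun p0 hp0 γ P₀ X j₀ Kb k0 k1 => ?_⟩
  refine All.mono (fun u τ hh hb Q C n G F hQ hall hB hF hD k => ?_)
    (h2 p0 (by omega) γ P₀ X j₀ Kb k0 (h1 p0 (by omega) Kb k1))
  exact hh hb G.H hQ hall hB hF hD G.tu k

/-- **Lemma F for the games of a rule with flags** (`AsC407.GDat`) -/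
theorem ctx_vUG (N : Skel189.Num) (M : ℝ) (hM : 0 ≤ M) {a δ e : ℝ} (ha : 0 < a) (h2a : 2 * a < δ)
    (he : e * a < δ) (hec : 4 * N.c2 + 6 ≤ e) {ε : ℝ} (hε : 0 < ε) : ∃ p₁ : ℕ,
    ∀ p0 ≥ p₁, ∀ (γ : ℝ) (P₀ : ℕ) (X : Ctx N γ p0 P₀) (j₀ : X.c.Lam) (Kb : ℝ), 0 ≤ Kb →
      Kb ≤ M * Real.log p0 ^ N.c2 →
      All (fun u τ => BootF X j₀ (fun _ _ => 0) Kb u τ →
        ∀ {Q : NS → IT → Prop} {C : ℝ} {n : ℕ} {cf : CtxF X Q} (G : GDat X Q C n cf), All Q u τ →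
          InvM X Q C (X.self u τ Finset.univ).p (b₀ X u τ) → FOk a δ G.r.F (tp τ) p0 → ∀ k,
          G.gm.vU u τ k ≤ ε * X.mu j₀ u τ Finset.univ)
        ⟨top X.S, 1, 1, 1⟩ X.c.t := by
  obtain ⟨p1, h1⟩ := ctx_vU N M hM ha h2a he hec hε
  refine ⟨p1, fun p0 hp0 γ P₀ X j₀ Kb k0 k1 => ?_⟩
  refine All.mono (fun u τ hh hb Q C n cf G hall hB hF k => ?_) (h1 p0 hp0 γ P₀ X j₀ Kb k0 k1)
  exact hh hb G.gm cf.hQ hall hB hF (fun p m x j => tpF_none) k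

/-- **field `hU` of `Fm`** -/
theorem bd_U {γ : ℝ} {p0 P₀ : ℕ} {X : Ctx N γ p0 P₀} {Q : NS → IT → Prop} {C : ℝ} {n : ℕ}
    {j₀ : X.c.Lam} {u : NS} {τ : IT} {A : Type} [Fintype A] {ω : A → ℝ} (ω0 : ∀ i, 0 ≤ ω i)
    (ω1 : ∑ i, ω i = 1) {G : A → Gm X Q C n} {k : ℕ}
    (h : ∀ i, (G i).vU u τ k ≤ 1 * X.mu j₀ u τ Finset.univ) {a ϑ : ℝ} (ha : 1 ≤ a) (hϑ : 0 ≤ ϑ)
    (hm : 0 ≤ X.mu j₀ u τ Finset.univ) :
    Bd X j₀ u τ a ϑ (∑ i, ω i * (G i).vU u τ k) := by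
  have h1 : ∑ i, ω i * (G i).vU u τ k ≤ ∑ i, ω i * X.mu j₀ u τ Finset.univ :=
    Finset.sum_le_sum fun i _ => mul_le_mul_of_nonneg_left (by linarith [h i]) (ω0 i)
  rw [← Finset.sum_mul, ω1, one_mul] at h1
  have I2 : 0 ≤ I (fun x => tt Finset.univ (X.g u τ) x ^ 2) := I_nonneg fun x => sq_nonneg _
  have h2 : 0 ≤ a * ϑ * I (fun x => tt Finset.univ (X.g u τ) x ^ 2) := by positivity
  have h3 := mul_nonneg hm hm
  unfold Bd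
  nlinarith

end Crest.Agent.R4P.FlI845
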