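import Crest.Agent.R4P.AsC_407
import Crest.Agent.R4P.PrK_45
import Crest.Agent.R4P.FlI_845
import Crest.Agent.R4P.EvJ_47
import Crest.Agent.R4P.E3Y_479
import Crest.Agent.R4P.KbL_845

/-!
R4 (S0004) with powers, T3, helper407: **families of games from kernels, node forms and averaged rates**.

* `AvR` (averaged rates of the pieces of a node), `LMu` (linear functionals by the mass), **`AvR.le`** :
  `Σ_a ω_a lm (Es ε_a) ≤ 4 C mu`;
* **`SepK`** (static kernels of the separated pairs of a game); **`avg_rE`**, **`avg_ts`**, **`avg_pn`** :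
  averaged energies from node forms (`VNd`, `VTs`) and averaged rates, `bd_mu` : form `Bd`;
* `vJd`, `vJE`, `vGp`, **`vJd_le`** : the jumps by `E3Y479.JIn`; `avg_IY` : averaged credits at the start;
* **`FmK X j₀ u τ n J a ϑ`** : kernel form of the inputs of a family; **`FmK.fm : Fm .. (1000 a) ϑ`**;
* `NdF`, `ctx_NdF`; **`TgtK`**, **`TgtK.tgt : TgtK N γ P → TgtBL N γ P`**.
-/

set_option autoImplicit false
set_option linter.unusedSectionVars false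
set_option linter.unusedVariables false
open MeasureTheory Filter Set

namespace Crest.Agent.R4P.AsD407

open Crest.Agent.R4.Tour104 Crest.Agent.R4.Tour758 Crest.Agent.R4.Avg758 Crest.Agent.R4.Clos758
open Crest.Agent.R4.ClosL758 Crest.Agent.R4.ClosG758 Crest.Agent.R4.ClosR758
open Crest.Agent.R4P.ClosR442 Crest.Agent.R4P.Grp36
open Crest.Agent.R4P.Xfer36 Crest.Agent.R4P.TopC36 Crest.Agent.R4P.PN36
open Crest.Agent.R4P.GWa343 Crest.Agent.R4P.GWb343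
open Crest.Agent.R4P.GWc343 Crest.Agent.R4P.GWd343 Crest.Agent.R4P.GWf343 Crest.Agent.R4P.TrR343
open Crest.Agent.R4P.GMer27 Crest.Agent.R4P.GCol27
open Crest.Agent.R4P.RSys343 Crest.Agent.R4P.RXm55 Crest.Agent.R4P.MSm25
open Crest.Agent.R4P.MSd343 Crest.Agent.R4P.VR407 Crest.Agent.R4P.Bp407 Crest.Agent.R4P.DTm407
open Crest.Agent.R4P.DTn407 Crest.Agent.R4P.DTo407
open Crest.Agent.R4P.DTp26
open Crest.Agent.R4P.Cnt588 Crest.Agent.R4P.Item758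
open Crest.Agent.R4P.Bld532 (NS All NodeOk)
open Crest.Agent.R4P.WalkIT579 (tp isL toDT_top toDT_leaf)
open Crest.Agent.R4P.Walk560 (DT WrN)
open Crest.Agent.R4P.Step588 Crest.Agent.R4P.RseSt23
open Crest.Agent.R4P.TYI47 Crest.Agent.R4P.TYJ47 Crest.Agent.R4P.TYK47 Crest.Agent.R4P.TYP9
open Crest.Agent.R4P.RsT47
open Crest.Agent.R4P.GSK55 (stp gk Pr Kw Kw_succ Kw_z Kw_mono one one_TC one_su)
open Crest.Agent.R4P.PayR45 (BM BCh PV)
open Crest.Agent.R4P.PVd45 (DI)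
open Crest.Agent.R4P.PVe45 (LB Cr)
open Crest.Agent.R4P.JnE5 Crest.Agent.R4P.JnH5
open Crest.Agent.R4P.MSi343 (su)
open Crest.Agent.R4P.Skel189 Crest.Agent.R4P.Frame758 Crest.Agent.R4P.Data758
open Crest.Agent.R4.Soft104 Crest.Agent.R4.Fam464
open Crest.Agent.R4P.StratX36 Crest.Agent.R4P.TopX36
open Crest.Agent.R4P.PrH45 Crest.Agent.R4P.PrI45 Crest.Agent.R4P.PrJ45 Crest.Agent.R4P.PrK45
open Crest.Agent.R4P.PrE45 Crest.Agent.R4P.PrG45 Crest.Agent.R4P.PrD45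
open Crest.Agent.R4P.RGd25
open Crest.Agent.R4P.AsB407

section ctx
variable {N : Skel189.Num} {γ : ℝ} {p0 P₀ : ℕ} {X : Ctx N γ p0 P₀} {j₀ : X.c.Lam}
  {u : NS} {τ : IT} {A : Type} [Fintype A] {ω : A → ℝ} {c : ℕ} {C : ℝ}

/-! ### averaged rates -/

/-- **averaged rates** of a family on the pieces of the node: nonnegative, the averaged path sums of the
pieces of the node are `≤ C` -/
structure AvR (X : Ctx N γ p0 P₀) (ω : A → ℝ) (τ : IT) (c : ℕ) (ε : A → ℕ → X.c.Lam → ℝ)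
    (C : ℝ) : Prop where
  nn : ∀ a q i, 0 ≤ ε a q i
  av : ∀ i : X.c.Lam, (X.c.D.par X.Y).it i ∈ τ.items → ∑ a, ω a * Es (ε a) c i ≤ C

/-- **linear functionals of the node by its mass** -/
def LMu (X : Ctx N γ p0 P₀) (j₀ : X.c.Lam) (u : NS) (τ : IT) : Prop :=
  ∀ (c : X.c.Lam → ℝ) (C : ℝ), 0 ≤ C → (∀ i, (X.c.D.par X.Y).it i ∈ τ.items → c i ≤ C) →
    lm X c u τ ≤ 4 * C * X.mu j₀ u τ Finset.univ

/-- sums over a family -/
lemma sum_lm (f : A → X.c.Lam → ℝ) (u : NS) (τ : IT) :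
    ∑ a, ω a * lm X (f a) u τ = lm X (fun i => ∑ a, ω a * f a i) u τ := by
  have e : (fun i => ∑ a, ω a * f a i) = fun i => ∑ a ∈ Finset.univ, (fun a i => ω a * f a i) a i :=
    rfl
  rw [e, lm_sum]
  exact Finset.sum_congr rfl fun a _ => (lm_smul _ _ _ _).symm

/-- **the averaged charges of the node** -/
theorem AvR.le {ε : A → ℕ → X.c.Lam → ℝ} (h : AvR X ω τ c ε C) (hC : 0 ≤ C)
    (hl : LMu X j₀ u τ) : ∑ a, ω a * lm X (Es (ε a) c) u τ ≤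
      4 * C * X.mu j₀ u τ Finset.univ := by
  rw [sum_lm]
  exact hl _ C hC h.av

/-! ### the separated pairs -/

variable {Q : NS → IT → Prop} {C : ℝ} {n : ℕ}

/-- **static kernels of the separated pairs of a game** -/
structure SepK (G : Gm X Q C n) (K KN KB : ℕ → X.c.Lam → X.c.Lam → ℝ) : Prop where
  /-- tie piece and pull piece of one bundle -/
  dQ : ∀ {p b}, InvM X Q C p b → p ≠ 0 → ∀ i j x, vT p (bB p b.2) i x ≠ 0 →
    pQ (bB p b.2) j (p * x) ≠ 0 → G.D.tp p b.1 x i ≠ none → G.D.tp p b.1 x i = G.D.tp p b.1 x j →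
    1 ≤ K p i j
  kN : ∀ p, Ker (KN p)
  kB : ∀ p, Ker (KB p)
  sN : ∀ {p b}, InvM X Q C p b → p ≠ 0 → ∀ i j x, jv (bN p b.2) i x ≠ 0 →
    jv (bN p b.2) j x ≠ 0 → G.D.tp p b.1 x i ≠ none → G.D.tp p b.1 x i = G.D.tp p b.1 x j →
    (G.D.tp (p - 1) b.1 x i ≠ G.D.tp (p - 1) b.1 x j ∨ G.D.tp (p - 1) b.1 x i = none) →
    1 ≤ KN p i j
  sB : ∀ {p b}, InvM X Q C p b → p ≠ 0 → ∀ i j x, vT p (bB p b.2) i x ≠ 0 →
    vT p (bB p b.2) j x ≠ 0 → G.D.tp p b.1 x i ≠ none → G.D.tp p b.1 x i = G.D.tp p b.1 x j →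
    G.D.pt (rhoX X) p b x i ≠ G.D.pt (rhoX X) p b x j → 1 ≤ KB p i j
  sQ : ∀ {p b}, InvM X Q C p b → p ≠ 0 → ∀ i j x, pQ (bB p b.2) i (p * x) ≠ 0 →
    pQ (bB p b.2) j (p * x) ≠ 0 → G.D.tp p b.1 x i ≠ none →
    G.D.tp p b.1 x i = G.D.tp p b.1 x j → G.D.lt p b.1 (p * x) i = G.D.lt p b.1 (p * x) j

/-- the P against N energies as energies of the true ties -/
noncomputable def FP (K : ℕ → X.c.Lam → X.c.Lam → ℝ) (q : ℕ) (a b : X.c.Lam → ℝ → ℝ) : ℝ :=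
  1 / (q : ℝ) * (2 * bil (K q) a b)

/-- the kernel part of a game at the start -/
noncomputable def vK (K : ℕ → X.c.Lam → X.c.Lam → ℝ) (u : NS) (τ : IT) : ℝ :=
  JnE5.leU K JnH5.idk (X.self u τ Finset.univ).p (X.self u τ Finset.univ).t +
    JnE5.dC K JnH5.idk (X.self u τ Finset.univ).t

lemma top_self (h : NDt X.par (w X.ψ) X.c.t u τ) :
    (tX X u τ).top ≤ (X.self u τ Finset.univ).p := by
  rw [self_p X u τ]
  exact (toDT_top (X.c.D.par X.Y) X.c.sp u.B u.A τ).le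

/-- the second order pairs of the budgets as energies of the true ties -/
noncomputable def FT (t : ℕ → ℝ) (KT : ℕ → X.c.Lam → X.c.Lam → ℝ) (q : ℕ)
    (a b : X.c.Lam → ℝ → ℝ) : ℝ := 1 / (q : ℝ) * (2 * bil (fun j i => t q * KT q j i) a b)

/-- **energies at the rests from node forms and averaged rates** -/
theorem avg_rE {K : A → ℕ → X.c.Lam → X.c.Lam → ℝ} {ε : A → ℕ → X.c.Lam → ℝ}
    (ω0 : ∀ i, 0 ≤ ω i) (hr : RgN X u τ) (hl : LMu X j₀ u τ)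
    (hv : ∀ i, All (VNd X (RN (K i)) (ε i)) u τ) {a : ℝ} (ha : 0 ≤ a)
    (h : AvR X ω τ (X.self u τ Finset.univ).p ε a) :
    ∑ i, ω i * rE (RN (K i)) (X.self u τ Finset.univ).p (tX X u τ) ≤
      4 * a * X.mu j₀ u τ Finset.univ := by
  refine (Finset.sum_le_sum fun i _ => mul_le_mul_of_nonneg_left ?_ (ω0 i)).trans (h.le ha hl)
  have e1 : (X.self u τ Finset.univ).p = (tX X u τ).top := by
    rw [self_p X u τ]
    exact (toDT_top (X.c.D.par X.Y) X.c.sp u.B u.A τ).symm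
  rw [e1]
  exact rE_nd (h.nn i) hr (hv i)

/-- **energies at the true ties from node forms and averaged rates** -/
theorem avg_ts {F : A → ℕ → (X.c.Lam → ℝ → ℝ) → (X.c.Lam → ℝ → ℝ) → ℝ}
    {ε : A → ℕ → X.c.Lam → ℝ}
    (ω0 : ∀ i, 0 ≤ ω i) (hr : RgN X u τ) (hl : LMu X j₀ u τ)
    (hv : ∀ i, All (VTs X (F i) (ε i)) u τ) {a : ℝ} (ha : 0 ≤ a)
    (h : AvR X ω τ (X.self u τ Finset.univ).p ε a) :
    ∑ i, ω i * ts (F i) (tX X u τ) ≤ 4 * a * X.mu j₀ u τ Finset.univ := by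
  refine (Finset.sum_le_sum fun i _ => mul_le_mul_of_nonneg_left ?_ (ω0 i)).trans (h.le ha hl)
  exact ts_nd (h.nn i) hr (hv i) (top_self hr.nd.self)

/-- **the P against N energies from node forms and averaged rates** -/
theorem avg_pn {K : A → ℕ → X.c.Lam → X.c.Lam → ℝ} {ε : A → ℕ → X.c.Lam → ℝ}
    (ω0 : ∀ i, 0 ≤ ω i) (hr : RgN X u τ) (hl : LMu X j₀ u τ)
    (hv : ∀ i, All (VTs X (FP (K i)) (ε i)) u τ) {a : ℝ} (ha : 0 ≤ a)
    (h : AvR X ω τ (X.self u τ Finset.univ).p ε a) :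
    ∑ i, ω i * pn (K i) (tX X u τ) ≤ 4 * a * X.mu j₀ u τ Finset.univ := by
  refine (Finset.sum_le_sum fun i _ => mul_le_mul_of_nonneg_left ?_ (ω0 i)).trans (h.le ha hl)
  exact pn_nd (h.nn i) hr (hv i) (top_self hr.nd.self)

/-- the form `Bd` from a bound by the mass -/
theorem bd_mu {v a C ϑ : ℝ} (h : v ≤ C * X.mu j₀ u τ Finset.univ) (hC : C ≤ a) (ha : 0 ≤ a)
    (hϑ : 0 ≤ ϑ) (hμ : 0 ≤ X.mu j₀ u τ Finset.univ) : Bd X j₀ u τ a ϑ v := by
  unfold Bd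
  have I2 : 0 ≤ I (fun x => tt Finset.univ (X.g u τ) x ^ 2) := I_nonneg fun x => sq_nonneg _
  have h1 := mul_le_mul_of_nonneg_right hC hμ
  have h2 := mul_nonneg ha (mul_nonneg hμ hμ)
  have h3 : 0 ≤ a * ϑ * I (fun x => tt Finset.univ (X.g u τ) x ^ 2) := by positivity
  linarith

/-! ### the jumps -/

section jumps
open Crest.Agent.R4P.E3E479 Crest.Agent.R4P.E3P479
open Crest.Agent.R4P.E3V479 Crest.Agent.R4P.E3W479 Crest.Agent.R4P.E3F479
open Crest.Agent.R4P.E3X479 hiding diX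
open Crest.Agent.R4P.E3Y479

variable (G : Gm X Q C n)

/-- the jumps and the direct pairs without the `p⁻²` terms -/
noncomputable def vJd (u : NS) (τ : IT) (k : ℕ) : ℝ := Kw (bm G.R) (Ps (jd X G.D G.gr G.R3)) k
  (X.self u τ Finset.univ).p (one (b₀ X u τ))

/-- the `p⁻²` terms of the jumps -/
noncomputable def vJE (u : NS) (τ : IT) (k : ℕ) : ℝ := Kw (bm G.R)
  (Ps fun p b b' => I (jE G.R3 G.D.tu G.sd p b b')) k (X.self u τ Finset.univ).p (one (b₀ X u τ))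

/-- the excepted pairs -/
noncomputable def vGp (Ge Gx : PR Me X.c.Lam) (u : NS) (τ : IT) (k : ℕ) : ℝ := Kw (bm G.R)
  (Ps (gP X G.D G.gr G.R3 Ge Gx)) k (X.self u τ Finset.univ).p (one (b₀ X u τ))

theorem vJmp_eq (hsd : G.sd = sdX X) (k : ℕ) :
    G.vJmp u τ k = vJd G u τ k + vJE G u τ k := by
  unfold Gm.vJmp vJd vJE
  rw [← Kw_Ps_add, hsd]
  congr 2
  funext p b b'
  unfold Jp jd
  ring

/-- **the jumps by pairs of nodes** -/
theorem vJd_le (hQ : ∀ u τ, Q u τ → NDt X.par (w X.ψ) X.c.t u τ)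
    (hB : InvM X Q C (X.self u τ Finset.univ).p (b₀ X u τ)) {Ge Gx : PR Me X.c.Lam}
    {e r aN aP : ℕ → Me → X.c.Lam → ℝ → ℝ} (Z : Cr ((lbX G.H).pv diX))
    (J : JIn X Q G.D G.gr G.R3 Ge Gx e r aN aP)
    (hZe : ∀ {p b}, InvM X Q C p b → p ≠ 0 → ∀ j x, jv (bN p b.2) j x ≠ 0 →
      e p b.1 j x ≤ Z.e p b j x)
    (hZN : ∀ {p b}, InvM X Q C p b → p ≠ 0 → ∀ j x, jv (bB p b.2) j x ≠ 0 → sdX X p b.1 j →
      r p b.1 j x + aN p b.1 j (p * x) ≤ Z.r p b j x)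
    (hZP : ∀ {p b}, InvM X Q C p b → p ≠ 0 → ∀ j x, jv (bB p b.2) j x ≠ 0 → nx X p b.1 j →
      2 * aP p b.1 j (p * x) ≤ Z.r p b j x) (k : ℕ) :
    vJd G u τ k ≤ 2 * I (Z.bch.Y (X.self u τ Finset.univ).p (b₀ X u τ)) +
      vGp G Ge Gx u τ k := by
  have h := Kw_JIn hQ G.tu G.H (lbX G.H) diX Z J hZe hZN hZP k (X.self u τ Finset.univ).p
    (one (b₀ X u τ)) (okE.one hB)
  have e1 : su (one (b₀ X u τ)) (Z.bch.Y (X.self u τ Finset.univ).p) =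
      Z.bch.Y (X.self u τ Finset.univ).p (b₀ X u τ) := funext fun x => one_su _ _ x
  rw [e1] at h
  exact h

end jumps

lemma self_t : (X.self u τ Finset.univ).t = tX X u τ := rfl

/-- **the averaged credits at the start** -/
theorem avg_IY {G : A → Gm X Q C n} (hB : InvM X Q C (X.self u τ Finset.univ).p (b₀ X u τ))
    (Z : ∀ a, Cr ((lbX (G a).H).pv diX)) {J : ℝ}
    (hρ : ∀ j x, jv (b₀ X u τ).2 j x ≠ 0 →
      ∑ a, ω a * (Z a).ρ (X.self u τ Finset.univ).p (b₀ X u τ) j x ≤ J)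
    (hT : PB fun x => tt Finset.univ (X.g u τ) x) :
    ∑ a, ω a * I ((Z a).bch.Y (X.self u τ Finset.univ).p (b₀ X u τ)) ≤
      J * I (fun x => tt Finset.univ (X.g u τ) x) := by
  have h := EvC47.avg_Y (H := fun a => (G a).H) (ω := ω) Z hB hρ
  have pY : ∀ a, PB ((Z a).bch.Y (X.self u τ Finset.univ).p (b₀ X u τ)) := fun a =>
    (Z a).bch.pY hB
  have e1 : ∑ a, ω a * I ((Z a).bch.Y (X.self u τ Finset.univ).p (b₀ X u τ)) =
      I (fun x => ∑ a, ω a * (Z a).bch.Y (X.self u τ Finset.univ).p (b₀ X u τ) x) := by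
    unfold I
    rw [MeasureTheory.integral_finsetSum]
    · refine Finset.sum_congr rfl fun a _ => ?_
      rw [MeasureTheory.integral_const_mul]
    · intro a _
      exact (pY a).integrableOn.const_mul _
  rw [e1]
  have e2 : J * I (fun x => tt Finset.univ (X.g u τ) x) =
      I (fun x => J * tt Finset.univ (X.g u τ) x) := by
    unfold I
    rw [MeasureTheory.integral_const_mul]
  rw [e2]
  refine MeasureTheory.setIntegral_mono ?_ (hT.integrableOn.const_mul J) fun x => ?_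
  · exact MeasureTheory.integrable_finsetSum _ fun a _ => (pY a).integrableOn.const_mul _
  · have h2 := h x
    have e : bt (b₀ X u τ).2 x = tt Finset.univ (X.g u τ) x := bt_start X u τ x
    rw [e] at h2
    exact h2

/-! ### the kernel form of the inputs -/

section fam
open Crest.Agent.R4P.E3E479 Crest.Agent.R4P.E3P479
open Crest.Agent.R4P.E3V479 Crest.Agent.R4P.E3W479 Crest.Agent.R4P.E3F479
open Crest.Agent.R4P.E3X479 hiding diX
open Crest.Agent.R4P.E3Y479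

/-- **kernel form of the inputs of a family of games at one node** : static kernels with node forms and
averaged rates `≤ a`, credits with averages `≤ a` -/
structure FmK (X : Ctx N γ p0 P₀) (j₀ : X.c.Lam) (u : NS) (τ : IT) (n : ℕ) (J a ϑ : ℝ) where
  /-- node facts -/
  Q : NS → IT → Prop
  hQ : ∀ u τ, Q u τ → NDt X.par (w X.ψ) X.c.t u τ
  C : ℝ
  hB : InvM X Q C (X.self u τ Finset.univ).p (b₀ X u τ)
  /-- label systems, thresholds and their weights -/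
  A : Type
  [fA : Fintype A]
  [nA : Nonempty A]
  ω : A → ℝ
  ω0 : ∀ i, 0 ≤ ω i
  ω1 : ∑ i, ω i = 1
  /-- the games -/
  G : A → Gm X Q C n
  hsd : ∀ i, (G i).sd = sdX X
  /-- averaged linear credits -/
  hρ : ∀ j x, jv (b₀ X u τ).2 j x ≠ 0 →
    ∑ i, ω i * (G i).Z1.ρ (X.self u τ Finset.univ).p (b₀ X u τ) j x ≤ J
  /-- in-member kernels -/
  K : A → ℕ → X.c.Lam → X.c.Lam → ℝ
  hK : ∀ i p, Ker (K i p)
  dom : ∀ i {p b}, InvM X Q C p b → ∀ x j j', Xp p b.2 x j j' →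
    (G i).D.tp p b.1 x j = (G i).D.tp p b.1 x j' → (G i).D.tp p b.1 x j ≠ none → 1 ≤ K i p j j'
  hLeU : Bd X j₀ u τ a ϑ (∑ i, ω i * vK (K i) u τ)
  /-- separated pairs -/
  KN : A → ℕ → X.c.Lam → X.c.Lam → ℝ
  KB : A → ℕ → X.c.Lam → X.c.Lam → ℝ
  sep : ∀ i, SepK (G i) (K i) (KN i) (KB i)
  hN : Bd X j₀ u τ a ϑ (∑ i, ω i * rE (RN (KN i)) (X.self u τ Finset.univ).p (tX X u τ))
  hFB : Bd X j₀ u τ a ϑ (∑ i, ω i * ts (FB (KB i)) (tX X u τ))
  hPN : Bd X j₀ u τ a ϑ (∑ i, ω i * pn (KB i) (tX X u τ))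
  /-- budgets -/
  K3 : A → ℕ → X.c.Lam → X.c.Lam → ℝ
  K1 : A → ℕ → X.c.Lam → X.c.Lam → ℝ
  KT : A → ℕ → X.c.Lam → X.c.Lam → ℝ
  TJ : A → ℕ → Me × List (DT X.c.Lam (LbX X)) → ℝ → X.c.Lam → X.c.Lam → Prop
  m₀ : ℝ
  t : ℕ → ℝ
  hK3 : ∀ i p, Ker (K3 i p)
  dom3 : ∀ i {p b}, InvM X Q C p b → ∀ x j j', jv b.2 j x ≠ 0 → jv b.2 j' x ≠ 0 →
    (G i).D.tp p b.1 x j = (G i).D.tp p b.1 x j' → (G i).D.tp p b.1 x j ≠ none → 1 ≤ K3 i p j j'
  jb : ∀ i, JB (G i).H (K1 i) (KT i) (TJ i) m₀ t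
  h1 : Bd X j₀ u τ a ϑ (∑ i, ω i * ts (F1 (K1 i)) (tX X u τ))
  hT : Bd X j₀ u τ (a / m₀) ϑ (∑ i, ω i * pn (fun p j l => t p * KT i p j l) (tX X u τ))
  h3 : Bd X j₀ u τ a ϑ (∑ i, ω i * ts (F3 (fun q => 1 / t q) (K3 i)) (tX X u τ))
  /-- root energies of the related pairs -/
  hPhi : Bd X j₀ u τ a ϑ (∑ i, ω i * (G i).vPhi u τ)
  /-- jumps and direct pairs -/
  Ge : A → PR Me X.c.Lam
  Gx : A → PR Me X.c.Lam
  e3 : A → ℕ → Me → X.c.Lam → ℝ → ℝ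
  r3 : A → ℕ → Me → X.c.Lam → ℝ → ℝ
  aN : A → ℕ → Me → X.c.Lam → ℝ → ℝ
  aP : A → ℕ → Me → X.c.Lam → ℝ → ℝ
  jin : ∀ i, JIn X Q (G i).D (G i).gr (G i).R3 (Ge i) (Gx i) (e3 i) (r3 i) (aN i) (aP i)
  Z3 : ∀ i, Cr ((lbX (G i).H).pv diX)
  z3e : ∀ i {p b}, InvM X Q C p b → p ≠ 0 → ∀ j x, jv (bN p b.2) j x ≠ 0 →
    e3 i p b.1 j x ≤ (Z3 i).e p b j x
  z3N : ∀ i {p b}, InvM X Q C p b → p ≠ 0 → ∀ j x, jv (bB p b.2) j x ≠ 0 → sdX X p b.1 j →
    r3 i p b.1 j x + aN i p b.1 j (p * x) ≤ (Z3 i).r p b j x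
  z3P : ∀ i {p b}, InvM X Q C p b → p ≠ 0 → ∀ j x, jv (bB p b.2) j x ≠ 0 → nx X p b.1 j →
    2 * aP i p b.1 j (p * x) ≤ (Z3 i).r p b j x
  z3ρ : ∀ j x, jv (b₀ X u τ).2 j x ≠ 0 →
    ∑ i, ω i * (Z3 i).ρ (X.self u τ Finset.univ).p (b₀ X u τ) j x ≤ a
  /-- the bounds, for large step numbers -/
  k0 : ℕ
  hGp : ∀ k, k0 ≤ k → Bd X j₀ u τ a ϑ (∑ i, ω i * vGp (G i) (Ge i) (Gx i) u τ k)
  hJE : ∀ k, k0 ≤ k → Bd X j₀ u τ a ϑ (∑ i, ω i * vJE (G i) u τ k)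
  hU : ∀ k, k0 ≤ k → Bd X j₀ u τ a ϑ (∑ i, ω i * (G i).vU u τ k)
  hX : ∀ k, k0 ≤ k → Bd X j₀ u τ a ϑ (∑ i, ω i * (G i).vX u τ k)
  hE : ∀ k, k0 ≤ k → Bd X j₀ u τ a ϑ (∑ i, ω i * (G i).vE u τ k)
  hCS : Bd X j₀ u τ a ϑ (∑ i, ω i * (G i).vCS u τ)

attribute [instance] FmK.fA FmK.nA

/-- facts of a node used by the assembly -/
structure NdF (X : Ctx N γ p0 P₀) (j₀ : X.c.Lam) (u : NS) (τ : IT) : Prop where
  rg : RgN X u τ
  lmu : LMu X j₀ u τ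
  mu0 : 0 ≤ X.mu j₀ u τ Finset.univ
  tot : I (fun x => tt Finset.univ (X.g u τ) x) ≤ 4 * X.mu j₀ u τ Finset.univ
  pT : PB fun x => tt Finset.univ (X.g u τ) x

lemma bd_of {a ϑ v : ℝ} (ha : 0 ≤ a) (hϑ : 0 ≤ ϑ) (hμ : 0 ≤ X.mu j₀ u τ Finset.univ) {c₁ c₂ : ℝ}
    (h0 : 0 ≤ c₂) (h1 : c₁ ≤ 1000) (h2 : c₂ ≤ 1000)
    (h : v ≤ c₁ * a * (X.mu j₀ u τ Finset.univ + X.mu j₀ u τ Finset.univ *
      X.mu j₀ u τ Finset.univ) + c₂ * (a * ϑ * I (fun x => tt Finset.univ (X.g u τ) x ^ 2))) :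
    Bd X j₀ u τ (1000 * a) ϑ v := by
  unfold Bd
  have I2 : 0 ≤ I (fun x => tt Finset.univ (X.g u τ) x ^ 2) := I_nonneg fun x => sq_nonneg _
  have m0 : 0 ≤ X.mu j₀ u τ Finset.univ + X.mu j₀ u τ Finset.univ *
      X.mu j₀ u τ Finset.univ := by positivity
  have h3 : 0 ≤ a * ϑ * I (fun x => tt Finset.univ (X.g u τ) x ^ 2) := by positivity
  have h4 := mul_le_mul_of_nonneg_right h2 h3
  have h5 := mul_le_mul_of_nonneg_right (mul_le_mul_of_nonneg_right h1 ha) m0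
  linarith

lemma sum_two' (f g : A → ℝ) (c : ℝ) : ∑ i, ω i * (c * f i + g i) =
    c * ∑ i, ω i * f i + ∑ i, ω i * g i := by
  rw [Finset.mul_sum, ← Finset.sum_add_distrib]
  exact Finset.sum_congr rfl fun i _ => by ring

/-- **a family of games from its kernel form** -/
noncomputable def FmK.fm {J a ϑ : ℝ} (F : FmK X j₀ u τ n J a ϑ) (ha : 0 ≤ a) (hϑ : 0 ≤ ϑ)
    (hN : NdF X j₀ u τ) : Fm X j₀ u τ n J (1000 * a) ϑ where
  Q := F.Q
  hQ := F.hQ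
  C := F.C
  hB := F.hB
  A := F.A
  fA := F.fA
  nA := F.nA
  ω := F.ω
  ω0 := F.ω0
  ω1 := F.ω1
  G := F.G
  hJ := fun x => EvJ47.fm_hJ F.G F.hB F.hρ x
  K := F.K
  hK := F.hK
  dom := fun i {p b} h x j j' => F.dom i h x j j'
  k0 := max F.k0 ((X.self u τ Finset.univ).t.size + (X.self u τ Finset.univ).p)
  hPhi := by
    have := F.hPhi
    unfold Bd at this
    exact bd_of ha hϑ hN.mu0 (c₁ := 1) (c₂ := 1) (by norm_num) (by norm_num) (by norm_num)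
      (by linarith)
  hLeU := by
    have := F.hLeU
    unfold Bd at this
    exact bd_of ha hϑ hN.mu0 (c₁ := 1) (c₂ := 1) (by norm_num) (by norm_num) (by norm_num)
      (by unfold vK at this; linarith)
  hJmp := fun k hk => by
    have hk0 : F.k0 ≤ k := (le_max_left _ _).trans hk
    have b1 := F.hGp k hk0
    have b2 := F.hJE k hk0
    unfold Bd at b1 b2
    have h1 : ∀ i, F.ω i * (F.G i).vJmp u τ k ≤ F.ω i * (2 * I ((F.Z3 i).bch.Y
        (X.self u τ Finset.univ).p (b₀ X u τ)) + (vGp (F.G i) (F.Ge i) (F.Gx i) u τ k +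
          vJE (F.G i) u τ k)) := fun i => by
      refine mul_le_mul_of_nonneg_left ?_ (F.ω0 i)
      rw [vJmp_eq (F.G i) (F.hsd i)]
      have := vJd_le (F.G i) F.hQ F.hB (F.Z3 i) (F.jin i) (F.z3e i) (F.z3N i) (F.z3P i) k
      linarith
    have h2 := Finset.sum_le_sum fun i (_ : i ∈ Finset.univ) => h1 i
    have h3 := avg_IY F.hB F.Z3 F.z3ρ hN.pT (ω := F.ω)
    have h4 := mul_le_mul_of_nonneg_left hN.tot ha
    rw [sum_two'] at h2
    have e : ∑ i, F.ω i * (vGp (F.G i) (F.Ge i) (F.Gx i) u τ k + vJE (F.G i) u τ k) =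
        ∑ i, F.ω i * vGp (F.G i) (F.Ge i) (F.Gx i) u τ k + ∑ i, F.ω i * vJE (F.G i) u τ k := by
      rw [← Finset.sum_add_distrib]
      exact Finset.sum_congr rfl fun i _ => by ring
    rw [e] at h2
    have m2 := mul_nonneg hN.mu0 hN.mu0
    have m3 := mul_nonneg ha m2
    refine bd_of ha hϑ hN.mu0 (c₁ := 10) (c₂ := 2) (by norm_num) (by norm_num) (by norm_num) ?_
    linarith
  hU := fun k hk => by
    have b1 := F.hU k ((le_max_left _ _).trans hk)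
    unfold Bd at b1
    exact bd_of ha hϑ hN.mu0 (c₁ := 1) (c₂ := 1) (by norm_num) (by norm_num) (by norm_num)
      (by linarith)
  hSep := fun k hk => by
    have hk1 : (X.self u τ Finset.univ).t.size + (X.self u τ Finset.univ).p ≤ k :=
      (le_max_right _ _).trans hk
    have h1 : ∀ i, F.ω i * (F.G i).vSep u τ k ≤ F.ω i * (2 * vK (F.K i) u τ +
        (rE (RN (F.KN i)) (X.self u τ Finset.univ).p (tX X u τ) +
          (ts (FB (F.KB i)) (tX X u τ) + 2 * pn (F.KB i) (tX X u τ)))) := fun i => by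
      refine mul_le_mul_of_nonneg_left ?_ (F.ω0 i)
      have := vSep_le (F.G i) F.hQ F.hB (F.hK i) (fun h x j j' => F.dom i h x j j') (F.sep i).dQ
        (F.sep i).kN (F.sep i).kB (F.sep i).sN (F.sep i).sB (F.sep i).sQ hk1
      unfold vK
      rw [self_t] at this ⊢
      linarith
    have h2 := Finset.sum_le_sum fun i (_ : i ∈ Finset.univ) => h1 i
    have e : ∑ i, F.ω i * (2 * vK (F.K i) u τ +
        (rE (RN (F.KN i)) (X.self u τ Finset.univ).p (tX X u τ) +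
          (ts (FB (F.KB i)) (tX X u τ) + 2 * pn (F.KB i) (tX X u τ)))) =
        2 * (∑ i, F.ω i * vK (F.K i) u τ) +
        (∑ i, F.ω i * rE (RN (F.KN i)) (X.self u τ Finset.univ).p (tX X u τ) +
          (∑ i, F.ω i * ts (FB (F.KB i)) (tX X u τ) +
          2 * ∑ i, F.ω i * pn (F.KB i) (tX X u τ))) := by
      simp only [Finset.mul_sum, ← Finset.sum_add_distrib]
      exact Finset.sum_congr rfl fun i _ => by ring
    rw [e] at h2
    have b1 := F.hLeU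
    have b2 := F.hN
    have b3 := F.hFB
    have b4 := F.hPN
    unfold Bd at b1 b2 b3 b4
    refine bd_of ha hϑ hN.mu0 (c₁ := 6) (c₂ := 6) (by norm_num) (by norm_num) (by norm_num) ?_
    linarith
  hJb := fun k hk => by
    have hk1 : (X.self u τ Finset.univ).t.size + (X.self u τ Finset.univ).p ≤ k :=
      (le_max_right _ _).trans hk
    have hm : 1 ≤ F.m₀ := (F.jb (Classical.arbitrary F.A)).m1
    have h1 : ∀ i, F.ω i * (F.G i).vJb u τ k ≤ F.ω i * (80 * vK (F.K i) u τ +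
        (80 * ts (F1 (F.K1 i)) (tX X u τ) +
          (75 * F.m₀ * pn (fun p j l => F.t p * F.KT i p j l) (tX X u τ) +
          20 * ts (F3 (fun q => 1 / F.t q) (F.K3 i)) (tX X u τ)))) := fun i => by
      refine mul_le_mul_of_nonneg_left ?_ (F.ω0 i)
      have := vJb_le (F.G i) F.hQ F.hB (F.hK i) (fun h x j j' => F.dom i h x j j') (F.hK3 i)
        (fun h x j j' => F.dom3 i h x j j') (F.jb i) hk1
      unfold vK
      rw [self_t] at this ⊢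
      linarith
    have h2 := Finset.sum_le_sum fun i (_ : i ∈ Finset.univ) => h1 i
    have e : ∑ i, F.ω i * (80 * vK (F.K i) u τ +
        (80 * ts (F1 (F.K1 i)) (tX X u τ) +
          (75 * F.m₀ * pn (fun p j l => F.t p * F.KT i p j l) (tX X u τ) +
          20 * ts (F3 (fun q => 1 / F.t q) (F.K3 i)) (tX X u τ)))) =
        80 * (∑ i, F.ω i * vK (F.K i) u τ) +
        (80 * (∑ i, F.ω i * ts (F1 (F.K1 i)) (tX X u τ)) +
          (75 * (F.m₀ * (∑ i, F.ω i * pn (fun p j l => F.t p * F.KT i p j l) (tX X u τ))) +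
          20 * ∑ i, F.ω i * ts (F3 (fun q => 1 / F.t q) (F.K3 i)) (tX X u τ))) := by
      simp only [Finset.mul_sum, ← Finset.sum_add_distrib]
      exact Finset.sum_congr rfl fun i _ => by ring
    rw [e] at h2
    have b1 := F.hLeU
    have b2 := F.h1
    have b3 := F.hT
    have b4 := F.h3
    unfold Bd at b1 b2 b3 b4
    have b5 := mul_le_mul_of_nonneg_left b3 (by linarith : (0:ℝ) ≤ F.m₀)
    have e5 : F.m₀ * (a / F.m₀ * (X.mu j₀ u τ Finset.univ + X.mu j₀ u τ Finset.univ *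
        X.mu j₀ u τ Finset.univ) + a / F.m₀ * ϑ * I (fun x => tt Finset.univ (X.g u τ) x ^ 2)) =
        a * (X.mu j₀ u τ Finset.univ + X.mu j₀ u τ Finset.univ *
        X.mu j₀ u τ Finset.univ) + a * ϑ * I (fun x => tt Finset.univ (X.g u τ) x ^ 2) := by
      have : F.m₀ ≠ 0 := by linarith
      field_simp
    rw [e5] at b5
    refine bd_of ha hϑ hN.mu0 (c₁ := 255) (c₂ := 255) (by norm_num) (by norm_num) (by norm_num) ?_
    linarith
  hX := fun k hk => by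
    have b1 := F.hX k ((le_max_left _ _).trans hk)
    unfold Bd at b1
    exact bd_of ha hϑ hN.mu0 (c₁ := 1) (c₂ := 1) (by norm_num) (by norm_num) (by norm_num)
      (by linarith)
  hE := fun k hk => by
    have b1 := F.hE k ((le_max_left _ _).trans hk)
    unfold Bd at b1
    exact bd_of ha hϑ hN.mu0 (c₁ := 1) (c₂ := 1) (by norm_num) (by norm_num) (by norm_num)
      (by linarith)
  hCS := by
    have b1 := F.hCS
    unfold Bd at b1
    exact bd_of ha hϑ hN.mu0 (c₁ := 1) (c₂ := 1) (by norm_num) (by norm_num) (by norm_num)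
      (by linarith)

end fam

end ctx

/-! ### contexts -/

section tgt
open Crest.Agent.R4P.SkelF29 (BootF)
open Crest.Agent.R4P.Fin5 (CF)
open Crest.Agent.R4P.TopG25 Crest.Agent.R4P.KbL845
variable {N : Skel189.Num} {γ : ℝ}

/-- **the node facts of a context** -/
theorem ctx_NdF (N : Skel189.Num) : ∃ p₁ : ℕ, ∀ p0 ≥ p₁, ∀ (γ : ℝ) (P₀ : ℕ), 2 ≤ P₀ →
    ∀ (X : Ctx N γ p0 P₀) (j₀ : X.c.Lam), All (NdF X j₀) ⟨top X.S, 1, 1, 1⟩ X.c.t := by
  obtain ⟨p1, h1⟩ := lm_mu N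
  obtain ⟨p2, h2⟩ := VCtx29.ctx_QV N
  refine ⟨p1 + p2, fun p0 hp0 γ P₀ hP X j₀ => ?_⟩
  refine All.mono (fun u τ hh => ?_) ((h1 p0 (by omega) γ P₀ hP X j₀).and
    ((h2 p0 (by omega) γ P₀ hP X j₀).and ((ctx_RgN j₀).and ((Mrg35.ctx_side X j₀).and
      (ctx_mumu X j₀)))))
  obtain ⟨a1, a2, a3, a4, a5⟩ := hh
  refine ⟨a3, a1, (a5 Finset.univ).1, tot_le a2 a4.2.ok, ?_⟩
  have e1 : (fun x => tt Finset.univ (X.g u τ) x) = fun x => ∑ j, (X.g u τ).val j x := by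
    funext x
    unfold tt
    rw [rv_univ]
  have e2 : X.g u τ = (X.self u τ Finset.univ).t.g :=
    (Item758.Par.toDT_g (X.c.D.par X.Y) X.c.sp τ u.B u.A).symm
  rw [e1, e2]
  exact PB.sum _ fun j _ => a4.2.ok.pb j

/-- **the target of the leaves, kernel form** -/
def TgtK (N : Skel189.Num) (γ : ℝ) (P : ∀ {p0 P₀ : ℕ} (X : Ctx N γ p0 P₀), Prop) : Prop :=
  ∃ (n : ℕ) (J a : ℝ), 1 ≤ n ∧ 0 ≤ J ∧ 1 ≤ a ∧
    ∀ M : ℝ, 0 ≤ M → ∀ ϑ : ℝ, 0 < ϑ → Ev N γ fun p0 P₀ X => CF X → P X → ∀ (j₀ : X.c.Lam) (Kb : ℝ),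
    0 ≤ Kb → Kb ≤ M * Real.log p0 ^ N.c2 →
    All (fun u τ => ¬ isL τ → BootF X j₀ (fun _ _ => 0) Kb u τ →
      Nonempty (FmK X j₀ u τ n J a ϑ)) ⟨top X.S, 1, 1, 1⟩ X.c.t

/-- **the families of games from their kernel form** -/
theorem TgtK.tgt {P : ∀ {p0 P₀ : ℕ} (X : Ctx N γ p0 P₀), Prop} (h : TgtK N γ P) :
    TgtBL N γ P := by
  obtain ⟨n, J, a, hn, hJ, ha, h⟩ := h
  refine ⟨n, J, 1000 * a, hn, hJ, by linarith, fun M hM ϑ hϑ => ?_⟩
  obtain ⟨p1, h1⟩ := ctx_NdF N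
  obtain ⟨p₁, h2⟩ := h M hM ϑ hϑ
  refine ⟨p1 + p₁, fun p0 hp0 => ?_⟩
  obtain ⟨Q₁, h3⟩ := h2 p0 (by omega)
  refine ⟨max Q₁ 2, fun P₀ hP₀ X hC hP j₀ Kb k1 k2 => ?_⟩
  have h4 := h3 P₀ ((le_max_left _ _).trans hP₀) X hC hP j₀ Kb k1 k2
  refine All.mono (fun u τ hh hl hB => ?_)
    (h4.and (h1 p0 (by omega) γ P₀ ((le_max_right _ _).trans hP₀) X j₀))
  obtain ⟨F⟩ := hh.1 hl hB
  exact ⟨F.fm (by linarith) hϑ.le hh.2⟩

end tgt

end Crest.Agent.R4P.AsD407
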