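import Crest.Agent.R4P.PrK_45
import Crest.Agent.R4P.SecO_25

/-!
R4 (S0004) with powers, T3, helper48: **the energies of the children of the true ties**, from the
bootstrap hypothesis.

* `KidE X F` : the children of the ties and the child of a pull satisfy `F`; `kidE_below`;
* `tail2` : `Σ_{p0 < q < n} 1 / (q (log q)²) ≤ 1 / log p0`;
* **`ctx_tsB`** : `BootF` at a node, `F q a b ≤ g q (I (Σ a)² + I (Σ b)²)`, `g q · q · (log q)^S ≤ 1`,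
  `S = e + 2 B + c2 + 2`  ⟹  `ts F (tX X u τ) ≤ ε mu`;
* **`ctx_F3`** : `ts (F3 f K) ≤ ε mu` for every kernel `0 ≤ K ≤ 1`, `f q (log q)^S ≤ 1`;
  **`ctx_F3inv`** : `f q = 1/q`.
-/

set_option autoImplicit false
set_option linter.unusedSectionVars false
set_option linter.unusedVariables false
open MeasureTheory Filter Set

namespace Crest.Agent.R4P.EnC48

open Crest.Agent.R4.Tour104 Crest.Agent.R4.Tour758 Crest.Agent.R4.Avg758 Crest.Agent.R4.Clos758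
open Crest.Agent.R4.ClosL758 Crest.Agent.R4.ClosG758 Crest.Agent.R4.ClosR758
open Crest.Agent.R4.Fam464
open Crest.Agent.R4P.ClosR442 Crest.Agent.R4P.Grp36
open Crest.Agent.R4P.Xfer36 Crest.Agent.R4P.TopC36 Crest.Agent.R4P.PN36
open Crest.Agent.R4P.Walk560 (DT)
open Crest.Agent.R4P.Cnt588 Crest.Agent.R4P.Item758
open Crest.Agent.R4P.NodeG33 Crest.Agent.R4P.WtI25
open Crest.Agent.R4P.Bld532 (NS All NodeOk Bk Ws_nonneg Ws_mono)
open Crest.Agent.R4P.SecO25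
open Crest.Agent.R4P.JnE5 Crest.Agent.R4P.PrG45 Crest.Agent.R4P.PrJ45 Crest.Agent.R4P.PrK45
open Crest.Agent.R4P.Data758 Crest.Agent.R4P.Skel189
open Crest.Agent.R4P.Step588 (ctx_NDt All_All)
open Crest.Agent.R4P.AsmX26 (QE ctx_QE)
open Crest.Agent.R4P.SkelF29 (BootF)
open Crest.Agent.R4P.Strip29 (AdF)
open Crest.Agent.R4P.Frame758 Crest.Agent.R4.Soft104
open Crest.Agent.R4P.CtxNF36 (par_PG)

variable {N : Skel189.Num} {γ : ℝ} {p0 P₀ : ℕ}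

/-! ### the children -/

/-- the children of the ties and pulls satisfy `F` -/
def KidE (X : Ctx N γ p0 P₀) (F : TrG X.c.Lam (Lb (WL X.c.Lam) X.Y) → Prop) (s : NS) : IT → Prop
  | .br q _ t₁ t₀ => F (X.g ⟨q, s.c / (1 - 1 / (q : ℝ)), s.A * q, s.B⟩ t₁) ∧
      F (X.g ⟨q, s.c * q, s.A, s.B * q⟩ t₀)
  | .pl q t => F (X.g ⟨q + 1, s.c, s.A * q, s.B⟩ t)
  | _ => True

lemma kidE_all (X : Ctx N γ p0 P₀) {F : TrG X.c.Lam (Lb (WL X.c.Lam) X.Y) → Prop} (t : IT) :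
    ∀ s : NS, (X.g s t).All F → All (KidE X F) s t := by
  induction t with
  | leaf S => intro s h; exact trivial
  | br q Sp t₁ t₀ ih₁ ih₀ =>
    intro s h
    have h1 : (X.g ⟨q, s.c / (1 - 1 / (q : ℝ)), s.A * q, s.B⟩ t₁).All F := h.2.1
    have h0 : (X.g ⟨q, s.c * q, s.A, s.B * q⟩ t₀).All F := h.2.2
    exact ⟨⟨h1.self, h0.self⟩, ih₁ _ h1, ih₀ _ h0⟩
  | add q t₁ t₀ ih₁ ih₀ =>
    intro s h
    exact ⟨trivial, ih₁ ⟨q + 1, s.c, s.A, s.B⟩ h.2.1, ih₀ ⟨q + 1, s.c, s.A, s.B⟩ h.2.2⟩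
  | up q Sp t ih => intro s h; exact ⟨trivial, ih ⟨q, s.c, s.A, s.B⟩ h⟩
  | pl q t ih =>
    intro s h
    have h1 : (X.g ⟨q + 1, s.c, s.A * q, s.B⟩ t).All F := h.2.1
    exact ⟨h1.self, ih _ h1⟩
  | far q t₁ t₀ ih₁ ih₀ =>
    intro s h
    exact ⟨trivial, ih₁ ⟨q + 1, s.c, s.A, s.B⟩ h.2.1, ih₀ ⟨q + 1, s.c, s.A, s.B⟩ h.2.2⟩

lemma kidE_below (X : Ctx N γ p0 P₀) {F : TrG X.c.Lam (Lb (WL X.c.Lam) X.Y) → Prop} (t : IT) :
    ∀ s : NS, Below F (X.g s t) → All (KidE X F) s t := by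
  induction t with
  | leaf S => intro s h; exact trivial
  | br q Sp t₁ t₀ ih₁ ih₀ =>
    intro s h
    have h1 : (X.g ⟨q, s.c / (1 - 1 / (q : ℝ)), s.A * q, s.B⟩ t₁).All F := h.1
    have h0 : (X.g ⟨q, s.c * q, s.A, s.B * q⟩ t₀).All F := h.2
    exact ⟨⟨h1.self, h0.self⟩, kidE_all X t₁ _ h1, kidE_all X t₀ _ h0⟩
  | add q t₁ t₀ ih₁ ih₀ =>
    intro s h
    exact ⟨trivial, kidE_all X t₁ ⟨q + 1, s.c, s.A, s.B⟩ h.1,
      kidE_all X t₀ ⟨q + 1, s.c, s.A, s.B⟩ h.2⟩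
  | up q Sp t ih => intro s h; exact ⟨trivial, ih ⟨q, s.c, s.A, s.B⟩ h⟩
  | pl q t ih =>
    intro s h
    have h1 : (X.g ⟨q + 1, s.c, s.A * q, s.B⟩ t).All F := h.1
    exact ⟨h1.self, kidE_all X t ⟨q + 1, s.c, s.A * q, s.B⟩ h.1⟩
  | far q t₁ t₀ ih₁ ih₀ =>
    intro s h
    exact ⟨trivial, kidE_all X t₁ ⟨q + 1, s.c, s.A, s.B⟩ h.1,
      kidE_all X t₀ ⟨q + 1, s.c, s.A, s.B⟩ h.2⟩

/-! ### numbers -/

lemma step2 {q : ℕ} (hq : 3 ≤ q) : 1 / ((q : ℝ) * Real.log q ^ 2) ≤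
    1 / Real.log ((q - 1 : ℕ) : ℝ) - 1 / Real.log q := by
  have h2 : 2 ≤ q - 1 := by omega
  have e : ((q - 1 : ℕ) : ℝ) = q - 1 := by
    rw [Nat.cast_sub (by omega)]; norm_num
  have hq' : (3 : ℝ) ≤ q := by exact_mod_cast hq
  have hq0 : (0 : ℝ) < q := by linarith
  have hl1 : 0 < Real.log ((q : ℝ) - 1) := Real.log_pos (by linarith)
  have hl : 0 < Real.log (q : ℝ) := Real.log_pos (by linarith)
  have hle : Real.log ((q : ℝ) - 1) ≤ Real.log q := Real.log_le_log (by linarith) (by linarith)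
  -- log q - log (q-1) ≥ 1/q
  have h3 : 1 / (q : ℝ) ≤ Real.log q - Real.log ((q : ℝ) - 1) := by
    have h4 : Real.log (((q : ℝ) - 1) / q) ≤ ((q : ℝ) - 1) / q - 1 :=
      Real.log_le_sub_one_of_pos (by
        have : (0:ℝ) < (q:ℝ) - 1 := by linarith
        positivity)
    rw [Real.log_div (by linarith) (by linarith)] at h4
    have h5 : ((q : ℝ) - 1) / q - 1 = - (1 / (q : ℝ)) := by field_simp; ring
    rw [h5] at h4
    linarith
  rw [e]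
  have e2 : 1 / Real.log ((q : ℝ) - 1) - 1 / Real.log q =
      (Real.log q - Real.log ((q : ℝ) - 1)) / (Real.log ((q : ℝ) - 1) * Real.log q) := by
    field_simp
  rw [e2]
  have e3 : 1 / ((q : ℝ) * Real.log q ^ 2) = (1 / (q : ℝ)) / (Real.log q * Real.log q) := by
    field_simp
  rw [e3]
  have h6 : 0 < Real.log ((q : ℝ) - 1) * Real.log q := mul_pos hl1 hl
  refine div_le_div₀ (by
    have : (0:ℝ) ≤ 1 / (q:ℝ) := by positivity
    linarith) h3 h6 (mul_le_mul_of_nonneg_right hle hl.le)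

/-- the columns -/
theorem tail2 {p0 : ℕ} (h0 : 2 ≤ p0) (n : ℕ) :
    ∑ q ∈ Finset.Ioo p0 n, 1 / ((q : ℝ) * Real.log q ^ 2) ≤ 1 / Real.log p0 := by
  have hl0 : 0 < Real.log (p0 : ℝ) := Real.log_pos (by
    have : (2:ℝ) ≤ p0 := by exact_mod_cast h0
    linarith)
  have key : ∀ k : ℕ, ∑ q ∈ Finset.Ioo p0 (p0 + 1 + k), 1 / ((q : ℝ) * Real.log q ^ 2) ≤
      1 / Real.log p0 - 1 / Real.log ((p0 + k : ℕ) : ℝ) := by
    intro k
    induction k with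
    | zero =>
      have e : Finset.Ioo p0 (p0 + 1 + 0) = ∅ := by
        ext r; simp only [Finset.mem_Ioo, Finset.notMem_empty, iff_false]; omega
      rw [e, Finset.sum_empty]
      simp
    | succ k ih =>
      have e : Finset.Ioo p0 (p0 + 1 + (k + 1)) = insert (p0 + k + 1) (Finset.Ioo p0 (p0 + 1 + k)) := by
        ext r
        simp only [Finset.mem_Ioo, Finset.mem_insert]
        omega
      rw [e, Finset.sum_insert (by simp only [Finset.mem_Ioo]; omega)]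
      have h1 := step2 (q := p0 + k + 1) (by omega)
      have e2 : p0 + k + 1 - 1 = p0 + k := by omega
      rw [e2] at h1
      have e3 : p0 + (k + 1) = p0 + k + 1 := by omega
      rw [e3]
      linarith
  by_cases hn : p0 + 1 ≤ n
  · obtain ⟨k, rfl⟩ := Nat.exists_eq_add_of_le hn
    have h1 := key k
    have h2 : 0 ≤ 1 / Real.log ((p0 + k : ℕ) : ℝ) := by
      have := Real.log_natCast_nonneg (p0 + k)
      positivity
    linarith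
  · have e : Finset.Ioo p0 n = ∅ := by
      ext r; simp only [Finset.mem_Ioo, Finset.notMem_empty, iff_false]; omega
    rw [e, Finset.sum_empty]
    positivity

/-- logarithms are large -/
lemma log_big (C : ℝ) {ε : ℝ} (hε : 0 < ε) : ∃ p₁ : ℕ, 3 ≤ p₁ ∧ ∀ p0 ≥ p₁,
    C * (1 / Real.log (p0 : ℝ)) ≤ ε := by
  obtain ⟨x, hx⟩ := Filter.eventually_atTop.1
    ((Real.tendsto_log_atTop.comp tendsto_natCast_atTop_atTop).eventually_ge_atTop
      ((|C| + 1) / ε))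
  refine ⟨x + 3, by omega, fun p0 hp0 => ?_⟩
  have h1 : (|C| + 1) / ε ≤ Real.log (p0 : ℝ) := hx p0 (by omega)
  have h2 : 0 < (|C| + 1) / ε := by positivity
  have h3 : 0 < Real.log (p0 : ℝ) := by linarith
  rw [div_le_iff₀ hε] at h1
  rw [mul_one_div, div_le_iff₀ h3]
  have := le_abs_self C
  nlinarith

/-! ### sums over the true ties by tree sums -/

/-- local terms of a sum over the true ties -/
noncomputable def phF (X : Ctx N γ p0 P₀)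
    (F : ℕ → (X.c.Lam → ℝ → ℝ) → (X.c.Lam → ℝ → ℝ) → ℝ) : NS → IT → ℝ
  | s, .br q _ t₁ t₀ => F q (tX X ⟨q, s.c / (1 - 1 / (q : ℝ)), s.A * q, s.B⟩ t₁).g.val
      (tX X ⟨q, s.c * q, s.A, s.B * q⟩ t₀).g.val
  | _, _ => 0

theorem ts_tsum (X : Ctx N γ p0 P₀)
    (F : ℕ → (X.c.Lam → ℝ → ℝ) → (X.c.Lam → ℝ → ℝ) → ℝ) (t : IT) : ∀ u : NS,
    All (NodeOk X.par (w X.ψ)) u t → ts F (tX X u t) = tsum (phF X F) u t := by
  classical
  induction t with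
  | leaf S => intro u _; rfl
  | br q Sp t₁ t₀ ih₁ ih₀ =>
    intro u h
    have hq : q.Prime := h.1.1
    have k1 := ih₁ _ h.2.1
    have k0 := ih₀ _ h.2.2
    have hne : (1 / (q : ℝ)) ≠ 0 := by
      have : (0:ℝ) < q := by exact_mod_cast hq.pos
      positivity
    have e : ts F (tX X u (.br q Sp t₁ t₀)) =
        (1 - 1 / (q : ℝ)) * ts F (tX X ⟨q, u.c / (1 - 1 / (q : ℝ)), u.A * q, u.B⟩ t₁) +
        1 / (q : ℝ) * ts F (tX X ⟨q, u.c * q, u.A, u.B * q⟩ t₀) +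
        if (1 / (q : ℝ)) = 0 then 0 else
          F q (tX X ⟨q, u.c / (1 - 1 / (q : ℝ)), u.A * q, u.B⟩ t₁).g.val
            (tX X ⟨q, u.c * q, u.A, u.B * q⟩ t₀).g.val := by
      show (1 - 1 / (q : ℝ)) * ts F _ + 1 / (q : ℝ) * ts F _ +
        (if (1 / (q : ℝ)) = 0 then 0 else F q _ _) = _
      congr
    rw [e, if_neg hne, k1, k0]
    show _ = phF X F u (.br q Sp t₁ t₀) + _ + _
    unfold phF
    ring
  | add q t₁ t₀ ih₁ ih₀ =>
    intro u h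
    have k1 := ih₁ ⟨q + 1, u.c, u.A, u.B⟩ h.2.1
    have k0 := ih₀ ⟨q + 1, u.c, u.A, u.B⟩ h.2.2
    show ts F (tX X ⟨q + 1, u.c, u.A, u.B⟩ t₁) + ts F (tX X ⟨q + 1, u.c, u.A, u.B⟩ t₀) =
      tsum (phF X F) ⟨q + 1, u.c, u.A, u.B⟩ t₁ + tsum (phF X F) ⟨q + 1, u.c, u.A, u.B⟩ t₀
    rw [k1, k0]
  | up q Sp t ih => intro u h; exact ih ⟨q, u.c, u.A, u.B⟩ h.2
  | pl q t ih =>
    intro u h
    have k := ih ⟨q + 1, u.c, u.A * q, u.B⟩ h.2
    have e : ts F (tX X u (.pl q t)) =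
        (1 - (0:ℝ)) * ts F (tX X ⟨q + 1, u.c, u.A * q, u.B⟩ t) + 0 * 0 +
        if (0:ℝ) = 0 then 0 else
          F q (tX X ⟨q + 1, u.c, u.A * q, u.B⟩ t).g.val (fun _ _ => 0) := by
      show (1 - (0:ℝ)) * ts F _ + 0 * 0 + (if (0:ℝ) = 0 then 0 else F q _ _) = _
      congr
    rw [e, if_pos rfl, k]
    show _ = 0 + tsum (phF X F) ⟨q + 1, u.c, u.A * q, u.B⟩ t
    ring
  | far q t₁ t₀ ih₁ ih₀ =>
    intro u h
    have k1 := ih₁ ⟨q + 1, u.c, u.A, u.B⟩ h.2.1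
    have k0 := ih₀ ⟨q + 1, u.c, u.A, u.B⟩ h.2.2
    show ts F (tX X ⟨q + 1, u.c, u.A, u.B⟩ t₁) + ts F (tX X ⟨q + 1, u.c, u.A, u.B⟩ t₀) =
      tsum (phF X F) ⟨q + 1, u.c, u.A, u.B⟩ t₁ + tsum (phF X F) ⟨q + 1, u.c, u.A, u.B⟩ t₀
    rw [k1, k0]

/-! ### contexts -/

/-- total energy of a family of functions -/
noncomputable def E2 {Λ : Type} [Fintype Λ] (a : Λ → ℝ → ℝ) : ℝ := I (fun x => (∑ j, a j x) ^ 2)

/-- exponent of the rates -/
noncomputable def SB (N : Skel189.Num) (e : ℝ) : ℝ := e + (N.B + (N.B + N.c2)) + 2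

/-- **the energies of the children of a true tie** -/
theorem kid_le {X : Ctx N γ p0 P₀} {j₀ : X.c.Lam} {Kb M e : ℝ} (hp : 3 ≤ p0) (hM : 0 ≤ M)
    (he : 0 ≤ e) (hK0 : 0 ≤ Kb)
    (hK : Kb ≤ M * Real.log p0 ^ e) {s : NS} {q : ℕ} {Sp : Finset ℕ} {t₁ t₀ : IT}
    (h : All (QE X j₀ (fun _ _ => True)) s (.br q Sp t₁ t₀))
    (k : KidE X (SMR AdF (X.tm j₀) (X.tn j₀) (fun _ _ => 0) Kb) s (.br q Sp t₁ t₀)) :
    E2 (tX X ⟨q, s.c / (1 - 1 / (q : ℝ)), s.A * q, s.B⟩ t₁).g.val +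
      E2 (tX X ⟨q, s.c * q, s.A, s.B * q⟩ t₀).g.val ≤
      12 * M * Real.log q ^ (e + (N.B + (N.B + N.c2))) * (s.c * Ws (w X.ψ) (t₁.items ∪ t₀.items)) := by
  have hB0 : 0 ≤ N.B := by have := N.hB; have := N.hC1; have := N.hc2; linarith
  have hc0 : 0 ≤ N.c2 := N.hc2
  have hψ : ∀ q, 0 ≤ w X.ψ q := fun q => by
    have := X.sys.nonneg q
    unfold w
    positivity
  have hmass0 : X.tn j₀ (X.g ⟨q, s.c * q, s.A, s.B * q⟩ t₀) =
    s.c * q * Ws (w X.ψ) t₀.items := h.2.2.self.mass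
  have hmass1 : X.tn j₀ (X.g ⟨q, s.c / (1 - 1 / (q : ℝ)), s.A * q, s.B⟩ t₁) =
    s.c / (1 - 1 / (q : ℝ)) * Ws (w X.ψ) t₁.items := h.2.1.self.mass
  have hsc : 0 ≤ s.c := h.self.nf.c0.le
  obtain ⟨hp', g1, g2, g3, g4, g5, g6, g7, g8, hlo, hhi, hsg, -⟩ := h.self.nd.self.node
  have hq3 : 3 ≤ q := by
    have : p0 < q := g2
    omega
  have hq0 : (0 : ℝ) < q := by positivity
  have hq3' : (3:ℝ) ≤ q := by exact_mod_cast hq3
  have hL := Bld532.one_le_log_nat hq3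
  have hL0 : 0 < Real.log q := by linarith
  obtain ⟨kk1, kk0⟩ := k
  have kk1 := kk1 Finset.univ (Or.inr rfl)
  have kk0 := kk0 Finset.univ (Or.inr rfl)
  have e0 : (fun x => tt Finset.univ (X.g ⟨q, s.c * q, s.A, s.B * q⟩ t₀) x ^ 2) =
      fun y => (∑ j, (tX X ⟨q, s.c * q, s.A, s.B * q⟩ t₀).g.val j y) ^ 2 := by
    funext y
    unfold tt
    rw [rv_univ, Item758.Par.toDT_g]
    rfl
  have e1 : (fun x => tt Finset.univ (X.g ⟨q, s.c / (1 - 1 / (q : ℝ)), s.A * q, s.B⟩ t₁) x ^ 2) =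
      fun y => (∑ j, (tX X ⟨q, s.c / (1 - 1 / (q : ℝ)), s.A * q, s.B⟩ t₁).g.val j y) ^ 2 := by
    funext y
    unfold tt
    rw [rv_univ, Item758.Par.toDT_g]
    rfl
  rw [e0] at kk0
  rw [e1] at kk1
  set m0 : ℝ := s.c * q * Ws (w X.ψ) t₀.items with hm0
  set m1 : ℝ := s.c / (1 - 1 / (q : ℝ)) * Ws (w X.ψ) t₁.items with hm1
  have f0 : X.tm j₀ (X.g ⟨q, s.c * q, s.A, s.B * q⟩ t₀) Finset.univ = m0 := hmass0
  have f1 : X.tm j₀ (X.g ⟨q, s.c / (1 - 1 / (q : ℝ)), s.A * q, s.B⟩ t₁) Finset.univ = m1 := hmass1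
  rw [f0, hmass0, add_zero] at kk0
  rw [f1, hmass1, add_zero] at kk1
  set μ : ℝ := s.c * Ws (w X.ψ) (t₁.items ∪ t₀.items) with hμ
  have hμ0 : 0 ≤ μ := mul_nonneg hsc (Ws_nonneg hψ _)
  have hm00 : 0 ≤ m0 := mul_nonneg (mul_nonneg hsc hq0.le) (Ws_nonneg hψ _)
  have hv : (1:ℝ) / 2 ≤ 1 - 1 / (q : ℝ) := by
    have : 1 / (q : ℝ) ≤ 1 / 2 := one_div_le_one_div_of_le (by norm_num) (by linarith)
    linarith
  have hm10 : 0 ≤ m1 := mul_nonneg (div_nonneg hsc (by linarith)) (Ws_nonneg hψ _)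
  set L := Real.log (q : ℝ) with hLd
  have hLB : 0 < L ^ N.B := Real.rpow_pos_of_pos hL0 _
  have hLB1 : 1 ≤ L ^ N.B := Real.one_le_rpow hL hB0
  have hLc1 : 1 ≤ L ^ N.c2 := Real.one_le_rpow hL hc0
  have hLc : 1 ≤ L ^ (N.B + N.c2) := Real.one_le_rpow hL (by linarith)
  have hhi' : μ ≤ L ^ N.c2 := hhi
  have hsg' : Ws (w X.ψ) t₀.items ≤
      2 * (L ^ N.B / q) * Ws (w X.ψ) (t₁.items ∪ t₀.items) := hsg
  -- missing child
  have hm1' : m0 ≤ 2 * L ^ N.B * μ := by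
    have h5 : m0 ≤ s.c * q * (2 * (L ^ N.B / q) * Ws (w X.ψ) (t₁.items ∪ t₀.items)) :=
      mul_le_mul_of_nonneg_left hsg' (mul_nonneg hsc hq0.le)
    refine h5.trans (le_of_eq ?_)
    rw [hμ]
    field_simp
  have hm2 : m0 ≤ 2 * L ^ (N.B + N.c2) := by
    rw [Real.rpow_add hL0]
    have : L ^ N.B * μ ≤ L ^ N.B * L ^ N.c2 := mul_le_mul_of_nonneg_left hhi' hLB.le
    linarith
  have hm3 : m0 + m0 * m0 ≤ 6 * L ^ N.B * L ^ (N.B + N.c2) * μ := by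
    have h5 : m0 * m0 ≤ m0 * (2 * L ^ (N.B + N.c2)) := mul_le_mul_of_nonneg_left hm2 hm00
    have h6 : m0 ≤ m0 * L ^ (N.B + N.c2) := by nlinarith
    have h7 : m0 * L ^ (N.B + N.c2) ≤ 2 * L ^ N.B * μ * L ^ (N.B + N.c2) :=
      mul_le_mul_of_nonneg_right hm1' (by linarith)
    nlinarith
  -- present child
  have hn1 : m1 ≤ 2 * μ := by
    have h5 : s.c / (1 - 1 / (q : ℝ)) ≤ 2 * s.c := by
      rw [div_le_iff₀ (by linarith)]
      nlinarith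
    have h6 : Ws (w X.ψ) t₁.items ≤ Ws (w X.ψ) (t₁.items ∪ t₀.items) :=
      Ws_mono hψ Finset.subset_union_left
    calc m1 ≤ 2 * s.c * Ws (w X.ψ) t₁.items := mul_le_mul_of_nonneg_right h5 (Ws_nonneg hψ _)
      _ ≤ 2 * s.c * Ws (w X.ψ) (t₁.items ∪ t₀.items) :=
        mul_le_mul_of_nonneg_left h6 (by linarith)
      _ = 2 * μ := by rw [hμ]; ring
  have hn3 : m1 + m1 * m1 ≤ 6 * L ^ N.B * L ^ (N.B + N.c2) * μ := by
    have h5 : m1 * m1 ≤ (2 * μ) * (2 * L ^ N.c2) :=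
      mul_le_mul hn1 (by linarith) hm10 (by linarith)
    have h6 : m1 + m1 * m1 ≤ 6 * L ^ N.c2 * μ := by nlinarith
    refine h6.trans ?_
    have h7 : L ^ N.c2 ≤ L ^ N.B * L ^ (N.B + N.c2) := by
      rw [Real.rpow_add hL0]
      have : 1 ≤ L ^ N.B * L ^ N.B := by nlinarith
      calc L ^ N.c2 = 1 * L ^ N.c2 := (one_mul _).symm
        _ ≤ (L ^ N.B * L ^ N.B) * L ^ N.c2 := mul_le_mul_of_nonneg_right this (by linarith)
        _ = _ := by ring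
    nlinarith
  have hK' : Kb ≤ M * L ^ e := by
    refine hK.trans (mul_le_mul_of_nonneg_left ?_ hM)
    refine Real.rpow_le_rpow (Real.log_natCast_nonneg _) ?_ he
    have hp00 : (0 : ℝ) < p0 := by
      have : 0 < p0 := by omega
      exact_mod_cast this
    exact Real.log_le_log hp00 (by exact_mod_cast (show p0 < q from g2).le)
  have hMe : 0 ≤ M * L ^ e := mul_nonneg hM (Real.rpow_nonneg hL0.le _)
  have k0' : E2 (tX X ⟨q, s.c * q, s.A, s.B * q⟩ t₀).g.val ≤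
      (M * L ^ e) * (6 * L ^ N.B * L ^ (N.B + N.c2) * μ) :=
    kk0.trans (mul_le_mul hK' hm3 (add_nonneg hm00 (mul_self_nonneg _)) hMe)
  have k1' : E2 (tX X ⟨q, s.c / (1 - 1 / (q : ℝ)), s.A * q, s.B⟩ t₁).g.val ≤
      (M * L ^ e) * (6 * L ^ N.B * L ^ (N.B + N.c2) * μ) :=
    kk1.trans (mul_le_mul hK' hn3 (add_nonneg hm10 (mul_self_nonneg _)) hMe)
  have hLa : L ^ (e + (N.B + (N.B + N.c2))) = L ^ e * (L ^ N.B * L ^ (N.B + N.c2)) := by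
    rw [Real.rpow_add hL0, Real.rpow_add hL0]
  rw [hLa]
  calc _ ≤ (M * L ^ e) * (6 * L ^ N.B * L ^ (N.B + N.c2) * μ) +
      (M * L ^ e) * (6 * L ^ N.B * L ^ (N.B + N.c2) * μ) := add_le_add k1' k0'
    _ = _ := by ring

/-- **sums over the true ties of the total energies of the children** -/
theorem ctx_tsB (N : Skel189.Num) {M e : ℝ} (hM : 0 ≤ M) (he : 0 ≤ e) {ε : ℝ} (hε : 0 < ε) :
    ∃ p₁ : ℕ, ∀ p0 ≥ p₁, ∀ (γ : ℝ) (P₀ : ℕ) (X : Ctx N γ p0 P₀) (j₀ : X.c.Lam) (Kb : ℝ), 0 ≤ Kb →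
      Kb ≤ M * Real.log p0 ^ e →
      All (fun u τ => BootF X j₀ (fun _ _ => 0) Kb u τ → ∀ (g : ℕ → ℝ)
        (F : ℕ → (X.c.Lam → ℝ → ℝ) → (X.c.Lam → ℝ → ℝ) → ℝ),
        (∀ q, p0 < q → 0 ≤ g q ∧ g q * q * Real.log q ^ SB N e ≤ 1) →
        (∀ q, p0 < q → ∀ a b : X.c.Lam → ℝ → ℝ, (∀ j, PB (a j)) → (∀ j, PB (b j)) →
          F q a b ≤ g q * (E2 a + E2 b)) →
        ts F (tX X u τ) ≤ ε * X.mu j₀ u τ Finset.univ) ⟨top X.S, 1, 1, 1⟩ X.c.t := by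
  obtain ⟨p1, hp1, h1⟩ := log_big (12 * M) hε
  refine ⟨p1, fun p0 hp0 γ P₀ X j₀ Kb hK0 hK => ?_⟩
  have hψ : ∀ q, 0 ≤ w X.ψ q := fun q => by
    have := X.sys.nonneg q
    unfold w
    positivity
  have hQE := ctx_QE X j₀ (Q' := fun _ _ => True) (All.mono (fun _ _ _ => trivial) (ctx_NDt X))
  refine All.mono (fun u τ hh hb g F hg hF => ?_)
    ((All_All _ _ hQE).and ((ctx_RgN j₀).and (All_All _ _ (ctx_RgN j₀))))
  obtain ⟨hq, hr, hra⟩ := hh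
  have hkid := kidE_below X τ u hb
  rw [ts_tsum X F τ u hr.nok]
  set a : ℕ → ℝ := fun q => 12 * M * (1 / ((q : ℝ) * Real.log q ^ 2)) with ha
  have ha0 : ∀ q, 0 ≤ a q := fun q => by
    have := Real.log_natCast_nonneg q
    positivity
  have hmu : X.mu j₀ u τ Finset.univ = u.c * Ws (w X.ψ) τ.items := hq.self.mass
  have hc0' : 0 ≤ u.c := hq.self.nf.c0.le
  rw [hmu]
  have hsum : ∀ n, Fa a X.par.p0 n ≤ ε := by
    intro n
    have h3 : Fa a X.par.p0 n = 12 * M * ∑ q ∈ Finset.Ioo p0 n, 1 / ((q : ℝ) * Real.log q ^ 2) := by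
      rw [Finset.mul_sum]
      rfl
    rw [h3]
    refine le_trans (mul_le_mul_of_nonneg_left (tail2 (by omega) n) (by positivity)) (h1 p0 hp0)
  refine le_trans (tsum_le (P := X.par) (W := w X.ψ) ha0 hψ τ u (All.mono (fun s t hst => ?_)
    ((All_All _ _ hq).and (hkid.and hra)))) (mul_le_mul_of_nonneg_right (hsum _)
      (mul_nonneg hc0' (Ws_nonneg hψ _)))
  obtain ⟨h, k, r⟩ := hst
  refine ⟨h.self.nd.self.node, h.self.nf.c0.le, fun q Sp t₁ t₀ e' => ?_, fun q t' e' => ?_⟩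
  · subst e'
    have hpq : p0 < q := h.self.nd.self.node.2.2.1
    have hq3 : 3 ≤ q := by omega
    have hL := Bld532.one_le_log_nat hq3
    have hL0 : 0 < Real.log q := by linarith
    have hq0 : (0:ℝ) < q := by positivity
    obtain ⟨g0, g1⟩ := hg q hpq
    have b1 := hF q hpq _ _ r.pb.2.1.self r.pb.2.2.self
    have b2 := kid_le (by omega) hM he hK0 hK h k
    have hμ0 : 0 ≤ s.c * Ws (w X.ψ) (t₁.items ∪ t₀.items) :=
      mul_nonneg h.self.nf.c0.le (Ws_nonneg hψ _)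
    show F q (tX X ⟨q, s.c / (1 - 1 / (q : ℝ)), s.A * q, s.B⟩ t₁).g.val
      (tX X ⟨q, s.c * q, s.A, s.B * q⟩ t₀).g.val ≤
      a q * (s.c * Ws (w X.ψ) (t₁.items ∪ t₀.items))
    refine b1.trans ((mul_le_mul_of_nonneg_left b2 g0).trans ?_)
    rw [← mul_assoc]
    refine mul_le_mul_of_nonneg_right ?_ hμ0
    have eS : Real.log q ^ SB N e = Real.log q ^ (e + (N.B + (N.B + N.c2))) * Real.log q ^ 2 := by
      unfold SB
      rw [Real.rpow_add hL0, Real.rpow_two]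
    rw [eS] at g1
    show _ ≤ 12 * M * (1 / ((q : ℝ) * Real.log q ^ 2))
    rw [mul_one_div, le_div_iff₀ (by positivity)]
    nlinarith
  · subst e'
    exact le_rfl

/-- a bounded kernel -/
lemma bil_le_E2 {Λ : Type} [Fintype Λ] [DecidableEq Λ] {K : Λ → Λ → ℝ} (hK : ∀ i j, K i j ≤ 1)
    {a : Λ → ℝ → ℝ} (ha : ∀ j, PB (a j)) : bil K a a ≤ E2 a := by
  have h1 : bil K a a ≤ bil (fun _ _ => (1:ℝ)) a a := bil_monoK hK ha ha
  refine h1.trans (le_of_eq ?_)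
  have e : (fun x => (∑ j, a j x) ^ 2) = fun x => ∑ i, ∑ j, (1:ℝ) * (a i x * a j x) := by
    funext x
    rw [sq, Finset.sum_mul_sum]
    exact Finset.sum_congr rfl fun i _ => Finset.sum_congr rfl fun j _ => (one_mul _).symm
  unfold E2
  rw [e, PrF45.I_sum2 fun i j => ((ha i).mul (ha j)).smul zero_le_one]
  unfold bil
  refine Finset.sum_congr rfl fun i _ => Finset.sum_congr rfl fun j _ => ?_
  rw [I_smul]

/-- **the energies of the children** : rate `f q / q`, `f q (log q)^S ≤ 1`, any kernel `≤ 1` -/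
theorem ctx_F3 (N : Skel189.Num) {M e : ℝ} (hM : 0 ≤ M) (he : 0 ≤ e) {ε : ℝ} (hε : 0 < ε) :
    ∃ p₁ : ℕ, ∀ p0 ≥ p₁, ∀ (γ : ℝ) (P₀ : ℕ) (X : Ctx N γ p0 P₀) (j₀ : X.c.Lam) (Kb : ℝ), 0 ≤ Kb →
      Kb ≤ M * Real.log p0 ^ e →
      All (fun u τ => BootF X j₀ (fun _ _ => 0) Kb u τ → ∀ (f : ℕ → ℝ)
        (K : ℕ → X.c.Lam → X.c.Lam → ℝ),
        (∀ q, p0 < q → 0 ≤ f q ∧ f q * Real.log q ^ SB N e ≤ 1) →
        (∀ q i j, K q i j ≤ 1) →
        ts (F3 f K) (tX X u τ) ≤ ε * X.mu j₀ u τ Finset.univ) ⟨top X.S, 1, 1, 1⟩ X.c.t := by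
  obtain ⟨p1, h1⟩ := ctx_tsB N hM he hε
  refine ⟨p1, fun p0 hp0 γ P₀ X j₀ Kb hK0 hK => All.mono (fun u τ hh hb f K hf hK1 => ?_)
    (h1 p0 hp0 γ P₀ X j₀ Kb hK0 hK)⟩
  refine hh hb (fun q => f q / q) (F3 f K) (fun q hq => ?_) (fun q hq a b ha hb => ?_)
  · obtain ⟨a1, a2⟩ := hf q hq
    have hq0 : (0:ℝ) < q := by
      have : 0 < q := by omega
      exact_mod_cast this
    refine ⟨by positivity, ?_⟩
    rw [div_mul_cancel₀ _ hq0.ne']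
    exact a2
  · obtain ⟨a1, a2⟩ := hf q hq
    have hq0 : (0:ℝ) < q := by
      have : 0 < q := by omega
      exact_mod_cast this
    unfold F3
    refine mul_le_mul_of_nonneg_left (add_le_add ?_ ?_) (by positivity)
    · exact bil_le_E2 (hK1 q) ha
    · exact bil_le_E2 (hK1 q) hb

/-- `(log q)^S ≤ q` -/
lemma log_pow_le (S : ℝ) : ∃ p₁ : ℕ, ∀ q ≥ p₁, Real.log (q : ℝ) ^ S ≤ q := by
  have hlit := (isLittleO_log_rpow_rpow_atTop S (show (0 : ℝ) < 1 by norm_num)).bound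
    (show (0 : ℝ) < 1 by norm_num)
  obtain ⟨x, hx⟩ := Filter.eventually_atTop.1 (hlit.natCast_atTop)
  refine ⟨x + 3, fun q hq => ?_⟩
  have h := hx q (by omega)
  have hq0 : (0:ℝ) < q := by
    have : 0 < q := by omega
    exact_mod_cast this
  have hl := Real.log_natCast_nonneg q
  rw [Real.norm_eq_abs, Real.norm_eq_abs, Real.rpow_one, one_mul,
    abs_of_nonneg (Real.rpow_nonneg hl _), abs_of_nonneg hq0.le] at h
  exact h

/-- **the energies of the children, rate `1/q²`** -/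
theorem ctx_F3inv (N : Skel189.Num) {M e : ℝ} (hM : 0 ≤ M) (he : 0 ≤ e) {ε : ℝ} (hε : 0 < ε) :
    ∃ p₁ : ℕ, ∀ p0 ≥ p₁, ∀ (γ : ℝ) (P₀ : ℕ) (X : Ctx N γ p0 P₀) (j₀ : X.c.Lam) (Kb : ℝ), 0 ≤ Kb →
      Kb ≤ M * Real.log p0 ^ e →
      All (fun u τ => BootF X j₀ (fun _ _ => 0) Kb u τ → ∀ (K : ℕ → X.c.Lam → X.c.Lam → ℝ),
        (∀ q i j, K q i j ≤ 1) →
        ts (F3 (fun q => 1 / (q : ℝ)) K) (tX X u τ) ≤ ε * X.mu j₀ u τ Finset.univ)
        ⟨top X.S, 1, 1, 1⟩ X.c.t := by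
  obtain ⟨p1, h1⟩ := ctx_F3 N hM he hε
  obtain ⟨p2, h2⟩ := log_pow_le (SB N e)
  refine ⟨p1 + p2, fun p0 hp0 γ P₀ X j₀ Kb hK0 hK => All.mono (fun u τ hh hb K hK1 => ?_)
    (h1 p0 (by omega) γ P₀ X j₀ Kb hK0 hK)⟩
  refine hh hb _ K (fun q hq => ⟨by positivity, ?_⟩) hK1
  have hq0 : (0:ℝ) < q := by
    have : 0 < q := by omega
    exact_mod_cast this
  rw [one_div_mul_eq_div, div_le_one hq0]
  exact h2 q (by omega)

end Crest.Agent.R4P.EnC48
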