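import Crest.Agent.R4P.AsC_407
import Crest.Agent.R4P.EnC_48

/-!
R4 (S0004) with powers, T3, helper407: **the game of a rule with one price list**, all the births are of
second order.

* `TA` : all the pairs (not flagged); no linear births;
* `θA p = (1 + log p)⁻²`, `τA`, `tA`, **`sum_cA : ∑_{n < P} 40 θA n / (n - 1) ≤ 80`**, `UA` : the constant line;
* **`SDat`** (a rule `RF X`, class changes `VDat`, no related pairs) → **`SDat.ld : LDat`**, `SDat.gm`,
  **`SDat.rho_le`** : credits `≤ ∑ (V.f + Vo.f + Vc.f) + 240`, `avg_rho`, `vCS_zero`, **`vX_eq`**.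
-/


set_option autoImplicit false
set_option linter.unusedSectionVars false
set_option linter.unusedVariables false
open MeasureTheory Filter Set

namespace Crest.Agent.R4P.AsE407

open Crest.Agent.R4.Tour104 Crest.Agent.R4.Tour758 Crest.Agent.R4.Clos758 Crest.Agent.R4.ClosL758
open Crest.Agent.R4P.Grp36 Crest.Agent.R4P.GWa343 Crest.Agent.R4P.GWb343
open Crest.Agent.R4P.GWc343 hiding SB
open Crest.Agent.R4P.GWd343 Crest.Agent.R4P.GCol27 Crest.Agent.R4P.TrR343
open Crest.Agent.R4P.DTp26 Crest.Agent.R4P.VR407 Crest.Agent.R4P.Bp407 Crest.Agent.R4P.MSd343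
open Crest.Agent.R4P.DTm407 Crest.Agent.R4P.DTn407 Crest.Agent.R4P.DTn407.TD'
open Crest.Agent.R4P.DTo407 Crest.Agent.R4P.DTo407.TD'
open Crest.Agent.R4P.DTe407 hiding ch_mul
open Crest.Agent.R4P.DTs407
open Crest.Agent.R4P.Walk560 (DT)
open Crest.Agent.R4P.RXm55 Crest.Agent.R4P.MSm25 Crest.Agent.R4P.RSys343
open Crest.Agent.R4P.BthR48 Crest.Agent.R4P.BthS48 Crest.Agent.R4P.BthT48 Crest.Agent.R4P.BthU48
open Crest.Agent.R4P.BthW48
open Crest.Agent.R4.Avg758 Crest.Agent.R4.ClosG758 Crest.Agent.R4.ClosR758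
open Crest.Agent.R4P.ClosR442 Crest.Agent.R4P.Xfer36 Crest.Agent.R4P.TopC36 Crest.Agent.R4P.PN36
open Crest.Agent.R4P.GWf343 Crest.Agent.R4P.GWg343
open Crest.Agent.R4P.Cnt588 Crest.Agent.R4P.Item758 Crest.Agent.R4P.W363
open Crest.Agent.R4P.Bld532 (NS All NodeOk Bk)
open Crest.Agent.R4P.WalkIT579 (tp isL)
open Crest.Agent.R4P.StratN36 (ex)
open Crest.Agent.R4P.Step588 Crest.Agent.R4P.RseSt23
open Crest.Agent.R4P.TYI47 Crest.Agent.R4P.TYJ47 Crest.Agent.R4P.TYK47 Crest.Agent.R4P.TYP9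
open Crest.Agent.R4P.RsT47
open Crest.Agent.R4P.StE6 Crest.Agent.R4P.StF6 Crest.Agent.R4P.StG6 Crest.Agent.R4P.StJ6
open Crest.Agent.R4P.StB21 (LvF)
open Crest.Agent.R4P.PayR45 (BM PV)
open Crest.Agent.R4P.PVe45 (LB Cr)
open Crest.Agent.R4P.MSi343 (su)
open Crest.Agent.R4P.Skel189 Crest.Agent.R4P.Frame758 Crest.Agent.R4P.Data758
open Crest.Agent.R4.Soft104 Crest.Agent.R4.Fam464
open Crest.Agent.R4P.StratX36 Crest.Agent.R4P.TopX36
open Crest.Agent.R4P.RGf25 Crest.Agent.R4P.RGp25 Crest.Agent.R4P.RGd25 Crest.Agent.R4P.Prc49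
open Crest.Agent.R4P.Pay349 Crest.Agent.R4P.BthL48
open Crest.Agent.R4P.E3V479
open Crest.Agent.R4P.E3X479 hiding diX
open Crest.Agent.R4P.AsB407 Crest.Agent.R4P.EvC47 Crest.Agent.R4P.CrZ41
open Crest.Agent.R4P.AsC407

/-! ### the constant line -/

section num

/-- the rates of the second order births -/
noncomputable def θA (p : ℕ) : ℝ := 1 / (1 + Real.log p) ^ 2

lemma one_log (p : ℕ) : 1 ≤ 1 + Real.log p := by
  have := Real.log_natCast_nonneg p
  linarith

lemma θA_pos (p : ℕ) : 0 < θA p := by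
  have := one_log p
  unfold θA
  positivity

lemma θA_le (p : ℕ) : θA p ≤ 1 := by
  have h := one_log p
  unfold θA
  rw [div_le_one (by positivity)]
  nlinarith

/-- exponent of the cut -/
noncomputable def sA (N : Skel189.Num) : ℝ := EnC48.SB N N.c2 + (N.C1 + 3 * N.c2 + 1)

lemma SB_le_sA (N : Skel189.Num) : EnC48.SB N N.c2 ≤ sA N := by
  have := N.hC1
  have := N.hc2
  unfold sA
  linarith

/-- the cut of the second order births -/
noncomputable def τA (N : Skel189.Num) (p : ℕ) : ℝ := (1 + Real.log p) ^ (sA N + 2)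

/-- the factor of the second order pairs -/
noncomputable def tA (N : Skel189.Num) (p : ℕ) : ℝ := 280 * (1 + Real.log p) ^ (sA N + 4)

lemma τA_pos (N : Skel189.Num) (p : ℕ) : 0 < τA N p := by
  have := one_log p
  unfold τA
  positivity

lemma tA_pos (N : Skel189.Num) (p : ℕ) : 0 < tA N p := by
  have := one_log p
  unfold tA
  positivity

/-- `280 τ / θ = t` -/
lemma τA_div (N : Skel189.Num) (p : ℕ) : 280 * (τA N p / θA p) = tA N p := by
  have h := one_log p
  have h0 : 0 < 1 + Real.log p := by linarith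
  unfold τA tA θA
  rw [div_div_eq_mul_div, div_one, ← Real.rpow_natCast (1 + Real.log p) 2,
    ← Real.rpow_add h0]
  congr 2
  push_cast
  ring

/-- `1 / (θ τ) = (1 + log p)^(-sA)` -/
lemma θτA (N : Skel189.Num) (p : ℕ) :
    1 / (θA p * τA N p) = (1 + Real.log p) ^ (-(sA N)) := by
  have h := one_log p
  have h0 : 0 < 1 + Real.log p := by linarith
  unfold τA θA
  rw [one_div_mul_eq_div, one_div_div, ← Real.rpow_natCast (1 + Real.log p) 2,
    ← Real.rpow_sub h0]
  congr 1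
  push_cast
  ring

/-- the factors of the children energies: `1 / t`, `1 / (θ τ)` -/
lemma inv_le (N : Skel189.Num) {p : ℕ} (hS : 0 ≤ EnC48.SB N N.c2) (hp : 2 ≤ p) :
    1 / (θA p * τA N p) * Real.log p ^ EnC48.SB N N.c2 ≤ 1 ∧
      1 / tA N p * Real.log p ^ EnC48.SB N N.c2 ≤ 1 := by
  have h := one_log p
  have h0 : 0 < 1 + Real.log p := by linarith
  have hl : 0 ≤ Real.log p := Real.log_natCast_nonneg p
  have h1 : Real.log p ^ EnC48.SB N N.c2 ≤ (1 + Real.log p) ^ EnC48.SB N N.c2 :=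
    Real.rpow_le_rpow hl (by linarith) hS
  have h4 : (1 + Real.log p) ^ EnC48.SB N N.c2 ≤ (1 + Real.log p) ^ sA N :=
    Real.rpow_le_rpow_of_exponent_le h (SB_le_sA N)
  have h2 : 0 < (1 + Real.log p) ^ sA N := Real.rpow_pos_of_pos h0 _
  constructor
  · rw [θτA, Real.rpow_neg h0.le, inv_mul_le_iff₀ h2, mul_one]
    exact h1.trans h4
  · have h3 : (1 + Real.log p) ^ sA N ≤ tA N p := by
      have h5 : (1 + Real.log p) ^ sA N ≤ (1 + Real.log p) ^ (sA N + 4) :=
        Real.rpow_le_rpow_of_exponent_le h (by linarith)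
      have h6 : 0 < (1 + Real.log p) ^ (sA N + 4) := Real.rpow_pos_of_pos h0 _
      unfold tA
      linarith
    rw [one_div, inv_mul_le_iff₀ (tA_pos N p), mul_one]
    exact (h1.trans h4).trans h3

/-- the price of the column `n` -/
noncomputable def cA (n : ℕ) : ℝ := if n = 0 then 0 else 40 * θA n * (1 / ((n : ℝ) - 1))

lemma cA_nonneg (n : ℕ) : 0 ≤ cA n := by
  unfold cA
  split_ifs with h
  · exact le_rfl
  · have h1 : (1 : ℝ) ≤ n := by exact_mod_cast Nat.one_le_iff_ne_zero.2 h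
    have h2 := (θA_pos n).le
    have h3 : 0 ≤ 1 / ((n : ℝ) - 1) := by
      apply div_nonneg zero_le_one
      linarith
    positivity

lemma cA_step (n : ℕ) : cA (n + 2) ≤ 80 * (1 / (1 + Real.log (n + 1 : ℕ)) -
    1 / (1 + Real.log (n + 2 : ℕ))) := by
  have a1 : (0 : ℝ) < ((n + 1 : ℕ) : ℝ) := by positivity
  have a2 : (0 : ℝ) < ((n + 2 : ℕ) : ℝ) := by positivity
  have h1 := one_log (n + 1)
  have h2 := one_log (n + 2)
  have e0 : ((n + 2 : ℕ) : ℝ) = ((n + 1 : ℕ) : ℝ) + 1 := by push_cast; ring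
  have hl : 1 / ((n + 2 : ℕ) : ℝ) ≤ Real.log (n + 2 : ℕ) - Real.log (n + 1 : ℕ) := by
    rw [← Real.log_div a2.ne' a1.ne']
    have h := Real.one_sub_inv_le_log_of_pos (div_pos a2 a1)
    have e : 1 - (((n + 2 : ℕ) : ℝ) / ((n + 1 : ℕ) : ℝ))⁻¹ = 1 / ((n + 2 : ℕ) : ℝ) := by
      rw [inv_div, e0]
      field_simp
      ring
    rw [e] at h
    exact h
  have hm : Real.log (n + 1 : ℕ) ≤ Real.log (n + 2 : ℕ) := by
    have : 0 ≤ 1 / ((n + 2 : ℕ) : ℝ) := by positivity
    linarith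
  set A := 1 + Real.log (n + 1 : ℕ) with hA
  set B := 1 + Real.log (n + 2 : ℕ) with hB
  have hAB : A ≤ B := by rw [hA, hB]; linarith
  have hd : 1 / ((n + 2 : ℕ) : ℝ) ≤ B - A := by rw [hA, hB]; linarith
  have pA : 0 < A := by linarith
  have pB : 0 < B := by linarith
  have e1 : 1 / A - 1 / B = (B - A) / (A * B) := by field_simp
  rw [e1]
  have hn : (n + 2) ≠ 0 := by omega
  unfold cA
  rw [if_neg hn]
  unfold θA
  rw [← hB]
  have e2 : ((n + 2 : ℕ) : ℝ) - 1 = ((n + 1 : ℕ) : ℝ) := by rw [e0]; ring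
  rw [e2]
  have h3 : 1 / ((n + 1 : ℕ) : ℝ) ≤ 2 * (1 / ((n + 2 : ℕ) : ℝ)) := by
    rw [mul_one_div, div_le_div_iff₀ a1 a2]
    have : (1 : ℝ) ≤ ((n + 1 : ℕ) : ℝ) := by exact_mod_cast Nat.succ_pos n
    rw [e0]; linarith
  have h4 : 1 / B ^ 2 ≤ 1 / (A * B) := by
    apply one_div_le_one_div_of_le (mul_pos pA pB)
    nlinarith
  calc 40 * (1 / B ^ 2) * (1 / ((n + 1 : ℕ) : ℝ))
      ≤ 40 * (1 / (A * B)) * (2 * (B - A)) := by
        refine mul_le_mul (mul_le_mul_of_nonneg_left h4 (by norm_num)) (h3.trans ?_)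
          (by positivity) (by positivity)
        linarith
    _ = 80 * ((B - A) / (A * B)) := by ring

/-- **the constant line is finite** -/
theorem sum_cA (P : ℕ) : ∑ n ∈ Finset.range P, cA n ≤ 80 := by
  have key : ∀ m : ℕ, ∑ n ∈ Finset.range (m + 2), cA n ≤
      80 * (1 - 1 / (1 + Real.log (m + 1 : ℕ))) := by
    intro m
    induction m with
    | zero =>
      have e0 : cA 0 = 0 := if_pos rfl
      have e1 : cA 1 = 0 := by
        unfold cA
        rw [if_neg one_ne_zero]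
        norm_num
      rw [Finset.sum_range_succ, Finset.sum_range_succ, Finset.sum_range_zero, e0, e1]
      norm_num
    | succ m ih =>
      rw [Finset.sum_range_succ]
      have h := cA_step m
      have e : (m + 1 + 1 : ℕ) = m + 2 := rfl
      rw [e]
      linarith
  have h1 : ∑ n ∈ Finset.range P, cA n ≤ ∑ n ∈ Finset.range (P + 2), cA n :=
    Finset.sum_le_sum_of_subset_of_nonneg (Finset.range_mono (by omega)) fun n _ _ => cA_nonneg n
  have h2 := key P
  have h3 : 0 ≤ 1 / (1 + Real.log (P + 1 : ℕ)) := by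
    have := one_log (P + 1)
    positivity
  linarith

/-- **the constant line** as events -/
noncomputable def UA (Λ : Type) : Evs Λ where
  E := fun _ _ _ => True
  E' := fun _ _ _ => False
  mE := fun _ _ => MeasurableSet.const _
  mE' := fun _ _ => MeasurableSet.const _
  c := cA
  c' := fun _ => 0
  c0 := cA_nonneg
  c0' := fun _ => le_rfl

lemma UA_f {Λ : Type} (n : ℕ) (j : Λ) (z : ℝ) : (UA Λ).f n j z = 3 * cA n := by
  show 3 * cA n * ind True + 0 * ind False = _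
  rw [ind_on trivial]
  ring

lemma UA_sum {Λ : Type} (P : ℕ) (j : Λ) (z : ℝ) :
    ∑ n ∈ Finset.range P, (UA Λ).f n j z ≤ 240 := by
  simp only [UA_f]
  rw [← Finset.mul_sum]
  have := sum_cA P
  linarith

end num

/-! ### the game -/

section game
variable {N : Skel189.Num} {γ : ℝ} {p0 P₀ : ℕ} {X : Ctx N γ p0 P₀} {Q : NS → IT → Prop} {C : ℝ}
  {n : ℕ}

/-- **second order pairs** : all the pairs (not flagged) -/
def TA (r : RF X) : ℕ → Me × List (DT X.c.Lam (LbX X)) → ℝ → X.c.Lam → X.c.Lam → Prop :=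
  fun p b y j _ => r.D.lt p b.1 y j ≠ none

lemma MP_lt (r : RF X) (p : ℕ) (m : Me) (j : X.c.Lam) : MP fun y => r.D.lt p m y j :=
  MP_tpF (tuM p m) j

lemma MP_TA (r : RF X) {p : ℕ} {b : Me × List (DT X.c.Lam (LbX X))} (j i : X.c.Lam) :
    MP fun y => TA r p b y j i := (MP_lt r p b.1 j).map fun z => z ≠ none

/-- **data of a game** : rule, class changes `v` (all at the rests), groups of the lifts -/
structure SDat (X : Ctx N γ p0 P₀) (Q : NS → IT → Prop) (C : ℝ) (n : ℕ) (cf : CtxF X Q) where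
  r : RF X
  /-- class changes -/
  v : VDat X Q C r
  /-- groups of the lifts; no related pairs (`R3 = False`) -/
  gr : ℕ → X.c.Lam → Option r.ζ × Option r.ζ → Fin n
  hgr : ∀ p i u v, gr p i u = gr p i v → (u.1 = none ↔ v.1 = none)

/-- no related pairs -/
def R30 {Λ : Type} : PR Me Λ := fun _ _ _ _ _ => False

namespace SDat
variable {cf : CtxF X Q} (G : SDat X Q C n cf)

/-- **the data with linear prices** -/
noncomputable def ld : LDat X Q C n cf where
  r := G.r
  T := TA G.r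
  Lo := fun _ _ _ _ => True
  mT := fun _ _ j i => MP_TA G.r j i
  mL := fun _ _ _ => MP.const _
  θ := θA
  τ := τA N
  θ0 := θA_pos
  τ0 := τA_pos N
  Rb := fun _ _ _ _ => False
  Sb := fun _ _ _ _ => False
  pR := fun _ _ _ _ => rfl
  pS := fun _ _ _ _ => rfl
  hX := fun {p b} hb hp y j i h hA hB hT => by
    exfalso
    have h1 : G.r.D.lt p b.1 y j = none := not_not.1 hT
    have h2 := (tie_flg (F := G.r.F) cf.hQ hb hp (Or.inl hA) (Or.inr hB)).1 (tpF_none.1 h1)
    exact h.2 ((tpF_none.2 h2).trans h1.symm)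
  hN := fun hb hp y j i h hz hA hB hw hT => absurd hz hT
  hLS := fun _ _ _ _ _ _ _ _ _ _ _ _ _ h => h trivial
  v := G.v
  ι := Unit
  W := fun _ => UA X.c.Lam
  l := [()]
  wN := fun {p b} hb hp j x hg hB => by
    have e1 : ch False (1:ℝ) = 0 := ch_off id
    have e2 : ([()].map fun _ : Unit => (UA X.c.Lam).c p *
        ind ((UA X.c.Lam).E p j (zb X.c p b.1 x j))).sum = cA p * ind True := by
      simp only [List.map_cons, List.map_nil, List.sum_cons, List.sum_nil, add_zero]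
      rfl
    rw [e1, e2]
    have h1 := mul_nonneg (cA_nonneg p) (ind_nonneg True)
    linarith
  wP := fun {p b} hb hp j x hA hv => by
    have e1 : ch False (1:ℝ) = 0 := ch_off id
    have e2 : ([()].map fun _ : Unit => (UA X.c.Lam).c p *
        ind ((UA X.c.Lam).E p j (zb X.c p b.1 x j))).sum = cA p * ind True := by
      simp only [List.map_cons, List.map_nil, List.sum_cons, List.sum_nil, add_zero]
      rfl
    have e3 : cA p = 40 * θA p * (1 / ((p : ℝ) - 1)) := if_neg hp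
    rw [e1, e2, ind_on trivial, e3]
    linarith
  gr := G.gr
  hgr := G.hgr
  R3 := R30
  mR3 := fun _ _ _ _ => MP.const False

/-- **the game** -/
noncomputable abbrev gm : Gm X Q C n := G.ld.gd.gm

/-- the sum of the prices of an item -/
noncomputable def vf (P : ℕ) (j : X.c.Lam) (z : ℝ) : ℝ :=
  ∑ n ∈ Finset.range P, (G.v.V.f n j z + G.v.Vo.f n j z + G.v.Vc.f n j z)

/-- **the credits** -/
theorem rho_le (p : ℕ) (b : Me × List (DT X.c.Lam (LbX X))) (j : X.c.Lam) (x : ℝ) :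
    G.gm.Z1.ρ p b j x ≤ ∑ n ∈ Finset.range (p + 1), (G.v.V.f n j (zb X.c p b.1 x j) +
      G.v.Vo.f n j (zb X.c p b.1 x j) + G.v.Vc.f n j (zb X.c p b.1 x j)) + 240 := by
  set z := zb X.c p b.1 x j with hz
  have e : G.gm.Z1.ρ p b j x = (G.v.V.G p (rem p b.1 j.1.1) j z +
      (G.v.Vo.G p (rem p b.1 j.1.1) j z + G.v.Vc.G p (rem p b.1 j.1.1) j z)) +
      ((UA X.c.Lam).G p (rem p b.1 j.1.1) j z + 0) := rfl
  rw [e]
  have h1 := G.v.V.G_le (p := p) (rem_le p b.1 j.1.1) j z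
  have h2 := G.v.Vo.G_le (p := p) (rem_le p b.1 j.1.1) j z
  have h4 := G.v.Vc.G_le (p := p) (rem_le p b.1 j.1.1) j z
  have h3 := (UA X.c.Lam).G_le (p := p) (rem_le p b.1 j.1.1) j z
  have h5 := UA_sum (Λ := X.c.Lam) (p + 1) j z
  rw [Finset.sum_add_distrib, Finset.sum_add_distrib]
  linarith

/-- **no Cauchy-Schwarz credits** -/
theorem vCS_zero (u : NS) (τ : IT) : G.gm.vCS u τ = 0 := G.ld.vCS_zero u τ

/-- **the second order part of the class changes** -/
theorem vX_eq (u : NS) (τ : IT) (k : ℕ) : G.gm.vX u τ k =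
    Crest.Agent.R4P.GSK55.Kw (bm G.gm.R) (fun p s => I (G.v.xN cf p s)) k
      (X.self u τ Finset.univ).p (GSK55.one (b₀ X u τ)) := G.ld.vX_eq u τ k

end SDat

/-- **the averaged credits of a family** -/
theorem avg_rho {cf : CtxF X Q} {A : Type} [Fintype A] {ω : A → ℝ} (ω0 : ∀ i, 0 ≤ ω i)
    (ω1 : ∑ i, ω i = 1) (G : A → SDat X Q C n cf) {J : ℝ} {p : ℕ}
    {b : Me × List (DT X.c.Lam (LbX X))} {j : X.c.Lam} {x : ℝ}
    (h : ∑ i, ω i * ∑ n ∈ Finset.range (p + 1), ((G i).v.V.f n j (zb X.c p b.1 x j) +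
      (G i).v.Vo.f n j (zb X.c p b.1 x j) + (G i).v.Vc.f n j (zb X.c p b.1 x j)) ≤ J) :
    ∑ i, ω i * (G i).gm.Z1.ρ p b j x ≤ J + 240 := by
  have h1 : ∀ i, ω i * (G i).gm.Z1.ρ p b j x ≤
      ω i * ∑ n ∈ Finset.range (p + 1), ((G i).v.V.f n j (zb X.c p b.1 x j) +
      (G i).v.Vo.f n j (zb X.c p b.1 x j) + (G i).v.Vc.f n j (zb X.c p b.1 x j)) + 240 * ω i :=
    fun i => by
      have := mul_le_mul_of_nonneg_left ((G i).rho_le p b j x) (ω0 i)
      linarith
  have h2 := Finset.sum_le_sum fun i (_ : i ∈ Finset.univ) => h1 i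
  rw [Finset.sum_add_distrib, ← Finset.mul_sum, ω1] at h2
  linarith

/-- content at a point of the tie above a P piece -/
lemma pA_tie (cf : CtxF X Q) (r : RF X) {p : ℕ} {b : Me × List (DT X.c.Lam (LbX X))}
    (h : InvM X Q C p b) (hp : p ≠ 0)
    {j : X.c.Lam} {y : ℝ} (hA : pA (bB p b.2) j y ≠ 0) :
    ∃ i : ℕ, i < p ∧ jv (bB p b.2) j ((y + i) / p) ≠ 0 := by
  by_contra hc
  push Not at hc
  have h0 : ∀ i : ℕ, i < p → vT p (bB p b.2) j ((y + i) / p) = 0 := fun i hi => by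
    by_contra hv
    exact LDat.pQ_vT h hp hv (hc i hi)
  have hr := P_rate (r.H (C := C) cf) h hp (E := fun _ i => ch (i = j) 1)
    (fun _ _ => ch_nonneg zero_le_one) (fun _ _ => rfl) y
  have e1 : ∑ i, ch (i = j) (1:ℝ) * pA (bB p b.2) i y = pA (bB p b.2) j y := by
    rw [Finset.sum_eq_single j]
    · rw [ch_on rfl, one_mul]
    · intro i _ hi
      rw [ch_off hi, zero_mul]
    · intro hj
      exact absurd (Finset.mem_univ j) hj
  have e2 : ∑ i, Ep p (fun x => 1 / ((p : ℝ) - 1) * ch (i = j) 1 * vT p (bB p b.2) i x) y = 0 := by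
    refine Finset.sum_eq_zero fun i _ => ?_
    unfold Ep
    rw [Finset.sum_eq_zero, zero_div]
    intro k hk
    have hk' : k < p := Finset.mem_range.1 hk
    by_cases hi : i = j
    · subst hi
      show _ * vT p (bB p b.2) i ((y + k) / p) = 0
      rw [h0 k hk', mul_zero]
    · show 1 / ((p : ℝ) - 1) * ch (i = j) 1 * vT p (bB p b.2) i ((y + k) / p) = 0
      rw [ch_off hi, mul_zero, zero_mul]
  rw [e1, e2] at hr
  have hpp : (0:ℝ) < p := by exact_mod_cast Nat.pos_of_ne_zero hp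
  have hA0 : 0 ≤ pA (bB p b.2) j y := ((r.H (C := C) cf).bok h hp).PA j |>.nonneg y
  have : 0 < pA (bB p b.2) j y := lt_of_le_of_ne hA0 (Ne.symm hA)
  have h3 : 0 < 1 / (p : ℝ) * pA (bB p b.2) j y := by positivity
  linarith

end game

end Crest.Agent.R4P.AsE407
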