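import Crest.Agent.R4P.AsD_407

/-!
R4 (S0004) with powers, T3, helper50: **the trivial fields of `AsD407.FmK`** for a family of games with linear
prices (`AsC407.LDat`) and without excepted pairs.

* `bd_zero`; **`vGp_zero`** : no excepted pairs ⟹ `vGp = 0`; `bd_Gp` : the field `hGp`;
* **`LDat.bd_X`**, **`LDat.bd_CS`** : the fields `hX`, `hCS`; `hsd_ld` : the field `hsd`;
* `avg_crS`, `avg_crA`: averages of sums of credits; **`LDat.avg_Z1`** : the field `hρ` from the averages of the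
  credits of the moves (`V`) and of the births (`W`);
* `EvL` (a system of events dominated by a list of systems, prices included), **`EvL.ρ_le`**, `EvL.avg` : credits
  of the dominated system; `unV` : the union of a list of systems with one price.
-/

set_option autoImplicit false
set_option linter.unusedSectionVars false
set_option linter.unusedVariables false
open MeasureTheory Filter Set

namespace Crest.Agent.R4P.AsF50

open Crest.Agent.R4.Tour104 Crest.Agent.R4.Tour758 Crest.Agent.R4.Avg758 Crest.Agent.R4.Clos758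
open Crest.Agent.R4.ClosL758 Crest.Agent.R4.ClosG758 Crest.Agent.R4.ClosR758
open Crest.Agent.R4P.ClosR442 Crest.Agent.R4P.Grp36
open Crest.Agent.R4P.Xfer36 Crest.Agent.R4P.TopC36 Crest.Agent.R4P.PN36
open Crest.Agent.R4P.GWa343 Crest.Agent.R4P.GWb343
open Crest.Agent.R4P.GWc343 Crest.Agent.R4P.GWd343 Crest.Agent.R4P.GWf343 Crest.Agent.R4P.TrR343
open Crest.Agent.R4P.RXm55 Crest.Agent.R4P.MSm25
open Crest.Agent.R4P.VR407 Crest.Agent.R4P.Bp407 Crest.Agent.R4P.DTm407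
open Crest.Agent.R4P.DTn407 Crest.Agent.R4P.DTo407
open Crest.Agent.R4P.DTp26
open Crest.Agent.R4P.Cnt588 Crest.Agent.R4P.Item758
open Crest.Agent.R4P.Bld532 (NS All NodeOk)
open Crest.Agent.R4P.WalkIT579 (tp isL toDT_top toDT_leaf)
open Crest.Agent.R4P.Walk560 (DT WrN)
open Crest.Agent.R4P.Step588 Crest.Agent.R4P.RseSt23
open Crest.Agent.R4P.TYI47 Crest.Agent.R4P.TYJ47 Crest.Agent.R4P.TYK47 Crest.Agent.R4P.TYP9
open Crest.Agent.R4P.RsT47
open Crest.Agent.R4P.GSK55 (stp gk Pr Kw Kw_succ Kw_z Kw_mono one one_TC one_su)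
open Crest.Agent.R4P.PayR45 (BM BCh PV)
open Crest.Agent.R4P.PVd45 (DI)
open Crest.Agent.R4P.PVe45 (LB Cr)
open Crest.Agent.R4P.MSi343 (su)
open Crest.Agent.R4P.Skel189 Crest.Agent.R4P.Frame758 Crest.Agent.R4P.Data758
open Crest.Agent.R4.Soft104 Crest.Agent.R4.Fam464
open Crest.Agent.R4P.StratX36 Crest.Agent.R4P.TopX36
open Crest.Agent.R4P.AsB407 Crest.Agent.R4P.AsC407 Crest.Agent.R4P.AsD407
open Crest.Agent.R4P.EvC47 Crest.Agent.R4P.CrZ41

/-! ### systems of events dominated by other systems -/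

section evl
variable {Λ ι : Type} {V : Evs Λ} {W : ι → Evs Λ} {l : List ι}

/-- **the system `V` is dominated by the list `l` of systems** (events with their prices) -/
structure EvL (V : Evs Λ) (W : ι → Evs Λ) (l : List ι) : Prop where
  e : ∀ n j z, V.c n * ind (V.E n j z) ≤ (l.map fun i => (W i).c n * ind ((W i).E n j z)).sum
  e' : ∀ n j z, V.c' n * ind (V.E' n j z) ≤
    (l.map fun i => (W i).c' n * ind ((W i).E' n j z)).sum

lemma sum_mapL {f g : ι → ℝ} (a b : ℝ) :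
    a * (l.map f).sum + b * (l.map g).sum = (l.map fun i => a * f i + b * g i).sum := by
  induction l with
  | nil => simp
  | cons i l ih => simp only [List.map_cons, List.sum_cons]; rw [← ih]; ring

lemma sum_fin {s : Finset ℕ} (f : ι → ℕ → ℝ) :
    ∑ n ∈ s, (l.map fun i => f i n).sum = (l.map fun i => ∑ n ∈ s, f i n).sum := by
  induction l with
  | nil => simp
  | cons i l ih => simp only [List.map_cons, List.sum_cons, Finset.sum_add_distrib, ih]

/-- prices of a column -/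
lemma EvL.f_le (h : EvL V W l) (n : ℕ) (j : Λ) (z : ℝ) :
    V.f n j z ≤ (l.map fun i => (W i).f n j z).sum := by
  have h1 := h.e n j z
  have h2 := h.e' n j z
  have e : (l.map fun i => (W i).f n j z) =
      l.map fun i => 3 * ((W i).c n * ind ((W i).E n j z)) +
        1 * ((W i).c' n * ind ((W i).E' n j z)) :=
    List.map_congr_left fun i _ => by unfold Evs.f; ring
  rw [e, ← sum_mapL 3 1]
  unfold Evs.f
  linarith

/-- **credits of a column** -/
lemma EvL.G_le (h : EvL V W l) (p k : ℕ) (j : Λ) (z : ℝ) :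
    V.G p k j z ≤ (l.map fun i => (W i).G p k j z).sum := by
  have h1 := h.e p j z
  have h2 := h.e' p j z
  have h3 := Finset.sum_le_sum fun n (_ : n ∈ Finset.range p) => h.f_le n j z
  rw [sum_fin] at h3
  have e : (l.map fun i => (W i).G p k j z) =
      l.map fun i => 1 * (∑ n ∈ Finset.range p, (W i).f n j z) +
        1 * ((k : ℝ) * ((W i).c p * ind ((W i).E p j z)) +
          1 * ((W i).c' p * ind ((W i).E' p j z))) :=
    List.map_congr_left fun i _ => by unfold Evs.G; ring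
  rw [e, ← sum_mapL 1 1, ← sum_mapL (k : ℝ) 1]
  unfold Evs.G
  have h4 := mul_le_mul_of_nonneg_left h1 (Nat.cast_nonneg (α := ℝ) k)
  linarith

/-- the list itself -/
lemma EvL.refl (i : ι) : EvL (W i) W [i] := ⟨fun _ _ _ => by simp, fun _ _ _ => by simp⟩

lemma le_sum_of_mem {f : ι → ℝ} (h0 : ∀ i, 0 ≤ f i) {i : ι} (hi : i ∈ l) : f i ≤ (l.map f).sum := by
  induction l with
  | nil => simp at hi
  | cons k l ih =>
    simp only [List.map_cons, List.sum_cons]
    have hs : 0 ≤ (l.map f).sum := List.sum_nonneg fun x hx => by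
      obtain ⟨i, -, rfl⟩ := List.mem_map.1 hx
      exact h0 i
    rcases List.mem_cons.1 hi with e | hi
    · subst e; linarith
    · have := ih hi
      have := h0 k
      linarith

/-- **union of a list of systems** with the prices `κ`, `κ'` -/
def unV (W : ι → Evs Λ) (l : List ι) (κ κ' : ℝ) (hκ : 0 ≤ κ) (hκ' : 0 ≤ κ') : Evs Λ where
  E := fun n j z => ∃ i ∈ l, (W i).E n j z
  E' := fun n j z => ∃ i ∈ l, (W i).E' n j z
  mE := fun n j => by
    have e : {z | ∃ i ∈ l, (W i).E n j z} = ⋃ i ∈ {i | i ∈ l}, {z | (W i).E n j z} := by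
      ext z; simp
    rw [e]
    exact MeasurableSet.biUnion (List.finite_toSet l).countable fun i _ => (W i).mE n j
  mE' := fun n j => by
    have e : {z | ∃ i ∈ l, (W i).E' n j z} = ⋃ i ∈ {i | i ∈ l}, {z | (W i).E' n j z} := by
      ext z; simp
    rw [e]
    exact MeasurableSet.biUnion (List.finite_toSet l).countable fun i _ => (W i).mE' n j
  c := fun _ => κ
  c' := fun _ => κ'
  c0 := fun _ => hκ
  c0' := fun _ => hκ'

/-- **the union is dominated by the list** if the prices of the members are at least `κ`, `κ'` on their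
events -/
theorem unV_le {κ κ' : ℝ} {hκ : 0 ≤ κ} {hκ' : 0 ≤ κ'}
    (h : ∀ i ∈ l, ∀ n j z, (W i).E n j z → κ ≤ (W i).c n)
    (h' : ∀ i ∈ l, ∀ n j z, (W i).E' n j z → κ' ≤ (W i).c' n) :
    EvL (unV W l κ κ' hκ hκ') W l := by
  refine ⟨fun n j z => ?_, fun n j z => ?_⟩
  · have h0 : ∀ i, 0 ≤ (W i).c n * ind ((W i).E n j z) := fun i =>
      mul_nonneg ((W i).c0 n) (ind_nonneg _)
    by_cases hE : ∃ i ∈ l, (W i).E n j z
    · obtain ⟨i, hi, hz⟩ := hE
      refine le_trans ?_ (le_sum_of_mem h0 hi)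
      show κ * ind (∃ i ∈ l, (W i).E n j z) ≤ _
      rw [ind_on ⟨i, hi, hz⟩, ind_on hz, mul_one, mul_one]
      exact h i hi n j z hz
    · show κ * ind (∃ i ∈ l, (W i).E n j z) ≤ _
      rw [ind_off hE, mul_zero]
      exact List.sum_nonneg fun x hx => by
        obtain ⟨i, -, rfl⟩ := List.mem_map.1 hx
        exact h0 i
  · have h0 : ∀ i, 0 ≤ (W i).c' n * ind ((W i).E' n j z) := fun i =>
      mul_nonneg ((W i).c0' n) (ind_nonneg _)
    by_cases hE : ∃ i ∈ l, (W i).E' n j z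
    · obtain ⟨i, hi, hz⟩ := hE
      refine le_trans ?_ (le_sum_of_mem h0 hi)
      show κ' * ind (∃ i ∈ l, (W i).E' n j z) ≤ _
      rw [ind_on ⟨i, hi, hz⟩, ind_on hz, mul_one, mul_one]
      exact h' i hi n j z hz
    · show κ' * ind (∃ i ∈ l, (W i).E' n j z) ≤ _
      rw [ind_off hE, mul_zero]
      exact List.sum_nonneg fun x hx => by
        obtain ⟨i, -, rfl⟩ := List.mem_map.1 hx
        exact h0 i

end evl

section ctx
variable {N : Skel189.Num} {γ : ℝ} {p0 P₀ : ℕ} {X : Ctx N γ p0 P₀} {j₀ : X.c.Lam}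
  {u : NS} {τ : IT} {Q : NS → IT → Prop} {C : ℝ} {n : ℕ} {a ϑ : ℝ}

/-! ### the form `Bd` -/

lemma bd_zero (ha : 0 ≤ a) (hϑ : 0 ≤ ϑ) (hμ : 0 ≤ X.mu j₀ u τ Finset.univ) :
    Bd X j₀ u τ a ϑ 0 := by
  unfold Bd
  have I2 : 0 ≤ I (fun x => tt Finset.univ (X.g u τ) x ^ 2) := I_nonneg fun x => sq_nonneg _
  have m0 : 0 ≤ X.mu j₀ u τ Finset.univ + X.mu j₀ u τ Finset.univ *
      X.mu j₀ u τ Finset.univ := by positivity
  positivity

/-- a family of zeros -/
lemma bd_zeros {A : Type} [Fintype A] {ω f : A → ℝ} (ha : 0 ≤ a) (hϑ : 0 ≤ ϑ)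
    (hμ : 0 ≤ X.mu j₀ u τ Finset.univ) (hf : ∀ i, f i = 0) :
    Bd X j₀ u τ a ϑ (∑ i, ω i * f i) := by
  have e : ∑ i, ω i * f i = 0 := Finset.sum_eq_zero fun i _ => by rw [hf i, mul_zero]
  rw [e]
  exact bd_zero ha hϑ hμ

/-! ### no excepted pairs -/

/-- **no excepted pairs** -/
theorem vGp_zero (G : Gm X Q C n) (u : NS) (τ : IT) (k : ℕ) :
    vGp G (fun _ _ _ _ _ => False) (fun _ _ _ _ _ => False) u τ k = 0 := by
  unfold vGp
  have e0 : E3Y479.gP X G.D G.gr G.R3 (fun _ _ _ _ _ => False) (fun _ _ _ _ _ => False) =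
      fun _ _ _ => (0 : ℝ) := by
    funext p b b'
    have e1 : ∀ (W : ℝ → X.c.Lam → X.c.Lam → Prop) (V U : X.c.Lam → ℝ → ℝ),
        I (E3V479.qe (fun x j i => W x j i ∧ False) V U) = 0 := by
      intro W V U
      have : E3V479.qe (fun x j i => W x j i ∧ False) V U = fun _ => 0 := funext fun x =>
        E3Y479.qe_zero fun j i h => absurd h.2 id
      rw [this, E3Y479.I_zero]
    unfold E3Y479.gP
    rw [e1, e1, e1, e1]
    ring
  have e2 : E3W479.Ps (β := Me × List (DT X.c.Lam (LbX X))) (fun _ _ _ => (0 : ℝ)) =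
      fun _ _ => 0 := by
    funext p s
    unfold E3W479.Ps
    simp
  rw [e0, e2]
  have h := GSK55.Kw_smul (M := bm G.R) 0 (fun _ _ => (0:ℝ)) k
    (X.self u τ Finset.univ).p (GSK55.one (b₀ X u τ))
  simpa using h

/-- **the field `hGp`**, no excepted pairs -/
theorem bd_Gp {A : Type} [Fintype A] {ω : A → ℝ} (G : A → Gm X Q C n) (ha : 0 ≤ a) (hϑ : 0 ≤ ϑ)
    (hμ : 0 ≤ X.mu j₀ u τ Finset.univ) (k : ℕ) :
    Bd X j₀ u τ a ϑ (∑ i, ω i * vGp (G i) (fun _ _ _ _ _ => False) (fun _ _ _ _ _ => False)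
      u τ k) :=
  bd_zeros ha hϑ hμ fun i => vGp_zero (G i) u τ k

/-! ### games with linear prices -/

variable {cf : CtxF X Q} {A : Type} [Fintype A] {ω : A → ℝ} (F : A → LDat X Q C n cf)

/-- **the field `hsd`** -/
lemma hsd_ld (i : A) : (F i).gd.gm.sd = E3X479.sdX X := rfl

/-- **the field `hX`** -/
theorem bd_X (ha : 0 ≤ a) (hϑ : 0 ≤ ϑ) (hμ : 0 ≤ X.mu j₀ u τ Finset.univ) (k : ℕ) :
    Bd X j₀ u τ a ϑ (∑ i, ω i * (F i).gd.gm.vX u τ k) :=
  bd_zeros ha hϑ hμ fun i => (F i).vX_zero u τ k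

/-- **the field `hCS`** -/
theorem bd_CS (ha : 0 ≤ a) (hϑ : 0 ≤ ϑ) (hμ : 0 ≤ X.mu j₀ u τ Finset.univ) :
    Bd X j₀ u τ a ϑ (∑ i, ω i * (F i).gd.gm.vCS u τ) :=
  bd_zeros ha hϑ hμ fun i => (F i).vCS_zero u τ

/-! ### averages of credits -/

section avg
variable {ζ : A → Type} [∀ i, Fintype (ζ i)] [∀ i, DecidableEq (ζ i)]
  {D : ∀ i, TD Me X.c.Lam (LbX X) (ζ i)} {H : ∀ i, TYp (rhoX X) (D i) (InvM X Q C)}
  {p : ℕ} {b : Me × List (DT X.c.Lam (LbX X))} {j : X.c.Lam} {x : ℝ}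

/-- **averages of a list of credits** (one list of names for all the games) -/
theorem avg_crS {κ : Type} (W : ∀ i, κ → Cr ((lbX (H i)).pv diX)) (l : List κ) {J : κ → ℝ}
    (h : ∀ k ∈ l, ∑ i, ω i * (W i k).ρ p b j x ≤ J k) :
    ∑ i, ω i * (crS (W i) l).ρ p b j x ≤ (l.map J).sum := by
  induction l with
  | nil =>
    have e : ∑ i, ω i * (crS (W i) []).ρ p b j x = 0 := Finset.sum_eq_zero fun i _ => by
      show ω i * 0 = 0
      ring
    rw [e]
    simp
  | cons k l ih =>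
    have h1 := h k (List.mem_cons.2 (Or.inl rfl))
    have h2 := ih fun k' hk' => h k' (List.mem_cons.2 (Or.inr hk'))
    rw [List.map_cons, List.sum_cons]
    exact avg_crA (fun i => W i k) (fun i => crS (W i) l) h1 h2

variable {tu : ∀ i, (D i).tu = tuM} {hQ : ∀ u τ, Q u τ → NDt X.par (w X.ψ) X.c.t u τ}
  {hd1 : X.c.d1 * Kc X.S ≤ 1}

/-- **credits of a dominated system of events** -/
theorem EvL.ρ_le {ζ : Type} [Fintype ζ] [DecidableEq ζ] {D : TD Me X.c.Lam (LbX X) ζ}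
    {H : TYp (rhoX X) D (InvM X Q C)} {tu : D.tu = tuM} {ι : Type} {V : Evs X.c.Lam}
    {W : ι → Evs X.c.Lam} {l : List ι} (h : EvL V W l) (p : ℕ)
    (b : Me × List (DT X.c.Lam (LbX X))) (j : X.c.Lam) (x : ℝ) :
    (crX H tu hQ hd1 V).ρ p b j x ≤ (crS (fun i => crX H tu hQ hd1 (W i)) l).ρ p b j x := by
  rw [crX_ρ, crS_ρ]
  exact h.G_le _ _ _ _

/-- **averages of dominated systems of events** -/
theorem EvL.avg (h0 : ∀ i, 0 ≤ ω i) {κ : Type} {V : A → Evs X.c.Lam} {W : A → κ → Evs X.c.Lam}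
    {l : List κ} (h : ∀ i, EvL (V i) (W i) l) {J : κ → ℝ}
    (hJ : ∀ k ∈ l, ∑ i, ω i * (crX (H i) (tu i) hQ hd1 (W i k)).ρ p b j x ≤ J k) :
    ∑ i, ω i * (crX (H i) (tu i) hQ hd1 (V i)).ρ p b j x ≤ (l.map J).sum :=
  (Finset.sum_le_sum fun i _ => mul_le_mul_of_nonneg_left ((h i).ρ_le p b j x) (h0 i)).trans
    (avg_crS (fun i k => crX (H i) (tu i) hQ hd1 (W i k)) l hJ)

end avg

/-- **the field `hρ`** : the linear credits of a family of games with linear prices, one piece -/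
theorem avg_Z1 {J J' : ℝ} {p : ℕ} {b : Me × List (DT X.c.Lam (LbX X))} {j : X.c.Lam} {x : ℝ}
    (h : ∑ i, ω i * (F i).cv.ρ p b j x ≤ J) (h' : ∑ i, ω i * (F i).cw.ρ p b j x ≤ J') :
    ∑ i, ω i * (F i).gd.gm.Z1.ρ p b j x ≤ J + J' := by
  have e : ∑ i, ω i * (F i).gd.gm.Z1.ρ p b j x =
      ∑ i, ω i * (F i).cv.ρ p b j x + ∑ i, ω i * (F i).cw.ρ p b j x := by
    rw [← Finset.sum_add_distrib]
    refine Finset.sum_congr rfl fun i _ => ?_
    show ω i * ((F i).cv.ρ p b j x + (F i).cw.ρ p b j x) = _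
    ring
  linarith

/-- **the field `hρ`** from the averages of the systems of events; the moves are dominated by a list `M` of
systems -/
theorem hρ_of (h0 : ∀ i, 0 ≤ ω i) {κ : Type} {M : A → κ → Evs X.c.Lam} {lM : List κ}
    (hM : ∀ i, EvL (F i).V (M i) lM) {JM : κ → ℝ} {J' : ℝ} {p : ℕ}
    {b : Me × List (DT X.c.Lam (LbX X))} {j : X.c.Lam} {x : ℝ}
    (h : ∀ k ∈ lM, ∑ i, ω i * (crX ((F i).r.H (C := C) cf) rfl cf.hQ cf.hd1 (M i k)).ρ p b j x ≤
      JM k)
    (h' : ∑ i, ω i * (F i).cw.ρ p b j x ≤ J') :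
    ∑ i, ω i * (F i).gd.gm.Z1.ρ p b j x ≤ (lM.map JM).sum + J' :=
  avg_Z1 F (EvL.avg (H := fun i => (F i).r.H (C := C) cf) (tu := fun _ => rfl) h0 hM h) h'

end ctx

end Crest.Agent.R4P.AsF50
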