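import Crest.Agent.R4P.JnR_5

/-!
R4 (S0004) with powers, T3, helper5: **same-index energies of the children at the column of their
parent** (all the nodes), in the form `sf (KSk X) idk p (toDT child)`.

* `KidE X K u τ` : energies (pairs of one index at the column of `τ`) of the node and of its raw
  children, `≤ K · mass`;
* **`tgtKE_fin`** : `ForN thF SxF TgtKE`.
-/

set_option autoImplicit false
set_option linter.unusedSectionVars false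
set_option linter.unusedVariables false

open MeasureTheory Filter

namespace Crest.Agent.R4P.JnK5

open Crest.Agent.R4P.Cnt588 Crest.Agent.R4P.Item758 Crest.Agent.R4P.W363
open Crest.Agent.R4P.Data758 Crest.Agent.R4P.LfDat734
open Crest.Agent.R4P.Bld532 (NS All NodeOk Bk plk Ws_nonneg Ws_mono)
open Crest.Agent.R4P.Step588 (NDt ND1 ctx_NDt uq_lt All_All)
open Crest.Agent.R4P.Skel189
open Crest.Agent.R4.Soft104 (w)
open Crest.Agent.R4P.Walk560 (DT)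
open Crest.Agent.R4P.FarNear7 (NDt_far₀ NDt_far₁ NDt_pl)
open Crest.Agent.R4P.JnA5 Crest.Agent.R4P.JnB5 Crest.Agent.R4P.JnC5
open Crest.Agent.R4P.JnD5 Crest.Agent.R4P.JnE5 Crest.Agent.R4P.JnH5 Crest.Agent.R4P.JnR5
open Crest.Agent.R4P.AddNode7 (Uw)

section ctx
variable {N : Skel189.Num} {γ : ℝ} {p0 P₀ : ℕ} {X : Ctx N γ p0 P₀}

/-- energy at the column `q` of the pieces of one index, `≤ K mass`, at the state `u`, tree `t` -/
def SfLe (X : Ctx N γ p0 P₀) (K : ℝ) (q : ℕ) (u : NS) (t : IT) : Prop :=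
  sf (KSk X) idk q ((X.c.D.par X.Y).toDT X.c.sp u.B u.A t) ≤ K * (u.c * Ws (w X.ψ) t.items)

/-- **energies of the node and of its raw children at the column of the node** -/
def KidE (X : Ctx N γ p0 P₀) (K : ℝ) (u : NS) : IT → Prop
  | .leaf _ => True
  | .br p Sp t₁ t₀ => SfLe X K p u (.br p Sp t₁ t₀) ∧
      SfLe X K p ⟨p, u.c / (1 - 1 / (p : ℝ)), u.A * p, u.B⟩ t₁ ∧
      SfLe X K p ⟨p, u.c * p, u.A, u.B * p⟩ t₀
  | .add b t₁ t₀ => SfLe X K b u (.add b t₁ t₀) ∧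
      SfLe X K b ⟨b + 1, u.c, u.A, u.B⟩ t₁ ∧ SfLe X K b ⟨b + 1, u.c, u.A, u.B⟩ t₀
  | .up b Sp t => SfLe X K b u (.up b Sp t) ∧ SfLe X K b ⟨b, u.c, u.A, u.B⟩ t
  | .pl b t => SfLe X K b u (.pl b t) ∧ SfLe X K b ⟨b + 1, u.c, u.A * b, u.B⟩ t
  | .far b t₁ t₀ => SfLe X K b u (.far b t₁ t₀) ∧
      SfLe X K b ⟨b + 1, u.c, u.A, u.B⟩ t₁ ∧ SfLe X K b ⟨b + 1, u.c, u.A, u.B⟩ t₀

lemma sf_EXn {u : NS} {t : IT} (h : NDt X.par (w X.ψ) X.c.t u t) (q : ℕ) :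
    sf (KSk X) idk q ((X.c.D.par X.Y).toDT X.c.sp u.B u.A t) = EK17.EX X q u t := by
  unfold sf EK17.EX
  rw [univ_Ro, rv_univ, bil_KSk, cf_idk, (X.c.D.par X.Y).toDT_g X.c.sp t u.B u.A]
  rfl

lemma sfle {K : ℝ} {u : NS} {t : IT} (h : NDt X.par (w X.ψ) X.c.t u t) {q : ℕ}
    (h' : LfK244.EXle X K q u t) : SfLe X K q u t := by
  unfold SfLe
  rw [sf_EXn h]
  exact h'

/-- **from `EX` to the kernel**, all the nodes and raw children -/
theorem kidE_of {K : ℝ} {u : NS} {τ : IT} (h : NDt X.par (w X.ψ) X.c.t u τ)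
    (h' : LfK244.EKid X K u τ) : KidE X K u τ := by
  cases τ with
  | leaf S => trivial
  | br p Sp t₁ t₀ =>
    exact ⟨sfle h h'.1,
      sfle (u := ⟨p, u.c / (1 - 1 / (p : ℝ)), u.A * p, u.B⟩) (FarNear7.NDt_br₁ h) h'.2.1,
      sfle (u := ⟨p, u.c * p, u.A, u.B * p⟩) (FarNear7.NDt_br₀ h) h'.2.2⟩
  | add b t₁ t₀ =>
    exact ⟨sfle h h'.1, sfle (u := ⟨b + 1, u.c, u.A, u.B⟩) (NDt_add₁ h) h'.2.1,
      sfle (u := ⟨b + 1, u.c, u.A, u.B⟩) (NDt_add₀ h) h'.2.2⟩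
  | up b Sp t =>
    exact ⟨sfle h h'.1, sfle (u := ⟨b, u.c, u.A, u.B⟩) (FarNear7.NDt_up h) h'.2⟩
  | pl b t =>
    exact ⟨sfle h h'.1, sfle (u := ⟨b + 1, u.c, u.A * b, u.B⟩) (NDt_pl h) h'.2⟩
  | far b t₁ t₀ =>
    exact ⟨sfle h h'.1, sfle (u := ⟨b + 1, u.c, u.A, u.B⟩) (FarNear7.NDt_far₁ h) h'.2.1,
      sfle (u := ⟨b + 1, u.c, u.A, u.B⟩) (NDt_far₀ h) h'.2.2⟩

end ctx

open Crest.Agent.R4P.Fin5 (CF)
open Crest.Agent.R4P.NumX34
open Crest.Agent.R4P.FinE26 (ForN)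

/-- **the target**: energies of pairs of one index, of all the nodes and raw children -/
def TgtKE (N : Skel189.Num) (γ : ℝ) : Prop :=
  ∃ Ke : ℝ, 0 ≤ Ke ∧ Ev N γ fun p0 P₀ X => CF X → All (KidE X Ke) ⟨top X.S, 1, 1, 1⟩ X.c.t

/-- **energies of the children, final numbers** -/
theorem tgtKE_fin : ForN ParT21.thF NumG23.SxF TgtKE := by
  obtain ⟨c3, h3⟩ := LfK244.lk_fin
  refine ⟨max c3 10, fun N Ct C₀ γ h hN hG => ?_⟩
  have n3 := EndD23.NumFin.weaken hN (le_max_left c3 10)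
  obtain ⟨Ke, hKe, k3⟩ := h3 N Ct C₀ γ h n3 hG
  refine ⟨Ke, hKe, k3.mono fun p0 P₀ X hh hC => ?_⟩
  exact All.mono (fun u τ g => kidE_of g.1 g.2) ((ctx_NDt X).and (hh hC))

end Crest.Agent.R4P.JnK5
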