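import Crest.Agent.R4P.AsB_407
import Crest.Agent.R4P.JnK_5
import Crest.Agent.R4P.E3Y_479

/-!
R4 (S0004) with powers, T3, helper24: **the field `hPhi` of `AsD407.FmK`**: energy of the related pieces at the
start of a game, `≤ Ke mu`, from the landed energies of the pairs of one index (`JnK5.tgtKE_fin`).

* `ixL_iff` : index of the real class;
* **`phi_le`** : `vPhi ≤ energy of the pairs of one real index of the node`;
* **`hPhi_of`** : `KidE X Ke u τ`, averages over the family; `ctx_phi` : all the nodes of a context.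
-/

set_option autoImplicit false
set_option linter.unusedSectionVars false
set_option linter.unusedVariables false
open MeasureTheory Filter Set

namespace Crest.Agent.R4P.AsG24

open Crest.Agent.R4.Tour104 Crest.Agent.R4.Tour758 Crest.Agent.R4.Avg758 Crest.Agent.R4.Clos758
open Crest.Agent.R4.ClosL758 Crest.Agent.R4.ClosG758 Crest.Agent.R4.ClosR758
open Crest.Agent.R4P.Cnt588 Crest.Agent.R4P.Item758 Crest.Agent.R4P.LfDat734
open Crest.Agent.R4P.Bld532 (NS All NodeOk)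
open Crest.Agent.R4P.WalkIT579 (tp isL toDT_top toDT_leaf)
open Crest.Agent.R4P.Walk560 (DT WrN)
open Crest.Agent.R4P.Step588 Crest.Agent.R4P.RseSt23
open Crest.Agent.R4P.DTp26 Crest.Agent.R4P.DTm407
open Crest.Agent.R4P.TYI47 Crest.Agent.R4P.TYJ47 Crest.Agent.R4P.TYK47 Crest.Agent.R4P.TYP9
open Crest.Agent.R4P.RsT47
open Crest.Agent.R4P.GWa343 Crest.Agent.R4P.GWc343 Crest.Agent.R4P.GWf343 Crest.Agent.R4P.TrR343
open Crest.Agent.R4P.GSK55 (one)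
open Crest.Agent.R4P.JnA5 Crest.Agent.R4P.JnE5 Crest.Agent.R4P.JnH5 Crest.Agent.R4P.JnR5
open Crest.Agent.R4P.JnK5
open Crest.Agent.R4P.Skel189 Crest.Agent.R4P.Frame758 Crest.Agent.R4P.Data758
open Crest.Agent.R4.Soft104 Crest.Agent.R4.Fam464
open Crest.Agent.R4P.StratX36 Crest.Agent.R4P.TopX36
open Crest.Agent.R4P.E3V479 Crest.Agent.R4P.JnD5
open Crest.Agent.R4P.AsB407

section ctx
variable {N : Skel189.Num} {γ : ℝ} {p0 P₀ : ℕ} {X : Ctx N γ p0 P₀} {Qn : NS → IT → Prop} {C : ℝ}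
  {n : ℕ} {u : NS} {τ : IT}

/-- the index of the real class of a piece -/
lemma ixL_iff (X : Ctx N γ p0 P₀) (p : ℕ) (i j : X.c.Lam) :
    ixL (rhoX X p i) = ixL (rhoX X p j) ↔ ixf X p i = ixf X p j := by
  have h := univ_Ro X X.Y p
  have h1 : (i, j) ∈ (Finset.univ : Finset (X.c.Lam × X.c.Lam)) \ Ro ((X.c.D.par X.Y).rho p) ↔
      (i, j) ∈ SX X p := by rw [h]
  rw [mem_SX, Finset.mem_sdiff, mem_Ro, rel_ixL, not_not] at h1
  exact ⟨fun e => h1.1 ⟨Finset.mem_univ _, e⟩, fun e => (h1.2 e).2⟩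

lemma ixf_of_rho {p : ℕ} {i j : X.c.Lam} (h : rhoX X p i = rhoX X p j) :
    ixf X p i = ixf X p j := (ixL_iff X p i j).1 (by rw [h])

/-- **the potential at the start** : energy of the pairs of one real index of the node -/
theorem phi_le (G : Gm X Qn C n)
    (hR : ∀ p m x j i, G.R3 p m x j i → ixf X p j = ixf X p i)
    (hn : NDt X.par (w X.ψ) X.c.t u τ) :
    G.vPhi u τ ≤ sf (KSk X) idk (tp τ) ((X.c.D.par X.Y).toDT X.c.sp u.B u.A τ) := by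
  classical
  have e1 : G.vPhi u τ = I (qe (G.R3 (X.self u τ Finset.univ).p (b₀ X u τ).1)
      (jv (b₀ X u τ).2) (jv (b₀ X u τ).2)) := by
    unfold Gm.vPhi Pp
    show ∑ _k : Unit, ∑ _k' : Unit, (1:ℝ) * 1 * Pe G.R3 _ (b₀ X u τ) (b₀ X u τ) = _
    simp [Pe]
  rw [e1, self_p X u τ]
  set V : X.c.Lam → ℝ → ℝ := AddNode7.Uw X X.Y u τ with hV
  have e3 : GWb343.cf (idk (tp τ)) ((X.c.D.par X.Y).toDT X.c.sp u.B u.A τ) = V :=
    cf_node (X := X) hn (tp τ)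
  have e2 : jv (b₀ X u τ).2 = V := by
    have h1 : (b₀ X u τ).2 = [(X.c.D.par X.Y).toDT X.c.sp u.B u.A τ] := rfl
    rw [h1, ← e3, cf_idk]
    funext j x
    rw [jv_cons, jv_nil, add_zero]
  have e4 : sf (KSk X) idk (tp τ) ((X.c.D.par X.Y).toDT X.c.sp u.B u.A τ) = Q (SX X (tp τ)) V V := by
    unfold sf
    rw [e3, bil_KSk]
  have hpb : ∀ j, PB (V j) := fun j => by
    rw [hV]
    exact GPair33.PB_vN_inl hn j
  rw [e2, e4]
  refine (E3Y479.qe_Q (fun j i => G.mR3 _ _ j i) hpb hpb).trans ?_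
  refine Q_mono_set (fun e he => ?_) hpb hpb
  obtain ⟨x, hx, -⟩ := (Finset.mem_filter.1 he).2
  exact mem_SX.2 (hR _ _ _ _ _ hx)

/-- the energy of the pairs of one index of a node in `KidE` -/
lemma self_KidE {K : ℝ} (h : KidE X K u τ) (hl : ¬ isL τ) : SfLe X K (tp τ) u τ := by
  cases τ with
  | leaf S => exact absurd trivial hl
  | br p Sp t₁ t₀ => exact h.1
  | add b t₁ t₀ => exact h.1
  | up b Sp t => exact h.1
  | pl b t => exact h.1
  | far b t₁ t₀ => exact h.1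

/-- **the field `hPhi`** of a family of games -/
theorem hPhi_of {A : Type} [Fintype A] {ω : A → ℝ} (h0 : ∀ i, 0 ≤ ω i) (h1 : ∑ i, ω i = 1)
    (G : A → Gm X Qn C n) (hR : ∀ i p m x j i', (G i).R3 p m x j i' → ixf X p j = ixf X p i')
    (hn : NDt X.par (w X.ψ) X.c.t u τ) (hl : ¬ isL τ) {Ke a ϑ : ℝ} (hK : KidE X Ke u τ)
    {j₀ : X.c.Lam} (hm : X.mu j₀ u τ Finset.univ = u.c * Ws (w X.ψ) τ.items)
    (hm0 : 0 ≤ X.mu j₀ u τ Finset.univ) (ha : Ke ≤ a) (ha0 : 0 ≤ a) (hϑ : 0 ≤ ϑ) :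
    Bd X j₀ u τ a ϑ (∑ i, ω i * (G i).vPhi u τ) := by
  have h2 : SfLe X Ke (tp τ) u τ := self_KidE hK hl
  unfold SfLe at h2
  have h3 : ∀ i, ω i * (G i).vPhi u τ ≤ ω i * (Ke * X.mu j₀ u τ Finset.univ) := fun i =>
    mul_le_mul_of_nonneg_left ((phi_le (G i) (hR i) hn).trans (by rw [hm]; exact h2)) (h0 i)
  have h4 := Finset.sum_le_sum fun i (_ : i ∈ Finset.univ) => h3 i
  rw [← Finset.sum_mul, h1, one_mul] at h4
  have h5 : Ke * X.mu j₀ u τ Finset.univ ≤ a * X.mu j₀ u τ Finset.univ :=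
    mul_le_mul_of_nonneg_right ha hm0
  have I2 : 0 ≤ I (fun x => tt Finset.univ (X.g u τ) x ^ 2) := I_nonneg fun x => sq_nonneg _
  have h6 : 0 ≤ a * (X.mu j₀ u τ Finset.univ * X.mu j₀ u τ Finset.univ) := by positivity
  have h7 : 0 ≤ a * ϑ * I (fun x => tt Finset.univ (X.g u τ) x ^ 2) := by positivity
  unfold Bd
  linarith

end ctx

open Crest.Agent.R4P.Fin5 (CF)
open Crest.Agent.R4P.NumX34
open Crest.Agent.R4P.FinE26 (ForN)

/-- **the target** `hPhi` : all the nodes which are no leaves, all the families with `one real index` in `R3` -/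
def TgtPhi (N : Skel189.Num) (γ : ℝ) : Prop :=
  ∃ Ke : ℝ, 0 ≤ Ke ∧ Ev N γ fun p0 P₀ X => CF X → ∀ j₀ : X.c.Lam,
    All (fun u τ => ¬ isL τ → ∀ {Qn : NS → IT → Prop} {C : ℝ} {n : ℕ} {A : Type} [Fintype A]
      {ω : A → ℝ}, (∀ i, 0 ≤ ω i) → ∑ i, ω i = 1 → ∀ G : A → Gm X Qn C n,
      (∀ i p m x j i', (G i).R3 p m x j i' → ixf X p j = ixf X p i') → ∀ {a ϑ : ℝ},
      Ke ≤ a → 0 ≤ a → 0 ≤ ϑ → Bd X j₀ u τ a ϑ (∑ i, ω i * (G i).vPhi u τ))
      ⟨top X.S, 1, 1, 1⟩ X.c.t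

/-- **`hPhi`, final numbers** -/
theorem tgtPhi_fin : ForN ParT21.thF NumG23.SxF TgtPhi := by
  obtain ⟨c, h⟩ := tgtKE_fin
  refine ⟨c, fun N Ct C₀ γ h1 h2 h3 => ?_⟩
  obtain ⟨Ke, hKe, h4⟩ := h N Ct C₀ γ h1 h2 h3
  refine ⟨Ke, hKe, h4.mono fun p0 P₀ X hh hC j₀ => ?_⟩
  have hQE := AsmX26.ctx_QE X j₀ (Q' := fun _ _ => True) (All.mono (fun _ _ _ => trivial) (ctx_NDt X))
  refine All.mono (fun u τ g hl Qn C n A fA ω w0 w1 G hR a ϑ ha ha0 hϑ => ?_)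
    (((ctx_NDt X).and (hh hC)).and (hQE.and (ctx_mumu X j₀)))
  obtain ⟨⟨g1, g2⟩, g3, g4⟩ := g
  exact @hPhi_of _ _ _ _ _ _ _ _ _ _ A fA ω w0 w1 G hR g1 hl _ a ϑ g2 _ g3.mass (g4 Finset.univ).1 ha ha0 hϑ

end Crest.Agent.R4P.AsG24
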