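import Crest.Agent.R4P.EvC_47
import Crest.Agent.R4P.FlH_845
import Crest.Agent.R4P.CrF_47
import Crest.Agent.R4P.E3Y_479

/-!
R4 (S0004) with powers, T3, helper24: **constant lines** (events of the items at the ties with prices which
depend on the column only), credits bounded by a constant for every item.

* `Lay a s1 A B` (a convergent series), **`layer`** : `Σ_{s ∈ M} wt s (log s)^(-s1) ≤ Lay a s1 A B` if
  `Σ_{s ∈ M, loglog s ≤ a i} wt s ≤ A i + B`;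
* **`unf_num`** : own missing ties of unflagged pieces (`Om a δ · P M → F · M`): `Σ (log n)^(-s1) ≤ Lay a s1 δ 1`;
  **`pr_num`** : primes: `Σ (1/n) (log n)^(-s1) ≤ Lay 1 s1 1 8`;
* `EvT c P θ hθ` : the system of the events `P q n` of the items at the ties, price `θ n` at the column `n`;
* **`unf_rho`**, **`pr_rho`** : remaining credits `≤ 3 κ Lay ..` for `Unf F c` (prices `≤ κ (log n)^(-s1)`) and
  `PrA p0` (prices `≤ κ (1/n) (log n)^(-s1)`);
* payments: `sd_mt` (an N piece with content at a tie has an own missing tie there), **`unf_tie`**, **`pr_tie`**,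
  `sd_TT`, `nx_TT`.
-/

set_option autoImplicit false
set_option linter.unusedSectionVars false
set_option linter.unusedVariables false
open MeasureTheory Filter Set

namespace Crest.Agent.R4P.AsH24

open Crest.Agent.R4.Tour104 Crest.Agent.R4.Clos758
open Crest.Agent.R4P.Cnt588 Crest.Agent.R4P.Item758 Crest.Agent.R4P.W363
open Crest.Agent.R4P.Data758
open Crest.Agent.R4P.Bld532 (NS All NodeOk Bk dv nd)
open Crest.Agent.R4P.StratN36 (ex)
open Crest.Agent.R4P.Step588 Crest.Agent.R4P.RseSt23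
open Crest.Agent.R4P.DTp26 Crest.Agent.R4P.DTm407
open Crest.Agent.R4P.TYI47 Crest.Agent.R4P.TYJ47 Crest.Agent.R4P.TYK47
open Crest.Agent.R4P.TYP9 Crest.Agent.R4P.RsT47
open Crest.Agent.R4P.Walk560 (DT WrN)
open Crest.Agent.R4P.Skel189 Crest.Agent.R4P.Frame758
open Crest.Agent.R4.Soft104 Crest.Agent.R4.Fam464
open Crest.Agent.R4P.StratX36 Crest.Agent.R4P.TopX36
open Crest.Agent.R4P.OmW11 Crest.Agent.R4P.OmX11
open Crest.Agent.R4P.StE6 (Mhi)
open Crest.Agent.R4P.StJ6 (FMon flg flg_le)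
open Crest.Agent.R4P.CrZ41 Crest.Agent.R4P.CrF47 Crest.Agent.R4P.EvC47
open Crest.Agent.R4P.GWa343 (bB)
open Crest.Agent.R4P.GWc343 (bN bt)

/-! ### layers -/

/-- the total of the layers -/
noncomputable def Lay (a s1 A B : ℝ) : ℝ := ∑' i : ℕ, (A * i + B) * Real.exp (-(s1 * a * ((i : ℝ) - 1)))

lemma lay_summable {a s1 : ℝ} (ha : 0 < a) (hs : 0 < s1) (A B : ℝ) :
    Summable fun i : ℕ => (A * i + B) * Real.exp (-(s1 * a * ((i : ℝ) - 1))) := by
  set r : ℝ := Real.exp (-(s1 * a)) with hr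
  have hr0 : 0 < r := Real.exp_pos _
  have hr1 : r < 1 := by
    rw [hr, ← Real.exp_zero]
    refine Real.exp_lt_exp.2 ?_
    have := mul_pos hs ha
    linarith
  have hn : ‖r‖ < 1 := by rw [Real.norm_eq_abs, abs_of_pos hr0]; exact hr1
  have h1 : Summable fun i : ℕ => (i : ℝ) ^ 1 * r ^ i :=
    summable_pow_mul_geometric_of_norm_lt_one 1 hn
  have h2 : Summable fun i : ℕ => r ^ i := summable_geometric_of_norm_lt_one hn
  have h3 := ((h1.mul_left A).add (h2.mul_left B)).mul_left (Real.exp (s1 * a))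
  refine h3.congr fun i => ?_
  have e : Real.exp (-(s1 * a * ((i : ℝ) - 1))) = Real.exp (s1 * a) * r ^ i := by
    rw [hr, ← Real.exp_nat_mul, ← Real.exp_add]
    congr 1
    ring
  rw [e, pow_one]
  ring

lemma lay_nonneg {a s1 A B : ℝ} (hA : 0 ≤ A) (hB : 0 ≤ B) : 0 ≤ Lay a s1 A B :=
  tsum_nonneg fun i => mul_nonneg (by positivity) (Real.exp_pos _).le

/-- **layers** : a sum with `(log s)^(-s1)` from the counts up to `exp exp (a i)` -/
theorem layer {a s1 : ℝ} (ha : 0 < a) (hs : 0 < s1) {A B : ℝ} (hA : 0 ≤ A) (hB : 0 ≤ B) (M : Finset ℕ)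
    {wt : ℕ → ℝ} (h0 : ∀ s ∈ M, 0 ≤ wt s) (h16 : ∀ s ∈ M, 16 ≤ s)
    (h : ∀ i : ℕ, (∃ s ∈ M, Real.log (Real.log s) ≤ a * i) →
      ∑ s ∈ M.filter (fun s : ℕ => Real.log (Real.log s) ≤ a * i), wt s ≤ A * i + B) :
    ∑ s ∈ M, wt s * Real.log s ^ (-s1) ≤ Lay a s1 A B := by
  classical
  set ix : ℕ → ℕ := fun s => ⌈Real.log (Real.log s) / a⌉₊ with hix
  have ll : ∀ s ∈ M, 0 < Real.log (Real.log (s : ℝ)) ∧ 0 < Real.log (s : ℝ) := fun s hs => by
    have h1 : (16 : ℝ) ≤ s := by exact_mod_cast h16 s hs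
    have h2 : 1 < Real.log (s : ℝ) := by
      rw [Real.lt_log_iff_exp_lt (by linarith)]
      linarith [Real.exp_one_lt_d9]
    exact ⟨Real.log_pos h2, by linarith⟩
  have hle : ∀ s ∈ M, Real.log (Real.log (s:ℝ)) ≤ a * ix s := fun s hs => by
    have h1 : Real.log (Real.log (s:ℝ)) / a ≤ ix s := Nat.le_ceil _
    rwa [div_le_iff₀ ha, mul_comm] at h1
  have hlt : ∀ s ∈ M, a * ((ix s : ℝ) - 1) ≤ Real.log (Real.log (s:ℝ)) := fun s hs => by
    have h0' : 0 ≤ Real.log (Real.log (s:ℝ)) / a := div_nonneg (ll s hs).1.le ha.le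
    have h1 : (ix s : ℝ) < Real.log (Real.log (s:ℝ)) / a + 1 := Nat.ceil_lt_add_one h0'
    have h2 : (ix s : ℝ) - 1 ≤ Real.log (Real.log (s:ℝ)) / a := by linarith
    rw [le_div_iff₀ ha] at h2
    linarith
  set L := M.sup ix + 1 with hL
  have hmap : ∀ s ∈ M, ix s ∈ Finset.range L := fun s hs =>
    Finset.mem_range.2 (Nat.lt_succ_of_le (Finset.le_sup hs))
  rw [← Finset.sum_fiberwise_of_maps_to hmap]
  refine le_trans (Finset.sum_le_sum fun i _ => ?_)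
    ((lay_summable ha hs A B).sum_le_tsum (Finset.range L) fun i _ =>
      mul_nonneg (by positivity) (Real.exp_pos _).le)
  by_cases hne : ∃ s ∈ M, ix s = i
  · obtain ⟨s₀, hs₀, e₀⟩ := hne
    have h1 := h i ⟨s₀, hs₀, by have := hle s₀ hs₀; rwa [e₀] at this⟩
    have h2 : ∑ s ∈ M.filter (fun s => ix s = i), wt s * Real.log s ^ (-s1) ≤
        ∑ s ∈ M.filter (fun s => ix s = i), wt s * Real.exp (-(s1 * a * ((i : ℝ) - 1))) := by
      refine Finset.sum_le_sum fun s hs => ?_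
      obtain ⟨m1, m2⟩ := Finset.mem_filter.1 hs
      refine mul_le_mul_of_nonneg_left ?_ (h0 s m1)
      rw [Real.rpow_def_of_pos (ll s m1).2]
      refine Real.exp_le_exp.2 ?_
      have h3 := hlt s m1
      rw [m2] at h3
      nlinarith
    refine h2.trans ?_
    rw [← Finset.sum_mul]
    refine mul_le_mul_of_nonneg_right ?_ (Real.exp_pos _).le
    refine le_trans (Finset.sum_le_sum_of_subset_of_nonneg (fun s hs => ?_)
      fun s hs _ => h0 s (Finset.mem_filter.1 hs).1) h1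
    obtain ⟨m1, m2⟩ := Finset.mem_filter.1 hs
    refine Finset.mem_filter.2 ⟨m1, ?_⟩
    have := hle s m1
    rwa [m2] at this
  · have e : M.filter (fun s => ix s = i) = ∅ := by
      rw [Finset.filter_eq_empty_iff]
      intro s hs hi
      exact hne ⟨s, hs, hi⟩
    rw [e, Finset.sum_empty]
    exact mul_nonneg (by positivity) (Real.exp_pos _).le

/-! ### numbers -/

/-- **primes** : `Σ (log n)^(-s1) / n` over any set of primes `≥ 16` -/
theorem pr_num {s1 : ℝ} (hs : 0 < s1) (M : Finset ℕ) (hM : ∀ n ∈ M, n.Prime ∧ 16 ≤ n) :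
    ∑ n ∈ M, 1 / (n : ℝ) * Real.log n ^ (-s1) ≤ Lay 1 s1 1 8 := by
  classical
  refine layer one_pos hs zero_le_one (by norm_num) M (fun s _ => by positivity)
    (fun s hs => (hM s hs).2) fun i hi => ?_
  obtain ⟨s₀, hs₀, h0⟩ := hi
  have h16 : (16 : ℝ) ≤ s₀ := by exact_mod_cast (hM s₀ hs₀).2
  have hi16 : Real.log (Real.log (16 : ℕ)) ≤ 1 * i := by
    refine le_trans (Real.log_le_log ?_ (Real.log_le_log (by norm_num) (by exact_mod_cast h16))) h0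
    exact Real.log_pos (by norm_num)
  have h1 := sum_Wn (a := 1) (n := 16) (P := M.sup id) (i := i) (by norm_num) hi16
  have h2 : ∑ s ∈ M.filter (fun s : ℕ => Real.log (Real.log s) ≤ 1 * i), 1 / (s : ℝ) ≤
      ∑ q ∈ Wn 1 16 (M.sup id) i, 1 / (q : ℝ) := by
    refine Finset.sum_le_sum_of_subset_of_nonneg (fun s hs => ?_) fun _ _ _ => by positivity
    obtain ⟨m1, m2⟩ := Finset.mem_filter.1 hs
    exact mem_Wn.2 ⟨⟨(hM s m1).2, Finset.le_sup (f := id) m1⟩, (hM s m1).1, m2⟩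
  have e16 : (1 : ℝ) < Real.log (16 : ℕ) := by
    rw [Real.lt_log_iff_exp_lt (by norm_num)]
    have := Real.exp_one_lt_d9
    push_cast
    linarith
  have h3 : 0 ≤ Real.log (Real.log (16 : ℕ)) := (Real.log_pos e16).le
  have h4 : 8 / Real.log (16 : ℕ) ≤ 8 := by
    rw [div_le_iff₀ (by linarith)]
    linarith
  refine h2.trans (h1.trans ?_)
  generalize Real.log (Real.log ((16:ℕ):ℝ)) = A at h3 ⊢
  generalize 8 / Real.log ((16:ℕ):ℝ) = B at h4 ⊢
  linarith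

section item
variable {c : Cf} {n P p0 q : ℕ} {F : ℕ → Finset ℕ → Prop} {a δ s1 : ℝ}

/-- own missing ties of unflagged pieces -/
def Unf (F : ℕ → Finset ℕ → Prop) (c : Cf) (q n : ℕ) : Prop := n ∈ c.t.mt q ∧ ¬ flg F c n q

/-- **own missing ties of unflagged pieces** : few -/
theorem unf_num (hO : c.t.Ok n) (hF : FMon F) (hOm : ∀ n M, Om a δ n P M → F n M) (ha : 0 < a)
    (hδ : 0 ≤ δ) (hs : 0 < s1) (M : Finset ℕ)
    (hM : ∀ m ∈ M, Unf F c q m ∧ m ≤ P ∧ 16 ≤ m) :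
    ∑ m ∈ M, Real.log m ^ (-s1) ≤ Lay a s1 δ 1 := by
  classical
  have e1 : ∑ m ∈ M, Real.log (m:ℝ) ^ (-s1) = ∑ m ∈ M, (1:ℝ) * Real.log m ^ (-s1) :=
    Finset.sum_congr rfl fun m _ => (one_mul _).symm
  rw [e1]
  refine layer ha hs hδ zero_le_one M (fun _ _ => zero_le_one) (fun m hm => (hM m hm).2.2)
    fun i hi => ?_
  obtain ⟨s₀, hs₀, h0⟩ := hi
  -- the lowest tie
  set n₀ := M.min' ⟨s₀, hs₀⟩ with hn₀
  have hn₀M : n₀ ∈ M := Finset.min'_mem _ _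
  obtain ⟨⟨a1, a2⟩, a3, a4⟩ := hM n₀ hn₀M
  have hno : ¬ Om a δ n₀ P (Mhi c n₀ q) := fun h => a2 (hOm _ _ h)
  have hlow : Real.log (Real.log (n₀:ℝ)) ≤ a * i := by
    have h1 : n₀ ≤ s₀ := Finset.min'_le _ _ hs₀
    have h16 : (16 : ℝ) ≤ n₀ := by exact_mod_cast a4
    have h2 : 0 < Real.log (n₀:ℝ) := Real.log_pos (by linarith)
    exact (Real.log_le_log h2 (Real.log_le_log (by linarith) (by exact_mod_cast h1))).trans h0
  have hc : ((Wn a n₀ P i ∩ Mhi c n₀ q).card : ℝ) < δ * i := by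
    by_contra hc
    exact hno ⟨i, hlow, not_lt.1 hc⟩
  have hsub : M.filter (fun s : ℕ => Real.log (Real.log s) ≤ a * i) ⊆
      insert n₀ (Wn a n₀ P i ∩ Mhi c n₀ q) := by
    intro s hs
    obtain ⟨m1, m2⟩ := Finset.mem_filter.1 hs
    obtain ⟨⟨b1, b2⟩, b3, b4⟩ := hM s m1
    rcases eq_or_lt_of_le (Finset.min'_le M s m1) with h | h
    · rw [← h]; exact Finset.mem_insert_self _ _
    · refine Finset.mem_insert_of_mem (Finset.mem_inter.2 ⟨mem_Wn.2 ⟨⟨h.le, b3⟩,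
        (BldF542.mt_lt _ _ hO _ _ b1).1, m2⟩, ?_⟩)
      exact Finset.mem_filter.2 ⟨b1, h⟩
  have h5 := (Finset.card_le_card hsub).trans (Finset.card_insert_le _ _)
  have h6 : ((M.filter (fun s : ℕ => Real.log (Real.log s) ≤ a * i)).card : ℝ) ≤
      (Wn a n₀ P i ∩ Mhi c n₀ q).card + 1 := by exact_mod_cast h5
  rw [Finset.sum_const, nsmul_eq_mul, mul_one]
  linarith

end item

/-! ### events with prices which depend on the column -/

/-- the events `P q n` of the items at the ties, price `θ n` at the column `n` -/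
noncomputable def EvT (c : Cf) (P : ℕ → ℕ → Prop) (θ : ℕ → ℝ) (hθ : ∀ n, 0 ≤ θ n) : Evs c.Lam where
  E := fun n j _ => P j.1.1 n
  E' := fun _ _ _ => False
  mE := fun _ _ => MeasurableSet.const _
  mE' := fun _ _ => MeasurableSet.const _
  c := θ
  c' := fun _ => 0
  c0 := hθ
  c0' := fun _ => le_rfl

section ev
variable {c : Cf} {P : ℕ → ℕ → Prop} {θ : ℕ → ℝ} {hθ : ∀ n, 0 ≤ θ n}

lemma EvT_f (n : ℕ) (j : c.Lam) (z : ℝ) : (EvT c P θ hθ).f n j z = 3 * θ n * ind (P j.1.1 n) := by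
  unfold Evs.f EvT
  simp only [zero_mul, add_zero]

open Classical in
/-- the credit of the events of an item -/
lemma EvT_sum (r : Finset ℕ) (j : c.Lam) (z : ℝ) :
    ∑ n ∈ r, (EvT c P θ hθ).f n j z = 3 * ∑ n ∈ r.filter (P j.1.1), θ n := by
  rw [Finset.sum_congr rfl fun n _ => EvT_f n j z, Finset.sum_filter, Finset.mul_sum]
  refine Finset.sum_congr rfl fun n _ => ?_
  by_cases h : P j.1.1 n
  · rw [ind_on h, if_pos h, mul_one]
  · rw [ind_off h, if_neg h, mul_zero, mul_zero]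

/-- primes above `p0` -/
def PrA (p0 : ℕ) (_ n : ℕ) : Prop := n.Prime ∧ p0 < n

end ev

section game
open Crest.Agent.R4P.AsB407
open Crest.Agent.R4P.DTn407

variable {N : Skel189.Num} {γ : ℝ} {p0 P₀ : ℕ} {X : Ctx N γ p0 P₀} {Q : NS → IT → Prop} {C : ℝ}
  {ζ : Type} [Fintype ζ] [DecidableEq ζ] {D : TD Me X.c.Lam (LbX X) ζ}
  {H : TYp (rhoX X) D (InvM X Q C)} {tu : D.tu = tuM}
  {hQ : ∀ u τ, Q u τ → NDt X.par (w X.ψ) X.c.t u τ} {hd1 : X.c.d1 * Kc X.S ≤ 1}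
  {p : ℕ} {b : Me × List (DT X.c.Lam (LbX X))} {j : X.c.Lam} {x : ℝ}

/-- **the remaining credit**: own missing ties of unflagged pieces -/
theorem unf_rho {F : ℕ → Finset ℕ → Prop} (hF : FMon F) {a δ s1 : ℝ} {P : ℕ}
    (hOm : ∀ n M, Om a δ n P M → F n M) (ha : 0 < a) (hδ : 0 ≤ δ) (hs : 0 < s1) {θ : ℕ → ℝ}
    {hθ : ∀ n, 0 ≤ θ n} {κ : ℝ} (hκ : 0 ≤ κ) (h16 : 16 ≤ p0)
    (hθ' : ∀ n : ℕ, 16 ≤ n → θ n ≤ κ * Real.log n ^ (-s1)) (hp : p ≤ P) :
    (crX H tu hQ hd1 (EvT X.c (Unf F X.c) θ hθ)).ρ p b j x ≤ 3 * (κ * Lay a s1 δ 1) := by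
  classical
  refine ((EvT X.c (Unf F X.c) θ hθ).G_le (rem_le _ _ _) j _).trans ?_
  rw [EvT_sum]
  refine mul_le_mul_of_nonneg_left ?_ (by norm_num)
  have hm : ∀ n ∈ (Finset.range (p + 1)).filter (Unf F X.c j.1.1), Unf F X.c j.1.1 n ∧ n ≤ P ∧
      16 ≤ n := fun n hn => by
    obtain ⟨h1, h2⟩ := Finset.mem_filter.1 hn
    have h3 : p0 < n := (Bld532.cols_of_All _ _ _ _ X.nodes j.1.1 n (Or.inl h2.1)).2.1
    have h4 := Finset.mem_range.1 h1
    exact ⟨h2, by omega, by omega⟩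
  have h1 := unf_num X.tOk hF hOm ha hδ hs _ hm
  refine (Finset.sum_le_sum fun n hn => hθ' n (hm n hn).2.2).trans ?_
  rw [← Finset.mul_sum]
  exact mul_le_mul_of_nonneg_left h1 hκ

/-- **the remaining credit**: primes -/
theorem pr_rho {s1 : ℝ} (hs : 0 < s1) {θ : ℕ → ℝ} {hθ : ∀ n, 0 ≤ θ n} {κ : ℝ} (hκ : 0 ≤ κ)
    (h16 : 16 ≤ p0) (hθ' : ∀ n : ℕ, 16 ≤ n → θ n ≤ κ * (1 / (n : ℝ) * Real.log n ^ (-s1))) :
    (crX H tu hQ hd1 (EvT X.c (PrA p0) θ hθ)).ρ p b j x ≤ 3 * (κ * Lay 1 s1 1 8) := by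
  classical
  refine ((EvT X.c (PrA p0) θ hθ).G_le (rem_le _ _ _) j _).trans ?_
  rw [EvT_sum]
  refine mul_le_mul_of_nonneg_left ?_ (by norm_num)
  have hm : ∀ n ∈ (Finset.range (p + 1)).filter (PrA p0 j.1.1), n.Prime ∧ 16 ≤ n := fun n hn => by
    obtain ⟨-, h2, h3⟩ := Finset.mem_filter.1 hn
    exact ⟨h2, by omega⟩
  have h1 := pr_num hs _ hm
  refine (Finset.sum_le_sum fun n hn => hθ' n (hm n hn).2).trans ?_
  rw [← Finset.mul_sum]
  exact mul_le_mul_of_nonneg_left h1 hκ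

/-- **an N piece with content at a tie** : the tie is an own missing tie -/
theorem sd_mt (hQ : ∀ u τ, Q u τ → NDt X.par (w X.ψ) X.c.t u τ) (hd1 : X.c.d1 * Kc X.S ≤ 1)
    (h : InvM X Q C p b) (hj : jv (bB p b.2) j x ≠ 0) (hs : E3X479.sdX X p b.1 j) :
    p ∈ X.c.t.mt j.1.1 ∧ ex p j.1.1 = TYJ47.cnt p b.1.1 ∧
      pm X.c.t p b.1 j.1.1 = Mhi X.c p j.1.1 := by
  have h1 := tie_node hQ hd1 h hj
  have h2 := (tie_zb hQ hd1 h hj).2
  rcases h1.side with ⟨-, h3⟩ | ⟨-, h3, h4⟩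
  · exact absurd (le_antisymm hs h2) h3
  · exact ⟨h3, h4, h1.hi⟩

/-- **payment at the own missing tie of an unflagged piece** -/
theorem unf_tie {F : ℕ → Finset ℕ → Prop} {θ : ℕ → ℝ} {hθ : ∀ n, 0 ≤ θ n}
    (h : InvM X Q C p b) (hj : jv (bB p b.2) j x ≠ 0) (hs : E3X479.sdX X p b.1 j)
    (hf : ¬ flg F X.c p j.1.1) :
    θ p ≤ (crX H tu hQ hd1 (EvT X.c (Unf F X.c) θ hθ)).r p b j x := by
  classical
  obtain ⟨h1, h2, -⟩ := sd_mt hQ hd1 h hj hs
  have hT : TT p b.1 j.1.1 := ⟨h2.ge, by omega⟩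
  rw [crX_r, if_pos hT]
  have e : ind ((EvT X.c (Unf F X.c) θ hθ).E p j (zb X.c p b.1 x j)) = 1 := ind_on ⟨h1, hf⟩
  rw [e, mul_one]
  exact le_rfl

/-- **payment at a present tie** -/
theorem pr_tie {θ : ℕ → ℝ} {hθ : ∀ n, 0 ≤ θ n} (h : InvM X Q C p b)
    (hj : jv (bB p b.2) j x ≠ 0) (hT : TT p b.1 j.1.1) :
    θ p ≤ (crX H tu hQ hd1 (EvT X.c (PrA p0) θ hθ)).r p b j x := by
  classical
  have hpr : PrA p0 j.1.1 p := by
    rcases jv_bB_node (carX hQ) h.mi hj with ⟨s, Sp, t₁, t₀, hs, h1⟩ | ⟨s, t₁, hs, h1⟩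
    · have hn := (hQ _ _ hs.1.rm.all.self).self.node
      exact ⟨prime_of_br hn, hn.2.2.1⟩
    · have hn := (hQ _ _ hs.1.rm.all.self).self.node
      exact ⟨prime_of_pl hn, hn.2.2.1⟩
  rw [crX_r, if_pos hT]
  have e : ind ((EvT X.c (PrA p0) θ hθ).E p j (zb X.c p b.1 x j)) = 1 := ind_on hpr
  rw [e, mul_one]
  exact le_rfl

/-- `sdX` and `nx` pieces with content are processed at the tie -/
lemma sd_TT (hQ : ∀ u τ, Q u τ → NDt X.par (w X.ψ) X.c.t u τ) (hd1 : X.c.d1 * Kc X.S ≤ 1)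
    (h : InvM X Q C p b) (hj : jv (bB p b.2) j x ≠ 0) (hs : E3X479.sdX X p b.1 j) :
    TT p b.1 j.1.1 := by
  obtain ⟨-, h2, -⟩ := sd_mt hQ hd1 h hj hs
  exact ⟨h2.ge, by omega⟩

lemma nx_TT {m : Me} (hs : E3Y479.nx X p m j) : TT p m j.1.1 := by
  unfold E3Y479.nx at hs
  unfold TT
  omega

end game

end Crest.Agent.R4P.AsH24
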