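import Crest.Agent.R4P.AsG_24
import Crest.Agent.R4P.AsD_407
import Crest.Agent.R4P.PairX_41

/-!
R4 (S0004) with powers, T3, helper5: **the field `hLeU` for rules whose types determine the real index**.

* kernels: `leU_addK`, `dC_addK` (sums), `leU_monoK`, `dC_monoK`;
* `ixp_real` : real index of a content of an invariant bundle; **`TyR`** : equal type, equal real index at
  the column; **`tyR_of`** : the labels of the rule are the real states;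
* `dom_of` : `KSk X` dominates; **`hLeU_of`**, **`tgtLeU_fin`** : the field for the kernel `KSk X`,
  final numbers (over `JnR5.tgtJR_fin`); `bd_vK_add` : kernels `KSk + K'`.
-/

set_option autoImplicit false
set_option linter.unusedSectionVars false
set_option linter.unusedVariables false
open MeasureTheory Filter Set

namespace Crest.Agent.R4P.JnP5

open Crest.Agent.R4.Tour104 Crest.Agent.R4.Tour758 Crest.Agent.R4.Avg758 Crest.Agent.R4.Clos758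
open Crest.Agent.R4.ClosL758 Crest.Agent.R4.ClosG758 Crest.Agent.R4.ClosR758
open Crest.Agent.R4P.Cnt588 Crest.Agent.R4P.Item758 Crest.Agent.R4P.LfDat734
open Crest.Agent.R4P.Bld532 (NS All NodeOk)
open Crest.Agent.R4P.WalkIT579 (tp isL toDT_top toDT_leaf)
open Crest.Agent.R4P.Walk560 (DT WrN)
open Crest.Agent.R4P.Step588 Crest.Agent.R4P.RseSt23
open Crest.Agent.R4P.DTp26 Crest.Agent.R4P.DTm407
open Crest.Agent.R4P.TYI47 Crest.Agent.R4P.TYJ47 Crest.Agent.R4P.TYK47 Crest.Agent.R4P.TYP9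
open Crest.Agent.R4P.RsT47 Crest.Agent.R4P.StJ6
open Crest.Agent.R4P.GWa343 Crest.Agent.R4P.GWb343 Crest.Agent.R4P.GWc343 Crest.Agent.R4P.GWf343
open Crest.Agent.R4P.TrR343
open Crest.Agent.R4P.GSK55 (one)
open Crest.Agent.R4P.JnA5 Crest.Agent.R4P.JnE5 Crest.Agent.R4P.JnH5 Crest.Agent.R4P.JnR5
open Crest.Agent.R4P.JnK5
open Crest.Agent.R4P.Skel189 Crest.Agent.R4P.Frame758 Crest.Agent.R4P.Data758
open Crest.Agent.R4.Soft104 Crest.Agent.R4.Fam464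
open Crest.Agent.R4P.StratX36 Crest.Agent.R4P.TopX36
open Crest.Agent.R4P.JnD5
open Crest.Agent.R4P.AsB407 Crest.Agent.R4P.AsC407 Crest.Agent.R4P.AsD407

/-! ### kernels -/

section ker
variable {Λ κ : Type} [Fintype Λ] [DecidableEq Λ] [Fintype κ] [DecidableEq κ]
  {δ : Type} [Fintype δ] [DecidableEq δ] {K K' : ℕ → δ → δ → ℝ} {wr : ℕ → Λ → δ}

lemma bil_addK {κ : Type} [Fintype κ] (K K' : κ → κ → ℝ) (f g : κ → ℝ → ℝ) :
    bil (fun c c' => K c c' + K' c c') f g = bil K f g + bil K' f g := by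
  unfold bil
  rw [← Finset.sum_add_distrib]
  refine Finset.sum_congr rfl fun c _ => ?_
  rw [← Finset.sum_add_distrib]
  refine Finset.sum_congr rfl fun c' _ => ?_
  ring

lemma bil_monoK {κ : Type} [Fintype κ] {K K' : κ → κ → ℝ} (h : ∀ c c', K c c' ≤ K' c c')
    {f g : κ → ℝ → ℝ} (hf : ∀ c, PB (f c)) (hg : ∀ c, PB (g c)) : bil K f g ≤ bil K' f g := by
  unfold bil
  refine Finset.sum_le_sum fun c _ => Finset.sum_le_sum fun c' _ => ?_
  exact mul_le_mul_of_nonneg_right (h c c')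
    (I_nonneg fun x => mul_nonneg ((hf c).nonneg x) ((hg c').nonneg x))

lemma sf_addK (p : ℕ) (t : DT Λ κ) : sf (fun q c c' => K q c c' + K' q c c') wr p t =
    sf K wr p t + sf K' wr p t := bil_addK _ _ _ _

lemma leU_addK (t : DT Λ κ) : ∀ p, leU (fun q c c' => K q c c' + K' q c c') wr p t =
    leU K wr p t + leU K' wr p t := by
  induction t with
  | leaf r f => exact fun p => sf_addK p _
  | br q w r t₁ t₀ v B G ih₁ ih₀ =>
    intro p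
    show (1 - w) * leU _ wr q t₁ + w * leU _ wr q t₀ = ((1 - w) * leU K wr q t₁ + w * leU K wr q t₀) +
      ((1 - w) * leU K' wr q t₁ + w * leU K' wr q t₀)
    rw [ih₁, ih₀]; ring
  | add q r t₁ t₀ ih₁ ih₀ =>
    intro p
    show leU _ wr q t₁ + leU _ wr q t₀ = (leU K wr q t₁ + leU K wr q t₀) +
      (leU K' wr q t₁ + leU K' wr q t₀)
    rw [ih₁, ih₀]; ring
  | up q Sp t ih => exact fun p => ih q

lemma dC_addK (t : DT Λ κ) : dC (fun q c c' => K q c c' + K' q c c') wr t =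
    dC K wr t + dC K' wr t := by
  induction t with
  | leaf r f => show (0:ℝ) = 0 + 0; ring
  | br q w r t₁ t₀ v B G ih₁ ih₀ =>
    show (1 - w) * dC _ wr t₁ + w * dC _ wr t₀ = ((1 - w) * dC K wr t₁ + w * dC K wr t₀) +
      ((1 - w) * dC K' wr t₁ + w * dC K' wr t₀)
    rw [ih₁, ih₀]; ring
  | add q r t₁ t₀ ih₁ ih₀ =>
    show dC _ wr t₁ + dC _ wr t₀ + 2 * bil (fun c c' => K q c c' + K' q c c') _ _ =
      (dC K wr t₁ + dC K wr t₀ + 2 * bil (K q) _ _) + (dC K' wr t₁ + dC K' wr t₀ + 2 * bil (K' q) _ _)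
    rw [ih₁, ih₀, bil_addK]; ring
  | up q Sp t ih => exact ih

lemma leU_monoK (h : ∀ p c c', K p c c' ≤ K' p c c') {t : DT Λ κ} : ∀ (_ : PA t) (_ : t.All W01) (p : ℕ),
    leU K wr p t ≤ leU K' wr p t := by
  induction t with
  | leaf r f => exact fun hA hW p => bil_monoK (h p) (hA.cf _) (hA.cf _)
  | br q w r t₁ t₀ v B G ih₁ ih₀ =>
    intro hA hW p
    have hw : 0 ≤ w ∧ w ≤ 1 := hW.1
    show (1 - w) * leU K wr q t₁ + w * leU K wr q t₀ ≤ (1 - w) * leU K' wr q t₁ + w * leU K' wr q t₀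
    exact add_le_add (mul_le_mul_of_nonneg_left (ih₁ hA.2.1 hW.2.1 q) (by linarith [hw.2]))
      (mul_le_mul_of_nonneg_left (ih₀ hA.2.2 hW.2.2 q) hw.1)
  | add q r t₁ t₀ ih₁ ih₀ =>
    intro hA hW p
    exact add_le_add (ih₁ hA.2.1 hW.2.1 q) (ih₀ hA.2.2 hW.2.2 q)
  | up q Sp t ih =>
    intro hA hW p
    exact ih hA.2 hW.2 q

lemma dC_monoK (h : ∀ p c c', K p c c' ≤ K' p c c') {t : DT Λ κ} (hA : PA t) (hW : t.All W01) :
    dC K wr t ≤ dC K' wr t := by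
  induction t with
  | leaf r f => exact le_rfl
  | br q w r t₁ t₀ v B G ih₁ ih₀ =>
    have hw : 0 ≤ w ∧ w ≤ 1 := hW.1
    show (1 - w) * dC K wr t₁ + w * dC K wr t₀ ≤ (1 - w) * dC K' wr t₁ + w * dC K' wr t₀
    exact add_le_add (mul_le_mul_of_nonneg_left (ih₁ hA.2.1 hW.2.1) (by linarith [hw.2]))
      (mul_le_mul_of_nonneg_left (ih₀ hA.2.2 hW.2.2) hw.1)
  | add q r t₁ t₀ ih₁ ih₀ =>
    have h1 : PA t₁ := hA.2.1
    have h0 : PA t₀ := hA.2.2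
    show dC K wr t₁ + dC K wr t₀ + 2 * bil (K q) (cf (wr q) t₁) (cf (wr q) t₀) ≤
      dC K' wr t₁ + dC K' wr t₀ + 2 * bil (K' q) (cf (wr q) t₁) (cf (wr q) t₀)
    have h3 := bil_monoK (h q) (f := cf (wr q) t₁) (g := cf (wr q) t₀) (h1.cf _) (h0.cf _)
    have h4 := ih₁ h1 hW.2.1
    have h5 := ih₀ h0 hW.2.2
    linarith
  | up q Sp t ih => exact ih hA.2 hW.2

end ker

section ctx
variable {N : Skel189.Num} {γ : ℝ} {p0 P₀ : ℕ} {X : Ctx N γ p0 P₀} {Q : NS → IT → Prop} {C : ℝ}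

/-- the kernel part of a sum of kernels -/
lemma vK_add (K K' : ℕ → X.c.Lam → X.c.Lam → ℝ) (u : NS) (τ : IT) :
    vK (fun q j j' => K q j j' + K' q j j') u τ = vK K u τ + vK K' u τ := by
  unfold vK
  rw [leU_addK, dC_addK]
  ring

/-! ### the real index of a content -/

/-- **the real index of a content of a bundle** -/
theorem ixp_real (cf : CtxF X Q) {p : ℕ} {b : Me × List (DT X.c.Lam (LbX X))}
    (h : InvM X Q C p b) {j : X.c.Lam} {x : ℝ} (hj : jv b.2 j x ≠ 0) :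
    ixp X.c p (X.c.st p j.1.1) (pm X.c.t p b.1 j.1.1) b.1.2 x j = ixf X p j ∧
      p ≤ Skel189.top X.S := by
  obtain ⟨t, ht, h1⟩ := jv_mem hj
  obtain ⟨s, τ, hs, e⟩ := h.mi t ht
  subst e
  exact ⟨PairX41.ix_P cf.hQ cf.hd1 hs h1, hs.2⟩

/-- **equal type, equal real index** (at the column), for the joined pairs -/
def TyR (X : Ctx N γ p0 P₀) (Q : NS → IT → Prop) (C : ℝ) {ζ : Type}
    (D : TD Me X.c.Lam (LbX X) ζ) : Prop :=
  ∀ {p : ℕ} {b : Me × List (DT X.c.Lam (LbX X))}, InvM X Q C p b → ∀ x j j', jv b.2 j x ≠ 0 →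
    jv b.2 j' x ≠ 0 → D.tp p b.1 x j = D.tp p b.1 x j' → D.tp p b.1 x j ≠ none →
    ixf X p j = ixf X p j'

/-- **`KSk` dominates the types** (fields `dom` and `dQ`) -/
theorem dom_of {ζ : Type} [Fintype ζ] [DecidableEq ζ] {D : TD Me X.c.Lam (LbX X) ζ}
    (H : TYp (rhoX X) D (InvM X Q C)) (hR : TyR X Q C D) {p : ℕ}
    {b : Me × List (DT X.c.Lam (LbX X))} (h : InvM X Q C p b) (x : ℝ) (j j' : X.c.Lam)
    (hX : Xp p b.2 x j j') (h1 : D.tp p b.1 x j = D.tp p b.1 x j') (h2 : D.tp p b.1 x j ≠ none) :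
    1 ≤ KSk X p j j' := by
  have hf := Xp.full (H.pb h) hX
  unfold KSk
  rw [if_pos (hR h x j j' hf.1 hf.2 h1 h2)]

theorem dom_full {ζ : Type} {D : TD Me X.c.Lam (LbX X) ζ} (hR : TyR X Q C D) {p : ℕ}
    {b : Me × List (DT X.c.Lam (LbX X))} (h : InvM X Q C p b) (x : ℝ) (j j' : X.c.Lam)
    (hj : jv b.2 j x ≠ 0) (hj' : jv b.2 j' x ≠ 0)
    (h1 : D.tp p b.1 x j = D.tp p b.1 x j') (h2 : D.tp p b.1 x j ≠ none) :
    1 ≤ KSk X p j j' := by
  unfold KSk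
  rw [if_pos (hR h x j j' hj hj' h1 h2)]

/-- **rules whose labels are the real states** -/
theorem tyR_of (cf : CtxF X Q) (r : RF X)
    (hlb : ∀ {p : ℕ} {b : Me × List (DT X.c.Lam (LbX X))}, InvM X Q C p b → ∀ x j,
      jv b.2 j x ≠ 0 → ¬ flg r.F X.c p j.1.1 →
      r.R.lb p (pm X.c.t p b.1 j.1.1) x j = X.c.st p j.1.1) : TyR X Q C r.D := by
  intro p b h x j j' hj hj' h1 h2
  obtain ⟨i1, hp⟩ := ixp_real cf h hj
  obtain ⟨i2, -⟩ := ixp_real cf h hj'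
  have f1 : ¬ flg r.F X.c p j.1.1 := fun hf => h2 (tpF_flg hf)
  have h2' : r.D.tp p b.1 x j' ≠ none := h1 ▸ h2
  have f2 : ¬ flg r.F X.c p j'.1.1 := fun hf => h2' (tpF_flg hf)
  have e1 : r.R.tp (Skel189.top X.S) p b.1 x j = r.R.tp (Skel189.top X.S) p b.1 x j' := by
    have k1 : r.D.tp p b.1 x j = r.R.tp (Skel189.top X.S) p b.1 x j := tpF_not f1
    have k2 : r.D.tp p b.1 x j' = r.R.tp (Skel189.top X.S) p b.1 x j' := tpF_not f2
    rw [← k1, ← k2, h1]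
  have e2 := (Rule.tp_iff hp hp (r.le hp _ _ _ _) (r.le hp _ _ _ _)).1 e1
  have e3 := (Prod.ext_iff.1 e2).1
  have e4 : ixp X.c p (r.R.lb p (pm X.c.t p b.1 j.1.1) x j) (pm X.c.t p b.1 j.1.1) b.1.2 x j =
      ixp X.c p (r.R.lb p (pm X.c.t p b.1 j'.1.1) x j') (pm X.c.t p b.1 j'.1.1) b.1.2 x j' := e3
  rw [hlb h x j hj f1, hlb h x j' hj' f2, i1, i2] at e4
  exact e4

/-! ### the field -/

variable {u : NS} {τ : IT} {j₀ : X.c.Lam}

/-- a family of one value -/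
lemma bd_fam {A : Type} [Fintype A] {ω : A → ℝ} (h0 : ∀ i, 0 ≤ ω i) (h1 : ∑ i, ω i = 1) {v : A → ℝ}
    {Ke a ϑ : ℝ} (hv : ∀ i, v i ≤ Ke * X.mu j₀ u τ Finset.univ)
    (hm0 : 0 ≤ X.mu j₀ u τ Finset.univ) (ha : Ke ≤ a) (ha0 : 0 ≤ a) (hϑ : 0 ≤ ϑ) :
    Bd X j₀ u τ a ϑ (∑ i, ω i * v i) := by
  have h3 : ∀ i, ω i * v i ≤ ω i * (Ke * X.mu j₀ u τ Finset.univ) := fun i =>
    mul_le_mul_of_nonneg_left (hv i) (h0 i)
  have h4 := Finset.sum_le_sum fun i (_ : i ∈ Finset.univ) => h3 i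
  rw [← Finset.sum_mul, h1, one_mul] at h4
  have h5 : Ke * X.mu j₀ u τ Finset.univ ≤ a * X.mu j₀ u τ Finset.univ :=
    mul_le_mul_of_nonneg_right ha hm0
  have I2 : 0 ≤ I (fun x => tt Finset.univ (X.g u τ) x ^ 2) := I_nonneg fun x => sq_nonneg _
  have h6 : 0 ≤ a * (X.mu j₀ u τ Finset.univ * X.mu j₀ u τ Finset.univ) := by positivity
  have h7 : 0 ≤ a * ϑ * I (fun x => tt Finset.univ (X.g u τ) x ^ 2) := by positivity
  unfold Bd
  linarith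

/-- **kernels `KSk + K'`** -/
theorem bd_vK_add {A : Type} [Fintype A] {ω : A → ℝ} (h0 : ∀ i, 0 ≤ ω i) (h1 : ∑ i, ω i = 1)
    {K' : A → ℕ → X.c.Lam → X.c.Lam → ℝ} {Ke a a' ϑ : ℝ} (hKe : 0 ≤ Ke)
    (hv : vK (KSk X) u τ ≤ Ke * X.mu j₀ u τ Finset.univ)
    (hm0 : 0 ≤ X.mu j₀ u τ Finset.univ) (ha0' : 0 ≤ a') (hϑ : 0 ≤ ϑ)
    (hK' : Bd X j₀ u τ a' ϑ (∑ i, ω i * vK (K' i) u τ)) (ha : Ke + a' ≤ a) :
    Bd X j₀ u τ a ϑ (∑ i, ω i * vK (fun q j j' => KSk X q j j' + K' i q j j') u τ) := by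
  have e : ∑ i, ω i * vK (fun q j j' => KSk X q j j' + K' i q j j') u τ =
      vK (KSk X) u τ + ∑ i, ω i * vK (K' i) u τ := by
    have : ∀ i, ω i * vK (fun q j j' => KSk X q j j' + K' i q j j') u τ =
        ω i * vK (KSk X) u τ + ω i * vK (K' i) u τ := fun i => by rw [vK_add]; ring
    rw [Finset.sum_congr rfl fun i _ => this i, Finset.sum_add_distrib, ← Finset.sum_mul, h1, one_mul]
  rw [e]
  unfold Bd at hK' ⊢
  have h5 : Ke * X.mu j₀ u τ Finset.univ + a' * X.mu j₀ u τ Finset.univ ≤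
      a * X.mu j₀ u τ Finset.univ := by
    rw [← add_mul]
    exact mul_le_mul_of_nonneg_right ha hm0
  have I2 : 0 ≤ I (fun x => tt Finset.univ (X.g u τ) x ^ 2) := I_nonneg fun x => sq_nonneg _
  have h7 : a' ≤ a := by linarith
  have h6 : a' * (X.mu j₀ u τ Finset.univ * X.mu j₀ u τ Finset.univ) ≤
      a * (X.mu j₀ u τ Finset.univ * X.mu j₀ u τ Finset.univ) :=
    mul_le_mul_of_nonneg_right h7 (mul_nonneg hm0 hm0)
  have h8 : a' * ϑ * I (fun x => tt Finset.univ (X.g u τ) x ^ 2) ≤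
      a * ϑ * I (fun x => tt Finset.univ (X.g u τ) x ^ 2) :=
    mul_le_mul_of_nonneg_right (mul_le_mul_of_nonneg_right h7 hϑ) I2
  linarith

end ctx

open Crest.Agent.R4P.Fin5 (CF)
open Crest.Agent.R4P.NumX34
open Crest.Agent.R4P.FinE26 (ForN)

/-- **the target** `hLeU`, kernel `KSk X` : all the nodes which are no leaves, all the families -/
def TgtLeU (N : Skel189.Num) (γ : ℝ) : Prop :=
  ∃ Ke : ℝ, 0 ≤ Ke ∧ Ev N γ fun p0 P₀ X => CF X → ∀ j₀ : X.c.Lam,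
    All (fun u τ => ¬ isL τ → vK (KSk X) u τ ≤ Ke * X.mu j₀ u τ Finset.univ ∧
      0 ≤ X.mu j₀ u τ Finset.univ ∧ ∀ {A : Type} [Fintype A]
      {ω : A → ℝ}, (∀ i, 0 ≤ ω i) → ∑ i, ω i = 1 → ∀ {a ϑ : ℝ},
      Ke ≤ a → 0 ≤ a → 0 ≤ ϑ → Bd X j₀ u τ a ϑ (∑ i, ω i * vK (KSk X) u τ))
      ⟨top X.S, 1, 1, 1⟩ X.c.t

/-- **`hLeU`, final numbers** -/
theorem tgtLeU_fin : ForN ParT21.thF NumG23.SxF TgtLeU := by
  obtain ⟨c, h⟩ := tgtJR_fin
  refine ⟨c, fun N Ct C₀ γ h1 h2 h3 => ?_⟩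
  obtain ⟨Ke, hKe, h4⟩ := h N Ct C₀ γ h1 h2 h3
  refine ⟨Ke, hKe, h4.mono fun p0 P₀ X hh hC j₀ => ?_⟩
  refine All.mono (fun u τ g hl => ?_) ((hh hC j₀).and (ctx_mumu X j₀))
  have g2 : 0 ≤ X.mu j₀ u τ Finset.univ := (g.2 Finset.univ).1
  have g1 : vK (KSk X) u τ ≤ Ke * X.mu j₀ u τ Finset.univ := g.1 hl _
  refine ⟨g1, g2, fun {A} _ {ω} w0 w1 {a ϑ} ha ha0 hϑ => ?_⟩
  exact bd_fam w0 w1 (fun _ => g1) g2 ha ha0 hϑ

end Crest.Agent.R4P.JnP5
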