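import Crest.Agent.R4P.AsE_407
import Crest.Agent.R4P.AsD_407
import Crest.Agent.R4P.AsF_50
import Crest.Agent.R4P.JnP_5

/-!
R4 (S0004) with powers, T3, helper407: **families of games of static rules, static form of the inputs**.

* `bd_mono`, `bd_fam0`; **`pB_tie`** (content at the tie above an N piece), **`TyL`** (a low type determines the
  real index) and **`TyL.of`** (rules whose labels are the real states, also below the ties);
* `JT` : the only input of the jumps (`R3 = False`): two N pieces of a tie; **`JT.jin : JIn ..`**;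
* **`FmS X j₀ u τ n J a ϑ`** : static form of the inputs of a family at a node; **`FmS.fk : FmK ..`**;
* **`TgtS`**, **`TgtS.k : TgtS N γ P → TgtK N γ P`** (energies of the children: `EnC48.ctx_F3`).
-/

set_option autoImplicit false
set_option linter.unusedSectionVars false
set_option linter.unusedVariables false
open MeasureTheory Filter Set

namespace Crest.Agent.R4P.AsI407

open Crest.Agent.R4.Tour104 Crest.Agent.R4.Tour758 Crest.Agent.R4.Avg758 Crest.Agent.R4.Clos758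
open Crest.Agent.R4.ClosL758 Crest.Agent.R4.ClosG758 Crest.Agent.R4.ClosR758
open Crest.Agent.R4P.ClosR442 Crest.Agent.R4P.Grp36
open Crest.Agent.R4P.Xfer36 Crest.Agent.R4P.TopC36 Crest.Agent.R4P.PN36
open Crest.Agent.R4P.GWa343 Crest.Agent.R4P.GWb343
open Crest.Agent.R4P.GWc343 hiding SB
open Crest.Agent.R4P.GWd343 Crest.Agent.R4P.GWf343 Crest.Agent.R4P.TrR343
open Crest.Agent.R4P.GCol27
open Crest.Agent.R4P.RSys343 Crest.Agent.R4P.RXm55 Crest.Agent.R4P.MSm25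
open Crest.Agent.R4P.MSd343 Crest.Agent.R4P.VR407 Crest.Agent.R4P.Bp407 Crest.Agent.R4P.DTm407
open Crest.Agent.R4P.DTn407 Crest.Agent.R4P.DTo407 Crest.Agent.R4P.DTs407
open Crest.Agent.R4P.DTe407 hiding ch_mul
open Crest.Agent.R4P.DTp26
open Crest.Agent.R4P.Cnt588 Crest.Agent.R4P.Item758 Crest.Agent.R4P.W363
open Crest.Agent.R4P.Bld532 (NS All NodeOk Bk)
open Crest.Agent.R4P.WalkIT579 (tp isL toDT_top toDT_leaf)
open Crest.Agent.R4P.Walk560 (DT WrN)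
open Crest.Agent.R4P.StratN36 (ex)
open Crest.Agent.R4P.Step588 Crest.Agent.R4P.RseSt23
open Crest.Agent.R4P.TYI47 Crest.Agent.R4P.TYJ47 Crest.Agent.R4P.TYK47 Crest.Agent.R4P.TYP9
open Crest.Agent.R4P.RsT47
open Crest.Agent.R4P.StE6 Crest.Agent.R4P.StF6 Crest.Agent.R4P.StG6 Crest.Agent.R4P.StJ6
open Crest.Agent.R4P.GSK55 (stp gk Pr Kw Kw_succ Kw_z Kw_mono one one_TC one_su)
open Crest.Agent.R4P.PayR45 (BM BCh PV)
open Crest.Agent.R4P.PVd45 (DI)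
open Crest.Agent.R4P.PVe45 (LB Cr)
open Crest.Agent.R4P.JnE5 Crest.Agent.R4P.JnH5
open Crest.Agent.R4P.MSi343 (su)
open Crest.Agent.R4P.Skel189 Crest.Agent.R4P.Frame758 Crest.Agent.R4P.Data758
open Crest.Agent.R4.Soft104 Crest.Agent.R4.Fam464
open Crest.Agent.R4P.StratX36 Crest.Agent.R4P.TopX36
open Crest.Agent.R4P.PrH45 Crest.Agent.R4P.PrI45 Crest.Agent.R4P.PrJ45 Crest.Agent.R4P.PrK45
open Crest.Agent.R4P.PrE45 Crest.Agent.R4P.PrG45 Crest.Agent.R4P.PrD45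
open Crest.Agent.R4P.RGd25
open Crest.Agent.R4P.AsB407 Crest.Agent.R4P.AsC407 Crest.Agent.R4P.AsD407 Crest.Agent.R4P.AsE407
open Crest.Agent.R4P.EvC47 Crest.Agent.R4P.CrZ41
open Crest.Agent.R4P.JnP5 (TyR dom_full)
open Crest.Agent.R4P.JnK5 Crest.Agent.R4P.JnD5 Crest.Agent.R4P.JnR5 Crest.Agent.R4P.JnA5
open Crest.Agent.R4P.BthW48 (XX CzT)

section ctx
variable {N : Skel189.Num} {γ : ℝ} {p0 P₀ : ℕ} {X : Ctx N γ p0 P₀} {j₀ : X.c.Lam}
  {u : NS} {τ : IT} {Q : NS → IT → Prop} {C : ℝ} {n : ℕ} {a a' ϑ : ℝ}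

/-! ### the form `Bd` -/

lemma bd_mono (h : a ≤ a') (hϑ : 0 ≤ ϑ) (hμ : 0 ≤ X.mu j₀ u τ Finset.univ) {v : ℝ}
    (hv : Bd X j₀ u τ a ϑ v) : Bd X j₀ u τ a' ϑ v := by
  unfold Bd at hv ⊢
  have I2 : 0 ≤ I (fun x => tt Finset.univ (X.g u τ) x ^ 2) := I_nonneg fun x => sq_nonneg _
  have m0 : 0 ≤ X.mu j₀ u τ Finset.univ + X.mu j₀ u τ Finset.univ *
      X.mu j₀ u τ Finset.univ := by positivity
  have h1 := mul_le_mul_of_nonneg_right h m0
  have h2 := mul_le_mul_of_nonneg_right (mul_le_mul_of_nonneg_right h hϑ) I2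
  linarith

/-- a family of one bound -/
lemma bd_one {A : Type} [Fintype A] {ω v : A → ℝ} (ω0 : ∀ i, 0 ≤ ω i) (ω1 : ∑ i, ω i = 1) {e : ℝ}
    (hv : ∀ i, v i ≤ e * X.mu j₀ u τ Finset.univ) (he : e ≤ a) (ha : 0 ≤ a) (hϑ : 0 ≤ ϑ)
    (hμ : 0 ≤ X.mu j₀ u τ Finset.univ) : Bd X j₀ u τ a ϑ (∑ i, ω i * v i) := by
  refine bd_mu (C := e) ?_ he ha hϑ hμ
  have h1 := Finset.sum_le_sum fun i (_ : i ∈ Finset.univ) => mul_le_mul_of_nonneg_left (hv i) (ω0 i)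
  rwa [← Finset.sum_mul, ω1, one_mul] at h1

/-! ### the real index below the ties -/

/-- content at a point of the tie above an N piece -/
lemma pB_tie (cf : CtxF X Q) {p : ℕ} {b : Me × List (DT X.c.Lam (LbX X))}
    (h : InvM X Q C p b) (hp : p ≠ 0) {j : X.c.Lam} {y : ℝ} (hB : pB (bB p b.2) j y ≠ 0) :
    ∃ i : ℕ, i < p ∧ jv (bB p b.2) j ((y + i) / p) ≠ 0 := by
  by_contra hc
  push Not at hc
  have e9 : Ep p (pG (bB p b.2) j) y = 1 / (p : ℝ) * pB (bB p b.2) j y := by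
    unfold Ep
    rw [lift_pG h.kok j y]; ring
  have h0 : Ep p (pG (bB p b.2) j) y = 0 := by
    unfold Ep
    rw [Finset.sum_eq_zero, zero_div]
    intro k hk
    have hk' : k < p := Finset.mem_range.1 hk
    have hc' := hc k hk'
    by_contra hG
    have hB' : pB (bB p b.2) j (p * ((y + k) / p)) ≠ 0 := pG_supp h.kok (Nat.pos_of_ne_zero hp) hG
    have hA : pA (bB p b.2) j (p * ((y + k) / p)) = 0 := by
      by_contra hA
      have h1 := E3X479.pA_ex cf.hQ h hp hA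
      have h2 := E3X479.pB_ex cf.hQ h hp hB'
      omega
    have hv : vT p (bB p b.2) j ((y + k) / p) ≠ 0 := by
      rw [vT_eq h.kok]
      unfold vF
      rw [hA]
      simpa using hG
    exact LDat.pQ_vT h hp hv hc'
  rw [h0] at e9
  have hpp : (0:ℝ) < p := by exact_mod_cast Nat.pos_of_ne_zero hp
  have : 1 / (p : ℝ) ≠ 0 := by positivity
  rcases mul_eq_zero.1 e9.symm with h1 | h1
  · exact this h1
  · exact hB h1

/-- content above the tie, at a point of the fibre -/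
lemma pAB_tie (cf : CtxF X Q) (r : RF X) {p : ℕ} {b : Me × List (DT X.c.Lam (LbX X))}
    (h : InvM X Q C p b) (hp : p ≠ 0) {j : X.c.Lam} {y : ℝ}
    (hj : pA (bB p b.2) j y ≠ 0 ∨ pB (bB p b.2) j y ≠ 0) :
    ∃ i : ℕ, i < p ∧ jv (bB p b.2) j ((y + i) / p) ≠ 0 := by
  rcases hj with hj | hj
  · exact pA_tie cf r h hp hj
  · exact pB_tie cf h hp hj

lemma per_nat' {ι : Type*} {f : ℝ → ι} (h : MP f) (y : ℝ) (i : ℕ) : f (y + i) = f y := by
  induction i with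
  | zero => simp
  | succ i ih =>
    rw [Nat.cast_succ, ← add_assoc, h.per, ih]

/-- **a low type determines the real index** of the contents of the ties -/
def TyL (X : Ctx N γ p0 P₀) (Q : NS → IT → Prop) (C : ℝ) {ζ : Type}
    (D : TD Me X.c.Lam (LbX X) ζ) : Prop :=
  ∀ {p : ℕ} {b : Me × List (DT X.c.Lam (LbX X))}, InvM X Q C p b → p ≠ 0 → ∀ y j j',
    (pA (bB p b.2) j y ≠ 0 ∨ pB (bB p b.2) j y ≠ 0) →
    (pA (bB p b.2) j' y ≠ 0 ∨ pB (bB p b.2) j' y ≠ 0) →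
    D.lt p b.1 y j = D.lt p b.1 y j' → D.lt p b.1 y j ≠ none → ixf X p j = ixf X p j'

/-- **the real index of a content in the coordinates of the child** -/
theorem ixp_low (cf : CtxF X Q) (r : RF X) {p : ℕ} {b : Me × List (DT X.c.Lam (LbX X))}
    (h : InvM X Q C p b) (hp : p ≠ 0) {j : X.c.Lam} {y : ℝ}
    (hj : pA (bB p b.2) j y ≠ 0 ∨ pB (bB p b.2) j y ≠ 0) :
    ixp X.c p (X.c.st p j.1.1) (pm X.c.t p (tuM p b.1) j.1.1) (tuM p b.1).2 y j = ixf X p j ∧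
      p ≤ Skel189.top X.S := by
  obtain ⟨i, -, hv⟩ := pAB_tie cf r h hp hj
  have hT := tie_node cf.hQ cf.hd1 h hv
  have hfull : jv b.2 j ((y + i) / p) ≠ 0 := (jv_part ((r.H (C := C) cf).pb h)).2.1 hv
  obtain ⟨i1, i2⟩ := JnP5.ixp_real cf h hfull
  refine ⟨?_, i2⟩
  rw [← i1, ← hT.ix]
  have hpp : (p : ℝ) ≠ 0 := by exact_mod_cast hp
  have e : (p : ℝ) * ((y + i) / p) = y + i := by field_simp
  rw [e]
  exact (per_nat' (MP_ixp0 X.c p (X.c.st p j.1.1) (pm X.c.t p (tuM p b.1) j.1.1) (tuM p b.1).2 j)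
    y i).symm

/-- **rules whose labels are the real states, also below the ties** -/
theorem TyL.of (cf : CtxF X Q) (r : RF X)
    (hlb : ∀ {p : ℕ} {b : Me × List (DT X.c.Lam (LbX X))}, InvM X Q C p b → p ≠ 0 → ∀ y j,
      (pA (bB p b.2) j y ≠ 0 ∨ pB (bB p b.2) j y ≠ 0) → ¬ flg r.F X.c p j.1.1 →
      r.R.lb p (pm X.c.t p (tuM p b.1) j.1.1) y j = X.c.st p j.1.1) : TyL X Q C r.D := by
  intro p b h hp y j j' hj hj' h1 h2
  obtain ⟨i1, hn⟩ := ixp_low cf r h hp hj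
  obtain ⟨i2, -⟩ := ixp_low cf r h hp hj'
  have f1 : ¬ flg r.F X.c p j.1.1 := fun hf => h2 (tpF_flg hf)
  have h2' : r.D.lt p b.1 y j' ≠ none := h1 ▸ h2
  have f2 : ¬ flg r.F X.c p j'.1.1 := fun hf => h2' (tpF_flg hf)
  have e1 : r.R.tp (Skel189.top X.S) p (tuM p b.1) y j =
      r.R.tp (Skel189.top X.S) p (tuM p b.1) y j' := by
    have k1 : r.D.lt p b.1 y j = r.R.tp (Skel189.top X.S) p (tuM p b.1) y j := tpF_not f1
    have k2 : r.D.lt p b.1 y j' = r.R.tp (Skel189.top X.S) p (tuM p b.1) y j' := tpF_not f2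
    rw [← k1, ← k2, h1]
  have e2 := (Rule.tp_iff hn hn (r.le hn _ _ _ _) (r.le hn _ _ _ _)).1 e1
  have e3 := (Prod.ext_iff.1 e2).1
  have e4 : ixp X.c p (r.R.lb p (pm X.c.t p (tuM p b.1) j.1.1) y j)
      (pm X.c.t p (tuM p b.1) j.1.1) (tuM p b.1).2 y j =
      ixp X.c p (r.R.lb p (pm X.c.t p (tuM p b.1) j'.1.1) y j')
      (pm X.c.t p (tuM p b.1) j'.1.1) (tuM p b.1).2 y j' := e3
  rw [hlb h hp y j hj f1, hlb h hp y j' hj' f2, i1, i2] at e4
  exact e4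

/-! ### the jumps -/

section jumps
open Crest.Agent.R4P.E3V479 Crest.Agent.R4P.E3W479 Crest.Agent.R4P.E3F479
open Crest.Agent.R4P.E3X479 hiding diX
open Crest.Agent.R4P.E3Y479
open Crest.Agent.R4P.GPair33 (vN)

variable {ζ : Type} [Fintype ζ] [DecidableEq ζ] {D : TD Me X.c.Lam (LbX X) ζ}
  {gr : ℕ → X.c.Lam → Option ζ × Option ζ → Fin n}

/-- **two N pieces of a tie** (the only input of the jumps without related pairs), rates `r` -/
structure JT (X : Ctx N γ p0 P₀) (Q : NS → IT → Prop) (D : TD Me X.c.Lam (LbX X) ζ)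
    (gr : ℕ → X.c.Lam → Option ζ × Option ζ → Fin n) (r : ℕ → Me → X.c.Lam → ℝ → ℝ) : Prop where
  pr : ∀ p m j, PB (r p m j)
  tie : ∀ {p m s Sp t₁ t₀ s' Sp' t₁' t₀'}, p ≠ 0 → RtX X Q p m s (.br p Sp t₁ t₀) →
    RtX X Q p m s' (.br p Sp' t₁' t₀') →
    I (qe (fun x j i => tR X D gr R30 p m x j i)
      (vN X (.inl (s, .br p Sp t₁ t₀))) (vN X (.inl (s', .br p Sp' t₁' t₀')))) ≤
      lin (E3Y479.cut (sdX X p m) (r p m)) (vN X (.inl (s, .br p Sp t₁ t₀))) +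
        lin (E3Y479.cut (sdX X p m) (r p m)) (vN X (.inl (s', .br p Sp' t₁' t₀')))

lemma lin_z {Λ : Type} [Fintype Λ] (V : Λ → ℝ → ℝ) : lin (fun _ _ => 0) V = 0 := by
  unfold lin
  simp [I_zero]

lemma cut_z {Λ : Type} (P : Λ → Prop) : (E3Y479.cut P fun _ _ => (0:ℝ)) = fun _ _ => 0 := by
  funext j y
  unfold E3Y479.cut
  split_ifs <;> rfl

lemma I_qe_z {Λ : Type} [Fintype Λ] {R : ℝ → Λ → Λ → Prop} {V U : Λ → ℝ → ℝ}
    (h : ∀ x j i, ¬ R x j i) : I (qe R V U) = 0 := by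
  have : qe R V U = fun _ => 0 := funext fun x => E3Y479.qe_zero fun j i hr => absurd hr (h x j i)
  rw [this, E3Y479.I_zero]

/-- **the inputs of the jumps** -/
theorem JT.jin {r : ℕ → Me → X.c.Lam → ℝ → ℝ} (h : JT X Q D gr r) :
    JIn X Q D gr R30 R30 R30 (fun _ _ _ _ => 0) r (fun _ _ _ _ => 0) (fun _ _ _ _ => 0) where
  mR := fun _ _ _ _ => MP.const False
  mG := fun _ _ _ _ => MP.const False
  mGx := fun _ _ _ _ => MP.const False
  pe := fun _ _ _ => PB.const le_rfl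
  pr := h.pr
  pN := fun _ _ _ => PB.const le_rfl
  pP := fun _ _ _ => PB.const le_rfl
  rest := fun {p m u τ u' τ'} _ _ _ _ _ _ _ => by
    rw [I_qe_z fun x j i h => h.1.1, lin_z, lin_z, add_zero]
  tie := fun {p m s Sp t₁ t₀ s' Sp' t₁' t₀'} hp h1 h2 => by
    refine le_trans (le_of_eq ?_) (h.tie hp h1 h2)
    congr 2
    funext x j i
    exact propext ⟨fun h => h.1, fun h => ⟨h, fun h => h⟩⟩
  mix := fun {p m s Sp t₁ t₀ u' τ'} _ _ _ _ _ => by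
    rw [I_qe_z fun x j i h => h.1.1.elim id id, lin_z, cut_z, lin_z]
    simp
  pp := fun _ _ _ _ _ _ _ _ _ h => absurd h id
  one := fun _ _ _ _ _ _ _ _ _ h => absurd h fun h => h.elim id id

end jumps

/-! ### the family -/

section fam
open Crest.Agent.R4P.E3V479 Crest.Agent.R4P.E3W479 Crest.Agent.R4P.E3F479
open Crest.Agent.R4P.E3X479 hiding diX
open Crest.Agent.R4P.E3Y479
open Crest.Agent.R4P.GPair33 (vN)

/-- no relabelled pairs: the energy of the ties in the kernel `0` -/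
lemma ts_F10 (t : DT X.c.Lam (LbX X)) : ts (F1 (fun _ _ _ => (0:ℝ))) t = 0 := by
  have e : ∀ q (a b : X.c.Lam → ℝ → ℝ), F1 (fun _ _ _ => (0:ℝ)) q a b = 0 := fun q a b => by
    unfold F1 bil
    simp
  induction t with
  | leaf r f => rfl
  | br q w r t₁ t₀ v B G ih₁ ih₀ => simp only [ts, ih₁, ih₀, e]; split_ifs <;> simp
  | add q r t₁ t₀ ih₁ ih₀ => simp only [ts, ih₁, ih₀, add_zero]
  | up q Sp t ih => simp only [ts, ih]

/-- no related pairs: no root energy -/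
lemma vPhi_zero {cf : CtxF X Q} (G : SDat X Q C n cf) (u : NS) (τ : IT) : G.gm.vPhi u τ = 0 := by
  unfold Gm.vPhi Pp
  refine Finset.sum_eq_zero fun k _ => Finset.sum_eq_zero fun k' _ => ?_
  have : Pe G.gm.R3 (X.self u τ Finset.univ).p ((one (b₀ X u τ)).L k) ((one (b₀ X u τ)).L k') = 0 := by
    unfold Pe
    exact I_qe_z fun x j i h => h
  rw [this, mul_zero]

/-- no related pairs: no `p⁻²` terms -/
lemma vJE_zero {cf : CtxF X Q} (G : SDat X Q C n cf) (u : NS) (τ : IT) (k : ℕ) :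
    vJE G.gm u τ k = 0 := by
  unfold vJE
  have e0 : (Ps fun (p : ℕ) (b b' : Me × List (DT X.c.Lam (LbX X))) =>
      I (jE G.gm.R3 G.gm.D.tu G.gm.sd p b b')) = fun _ _ => 0 := by
    funext p s
    unfold Ps
    refine Finset.sum_eq_zero fun k _ => Finset.sum_eq_zero fun k' _ => ?_
    have e1 : I (jE G.gm.R3 G.gm.D.tu G.gm.sd p (s.L k) (s.L k')) = 0 := by
      have : jE G.gm.R3 G.gm.D.tu G.gm.sd p (s.L k) (s.L k') = fun _ => 0 := by
        funext y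
        unfold jE
        rw [E3Y479.qe_zero fun j i h => absurd h.1 id, E3Y479.qe_zero fun j i h => absurd h.1 id]
        simp
      rw [this, E3Y479.I_zero]
    show s.c k * s.c k' * I (jE G.gm.R3 G.gm.D.tu G.gm.sd p (s.L k) (s.L k')) = 0
    rw [e1, mul_zero]
  rw [e0]
  have h := GSK55.Kw_smul (M := bm G.gm.R) 0 (fun _ _ => (0:ℝ)) k
    (X.self u τ Finset.univ).p (GSK55.one (b₀ X u τ))
  simpa using h

/-- **static form of the inputs of a family of games at one node** -/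
structure FmS (X : Ctx N γ p0 P₀) (j₀ : X.c.Lam) (u : NS) (τ : IT) (n : ℕ) (J a ϑ : ℝ) where
  Q : NS → IT → Prop
  cf : CtxF X Q
  C : ℝ
  all : All Q u τ
  hB : InvM X Q C (X.self u τ Finset.univ).p (b₀ X u τ)
  /-- the parameters of the rules -/
  A : Type
  [fA : Fintype A]
  [nA : Nonempty A]
  ω : A → ℝ
  ω0 : ∀ i, 0 ≤ ω i
  ω1 : ∑ i, ω i = 1
  /-- the rules and their prices -/
  G : A → SDat X Q C n cf
  hV : ∀ j x, jv (b₀ X u τ).2 j x ≠ 0 →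
    ∑ i, ω i * ∑ m ∈ Finset.range ((X.self u τ Finset.univ).p + 1),
      (G i).V.f m j (zb X.c (X.self u τ Finset.univ).p (b₀ X u τ).1 x j) ≤ J
  /-- the types determine the real index -/
  ty : ∀ i, TyR X Q C (G i).r.D
  /-- separated pairs -/
  KN : A → ℕ → X.c.Lam → X.c.Lam → ℝ
  KB : A → ℕ → X.c.Lam → X.c.Lam → ℝ
  sep : ∀ i, SepK (G i).gm (KSk X) (KN i) (KB i)
  hN : Bd X j₀ u τ a ϑ (∑ i, ω i * rE (RN (KN i)) (X.self u τ Finset.univ).p (tX X u τ))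
  hFB : Bd X j₀ u τ a ϑ (∑ i, ω i * ts (FB (KB i)) (tX X u τ))
  hPN : Bd X j₀ u τ a ϑ (∑ i, ω i * pn (KB i) (tX X u τ))
  /-- second order pairs of the births -/
  KT : A → ℕ → X.c.Lam → X.c.Lam → ℝ
  jb : ∀ i, JB ((G i).r.H (C := C) cf) (fun _ _ _ => 0) (KT i) (TA (G i).r) 1 (tA N)
  hT : Bd X j₀ u τ a ϑ (∑ i, ω i * pn (fun p j l => tA N p * KT i p j l) (tX X u τ))
  /-- jumps: two N pieces of a tie -/
  r3 : A → ℕ → Me → X.c.Lam → ℝ → ℝ
  jt : ∀ i, JT X Q (G i).r.D (G i).gr (r3 i)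
  Z3 : ∀ i, Cr ((lbX ((G i).r.H (C := C) cf)).pv diX)
  z3 : ∀ i {p b}, InvM X Q C p b → p ≠ 0 → ∀ j x, jv (bB p b.2) j x ≠ 0 → sdX X p b.1 j →
    r3 i p b.1 j x ≤ (Z3 i).r p b j x
  z3ρ : ∀ j x, jv (b₀ X u τ).2 j x ≠ 0 →
    ∑ i, ω i * (Z3 i).ρ (X.self u τ Finset.univ).p (b₀ X u τ) j x ≤ a
  /-- content outside the game -/
  k0 : ℕ
  hU : ∀ k, k0 ≤ k → Bd X j₀ u τ a ϑ (∑ i, ω i * (G i).gm.vU u τ k)

attribute [instance] FmS.fA FmS.nA

/-- **kernel form from the static form** -/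
noncomputable def FmS.fk {J a ϑ : ℝ} (F : FmS X j₀ u τ n J a ϑ) (ha : 0 ≤ a) (hϑ : 0 ≤ ϑ)
    (hμ : 0 ≤ X.mu j₀ u τ Finset.univ) (hK : Bd X j₀ u τ a ϑ (∑ i, F.ω i * vK (KSk X) u τ))
    (h3 : Bd X j₀ u τ a ϑ (∑ i, F.ω i * ts (F3 (fun q => 1 / tA N q) (fun _ _ _ => 1)) (tX X u τ)))
    (hE : ∀ k, F.k0 ≤ k → Bd X j₀ u τ a ϑ (∑ i, F.ω i * (F.G i).gm.vE u τ k)) :
    FmK X j₀ u τ n (J + 240) a ϑ where
  Q := F.Q
  hQ := F.cf.hQ
  C := F.C
  hB := F.hB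
  A := F.A
  fA := F.fA
  nA := F.nA
  ω := F.ω
  ω0 := F.ω0
  ω1 := F.ω1
  G := fun i => (F.G i).gm
  hsd := fun _ => rfl
  hρ := fun j x hj => avg_rho F.ω0 F.ω1 F.G (F.hV j x hj)
  K := fun _ => KSk X
  hK := fun _ p => KSk_ker X p
  dom := fun i {p b} h x j j' hX h1 h2 => JnP5.dom_of ((F.G i).r.H (C := F.C) F.cf) (F.ty i) h x j j' hX h1 h2
  hLeU := hK
  KN := F.KN
  KB := F.KB
  sep := F.sep
  hN := F.hN
  hFB := F.hFB
  hPN := F.hPN
  K3 := fun _ _ _ _ => 1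
  K1 := fun _ _ _ _ => 0
  KT := F.KT
  TJ := fun i => TA (F.G i).r
  m₀ := 1
  t := tA N
  hK3 := fun _ _ => ⟨fun _ _ => zero_le_one, fun _ _ => rfl⟩
  dom3 := fun _ {_ _} _ _ _ _ _ _ _ _ => le_rfl
  jb := F.jb
  h1 := AsF50.bd_zeros ha hϑ hμ fun i => ts_F10 _
  hT := by
    rw [div_one]
    exact F.hT
  h3 := h3
  hPhi := AsF50.bd_zeros ha hϑ hμ fun i => vPhi_zero _ u τ
  Ge := fun _ => R30
  Gx := fun _ => R30
  e3 := fun _ _ _ _ _ => 0
  r3 := F.r3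
  aN := fun _ _ _ _ _ => 0
  aP := fun _ _ _ _ _ => 0
  jin := fun i => (F.jt i).jin
  Z3 := F.Z3
  z3e := fun i {p b} hb hp j x _ => ((F.Z3 i).pe hb hp j).nonneg x
  z3N := fun i {p b} hb hp j x hj hs => by
    rw [add_zero]
    exact F.z3 i hb hp j x hj hs
  z3P := fun i {p b} hb hp j x _ _ => by
    rw [mul_zero]
    exact ((F.Z3 i).pr hb hp j).nonneg x
  z3ρ := F.z3ρ
  k0 := F.k0
  hGp := fun k _ => AsF50.bd_Gp (fun i => (F.G i).gm) ha hϑ hμ k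
  hJE := fun k _ => AsF50.bd_zeros ha hϑ hμ fun i => vJE_zero _ u τ k
  hU := F.hU
  hX := fun k _ => AsF50.bd_X (fun i => (F.G i).ld) ha hϑ hμ k
  hE := hE
  hCS := AsF50.bd_CS (fun i => (F.G i).ld) ha hϑ hμ

end fam

end ctx

end Crest.Agent.R4P.AsI407
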