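import Crest.Agent.R4P.AsD_407
import Crest.Agent.R4P.EnC_48

/-!
R4 (S0004) with powers, T3, helper50: **the `p⁻²` terms of the jumps** (field `hJE` of `AsD407.FmK`).

* `mm_sd` : on the N side the mean content of the children is `1/p` times the N child;
* `I_qe_le` : `I (qe R V W) ≤ (E2 V + E2 W) / 2`; **`I_jE_le`** : `I (jE b b') ≤ e(b) + e(b')`,
  `e = p⁻² (E2 (P child) + E2 (N child)) / 2`;
* **`vJE_le`** : `vJE ≤ ts FJ` (`FJ q a b = q⁻² (E2 a + E2 b)`), for every game;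
* **`ctx_JE`**, **`bd_JE`** : `ts FJ ≤ ε mu` at the nodes of a context (bootstrap hypothesis), the field `hJE`.
-/

set_option autoImplicit false
set_option linter.unusedSectionVars false
set_option linter.unusedVariables false
open MeasureTheory Filter Set

namespace Crest.Agent.R4P.AsJ50

open Crest.Agent.R4.Tour104 Crest.Agent.R4.Tour758 Crest.Agent.R4.Avg758 Crest.Agent.R4.Clos758
open Crest.Agent.R4.ClosL758 Crest.Agent.R4.ClosG758 Crest.Agent.R4.ClosR758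
open Crest.Agent.R4P.ClosR442 Crest.Agent.R4P.Grp36
open Crest.Agent.R4P.Xfer36 Crest.Agent.R4P.TopC36 Crest.Agent.R4P.PN36
open Crest.Agent.R4P.GWa343 Crest.Agent.R4P.GWb343
open Crest.Agent.R4P.GWc343 Crest.Agent.R4P.GWd343 Crest.Agent.R4P.GWf343 Crest.Agent.R4P.TrR343
open Crest.Agent.R4P.RXm55 Crest.Agent.R4P.MSm25
open Crest.Agent.R4P.VR407 Crest.Agent.R4P.Bp407 Crest.Agent.R4P.DTm407
open Crest.Agent.R4P.DTn407 Crest.Agent.R4P.DTo407
open Crest.Agent.R4P.DTp26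
open Crest.Agent.R4P.Cnt588 Crest.Agent.R4P.Item758
open Crest.Agent.R4P.Bld532 (NS All NodeOk)
open Crest.Agent.R4P.WalkIT579 (tp isL toDT_top toDT_leaf)
open Crest.Agent.R4P.Walk560 (DT WrN)
open Crest.Agent.R4P.Step588 Crest.Agent.R4P.RseSt23
open Crest.Agent.R4P.TYI47 Crest.Agent.R4P.TYJ47 Crest.Agent.R4P.TYK47 Crest.Agent.R4P.TYP9
open Crest.Agent.R4P.RsT47
open Crest.Agent.R4P.GSK55 (stp gk Pr Kw Kw_succ Kw_z Kw_mono one one_TC one_su one_M)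
open Crest.Agent.R4P.PayR45 (BM BCh PV)
open Crest.Agent.R4P.PVd45 (DI)
open Crest.Agent.R4P.PVe45 (LB Cr)
open Crest.Agent.R4P.MSi343 (su)
open Crest.Agent.R4P.Skel189 Crest.Agent.R4P.Frame758 Crest.Agent.R4P.Data758
open Crest.Agent.R4.Soft104 Crest.Agent.R4.Fam464
open Crest.Agent.R4P.StratX36 Crest.Agent.R4P.TopX36
open Crest.Agent.R4P.GMer27
open Crest.Agent.R4P.AsB407 Crest.Agent.R4P.AsD407
open Crest.Agent.R4P.JnE5 Crest.Agent.R4P.JnH5 Crest.Agent.R4P.PrG45 Crest.Agent.R4P.PrE45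
open Crest.Agent.R4P.PrE245
open Crest.Agent.R4P.E3E479 Crest.Agent.R4P.E3P479 Crest.Agent.R4P.E3J479
open Crest.Agent.R4P.E3V479 Crest.Agent.R4P.E3W479
open Crest.Agent.R4P.EnC48 (SB)
open Crest.Agent.R4P.PrK45 (tX)
open Crest.Agent.R4P.LogL51 (isLf)
open Crest.Agent.R4P.SkelF29 (BootF)

/-! ### one fibre -/

section fib
variable {Λ κ : Type} [Fintype Λ] [DecidableEq Λ] [Fintype κ] [DecidableEq κ]
variable {kd : Λ → κ} {p : ℕ} {K K' : List (DT Λ κ)}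

/-- on the N side the mean content of the children is the N child -/
lemma mm_sd (h : KOk kd p K) {st : Λ → Prop} (hs : Sd K st) {j : Λ} (hj : st j) (y : ℝ) :
    E3V479.mm p K j y = 1 / (p : ℝ) * pB K j y := by
  obtain ⟨a, b⟩ := (hs j y).1 hj
  unfold E3V479.mm
  rw [jv_chP h, jv_chN h, a, b]
  ring

/-- a related pair of contents at most the energies -/
lemma I_qe_le {R : ℝ → Λ → Λ → Prop} (hR : ∀ j i, MP fun x => R x j i) {V W V' W' : Λ → ℝ → ℝ}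
    (hV : ∀ j, PB (V j)) (hW : ∀ j, PB (W j)) (hV' : ∀ j, PB (V' j)) (hW' : ∀ j, PB (W' j))
    (h1 : ∀ j i x, R x j i → V j x ≤ V' j x ∧ W i x ≤ W' i x) :
    I (qe R V W) ≤ 1 / 2 * (EnC48.E2 V' + EnC48.E2 W') := by
  classical
  have sV : PB fun x => ∑ j, V' j x := PB.sum _ fun j _ => hV' j
  have sW : PB fun x => ∑ j, W' j x := PB.sum _ fun j _ => hW' j
  have q1 : PB fun x => (∑ j, V' j x) ^ 2 := by
    have := sV.mul sV
    simpa only [sq] using this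
  have q2 : PB fun x => (∑ j, W' j x) ^ 2 := by
    have := sW.mul sW
    simpa only [sq] using this
  have key : ∀ x, qe R V W x ≤ 1 / 2 * (((∑ j, V' j x) ^ 2) + (∑ j, W' j x) ^ 2) := by
    intro x
    have k1 : qe R V W x ≤ (∑ j, V' j x) * ∑ i, W' i x := by
      unfold qe
      rw [Finset.sum_mul_sum]
      refine Finset.sum_le_sum fun j _ => Finset.sum_le_sum fun i _ => ?_
      split_ifs with hr
      · obtain ⟨a, b⟩ := h1 j i x hr
        exact mul_le_mul a b ((hW i).nonneg x) ((hV' j).nonneg x)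
      · exact mul_nonneg ((hV' j).nonneg x) ((hW' i).nonneg x)
    nlinarith [sq_nonneg ((∑ j, V' j x) - ∑ i, W' i x)]
  have pq := PB_qe hR hV hW
  have e : 1 / 2 * (EnC48.E2 V' + EnC48.E2 W') =
      I (fun x => 1 / 2 * (((∑ j, V' j x) ^ 2) + (∑ j, W' j x) ^ 2)) := by
    rw [I_smul, I_add q1.integrableOn q2.integrableOn]
    rfl
  rw [e]
  exact I_mono pq.integrableOn
    (((PB.const (by norm_num : (0:ℝ) ≤ 1 / 2)).mul (q1.add q2)).integrableOn) key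

end fib

/-! ### the `p⁻²` terms of a pair of bundles -/

/-- energies of the children, rate `1/q²` -/
noncomputable def FJ {Λ : Type} [Fintype Λ] (q : ℕ) (a b : Λ → ℝ → ℝ) : ℝ :=
  1 / (q : ℝ) ^ 2 * (EnC48.E2 a + EnC48.E2 b)

lemma FJ_zero {Λ : Type} [Fintype Λ] (q : ℕ) :
    FJ q (fun (_ : Λ) (_ : ℝ) => (0:ℝ)) (fun (_ : Λ) (_ : ℝ) => (0:ℝ)) = 0 := by
  unfold FJ EnC48.E2 I
  simp

section grp
variable {μ Λ κ : Type} [Fintype Λ] [DecidableEq Λ] [Fintype κ] [DecidableEq κ]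
variable {B : BM (μ × List (DT Λ κ))} {wr : ℕ → Λ → κ} {tu : ℕ → μ → μ}
  {R : PR μ Λ} {sd : ℕ → μ → Λ → Prop} {p : ℕ} {b b' : μ × List (DT Λ κ)}

/-- **the `p⁻²` terms of a pair of bundles of one memory** -/
theorem I_jE_le (H : TB B wr tu) (hR : ∀ p m j i, MP fun x => R p m x j i)
    (hsd : ∀ {p b}, B.ok p b → p ≠ 0 → Sd (bB p b.2) (sd p b.1))
    (hb : B.ok p b) (hb' : B.ok p b') (hp : p ≠ 0) (hm : b'.1 = b.1) :
    I (jE R tu sd p b b') ≤
      1 / 2 * FJ p (pA (bB p b.2)) (pB (bB p b.2)) +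
        1 / 2 * FJ p (pA (bB p b'.2)) (pB (bB p b'.2)) := by
  have hp0 : 0 < p := Nat.pos_of_ne_zero hp
  have k := H.kok hb hp
  have k' := H.kok hb' hp
  have s1 := hsd hb hp
  have s2 := hsd hb' hp
  rw [hm] at s2
  set u : ℝ := 1 / (p : ℝ) with hu
  have u0 : 0 ≤ u := by positivity
  have hsm : ∀ a : Λ → ℝ → ℝ, EnC48.E2 (fun j x => u * a j x) = 1 / (p : ℝ) ^ 2 * EnC48.E2 a := by
    intro a
    unfold EnC48.E2
    rw [← I_smul]
    congr 1
    funext x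
    rw [← Finset.mul_sum, hu]
    ring
  have m1 : ∀ j i, MP fun y => (R p (tu p b.1) y j i ∧ sd p b.1 j ∧ sd p b.1 i) := fun j i =>
    (hR p (tu p b.1) j i).map fun q => q ∧ sd p b.1 j ∧ sd p b.1 i
  have m2 : ∀ j i, MP fun y => (R p (tu p b.1) y j i ∧ ¬ sd p b.1 j ∧ ¬ sd p b.1 i) := fun j i =>
    (hR p (tu p b.1) j i).map fun q => q ∧ ¬ sd p b.1 j ∧ ¬ sd p b.1 i
  have pm := fun j => PB_mm k hp0 j
  have pm' := fun j => PB_mm k' hp0 j
  have q1 := PB_qe m1 pm pm'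
  have q2 := PB_qe m2 (fun j => k.PA j) fun j => k'.PA j
  have b1 := I_qe_le m1 pm pm' (fun j => (PB.const u0).mul (k.PBb j))
    (fun j => (PB.const u0).mul (k'.PBb j)) fun j i x h =>
      ⟨(mm_sd k s1 h.2.1 x).le, (mm_sd k' s2 h.2.2 x).le⟩
  have b2 := I_qe_le m2 (fun j => k.PA j) (fun j => k'.PA j) (fun j => k.PA j)
    (fun j => k'.PA j) fun j i x h => ⟨le_rfl, le_rfl⟩
  have e : I (jE R tu sd p b b') =
      I (qe (fun y j i => R p (tu p b.1) y j i ∧ sd p b.1 j ∧ sd p b.1 i)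
        (E3V479.mm p (bB p b.2)) (E3V479.mm p (bB p b'.2))) +
      1 / (p : ℝ) ^ 2 * I (qe (fun y j i => R p (tu p b.1) y j i ∧ ¬ sd p b.1 j ∧ ¬ sd p b.1 i)
        (pA (bB p b.2)) (pA (bB p b'.2))) := by
    rw [← I_smul, ← I_add q1.integrableOn (q2.smul (by positivity)).integrableOn]
    rfl
  rw [e]
  have b3 := mul_le_mul_of_nonneg_left b2 (show (0:ℝ) ≤ 1 / (p : ℝ) ^ 2 by positivity)
  have b4 : 1 / 2 * (EnC48.E2 (fun j x => u * pB (bB p b.2) j x) + EnC48.E2 fun j x => u * pB (bB p b'.2) j x) =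
      1 / 2 * (1 / (p : ℝ) ^ 2 * EnC48.E2 (pB (bB p b.2)) + 1 / (p : ℝ) ^ 2 * EnC48.E2 (pB (bB p b'.2))) := by
    rw [hsm, hsm]
  have b5 : I (qe (fun y j i => R p (tu p b.1) y j i ∧ sd p b.1 j ∧ sd p b.1 i)
        (E3V479.mm p (bB p b.2)) (E3V479.mm p (bB p b'.2))) ≤
      1 / 2 * (1 / (p : ℝ) ^ 2 * EnC48.E2 (pB (bB p b.2)) + 1 / (p : ℝ) ^ 2 * EnC48.E2 (pB (bB p b'.2))) :=
    b1.trans b4.le
  unfold FJ
  linarith

end grp

/-! ### the games of a context -/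

section game
variable {N : Skel189.Num} {γ : ℝ} {p0 P₀ : ℕ} {X : Ctx N γ p0 P₀} {Q : NS → IT → Prop} {C : ℝ}
  {n : ℕ}

/-- **the `p⁻²` terms of a game** -/
theorem vJE_le (G : Gm X Q C n) {u : NS} {τ : IT}
    (hQ : ∀ u τ, Q u τ → NDt X.par (w X.ψ) X.c.t u τ)
    (hB : InvM X Q C (X.self u τ Finset.univ).p (b₀ X u τ)) {k : ℕ}
    (hk : (X.self u τ Finset.univ).t.size + (X.self u τ Finset.univ).p ≤ k) :
    vJE G u τ k ≤ ts FJ (tX X u τ) := by
  have S := ts_sv (F := FJ) (lbX G.H) diX (kd := rhoX X) (fun h hp => G.H.bok h hp)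
    (fun h hp => tokX h hp) FJ_zero
  have key := Kw_sv S (ok := okG G.H) (f := Ps fun p b b' => I (jE G.R3 G.D.tu G.sd p b b'))
    (fun h hp => h.C hp) (fun h hp => h.N hp) (fun h => h.gok.1) (fun h => h.gok.2)
    (fun {p s} hs hp => ?_) (fun {p b} hb h => ?_) k (X.self u τ Finset.univ).p
    (one (b₀ X u τ)) (okG.one hB) (fun j => by
      show siz [(X.self u τ Finset.univ).t] + _ ≤ k
      simpa [siz] using hk)
  · rw [one_M (b₀ X u τ) (fun b' => TS FJ b'.2)] at key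
    have e : TS FJ (b₀ X u τ).2 = ts FJ (tX X u τ) := by
      show TS FJ [(X.self u τ Finset.univ).t] = _
      rw [TS_cons, TS_nil, add_zero]
      rfl
    rw [e] at key
    exact key
  · obtain ⟨g, m, hm⟩ := hs
    have h1 := sum_pair (c := s.c) g.1.c0 g.1.c1
      (f := fun k k' => I (jE G.R3 G.D.tu G.sd p (s.L k) (s.L k')))
      (e := fun k => 1 / 2 * FJ p (pA (bB p (s.L k).2)) (pB (bB p (s.L k).2)))
      (fun k k' => I_jE_le (tbD G.H) G.mR3 (fun h hp => G.hsd h hp) (g.2 k) (g.2 k') hp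
        (by rw [hm k, hm k']))
    refine h1.trans (le_of_eq ?_)
    unfold M
    rw [Finset.mul_sum]
    exact Finset.sum_congr rfl fun j _ => by ring
  · have hb' : InvM X Q C p b := hb
    have hlf : ∀ t ∈ b.2, isLf t = true := by
      rcases h with h0 | h0
      · subst h0; exact lf0 hQ (m := b.1) (L := b.2) hb'
      · have := siz_zero h0
        rw [this]
        simp
    exact (TS_leaves hlf).ge

/-- **energies of the children at rate `1/q²`** -/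
theorem ctx_JE (N : Skel189.Num) {M e : ℝ} (hM : 0 ≤ M) (he : 0 ≤ e) {ε : ℝ} (hε : 0 < ε) :
    ∃ p₁ : ℕ, ∀ p0 ≥ p₁, ∀ (γ : ℝ) (P₀ : ℕ) (X : Ctx N γ p0 P₀) (j₀ : X.c.Lam) (Kb : ℝ), 0 ≤ Kb →
      Kb ≤ M * Real.log p0 ^ e →
      All (fun u τ => BootF X j₀ (fun _ _ => 0) Kb u τ →
        ts FJ (tX X u τ) ≤ ε * X.mu j₀ u τ Finset.univ) ⟨top X.S, 1, 1, 1⟩ X.c.t := by
  obtain ⟨p1, h1⟩ := EnC48.ctx_tsB N hM he hε
  obtain ⟨p2, h2⟩ := EnC48.log_pow_le (SB N e)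
  refine ⟨p1 + p2 + 1, fun p0 hp0 γ P₀ X j₀ Kb hK0 hK => All.mono (fun u τ hh hb => ?_)
    (h1 p0 (by omega) γ P₀ X j₀ Kb hK0 hK)⟩
  refine hh hb (fun q => 1 / (q : ℝ) ^ 2) FJ (fun q hq => ?_) (fun q hq a b _ _ => le_rfl)
  have hq0 : (0:ℝ) < q := by
    have : 0 < q := by omega
    exact_mod_cast this
  refine ⟨by positivity, ?_⟩
  have h3 := h2 q (by omega)
  have e1 : 1 / (q : ℝ) ^ 2 * q * Real.log q ^ SB N e = Real.log q ^ SB N e / q := by
    field_simp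
  rw [e1, div_le_one hq0]
  exact h3

/-- **the field `hJE`** : any family of games with weights of sum `1` at a node with `ts FJ ≤ a mu` -/
theorem bd_JE {A : Type} [Fintype A] {ω : A → ℝ} (ω0 : ∀ i, 0 ≤ ω i) (ω1 : ∑ i, ω i = 1)
    (G : A → Gm X Q C n) {j₀ : X.c.Lam} {u : NS} {τ : IT} {a ϑ : ℝ}
    (hQ : ∀ u τ, Q u τ → NDt X.par (w X.ψ) X.c.t u τ)
    (hB : InvM X Q C (X.self u τ Finset.univ).p (b₀ X u τ)) (ha : 0 ≤ a) (hϑ : 0 ≤ ϑ)
    (hμ : 0 ≤ X.mu j₀ u τ Finset.univ)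
    (h : ts FJ (tX X u τ) ≤ a * X.mu j₀ u τ Finset.univ) {k : ℕ}
    (hk : (X.self u τ Finset.univ).t.size + (X.self u τ Finset.univ).p ≤ k) :
    Bd X j₀ u τ a ϑ (∑ i, ω i * vJE (G i) u τ k) := by
  refine bd_mu (C := a) ?_ le_rfl ha hϑ hμ
  calc ∑ i, ω i * vJE (G i) u τ k ≤ ∑ i, ω i * (a * X.mu j₀ u τ Finset.univ) :=
        Finset.sum_le_sum fun i _ => mul_le_mul_of_nonneg_left ((vJE_le (G i) hQ hB hk).trans h)
          (ω0 i)
    _ = a * X.mu j₀ u τ Finset.univ := by rw [← Finset.sum_mul, ω1, one_mul]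

end game

end Crest.Agent.R4P.AsJ50
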