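import Crest.Agent.R4P.AsI_407
import Crest.Agent.R4P.NumX_34
import Crest.Agent.R4P.CtxNF_36

/-!
R4 (S0004) with powers, T3, helper407: **facts of a context for the static families**.

* `ev_PG`; `dep_dn` (the depths decrease going down, `NumOK`); `QS X` (relation of the nodes), **`ctx_cf`** ;
* **`ctx_start`** : the start bundle of every node is legal (`InvM X (QS X) ..`), `All (QS X)` below every node;
* **`TgtS`** (static families at all the nodes), `TgtE` (second order births, helper48),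
  **`TgtS.k : TgtLeU N γ → TgtE N γ → TgtS N γ P → TgtK N γ P`**.
-/

set_option autoImplicit false
set_option linter.unusedSectionVars false
set_option linter.unusedVariables false
open MeasureTheory Filter Set

namespace Crest.Agent.R4P.AsK407

open Crest.Agent.R4.Tour104 Crest.Agent.R4.Tour758 Crest.Agent.R4.Avg758 Crest.Agent.R4.Clos758
open Crest.Agent.R4.ClosL758 Crest.Agent.R4.ClosG758 Crest.Agent.R4.ClosR758
open Crest.Agent.R4P.ClosR442 Crest.Agent.R4P.Grp36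
open Crest.Agent.R4P.GWa343 Crest.Agent.R4P.GWb343
open Crest.Agent.R4P.GWc343 hiding SB
open Crest.Agent.R4P.GWd343 Crest.Agent.R4P.GWf343 Crest.Agent.R4P.TrR343
open Crest.Agent.R4P.GWg343
open Crest.Agent.R4P.RXm55 Crest.Agent.R4P.MSm25
open Crest.Agent.R4P.DTp26
open Crest.Agent.R4P.Cnt588 Crest.Agent.R4P.Item758 Crest.Agent.R4P.W363
open Crest.Agent.R4P.Bld532 (NS All NodeOk Bk)
open Crest.Agent.R4P.WalkIT579 (tp isL toDT_top toDT_leaf)
open Crest.Agent.R4P.Walk560 (DT WrN)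
open Crest.Agent.R4P.Step588 Crest.Agent.R4P.RseSt23
open Crest.Agent.R4P.TYI47 Crest.Agent.R4P.TYJ47 Crest.Agent.R4P.TYK47 Crest.Agent.R4P.TYP9
open Crest.Agent.R4P.RsT47
open Crest.Agent.R4P.StB21 (LvF ctx_LvF)
open Crest.Agent.R4P.Skel189 Crest.Agent.R4P.Frame758 Crest.Agent.R4P.Data758
open Crest.Agent.R4.Soft104 Crest.Agent.R4.Fam464
open Crest.Agent.R4P.StratX36 Crest.Agent.R4P.TopX36
open Crest.Agent.R4P.AsB407 Crest.Agent.R4P.AsC407
open Crest.Agent.R4P.Fin5 (CF)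
open Crest.Agent.R4P.ParF5 (rg depF depF_congr depF_mono NumOK)

variable {N : Skel189.Num} {γ : ℝ} {p0 P₀ : ℕ} {X : Ctx N γ p0 P₀}

/-- the numbers of the tree -/
theorem ev_PG (N : Skel189.Num) (γ : ℝ) : Ev N γ fun p0 P₀ X => StratX36.PG X.par (w X.ψ) := by
  obtain ⟨p1, h1⟩ := CtxNF36.par_PG N
  exact Ev.of (p₁ := p1) fun p0 hp0 P₀ hP X => h1 p0 hp0 (w X.ψ) fun q => by
    have := X.sys.nonneg q
    unfold w
    positivity

lemma depF_dn (p : ℕ) : depF (p - 1) ≤ depF p := by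
  rcases Nat.eq_zero_or_pos (p - 1) with h | h
  · rw [h]
    have h1 : p = 0 ∨ p = 1 := by omega
    rcases h1 with h1 | h1
    · rw [h1]
    · rw [h1]
      refine (depF_congr ?_).le
      unfold ParF5.rg
      simp
  · exact depF_mono h (Nat.sub_le _ _)

/-- **the depths decrease going down** -/
theorem dep_dn {th : ℕ → (ℕ → ℝ) → Finset ℕ → ℕ → ℝ} {Ct C₀ : ℝ} {Sx : ℕ → (ℕ → ℝ) → Finset ℕ → Finset ℕ}
    (h : NumOK N th Ct C₀ Sx) (X : Ctx N γ p0 P₀) (p : ℕ) :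
    X.c.wp.dep (p - 1) ≤ X.c.wp.dep p := by
  have e : ∀ p, X.c.wp.dep p = depF p := fun p => by rw [X.dep, h.dep]
  rw [e, e]
  exact depF_dn p

/-- the relation of the nodes of a context -/
def QS (X : Ctx N γ p0 P₀) : NS → IT → Prop := fun u τ => NDt X.par (w X.ψ) X.c.t u τ ∧ LvF X u τ

/-- **facts of a context** -/
theorem ctx_cf (hC : CF X) (hd : ∀ p, X.c.wp.dep (p - 1) ≤ X.c.wp.dep p) : CtxF X (QS X) where
  hQ := fun _ _ h => h.1
  hLv := fun _ _ h => h.2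
  hd1 := hC.d1
  hd := hd

theorem ctx_QS (X : Ctx N γ p0 P₀) : All (QS X) ⟨Skel189.top X.S, 1, 1, 1⟩ X.c.t :=
  (ctx_NDt X).and (ctx_LvF X)

/-- **the start bundle of every node** -/
theorem ctx_start (X : Ctx N γ p0 P₀) (j₀ : X.c.Lam) (hG : PG X.par (w X.ψ)) :
    All (fun u τ => All (QS X) u τ ∧ InvM X (QS X) (TYI47.tb (X.self u τ Finset.univ).t)
      (X.self u τ Finset.univ).p (b₀ X u τ)) ⟨Skel189.top X.S, 1, 1, 1⟩ X.c.t :=
  (Step588.All_All _ _ (ctx_QS X)).and (ctx_IVM X j₀ hG (fun _ _ h => h.1) (ctx_QS X))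

/-! ### the target -/

section tgt
open Crest.Agent.R4P.SkelF29 (BootF)
open Crest.Agent.R4P.DTn407 Crest.Agent.R4P.DTo407
open Crest.Agent.R4P.PrJ45 Crest.Agent.R4P.PrE45 Crest.Agent.R4P.PrG45 Crest.Agent.R4P.PrD45
open Crest.Agent.R4P.PrH45 Crest.Agent.R4P.PrI45 Crest.Agent.R4P.PrK45
open Crest.Agent.R4P.AsD407 Crest.Agent.R4P.AsE407 Crest.Agent.R4P.AsI407 Crest.Agent.R4P.JnP5
open Crest.Agent.R4P.PN36 Crest.Agent.R4P.JnE5 Crest.Agent.R4P.JnK5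

/-- **second order births** (helper48): the part of the births of the value at the start of a node -/
def TgtE (N : Skel189.Num) (γ : ℝ) : Prop :=
  ∀ M : ℝ, 0 ≤ M → Ev N γ fun p0 P₀ X => CF X → ∀ (j₀ : X.c.Lam) (Kb : ℝ),
    0 ≤ Kb → Kb ≤ M * Real.log p0 ^ N.c2 →
    All (fun u τ => ¬ isL τ → BootF X j₀ (fun _ _ => 0) Kb u τ →
      ∀ {Q : NS → IT → Prop} {C : ℝ} {n : ℕ} {cf : CtxF X Q} (G : SDat X Q C n cf)
        {KT : ℕ → X.c.Lam → X.c.Lam → ℝ}, All Q u τ →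
        InvM X Q C (X.self u τ Finset.univ).p (b₀ X u τ) →
        JB (G.r.H (C := C) cf) (fun _ _ _ => 0) KT (TA G.r) 1 (tA N) → ∀ k,
        (X.self u τ Finset.univ).t.size + (X.self u τ Finset.univ).p ≤ k →
        G.gm.vE u τ k ≤ pn (fun p j l => tA N p * KT p j l) (tX X u τ) +
          X.mu j₀ u τ Finset.univ) ⟨Skel189.top X.S, 1, 1, 1⟩ X.c.t

/-- **the target of the leaves, static form** -/
def TgtS (N : Skel189.Num) (γ : ℝ) (P : ∀ {p0 P₀ : ℕ} (X : Ctx N γ p0 P₀), Prop) : Prop :=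
  ∃ (n : ℕ) (J a : ℝ), 1 ≤ n ∧ 0 ≤ J ∧ 1 ≤ a ∧
    ∀ M : ℝ, 0 ≤ M → ∀ ϑ : ℝ, 0 < ϑ → Ev N γ fun p0 P₀ X => CF X → P X → ∀ (j₀ : X.c.Lam) (Kb : ℝ),
    0 ≤ Kb → Kb ≤ M * Real.log p0 ^ N.c2 →
    All (fun u τ => ¬ isL τ → BootF X j₀ (fun _ _ => 0) Kb u τ →
      Nonempty (FmS X j₀ u τ n J a ϑ)) ⟨Skel189.top X.S, 1, 1, 1⟩ X.c.t

/-- a larger constant -/
noncomputable def FmSmono {j₀ : X.c.Lam} {u : NS} {τ : IT} {n : ℕ} {J a a' ϑ : ℝ}
    (F : FmS X j₀ u τ n J a ϑ) (h : a ≤ a') (hϑ : 0 ≤ ϑ) (hμ : 0 ≤ X.mu j₀ u τ Finset.univ) :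
    FmS X j₀ u τ n J a' ϑ :=
  { F with
    hN := bd_mono h hϑ hμ F.hN
    hFB := bd_mono h hϑ hμ F.hFB
    hPN := bd_mono h hϑ hμ F.hPN
    hT := bd_mono h hϑ hμ F.hT
    z3ρ := fun j x hj => (F.z3ρ j x hj).trans h
    hU := fun k hk => bd_mono h hϑ hμ (F.hU k hk) }

/-- **the families of games from their static form** -/
theorem TgtS.k {P : ∀ {p0 P₀ : ℕ} (X : Ctx N γ p0 P₀), Prop} (hL : TgtLeU N γ) (hE : TgtE N γ)
    (h : TgtS N γ P) : TgtK N γ P := by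
  obtain ⟨Ke, hKe, hL⟩ := hL
  obtain ⟨n, J, a, hn, hJ, ha, h⟩ := h
  refine ⟨n, J + 240, 2 * a + Ke + 1, hn, by linarith, by linarith, fun M hM ϑ hϑ => ?_⟩
  obtain ⟨p1, h3⟩ := EnC48.ctx_F3 N hM N.hc2 (ε := 1) one_pos
  have h3' : Ev N γ fun p0 P₀ X => ∀ (j₀ : X.c.Lam) (Kb : ℝ), 0 ≤ Kb → Kb ≤ M * Real.log p0 ^ N.c2 →
      All (fun u τ => BootF X j₀ (fun _ _ => 0) Kb u τ →
        ts (F3 (fun q => 1 / tA N q) (fun _ _ _ => 1)) (tX X u τ) ≤
          1 * X.mu j₀ u τ Finset.univ) ⟨Skel189.top X.S, 1, 1, 1⟩ X.c.t := by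
    refine Ev.of (p₁ := p1 + 1) fun p0 hp0 P₀ _ X j₀ Kb k0 k1 => ?_
    refine All.mono (fun u τ hh hb => ?_) (h3 p0 (by omega) γ P₀ X j₀ Kb k0 k1)
    refine hh hb (fun q => 1 / tA N q) (fun _ _ _ => 1) (fun q hq => ⟨?_, ?_⟩) fun _ _ _ => le_rfl
    · exact one_div_nonneg.2 (tA_pos N q).le
    · refine (inv_le N ?_ (by omega)).2
      have hB0 : 0 ≤ N.B := by have := N.hB; have := N.hC1; have := N.hc2; linarith
      have := N.hc2
      unfold EnC48.SB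
      linarith
  refine ((h M hM ϑ hϑ).and (hL.and ((hE M hM).and h3'))).mono ?_
  rintro p0 P₀ X ⟨b1, b2, b3, b4⟩ hC hP j₀ Kb k0 k1
  refine All.mono (fun u τ hh hl hb => ?_) (All.and (b1 hC hP j₀ Kb k0 k1) (All.and (b2 hC j₀)
    (All.and (b3 hC j₀ Kb k0 k1) (b4 j₀ Kb k0 k1))))
  obtain ⟨g1, g2, g3, g4⟩ := hh
  obtain ⟨F⟩ := g1 hl hb
  obtain ⟨l1, l2, l3⟩ := g2 hl
  have e3 := g4 hb
  have a0 : 0 ≤ 2 * a + Ke + 1 := by linarith
  refine ⟨FmS.fk { FmSmono F (a' := 2 * a + Ke + 1) (by linarith) hϑ.le l2 with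
      k0 := max F.k0 ((X.self u τ Finset.univ).t.size + (X.self u τ Finset.univ).p)
      hU := fun k hk => bd_mono (by linarith) hϑ.le l2 (F.hU k ((le_max_left _ _).trans hk)) }
    a0 hϑ.le l2 ?_ ?_ fun k hk => ?_⟩
  · exact l3 F.ω0 F.ω1 (by linarith) a0 hϑ.le
  · exact bd_one F.ω0 F.ω1 (fun _ => e3) (by linarith) a0 hϑ.le l2
  · have hk' : (X.self u τ Finset.univ).t.size + (X.self u τ Finset.univ).p ≤ k :=
      (le_max_right _ _).trans hk
    have q1 : ∀ i, F.ω i * (F.G i).gm.vE u τ k ≤ F.ω i * (pn (fun p j l => tA N p * F.KT i p j l)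
        (tX X u τ) + X.mu j₀ u τ Finset.univ) := fun i =>
      mul_le_mul_of_nonneg_left (g3 hl hb (F.G i) F.all F.hB (F.jb i) k hk') (F.ω0 i)
    have q2 := Finset.sum_le_sum fun i (_ : i ∈ Finset.univ) => q1 i
    simp only [mul_add, Finset.sum_add_distrib, ← Finset.sum_mul, F.ω1, one_mul] at q2
    have q3 := F.hT
    unfold Bd at q3
    have I2 : 0 ≤ I (fun x => tt Finset.univ (X.g u τ) x ^ 2) := I_nonneg fun x => sq_nonneg _
    have m2 := mul_nonneg l2 l2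
    show Bd X j₀ u τ (2 * a + Ke + 1) ϑ (∑ i, F.ω i * (F.G i).gm.vE u τ k)
    unfold Bd
    have r1 : a * (X.mu j₀ u τ Finset.univ + X.mu j₀ u τ Finset.univ * X.mu j₀ u τ Finset.univ) +
        X.mu j₀ u τ Finset.univ ≤ (2 * a + Ke + 1) * (X.mu j₀ u τ Finset.univ +
          X.mu j₀ u τ Finset.univ * X.mu j₀ u τ Finset.univ) := by nlinarith
    have r2 : a * ϑ * I (fun x => tt Finset.univ (X.g u τ) x ^ 2) ≤
        (2 * a + Ke + 1) * ϑ * I (fun x => tt Finset.univ (X.g u τ) x ^ 2) := by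
      have : a * ϑ ≤ (2 * a + Ke + 1) * ϑ := mul_le_mul_of_nonneg_right (by linarith) hϑ.le
      exact mul_le_mul_of_nonneg_right this I2
    linarith

end tgt

end Crest.Agent.R4P.AsK407
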