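import Crest.Agent.R4P.BthZ_48
import Crest.Agent.R4P.PrI_45

/-!
R4 (S0004) with powers, T3, helper45: **the budgets of unmarked typed rows** (`AsB407.Gm.vJb`, field `hJb`
of `AsB407.Fm`) by static column kernels of pieces.

At a tie (contents `A` = P child, `B` = N child of the true tie, `Q` = pulls) the budget is at most
`20/p Σ_z (A_z + B_z + 2 Q_z) (mismatch + cross contents)_z`.

* **`row_ev`**, `ct_lin` : the events by pairs (P piece, N piece); `ct_T` : second order pairs `T`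
  (`BthZ48.KTp`);
* **`budget_pt`** : pointwise bound by `K1 (A+B)(A+B)`, `t m₀ KT A B`, `t⁻¹ K (A A + B B)`, `K A Q`, `K B Q`;
* **`Kw_jb`**, **`vJb_le`** : `vJb ≤ 80 (leU K + dC K) + 80 ts (F1 K1) + 75 m₀ pn (t KT) + 20 ts (F3 t⁻¹ K)`.
-/

set_option autoImplicit false
set_option linter.unusedSectionVars false
set_option linter.unusedVariables false
open MeasureTheory Filter Set

namespace Crest.Agent.R4P.PrJ45

section row
open Crest.Agent.R4.Tour104 Crest.Agent.R4.Tour758 Crest.Agent.R4.Clos758 Crest.Agent.R4.ClosL758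
open Crest.Agent.R4P.Grp36 Crest.Agent.R4P.GWa343 Crest.Agent.R4P.GWb343
open Crest.Agent.R4P.GWc343 hiding SB
open Crest.Agent.R4P.GWd343 Crest.Agent.R4P.GCol27 Crest.Agent.R4P.TrR343
open Crest.Agent.R4P.DTp26 Crest.Agent.R4P.VR407 Crest.Agent.R4P.Bp407 Crest.Agent.R4P.MSd343
open Crest.Agent.R4P.DTm407 Crest.Agent.R4P.DTn407 Crest.Agent.R4P.DTn407.TD'
open Crest.Agent.R4P.DTo407 Crest.Agent.R4P.DTo407.TD'
open Crest.Agent.R4P.DTe407 hiding ch_mul
open Crest.Agent.R4P.TyS16 (TRaw TRow GMU mkMU cho cho_on cho_off PB_cho z0 asm hPP jA eA Fam frP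
  et sh HU Ep_mono_fib Ep_fib Ep_cst Ep_smul' Ep_add' jz gm_eq gs_eq)
open Crest.Agent.R4P.TyR16 (mnR spR rV dd)
open Crest.Agent.R4P.Walk560 (DT)
open Crest.Agent.R4P.BthU48 Crest.Agent.R4P.BthW48

variable {μ Λ κ ζ : Type} [Fintype Λ] [DecidableEq Λ] [Fintype κ] [DecidableEq κ]
  [Fintype ζ] [DecidableEq ζ]
variable {wr : ℕ → Λ → κ} {D : TD μ Λ κ ζ} {Inv : ℕ → μ × List (DT Λ κ) → Prop} {p : ℕ}
  {b : μ × List (DT Λ κ)}

/-- content of a low type -/
noncomputable def ct (D : TD μ Λ κ ζ) (p : ℕ) (b : μ × List (DT Λ κ)) (y : ℝ) (v : Λ → ℝ)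
    (z : ζ) : ℝ := ∑ l, ch (D.lt p b.1 y l = some z) (v l)

lemma ct_nonneg {y : ℝ} {v : Λ → ℝ} (h : ∀ l, 0 ≤ v l) (z : ζ) : 0 ≤ ct D p b y v z :=
  Finset.sum_nonneg fun l _ => ch_nonneg (h l)

lemma ch_add2 (P : Prop) (a c : ℝ) : ch P (a + c) = ch P a + ch P c := by
  by_cases h : P
  · rw [ch_on h, ch_on h, ch_on h]
  · rw [ch_off h, ch_off h, ch_off h, add_zero]

lemma ch_smul2 (P : Prop) (a c : ℝ) : ch P (a * c) = a * ch P c := by
  by_cases h : P
  · rw [ch_on h, ch_on h]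
  · rw [ch_off h, ch_off h, mul_zero]

lemma ct_add (y : ℝ) (v w : Λ → ℝ) (z : ζ) :
    ct D p b y (fun l => v l + w l) z = ct D p b y v z + ct D p b y w z := by
  unfold ct
  rw [← Finset.sum_add_distrib]
  exact Finset.sum_congr rfl fun l _ => ch_add2 _ _ _

lemma ct_smul (y c : ℝ) (v : Λ → ℝ) (z : ζ) :
    ct D p b y (fun l => c * v l) z = c * ct D p b y v z := by
  unfold ct
  rw [Finset.mul_sum]
  exact Finset.sum_congr rfl fun l _ => ch_smul2 _ _ _

/-- squares of the contents of the types -/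
lemma ct_sq {y : ℝ} {v : Λ → ℝ} (v0 : ∀ l, 0 ≤ v l) {k : Λ → Λ → ℝ} (k0 : ∀ j l, 0 ≤ k j l)
    (hk : ∀ j l, v j ≠ 0 → v l ≠ 0 → D.lt p b.1 y j = D.lt p b.1 y l → D.lt p b.1 y j ≠ none →
      1 ≤ k j l) : ∑ z, ct D p b y v z ^ 2 ≤ ∑ j, ∑ l, k j l * (v j * v l) := by
  have e : ∀ z, ct D p b y v z ^ 2 = ∑ j, ∑ l, ch (D.lt p b.1 y j = some z ∧
      D.lt p b.1 y l = some z) (v j * v l) := by
    intro z
    unfold ct
    rw [sq, Finset.sum_mul_sum]
    refine Finset.sum_congr rfl fun j _ => Finset.sum_congr rfl fun l _ => ?_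
    by_cases h1 : D.lt p b.1 y j = some z
    · by_cases h2 : D.lt p b.1 y l = some z
      · rw [ch_on h1, ch_on h2, ch_on ⟨h1, h2⟩]
      · rw [ch_off h2, mul_zero, ch_off (P := _ ∧ _) fun h => h2 h.2]
    · rw [ch_off h1, zero_mul, ch_off (P := _ ∧ _) fun h => h1 h.1]
  simp only [e]
  rw [Finset.sum_comm]
  refine Finset.sum_le_sum fun j _ => ?_
  rw [Finset.sum_comm]
  refine Finset.sum_le_sum fun l _ => ?_
  have n := mul_nonneg (v0 j) (v0 l)
  rw [sum_type (D.lt p b.1 y j) (fun z => D.lt p b.1 y l = some z) (v j * v l)]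
  by_cases h : ∃ z, D.lt p b.1 y j = some z ∧ D.lt p b.1 y l = some z
  · rw [ch_on h]
    obtain ⟨z, h1, h2⟩ := h
    by_cases a1 : v j = 0
    · rw [a1]; simp
    by_cases a2 : v l = 0
    · rw [a2]; simp
    have := hk j l a1 a2 (h1.trans h2.symm) (by rw [h1]; simp)
    nlinarith
  · rw [ch_off h]
    exact mul_nonneg (k0 j l) n

/-- a plan against a cost -/
lemma plan_le {P c : Λ → Λ → ℝ} {A B v : Λ → ℝ} {α β : Λ → Λ → ℝ} (P0 : ∀ j i, 0 ≤ P j i)
    (v0 : ∀ l, 0 ≤ v l) (α0 : ∀ j l, 0 ≤ α j l) (β0 : ∀ j l, 0 ≤ β j l)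
    (hA : ∀ j, ∑ i, P j i ≤ A j) (hB : ∀ i, ∑ j, P j i ≤ B i)
    (hc : ∀ j i, P j i ≠ 0 → c j i ≤ ∑ l, (α j l + β i l) * v l) :
    ∑ j, ∑ i, P j i * c j i ≤ ∑ j, ∑ l, α j l * (A j * v l) + ∑ i, ∑ l, β i l * (B i * v l) := by
  have h1 : ∑ j, ∑ i, P j i * c j i ≤ ∑ j, ∑ i, P j i * ∑ l, (α j l + β i l) * v l := by
    refine Finset.sum_le_sum fun j _ => Finset.sum_le_sum fun i _ => ?_
    by_cases h : P j i = 0
    · rw [h]; simp
    · exact mul_le_mul_of_nonneg_left (hc j i h) (P0 j i)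
  have e : ∑ j, ∑ i, P j i * ∑ l, (α j l + β i l) * v l =
      ∑ j, (∑ i, P j i) * ∑ l, α j l * v l + ∑ i, (∑ j, P j i) * ∑ l, β i l * v l := by
    have e1 : ∀ j i, P j i * ∑ l, (α j l + β i l) * v l =
        P j i * ∑ l, α j l * v l + P j i * ∑ l, β i l * v l := fun j i => by
      rw [← mul_add, ← Finset.sum_add_distrib]
      congr 1
      exact Finset.sum_congr rfl fun l _ => by ring
    simp only [e1, Finset.sum_add_distrib]
    congr 1
    · exact Finset.sum_congr rfl fun j _ => (Finset.sum_mul _ _ _).symm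
    · rw [Finset.sum_comm]
      exact Finset.sum_congr rfl fun i _ => (Finset.sum_mul _ _ _).symm
  refine h1.trans (e.le.trans (add_le_add (Finset.sum_le_sum fun j _ => ?_)
    (Finset.sum_le_sum fun i _ => ?_)))
  · have n : 0 ≤ ∑ l, α j l * v l := Finset.sum_nonneg fun l _ => mul_nonneg (α0 j l) (v0 l)
    refine (mul_le_mul_of_nonneg_right (hA j) n).trans (le_of_eq ?_)
    rw [Finset.mul_sum]
    exact Finset.sum_congr rfl fun l _ => by ring
  · have n : 0 ≤ ∑ l, β i l * v l := Finset.sum_nonneg fun l _ => mul_nonneg (β0 i l) (v0 l)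
    refine (mul_le_mul_of_nonneg_right (hB i) n).trans (le_of_eq ?_)
    rw [Finset.mul_sum]
    exact Finset.sum_congr rfl fun l _ => by ring

lemma cr_false (y : ℝ) {P : ℝ → Λ → Λ → Prop} (h : ∀ j i, ¬ P y j i) : cr D wr p b P y = 0 :=
  Finset.sum_eq_zero fun j _ => Finset.sum_eq_zero fun i _ => ch_off fun h' => h j i h'.2

lemma mm_false (z : ζ) (y : ℝ) {P : ℝ → Λ → Λ → Prop} (h : ∀ j i, ¬ P y j i) :
    mm D wr p b P z y = 0 :=
  Finset.sum_eq_zero fun j _ => Finset.sum_eq_zero fun i _ => ch_off fun h' => h j i h'.2.2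

lemma mm_split (z : ζ) (y : ℝ) (T : ℝ → Λ → Λ → Prop) : mm D wr p b (fun _ _ _ => True) z y =
    mm D wr p b T z y + mm D wr p b (fun y j i => ¬ T y j i) z y := by
  unfold mm
  rw [← Finset.sum_add_distrib]
  refine Finset.sum_congr rfl fun j _ => ?_
  rw [← Finset.sum_add_distrib]
  refine Finset.sum_congr rfl fun i _ => ?_
  by_cases h : D.lt p b.1 y j = some z ∧ D.lt p b.1 y i = some z
  · rw [ch_on ⟨h.1, h.2, trivial⟩]
    by_cases h2 : T y j i
    · rw [ch_on ⟨h.1, h.2, h2⟩, ch_off fun h' => h'.2.2 h2, add_zero]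
    · rw [ch_off fun h' => h2 h'.2.2, ch_on ⟨h.1, h.2, h2⟩, zero_add]
  · rw [ch_off fun h' => h ⟨h'.1, h'.2.1⟩, ch_off fun h' => h ⟨h'.1, h'.2.1⟩,
      ch_off fun h' => h ⟨h'.1, h'.2.1⟩, add_zero]

/-- same low type -/
def sm1 (D : TD μ Λ κ ζ) (p : ℕ) (b : μ × List (DT Λ κ)) (y : ℝ) (j l : Λ) : Prop :=
  D.lt p b.1 y l = D.lt p b.1 y j ∧ D.lt p b.1 y l ≠ none

/-- content of the low type of a piece -/
noncomputable def cj (D : TD μ Λ κ ζ) (p : ℕ) (b : μ × List (DT Λ κ)) (y : ℝ) (v : Λ → ℝ)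
    (j : Λ) : ℝ := ∑ l, ch (sm1 D p b y j l) (v l)

lemma cj_eq {y : ℝ} {v : Λ → ℝ} {j : Λ} {z : ζ} (h : D.lt p b.1 y j = some z) :
    cj D p b y v j = ct D p b y v z := by
  unfold cj ct sm1
  refine Finset.sum_congr rfl fun l _ => ch_congr ?_
  rw [h]
  constructor
  · rintro ⟨h1, -⟩; exact h1
  · intro h1; exact ⟨h1, by rw [h1]; simp⟩

lemma cj_nonneg {y : ℝ} {v : Λ → ℝ} (h : ∀ l, 0 ≤ v l) (j : Λ) : 0 ≤ cj D p b y v j :=
  Finset.sum_nonneg fun l _ => ch_nonneg (h l)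

/-- cost of a pair -/
lemma cj_le {y : ℝ} {v : Λ → ℝ} (v0 : ∀ l, 0 ≤ v l) {γ : Λ → ℝ} (γ0 : ∀ l, 0 ≤ γ l) {j i : Λ}
    {a c : ℝ} (a0 : 0 ≤ a) (c0 : 0 ≤ c)
    (hne : a ≠ 0 → c ≠ 0 → D.lt p b.1 y i ≠ D.lt p b.1 y j)
    (h1 : ∀ l, v l ≠ 0 → sm1 D p b y j l → a ≤ γ l) (h2 : ∀ l, v l ≠ 0 → sm1 D p b y i l → c ≤ γ l) :
    a * cj D p b y v j + c * cj D p b y v i ≤ ∑ l, γ l * v l := by
  unfold cj
  rw [Finset.mul_sum, Finset.mul_sum, ← Finset.sum_add_distrib]
  refine Finset.sum_le_sum fun l _ => ?_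
  by_cases hv : v l = 0
  · rw [hv]
    have e : ∀ P : Prop, ch P (0:ℝ) = 0 := fun P => by
      by_cases hP : P
      · rw [ch_on hP]
      · rw [ch_off hP]
    rw [e, e]; simp
  have hv' := v0 l
  by_cases k1 : sm1 D p b y j l
  · by_cases k2 : sm1 D p b y i l
    · rw [ch_on k1, ch_on k2]
      have q1 := h1 l hv k1
      have q2 := h2 l hv k2
      by_cases ha : a = 0
      · rw [ha, zero_mul, zero_add]
        exact mul_le_mul_of_nonneg_right q2 hv'
      by_cases hc : c = 0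
      · rw [hc, zero_mul, add_zero]
        exact mul_le_mul_of_nonneg_right q1 hv'
      exact absurd (k2.1.symm.trans k1.1) (hne ha hc)
    · rw [ch_on k1, ch_off k2, mul_zero, add_zero]
      exact mul_le_mul_of_nonneg_right (h1 l hv k1) hv'
  · rw [ch_off k1, mul_zero, zero_add]
    by_cases k2 : sm1 D p b y i l
    · rw [ch_on k2]
      exact mul_le_mul_of_nonneg_right (h2 l hv k2) hv'
    · rw [ch_off k2, mul_zero]
      exact mul_nonneg (γ0 l) hv'

/-- normalization at the low type of a piece -/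
noncomputable def nXo (D : TD μ Λ κ ζ) (wr : ℕ → Λ → κ) (p : ℕ) (b : μ × List (DT Λ κ)) (y : ℝ) :
    Option ζ → ℝ
  | none => 0
  | some z => nX D wr p b z y

/-- mismatch plan -/
noncomputable def pim (D : TD μ Λ κ ζ) (wr : ℕ → Λ → κ) (p : ℕ) (b : μ × List (DT Λ κ)) (y : ℝ)
    (j i : Λ) : ℝ := uA wr p b j y * uB wr p b i y / nXo D wr p b y (D.lt p b.1 y j)

section ev
variable (H : TYp wr D Inv) (hb : Inv p b) (hp : p ≠ 0)
include H hb hp

lemma pQ0 (j : Λ) (y : ℝ) : 0 ≤ pQ (bB p b.2) j y := ((H.bok hb hp).PQ j).nonneg y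

lemma nXo0 (y : ℝ) (o : Option ζ) : 0 ≤ nXo D wr p b y o := by
  cases o with
  | none => exact le_rfl
  | some z => exact nX0 H hb hp z y

/-- content of the children of a type -/
lemma h_ct (z : ζ) (y : ℝ) : D.h p (D.cP p b) z y + D.h p (D.cN p b) z y =
    ct D p b y (fun l => pA (bB p b.2) l y + pB (bB p b.2) l y) z +
      2 * ct D p b y (fun l => pQ (bB p b.2) l y) z := by
  have e : ∀ f : Λ → ℝ → ℝ, ∑ c, cz (wr p) (D.lt p b.1) f c (some z) y =
      ct D p b y (fun l => f l y) z := by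
    intro f
    classical
    rw [sum_cz', hz_eq]
    unfold ct
    refine Finset.sum_congr rfl fun l _ => ?_
    by_cases h : D.lt p b.1 y l = some z
    · rw [if_pos h, ch_on h]
    · rw [if_neg h, ch_off h]
  rw [a_eq H hb hp, b_eq H hb hp]
  unfold fQ rQ rA rB
  rw [e, e, e, ct_add]
  ring

/-- **the events of an unmarked row** -/
lemma ev_eq (hU : ∀ z x, ¬ D.spc p b z x) (z : ζ) (y : ℝ) :
    12 * evt D wr p b z y + 8 * rho D wr p b z y ≤
      20 * (eU D wr p b z y + Ma D wr p b z y + Mb D wr p b z y) := by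
  have hm : ¬ mrk D p b z y := unm_mrk hp hU z y
  have e1 : evt D wr p b z y = eU D wr p b z y + Mb D wr p b z y := by
    unfold evt
    rw [cho_off hm, fm_off hm]
    rfl
  have e2 : rho D wr p b z y = Ma D wr p b z y + Mb D wr p b z y := by
    unfold rho Ma Mb
    rw [Finset.sum_add_distrib]
    have : ∑ c, ch (mrk D p b z y ∧ c = D.act p b z y) (cx D wr p b z c y) = 0 :=
      Finset.sum_eq_zero fun c _ => ch_off fun h => hm h.1
    rw [this, add_zero]
  rw [e1, e2]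
  have h1 : 0 ≤ eU D wr p b z y := (PeU H hb hp z).nonneg y
  have h2 : 0 ≤ Ma D wr p b z y := (PMa H hb hp z).nonneg y
  have h3 : 0 ≤ Mb D wr p b z y := (PMb H hb hp z).nonneg y
  linarith

/-- the mismatch by pairs -/
lemma eU_pairs (z : ζ) (y : ℝ) : eU D wr p b z y ≤ Ma D wr p b z y +
    mm D wr p b (fun _ _ _ => True) z y / nX D wr p b z y := by
  have n0 := nX0 H hb hp z y
  have M0 : 0 ≤ Ma D wr p b z y := (PMa H hb hp z).nonneg y
  have F0 := fde0 H hb hp z y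
  have mm0 : 0 ≤ mm D wr p b (fun _ _ _ => True) z y := mm_nonneg H hb hp z y
  rcases n0.eq_or_lt with h0 | h0
  · have h2 : fde D wr p b z y = 0 := le_antisymm (h0 ▸ le_max_right _ _) F0
    have h3 : eU D wr p b z y ≤ 0 := by
      unfold eU
      rw [et_eq H hb hp, h2]
      exact min_le_left _ _
    rw [← h0, div_zero]
    linarith
  · have e1 := eU_mul H hb hp z y
    have e2 : mm D wr p b (fun _ _ _ => True) z y =
        (∑ j, ch (D.lt p b.1 y j = some z) (uA wr p b j y)) * fde D wr p b z y := by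
      rw [fde_eq H hb hp, Finset.sum_mul_sum]
      unfold mm
      refine Finset.sum_congr rfl fun j _ => Finset.sum_congr rfl fun i _ => ?_
      by_cases h1 : D.lt p b.1 y j = some z
      · by_cases h2 : D.lt p b.1 y i = some z
        · rw [ch_on ⟨h1, h2, trivial⟩, ch_on h1, ch_on h2]
        · rw [ch_off fun h => h2 h.2.1, ch_off h2, mul_zero]
      · rw [ch_off fun h => h1 h.1, ch_off h1, zero_mul]
    have hF : fde D wr p b z y ≤ nX D wr p b z y := le_max_right _ _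
    refine le_of_mul_le_mul_right ?_ h0
    rw [e1, eX_eq H hb hp, add_mul, add_mul, e2, div_mul_cancel₀ _ h0.ne']
    have := mul_le_mul_of_nonneg_left hF M0
    linarith

/-- **the events by pairs** -/
theorem row_ev (T : ℝ → Λ → Λ → Prop) (z : ζ) (y : ℝ) :
    eU D wr p b z y + Ma D wr p b z y + Mb D wr p b z y ≤
      (2 * cr D wr p b (fun y j i => D.lt p b.1 y j = some z ∧ ¬ T y j i) y +
        cr D wr p b (fun y j i => D.lt p b.1 y i = some z ∧ ¬ T y j i) y +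
        mm D wr p b (fun y j i => ¬ T y j i) z y / nX D wr p b z y) +
      (2 * MaT D wr p b T z y + MbT D wr p b T z y + mm D wr p b T z y / nX D wr p b z y) := by
  have h1 := eU_pairs H hb hp z y
  have h2 := mm_split (D := D) (wr := wr) (p := p) (b := b) z y T
  have h3 := Ma_cr H hb hp z y
  have h4 := Mb_cr H hb hp z y
  have h5 := cr_split (D := D) (wr := wr) (p := p) (b := b)
    (fun y j i => D.lt p b.1 y j = some z) T y
  have h6 := cr_split (D := D) (wr := wr) (p := p) (b := b)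
    (fun y j i => D.lt p b.1 y i = some z) T y
  rw [h2, add_div] at h1
  unfold MaT MbT
  linarith

/-- rows of the cross plan -/
lemma chi_i (y : ℝ) (j : Λ) : ∑ i, ch (XX D wr p b y j i) (fA wr p b j y * pB (bB p b.2) i y) ≤
    pA (bB p b.2) j y := by
  rw [← xw_mul H hb hp]
  have h1 := xw1 H hb hp (D := D) y j
  have h2 := DTe407.pA0 H hb hp j y
  nlinarith

lemma chi_j (y : ℝ) (i : Λ) : ∑ j, ch (XX D wr p b y j i) (fA wr p b j y * pB (bB p b.2) i y) ≤
    pB (bB p b.2) i y := by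
  rw [← yw_mul H hb hp]
  have h1 := (yw1 H hb hp (D := D) y i).trans (rfle1 H hb hp _ y)
  have h2 := DTe407.pB0 H hb hp i y
  nlinarith

lemma pim0 (y : ℝ) (j i : Λ) : 0 ≤ pim D wr p b y j i :=
  div_nonneg (mul_nonneg (uA0 H hb hp j y) (uB0 H hb hp i y)) (nXo0 H hb hp y _)

lemma pim_i (y : ℝ) (j : Λ) : ∑ i, ch (D.lt p b.1 y i = D.lt p b.1 y j) (pim D wr p b y j i) ≤
    pA (bB p b.2) j y := by
  have hA := uA0 (wr := wr) H hb hp j y
  refine le_trans ?_ (uA_le (wr := wr) H hb hp j y)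
  unfold pim
  rcases h : D.lt p b.1 y j with _ | z
  · have e : ∀ i, ch (D.lt p b.1 y i = none) (uA wr p b j y * uB wr p b i y /
        nXo D wr p b y none) = 0 := fun i => by
      unfold nXo
      rw [div_zero]
      by_cases h2 : D.lt p b.1 y i = none
      · rw [ch_on h2]
      · rw [ch_off h2]
    rw [Finset.sum_eq_zero fun i _ => e i]
    exact hA
  · have e : ∑ i, ch (D.lt p b.1 y i = some z) (uA wr p b j y * uB wr p b i y /
        nXo D wr p b y (some z)) = uA wr p b j y * (fde D wr p b z y / nX D wr p b z y) := by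
      rw [fde_eq H hb hp, Finset.sum_div, Finset.mul_sum]
      refine Finset.sum_congr rfl fun i _ => ?_
      show ch _ (uA wr p b j y * uB wr p b i y / nX D wr p b z y) = _
      by_cases h2 : D.lt p b.1 y i = some z
      · rw [ch_on h2, ch_on h2]; ring
      · rw [ch_off h2, ch_off h2]; ring
    rw [e]
    have h3 : fde D wr p b z y / nX D wr p b z y ≤ 1 :=
      div_le_one_of_le₀ (le_max_right _ _) (nX0 H hb hp z y)
    nlinarith

lemma pim_j (y : ℝ) (i : Λ) : ∑ j, ch (D.lt p b.1 y i = D.lt p b.1 y j) (pim D wr p b y j i) ≤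
    pB (bB p b.2) i y := by
  have hB := uB0 (wr := wr) H hb hp i y
  refine le_trans ?_ (uB_le (wr := wr) H hb hp i y)
  have e0 : ∀ j, ch (D.lt p b.1 y i = D.lt p b.1 y j) (pim D wr p b y j i) =
      ch (D.lt p b.1 y j = D.lt p b.1 y i) (uA wr p b j y * uB wr p b i y /
        nXo D wr p b y (D.lt p b.1 y i)) := fun j => by
    unfold pim
    by_cases h : D.lt p b.1 y i = D.lt p b.1 y j
    · rw [ch_on h, ch_on h.symm, h]
    · rw [ch_off h, ch_off fun h' => h h'.symm]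
  simp only [e0]
  rcases h : D.lt p b.1 y i with _ | z
  · have e : ∀ j, ch (D.lt p b.1 y j = none) (uA wr p b j y * uB wr p b i y /
        nXo D wr p b y none) = 0 := fun j => by
      unfold nXo
      rw [div_zero]
      by_cases h2 : D.lt p b.1 y j = none
      · rw [ch_on h2]
      · rw [ch_off h2]
    rw [Finset.sum_eq_zero fun j _ => e j]
    exact hB
  · have e : ∑ j, ch (D.lt p b.1 y j = some z) (uA wr p b j y * uB wr p b i y /
        nXo D wr p b y (some z)) = uB wr p b i y * ((∑ j, ch (D.lt p b.1 y j = some z)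
          (uA wr p b j y)) / nX D wr p b z y) := by
      rw [Finset.sum_div, Finset.mul_sum]
      refine Finset.sum_congr rfl fun j _ => ?_
      show ch _ (uA wr p b j y * uB wr p b i y / nX D wr p b z y) = _
      by_cases h2 : D.lt p b.1 y j = some z
      · rw [ch_on h2, ch_on h2]; ring
      · rw [ch_off h2, ch_off h2]; ring
    rw [e]
    have h4 : ∑ j, ch (D.lt p b.1 y j = some z) (uA wr p b j y) ≤ nX D wr p b z y := by
      refine le_trans ?_ (le_max_left _ _)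
      rw [eX_eq H hb hp]
      have : 0 ≤ Ma D wr p b z y := (PMa H hb hp z).nonneg y
      linarith
    have h3 : (∑ j, ch (D.lt p b.1 y j = some z) (uA wr p b j y)) / nX D wr p b z y ≤ 1 :=
      div_le_one_of_le₀ h4 (nX0 H hb hp z y)
    nlinarith

/-- **the linear part** : pairs outside of `T`, each pair is paid at its P piece (`α`) or at its N piece
(`β`) -/
theorem ct_lin {T : ℝ → Λ → Λ → Prop} {y : ℝ} {v : Λ → ℝ} (v0 : ∀ l, 0 ≤ v l) {α β : Λ → Λ → ℝ}
    (α0 : ∀ j l, 0 ≤ α j l) (β0 : ∀ j l, 0 ≤ β j l)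
    (hX : ∀ j i, XX D wr p b y j i → ¬ T y j i → pA (bB p b.2) j y ≠ 0 → pB (bB p b.2) i y ≠ 0 →
      ∀ l, v l ≠ 0 → (sm1 D p b y j l → 2 ≤ α j l + β i l) ∧ (sm1 D p b y i l → 1 ≤ α j l + β i l))
    (hM : ∀ j i, D.lt p b.1 y i = D.lt p b.1 y j → wr p j ≠ wr p i → ¬ T y j i →
      pA (bB p b.2) j y ≠ 0 → pB (bB p b.2) i y ≠ 0 →
      ∀ l, v l ≠ 0 → sm1 D p b y j l → 1 ≤ α j l + β i l) :
    ∑ z, ct D p b y v z *
      (2 * cr D wr p b (fun y j i => D.lt p b.1 y j = some z ∧ ¬ T y j i) y +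
        cr D wr p b (fun y j i => D.lt p b.1 y i = some z ∧ ¬ T y j i) y +
        mm D wr p b (fun y j i => ¬ T y j i) z y / nX D wr p b z y) ≤
      2 * (∑ j, ∑ l, α j l * (pA (bB p b.2) j y * v l) +
        ∑ i, ∑ l, β i l * (pB (bB p b.2) i y * v l)) := by
  classical
  set χ : Λ → Λ → ℝ := fun j i => fA wr p b j y * pB (bB p b.2) i y with hχ
  have χ0 : ∀ j i, 0 ≤ χ j i := fun j i => fpB0 H hb hp y j i
  have c0 : ∀ j, 0 ≤ cj D p b y v j := fun j => cj_nonneg v0 j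
  -- sums over the types
  have s1 : ∑ z, ct D p b y v z * cr D wr p b (fun y j i => D.lt p b.1 y j = some z ∧ ¬ T y j i) y ≤
      dbl (fun j i => χ j i * cj D p b y v j) (fun j i => XX D wr p b y j i ∧ ¬ T y j i) := by
    have h := dbl_sel (f := fun j i => χ j i * cj D p b y v j)
      (s := fun (z : ζ) j i => D.lt p b.1 y j = some z)
      (P := fun j i => XX D wr p b y j i ∧ ¬ T y j i)
      (fun j i => mul_nonneg (χ0 j i) (c0 j)) (fun z z' j i h h' => Option.some.inj (h.symm.trans h'))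
    refine le_trans (le_of_eq (Finset.sum_congr rfl fun z _ => ?_)) h
    unfold dbl cr
    rw [Finset.mul_sum]
    refine Finset.sum_congr rfl fun j _ => ?_
    rw [Finset.mul_sum]
    refine Finset.sum_congr rfl fun i _ => ?_
    by_cases h1 : XX D wr p b y j i ∧ D.lt p b.1 y j = some z ∧ ¬ T y j i
    · rw [ch_on h1, ch_on ⟨h1.2.1, h1.1, h1.2.2⟩]
      simp only [hχ]
      rw [cj_eq h1.2.1]; ring
    · rw [ch_off h1, ch_off fun h2 => h1 ⟨h2.2.1, h2.1, h2.2.2⟩, mul_zero]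
  have s2 : ∑ z, ct D p b y v z * cr D wr p b (fun y j i => D.lt p b.1 y i = some z ∧ ¬ T y j i) y ≤
      dbl (fun j i => χ j i * cj D p b y v i) (fun j i => XX D wr p b y j i ∧ ¬ T y j i) := by
    have h := dbl_sel (f := fun j i => χ j i * cj D p b y v i)
      (s := fun (z : ζ) j i => D.lt p b.1 y i = some z)
      (P := fun j i => XX D wr p b y j i ∧ ¬ T y j i)
      (fun j i => mul_nonneg (χ0 j i) (c0 i)) (fun z z' j i h h' => Option.some.inj (h.symm.trans h'))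
    refine le_trans (le_of_eq (Finset.sum_congr rfl fun z _ => ?_)) h
    unfold dbl cr
    rw [Finset.mul_sum]
    refine Finset.sum_congr rfl fun j _ => ?_
    rw [Finset.mul_sum]
    refine Finset.sum_congr rfl fun i _ => ?_
    by_cases h1 : XX D wr p b y j i ∧ D.lt p b.1 y i = some z ∧ ¬ T y j i
    · rw [ch_on h1, ch_on ⟨h1.2.1, h1.1, h1.2.2⟩]
      simp only [hχ]
      rw [cj_eq h1.2.1]; ring
    · rw [ch_off h1, ch_off fun h2 => h1 ⟨h2.2.1, h2.1, h2.2.2⟩, mul_zero]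
  have s3 : ∑ z, ct D p b y v z * (mm D wr p b (fun y j i => ¬ T y j i) z y / nX D wr p b z y) ≤
      dbl (fun j i => pim D wr p b y j i * cj D p b y v j)
        (fun j i => D.lt p b.1 y i = D.lt p b.1 y j ∧ ¬ T y j i) := by
    have h := dbl_sel (f := fun j i => pim D wr p b y j i * cj D p b y v j)
      (s := fun (z : ζ) j i => D.lt p b.1 y j = some z)
      (P := fun j i => D.lt p b.1 y i = D.lt p b.1 y j ∧ ¬ T y j i)
      (fun j i => mul_nonneg (pim0 H hb hp y j i) (c0 j))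
      (fun z z' j i h h' => Option.some.inj (h.symm.trans h'))
    refine le_trans (le_of_eq (Finset.sum_congr rfl fun z _ => ?_)) h
    unfold dbl mm
    rw [Finset.sum_div, Finset.mul_sum]
    refine Finset.sum_congr rfl fun j _ => ?_
    rw [Finset.sum_div, Finset.mul_sum]
    refine Finset.sum_congr rfl fun i _ => ?_
    by_cases h1 : D.lt p b.1 y j = some z ∧ D.lt p b.1 y i = some z ∧ ¬ T y j i
    · rw [ch_on h1, ch_on ⟨h1.1, h1.2.1.trans h1.1.symm, h1.2.2⟩]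
      show _ = pim D wr p b y j i * cj D p b y v j
      rw [cj_eq h1.1]
      unfold pim
      rw [h1.1]
      show _ = uA wr p b j y * uB wr p b i y / nX D wr p b z y * _
      ring
    · rw [ch_off h1, ch_off fun h2 => h1 ⟨h2.1, h2.2.1.trans h2.1, h2.2.2⟩, zero_div, mul_zero]
  -- the two plans
  have p1 : ∑ j, ∑ i, ch (XX D wr p b y j i ∧ ¬ T y j i) (χ j i) *
      (2 * cj D p b y v j + 1 * cj D p b y v i) ≤
      ∑ j, ∑ l, α j l * (pA (bB p b.2) j y * v l) +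
        ∑ i, ∑ l, β i l * (pB (bB p b.2) i y * v l) := by
    refine plan_le (fun j i => ch_nonneg (χ0 j i)) v0 α0 β0 (fun j => ?_) (fun i => ?_)
      (fun j i h0 => ?_)
    · exact (Finset.sum_le_sum fun i _ => ch_mono2 (χ0 j i) fun h => h.1).trans
        (chi_i H hb hp y j)
    · exact (Finset.sum_le_sum fun j _ => ch_mono2 (χ0 j i) fun h => h.1).trans
        (chi_j H hb hp y i)
    · have h1 : XX D wr p b y j i ∧ ¬ T y j i := by
        by_contra h; exact h0 (ch_off h)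
      rw [ch_on h1] at h0
      have hB : pB (bB p b.2) i y ≠ 0 := fun h' => h0 (by simp only [hχ, h', mul_zero])
      have hA : pA (bB p b.2) j y ≠ 0 := fun h' => h0 (by
        simp only [hχ, fA, h', zero_div, mul_zero, zero_mul])
      have h2 := hX j i h1.1 h1.2 hA hB
      exact cj_le v0 (fun l => add_nonneg (α0 j l) (β0 i l)) (by norm_num) (by norm_num)
        (fun _ _ => h1.1.2) (fun l hl hs => (h2 l hl).1 hs) (fun l hl hs => (h2 l hl).2 hs)
  have p2 : ∑ j, ∑ i, ch (D.lt p b.1 y i = D.lt p b.1 y j ∧ ¬ T y j i) (pim D wr p b y j i) *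
      (1 * cj D p b y v j + 0 * cj D p b y v i) ≤
      ∑ j, ∑ l, α j l * (pA (bB p b.2) j y * v l) +
        ∑ i, ∑ l, β i l * (pB (bB p b.2) i y * v l) := by
    refine plan_le (fun j i => ch_nonneg (pim0 H hb hp y j i)) v0 α0 β0 (fun j => ?_) (fun i => ?_)
      (fun j i h0 => ?_)
    · exact (Finset.sum_le_sum fun i _ => ch_mono2 (pim0 H hb hp y j i) fun h => h.1).trans
        (pim_i H hb hp y j)
    · exact (Finset.sum_le_sum fun j _ => ch_mono2 (pim0 H hb hp y j i) fun h => h.1).trans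
        (pim_j H hb hp y i)
    · have h1 : D.lt p b.1 y i = D.lt p b.1 y j ∧ ¬ T y j i := by
        by_contra h; exact h0 (ch_off h)
      rw [ch_on h1] at h0
      have k1 : uA wr p b j y ≠ 0 := fun h => h0 (by unfold pim; rw [h, zero_mul, zero_div])
      have k2 : uB wr p b i y ≠ 0 := fun h => h0 (by unfold pim; rw [h, mul_zero, zero_div])
      have hA : pA (bB p b.2) j y ≠ 0 := fun h' => k1 (by unfold uA; rw [h', mul_zero])
      have hB : pB (bB p b.2) i y ≠ 0 := fun h' => k2 (by unfold uB; rw [h', mul_zero])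
      have hne := exc_ne H hb hp k1 k2
      have h2 := hM j i h1.1 hne h1.2 hA hB
      exact cj_le v0 (fun l => add_nonneg (α0 j l) (β0 i l)) (by norm_num) le_rfl
        (fun _ h => absurd rfl h) (fun l hl hs => h2 l hl hs)
        (fun l _ _ => add_nonneg (α0 j l) (β0 i l))
  -- assembly
  have e1 : ∑ z, ct D p b y v z *
      (2 * cr D wr p b (fun y j i => D.lt p b.1 y j = some z ∧ ¬ T y j i) y +
        cr D wr p b (fun y j i => D.lt p b.1 y i = some z ∧ ¬ T y j i) y +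
        mm D wr p b (fun y j i => ¬ T y j i) z y / nX D wr p b z y) =
      2 * ∑ z, ct D p b y v z *
        cr D wr p b (fun y j i => D.lt p b.1 y j = some z ∧ ¬ T y j i) y +
      ∑ z, ct D p b y v z * cr D wr p b (fun y j i => D.lt p b.1 y i = some z ∧ ¬ T y j i) y +
      ∑ z, ct D p b y v z * (mm D wr p b (fun y j i => ¬ T y j i) z y / nX D wr p b z y) := by
    rw [Finset.mul_sum, ← Finset.sum_add_distrib, ← Finset.sum_add_distrib]
    exact Finset.sum_congr rfl fun z _ => by ring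
  have e2 : ∑ j, ∑ i, ch (XX D wr p b y j i ∧ ¬ T y j i) (χ j i) *
      (2 * cj D p b y v j + 1 * cj D p b y v i) =
      2 * dbl (fun j i => χ j i * cj D p b y v j) (fun j i => XX D wr p b y j i ∧ ¬ T y j i) +
      dbl (fun j i => χ j i * cj D p b y v i) (fun j i => XX D wr p b y j i ∧ ¬ T y j i) := by
    unfold dbl
    rw [Finset.mul_sum, ← Finset.sum_add_distrib]
    refine Finset.sum_congr rfl fun j _ => ?_
    rw [Finset.mul_sum, ← Finset.sum_add_distrib]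
    refine Finset.sum_congr rfl fun i _ => ?_
    by_cases h1 : XX D wr p b y j i ∧ ¬ T y j i
    · rw [ch_on h1, ch_on h1, ch_on h1]; ring
    · rw [ch_off h1, ch_off h1, ch_off h1]; ring
  have e3 : ∑ j, ∑ i, ch (D.lt p b.1 y i = D.lt p b.1 y j ∧ ¬ T y j i) (pim D wr p b y j i) *
      (1 * cj D p b y v j + 0 * cj D p b y v i) =
      dbl (fun j i => pim D wr p b y j i * cj D p b y v j)
        (fun j i => D.lt p b.1 y i = D.lt p b.1 y j ∧ ¬ T y j i) := by
    unfold dbl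
    refine Finset.sum_congr rfl fun j _ => Finset.sum_congr rfl fun i _ => ?_
    by_cases h1 : D.lt p b.1 y i = D.lt p b.1 y j ∧ ¬ T y j i
    · rw [ch_on h1, ch_on h1]; ring
    · rw [ch_off h1, ch_off h1]; ring
  rw [e2] at p1
  rw [e3] at p2
  rw [e1]
  linarith

/-- **the second order part** -/
theorem ct_T {T : ℝ → Λ → Λ → Prop} {y m₀ t : ℝ} (m0 : 1 ≤ m₀) (ht : 0 < t)
    {KT : Λ → Λ → ℝ} (KT0 : ∀ j i, 0 ≤ KT j i) (kk : BthZ48.KTp D wr p b T KT y) (c : ζ → ℝ) :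
    ∑ z, c z * (2 * MaT D wr p b T z y + MbT D wr p b T z y +
      mm D wr p b T z y / nX D wr p b z y) ≤
      1 / (2 * t) * ∑ z, c z ^ 2 + 15 / 2 * m₀ * t *
        ∑ j, ∑ i, KT j i * (pA (bB p b.2) j y * pB (bB p b.2) i y) := by
  obtain ⟨E, F, e0, d0, h1, h2, h3, h7⟩ := BthZ48.sum_KT H hb hp kk KT0
  -- the square of the mismatch
  have h4 : ∀ z, (mm D wr p b T z y / nX D wr p b z y) ^ 2 ≤ emm D wr p b T z y := by
    intro z
    have n0 := nX0 H hb hp z y
    have W0 : 0 ≤ mm D wr p b T z y := mm_nonneg H hb hp z y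
    have em0 := emm_nonneg H hb hp T z y
    have W3 := mm_le H hb hp (T := T) z y
    have W2 : mm D wr p b T z y ≤ nX D wr p b z y ^ 2 := by
      refine (mm_le2 H hb hp z y).trans ?_
      rw [sq]
      exact mul_le_mul (le_max_left _ _) (le_max_right _ _) (fde0 H hb hp z y) n0
    rcases n0.eq_or_lt with h0 | h0
    · rw [← h0, div_zero, zero_pow two_ne_zero]; exact em0
    · rw [div_pow, div_le_iff₀ (by positivity), sq]
      calc mm D wr p b T z y * mm D wr p b T z y ≤ mm D wr p b T z y * nX D wr p b z y ^ 2 :=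
            mul_le_mul_of_nonneg_left W2 W0
        _ ≤ emm D wr p b T z y * nX D wr p b z y ^ 2 :=
            mul_le_mul_of_nonneg_right W3 (sq_nonneg _)
  -- Young
  have h5 : ∀ z, c z * (2 * MaT D wr p b T z y + MbT D wr p b T z y +
      mm D wr p b T z y / nX D wr p b z y) ≤ 1 / (2 * t) * c z ^ 2 +
      t / 2 * (3 * (4 * MaT D wr p b T z y ^ 2 + MbT D wr p b T z y ^ 2 +
        emm D wr p b T z y)) := by
    intro z
    have q := h4 z
    set a := MaT D wr p b T z y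
    set e := MbT D wr p b T z y
    set f := mm D wr p b T z y / nX D wr p b z y
    set g := emm D wr p b T z y
    have k1 : (2 * a + e + f) ^ 2 ≤ 3 * (4 * a ^ 2 + e ^ 2 + g) := by
      nlinarith [sq_nonneg (2 * a - e), sq_nonneg (2 * a - f), sq_nonneg (e - f)]
    have k2 : c z * (2 * a + e + f) ≤ 1 / (2 * t) * c z ^ 2 + t / 2 * (2 * a + e + f) ^ 2 := by
      have k3 : 0 ≤ (c z - t * (2 * a + e + f)) ^ 2 / (2 * t) := by positivity
      have k4 : (c z - t * (2 * a + e + f)) ^ 2 / (2 * t) = 1 / (2 * t) * c z ^ 2 +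
          t / 2 * (2 * a + e + f) ^ 2 - c z * (2 * a + e + f) := by
        field_simp
        ring
      linarith
    have k5 := mul_le_mul_of_nonneg_left k1 (by positivity : (0:ℝ) ≤ t / 2)
    linarith
  refine (Finset.sum_le_sum fun z _ => h5 z).trans ?_
  rw [Finset.sum_add_distrib, ← Finset.mul_sum, ← Finset.mul_sum]
  have e6 : ∑ z, 3 * (4 * MaT D wr p b T z y ^ 2 + MbT D wr p b T z y ^ 2 +
        emm D wr p b T z y) = 3 * (4 * ∑ z, MaT D wr p b T z y ^ 2 +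
      ∑ z, MbT D wr p b T z y ^ 2 + ∑ z, emm D wr p b T z y) := by
    rw [← Finset.mul_sum, Finset.sum_add_distrib, Finset.sum_add_distrib, Finset.mul_sum]
  rw [e6]
  set G := ∑ j, ∑ i, KT j i * (pA (bB p b.2) j y * pB (bB p b.2) i y)
  have h8 : 3 * (4 * ∑ z, MaT D wr p b T z y ^ 2 +
      ∑ z, MbT D wr p b T z y ^ 2 + ∑ z, emm D wr p b T z y) ≤ 15 * m₀ * G := by
    have k1 : G ≤ m₀ * G := by nlinarith
    linarith
  have h9 := mul_le_mul_of_nonneg_left h8 (by positivity : (0:ℝ) ≤ t / 2)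
  linarith

/-- **the budget of a bundle, pointwise** -/
theorem budget_pt (hU : ∀ z x, ¬ D.spc p b z x) {T : ℝ → Λ → Λ → Prop} {y m₀ t : ℝ}
    (m0 : 1 ≤ m₀) (ht : 0 < t)
    {K K3 K1 KT : Λ → Λ → ℝ} (K0 : ∀ j i, 0 ≤ K j i) (K30 : ∀ j i, 0 ≤ K3 j i)
    (K10 : ∀ j i, 0 ≤ K1 j i)
    (hKA : ∀ j l, pA (bB p b.2) j y ≠ 0 → pQ (bB p b.2) l y ≠ 0 → sm1 D p b y j l → 1 ≤ K j l)
    (hKB : ∀ j l, pB (bB p b.2) j y ≠ 0 → pQ (bB p b.2) l y ≠ 0 → sm1 D p b y j l → 1 ≤ K j l)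
    (h3A : ∀ j l, pA (bB p b.2) j y ≠ 0 → pA (bB p b.2) l y ≠ 0 → sm1 D p b y j l → 1 ≤ K3 j l)
    (h3B : ∀ j l, pB (bB p b.2) j y ≠ 0 → pB (bB p b.2) l y ≠ 0 → sm1 D p b y j l → 1 ≤ K3 j l)
    (KT0 : ∀ j i, 0 ≤ KT j i) (kk : BthZ48.KTp D wr p b T KT y)
    (hX : ∀ j i, XX D wr p b y j i → ¬ T y j i → pA (bB p b.2) j y ≠ 0 → pB (bB p b.2) i y ≠ 0 →
      ∀ l, (pA (bB p b.2) l y ≠ 0 ∨ pB (bB p b.2) l y ≠ 0) →
      (sm1 D p b y j l ∨ sm1 D p b y i l) → 1 ≤ K1 j l + K1 i l)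
    (hM : ∀ j i, D.lt p b.1 y i = D.lt p b.1 y j → wr p j ≠ wr p i → ¬ T y j i →
      pA (bB p b.2) j y ≠ 0 → pB (bB p b.2) i y ≠ 0 →
      ∀ l, (pA (bB p b.2) l y ≠ 0 ∨ pB (bB p b.2) l y ≠ 0) → sm1 D p b y j l →
      1 ≤ K1 j l + K1 i l) :
    Ep p (jA (raw D wr p b)) y ≤ 1 / (p : ℝ) *
      (80 * (∑ j, ∑ l, K1 j l * ((pA (bB p b.2) j y + pB (bB p b.2) j y) *
          (pA (bB p b.2) l y + pB (bB p b.2) l y))) +
      150 * m₀ * t * (∑ j, ∑ i, KT j i * (pA (bB p b.2) j y * pB (bB p b.2) i y)) +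
      20 / t * (∑ j, ∑ l, K3 j l * (pA (bB p b.2) j y * pA (bB p b.2) l y) +
        ∑ j, ∑ l, K3 j l * (pB (bB p b.2) j y * pB (bB p b.2) l y)) +
      160 * (∑ j, ∑ l, K j l * (pA (bB p b.2) j y * pQ (bB p b.2) l y)) +
      80 * (∑ j, ∑ l, K j l * (pB (bB p b.2) j y * pQ (bB p b.2) l y))) := by
  have nA : ∀ l, 0 ≤ pA (bB p b.2) l y := fun l => DTe407.pA0 H hb hp l y
  have nB : ∀ l, 0 ≤ pB (bB p b.2) l y := fun l => DTe407.pB0 H hb hp l y
  have nQ : ∀ l, 0 ≤ pQ (bB p b.2) l y := fun l => pQ0 H hb hp l y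
  have hp' : (0:ℝ) < p := by exact_mod_cast Nat.pos_of_ne_zero hp
  refine (Ep_budget H hb hp y).trans ?_
  set X1 : ζ → ℝ := ct D p b y (fun l => pA (bB p b.2) l y + pB (bB p b.2) l y) with hX1
  set X2 : ζ → ℝ := ct D p b y (fun l => pQ (bB p b.2) l y) with hX2
  set ev : ζ → ℝ := fun z => eU D wr p b z y + Ma D wr p b z y + Mb D wr p b z y with hev
  have X10 : ∀ z, 0 ≤ X1 z := fun z => ct_nonneg (fun l => add_nonneg (nA l) (nB l)) z
  have X20 : ∀ z, 0 ≤ X2 z := fun z => ct_nonneg nQ z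
  -- step 1
  have s1 : ∑ z, (D.h p (D.cP p b) z y + D.h p (D.cN p b) z y) *
      (1 / (p : ℝ) * (12 * evt D wr p b z y + 8 * rho D wr p b z y)) ≤
      1 / (p : ℝ) * (20 * ∑ z, X1 z * ev z + 40 * ∑ z, X2 z * ev z) := by
    have e : 1 / (p : ℝ) * (20 * ∑ z, X1 z * ev z + 40 * ∑ z, X2 z * ev z) =
        ∑ z, (X1 z + 2 * X2 z) * (1 / (p : ℝ) * (20 * ev z)) := by
      rw [Finset.mul_sum, Finset.mul_sum, ← Finset.sum_add_distrib, Finset.mul_sum]
      exact Finset.sum_congr rfl fun z _ => by ring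
    rw [e]
    refine Finset.sum_le_sum fun z _ => ?_
    rw [h_ct H hb hp]
    refine mul_le_mul_of_nonneg_left (mul_le_mul_of_nonneg_left (ev_eq H hb hp hU z y)
      (by positivity)) ?_
    have a1 := X10 z
    have a2 := X20 z
    show 0 ≤ X1 z + 2 * X2 z
    linarith
  -- pulls
  have s2 : ∑ z, X2 z * ev z ≤ 2 * (∑ j, ∑ l, (2 * K j l) * (pA (bB p b.2) j y * pQ (bB p b.2) l y) +
      ∑ i, ∑ l, K i l * (pB (bB p b.2) i y * pQ (bB p b.2) l y)) := by
    have h1 := ct_lin H hb hp (T := fun _ _ _ => False) (y := y) (v := fun l => pQ (bB p b.2) l y) nQ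
      (α := fun j l => 2 * K j l) (β := K) (fun j l => by have := K0 j l; positivity) K0
      (fun j i hx _ hA hB l hl => ⟨fun hs => ?_, fun hs => ?_⟩)
      (fun j i hx _ _ hA hB l hl hs => ?_)
    · refine le_trans (Finset.sum_le_sum fun z _ => mul_le_mul_of_nonneg_left
        (row_ev H hb hp (fun _ _ _ => False) z y) (X20 z)) ?_
      refine le_trans (le_of_eq (Finset.sum_congr rfl fun z _ => ?_)) h1
      have e1 : MaT D wr p b (fun _ _ _ => False) z y = 0 := cr_false y fun j i h => h.2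
      have e2 : MbT D wr p b (fun _ _ _ => False) z y = 0 := cr_false y fun j i h => h.2
      have e3 : mm D wr p b (fun _ _ _ => False) z y = 0 := mm_false z y fun j i h => h
      rw [e1, e2, e3]
      ring
    · have a1 := hKA j l hA hl hs
      have a2 := K0 i l
      show 2 ≤ 2 * K j l + K i l
      linarith
    · have a1 := hKB i l hB hl hs
      have a2 := K0 j l
      show 1 ≤ 2 * K j l + K i l
      linarith
    · have a1 := hKA j l hA hl hs
      have a2 := K0 i l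
      have a3 := K0 j l
      show 1 ≤ 2 * K j l + K i l
      linarith
  -- ties
  have s3 : ∑ z, X1 z * ev z ≤ 2 * (∑ j, ∑ l, (2 * K1 j l) * (pA (bB p b.2) j y *
        (pA (bB p b.2) l y + pB (bB p b.2) l y)) +
      ∑ i, ∑ l, (2 * K1 i l) * (pB (bB p b.2) i y * (pA (bB p b.2) l y + pB (bB p b.2) l y))) +
      (1 / (2 * t) * ∑ z, X1 z ^ 2 + 15 / 2 * m₀ * t *
        ∑ j, ∑ i, KT j i * (pA (bB p b.2) j y * pB (bB p b.2) i y)) := by
    have h1 := ct_lin H hb hp (T := T) (y := y) (v := fun l => pA (bB p b.2) l y + pB (bB p b.2) l y)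
      (fun l => add_nonneg (nA l) (nB l))
      (α := fun j l => 2 * K1 j l) (β := fun j l => 2 * K1 j l)
      (fun j l => by have := K10 j l; positivity) (fun j l => by have := K10 j l; positivity)
      (fun j i hx ht' hA hB l hl => ?_) (fun j i hx hw ht' hA hB l hl hs => ?_)
    · have h2 := ct_T H hb hp m0 ht KT0 kk X1
      have h3 : ∑ z, X1 z * ev z ≤ ∑ z, (X1 z *
          (2 * cr D wr p b (fun y j i => D.lt p b.1 y j = some z ∧ ¬ T y j i) y +
        cr D wr p b (fun y j i => D.lt p b.1 y i = some z ∧ ¬ T y j i) y +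
        mm D wr p b (fun y j i => ¬ T y j i) z y / nX D wr p b z y) +
          X1 z * (2 * MaT D wr p b T z y + MbT D wr p b T z y +
      mm D wr p b T z y / nX D wr p b z y)) := by
        refine Finset.sum_le_sum fun z _ => ?_
        rw [← mul_add]
        exact mul_le_mul_of_nonneg_left (row_ev H hb hp T z y) (X10 z)
      rw [Finset.sum_add_distrib] at h3
      exact h3.trans (add_le_add h1 h2)
    · have hl' : pA (bB p b.2) l y ≠ 0 ∨ pB (bB p b.2) l y ≠ 0 := by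
        by_contra h
        push Not at h
        exact hl (by show _ + _ = _; rw [h.1, h.2, add_zero])
      have h4 := hX j i hx ht' hA hB l hl'
      refine ⟨fun hs => ?_, fun hs => ?_⟩
      · have := h4 (Or.inl hs)
        show 2 ≤ 2 * K1 j l + 2 * K1 i l
        linarith
      · have := h4 (Or.inr hs)
        show 1 ≤ 2 * K1 j l + 2 * K1 i l
        linarith
    · have hl' : pA (bB p b.2) l y ≠ 0 ∨ pB (bB p b.2) l y ≠ 0 := by
        by_contra h
        push Not at h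
        exact hl (by show _ + _ = _; rw [h.1, h.2, add_zero])
      have := hM j i hx hw ht' hA hB l hl' hs
      show 1 ≤ 2 * K1 j l + 2 * K1 i l
      linarith
  -- child energies
  have s4 : ∑ z, X1 z ^ 2 ≤ 2 * (∑ j, ∑ l, K3 j l * (pA (bB p b.2) j y * pA (bB p b.2) l y) +
        ∑ j, ∑ l, K3 j l * (pB (bB p b.2) j y * pB (bB p b.2) l y)) := by
    have h1 := ct_sq (D := D) (p := p) (b := b) (y := y) (v := fun l => pA (bB p b.2) l y) nA K30
      (fun j l h1 h2 h3 h4 => h3A j l h1 h2 ⟨h3.symm, by rw [← h3]; exact h4⟩)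
    have h2 := ct_sq (D := D) (p := p) (b := b) (y := y) (v := fun l => pB (bB p b.2) l y) nB K30
      (fun j l h1 h2 h3 h4 => h3B j l h1 h2 ⟨h3.symm, by rw [← h3]; exact h4⟩)
    have h3 : ∑ z, X1 z ^ 2 ≤ ∑ z, (2 * ct D p b y (fun l => pA (bB p b.2) l y) z ^ 2 +
        2 * ct D p b y (fun l => pB (bB p b.2) l y) z ^ 2) := by
      refine Finset.sum_le_sum fun z _ => ?_
      rw [hX1, ct_add]
      nlinarith [sq_nonneg (ct D p b y (fun l => pA (bB p b.2) l y) z -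
        ct D p b y (fun l => pB (bB p b.2) l y) z)]
    rw [Finset.sum_add_distrib, ← Finset.mul_sum, ← Finset.mul_sum] at h3
    linarith
  -- sums
  have e5 : ∑ j, ∑ l, (2 * K j l) * (pA (bB p b.2) j y * pQ (bB p b.2) l y) =
      2 * ∑ j, ∑ l, K j l * (pA (bB p b.2) j y * pQ (bB p b.2) l y) := by
    rw [Finset.mul_sum]
    refine Finset.sum_congr rfl fun j _ => ?_
    rw [Finset.mul_sum]
    exact Finset.sum_congr rfl fun l _ => by ring
  have e6 : ∑ j, ∑ l, (2 * K1 j l) * (pA (bB p b.2) j y *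
        (pA (bB p b.2) l y + pB (bB p b.2) l y)) +
      ∑ i, ∑ l, (2 * K1 i l) * (pB (bB p b.2) i y * (pA (bB p b.2) l y + pB (bB p b.2) l y)) =
      2 * ∑ j, ∑ l, K1 j l * ((pA (bB p b.2) j y + pB (bB p b.2) j y) *
          (pA (bB p b.2) l y + pB (bB p b.2) l y)) := by
    rw [← Finset.sum_add_distrib, Finset.mul_sum]
    refine Finset.sum_congr rfl fun j _ => ?_
    rw [← Finset.sum_add_distrib, Finset.mul_sum]
    exact Finset.sum_congr rfl fun l _ => by ring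
  rw [e5] at s2
  rw [e6] at s3
  refine s1.trans (mul_le_mul_of_nonneg_left ?_ (by positivity))
  have s5 := mul_le_mul_of_nonneg_left s4 (by positivity : (0:ℝ) ≤ 20 * (1 / (2 * t)))
  have e7 : 20 * (1 / (2 * t)) * (2 * (∑ j, ∑ l, K3 j l * (pA (bB p b.2) j y * pA (bB p b.2) l y) +
        ∑ j, ∑ l, K3 j l * (pB (bB p b.2) j y * pB (bB p b.2) l y))) =
      20 / t * (∑ j, ∑ l, K3 j l * (pA (bB p b.2) j y * pA (bB p b.2) l y) +
        ∑ j, ∑ l, K3 j l * (pB (bB p b.2) j y * pB (bB p b.2) l y)) := by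
    field_simp
  rw [e7] at s5
  linarith

end ev

/-! ### the hypotheses on static kernels -/

/-- **static column kernels of the budgets** : `T` second order pairs (P piece, N piece), `KT` their
kernel; `K1` pays an event pair `(j, i)` against a piece `l` of one of the two low types at `(j, l)` or at
`(i, l)` -/
structure JB (H : TYp wr D Inv) (K1 KT : ℕ → Λ → Λ → ℝ)
    (T : ℕ → μ × List (DT Λ κ) → ℝ → Λ → Λ → Prop) (m₀ : ℝ) (t : ℕ → ℝ) : Prop where
  unm : ∀ {p b}, Inv p b → p ≠ 0 → ∀ z x, ¬ D.spc p b z x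
  m1 : 1 ≤ m₀
  t0 : ∀ p, 0 < t p
  k1 : ∀ p, JnE5.Ker (K1 p)
  kT : ∀ p j i, 0 ≤ KT p j i
  kk : ∀ {p b}, Inv p b → p ≠ 0 → ∀ y, BthZ48.KTp D wr p b (T p b) (KT p) y
  hX : ∀ {p b}, Inv p b → p ≠ 0 → ∀ y j i, XX D wr p b y j i → ¬ T p b y j i →
    pA (bB p b.2) j y ≠ 0 → pB (bB p b.2) i y ≠ 0 →
    ∀ l, (pA (bB p b.2) l y ≠ 0 ∨ pB (bB p b.2) l y ≠ 0) →
    (sm1 D p b y j l ∨ sm1 D p b y i l) → 1 ≤ K1 p j l + K1 p i l
  hM : ∀ {p b}, Inv p b → p ≠ 0 → ∀ y j i, D.lt p b.1 y i = D.lt p b.1 y j → wr p j ≠ wr p i →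
    ¬ T p b y j i → pA (bB p b.2) j y ≠ 0 → pB (bB p b.2) i y ≠ 0 →
    ∀ l, (pA (bB p b.2) l y ≠ 0 ∨ pB (bB p b.2) l y ≠ 0) → sm1 D p b y j l →
    1 ≤ K1 p j l + K1 p i l

end row

/-! ### integrated -/

section int
open Crest.Agent.R4.Tour104 Crest.Agent.R4.Tour758 Crest.Agent.R4.Clos758
open Crest.Agent.R4.ClosL758
open Crest.Agent.R4P.Grp36 Crest.Agent.R4P.GWa343 Crest.Agent.R4P.GWb343 Crest.Agent.R4P.GWc343
open Crest.Agent.R4P.GMer27 Crest.Agent.R4P.GCol27 Crest.Agent.R4P.RSys343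
open Crest.Agent.R4P.RXm55 Crest.Agent.R4P.RXm55.RXm
open Crest.Agent.R4P.MSi343 (su su_add)
open Crest.Agent.R4P.MSm25 Crest.Agent.R4P.PayR45 Crest.Agent.R4P.GSK55
open Crest.Agent.R4P.DTp26 (jv PB_jv hz)
open Crest.Agent.R4P.MSd343 Crest.Agent.R4P.Bp407 Crest.Agent.R4P.VR407
open Crest.Agent.R4P.JnE5 Crest.Agent.R4P.JnF5 Crest.Agent.R4P.JnH5
open Crest.Agent.R4P.PVd45 Crest.Agent.R4P.PVe45 Crest.Agent.R4P.PrE45 Crest.Agent.R4P.PrD45
open Crest.Agent.R4P.PrF45 Crest.Agent.R4P.PrG45 Crest.Agent.R4P.PrH45 Crest.Agent.R4P.PrE245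
open Crest.Agent.R4P.LogL51 (isLf)
open Crest.Agent.R4P.Walk560 (DT)
open Crest.Agent.R4P.DTm407 Crest.Agent.R4P.DTn407
open Crest.Agent.R4P.TyS16 (jA)

/-- energy of the tie in the kernel `K1`, rate `1/q` -/
noncomputable def F1 {Λ : Type} [Fintype Λ] (K1 : ℕ → Λ → Λ → ℝ) (q : ℕ) (a b : Λ → ℝ → ℝ) : ℝ :=
  1 / (q : ℝ) * bil (K1 q) (fun j x => a j x + b j x) (fun j x => a j x + b j x)

/-- energies of the children, rate `f q / q` -/
noncomputable def F3 {Λ : Type} [Fintype Λ] (f : ℕ → ℝ) (K : ℕ → Λ → Λ → ℝ) (q : ℕ)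
    (a b : Λ → ℝ → ℝ) : ℝ := f q / (q : ℝ) * (bil (K q) a a + bil (K q) b b)

section bun
variable {μ Λ κ ζ : Type} [Fintype Λ] [DecidableEq Λ] [Fintype κ] [DecidableEq κ]
  [Fintype ζ] [DecidableEq ζ]
variable {wr : ℕ → Λ → κ} {D : TD μ Λ κ ζ} {Inv : ℕ → μ × List (DT Λ κ) → Prop}
  {Inv' : ℕ → List (DT Λ κ) → Prop} {H : TYp wr D Inv} {K K3 K1 KT : ℕ → Λ → Λ → ℝ}
  {T : ℕ → μ × List (DT Λ κ) → ℝ → Λ → Λ → Prop} {m₀ : ℝ} {t : ℕ → ℝ}

/-- a low member of a bundle and another member are joined -/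
lemma xp_aux {p : ℕ} {A C : List (DT Λ κ)} {t : DT Λ κ} (h : PBA (A ++ t :: C)) (ht : t.top < p)
    (len : (bN p (A ++ t :: C)).length ≤ 1) {j l : Λ} {y : ℝ} (hj : t.g.val j y ≠ 0)
    (hl : jv (A ++ C) l y ≠ 0) : Xp p (A ++ t :: C) y j l ∨ Xp p (A ++ t :: C) y l j := by
  have hAC : PBA (A ++ C) := fun s hs => h s (by
    rcases List.mem_append.1 hs with h1 | h1
    · exact List.mem_append_left _ h1
    · exact List.mem_append_right _ (List.mem_cons_of_mem _ h1))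
  have ht' : ∀ j, PB (t.g.val j) := (h t (by simp)).self
  have tj : 0 < t.g.val j y := lt_of_le_of_ne ((ht' j).nonneg y) (Ne.symm hj)
  have pl : ∀ j, 0 ≤ jv (bL p (A ++ C)) j y := fun j => (PB_jv (hAC.bL p).self j).nonneg y
  have pr : ∀ j, 0 ≤ jv (bN p (A ++ C)) j y := fun j => (PB_jv (hAC.bN p).self j).nonneg y
  obtain ⟨oB, o⟩ := one_low ht
  have eA : A ++ t :: C = A ++ ([t] ++ C) := rfl
  have eB : bB p (A ++ t :: C) = bB p (A ++ C) := by
    rw [eA, bB_app, bB_app, oB, List.nil_append, ← bB_app]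
  have hs := JnH5.jv_split3 p (A ++ C) l y
  have h3 : jv (bL p (A ++ C)) l y ≠ 0 ∨ jv (bB p (A ++ C)) l y ≠ 0 ∨ jv (bN p (A ++ C)) l y ≠ 0 := by
    by_contra hc
    push Not at hc
    rw [hc.1, hc.2.1, hc.2.2] at hs
    exact hl (by rw [hs]; ring)
  rcases o with ⟨-, oL, oN⟩ | ⟨-, oL, oN⟩
  · have eL : jv (bL p (A ++ t :: C)) = fun j x => t.g.val j x + jv (bL p (A ++ C)) j x := by
      rw [eA, bL_app, bL_app, oL, bL_app]
      exact jv_mid _ _ _
    have eN : bN p (A ++ t :: C) = bN p (A ++ C) := by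
      rw [eA, bN_app, bN_app, oN, List.nil_append, ← bN_app]
    have g1 : jv (bL p (A ++ t :: C)) j y ≠ 0 := by
      rw [eL]
      have := pl j
      show t.g.val j y + _ ≠ 0
      linarith
    refine Or.inl (Or.inl ⟨g1, ?_⟩)
    rcases h3 with h3 | h3 | h3
    · left
      rw [eL]
      have := lt_of_le_of_ne (pl l) (Ne.symm h3)
      have := (ht' l).nonneg y
      show t.g.val l y + _ ≠ 0
      linarith
    · right; left; rw [eB]; exact h3
    · right; right; rw [eN]; exact h3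
  · have eL : bL p (A ++ t :: C) = bL p (A ++ C) := by
      rw [eA, bL_app, bL_app, oL, List.nil_append, ← bL_app]
    have eN : jv (bN p (A ++ t :: C)) = fun j x => t.g.val j x + jv (bN p (A ++ C)) j x := by
      rw [eA, bN_app, bN_app, oN, bN_app]
      exact jv_mid _ _ _
    have z : bN p (A ++ C) = [] := by
      have h1 : (bN p (A ++ t :: C)).length = (bN p (A ++ C)).length + 1 := by
        rw [eA, bN_app, bN_app, oN, bN_app]
        simp only [List.length_append, List.length_cons, List.length_nil]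
        omega
      have h2 : (bN p (A ++ C)).length = 0 := by omega
      exact List.length_eq_zero_iff.1 h2
    have g1 : jv (bN p (A ++ t :: C)) j y ≠ 0 := by
      rw [eN]
      have := pr j
      show t.g.val j y + _ ≠ 0
      linarith
    rcases h3 with h3 | h3 | h3
    · exact Or.inr (Or.inl ⟨by rw [eL]; exact h3, Or.inr (Or.inr g1)⟩)
    · exact Or.inr (Or.inr ⟨by rw [eB]; exact h3, g1⟩)
    · rw [z] at h3
      exact absurd rfl h3

/-- **pieces of a child of the tie and of the pulls are joined** -/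
lemma xp_P {p : ℕ} {kd : Λ → κ} {Q : List (DT Λ κ)} (h : KOk kd p Q) (hi : ∀ t ∈ Q, t.Col (p + 1))
    (hP : PBA (Q.map chP)) (len : (bN p (Q.map chP)).length ≤ 1) {j l : Λ} {y : ℝ}
    (hj : pA Q j y ≠ 0) (hl : pQ Q l y ≠ 0) : Xp p (Q.map chP) y j l ∨ Xp p (Q.map chP) y l j := by
  rcases tie_split h with ⟨e, -⟩ | ⟨A, t, C, e, hw, e1, -, e2, -⟩
  · rw [e] at hj
    exact absurd rfl hj
  · have ht : t ∈ Q := by rw [e]; simp
    have h1 := top_ch (hi t ht) (h.bk.ok t ht).2 hw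
    have e3 : Q.map chP = A.map chP ++ chP t :: C.map chP := by
      rw [e, List.map_append, List.map_cons]
    rw [e1] at hj
    rw [← e2, List.map_append] at hl
    rw [e3] at hP len ⊢
    exact xp_aux hP h1.1 len hj hl

lemma xp_N {p : ℕ} {kd : Λ → κ} {Q : List (DT Λ κ)} (h : KOk kd p Q) (hi : ∀ t ∈ Q, t.Col (p + 1))
    (hP : PBA (Q.map chN)) (len : (bN p (Q.map chN)).length ≤ 1) {j l : Λ} {y : ℝ}
    (hj : pB Q j y ≠ 0) (hl : pQ Q l y ≠ 0) : Xp p (Q.map chN) y j l ∨ Xp p (Q.map chN) y l j := by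
  rcases tie_split h with ⟨-, e⟩ | ⟨A, t, C, e, hw, -, e1, -, e2⟩
  · rw [e] at hj
    exact absurd rfl hj
  · have ht : t ∈ Q := by rw [e]; simp
    have h1 := top_ch (hi t ht) (h.bk.ok t ht).2 hw
    have e3 : Q.map chN = A.map chN ++ chN t :: C.map chN := by
      rw [e, List.map_append, List.map_cons]
    rw [e1] at hj
    rw [← e2, List.map_append] at hl
    rw [e3] at hP len ⊢
    exact xp_aux hP h1.2 len hj hl

/-- **the budget of a bundle** ; `K` joins the pulls, `K3` dominates the types inside the children -/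
theorem I_jb (HK : KP (rxm H) Prod.snd (fun p b x j => D.tp p b.1 x j) K)
    (hK3 : ∀ p, Ker (K3 p)) (dom3 : ∀ {p b}, Inv p b → ∀ x j j', jv b.2 j x ≠ 0 → jv b.2 j' x ≠ 0 →
      D.tp p b.1 x j = D.tp p b.1 x j' → D.tp p b.1 x j ≠ none → 1 ≤ K3 p j j')
    (L : LB (bm (rxm H)) Prod.snd Inv') (HI : DI Inv') (J : JB H K1 KT T m₀ t) {p : ℕ}
    {b : μ × List (DT Λ κ)} (hb : Inv p b) (hp : p ≠ 0) :
    I (jA (DTn407.raw D wr p b)) ≤ 40 * ((1 - 1 / (p : ℝ)) * jl K idk p (D.cP p b).2 +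
        1 / (p : ℝ) * jl K idk p (D.cN p b).2) +
      80 * F1 K1 p (pA (bB p b.2)) (pB (bB p b.2)) +
      75 * m₀ * (1 / (p : ℝ) * (2 * bil (fun j i => t p * KT p j i) (pA (bB p b.2))
        (pB (bB p b.2)))) +
      20 * F3 (fun q => 1 / t q) K3 p (pA (bB p b.2)) (pB (bB p b.2)) := by
  have hp0 : 0 < p := Nat.pos_of_ne_zero hp
  have Kk := H.bok hb hp
  have pa : ∀ j, PB (pA (bB p b.2) j) := fun j => Kk.PA j
  have pb : ∀ j, PB (pB (bB p b.2) j) := fun j => Kk.PBb j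
  have pq : ∀ j, PB (pQ (bB p b.2) j) := fun j => Kk.PQ j
  have pab : ∀ j, PB fun x => pA (bB p b.2) j x + pB (bB p b.2) j x := fun j => (pa j).add (pb j)
  have kT : ∀ i j, 0 ≤ t p * KT p i j := fun i j => mul_nonneg (J.t0 p).le (J.kT p i j)
  obtain ⟨q1, i1⟩ := I_2 (K1 p) (J.k1 p) pab pab
  obtain ⟨q3, i3⟩ := I_2 (K3 p) (hK3 p) pa pa
  obtain ⟨q4, i4⟩ := I_2 (K3 p) (hK3 p) pb pb
  obtain ⟨q5, i5⟩ := I_2 (K p) (HK.ker p) pa pq
  obtain ⟨q6, i6⟩ := I_2 (K p) (HK.ker p) pb pq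
  have q2 : PB fun x => ∑ i, ∑ j, KT p i j * (pA (bB p b.2) i x * pB (bB p b.2) j x) :=
    PB.sum _ fun i _ => PB.sum _ fun j _ => ((pa i).mul (pb j)).smul (J.kT p i j)
  have i2 : I (fun x => ∑ i, ∑ j, KT p i j * (pA (bB p b.2) i x * pB (bB p b.2) j x)) =
      bil (KT p) (pA (bB p b.2)) (pB (bB p b.2)) := by
    rw [I_sum2 fun i j => ((pa i).mul (pb j)).smul (J.kT p i j)]
    unfold bil
    exact Finset.sum_congr rfl fun i _ => Finset.sum_congr rfl fun j _ => I_smul _ _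
  have m0 : 0 ≤ m₀ := by linarith [J.m1]
  have tp := J.t0 p
  have hp' : (0:ℝ) < p := by exact_mod_cast hp0
  set Fb : ℝ → ℝ := fun y => 1 / (p : ℝ) *
      (80 * (∑ j, ∑ l, K1 p j l * ((pA (bB p b.2) j y + pB (bB p b.2) j y) *
          (pA (bB p b.2) l y + pB (bB p b.2) l y))) +
      150 * m₀ * t p * (∑ j, ∑ i, KT p j i * (pA (bB p b.2) j y * pB (bB p b.2) i y)) +
      20 / t p * (∑ j, ∑ l, K3 p j l * (pA (bB p b.2) j y * pA (bB p b.2) l y) +
        ∑ j, ∑ l, K3 p j l * (pB (bB p b.2) j y * pB (bB p b.2) l y)) +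
      160 * (∑ j, ∑ l, K p j l * (pA (bB p b.2) j y * pQ (bB p b.2) l y)) +
      80 * (∑ j, ∑ l, K p j l * (pB (bB p b.2) j y * pQ (bB p b.2) l y))) with hFb
  have pw : ∀ y, Ep p (jA (DTn407.raw D wr p b)) y ≤ Fb y := by
    intro y
    have hcP : Inv p (D.cP p b) := H.toP hb hp
    have hcN : Inv p (D.cN p b) := H.toN hb hp
    have eP : ∀ j, jv (D.cP p b).2 j y = pA (bB p b.2) j y + pQ (bB p b.2) j y :=
      fun j => jv_chP Kk j y
    have eN : ∀ j, jv (D.cN p b).2 j y = pB (bB p b.2) j y + pQ (bB p b.2) j y :=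
      fun j => jv_chN Kk j y
    have n1 : ∀ j, 0 ≤ pA (bB p b.2) j y := fun j => (pa j).nonneg y
    have n2 : ∀ j, 0 ≤ pB (bB p b.2) j y := fun j => (pb j).nonneg y
    have n3 : ∀ j, 0 ≤ pQ (bB p b.2) j y := fun j => (pq j).nonneg y
    have oP' : (rxm H).ok p (D.cP p b) := H.toP hb hp
    have oN' : (rxm H).ok p (D.cN p b) := H.toN hb hp
    have hi' : ∀ t ∈ bB p b.2, t.Col (p + 1) :=
      fun t ht => (HI.bB_facts (L.inv hb) hp t ht).2.2.2.1
    refine budget_pt H hb hp (J.unm hb hp) (T := T p b) J.m1 tp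
      (HK.ker p).nn (hK3 p).nn (J.k1 p).nn (fun j l h1 h2 h3 => ?_)
      (fun j l h1 h2 h3 => ?_) (fun j l h1 h2 h3 => ?_) (fun j l h1 h2 h3 => ?_)
      (J.kT p) (J.kk hb hp y) (fun j i => J.hX hb hp y j i) (fun j i => J.hM hb hp y j i)
    · rcases xp_P Kk hi' (HK.pba oP') (HK.len oP' hp) h1 h2 with h4 | h4
      · exact HK.dom hcP y j l h4 h3.1.symm (by
          intro h0
          exact h3.2 (h3.1.trans h0))
      · rw [(HK.ker p).sy]
        exact HK.dom hcP y l j h4 h3.1 h3.2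
    · rcases xp_N Kk hi' (HK.pba oN') (HK.len oN' hp) h1 h2 with h4 | h4
      · exact HK.dom hcN y j l h4 h3.1.symm (by
          intro h0
          exact h3.2 (h3.1.trans h0))
      · rw [(HK.ker p).sy]
        exact HK.dom hcN y l j h4 h3.1 h3.2
    · have g1 : ∀ j, pA (bB p b.2) j y ≠ 0 → jv (D.cP p b).2 j y ≠ 0 := by
        intro j h
        rw [eP]
        have := n3 j
        have : 0 < pA (bB p b.2) j y := lt_of_le_of_ne (n1 j) (Ne.symm h)
        linarith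
      exact dom3 hcP y j l (g1 j h1) (g1 l h2) h3.1.symm (by
        intro h0
        exact h3.2 (h3.1.trans h0))
    · have g1 : ∀ j, pB (bB p b.2) j y ≠ 0 → jv (D.cN p b).2 j y ≠ 0 := by
        intro j h
        rw [eN]
        have := n3 j
        have : 0 < pB (bB p b.2) j y := lt_of_le_of_ne (n2 j) (Ne.symm h)
        linarith
      exact dom3 hcN y j l (g1 j h1) (g1 l h2) h3.1.symm (by
        intro h0
        exact h3.2 (h3.1.trans h0))
  have pj : PB (jA (DTn407.raw D wr p b)) := (rxm H).pjB hb hp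
  have c1 : 0 ≤ 150 * m₀ * t p := by positivity
  have c2 : 0 ≤ 20 / t p := by positivity
  have c3 : (0:ℝ) ≤ 1 / (p : ℝ) := by positivity
  have p1 := q1.smul (show (0:ℝ) ≤ 80 by norm_num)
  have p2 := q2.smul c1
  have p3 := (q3.add q4).smul c2
  have p5 := q5.smul (show (0:ℝ) ≤ 160 by norm_num)
  have p6 := q6.smul (show (0:ℝ) ≤ 80 by norm_num)
  have pF : PB Fb := ((((p1.add p2).add p3).add p5).add p6).smul c3
  have hI : I Fb = 1 / (p : ℝ) * (80 * bil (K1 p) (fun j x => pA (bB p b.2) j x + pB (bB p b.2) j x)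
        (fun j x => pA (bB p b.2) j x + pB (bB p b.2) j x) +
      150 * m₀ * t p * bil (KT p) (pA (bB p b.2)) (pB (bB p b.2)) +
      20 / t p * (bil (K3 p) (pA (bB p b.2)) (pA (bB p b.2)) +
        bil (K3 p) (pB (bB p b.2)) (pB (bB p b.2))) +
      160 * bil (K p) (pA (bB p b.2)) (pQ (bB p b.2)) +
      80 * bil (K p) (pB (bB p b.2)) (pQ (bB p b.2))) := by
    rw [hFb, I_smul, I_add (((p1.add p2).add p3).add p5).integrableOn p6.integrableOn,
      I_add ((p1.add p2).add p3).integrableOn p5.integrableOn,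
      I_add (p1.add p2).integrableOn p3.integrableOn,
      I_add p1.integrableOn p2.integrableOn, I_smul, I_smul, I_smul, I_smul, I_smul,
      I_add q3.integrableOn q4.integrableOn, i1, i2, i3, i4, i5, i6]
  have h1 : I (jA (DTn407.raw D wr p b)) ≤ I Fb := by
    rw [← I_Ep hp0 pj.integrableOn]
    exact I_mono (pj.Ep hp0).integrableOn pF.integrableOn pw
  rw [hI] at h1
  -- the pulls
  have hb' : (bm (rxm H)).ok p b := hb
  have hi : ∀ t ∈ bB p b.2, t.Col (p + 1) := fun t ht => (HI.bB_facts (L.inv hb') hp t ht).2.2.2.1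
  have oP : (rxm H).ok p (D.cP p b) := H.toP hb hp
  have oN : (rxm H).ok p (D.cN p b) := H.toN hb hp
  have k5 : 4 * bil (K p) (pA (bB p b.2)) (pQ (bB p b.2)) ≤ jl K idk p (D.cP p b).2 :=
    cross_P (HK.ker p) Kk hi (HK.pba oP) (HK.len oP hp)
  have k6 : 4 * bil (K p) (pB (bB p b.2)) (pQ (bB p b.2)) ≤ jl K idk p (D.cN p b).2 :=
    cross_N (HK.ker p) Kk hi (HK.pba oN) (HK.len oN hp)
  have jP := jl_nonneg HK.ker (p := p) (HK.pba oP)
  have jN := jl_nonneg HK.ker (p := p) (HK.pba oN)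
  have e2 : bil (fun j i => t p * KT p j i) (pA (bB p b.2)) (pB (bB p b.2)) =
      t p * bil (KT p) (pA (bB p b.2)) (pB (bB p b.2)) := by
    unfold bil
    rw [Finset.mul_sum]
    refine Finset.sum_congr rfl fun i _ => ?_
    rw [Finset.mul_sum]
    exact Finset.sum_congr rfl fun j _ => by ring
  rw [e2]
  unfold F1 F3
  have k7 : 1 / (p : ℝ) * (160 * bil (K p) (pA (bB p b.2)) (pQ (bB p b.2))) ≤
      40 * ((1 - 1 / (p : ℝ)) * jl K idk p (D.cP p b).2) := by
    by_cases h2 : p = 1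
    · subst h2
      have h3 : bB 1 b.2 = [] := H.no1 hb
      have e : pA ([] : List (DT Λ κ)) = fun _ _ => 0 := rfl
      rw [h3, e, bil_zero_left]
      norm_num
    · have h3 : (2:ℝ) ≤ p := by exact_mod_cast (by omega : 2 ≤ p)
      have h4 : 1 / (p : ℝ) ≤ 1 - 1 / (p : ℝ) := by
        rw [le_sub_iff_add_le, ← add_div, div_le_one hp']
        linarith
      have h5 := mul_le_mul_of_nonneg_right h4 jP
      have h6 := mul_le_mul_of_nonneg_left k5 c3
      have e : 1 / (p : ℝ) * (160 * bil (K p) (pA (bB p b.2)) (pQ (bB p b.2))) =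
          40 * (1 / (p : ℝ) * (4 * bil (K p) (pA (bB p b.2)) (pQ (bB p b.2)))) := by ring
      rw [e]
      linarith
  have k8 : 1 / (p : ℝ) * (80 * bil (K p) (pB (bB p b.2)) (pQ (bB p b.2))) ≤
      40 * (1 / (p : ℝ) * jl K idk p (D.cN p b).2) := by
    have h6 := mul_le_mul_of_nonneg_left k6 c3
    have h7 := mul_nonneg c3 jN
    have e : 1 / (p : ℝ) * (80 * bil (K p) (pB (bB p b.2)) (pQ (bB p b.2))) =
          20 * (1 / (p : ℝ) * (4 * bil (K p) (pB (bB p b.2)) (pQ (bB p b.2)))) := by ring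
    rw [e]
    linarith
  have e3 : 20 * (1 / t p / (p : ℝ) * (bil (K3 p) (pA (bB p b.2)) (pA (bB p b.2)) +
      bil (K3 p) (pB (bB p b.2)) (pB (bB p b.2)))) = 1 / (p : ℝ) * (20 / t p *
      (bil (K3 p) (pA (bB p b.2)) (pA (bB p b.2)) +
        bil (K3 p) (pB (bB p b.2)) (pB (bB p b.2)))) := by ring
  rw [e3]
  linarith

lemma F1_zero (p : ℕ) : F1 K1 p (fun _ _ => 0) (fun _ _ => 0) = 0 := by
  unfold F1
  have e : (fun (j : Λ) (x : ℝ) => (0:ℝ) + 0) = fun _ _ => 0 := by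
    funext j x; ring
  rw [e, bil_zero_left, mul_zero]

lemma F3_zero (f : ℕ → ℝ) (p : ℕ) : F3 f K p (fun _ _ => 0) (fun _ _ => 0) = 0 := by
  unfold F3
  rw [bil_zero_left]
  ring

/-- the value of the budgets -/
noncomputable def Vj (K K3 K1 KT : ℕ → Λ → Λ → ℝ) (m₀ : ℝ) (t : ℕ → ℝ) (p : ℕ)
    (L : List (DT Λ κ)) : ℝ :=
  40 * Psi K idk p L + 80 * TS (F1 K1) L + 75 * m₀ * PNs (fun p j i => t p * KT p j i) L +
    20 * TS (F3 (fun q => 1 / t q) K3) L

/-- **the budgets of the rows** -/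
theorem Kw_jb (HK : KP (rxm H) Prod.snd (fun p b x j => D.tp p b.1 x j) K)
    (hK3 : ∀ p, Ker (K3 p)) (dom3 : ∀ {p b}, Inv p b → ∀ x j j', jv b.2 j x ≠ 0 → jv b.2 j' x ≠ 0 →
      D.tp p b.1 x j = D.tp p b.1 x j' → D.tp p b.1 x j ≠ none → 1 ≤ K3 p j j')
    (L : LB (bm (rxm H)) Prod.snd Inv') (HI : DI Inv') (J : JB H K1 KT T m₀ t)
    {ok : ℕ → Gs (μ × List (DT Λ κ)) → Prop}
    (hC : ∀ {p s}, ok p s → p ≠ 0 → ok p ((bm (rxm H)).C p s))
    (hN : ∀ {p s}, ok p s → p ≠ 0 → ok (p - 1) ((bm (rxm H)).N p s))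
    (hg : ∀ {p s}, ok p s → (rxm H).gok p s)
    (n p : ℕ) (s : Gs (μ × List (DT Λ κ))) (hs : ok p s) (hn : ∀ j, siz (s.L j).2 + p ≤ n) :
    Kw (bm (rxm H)) (fun p s => I (su s ((rxm H).jB p))) n p s ≤
      GMer27.M s.c fun j => Vj K K3 K1 KT m₀ t p (s.L j).2 := by
  have hK : ∀ {p b}, (bm (rxm H)).ok p b → p ≠ 0 → KOk (wr p) p (bB p b.2) :=
    fun h hp => H.bok h hp
  have tk : ∀ {p b}, (bm (rxm H)).ok p b → p ≠ 0 → TOk p (bB p b.2) := fun h hp => HK.tk h hp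
  have len : ∀ {p b}, (bm (rxm H)).ok p b → p ≠ 0 → (bN p b.2).length ≤ 1 :=
    fun h hp => HK.len h hp
  have m0 : 0 ≤ m₀ := by linarith [J.m1]
  have S1 := sv_smul (show (0:ℝ) ≤ 40 by norm_num) (jc_sv L HI tk len HK.ker)
  have S2 := sv_smul (show (0:ℝ) ≤ 80 by norm_num) (ts_sv (F := F1 K1) L HI hK tk F1_zero)
  have S3 := sv_smul (show (0:ℝ) ≤ 75 * m₀ by positivity)
    (pn_sv (K' := fun p j i => t p * KT p j i) L HI hK tk)
  have S4 := sv_smul (show (0:ℝ) ≤ 20 by norm_num)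
    (ts_sv (F := F3 (fun q => 1 / t q) K3) L HI hK tk (F3_zero _))
  have SS := sv_add (sv_add (sv_add S1 S2) S3) S4
  have key := Kw_sv SS (ok := ok) (f := fun p s => I (su s ((rxm H).jB p))) hC hN
    (fun h => (hg h).1) (fun h => (hg h).2) (fun {p s} hs hp => ?_) (fun {p b} hb h => ?_)
    n p s hs hn
  · refine key.trans (M_mono (hg hs).1.c0 fun j => ?_)
    have h3 : 0 ≤ jl K idk p (s.L j).2 := jl_nonneg HK.ker (HK.pba ((hg hs).2 j))
    show 40 * (Psi K idk p (s.L j).2 - jl K idk p (s.L j).2) +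
      80 * TS (F1 K1) (s.L j).2 + 75 * m₀ * PNs (fun p j i => t p * KT p j i) (s.L j).2 +
      20 * TS (F3 (fun q => 1 / t q) K3) (s.L j).2 ≤ _
    unfold Vj
    linarith
  · have g := hg hs
    have c0 := g.1.c0
    have e1 : I (su s ((rxm H).jB p)) = GMer27.M s.c fun j => I ((rxm H).jB p (s.L j)) :=
      I_su c0 fun j => (rxm H).pjB (g.2 j) hp
    show I (su s ((rxm H).jB p)) ≤ _
    rw [e1]
    refine M_mono c0 fun j => ?_
    exact I_jb HK hK3 dom3 L HI J (g.2 j) hp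
  · have hb' : (rxm H).ok p b := hb
    have hlf : ∀ t ∈ b.2, isLf t = true := by
      rcases h with h0 | h0
      · subst h0; exact HK.lf0 hb'
      · have := siz_zero h0
        rw [this]
        simp
    have z1 : PNs (fun p j i => t p * KT p j i) b.2 = 0 := by
      refine List.sum_eq_zero fun y hy => ?_
      obtain ⟨t, ht, rfl⟩ := List.mem_map.1 hy
      obtain ⟨r, f, rfl⟩ := isLf_eq (hlf t ht)
      rfl
    have z2 : TS (F1 K1) b.2 = 0 := TS_leaves hlf
    have z3 : TS (F3 (fun q => 1 / t q) K3) b.2 = 0 := TS_leaves hlf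
    have z4 := Psi_leaves (K := K) hlf p
    show 0 ≤ 40 * (Psi K idk p b.2 - jl K idk p b.2) +
      80 * TS (F1 K1) b.2 + 75 * m₀ * PNs (fun p j i => t p * KT p j i) b.2 +
      20 * TS (F3 (fun q => 1 / t q) K3) b.2
    rw [z1, z2, z3, z4]
    linarith

end bun

section tree
variable {Λ κ : Type} [Fintype Λ] [DecidableEq Λ] [Fintype κ] [DecidableEq κ]
  {K K3 K1 KT : ℕ → Λ → Λ → ℝ} {m₀ : ℝ} {t : ℕ → ℝ}

lemma Vj_single (p : ℕ) (u : DT Λ κ) : Vj K K3 K1 KT m₀ t p [u] =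
    80 * (leU K idk p u + dC K idk u) + 80 * ts (F1 K1) u +
      75 * m₀ * pn (fun p j i => t p * KT p j i) u + 20 * ts (F3 (fun q => 1 / t q) K3) u := by
  unfold Vj
  rw [Psi_single, TS_cons, TS_nil, TS_cons, TS_nil, PNs_cons, PNs_nil]
  ring

end tree

end int

/-! ### the games of a context -/

section game
open Crest.Agent.R4.Tour104 Crest.Agent.R4.Tour758 Crest.Agent.R4.Clos758
open Crest.Agent.R4.ClosL758
open Crest.Agent.R4P.Grp36 Crest.Agent.R4P.GWa343 Crest.Agent.R4P.GWb343 Crest.Agent.R4P.GWc343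
open Crest.Agent.R4P.GMer27 Crest.Agent.R4P.GCol27 Crest.Agent.R4P.RSys343
open Crest.Agent.R4P.RXm55 Crest.Agent.R4P.RXm55.RXm
open Crest.Agent.R4P.MSi343 (su su_add)
open Crest.Agent.R4P.MSm25 Crest.Agent.R4P.PayR45 Crest.Agent.R4P.GSK55
open Crest.Agent.R4P.DTp26 (jv PB_jv hz)
open Crest.Agent.R4P.MSd343 Crest.Agent.R4P.Bp407 Crest.Agent.R4P.VR407
open Crest.Agent.R4P.JnE5 Crest.Agent.R4P.JnF5 Crest.Agent.R4P.JnH5
open Crest.Agent.R4P.PVd45 Crest.Agent.R4P.PVe45 Crest.Agent.R4P.PrE45 Crest.Agent.R4P.PrD45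
open Crest.Agent.R4P.PrF45 Crest.Agent.R4P.PrG45 Crest.Agent.R4P.PrH45 Crest.Agent.R4P.PrE245
open Crest.Agent.R4P.LogL51 (isLf)
open Crest.Agent.R4P.Walk560 (DT)
open Crest.Agent.R4.Avg758 Crest.Agent.R4.ClosG758 Crest.Agent.R4.ClosR758
open Crest.Agent.R4P.ClosR442 Crest.Agent.R4P.Xfer36 Crest.Agent.R4P.TopC36 Crest.Agent.R4P.PN36
open Crest.Agent.R4P.GWd343 Crest.Agent.R4P.GWf343 Crest.Agent.R4P.TrR343
open Crest.Agent.R4P.GWg343 (FX ctx_BI)
open Crest.Agent.R4P.DTm407 Crest.Agent.R4P.DTn407 Crest.Agent.R4P.DTo407 Crest.Agent.R4P.RGd25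
open Crest.Agent.R4P.Cnt588 Crest.Agent.R4P.Item758
open Crest.Agent.R4P.Bld532 (NS All NodeOk)
open Crest.Agent.R4P.WalkIT579 (tp isL toDT_top toDT_leaf)
open Crest.Agent.R4P.Step588 Crest.Agent.R4P.RseSt23
open Crest.Agent.R4P.TYI47 Crest.Agent.R4P.TYJ47 Crest.Agent.R4P.TYK47 Crest.Agent.R4P.TYP9
open Crest.Agent.R4P.RsT47
open Crest.Agent.R4P.Skel189 Crest.Agent.R4P.Frame758 Crest.Agent.R4P.Data758
open Crest.Agent.R4.Soft104 Crest.Agent.R4.Fam464
open Crest.Agent.R4P.StratX36 Crest.Agent.R4P.TopX36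
open Crest.Agent.R4P.AsB407 Crest.Agent.R4P.GTopA50

variable {N : Skel189.Num} {γ : ℝ} {p0 P₀ : ℕ} {X : Ctx N γ p0 P₀} {Q : NS → IT → Prop} {C : ℝ}
  {n : ℕ} (G : Gm X Q C n) {u : NS} {τ : IT}

/-- **the budgets of a game** (field `hJb`) -/
theorem vJb_le (hQ : ∀ u τ, Q u τ → NDt X.par (w X.ψ) X.c.t u τ)
    (hB : InvM X Q C (X.self u τ Finset.univ).p (b₀ X u τ))
    {K K3 K1 KT : ℕ → X.c.Lam → X.c.Lam → ℝ} (hK : ∀ p, Ker (K p))
    (dom : ∀ {p b}, InvM X Q C p b → ∀ x j j', Xp p b.2 x j j' →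
      G.D.tp p b.1 x j = G.D.tp p b.1 x j' → G.D.tp p b.1 x j ≠ none → 1 ≤ K p j j')
    (hK3 : ∀ p, Ker (K3 p))
    (dom3 : ∀ {p b}, InvM X Q C p b → ∀ x j j', jv b.2 j x ≠ 0 → jv b.2 j' x ≠ 0 →
      G.D.tp p b.1 x j = G.D.tp p b.1 x j' → G.D.tp p b.1 x j ≠ none → 1 ≤ K3 p j j')
    {T : ℕ → Me × List (DT X.c.Lam (LbX X)) → ℝ → X.c.Lam → X.c.Lam → Prop} {m₀ : ℝ} {t : ℕ → ℝ}
    (J : JB G.H K1 KT T m₀ t)
    {k : ℕ} (hk : (X.self u τ Finset.univ).t.size + (X.self u τ Finset.univ).p ≤ k) :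
    G.vJb u τ k ≤ 80 * (leU K idk (X.self u τ Finset.univ).p (X.self u τ Finset.univ).t +
      dC K idk (X.self u τ Finset.univ).t) +
      80 * ts (F1 K1) (X.self u τ Finset.univ).t +
      75 * m₀ * pn (fun p j i => t p * KT p j i) (X.self u τ Finset.univ).t +
      20 * ts (F3 (fun q => 1 / t q) K3) (X.self u τ Finset.univ).t := by
  have HK := kpX hQ G.H hK dom
  have hs : okG G.H (X.self u τ Finset.univ).p (one (b₀ X u τ)) := okG.one hB
  have h1 := Kw_jb HK hK3 dom3 (lbX G.H) diX J (ok := okG G.H) (fun h hp => h.C hp) (fun h hp => h.N hp)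
    (fun h => h.gok) k (X.self u τ Finset.univ).p (one (b₀ X u τ)) hs (fun j => by
      show siz [(X.self u τ Finset.univ).t] + _ ≤ k
      simpa [siz] using hk)
  rw [one_M (b₀ X u τ) (fun b' => Vj K K3 K1 KT m₀ t (X.self u τ Finset.univ).p b'.2)] at h1
  have e : Vj K K3 K1 KT m₀ t (X.self u τ Finset.univ).p (b₀ X u τ).2 =
    Vj K K3 K1 KT m₀ t (X.self u τ Finset.univ).p [(X.self u τ Finset.univ).t] := rfl
  rw [e, Vj_single] at h1
  exact h1

end game

end Crest.Agent.R4P.PrJ45
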