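import Crest.Agent.R4P.AsI_407
import Crest.Agent.R4P.PrL_45
import Crest.Agent.R4P.PrJ_45

/-!
R4 (S0004) with powers, T3, helper45: **the budgets of a rule with flags** (fields `KT`, `jb` of `FmS`, births
`TA`, no linear part) and `SepK`.

* `SpD`, **`KTr`** : static second order pairs (`j` in the P child, `i` in the N child, one real index, not
  flagged; different low types or different real classes);
* **`jb_rf : JB (r.H cf) 0 (KTr ..) (TA r) 1 t`** from `TyL` (a low type determines the real index);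
* **`sepK_rf`** : the separated pairs of a game;
* **`SpD.node`** : `SpE`, the node form of the pairs of `KTr` (`ms_of` : memory of a tie in a node;
  `tth_ix` : the index of a content at its point; `SpD.tgt` : the tags).
-/

set_option autoImplicit false
set_option linter.unusedSectionVars false
set_option linter.unusedVariables false
open MeasureTheory Filter Set

namespace Crest.Agent.R4P.PrM45

open Crest.Agent.R4.Tour104 Crest.Agent.R4.Tour758 Crest.Agent.R4.Clos758 Crest.Agent.R4.ClosL758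
open Crest.Agent.R4P.Grp36 Crest.Agent.R4P.GWa343 Crest.Agent.R4P.GWb343
open Crest.Agent.R4P.GWc343 hiding SB
open Crest.Agent.R4P.GWd343 Crest.Agent.R4P.GCol27 Crest.Agent.R4P.TrR343
open Crest.Agent.R4P.DTp26 Crest.Agent.R4P.VR407 Crest.Agent.R4P.Bp407 Crest.Agent.R4P.MSd343
open Crest.Agent.R4P.DTm407 Crest.Agent.R4P.DTn407 Crest.Agent.R4P.DTn407.TD'
open Crest.Agent.R4P.DTo407 Crest.Agent.R4P.DTo407.TD'
open Crest.Agent.R4P.DTs407
open Crest.Agent.R4P.Walk560 (DT)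
open Crest.Agent.R4P.RXm55 Crest.Agent.R4P.MSm25 Crest.Agent.R4P.RSys343
open Crest.Agent.R4.Avg758 Crest.Agent.R4.ClosG758 Crest.Agent.R4.ClosR758
open Crest.Agent.R4P.ClosR442 Crest.Agent.R4P.PN36
open Crest.Agent.R4P.GWf343 Crest.Agent.R4P.GWg343
open Crest.Agent.R4P.Cnt588 Crest.Agent.R4P.Item758 Crest.Agent.R4P.W363
open Crest.Agent.R4P.Bld532 (NS All NodeOk Bk)
open Crest.Agent.R4P.WalkIT579 (tp isL)
open Crest.Agent.R4P.StratN36 (ex)
open Crest.Agent.R4P.Step588 Crest.Agent.R4P.RseSt23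
open Crest.Agent.R4P.TYI47 Crest.Agent.R4P.TYJ47 Crest.Agent.R4P.TYK47 Crest.Agent.R4P.TYP9
open Crest.Agent.R4P.RsT47
open Crest.Agent.R4P.StE6 Crest.Agent.R4P.StF6 Crest.Agent.R4P.StG6 Crest.Agent.R4P.StJ6
open Crest.Agent.R4P.StB21 (LvF)
open Crest.Agent.R4P.Skel189 Crest.Agent.R4P.Frame758 Crest.Agent.R4P.Data758
open Crest.Agent.R4.Soft104 Crest.Agent.R4.Fam464
open Crest.Agent.R4P.StratX36 Crest.Agent.R4P.TopX36
open Crest.Agent.R4P.RGf25 Crest.Agent.R4P.RGp25 Crest.Agent.R4P.RGd25 Crest.Agent.R4P.Prc49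
open Crest.Agent.R4P.AsB407 Crest.Agent.R4P.AsC407 Crest.Agent.R4P.AsD407
open Crest.Agent.R4P.AsE407 (TA)
open Crest.Agent.R4P.AsI407 (TyL)
open Crest.Agent.R4P.JnA5 (ixf)
open Crest.Agent.R4P.JnE5 Crest.Agent.R4P.PrH45 Crest.Agent.R4P.PrJ45 Crest.Agent.R4P.PrK45
open Crest.Agent.R4P.PrL45
open Crest.Agent.R4P.BthW48 (XX CzT)

variable {N : Skel189.Num} {γ : ℝ} {p0 P₀ : ℕ} {X : Ctx N γ p0 P₀} {Q : NS → IT → Prop} {C : ℝ}
  {n : ℕ} {p : ℕ} {b : Me × List (DT X.c.Lam (LbX X))} {r : RF X} {i j : X.c.Lam} {x y : ℝ}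

lemma lt_none {m : Me} : r.D.lt p m y j = none ↔ flg r.F X.c p j.1.1 := tpF_none

/-- **the labels and the tags do not depend on the point** -/
structure StaR (r : RF X) : Prop where
  lb : ∀ p M x x' j, r.R.lb p M x j = r.R.lb p M x' j
  tg : ∀ p M T x x' j, r.R.tg p M T x j = r.R.tg p M T x' j

/-! ### the second order pairs -/

/-- **static second order pair** : `j` in the P child, `i` in the N child, one real index, not flagged;
different low types or different real classes -/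
def SpD (X : Ctx N γ p0 P₀) (Q : NS → IT → Prop) (r : RF X) (p : ℕ) (j i : X.c.Lam) : Prop :=
  ∃ (m : Me) (s : NS) (Sp : Finset ℕ) (t₁ t₀ : IT) (y : ℝ), RtX X Q p m s (.br p Sp t₁ t₀) ∧
    vx X (nP p s) t₁ j y ≠ 0 ∧ vx X (nN p s) t₀ i y ≠ 0 ∧ ixf X p j = ixf X p i ∧
    r.D.lt p m y j ≠ none ∧
    (r.D.lt p m y j ≠ r.D.lt p m y i ∨ rhoX X p j ≠ rhoX X p i)

open Classical in
/-- **kernel of the second order pairs** -/
noncomputable def KTr (X : Ctx N γ p0 P₀) (Q : NS → IT → Prop) (r : RF X) (p : ℕ)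
    (j i : X.c.Lam) : ℝ := if SpD X Q r p j i then 1 else 0

lemma KTr_nn (p : ℕ) (j i : X.c.Lam) : 0 ≤ KTr X Q r p j i := by
  unfold KTr
  split_ifs <;> norm_num

/-- contents of the tie of a bundle -/
lemma tie_vx (hQ : ∀ u τ, Q u τ → NDt X.par (w X.ψ) X.c.t u τ) {m : Me}
    {L : List (DT X.c.Lam (LbX X))} {s : NS} {Sp : Finset ℕ} {t₁ t₀ : IT}
    (hT : E3X479.TieN X Q p m L s Sp t₁ t₀) :
    (∀ l y, pA (bB p L) l y = vx X (nP p s) t₁ l y) ∧
      ∀ l y, pB (bB p L) l y = vx X (nN p s) t₀ l y := by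
  have H := carX (X := X) hQ
  obtain ⟨hP, hN⟩ := H.br hT.hs
  have nP' := hQ _ _ hP.1.rm.all.self
  have nN' := hQ _ _ hN.1.rm.all.self
  constructor
  · intro l y
    rw [hT.A l y, ← E3X479.val_v nP', vx_val nP']
  · intro l y
    rw [hT.B l y, ← E3X479.val_v nN', vx_val nN']

/-- one real class, one index -/
lemma ix_of_rho (h : rhoX X p i = rhoX X p j) : ixf X p i = ixf X p j := by
  have h1 : ((i, j) : X.c.Lam × X.c.Lam) ∈ Dr ((X.c.D.par X.Y).rho p) := by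
    unfold Dr
    exact Finset.mem_filter.2 ⟨Finset.mem_univ _, h⟩
  exact (AddNode7.mem_Dr.1 h1).1

/-- **a second order pair of a tie is a static pair** -/
lemma KTr_one (cf : CtxF X Q) {p : ℕ} {b : Me × List (DT X.c.Lam (LbX X))} (h : InvM X Q C p b)
    (hp : p ≠ 0) {y : ℝ} {j i : X.c.Lam} (hA : pA (bB p b.2) j y ≠ 0) (hB : pB (bB p b.2) i y ≠ 0)
    (hx : ixf X p j = ixf X p i) (h0 : r.D.lt p b.1 y j ≠ none)
    (h1 : r.D.lt p b.1 y j ≠ r.D.lt p b.1 y i ∨ rhoX X p j ≠ rhoX X p i) :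
    1 ≤ KTr X Q r p j i := by
  rcases E3X479.tie_one cf.hQ h hp with h2 | ⟨s, Sp, t₁, t₀, hN⟩
  · exact absurd (h2 j _).1 hA
  · obtain ⟨eA, eB⟩ := tie_vx cf.hQ hN
    unfold KTr
    rw [if_pos]
    rw [eA] at hA
    rw [eB] at hB
    exact ⟨b.1, s, Sp, t₁, t₀, y, hN.hs, hA, hB, hx, h0, h1⟩

/-- **the kernel of the second order pairs of a tie** -/
theorem kk_rf (cf : CtxF X Q) (ty : TyL X Q C r.D) {p : ℕ} {b : Me × List (DT X.c.Lam (LbX X))}
    (h : InvM X Q C p b) (hp : p ≠ 0) (y : ℝ) :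
    BthZ48.KTp r.D (rhoX X) p b (TA r p b) (KTr X Q r p) y := by
  refine BthZ48.KTp.of_ix (ixf X p)
    (Ac := fun j => pA (bB p b.2) j y ≠ 0 ∨ pB (bB p b.2) j y ≠ 0) (fun j i _ _ hw => ix_of_rho hw)
    (fun j j' hj hj' h1 h2 => ty h hp y j j' hj hj' h1 h2) (fun j => Or.inl) (fun j => Or.inr)
    (fun j i hA hB hx h1 _ _ => ?_) (fun j i hA hB h2 h1 _ hw => ?_)
  · have hf := tie_flg (F := r.F) cf.hQ h hp (Or.inl hA) (Or.inr hB)
    refine KTr_one cf h hp hA hB hx (fun h3 => ?_) (Or.inl h1)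
    exact h1 (h3.trans (lt_none.2 (hf.1 (lt_none.1 h3))).symm)
  · exact KTr_one cf h hp hA hB (ty h hp y j i (Or.inl hA) (Or.inr hB) h1 h2) h2 (Or.inr hw)

/-- **the budgets of a rule with flags** -/
theorem jb_rf (cf : CtxF X Q) (ty : TyL X Q C r.D) {t : ℕ → ℝ} (t0 : ∀ p, 0 < t p) :
    JB (r.H (C := C) cf) (fun _ _ _ => 0) (KTr X Q r) (TA r) 1 t where
  unm := fun h hp z x hc => hc
  m1 := le_rfl
  t0 := t0
  k1 := fun p => ⟨fun _ _ => le_rfl, fun _ _ => rfl⟩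
  kT := fun p j i => KTr_nn p j i
  kk := fun {p b} h hp y => kk_rf cf ty h hp y
  hX := fun {p b} h hp y j i hx hn hA hB l _ _ => by
    exfalso
    have h1 : r.D.lt p b.1 y j = none := not_not.1 hn
    have hf := tie_flg (F := r.F) cf.hQ h hp (Or.inl hA) (Or.inr hB)
    exact hx.2 ((lt_none.2 (hf.1 (lt_none.1 h1))).trans h1.symm)
  hM := fun {p b} h hp y j i hx hw hn hA hB l _ hs => by
    exfalso
    have h1 : r.D.lt p b.1 y j = none := not_not.1 hn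
    exact hs.2 (hs.1.trans h1)

/-! ### separated pairs of a game -/

/-- **the separated pairs of a game over a rule with flags** -/
theorem sepK_rf (cf : CtxF X Q) (G : GDat X Q C n cf) (hv : EvN X G.r)
    {K : ℕ → X.c.Lam → X.c.Lam → ℝ}
    (dQ : ∀ {p b}, InvM X Q C p b → p ≠ 0 → ∀ i j x, vT p (bB p b.2) i x ≠ 0 →
      pQ (bB p b.2) j (p * x) ≠ 0 → G.r.D.tp p b.1 x i ≠ none →
      G.r.D.tp p b.1 x i = G.r.D.tp p b.1 x j → 1 ≤ K p i j) :
    SepK G.gm K (KNr X Q G.r) (KBr X Q G.r) where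
  dQ := fun h hp i j x => dQ h hp i j x
  kN := KNr_ker
  kB := KBr_ker
  sN := fun h hp i j x => sN_rf cf h hp i j x
  sB := fun h hp i j x => sB_rf cf hv h hp i j x
  sQ := fun h hp i j x => sQ_rf cf hv h hp i j x

/-! ### node forms -/

section nodes
open Crest.Agent.R4P.XmO37 (Tth)

variable {s u₀ : NS} {Sp Sp₀ : Finset ℕ} {t₁ t₀ t₁' t₀' : IT} {m : Me}

/-- processed missing ties of the items of a tie -/
structure MsT (X : Ctx N γ p0 P₀) (p : ℕ) (m : Me) (u : NS) (j : X.c.Lam) (sd : Prop) : Prop where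
  /-- above -/
  hi : pm X.c.t p m j.1.1 = u.B.primeFactors
  Mh : Mhi X.c p j.1.1 = u.B.primeFactors
  /-- below -/
  loN : sd → pm X.c.t p (tuM p m) j.1.1 = (u.B * p).primeFactors
  loP : ¬ sd → pm X.c.t p (tuM p m) j.1.1 = u.B.primeFactors
  mt : sd ↔ p ∈ X.c.t.mt j.1.1
  T : m.2 = u.A * u.B

/-- the memory data of an item of a tie, in the coordinates of any node of the item -/
theorem ms_of (hQ : ∀ u τ, Q u τ → NDt X.par (w X.ψ) X.c.t u τ)
    (hs : RtX X Q p m s (.br p Sp t₁ t₀)) (h₀ : NDt X.par (w X.ψ) X.c.t u₀ (.br p Sp₀ t₁' t₀'))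
    (hj : j.1.1 ∈ (IT.br p Sp t₁ t₀).items) (hj₀ : j.1.1 ∈ (IT.br p Sp₀ t₁' t₀').items) :
    MsT X p m u₀ j (j.1.1 ∈ t₀'.items) ∧ (j.1.1 ∈ t₀.items ↔ j.1.1 ∈ t₀'.items) := by
  have hn := hQ _ _ hs.1.rm.all.self
  have hpr : p.Prime := prime_of_br hn.self.node
  have hl : ¬ isL (IT.br p Sp t₁ t₀) := fun h => h
  obtain ⟨hP, hN⟩ := (carX hQ).br hs
  obtain ⟨eA, eB, sj⟩ := AB_br hn h₀ hj hj₀
  have hi : pm X.c.t p m j.1.1 = s.B.primeFactors := (hs.1.rm.pf hQ X.tOk hj).symm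
  have hh : pm X.c.t p m j.1.1 = Mhi X.c p j.1.1 := hs.1.hi hQ hl rfl hj
  have hB : s.B.primeFactors = u₀.B.primeFactors := by rw [eB]
  have nmt : j.1.1 ∉ t₀.items → p ∉ X.c.t.mt j.1.1 := by
    intro h5 h7
    have h8 : p ∣ mp X.c.t j.1.1 := by
      rw [BldF542.mp_eq_prod _ _ X.tOk j.1.1]
      exact Finset.dvd_prod_of_mem _ h7
    have nB : ¬ p ∣ s.B := fun h9 => by
      have h10 := hn.bk.geB p hpr h9
      have h11 := (WalkIT579.top_of_nodeOk hn.self.node hl).2.1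
      have h12 : tp (IT.br p Sp t₁ t₀) = p := rfl
      omega
    rw [hn.self.mp _ hj] at h8
    have h13 : mp (.br p Sp t₁ t₀) j.1.1 = mp t₁ j.1.1 := if_neg h5
    rw [h13] at h8
    rcases (Nat.Prime.dvd_mul hpr).1 h8 with h9 | h9
    · exact nB h9
    · obtain ⟨-, -, -, -, o1, -⟩ := hn.self.ok
      rw [BldF542.mp_eq_prod _ _ o1 j.1.1] at h9
      obtain ⟨l, hl1, hd⟩ := hpr.prime.exists_mem_finset_dvd h9
      have h14 := BldF542.mt_lt _ _ o1 _ l hl1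
      have h15 := (Nat.prime_dvd_prime_iff_eq hpr h14.1).1 hd
      omega
  refine ⟨⟨hi.trans hB, hh.symm.trans (hi.trans hB), fun h1 => ?_, fun h1 => ?_, ?_, ?_⟩, sj⟩
  · have h2 := (hN.1.rm.pf hQ X.tOk (sj.2 h1)).symm
    refine Eq.trans h2 ?_
    show (s.B * p).primeFactors = _
    rw [eB]
  · have h3 : j.1.1 ∉ t₀.items := fun h4 => h1 (sj.1 h4)
    have h6 : j.1.1 ∈ t₁.items := (Finset.mem_union.1 hj).resolve_right h3
    have h2 := (hP.1.rm.pf hQ X.tOk h6).symm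
    refine Eq.trans h2 ?_
    show s.B.primeFactors = _
    rw [eB]
  · constructor
    · intro h1
      have h2 := (hN.1.rm.pf hQ X.tOk (sj.2 h1)).symm
      have hn0 := hQ _ _ hN.1.rm.all.self
      have hpB : p ∈ (s.B * p).primeFactors :=
        Nat.mem_primeFactors.2 ⟨hpr, Dvd.intro_left _ rfl, hn0.bk.sfB.ne_zero⟩
      have h3 : p ∈ pm X.c.t p (tuM p m) j.1.1 := by
        have h4 : (s.B * p).primeFactors = pm X.c.t p (tuM p m) j.1.1 := h2.symm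
        rw [← h4]
        exact hpB
      exact (Finset.mem_filter.1 h3).1
    · intro h1
      by_contra h2
      exact nmt (fun h3 => h2 (sj.1 h3)) h1
  · rw [← hs.1.T, eA, eB]

/-- **the index of a content at its point** -/
lemma tth_ix (hn : NDt X.par (w X.ψ) X.c.t u₀ t₁) (hd1 : X.c.d1 * Kc X.S ≤ 1)
    (hq : i.1.1 ∈ t₁.items) {M : Finset ℕ} (hM : TYP9.Bm M = u₀.B) {a : ℤ} (h : Tth X u₀ i x a)
    (hp : p ≤ Skel189.top X.S) :
    ixp X.c p (X.c.st p i.1.1) M (u₀.A * u₀.B) x i = ixf X p i := by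
  have hB0 : 0 < u₀.B := Nat.pos_of_ne_zero hn.bk.sfB.ne_zero
  obtain ⟨z, k1, k2, k3, k4⟩ := Crest.Agent.R4P.DseKid23.pt_kid (u := u₀) hB0 (j := i)
    (W := i.1.1 / u₀.A) (y := x) (a := a) (by rw [Nat.cast_one, div_one]; exact h.1)
    (by rw [Nat.cast_one, div_one]; exact h.2)
  have hwm : wm M (u₀.A * u₀.B) i.1.1 = i.1.1 / u₀.A := by
    unfold wm
    rw [hM, Nat.mul_div_cancel _ hB0]
  refine ixp_st X.ok hp (a := a) (z := z) (by rw [hM]; exact hB0) (by rw [hM, hwm]; exact k1) k3 k4 ?_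
  rw [hM]
  have hwl := AddNode7.win_len hd1 hn (j := i) hq
  rw [Nat.cast_one, div_one, ← mul_sub] at hwl
  refine lt_of_lt_of_le (mul_lt_mul_of_pos_left ?_ (by exact_mod_cast hB0)) hwl
  have h6 : X.c.D.be i = X.c.bp i.1.1 (i.1.2 + 1) := rfl
  have h7 : X.c.D.al i = X.c.bp i.1.1 i.1.2 := rfl
  rw [h7] at k3 ⊢
  linarith

/-- **second order pair in the coordinates of the node** `u`: `j` in the P child, `i` in the N child -/
structure SpE (X : Ctx N γ p0 P₀) (r : RF X) (p : ℕ) (u : NS) (j i : X.c.Lam) : Prop where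
  Mi : Mhi X.c p i.1.1 = u.B.primeFactors
  Mj : Mhi X.c p j.1.1 = u.B.primeFactors
  mi : p ∈ X.c.t.mt i.1.1
  mj : p ∉ X.c.t.mt j.1.1
  fi : ¬ flg r.F X.c p i.1.1
  fj : ¬ flg r.F X.c p j.1.1
  ix : ixf X p j = ixf X p i
  pt : ∃ (y : ℝ) (a a' : ℤ), Tth X (nP p u) j y a ∧ Tth X (nN p u) i y a' ∧
    (r.R.it p u.B.primeFactors (u.A * u.B * p) y j ≠
        r.R.it p (u.B * p).primeFactors (u.A * u.B * p) y i ∨
      rhoX X p j ≠ rhoX X p i)

/-- **node form of the second order pairs** -/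
theorem SpD.node (hQ : ∀ u τ, Q u τ → NDt X.par (w X.ψ) X.c.t u τ) (h : SpD X Q r p j i)
    (h₀ : NDt X.par (w X.ψ) X.c.t u₀ (.br p Sp₀ t₁' t₀'))
    (hj₀ : j.1.1 ∈ (IT.br p Sp₀ t₁' t₀').items) (hi₀ : i.1.1 ∈ (IT.br p Sp₀ t₁' t₀').items) :
    j.1.1 ∈ t₁'.items ∧ i.1.1 ∈ t₀'.items ∧ p ≤ Skel189.top X.S ∧ SpE X r p u₀ j i := by
  obtain ⟨m, s, Sp, t₁, t₀, y, hs, vj, vi, hix, h0, h⟩ := h
  have hn := hQ _ _ hs.1.rm.all.self
  obtain ⟨hP, hN⟩ := (carX hQ).br hs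
  have nP' := hQ _ _ hP.1.rm.all.self
  have nN' := hQ _ _ hN.1.rm.all.self
  obtain ⟨qj, a, aj⟩ := tth_of nP' vj
  obtain ⟨qi, a', ai⟩ := tth_of nN' vi
  have dis : Disjoint t₁.items t₀.items := hn.fit.2.2.1
  have qj' : j.1.1 ∈ (IT.br p Sp t₁ t₀).items := Finset.mem_union_left _ qj
  have qi' : i.1.1 ∈ (IT.br p Sp t₁ t₀).items := Finset.mem_union_right _ qi
  obtain ⟨eA, eB, -⟩ := AB_br hn h₀ qj' hj₀
  obtain ⟨mj, sj⟩ := ms_of hQ hs h₀ qj' hj₀
  obtain ⟨mi, si⟩ := ms_of hQ hs h₀ qi' hi₀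
  have hj1 : j.1.1 ∉ t₀'.items := fun h4 => Finset.disjoint_left.1 dis qj (sj.2 h4)
  have hi1 : i.1.1 ∈ t₀'.items := si.1 qi
  have hf : flg r.F X.c p j.1.1 ↔ flg r.F X.c p i.1.1 := flg_congr (mj.Mh.trans mi.Mh.symm)
  have fj : ¬ flg r.F X.c p j.1.1 := fun h4 => h0 (lt_none.2 h4)
  have fi : ¬ flg r.F X.c p i.1.1 := fun h4 => fj (hf.2 h4)
  have aj' : Tth X (nP p u₀) j y a := by
    unfold XmO37.Tth at aj ⊢
    show ((nP p u₀).B : ℝ) * _ ≤ _ ∧ _
    have e1 : (nP p u₀).A = (nP p s).A := by show u₀.A * p = s.A * p; rw [eA]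
    have e2 : (nP p u₀).B = (nP p s).B := eB.symm
    rw [e1, e2]
    exact aj
  have ai' : Tth X (nN p u₀) i y a' := by
    unfold XmO37.Tth at ai ⊢
    have e1 : (nN p u₀).A = (nN p s).A := eA.symm
    have e2 : (nN p u₀).B = (nN p s).B := by show u₀.B * p = s.B * p; rw [eB]
    rw [e1, e2]
    exact ai
  have hT : m.2 = u₀.A * u₀.B := mj.T
  have hT' : (tuM p m).2 = u₀.A * u₀.B * p := by
    show m.2 * p = _
    rw [hT]
  have hlt : r.D.lt p m y j = r.D.lt p m y i ↔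
      r.R.it p u₀.B.primeFactors (u₀.A * u₀.B * p) y j =
        r.R.it p (u₀.B * p).primeFactors (u₀.A * u₀.B * p) y i := by
    have e1 : r.D.lt p m y j = r.R.tp (Skel189.top X.S) p (tuM p m) y j := tpF_not fj
    have e2 : r.D.lt p m y i = r.R.tp (Skel189.top X.S) p (tuM p m) y i := tpF_not fi
    rw [e1, e2, Rule.tp_iff hs.2 hs.2 (r.le hs.2 _ _ _ _) (r.le hs.2 _ _ _ _), mj.loP hj1,
      mi.loN hi1, hT']
  have hj2 : j.1.1 ∈ t₁'.items := (Finset.mem_union.1 hj₀).resolve_right hj1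
  refine ⟨hj2, hi1, hs.2, mi.Mh, mj.Mh, mi.mt.1 hi1, fun h4 => hj1 (mj.mt.2 h4), fi, fj, hix, y, a,
    a', aj', ai', ?_⟩
  rcases h with h | h
  · exact Or.inl fun h4 => h (hlt.2 h4)
  · exact Or.inr h

/-- **the tags**, for a rule whose labels are the real states -/
theorem SpE.tgt (hlb : ∀ p M x (j : X.c.Lam), r.R.lb p M x j = X.c.st p j.1.1)
    (hd1 : X.c.d1 * Kc X.S ≤ 1) (h : SpE X r p u₀ j i) (hp : p ≤ Skel189.top X.S)
    (nP' : NDt X.par (w X.ψ) X.c.t (nP p u₀) t₁') (nN' : NDt X.par (w X.ψ) X.c.t (nN p u₀) t₀')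
    (qj : j.1.1 ∈ t₁'.items) (qi : i.1.1 ∈ t₀'.items) :
    ∃ (y : ℝ) (a a' : ℤ), Tth X (nP p u₀) j y a ∧ Tth X (nN p u₀) i y a' ∧
      (r.R.tg p u₀.B.primeFactors (u₀.A * u₀.B * p) y j ≠
          r.R.tg p (u₀.B * p).primeFactors (u₀.A * u₀.B * p) y i ∨
        rhoX X p j ≠ rhoX X p i) := by
  obtain ⟨y, a, a', aj, ai, h1⟩ := h.pt
  refine ⟨y, a, a', aj, ai, h1.imp_left fun h2 h3 => h2 ?_⟩
  have sP : Squarefree (nP p u₀).B := nP'.bk.sfB
  have sN : Squarefree (nN p u₀).B := nN'.bk.sfB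
  have k1 : ixp X.c p (X.c.st p j.1.1) u₀.B.primeFactors ((nP p u₀).A * (nP p u₀).B) y j =
      ixf X p j := tth_ix nP' hd1 qj (Nat.prod_primeFactors_of_squarefree sP) aj hp
  have k2 : ixp X.c p (X.c.st p i.1.1) (u₀.B * p).primeFactors ((nN p u₀).A * (nN p u₀).B) y i =
      ixf X p i := tth_ix nN' hd1 qi (Nat.prod_primeFactors_of_squarefree sN) ai hp
  have e1 : (nP p u₀).A * (nP p u₀).B = u₀.A * u₀.B * p := by
    show u₀.A * p * u₀.B = _
    ring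
  have e2 : (nN p u₀).A * (nN p u₀).B = u₀.A * u₀.B * p := by
    show u₀.A * (u₀.B * p) = _
    ring
  rw [e1] at k1
  rw [e2] at k2
  unfold Rule.it
  rw [hlb, hlb, k1, k2, h.ix, h3]

end nodes

end Crest.Agent.R4P.PrM45
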