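import Crest.Agent.R4P.RuN_9
import Crest.Agent.R4P.E3X_479

/-!
R4 (S0004) with powers, T3, helper9: **maps of types which follow a chosen piece**.

* `chs o A` : an element of the finite set `A` with the smallest value of `o`.
* `tyS R p m x j` : type of a piece; `rawT R p m y j` : type above the tie in the coordinates of the child;
  `lowS R p m y j` : type below the tie.
* **`frC`** (rest): the new type of the chosen piece of the type; **`rest_chosen`** : a piece which does not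
  follow is flagged below, or its new type is not the one of a chosen piece `i` (content at the point in a
  rest node of the same memory, same type above, `o i ≤ o j`).
* **`ftC`** (ties): relabelling `rT (gT ..)`; on the types of N pieces only (`NOn`) the low type of the
  chosen N item; **`tie_chosen`**, `ftC_P` (P pieces and pulls follow), `MP_ftC`.
* `RNX` : `rest_diff`, `tie_diff` (types equal above and different below: index or code); rule `RAX` :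
  **`tie_diffA`**, `rest_diffA`.
-/

set_option autoImplicit false
set_option linter.unusedSectionVars false
set_option linter.unusedVariables false
open MeasureTheory Filter Set

namespace Crest.Agent.R4P.RuF9

open Crest.Agent.R4P.Cnt588 Crest.Agent.R4P.Item758 Crest.Agent.R4P.W363
open Crest.Agent.R4P.Data758
open Crest.Agent.R4P.Bld532 (NS All NodeOk Bk)
open Crest.Agent.R4P.WalkIT579 (tp isL)
open Crest.Agent.R4P.StratN36 (ex)
open Crest.Agent.R4P.Step588 Crest.Agent.R4P.RseSt23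
open Crest.Agent.R4P.DTp26 Crest.Agent.R4P.DTm407
open Crest.Agent.R4P.TYI47 Crest.Agent.R4P.TYJ47 Crest.Agent.R4P.TYK47
open Crest.Agent.R4P.TYP9 Crest.Agent.R4P.RsT47
open Crest.Agent.R4P.StM6 Crest.Agent.R4P.StM246 Crest.Agent.R4P.StE6 Crest.Agent.R4P.StF6
open Crest.Agent.R4P.StG6 Crest.Agent.R4P.StJ6
open Crest.Agent.R4P.StB21 (bt TH LvF)
open Crest.Agent.R4P.RuN9 Crest.Agent.R4P.CrZ41

/-! ### an element with the smallest value -/

section chs
variable {Λ : Type*}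

open Classical in
/-- **an element of the finite set `A` with the smallest value of `o`** -/
noncomputable def chs (o : Λ → ℝ) (A : Finset Λ) : Option Λ :=
  if h : A.Nonempty then some (A.exists_min_image o h).choose else none

lemma chs_mem {o : Λ → ℝ} {A : Finset Λ} {i : Λ} (h : chs o A = some i) :
    i ∈ A ∧ ∀ j ∈ A, o i ≤ o j := by
  unfold chs at h
  split_ifs at h with h1
  rw [← Option.some.inj h]
  exact (A.exists_min_image o h1).choose_spec

lemma chs_ex {o : Λ → ℝ} {A : Finset Λ} {j : Λ} (hj : j ∈ A) : ∃ i, chs o A = some i := by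
  unfold chs
  rw [dif_pos ⟨j, hj⟩]
  exact ⟨_, rfl⟩

end chs

section ctx
open Crest.Agent.R4P.Skel189 Crest.Agent.R4P.Frame758
open Crest.Agent.R4.Soft104 Crest.Agent.R4.Fam464
open Crest.Agent.R4P.StratX36 Crest.Agent.R4P.TopX36
open Crest.Agent.R4P.GWa343 Crest.Agent.R4P.GWb343 Crest.Agent.R4P.GWc343 Crest.Agent.R4P.GWf343
open Crest.Agent.R4P.GWg343 (FX ctx_BI)
open Crest.Agent.R4P.TrR343
open Crest.Agent.R4P.Walk560 (DT WrN)

variable {N : Skel189.Num} {γ : ℝ} {p0 P₀ : ℕ} {X : Ctx N γ p0 P₀} {Q : NS → IT → Prop}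
  {C : ℝ} {p : ℕ} {b : Me × List (DT X.c.Lam (LbX X))} {R : Rule X.c} {F : ℕ → Finset ℕ → Prop}
  {i j : X.c.Lam} {x y : ℝ} {m : Me} {o : X.c.Lam → ℝ}

/-- types of a rule -/
abbrev TyR (X : Ctx N γ p0 P₀) (R : Rule X.c) : Type := Ty (Nix X.c (Skel189.top X.S)) R.K

/-- **the type of a piece** -/
noncomputable def tyS (R : Rule X.c) (p : ℕ) (m : Me) (x : ℝ) (j : X.c.Lam) : TyR X R :=
  mkT (Nix X.c (Skel189.top X.S)) R.K (R.it p (pm X.c.t p m j.1.1) m.2 x j).1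
    (R.it p (pm X.c.t p m j.1.1) m.2 x j).2

lemma tp_tyS : R.tp (Skel189.top X.S) p m x j = some (tyS R p m x j) := rfl

/-- **the type above the tie in the coordinates of the child** -/
noncomputable def rawT (R : Rule X.c) (p : ℕ) (m : Me) (y : ℝ) (j : X.c.Lam) : TyR X R :=
  mkT (Nix X.c (Skel189.top X.S)) R.K
    (ixp X.c p (R.lb p (pm X.c.t p m j.1.1) y j) (pm X.c.t p (tuM p m) j.1.1) (tuM p m).2 y j)
    (R.tg p (pm X.c.t p m j.1.1) m.2 y j)

/-- **the type below the tie** -/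
noncomputable def lowS (R : Rule X.c) (p : ℕ) (m : Me) (y : ℝ) (j : X.c.Lam) : TyR X R :=
  tyS R p (tuM p m) y j

/-- the labels and the tags do not depend on the point -/
structure StR (R : Rule X.c) : Prop where
  lb : ∀ p M x x' j, R.lb p M x j = R.lb p M x' j
  tg : ∀ p M T x x' j, R.tg p M T x j = R.tg p M T x' j

lemma rawT_eq (hs : StR R) (h : TieP X p m j x) : rawT R p m (p * x) j = tyS R p m x j := by
  unfold rawT tyS Rule.it
  rw [hs.lb p _ (p * x) x j, hs.tg p _ _ (p * x) x j, h.ix]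

lemma MP_tyS (R : Rule X.c) (p : ℕ) (m : Me) (j : X.c.Lam) : MP fun x => tyS R p m x j :=
  (R.MP_it p (pm X.c.t p m j.1.1) m.2 j).map fun i =>
    mkT (Nix X.c (Skel189.top X.S)) R.K i.1 i.2

lemma MP_rawT (R : Rule X.c) (p : ℕ) (m : Me) (j : X.c.Lam) : MP fun y => rawT R p m y j :=
  ((MP_ixp (R.mlb p (pm X.c.t p m j.1.1) j) (pm X.c.t p (tuM p m) j.1.1) (tuM p m).2 j).prod
    (R.mtg p (pm X.c.t p m j.1.1) m.2 j)).map fun i =>
      mkT (Nix X.c (Skel189.top X.S)) R.K i.1 i.2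

/-! ### the rest -/

/-- **candidates of the rest**: content at the point in a rest node of the memory, inside below, type `z` -/
def CR (X : Ctx N γ p0 P₀) (Q : NS → IT → Prop) (R : Rule X.c) (F : ℕ → Finset ℕ → Prop) (p : ℕ)
    (m : Me) (x : ℝ) (z : TyR X R) (j : X.c.Lam) : Prop :=
  (∃ u τ, RtX X Q p m u τ ∧ tp τ < p ∧ ¬ isL τ ∧ j.1.1 ∈ τ.items ∧
    ((X.c.D.par X.Y).toDT X.c.sp u.B u.A τ).g.val j x ≠ 0) ∧
  ¬ flg F X.c (p - 1) j.1.1 ∧ tyS R p m x j = z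

open Classical in
/-- **the map of the rest**: the new type of the chosen piece -/
noncomputable def frC (Q : NS → IT → Prop) (R : Rule X.c) (F : ℕ → Finset ℕ → Prop)
    (o : X.c.Lam → ℝ) (p : ℕ) (m : Me) (x : ℝ) (z : TyR X R) : TyR X R :=
  match chs o (Finset.univ.filter (CR X Q R F p m x z)) with
  | some i => tyS R (p - 1) m x i
  | none => z

/-- **a piece of the rest which does not follow** -/
theorem rest_chosen (hQ : ∀ u τ, Q u τ → NDt X.par (w X.ψ) X.c.t u τ) (h : InvM X Q C p b)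
    (hp : p ≠ 0) (hj : jv (bN p b.2) j x ≠ 0) {z : TyR X R}
    (h1 : tpF R F (Skel189.top X.S) p b.1 x j = some z)
    (h2 : tpF R F (Skel189.top X.S) (p - 1) b.1 x j ≠ some (frC Q R F o p b.1 x z)) :
    Ent F X.c p j.1.1 ∨ (¬ flg F X.c (p - 1) j.1.1 ∧ ∃ i, CR X Q R F p b.1 x z i ∧ o i ≤ o j ∧
      tyS R p b.1 x i = tyS R p b.1 x j ∧ tyS R (p - 1) b.1 x i ≠ tyS R (p - 1) b.1 x j) := by
  obtain ⟨f1, e1⟩ := tpF_some.1 h1
  have ez : tyS R p b.1 x j = z := Option.some.inj e1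
  by_cases f2 : flg F X.c (p - 1) j.1.1
  · exact Or.inl ⟨f1, f2⟩
  · refine Or.inr ⟨f2, ?_⟩
    obtain ⟨u, τ, k1, k2, k3, k4, k5⟩ := rest_node hQ h hp hj
    have hc : CR X Q R F p b.1 x z j := ⟨⟨u, τ, k1, k2, k3, k4, k5⟩, f2, ez⟩
    classical
    have hm : j ∈ Finset.univ.filter (CR X Q R F p b.1 x z) :=
      Finset.mem_filter.2 ⟨Finset.mem_univ _, hc⟩
    obtain ⟨i, hi⟩ := chs_ex (o := o) hm
    obtain ⟨g1, g2⟩ := chs_mem hi
    have g3 : CR X Q R F p b.1 x z i := (Finset.mem_filter.1 g1).2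
    refine ⟨i, g3, g2 j hm, by rw [g3.2.2, ez], fun e => h2 ?_⟩
    have e4 : frC Q R F o p b.1 x z = tyS R (p - 1) b.1 x i := by
      unfold frC
      have e5 : chs o (@Finset.filter _ (CR X Q R F p b.1 x z) (fun a => Classical.propDecidable _)
        Finset.univ) = some i := by convert hi
      rw [e5]
    rw [tpF_not f2, e4, e]
    rfl

/-! ### the ties -/

/-- the arc of the piece is at the point of the child -/
def Arc (X : Ctx N γ p0 P₀) (p : ℕ) (m : Me) (y : ℝ) (j : X.c.Lam) : Prop :=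
  zb X.c p (tuM p m) y j < X.c.bp j.1.1 (j.1.2 + 1)

lemma MP_Arc (p : ℕ) (m : Me) (j : X.c.Lam) : MP fun y => Arc X p m y j := by
  refine MP.ofProp (measurableSet_lt (meas_zb _ _ _ _) measurable_const) fun y => ?_
  unfold Arc zb
  rw [per_zp]

/-- N item of a tie of the memory -/
def NdT (X : Ctx N γ p0 P₀) (Q : NS → IT → Prop) (p : ℕ) (m : Me) (j : X.c.Lam) : Prop :=
  ∃ s Sp t₁ t₀, RtX X Q p m s (.br p Sp t₁ t₀) ∧ j.1.1 ∈ t₀.items

/-- **candidates of a tie**: N item of a tie of the memory, the arc meets the point of the child, inside,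
type `z` above -/
def CT (X : Ctx N γ p0 P₀) (Q : NS → IT → Prop) (R : Rule X.c) (F : ℕ → Finset ℕ → Prop) (p : ℕ)
    (m : Me) (y : ℝ) (z : TyR X R) (j : X.c.Lam) : Prop :=
  NdT X Q p m j ∧ Arc X p m y j ∧ ¬ flg F X.c p j.1.1 ∧ rawT R p m y j = z

open Classical in
/-- **the map of a tie**: relabelling; on the types of N pieces only the low type of the chosen item -/
noncomputable def ftC (Q : NS → IT → Prop) (Z : ℕ → ℝ) (R : Rule X.c) (F : ℕ → Finset ℕ → Prop)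
    (o : X.c.Lam → ℝ) (p : ℕ) (m : Me) (y : ℝ) (z : TyR X R) : TyR X R :=
  if NOn Z p (TYJ47.cnt p m.1) (z.2.1 : ℕ) then
    match chs o (Finset.univ.filter (CT X Q R F p m y z)) with
    | some i => lowS R p m y i
    | none => rT (Nix X.c (Skel189.top X.S)) R.K (gT Z p (TYJ47.cnt p m.1)) z
  else rT (Nix X.c (Skel189.top X.S)) R.K (gT Z p (TYJ47.cnt p m.1)) z

/-- **the map of the ties is measurable and periodic** -/
theorem MP_ftC {Z : ℕ → ℝ} (p : ℕ) (m : Me) (z : TyR X R) : MP fun y => ftC Q Z R F o p m y z := by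
  classical
  -- the state of all the pieces at the point
  have h1 : MP fun y => fun j : X.c.Lam => ((decide (Arc X p m y j), rawT R p m y j),
      lowS R p m y j) := by
    refine MP.pi fun j => ?_
    exact (((MP_Arc p m j).map fun P => decide P).prod (MP_rawT R p m j)).prod
      (MP_tyS R p (tuM p m) j)
  have h2 := h1.map fun f : X.c.Lam → (Bool × TyR X R) × TyR X R =>
    (if NOn Z p (TYJ47.cnt p m.1) (z.2.1 : ℕ) then
      match chs o (Finset.univ.filter fun j => NdT X Q p m j ∧ (f j).1.1 = true ∧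
        ¬ flg F X.c p j.1.1 ∧ (f j).1.2 = z) with
      | some i => (f i).2
      | none => rT (Nix X.c (Skel189.top X.S)) R.K (gT Z p (TYJ47.cnt p m.1)) z
    else rT (Nix X.c (Skel189.top X.S)) R.K (gT Z p (TYJ47.cnt p m.1)) z : TyR X R)
  refine cast (congrArg MP (funext fun y => ?_)) h2
  unfold ftC
  have e : (Finset.univ.filter (CT X Q R F p m y z)) = (Finset.univ.filter fun j =>
      NdT X Q p m j ∧ (decide (Arc X p m y j)) = true ∧ ¬ flg F X.c p j.1.1 ∧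
        rawT R p m y j = z) := by
    refine Finset.filter_congr fun j _ => ?_
    unfold CT
    rw [decide_eq_true_iff]
  have e' : (@Finset.filter _ (CT X Q R F p m y z) (fun a => Classical.propDecidable _)
      Finset.univ) = (Finset.univ.filter fun j =>
      NdT X Q p m j ∧ (decide (Arc X p m y j)) = true ∧ ¬ flg F X.c p j.1.1 ∧
        rawT R p m y j = z) := by
    rw [← e]
  rw [e']

/-- a type without N pieces only -/
lemma ftC_not {Z : ℕ → ℝ} {z : TyR X R} (h : ¬ NOn Z p (TYJ47.cnt p m.1) (z.2.1 : ℕ)) :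
    ftC Q Z R F o p m y z =
      rT (Nix X.c (Skel189.top X.S)) R.K (gT Z p (TYJ47.cnt p m.1)) z := by
  unfold ftC
  rw [if_neg h]

/-- facts of an N item of a tie of the memory -/
structure NIt (X : Ctx N γ p0 P₀) (p : ℕ) (m : Me) (q : ℕ) : Prop where
  hi : pm X.c.t p m q = Mhi X.c p q
  lo : pm X.c.t p (tuM p m) q = Mlo X.c p q
  pr : p.Prime
  mt : p ∈ X.c.t.mt q
  xe : ex p q = TYJ47.cnt p m.1

/-- **the facts of the candidates** -/
lemma NdT.it (hQ : ∀ u τ, Q u τ → NDt X.par (w X.ψ) X.c.t u τ) (h : NdT X Q p m j) :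
    NIt X p m j.1.1 := by
  obtain ⟨s, Sp, t₁, t₀, hs, hq0⟩ := h
  have hn := hQ _ _ hs.1.rm.all.self
  have hp : p.Prime := prime_of_br hn.self.node
  have hl : ¬ isL (IT.br p Sp t₁ t₀) := fun h => h
  have hq : j.1.1 ∈ (IT.br p Sp t₁ t₀).items := Finset.mem_union_right _ hq0
  have hhi := hs.1.hi hQ hl rfl hq
  obtain ⟨hP, hN⟩ := (carX hQ).br hs
  have hn0 := hQ _ _ hN.1.rm.all.self
  have e2 := hN.1.rm.pf hQ X.tOk hq0
  have hpB : p ∈ (s.B * p).primeFactors :=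
    Nat.mem_primeFactors.2 ⟨hp, Dvd.intro_left _ rfl, hn0.bk.sfB.ne_zero⟩
  have hpm : p ∈ X.c.t.mt j.1.1 := by
    have : p ∈ prm X.c.t p (tuM p m).1 j.1.1 := by rw [← e2]; exact hpB
    exact (Finset.mem_filter.1 this).1
  have e1 : ex p j.1.1 = TYJ47.cnt p m.1 := by
    by_contra h5
    have e3 : pm X.c.t p (tuM p m) j.1.1 = pm X.c.t p m j.1.1 := by
      rw [pm_tu, if_neg h5]
    have h6 : p ∈ pm X.c.t p (tuM p m) j.1.1 := by
      show p ∈ prm X.c.t p (tuM p m).1 j.1.1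
      rw [← e2]; exact hpB
    rw [e3, hhi] at h6
    exact absurd (Finset.mem_filter.1 h6).2 (lt_irrefl p)
  exact ⟨hhi, by rw [pm_tu, if_pos e1], hp, hpm, e1⟩

/-- a piece of a tie with the exponent of N items is an N item -/
lemma NIt.of (h : TieP X p m j x) (hx : ex p j.1.1 = TYJ47.cnt p m.1) : NIt X p m j.1.1 := by
  rcases h.side with ⟨h1, h3⟩ | ⟨h1, h3, h4⟩
  · exact absurd hx h3
  · exact ⟨h.hi, h1, (BldF542.mt_lt X.c.t _ X.tOk j.1.1 p h3).1, h3, h4⟩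

/-- the N piece with content is a candidate -/
lemma CT_self (hQ : ∀ u τ, Q u τ → NDt X.par (w X.ψ) X.c.t u τ) (hd1 : X.c.d1 * Kc X.S ≤ 1)
    (h : InvM X Q C p b) (hj : jv (bB p b.2) j x ≠ 0) (hx : ex p j.1.1 = TYJ47.cnt p b.1.1) :
    NdT X Q p b.1 j ∧ Arc X p b.1 (p * x) j := by
  have ez := (tie_zb hQ hd1 h hj).1
  rcases jv_bB_node (carX hQ) h.mi hj with ⟨s, Sp, t₁, t₀, hs, h1⟩ | ⟨s, t₁, hs, h1⟩
  · refine ⟨⟨s, Sp, t₁, t₀, hs, ?_⟩, ?_⟩
    · have hn := hQ _ _ hs.1.rm.all.self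
      have hp : p.Prime := prime_of_br hn.self.node
      obtain ⟨hq, -⟩ := ctx_supp hn h1
      have hl : ¬ isL (IT.br p Sp t₁ t₀) := fun h => h
      obtain ⟨hP, hN⟩ := (carX hQ).br hs
      have hx' := hs.1.rm.exA hl rfl
      rcases Finset.mem_union.1 hq with hq1 | hq0
      · exfalso
        have hn1 := hQ _ _ hP.1.rm.all.self
        have h5 : ex p (s.A * p) ≤ ex p j.1.1 :=
          Crest.Agent.R4P.StratN36.ex_le (hn1.bk.pos _ hq1) (hn1.bk.dvd _ hq1)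
        rw [ex_mul hp hn.bk.Apos, hx'] at h5
        omega
      · exact hq0
    · unfold Arc
      rw [ez]
      exact (node_zb hQ hd1 hs h1).2.2.1
  · exfalso
    have hn := hQ _ _ hs.1.rm.all.self
    have hp : p.Prime := prime_of_pl hn.self.node
    obtain ⟨hq, -⟩ := ctx_supp hn h1
    have hl : ¬ isL (IT.pl p t₁) := fun h => h
    have hP := (carX hQ).pl hs
    have hx' := hs.1.rm.exA hl rfl
    have hn1 := hQ _ _ hP.1.rm.all.self
    have hq1 : j.1.1 ∈ t₁.items := hq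
    have h5 : ex p (s.A * p) ≤ ex p j.1.1 :=
      Crest.Agent.R4P.StratN36.ex_le (hn1.bk.pos _ hq1) (hn1.bk.dvd _ hq1)
    rw [ex_mul hp hn.bk.Apos, hx'] at h5
    omega

/-- the tag of a type -/
lemma tyS_tag (hg : R.tg p (pm X.c.t p m j.1.1) m.2 x j ≤ R.K) :
    ((tyS R p m x j).2.1 : ℕ) = R.tg p (pm X.c.t p m j.1.1) m.2 x j := tag_mkT hg

section rule
variable {Z : ℕ → ℝ} {lb : ℕ → Finset ℕ → ℕ → Option ℚ} {cd : ℕ → Finset ℕ → ℕ → ℕ}

/-- labels and codes are static -/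
lemma StR_RN : StR (RNX X lb cd Z) := ⟨fun _ _ _ _ _ => rfl, fun _ _ _ _ _ _ => rfl⟩

/-- the tag of a type above a tie -/
lemma tag_hi (hp : p ≤ Skel189.top X.S) (h : pm X.c.t p m j.1.1 = Mhi X.c p j.1.1) :
    ((tyS (RNX X lb cd Z) p m x j).2.1 : ℕ) =
      nm Z p (Mhi X.c p j.1.1) j.1.1 (cd p (Mhi X.c p j.1.1) j.1.1) := by
  rw [tyS_tag (RNX_le hp _ _ _ _), RN_tg pm_sub, h]

/-- **P pieces and pulls follow** -/
theorem ftC_P (h2 : ∀ k, 2 ≤ Z k) (hp : p ≤ Skel189.top X.S) (h : TieP X p m j x)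
    (hx : ex p j.1.1 ≠ TYJ47.cnt p m.1) {z : TyR X (RNX X lb cd Z)}
    (h1 : tpF (RNX X lb cd Z) F (Skel189.top X.S) p m x j = some z) :
    tpF (RNX X lb cd Z) F (Skel189.top X.S) p (tuM p m) (p * x) j =
      some (ftC Q Z (RNX X lb cd Z) F o p m (p * x) z) := by
  obtain ⟨f1, e1⟩ := tpF_some.1 h1
  have ez : tyS (RNX X lb cd Z) p m x j = z := Option.some.inj e1
  have hN : ¬ NOn Z p (TYJ47.cnt p m.1) (z.2.1 : ℕ) := by
    rw [← ez, tag_hi hp h.hi]
    exact not_NOn h2 not_mem_hi hx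
  rw [ftC_not hN, tie_sameF (g := gT Z p (TYJ47.cnt p m.1)) h (RNX_le hp · · x j) (fun hM =>
    hx ((ctx_MEGN h2 h).1 hM).2.1), h1]
  rfl

/-- **a piece of a tie which does not follow**: an N piece; its tag is not the one of N pieces (plain, or
the width is at least the tie) and the label or the code changes; or it is, and the low type is not the one
of a chosen N item `i` -/
theorem tie_chosen (h2 : ∀ k, 2 ≤ Z k) (hQ : ∀ u τ, Q u τ → NDt X.par (w X.ψ) X.c.t u τ)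
    (hd1 : X.c.d1 * Kc X.S ≤ 1) (h : InvM X Q C p b) (hj : jv (bB p b.2) j x ≠ 0)
    {z : TyR X (RNX X lb cd Z)}
    (h1 : tpF (RNX X lb cd Z) F (Skel189.top X.S) p b.1 x j = some z)
    (h3 : tpF (RNX X lb cd Z) F (Skel189.top X.S) p (tuM p b.1) (p * x) j ≠
      some (ftC Q Z (RNX X lb cd Z) F o p b.1 (p * x) z)) :
    ¬ flg F X.c p j.1.1 ∧ NIt X p b.1 j.1.1 ∧ rawT (RNX X lb cd Z) p b.1 (p * x) j = z ∧
      ((¬ (cd p (Mhi X.c p j.1.1) j.1.1 ≠ 0 ∧ Z (cd p (Mhi X.c p j.1.1) j.1.1) < (p : ℝ)) ∧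
          (lb p (Mlo X.c p j.1.1) j.1.1 ≠ lb p (Mhi X.c p j.1.1) j.1.1 ∨
            cd p (Mlo X.c p j.1.1) j.1.1 ≠ cd p (Mhi X.c p j.1.1) j.1.1)) ∨
        ((cd p (Mhi X.c p j.1.1) j.1.1 ≠ 0 ∧ Z (cd p (Mhi X.c p j.1.1) j.1.1) < (p : ℝ)) ∧
          ∃ i, CT X Q (RNX X lb cd Z) F p b.1 (p * x) z i ∧ o i ≤ o j ∧
            lowS (RNX X lb cd Z) p b.1 (p * x) i ≠ lowS (RNX X lb cd Z) p b.1 (p * x) j)) := by
  have hT := tie_node hQ hd1 h hj
  have hp : p ≤ Skel189.top X.S := tie_le hQ h hj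
  have hx : ex p j.1.1 = TYJ47.cnt p b.1.1 := by
    by_contra hx
    exact h3 (ftC_P h2 hp hT hx h1)
  obtain ⟨f1, e1⟩ := tpF_some.1 h1
  have ez : tyS (RNX X lb cd Z) p b.1 x j = z := Option.some.inj e1
  have er : rawT (RNX X lb cd Z) p b.1 (p * x) j = z := by rw [rawT_eq StR_RN hT, ez]
  have hI := NIt.of hT hx
  refine ⟨f1, hI, er, ?_⟩
  have et : (z.2.1 : ℕ) = nm Z p (Mhi X.c p j.1.1) j.1.1 (cd p (Mhi X.c p j.1.1) j.1.1) := by
    rw [← ez, tag_hi hp hT.hi]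
  by_cases hN : NOn Z p (TYJ47.cnt p b.1.1) (z.2.1 : ℕ)
  · right
    constructor
    · rw [et] at hN
      obtain ⟨g1, g2, g3, g4⟩ := hN
      rw [nm_code h2] at g1 g3
      exact ⟨g1, g3⟩
    · have hc : CT X Q (RNX X lb cd Z) F p b.1 (p * x) z j :=
        ⟨(CT_self hQ hd1 h hj hx).1, (CT_self hQ hd1 h hj hx).2, f1, er⟩
      classical
      have hm : j ∈ Finset.univ.filter (CT X Q (RNX X lb cd Z) F p b.1 (p * x) z) :=
        Finset.mem_filter.2 ⟨Finset.mem_univ _, hc⟩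
      obtain ⟨i, hi⟩ := chs_ex (o := o) hm
      obtain ⟨g1, g2⟩ := chs_mem hi
      have g3 : CT X Q (RNX X lb cd Z) F p b.1 (p * x) z i := (Finset.mem_filter.1 g1).2
      refine ⟨i, g3, g2 j hm, fun e => h3 ?_⟩
      have e4 : ftC Q Z (RNX X lb cd Z) F o p b.1 (p * x) z =
          lowS (RNX X lb cd Z) p b.1 (p * x) i := by
        unfold ftC
        rw [if_pos hN]
        have e5 : chs o (@Finset.filter _ (CT X Q (RNX X lb cd Z) F p b.1 (p * x) z)
          (fun a => Classical.propDecidable _) Finset.univ) = some i := by convert hi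
        rw [e5]
      rw [tpF_not f1, e4, e]
      rfl
  · left
    constructor
    · rintro ⟨g1, g2⟩
      exact hN (by rw [et]; exact NOn_of h2 hI.pr not_mem_hi hx g1 g2)
    · have hM : MEG (RNX X lb cd Z) (gT Z p (TYJ47.cnt p b.1.1)) p (pm X.c.t p b.1 j.1.1)
          (pm X.c.t p (tuM p b.1) j.1.1) b.1.2 x (p * x) j := by
        by_contra hM
        refine h3 ?_
        rw [ftC_not hN, tie_sameF (g := gT Z p (TYJ47.cnt p b.1.1)) hT (RNX_le hp · · x j) hM, h1]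
        rfl
      exact ((ctx_MEGN h2 hT).1 hM).2.2

end rule

section ruleA
variable {pl : ℕ → Finset ℕ → ℚ → Prop} {pd : ℕ → Finset ℕ → ℕ → Prop} {vb : ℕ → ℕ} {W : ℕ → ℝ}

/-- the tags of equal types are equal -/
lemma mkT_snd {N K : ℕ} {i i' : Bool × ℕ} {a a' : ℕ} (ha : a ≤ K) (ha' : a' ≤ K)
    (h : mkT N K i a = mkT N K i' a') : a = a' :=
  clp_inj ha ha' (Prod.ext_iff.1 (Prod.ext_iff.1 h).2).1

/-- **pairs of N items of a tie**, named above, one type above, different types below: exactly one is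
pending, or none is pending and the base codes below are different -/
theorem tie_diffA (h2 : ∀ v, 2 ≤ W v) (hT : TH X) (hp : p ≤ Skel189.top X.S)
    (hi : NIt X p m i.1.1) (hj : NIt X p m j.1.1)
    (h0 : cdA X.c pl pd vb p (Mhi X.c p j.1.1) j.1.1 ≠ 0)
    (h1 : rawT (RAX X pl pd vb W) p m y i = rawT (RAX X pl pd vb W) p m y j)
    (h3 : lowS (RAX X pl pd vb W) p m y i ≠ lowS (RAX X pl pd vb W) p m y j) :
    (Pnd X pd p i.1.1 ∧ ¬ Pnd X pd p j.1.1) ∨ (¬ Pnd X pd p i.1.1 ∧ Pnd X pd p j.1.1) ∨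
      (¬ Pnd X pd p i.1.1 ∧ ¬ Pnd X pd p j.1.1 ∧
        cdB X.c pl vb p (Mlo X.c p i.1.1) i.1.1 ≠ cdB X.c pl vb p (Mlo X.c p j.1.1) j.1.1) := by
  have hp0 : 0 < p := hi.pr.pos
  have w2 := two_le_Zc h2
  -- the codes below are different
  have key : cdA X.c pl pd vb p (Mlo X.c p i.1.1) i.1.1 ≠
      cdA X.c pl pd vb p (Mlo X.c p j.1.1) j.1.1 := by
    intro e
    -- the names above
    have t1 : nm (Zc W) p (Mhi X.c p i.1.1) i.1.1 (cdA X.c pl pd vb p (Mhi X.c p i.1.1) i.1.1) =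
        nm (Zc W) p (Mhi X.c p j.1.1) j.1.1 (cdA X.c pl pd vb p (Mhi X.c p j.1.1) j.1.1) := by
      have e1 : (RAX X pl pd vb W).tg p (pm X.c.t p m i.1.1) m.2 y i =
          (RAX X pl pd vb W).tg p (pm X.c.t p m j.1.1) m.2 y j :=
        mkT_snd (RNX_le hp _ _ _ _) (RNX_le hp _ _ _ _) h1
      rw [RN_tg pm_sub, RN_tg pm_sub, hi.hi, hj.hi] at e1
      exact e1
    obtain ⟨c1, c2⟩ := nm_inj w2 t1
    have c3 := c2 (by rw [c1]; exact h0)
    rw [c1, Zc_cdA h0] at c3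
    -- the names below
    have t2 : nm (Zc W) p (Mlo X.c p i.1.1) i.1.1 (cdA X.c pl pd vb p (Mlo X.c p i.1.1) i.1.1) =
        nm (Zc W) p (Mlo X.c p j.1.1) j.1.1 (cdA X.c pl pd vb p (Mlo X.c p j.1.1) j.1.1) := by
      rw [e]
      refine nm_congr fun ha s hs hsp hz => ?_
      rw [Zc_cdA ha] at hz
      have c4 := c3 s hs hsp hz
      by_cases hps : s = p
      · subst hps
        unfold vex
        rw [if_pos (mem_lo_of hi.mt), if_pos (mem_lo_of hj.mt), hi.xe, hj.xe]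
      · unfold vex at c4 ⊢
        simp only [lo_iff_hi hps]
        exact c4
    refine h3 ?_
    have q1 : rawT (RAX X pl pd vb W) p m y i = rawT (RAX X pl pd vb W) p m y j := h1
    have q2 := (Prod.ext_iff.1 q1).1
    refine Prod.ext_iff.2 ⟨q2, ?_⟩
    have q3 : (RAX X pl pd vb W).tg p (pm X.c.t p (tuM p m) i.1.1) (tuM p m).2 y i =
        (RAX X pl pd vb W).tg p (pm X.c.t p (tuM p m) j.1.1) (tuM p m).2 y j := by
      rw [RN_tg pm_sub, RN_tg pm_sub, hi.lo, hj.lo]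
      exact t2
    show (clp (RAX X pl pd vb W).K ((RAX X pl pd vb W).tg p (pm X.c.t p (tuM p m) i.1.1)
      (tuM p m).2 y i), false) = (clp (RAX X pl pd vb W).K ((RAX X pl pd vb W).tg p
      (pm X.c.t p (tuM p m) j.1.1) (tuM p m).2 y j), false)
    rw [q3]
  by_cases a1 : Pnd X pd p i.1.1 <;> by_cases a2 : Pnd X pd p j.1.1
  · rw [cdA_lo' hp0 a1, cdA_lo' hp0 a2] at key
    exact absurd rfl key
  · exact Or.inl ⟨a1, a2⟩
  · exact Or.inr (Or.inl ⟨a1, a2⟩)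
  · rw [cdA_lo hp0 a1, cdA_lo hp0 a2] at key
    exact Or.inr (Or.inr ⟨a1, a2, key⟩)

/-- **a piece of a tie which does not follow**, rule `RAX`: an N piece; plain above (or the width is at
least the tie) and pending or the base code flips; or named above, and exactly one of it and of a chosen N
item `i` of its type is pending, or none is pending and their base codes below are different -/
theorem tie_chosenA (h2 : ∀ v, 2 ≤ W v) (hT : TH X)
    (hQ : ∀ u τ, Q u τ → NDt X.par (w X.ψ) X.c.t u τ)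
    (hd1 : X.c.d1 * Kc X.S ≤ 1) (h : InvM X Q C p b) (hj : jv (bB p b.2) j x ≠ 0)
    {z : TyR X (RAX X pl pd vb W)}
    (h1 : tpF (RAX X pl pd vb W) F (Skel189.top X.S) p b.1 x j = some z)
    (h3 : tpF (RAX X pl pd vb W) F (Skel189.top X.S) p (tuM p b.1) (p * x) j ≠
      some (ftC Q (Zc W) (RAX X pl pd vb W) F o p b.1 (p * x) z)) :
    ¬ flg F X.c p j.1.1 ∧ NIt X p b.1 j.1.1 ∧ rawT (RAX X pl pd vb W) p b.1 (p * x) j = z ∧
      (((cdB X.c pl vb p (Mhi X.c p j.1.1) j.1.1 = 0 ∨ (p : ℝ) ≤ W (vb p)) ∧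
          (Pnd X pd p j.1.1 ∨ (¬ Pnd X pd p j.1.1 ∧
            cdB X.c pl vb p (Mlo X.c p j.1.1) j.1.1 ≠ cdB X.c pl vb p (Mhi X.c p j.1.1) j.1.1))) ∨
        ((cdB X.c pl vb p (Mhi X.c p j.1.1) j.1.1 ≠ 0 ∧ W (vb p) < (p : ℝ)) ∧
          ∃ i, CT X Q (RAX X pl pd vb W) F p b.1 (p * x) z i ∧ o i ≤ o j ∧ NIt X p b.1 i.1.1 ∧
            cdB X.c pl vb p (Mhi X.c p i.1.1) i.1.1 = cdB X.c pl vb p (Mhi X.c p j.1.1) j.1.1 ∧
            ((Pnd X pd p i.1.1 ∧ ¬ Pnd X pd p j.1.1) ∨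
              (¬ Pnd X pd p i.1.1 ∧ Pnd X pd p j.1.1) ∨
              (¬ Pnd X pd p i.1.1 ∧ ¬ Pnd X pd p j.1.1 ∧
                cdB X.c pl vb p (Mlo X.c p i.1.1) i.1.1 ≠
                  cdB X.c pl vb p (Mlo X.c p j.1.1) j.1.1)))) := by
  have w2 := two_le_Zc h2
  obtain ⟨f1, hI, er, h4⟩ := tie_chosen w2 hQ hd1 h hj h1 h3
  have hp0 : 0 < p := hI.pr.pos
  have hp : p ≤ Skel189.top X.S := tie_le hQ h hj
  refine ⟨f1, hI, er, ?_⟩
  rcases h4 with ⟨h5, h6⟩ | ⟨⟨h5, h6⟩, i, hi, ho, hl⟩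
  · left
    constructor
    · by_cases e : cdA X.c pl pd vb p (Mhi X.c p j.1.1) j.1.1 = 0
      · rw [cdA_hi hT] at e
        exact Or.inl e
      · right
        by_contra hw
        push Not at hw
        exact h5 ⟨e, by rw [Zc_cdA e]; exact hw⟩
    · have h7 : cdA X.c pl pd vb p (Mlo X.c p j.1.1) j.1.1 ≠
          cdA X.c pl pd vb p (Mhi X.c p j.1.1) j.1.1 := by
        rcases h6 with h6 | h6
        · exact absurd rfl h6
        · exact h6
      rw [cdA_hi hT] at h7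
      by_cases e : Pnd X pd p j.1.1
      · exact Or.inl e
      · rw [cdA_lo hp0 e] at h7
        exact Or.inr ⟨e, h7⟩
  · right
    have hiI := hi.1.it hQ
    have h8 := tie_diffA h2 hT hp hiI hI h5 (hi.2.2.2.trans er.symm) hl
    have e1 : (RAX X pl pd vb W).tg p (pm X.c.t p b.1 i.1.1) b.1.2 (p * x) i =
        (RAX X pl pd vb W).tg p (pm X.c.t p b.1 j.1.1) b.1.2 (p * x) j :=
      mkT_snd (RNX_le hp _ _ _ _) (RNX_le hp _ _ _ _) (hi.2.2.2.trans er.symm)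
    rw [RN_tg pm_sub, RN_tg pm_sub, hiI.hi, hI.hi] at e1
    have e3 := (nm_inj w2 e1).1
    rw [cdA_hi hT, cdA_hi hT] at e3
    refine ⟨⟨by rwa [cdA_hi hT] at h5, by rwa [Zc_cdA h5] at h6⟩, i, hi, ho, hiI, e3, h8⟩

/-- **facts of the candidates of the rest** -/
lemma CR.it (hQ : ∀ u τ, Q u τ → NDt X.par (w X.ψ) X.c.t u τ)
    (hLv : ∀ u τ, Q u τ → LvF X u τ) (hp : p ≠ 0) {z : TyR X R}
    (h : CR X Q R F p m x z j) : RestP X p m j.1.1 ∧
      pm X.c.t (p - 1) m j.1.1 = Mlo X.c p j.1.1 ∧ p ≤ Skel189.top X.S := by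
  obtain ⟨⟨u, τ, hs, h1, h2, h3, h4⟩, -, -⟩ := h
  have k := hLv u τ hs.1.rm.all.self h2 j.1.1 h3
  have e := rest_lo hQ X.tOk hp hs.1 h1 h2 h3
  exact ⟨⟨Nat.pos_of_ne_zero hp, alive_of (hQ _ _ hs.1.rm.all.self) h4, k.1, k.2.trans_lt h1, e⟩,
    by rw [rest_pm hQ X.tOk hp hs.1 h1 h2 h3, e], hs.2⟩

/-- **pairs of pieces of the rest**, one type above, different types below: different indices, different
base codes, or different names (plain above, or the width shrinks) -/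
theorem rest_diffA (h2 : ∀ v, 2 ≤ W v) (hT : TH X) (hp : p ≤ Skel189.top X.S)
    (hi : RestP X p m i.1.1) (hj : RestP X p m j.1.1)
    (hi' : pm X.c.t (p - 1) m i.1.1 = Mlo X.c p i.1.1)
    (hj' : pm X.c.t (p - 1) m j.1.1 = Mlo X.c p j.1.1)
    (h1 : tyS (RAX X pl pd vb W) p m x i = tyS (RAX X pl pd vb W) p m x j)
    (h3 : tyS (RAX X pl pd vb W) (p - 1) m x i ≠ tyS (RAX X pl pd vb W) (p - 1) m x j) :
    ixp X.c (p - 1) (X.c.st (p - 1) i.1.1) (Mlo X.c p i.1.1) m.2 x i ≠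
        ixp X.c (p - 1) (X.c.st (p - 1) j.1.1) (Mlo X.c p j.1.1) m.2 x j ∨
      cdB X.c pl vb (p - 1) (Mlo X.c p i.1.1) i.1.1 ≠
        cdB X.c pl vb (p - 1) (Mlo X.c p j.1.1) j.1.1 ∨
      (cdB X.c pl vb (p - 1) (Mlo X.c p i.1.1) i.1.1 =
          cdB X.c pl vb (p - 1) (Mlo X.c p j.1.1) j.1.1 ∧
        cdB X.c pl vb (p - 1) (Mlo X.c p j.1.1) j.1.1 ≠ 0 ∧
        ∃ s : ℕ, s.Prime ∧ s ≤ p - 1 ∧ W (vb (p - 1)) < (s : ℝ) ∧
          (cdA X.c pl pd vb p (Mlo X.c p j.1.1) j.1.1 = 0 ∨ (s : ℝ) ≤ W (vb p)) ∧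
          vex s (Mlo X.c p i.1.1) i.1.1 ≠ vex s (Mlo X.c p j.1.1) j.1.1) := by
  have hp0 : 0 < p := hi.pr
  have w2 := two_le_Zc h2
  by_contra hc
  push Not at hc
  obtain ⟨d1, d2, d3⟩ := hc
  -- the names above
  have t1 : nm (Zc W) p (Mlo X.c p i.1.1) i.1.1 (cdA X.c pl pd vb p (Mlo X.c p i.1.1) i.1.1) =
      nm (Zc W) p (Mlo X.c p j.1.1) j.1.1 (cdA X.c pl pd vb p (Mlo X.c p j.1.1) j.1.1) := by
    have e1 : (RAX X pl pd vb W).tg p (pm X.c.t p m i.1.1) m.2 x i =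
        (RAX X pl pd vb W).tg p (pm X.c.t p m j.1.1) m.2 x j :=
      mkT_snd (RNX_le hp _ _ _ _) (RNX_le hp _ _ _ _) h1
    rw [RN_tg pm_sub, RN_tg pm_sub, hi.lo, hj.lo] at e1
    exact e1
  obtain ⟨c1, c2⟩ := nm_inj w2 t1
  -- the names below
  have t2 : nm (Zc W) (p - 1) (Mlo X.c p i.1.1) i.1.1
      (cdA X.c pl pd vb (p - 1) (Mlo X.c p i.1.1) i.1.1) = nm (Zc W) (p - 1) (Mlo X.c p j.1.1) j.1.1
      (cdA X.c pl pd vb (p - 1) (Mlo X.c p j.1.1) j.1.1) := by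
    rw [cdA_dn hT hp0, cdA_dn hT hp0, d2]
    refine nm_congr fun ha s hs hsp hz => ?_
    have ez : Zc W (cdB X.c pl vb (p - 1) (Mlo X.c p j.1.1) j.1.1) = W (vb (p - 1)) := by
      rcases cdB_or (c := X.c) (pl := pl) (vb := vb) (p := p - 1) (M := Mlo X.c p j.1.1)
        (q := j.1.1) with e | e
      · exact absurd e ha
      · rw [e, Zc_cdp]
    rw [ez] at hz
    by_contra hv
    refine hv (d3 d2 ha s hs hsp hz ?_)
    by_cases h0 : cdA X.c pl pd vb p (Mlo X.c p j.1.1) j.1.1 = 0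
    · exact Or.inl h0
    · right
      by_contra hw
      push Not at hw
      have c3 := c2 (by rw [c1]; exact h0) s hs (by omega)
      rw [c1, Zc_cdA h0] at c3
      exact hv (c3 hw)
  refine h3 ?_
  have q3 : (RAX X pl pd vb W).tg (p - 1) (pm X.c.t (p - 1) m i.1.1) m.2 x i =
      (RAX X pl pd vb W).tg (p - 1) (pm X.c.t (p - 1) m j.1.1) m.2 x j := by
    rw [RN_tg pm_sub, RN_tg pm_sub, hi', hj']
    exact t2
  have q4 : ixp X.c (p - 1) (X.c.st (p - 1) i.1.1) (pm X.c.t (p - 1) m i.1.1) m.2 x i =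
      ixp X.c (p - 1) (X.c.st (p - 1) j.1.1) (pm X.c.t (p - 1) m j.1.1) m.2 x j := by
    rw [hi', hj']
    exact d1
  show mkT _ _ (ixp X.c (p - 1) (X.c.st (p - 1) i.1.1) (pm X.c.t (p - 1) m i.1.1) m.2 x i)
    ((RAX X pl pd vb W).tg (p - 1) (pm X.c.t (p - 1) m i.1.1) m.2 x i) =
    mkT _ _ (ixp X.c (p - 1) (X.c.st (p - 1) j.1.1) (pm X.c.t (p - 1) m j.1.1) m.2 x j)
    ((RAX X pl pd vb W).tg (p - 1) (pm X.c.t (p - 1) m j.1.1) m.2 x j)
  rw [q3, q4]

/-- **a piece of the rest which does not follow**, rule `RAX` -/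
theorem rest_chosenA (h2 : ∀ v, 2 ≤ W v) (hT : TH X)
    (hQ : ∀ u τ, Q u τ → NDt X.par (w X.ψ) X.c.t u τ) (hLv : ∀ u τ, Q u τ → LvF X u τ)
    (h : InvM X Q C p b) (hp : p ≠ 0) (hj : jv (bN p b.2) j x ≠ 0)
    {z : TyR X (RAX X pl pd vb W)}
    (h1 : tpF (RAX X pl pd vb W) F (Skel189.top X.S) p b.1 x j = some z)
    (h3 : tpF (RAX X pl pd vb W) F (Skel189.top X.S) (p - 1) b.1 x j ≠
      some (frC Q (RAX X pl pd vb W) F o p b.1 x z)) :
    Ent F X.c p j.1.1 ∨ (¬ flg F X.c (p - 1) j.1.1 ∧ ∃ i,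
      CR X Q (RAX X pl pd vb W) F p b.1 x z i ∧ o i ≤ o j ∧
      RestP X p b.1 i.1.1 ∧ RestP X p b.1 j.1.1 ∧
      tyS (RAX X pl pd vb W) p b.1 x i = tyS (RAX X pl pd vb W) p b.1 x j ∧
      (ixp X.c (p - 1) (X.c.st (p - 1) i.1.1) (Mlo X.c p i.1.1) b.1.2 x i ≠
          ixp X.c (p - 1) (X.c.st (p - 1) j.1.1) (Mlo X.c p j.1.1) b.1.2 x j ∨
        cdB X.c pl vb (p - 1) (Mlo X.c p i.1.1) i.1.1 ≠
          cdB X.c pl vb (p - 1) (Mlo X.c p j.1.1) j.1.1 ∨
        (cdB X.c pl vb (p - 1) (Mlo X.c p i.1.1) i.1.1 =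
            cdB X.c pl vb (p - 1) (Mlo X.c p j.1.1) j.1.1 ∧
          cdB X.c pl vb (p - 1) (Mlo X.c p j.1.1) j.1.1 ≠ 0 ∧
          ∃ s : ℕ, s.Prime ∧ s ≤ p - 1 ∧ W (vb (p - 1)) < (s : ℝ) ∧
            (cdA X.c pl pd vb p (Mlo X.c p j.1.1) j.1.1 = 0 ∨ (s : ℝ) ≤ W (vb p)) ∧
            vex s (Mlo X.c p i.1.1) i.1.1 ≠ vex s (Mlo X.c p j.1.1) j.1.1))) := by
  rcases rest_chosen hQ h hp hj h1 h3 with h4 | ⟨f2, i, hi, ho, e1, e2⟩
  · exact Or.inl h4
  · obtain ⟨i1, i2, i3⟩ := hi.it hQ hLv hp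
    have j1 := rest_alive hQ hLv h hp hj
    have j2 : pm X.c.t (p - 1) b.1 j.1.1 = Mlo X.c p j.1.1 := by
      rw [(rest_pmX hQ h hp hj).1, j1.lo]
    exact Or.inr ⟨f2, i, hi, ho, i1, j1, e1, rest_diffA h2 hT i3 i1 j1 i2 j2 e1 e2⟩

end ruleA

end ctx

end Crest.Agent.R4P.RuF9
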