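import Crest.Agent.R4P.AsK_407
import Crest.Agent.R4P.RuF_9
import Crest.Agent.R4P.PrM_45

/-!
R4 (S0004) with powers, T3, helper407: **the rule with flags of the rule `RAX` and of the chosen pieces**.

* `Prm X` : parameters (`pl` plain, `pd` pending, `vb`, `W` blocks and widths, flags `F`, order `o`);
* **`rA Q P : RF X`** : rule `RAX`, maps `frC`, `ftC` (identity of types above the top);
* `rA_evN : EvN`, `rA_sta : StaR`, `rA_ty : TyR`, `rA_tyL : TyL`;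
* **`rA_rest`**, **`rA_tie`** : the lists of the pieces which do not follow (`RuF9.rest_chosenA`,
  `RuF9.tie_chosenA`) for `EvR`, `EvT`.
-/

set_option autoImplicit false
set_option linter.unusedSectionVars false
set_option linter.unusedVariables false
open MeasureTheory Filter Set

namespace Crest.Agent.R4P.AsL407

open Crest.Agent.R4P.Cnt588 Crest.Agent.R4P.Item758 Crest.Agent.R4P.W363
open Crest.Agent.R4P.Data758
open Crest.Agent.R4P.Bld532 (NS All NodeOk Bk)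
open Crest.Agent.R4P.WalkIT579 (tp isL)
open Crest.Agent.R4P.StratN36 (ex)
open Crest.Agent.R4P.Step588 Crest.Agent.R4P.RseSt23
open Crest.Agent.R4P.DTp26 Crest.Agent.R4P.DTm407
open Crest.Agent.R4P.TYI47 Crest.Agent.R4P.TYJ47 Crest.Agent.R4P.TYK47
open Crest.Agent.R4P.TYP9 Crest.Agent.R4P.RsT47
open Crest.Agent.R4P.StM6 Crest.Agent.R4P.StM246 Crest.Agent.R4P.StE6 Crest.Agent.R4P.StF6
open Crest.Agent.R4P.StG6 Crest.Agent.R4P.StJ6
open Crest.Agent.R4P.StB21 (bt TH LvF)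
open Crest.Agent.R4P.RuN9 Crest.Agent.R4P.CrZ41
open Crest.Agent.R4P.RuF9 hiding TyR
open Crest.Agent.R4P.Skel189 Crest.Agent.R4P.Frame758
open Crest.Agent.R4.Soft104 Crest.Agent.R4.Fam464
open Crest.Agent.R4P.StratX36 Crest.Agent.R4P.TopX36
open Crest.Agent.R4P.GWa343 Crest.Agent.R4P.GWb343 Crest.Agent.R4P.GWc343 Crest.Agent.R4P.GWf343
open Crest.Agent.R4P.GWg343 (FX ctx_BI)
open Crest.Agent.R4P.TrR343
open Crest.Agent.R4P.Walk560 (DT WrN)
open Crest.Agent.R4P.AsC407 Crest.Agent.R4P.AsI407 Crest.Agent.R4P.PrL45 Crest.Agent.R4P.PrM45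
open Crest.Agent.R4P.JnP5 (TyR tyR_of)

variable {N : Skel189.Num} {γ : ℝ} {p0 P₀ : ℕ} {X : Ctx N γ p0 P₀} {Q : NS → IT → Prop}
  {C : ℝ} {p : ℕ} {b : Me × List (DT X.c.Lam (LbX X))} {i j : X.c.Lam} {x y : ℝ} {m : Me}

/-- **parameters of the rule** -/
structure Prm (X : Ctx N γ p0 P₀) where
  /-- plain labels -/
  pl : ℕ → Finset ℕ → ℚ → Prop
  /-- pending pieces -/
  pd : ℕ → Finset ℕ → ℕ → Prop
  /-- blocks -/
  vb : ℕ → ℕ
  /-- widths of the names -/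
  W : ℕ → ℝ
  W2 : ∀ v, 2 ≤ W v
  /-- flags -/
  F : ℕ → Finset ℕ → Prop
  mon : FMon F
  /-- order of the pieces -/
  o : ℕ → X.c.Lam → ℝ
  act : LbX X

namespace Prm
variable (P : Prm X)

/-- the rule -/
noncomputable abbrev R : Rule X.c := RAX X P.pl P.pd P.vb P.W

open Classical in
/-- **the rule with flags** -/
noncomputable def rf (Q : NS → IT → Prop) : RF X where
  R := P.R
  le := fun h M T x j => RNX_le h M T x j
  F := P.F
  mon := P.mon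
  fr := fun p m x z => frC Q P.R P.F (P.o p) p m x z
  ft := fun p m y z => if p ≤ Skel189.top X.S then ftC Q (Zc P.W) P.R P.F (P.o p) p m y z else z
  act := P.act

/-- labels and tags are static -/
theorem sta (Q : NS → IT → Prop) : StaR (P.rf Q) := ⟨fun _ _ _ _ _ => rfl, fun _ _ _ _ _ _ => rfl⟩

/-- **only N pieces have events at the ties** -/
theorem evN (Q : NS → IT → Prop) : EvN X (P.rf Q) := by
  intro p m j x hT hE
  by_contra hx
  obtain ⟨z, h1, h3⟩ := hE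
  have h1' : tpF P.R P.F (Skel189.top X.S) p m x j = some z := h1
  refine h3 ?_
  show tpF P.R P.F (Skel189.top X.S) p (tuM p m) (p * x) j = some ((P.rf Q).ft p m (p * x) z)
  by_cases hp : p ≤ Skel189.top X.S
  · have e : (P.rf Q).ft p m (p * x) z = ftC Q (Zc P.W) P.R P.F (P.o p) p m (p * x) z := if_pos hp
    rw [e]
    exact ftC_P (two_le_Zc P.W2) hp hT hx h1'
  · have e : (P.rf Q).ft p m (p * x) z = z := if_neg hp
    rw [e, ← h1']
    rcases hT.side with ⟨h2, -⟩ | ⟨-, -, h2⟩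
    · obtain ⟨f1, e1⟩ := tpF_some.1 h1'
      rw [tpF_not f1, tpF_not f1]
      show some (mkT _ _ (ixp X.c p (X.c.st p j.1.1) (pm X.c.t p (tuM p m) j.1.1) (tuM p m).2
        (p * x) j) (P.R.tg p (pm X.c.t p (tuM p m) j.1.1) (tuM p m).2 (p * x) j)) =
        some (mkT _ _ (ixp X.c p (X.c.st p j.1.1) (pm X.c.t p m j.1.1) m.2 x j)
          (P.R.tg p (pm X.c.t p m j.1.1) m.2 x j))
      rw [hT.ix, h2]
      rfl
    · exact absurd h2 hx

/-- **a type determines the real index** -/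
theorem ty (cf : CtxF X Q) : TyR X Q C (P.rf Q).D := tyR_of cf (P.rf Q) fun _ _ _ _ _ => rfl

/-- **a low type determines the real index** -/
theorem tyL (cf : CtxF X Q) : TyL X Q C (P.rf Q).D := TyL.of cf (P.rf Q) fun _ _ _ _ _ _ => rfl

/-- **pieces of the rest which do not follow** -/
theorem rest (cf : CtxF X Q) (hT : TH X) (h : InvM X Q C p b) (hp : p ≠ 0)
    (hj : jv (bN p b.2) j x ≠ 0) (hE : (P.rf Q).EvR p b.1 x j) :
    ¬ flg P.F X.c p j.1.1 ∧ (Ent P.F X.c p j.1.1 ∨ (¬ flg P.F X.c (p - 1) j.1.1 ∧ ∃ i,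
      CR X Q P.R P.F p b.1 x (tyS P.R p b.1 x j) i ∧ P.o p i ≤ P.o p j ∧
      RestP X p b.1 i.1.1 ∧ RestP X p b.1 j.1.1 ∧
      tyS P.R p b.1 x i = tyS P.R p b.1 x j ∧
      (ixp X.c (p - 1) (X.c.st (p - 1) i.1.1) (Mlo X.c p i.1.1) b.1.2 x i ≠
          ixp X.c (p - 1) (X.c.st (p - 1) j.1.1) (Mlo X.c p j.1.1) b.1.2 x j ∨
        cdB X.c P.pl P.vb (p - 1) (Mlo X.c p i.1.1) i.1.1 ≠
          cdB X.c P.pl P.vb (p - 1) (Mlo X.c p j.1.1) j.1.1 ∨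
        (cdB X.c P.pl P.vb (p - 1) (Mlo X.c p i.1.1) i.1.1 =
            cdB X.c P.pl P.vb (p - 1) (Mlo X.c p j.1.1) j.1.1 ∧
          cdB X.c P.pl P.vb (p - 1) (Mlo X.c p j.1.1) j.1.1 ≠ 0 ∧
          ∃ s : ℕ, s.Prime ∧ s ≤ p - 1 ∧ P.W (P.vb (p - 1)) < (s : ℝ) ∧
            (cdA X.c P.pl P.pd P.vb p (Mlo X.c p j.1.1) j.1.1 = 0 ∨ (s : ℝ) ≤ P.W (P.vb p)) ∧
            vex s (Mlo X.c p i.1.1) i.1.1 ≠ vex s (Mlo X.c p j.1.1) j.1.1)))) := by
  obtain ⟨z, h1, h3⟩ := hE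
  obtain ⟨f1, e1⟩ := tpF_some.1 h1
  have ez : tyS P.R p b.1 x j = z := Option.some.inj e1
  subst ez
  exact ⟨f1, rest_chosenA P.W2 hT cf.hQ cf.hLv h hp hj h1 h3⟩

/-- **pieces of a tie which do not follow** -/
theorem tie (cf : CtxF X Q) (hT : TH X) (h : InvM X Q C p b)
    (hj : jv (bB p b.2) j x ≠ 0) (hE : (P.rf Q).EvT p b.1 x j) :
    ¬ flg P.F X.c p j.1.1 ∧ NIt X p b.1 j.1.1 ∧
      (((cdB X.c P.pl P.vb p (Mhi X.c p j.1.1) j.1.1 = 0 ∨ (p : ℝ) ≤ P.W (P.vb p)) ∧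
          (Pnd X P.pd p j.1.1 ∨ (¬ Pnd X P.pd p j.1.1 ∧
            cdB X.c P.pl P.vb p (Mlo X.c p j.1.1) j.1.1 ≠
              cdB X.c P.pl P.vb p (Mhi X.c p j.1.1) j.1.1))) ∨
        ((cdB X.c P.pl P.vb p (Mhi X.c p j.1.1) j.1.1 ≠ 0 ∧ P.W (P.vb p) < (p : ℝ)) ∧
          ∃ i, CT X Q P.R P.F p b.1 (p * x) (rawT P.R p b.1 (p * x) j) i ∧ P.o p i ≤ P.o p j ∧
            NIt X p b.1 i.1.1 ∧
            cdB X.c P.pl P.vb p (Mhi X.c p i.1.1) i.1.1 =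
              cdB X.c P.pl P.vb p (Mhi X.c p j.1.1) j.1.1 ∧
            ((Pnd X P.pd p i.1.1 ∧ ¬ Pnd X P.pd p j.1.1) ∨
              (¬ Pnd X P.pd p i.1.1 ∧ Pnd X P.pd p j.1.1) ∨
              (¬ Pnd X P.pd p i.1.1 ∧ ¬ Pnd X P.pd p j.1.1 ∧
                cdB X.c P.pl P.vb p (Mlo X.c p i.1.1) i.1.1 ≠
                  cdB X.c P.pl P.vb p (Mlo X.c p j.1.1) j.1.1)))) := by
  obtain ⟨z, h1, h3⟩ := hE
  have hp : p ≤ Skel189.top X.S := tie_le cf.hQ h hj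
  have e : (P.rf Q).ft p b.1 (p * x) z = ftC Q (Zc P.W) P.R P.F (P.o p) p b.1 (p * x) z :=
    if_pos hp
  rw [e] at h3
  obtain ⟨f1, hI, er, h4⟩ := tie_chosenA P.W2 hT cf.hQ cf.hd1 h hj h1 h3
  rw [er]
  exact ⟨f1, hI, h4⟩

end Prm

end Crest.Agent.R4P.AsL407
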