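import Crest.Agent.R4P.E3R_479
import Crest.Agent.R4P.AsI_407
import Crest.Agent.R4P.AsH_24

/-!
R4 (S0004) with powers, T3, helper479 (PLAN v1, D1): **the fields of `AsI407.FmS` of the jumps for the rule
`RAX`** (groups by kinds `grK`).

* **`jt_gen`** : `JT` from the pairs with the state `none` and the labelled pairs (any code function).
* **`jt_genF`**, **`jt_rF`** (rule `RAX`) : the same with rates `rF X F θ` of the pieces inside the game;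
  `cr3`, **`z3_of`**, **`z3ρ_of`** : the payments (helper24's `unf_tie`, `unf_rho`).
-/

set_option autoImplicit false
set_option linter.unusedSectionVars false
set_option linter.unusedVariables false
open MeasureTheory Filter Set

namespace Crest.Agent.R4P.E3Q479

open Crest.Agent.R4.Tour104 Crest.Agent.R4.Tour758 Crest.Agent.R4.Avg758 Crest.Agent.R4.Clos758
open Crest.Agent.R4P.Cnt588 Crest.Agent.R4P.Item758 Crest.Agent.R4P.W363
open Crest.Agent.R4P.Data758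
open Crest.Agent.R4P.Bld532 (NS All NodeOk Bk)
open Crest.Agent.R4P.WalkIT579 (tp isL)
open Crest.Agent.R4P.StratN36 (ex)
open Crest.Agent.R4P.Step588 Crest.Agent.R4P.RseSt23
open Crest.Agent.R4P.DTp26 Crest.Agent.R4P.DTm407
open Crest.Agent.R4P.TYI47 Crest.Agent.R4P.TYJ47 Crest.Agent.R4P.TYK47
open Crest.Agent.R4P.TYP9 Crest.Agent.R4P.RsT47
open Crest.Agent.R4P.Walk560 (DT WrN)
open Crest.Agent.R4P.Skel189 Crest.Agent.R4P.Frame758
open Crest.Agent.R4.Soft104 hiding cut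
open Crest.Agent.R4.Fam464
open Crest.Agent.R4P.StratX36 hiding mm
open Crest.Agent.R4P.TopX36
open Crest.Agent.R4P.GWa343 Crest.Agent.R4P.GWb343 Crest.Agent.R4P.GWc343 Crest.Agent.R4P.GWf343
open Crest.Agent.R4P.TrR343
open Crest.Agent.R4P.E3V479 Crest.Agent.R4P.E3W479 Crest.Agent.R4P.E3F479
open Crest.Agent.R4P.E3X479 hiding diX
open Crest.Agent.R4P.E3Y479 Crest.Agent.R4P.E3R479
open Crest.Agent.R4P.GPair33 (vN PB_vN_inl)
open Crest.Agent.R4P.StE6 Crest.Agent.R4P.StF6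
open Crest.Agent.R4P.StG6 Crest.Agent.R4P.StJ6 Crest.Agent.R4P.RuN9
open Crest.Agent.R4P.StB21 (bt TH LvF)
open Crest.Agent.R4P.PVe45 (Cr LB)
open Crest.Agent.R4P.AsB407 Crest.Agent.R4P.AsC407 Crest.Agent.R4P.AsI407 Crest.Agent.R4P.AsH24
open Crest.Agent.R4P.EvC47
open Crest.Agent.R4P.OmX11 (Om)

section ctx
variable {N : Skel189.Num} {γ : ℝ} {p0 P₀ : ℕ} {X : Ctx N γ p0 P₀} {Q : NS → IT → Prop} {C : ℝ}
  {pl : ℕ → Finset ℕ → ℚ → Prop} {pd : ℕ → Finset ℕ → ℕ → Prop} {vb : ℕ → ℕ} {W : ℕ → ℝ}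
  {r0 r1 : ℕ → Me → X.c.Lam → ℝ → ℝ}

/-- **the jumps of a rule with the labels of the column**, any code function -/
theorem jt_gen (cf : CtxF X Q) {cd : ℕ → Finset ℕ → ℕ → ℕ} (r : RF X)
    (hR : r.R = RNX X (stL X.c) cd (Zc W)) (h2 : ∀ v, 2 ≤ W v) (hc : CdOk cd vb)
    (pr0 : ∀ p m j, PB (r0 p m j)) (pr1 : ∀ p m j, PB (r1 p m j))
    (h0 : EB X Q (Wn X r.F fun p => W (vb p)) r0)
    (h1 : EB X Q (Wc X cd r.F fun p => W (vb p)) r1) :
    JT X Q r.D grK (fun p m j x => r0 p m j x + r1 p m j x) := by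
  cases r
  dsimp only at hR
  subst hR
  exact ⟨fun p m j => (pr0 p m j).add (pr1 p m j), fun {p m s Sp t₁ t₀ s' Sp' t₁' t₀'} _ hs hs' =>
    tie_gen cf.hQ cf.hd1 h2 hc pr0 pr1 h0 h1 hs hs'⟩

lemma rF_add {F : ℕ → Finset ℕ → Prop} {a b : ℕ → ℝ} :
    (fun (p : ℕ) (m : Me) (j : X.c.Lam) (x : ℝ) => rF X F a p m j x + rF X F b p m j x) =
      rF X F fun p => a p + b p := by
  funext p m j x
  unfold rF cut
  split_ifs
  · rfl
  · rw [add_zero]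

/-- **the jumps of a rule with the labels of the column**, rates of the pieces inside the game -/
theorem jt_genF (cf : CtxF X Q) {cd : ℕ → Finset ℕ → ℕ → ℕ} (r : RF X)
    (hR : r.R = RNX X (stL X.c) cd (Zc W)) (h2 : ∀ v, 2 ≤ W v) (hc : CdOk cd vb)
    {a b : ℕ → ℝ} (a0 : ∀ p, 0 ≤ a p) (b0 : ∀ p, 0 ≤ b p)
    (h0 : EB X Q (Wn X r.F fun p => W (vb p)) (rF X r.F a))
    (h1 : EB X Q (Wc X cd r.F fun p => W (vb p)) (rF X r.F b)) :
    JT X Q r.D grK (rF X r.F fun p => a p + b p) := by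
  have h := jt_gen cf r hR h2 hc (PB_rF a0) (PB_rF b0) h0 h1
  rwa [rF_add] at h

/-- **the jumps of the rule `RAX`**, rates of the pieces inside the game -/
theorem jt_rF (cf : CtxF X Q) (hT : TH X) (r : RF X) (hR : r.R = RAX X pl pd vb W)
    (h2 : ∀ v, 2 ≤ W v) (hm : ∀ p M κ, p ∉ M → pl p M κ → pl p (insert p M) κ)
    (hpd : ∀ p q, pd p (Mlo X.c p q) q → cdB X.c pl vb p (Mhi X.c p q) q ≠ 0)
    {a b : ℕ → ℝ} (a0 : ∀ p, 0 ≤ a p) (b0 : ∀ p, 0 ≤ b p)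
    (h0 : EB X Q (Wn X r.F fun p => W (vb p)) (rF X r.F a))
    (h1 : EB X Q (Wl X pl r.F fun p => W (vb p)) (rF X r.F b)) :
    JT X Q r.D grK (rF X r.F fun p => a p + b p) :=
  jt_genF cf r hR h2 cdA_ok a0 b0 h0 (eb_c cf.hQ cf.hd1 hT hm hpd h1)

/-- **the credit of the jumps** -/
noncomputable abbrev cr3 (cf : CtxF X Q) (r : RF X) (θ : ℕ → ℝ) (hθ : ∀ n, 0 ≤ θ n) :
    Cr ((lbX (r.H (C := C) cf)).pv diX) :=
  crX (r.H (C := C) cf) rfl cf.hQ cf.hd1 (EvT X.c (Unf r.F X.c) θ hθ)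

/-- **the payment** -/
theorem z3_of (cf : CtxF X Q) (r : RF X) {θ : ℕ → ℝ} (hθ : ∀ n, 0 ≤ θ n) {p : ℕ}
    {b : Me × List (DT X.c.Lam (LbX X))} (h : InvM X Q C p b) {j : X.c.Lam} {x : ℝ}
    (hj : jv (bB p b.2) j x ≠ 0) (hs : sdX X p b.1 j) :
    rF X r.F θ p b.1 j x ≤ (cr3 (C := C) cf r θ hθ).r p b j x := by
  by_cases hf : flg r.F X.c p j.1.1
  · have e : rF X r.F θ p b.1 j x = 0 := if_neg fun h => h hf
    rw [e]
    have hp : p ≠ 0 := by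
      have := (sd_mt cf.hQ cf.hd1 h hj hs).1
      intro e
      subst e
      exact absurd (BldF542.mt_lt X.c.t (Skel189.top X.S) X.tOk _ _ this).1 Nat.not_prime_zero
    exact ((cr3 (C := C) cf r θ hθ).pr h hp j).nonneg x
  · have e : rF X r.F θ p b.1 j x = θ p := if_pos hf
    rw [e]
    exact unf_tie h hj hs hf

/-- **the credits** -/
theorem z3ρ_of {A : Type} [Fintype A] {ω : A → ℝ} (ω0 : ∀ i, 0 ≤ ω i) (ω1 : ∑ i, ω i = 1)
    (cf : CtxF X Q) (r : A → RF X) {θ : A → ℕ → ℝ} (hθ : ∀ i n, 0 ≤ θ i n) {al δ s1 κ e : ℝ}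
    {P : ℕ} (hOm : ∀ i n M, Om al δ n P M → (r i).F n M) (hal : 0 < al) (hδ : 0 ≤ δ)
    (hs : 0 < s1) (hκ : 0 ≤ κ) (h16 : 16 ≤ p0)
    (hθ' : ∀ i (n : ℕ), 16 ≤ n → θ i n ≤ κ * Real.log n ^ (-s1)) {p : ℕ}
    {b : Me × List (DT X.c.Lam (LbX X))} (hp : p ≤ P) (he : 3 * (κ * Lay al s1 δ 1) ≤ e)
    (j : X.c.Lam) (x : ℝ) :
    ∑ i, ω i * (cr3 (C := C) cf (r i) (θ i) (hθ i)).ρ p b j x ≤ e := by
  have h : ∀ i, (cr3 (C := C) cf (r i) (θ i) (hθ i)).ρ p b j x ≤ e := fun i =>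
    (unf_rho (r i).mon (hOm i) hal hδ hs hκ h16 (hθ' i) hp).trans he
  calc _ ≤ ∑ i, ω i * e := Finset.sum_le_sum fun i _ => mul_le_mul_of_nonneg_left (h i) (ω0 i)
    _ = e := by rw [← Finset.sum_mul, ω1, one_mul]

end ctx

end Crest.Agent.R4P.E3Q479
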