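import Crest.Agent.R4P.AsL_407
import Crest.Agent.R4P.E3Q_479

/-!
R4 (S0004) with powers, T3, helper407: **the inputs of a family of rules in node form**.

* `LmU` (linear functionals by the mass), `ctx_LmU`;
* **`bd_rE`**, **`bd_ts`**, **`bd_pn`** : averages of the energies of the nodes ⟹ the fields `hN`, `hFB`, `hPN`,
  `hT` of `FmS`.
-/

set_option autoImplicit false
set_option linter.unusedSectionVars false
set_option linter.unusedVariables false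
open MeasureTheory Filter Set

namespace Crest.Agent.R4P.AsM407

open Crest.Agent.R4.Tour104 Crest.Agent.R4.Tour758 Crest.Agent.R4.Avg758 Crest.Agent.R4.Clos758
open Crest.Agent.R4.ClosL758 Crest.Agent.R4.ClosG758 Crest.Agent.R4.ClosR758
open Crest.Agent.R4P.ClosR442 Crest.Agent.R4P.Grp36
open Crest.Agent.R4P.Xfer36 Crest.Agent.R4P.TopC36 Crest.Agent.R4P.PN36
open Crest.Agent.R4P.GWa343 Crest.Agent.R4P.GWb343
open Crest.Agent.R4P.GWc343 hiding SB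
open Crest.Agent.R4P.GWd343 Crest.Agent.R4P.GWf343 Crest.Agent.R4P.TrR343
open Crest.Agent.R4P.GCol27
open Crest.Agent.R4P.RSys343 Crest.Agent.R4P.RXm55 Crest.Agent.R4P.MSm25
open Crest.Agent.R4P.MSd343 Crest.Agent.R4P.VR407 Crest.Agent.R4P.Bp407 Crest.Agent.R4P.DTm407
open Crest.Agent.R4P.DTn407 Crest.Agent.R4P.DTo407 Crest.Agent.R4P.DTs407
open Crest.Agent.R4P.DTe407 hiding ch_mul
open Crest.Agent.R4P.DTp26
open Crest.Agent.R4P.Cnt588 Crest.Agent.R4P.Item758 Crest.Agent.R4P.W363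
open Crest.Agent.R4P.Bld532 (NS All NodeOk Bk)
open Crest.Agent.R4P.WalkIT579 (tp isL toDT_top toDT_leaf)
open Crest.Agent.R4P.Walk560 (DT WrN)
open Crest.Agent.R4P.StratN36 (ex)
open Crest.Agent.R4P.Step588 Crest.Agent.R4P.RseSt23
open Crest.Agent.R4P.TYI47 Crest.Agent.R4P.TYJ47 Crest.Agent.R4P.TYK47 Crest.Agent.R4P.TYP9
open Crest.Agent.R4P.RsT47
open Crest.Agent.R4P.PVd45 (DI)
open Crest.Agent.R4P.PVe45 (LB Cr)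
open Crest.Agent.R4P.JnE5 Crest.Agent.R4P.JnH5
open Crest.Agent.R4P.Skel189 Crest.Agent.R4P.Frame758 Crest.Agent.R4P.Data758
open Crest.Agent.R4.Soft104 hiding cut
open Crest.Agent.R4.Fam464
open Crest.Agent.R4P.StratX36 Crest.Agent.R4P.TopX36
open Crest.Agent.R4P.PrH45 Crest.Agent.R4P.PrI45 Crest.Agent.R4P.PrJ45 Crest.Agent.R4P.PrK45
open Crest.Agent.R4P.PrE45 Crest.Agent.R4P.PrG45 Crest.Agent.R4P.PrD45
open Crest.Agent.R4P.AsB407 Crest.Agent.R4P.AsC407 Crest.Agent.R4P.AsD407 Crest.Agent.R4P.AsE407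

variable {N : Skel189.Num} {γ : ℝ} {p0 P₀ : ℕ} {X : Ctx N γ p0 P₀} {j₀ : X.c.Lam}
  {u : NS} {τ : IT} {a ϑ : ℝ}

/-! ### energies of the nodes -/

/-- **linear functionals by the mass** -/
def LmU (X : Ctx N γ p0 P₀) (j₀ : X.c.Lam) (u : NS) (τ : IT) : Prop :=
  ∀ (c : X.c.Lam → ℝ) (C : ℝ), 0 ≤ C → (∀ i, (X.c.D.par X.Y).it i ∈ τ.items → c i ≤ C) →
    lm X c u τ ≤ 4 * C * X.mu j₀ u τ Finset.univ

theorem ctx_LmU (N : Skel189.Num) (γ : ℝ) : Ev N γ fun p0 P₀ X => 2 ≤ P₀ →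
    ∀ j₀ : X.c.Lam, All (LmU X j₀) ⟨Skel189.top X.S, 1, 1, 1⟩ X.c.t := by
  obtain ⟨p1, h1⟩ := lm_mu N
  exact Ev.of (p₁ := p1) fun p0 hp0 P₀ _ X hP j₀ => h1 p0 hp0 γ P₀ hP X j₀

lemma top_p (u : NS) (τ : IT) : (X.self u τ Finset.univ).p = (tX X u τ).top := by
  rw [self_p, top_tp]

section fam
variable {A : Type} [Fintype A] {ω : A → ℝ}

/-- averages of linear functionals -/
lemma avg_lm (ω0 : ∀ i, 0 ≤ ω i) {v : A → ℝ} {c : A → X.c.Lam → ℝ} {e : ℝ} (he : 0 ≤ e)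
    (hU : LmU X j₀ u τ) (hv : ∀ i, v i ≤ lm X (c i) u τ)
    (hc : ∀ j, (X.c.D.par X.Y).it j ∈ τ.items → ∑ i, ω i * c i j ≤ e) :
    ∑ i, ω i * v i ≤ 4 * e * X.mu j₀ u τ Finset.univ := by
  refine le_trans ?_ (hU (fun j => ∑ i, ω i * c i j) e he hc)
  rw [lm_sum]
  refine Finset.sum_le_sum fun i _ => ?_
  rw [lm_smul]
  exact mul_le_mul_of_nonneg_left (hv i) (ω0 i)

lemma avg_bd (ω0 : ∀ i, 0 ≤ ω i) {v : A → ℝ} {c : A → X.c.Lam → ℝ} {e : ℝ} (he : 0 ≤ e)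
    (hU : LmU X j₀ u τ) (hv : ∀ i, v i ≤ lm X (c i) u τ)
    (hc : ∀ j, (X.c.D.par X.Y).it j ∈ τ.items → ∑ i, ω i * c i j ≤ e)
    (ha : 4 * e ≤ a) (hϑ : 0 ≤ ϑ) (hμ : 0 ≤ X.mu j₀ u τ Finset.univ) :
    Bd X j₀ u τ a ϑ (∑ i, ω i * v i) :=
  bd_mu (C := 4 * e) (avg_lm ω0 he hU hv hc) ha (by linarith) hϑ hμ

/-- **energies of the rest** -/
theorem bd_rE (ω0 : ∀ i, 0 ≤ ω i) {R : A → ℕ → (X.c.Lam → ℝ → ℝ) → ℝ} {ε : A → ℕ → X.c.Lam → ℝ}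
    (hε : ∀ i q j, 0 ≤ ε i q j) (h : RgN X u τ) (hn : ∀ i, All (VNd X (R i) (ε i)) u τ)
    (hU : LmU X j₀ u τ) {e : ℝ} (he : 0 ≤ e)
    (hc : ∀ j, (X.c.D.par X.Y).it j ∈ τ.items → ∑ i, ω i * Es (ε i) (tp τ) j ≤ e)
    (ha : 4 * e ≤ a) (hϑ : 0 ≤ ϑ) (hμ : 0 ≤ X.mu j₀ u τ Finset.univ) :
    Bd X j₀ u τ a ϑ (∑ i, ω i * rE (R i) (X.self u τ Finset.univ).p (tX X u τ)) := by
  refine avg_bd ω0 he hU (c := fun i => Es (ε i) (tp τ)) (fun i => ?_) hc ha hϑ hμ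
  have h1 := rE_nd (hε i) h (hn i)
  rw [top_tp] at h1
  rw [self_p]
  exact h1

/-- **energies of the ties** -/
theorem bd_ts (ω0 : ∀ i, 0 ≤ ω i)
    {F : A → ℕ → (X.c.Lam → ℝ → ℝ) → (X.c.Lam → ℝ → ℝ) → ℝ} {ε : A → ℕ → X.c.Lam → ℝ}
    (hε : ∀ i q j, 0 ≤ ε i q j) (h : RgN X u τ) (hn : ∀ i, All (VTs X (F i) (ε i)) u τ)
    (hU : LmU X j₀ u τ) {e : ℝ} (he : 0 ≤ e)
    (hc : ∀ j, (X.c.D.par X.Y).it j ∈ τ.items → ∑ i, ω i * Es (ε i) (tp τ) j ≤ e)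
    (ha : 4 * e ≤ a) (hϑ : 0 ≤ ϑ) (hμ : 0 ≤ X.mu j₀ u τ Finset.univ) :
    Bd X j₀ u τ a ϑ (∑ i, ω i * ts (F i) (tX X u τ)) := by
  refine avg_bd ω0 he hU (c := fun i => Es (ε i) (tp τ)) (fun i => ?_) hc ha hϑ hμ
  exact ts_nd (hε i) h (hn i) (top_tp u τ).le

/-- **P against N energies** -/
theorem bd_pn (ω0 : ∀ i, 0 ≤ ω i) {K : A → ℕ → X.c.Lam → X.c.Lam → ℝ} {ε : A → ℕ → X.c.Lam → ℝ}
    (hε : ∀ i q j, 0 ≤ ε i q j) (h : RgN X u τ)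
    (hn : ∀ i, All (VTs X (fun q a b => 1 / (q : ℝ) * (2 * bil (K i q) a b)) (ε i)) u τ)
    (hU : LmU X j₀ u τ) {e : ℝ} (he : 0 ≤ e)
    (hc : ∀ j, (X.c.D.par X.Y).it j ∈ τ.items → ∑ i, ω i * Es (ε i) (tp τ) j ≤ e)
    (ha : 4 * e ≤ a) (hϑ : 0 ≤ ϑ) (hμ : 0 ≤ X.mu j₀ u τ Finset.univ) :
    Bd X j₀ u τ a ϑ (∑ i, ω i * pn (K i) (tX X u τ)) := by
  refine avg_bd ω0 he hU (c := fun i => Es (ε i) (tp τ)) (fun i => ?_) hc ha hϑ hμ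
  exact pn_nd (hε i) h (hn i) (top_tp u τ).le

end fam

end Crest.Agent.R4P.AsM407
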