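import Crest.Agent.R4P.AvG_32

/-!
R4 (S0004) with powers, helper32: **the births in their zones, averaged over the exponents**
(helper32 10435 (B), helper10 8094 (6)).

* `FcP A C p0 γ ψ M` : facts of one item (`M` its missing ties, `ψ` its radius): few missing ties, and for
  every `e` the sticky label changes at most once at the thin ties;
* `Nu A ε p0`, `exists_nu` : large numbers; `ZwOK` : the width function, `log Zw ≤ (log 1/R)^ε`;
* `EB`     : **birth in its zone** at the missing tie `s`;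
* `Ft`     : the fat tower; `tower` : `∑ ll^(-ε) ≤ 2 (log p0)^(-ε)` without the last stage;
* `births` : the sum over the grid of the number of the births in their zones.
-/

set_option autoImplicit false
set_option linter.unusedSectionVars false
set_option linter.unusedVariables false

namespace Crest.Agent.R4P.AvG32

open Crest.Agent.R4.LF363
open Crest.Agent.R4.W363 (lst lst_prod mem_lst)
open Crest.Agent.R4P.PosP33 Crest.Agent.R4P.LabD33
open Crest.Agent.R4P.StM6 (d5 d5_pos)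
open Crest.Agent.R4P.Bir30 (lst_mem lst_not_mem Few)

variable {e e' : UV} {γ ψ A C ε : ℝ} {b s p0 : ℕ} {σ τ ρ κ μ : ℚ} {M : Finset ℕ} {Zw : ℝ → ℝ}

/-! ### facts and numbers -/

/-- **the facts of one item**, `M` = its missing ties, `ψ` = its radius -/
structure FcP (A C : ℝ) (p0 : ℕ) (γ ψ : ℝ) (M : Finset ℕ) : Prop where
  ψ0 : 0 < ψ
  mp : ∀ x ∈ M, p0 < x
  few : Few C p0 M
  one : ∀ (e : UV) {s s' : ℕ}, s ∈ M → s' ∈ M → Rd ψ M s ≤ Real.log s ^ (-A) →
    Rd ψ M s' ≤ Real.log s' ^ (-A) → Chg e γ ψ M s → Chg e γ ψ M s' → s = s'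

/-- **large numbers** -/
structure Nu (A C ε : ℝ) (p0 : ℕ) : Prop where
  A0 : 0 ≤ A
  C0 : 0 ≤ C
  ε0 : 0 < ε
  εC : ε * (2 * (C + 3)) ≤ 1
  three : 8 ≤ p0
  xl : ∀ x : ℝ, Real.log p0 ≤ x → 4 * 2 ^ (1 / ε) * A * Real.log x ≤ x
  xe : ∀ x : ℝ, Real.log p0 ≤ x → 400 * x ^ ε ≤ x

lemma Nu.ε2 (h : Nu A C ε p0) : ε ≤ 1 / 6 := by
  have := h.εC
  have := h.C0
  have := h.ε0
  nlinarith

lemma Nu.log2 (h : Nu A C ε p0) : 2 ≤ Real.log p0 := by
  have h1 : (8 : ℝ) ≤ p0 := by exact_mod_cast h.three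
  rw [Real.le_log_iff_exp_le (by linarith)]
  have h2 := Real.exp_one_lt_d9
  have h3 : Real.exp 2 = Real.exp 1 * Real.exp 1 := by rw [← Real.exp_add]; norm_num
  have h4 := Real.exp_pos 1
  nlinarith

/-- **the numbers exist**: eventually in `p0` -/
theorem exists_nu (A C ε : ℝ) (hA : 0 ≤ A) (hC : 0 ≤ C) (hε : 0 < ε) (hεC : ε * (2 * (C + 3)) ≤ 1) :
    ∃ p₁ : ℕ, ∀ p0 ≥ p₁, Nu A C ε p0 := by
  set K : ℝ := 4 * 2 ^ (1 / ε) * A with hK
  have hK0 : 0 ≤ K := by positivity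
  have hε1 : 0 < 1 - ε := by nlinarith
  have h1 : ∀ᶠ x : ℝ in Filter.atTop, K * Real.log x ≤ x := by
    have h2 := (isLittleO_log_rpow_atTop (show (0 : ℝ) < 1 by norm_num)).bound
      (show (0 : ℝ) < 1 / (K + 1) by positivity)
    filter_upwards [h2, Filter.eventually_ge_atTop 1] with x hx hx1
    have hl : 0 ≤ Real.log x := Real.log_nonneg hx1
    rw [Real.norm_eq_abs, Real.norm_eq_abs, abs_of_nonneg hl, Real.rpow_one,
      abs_of_nonneg (by linarith)] at hx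
    calc K * Real.log x ≤ (K + 1) * Real.log x := by nlinarith
      _ ≤ (K + 1) * (1 / (K + 1) * x) := mul_le_mul_of_nonneg_left hx (by linarith)
      _ = x := by field_simp
  have h2 : ∀ᶠ x : ℝ in Filter.atTop, 400 * x ^ ε ≤ x := by
    have h3 : ∀ᶠ x : ℝ in Filter.atTop, (400 : ℝ) ≤ x ^ (1 - ε) :=
      (tendsto_rpow_atTop hε1).eventually_ge_atTop _
    filter_upwards [h3, Filter.eventually_ge_atTop 1] with x hx hx1
    have hx0 : 0 < x := by linarith
    have e1 : x = x ^ (1 - ε) * x ^ ε := by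
      rw [← Real.rpow_add hx0]; norm_num
    calc 400 * x ^ ε ≤ x ^ (1 - ε) * x ^ ε :=
          mul_le_mul_of_nonneg_right hx (Real.rpow_nonneg hx0.le _)
      _ = x := e1.symm
  obtain ⟨x₁, hx₁⟩ := Filter.eventually_atTop.1 (h1.and h2)
  have h3 : ∀ᶠ p : ℕ in Filter.atTop, x₁ ≤ Real.log p :=
    (Real.tendsto_log_atTop.comp tendsto_natCast_atTop_atTop).eventually_ge_atTop _
  obtain ⟨p₁, hp₁⟩ := Filter.eventually_atTop.1 h3
  refine ⟨max p₁ 8, fun p0 hp => ⟨hA, hC, hε, hεC, (le_max_right _ _).trans hp, fun x hx => ?_,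
    fun x hx => ?_⟩⟩
  · exact (hx₁ x ((hp₁ p0 ((le_max_left _ _).trans hp)).trans hx)).1
  · exact (hx₁ x ((hp₁ p0 ((le_max_left _ _).trans hp)).trans hx)).2

/-- **the width function** -/
structure ZwOK (Zw : ℝ → ℝ) (ε : ℝ) : Prop where
  one : ∀ R, 1 ≤ Zw R
  small : ∀ R : ℝ, 0 < R → R ≤ 1 / 10 → Real.log (Zw R) ≤ Real.log (1 / R) ^ ε

/-- the width function `exp ((log 1/R)^ε)` -/
noncomputable def ZwE (ε R : ℝ) : ℝ := Real.exp ((max 0 (Real.log (1 / R))) ^ ε)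

lemma zwOK_E (ε : ℝ) : ZwOK (ZwE ε) ε := by
  refine ⟨fun R => Real.one_le_exp (Real.rpow_nonneg (le_max_left _ _) _), fun R h0 h1 => ?_⟩
  unfold ZwE
  rw [Real.log_exp, max_eq_right]
  refine Real.log_nonneg ?_
  rw [le_div_iff₀ h0]
  linarith

namespace FcP

variable (h : FcP A C p0 γ ψ M)
include h

lemma pos : ∀ x ∈ M, 0 < x := fun x hx => (Nat.zero_le _).trans_lt (h.mp x hx)

lemma lg (hn : Nu A C ε p0) {x : ℕ} (hx : x ∈ M) : Real.log p0 ≤ Real.log x ∧ 2 ≤ Real.log x := by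
  have h1 : (p0 : ℝ) ≤ x := by exact_mod_cast (h.mp x hx).le
  have h2 : (0 : ℝ) < p0 := by
    have := hn.three
    exact_mod_cast (by omega : 0 < p0)
  have h3 := Real.log_le_log h2 h1
  exact ⟨h3, hn.log2.trans h3⟩

lemma Rpos {x : ℕ} (hx : x ∈ M) : 0 < Rd ψ M x := Rd_pos h.pos h.ψ0 (h.pos x hx)

lemma Ppos {x : ℕ} (hx : x ∈ M) : 0 < Pd M x := Pd_pos h.pos (h.pos x hx)

/-- the radius is `≤ 1/10` at a label -/
lemma le10 {x : ℕ} (hx : x ∈ M) (ho : own e γ ψ (x :: lst M x) = some τ) : Rd ψ M x ≤ 1 / 10 :=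
  (own_spec (h.Ppos hx) ho).2.1

/-- above a stage of radius `≤ 1/10` -/
lemma ll_ge {s t : ℕ} (hs : s ∈ M) (ht : t ∈ M) (hst : s < t) (h1 : Rd ψ M s ≤ 1 / 10) :
    Real.log s ≤ ll ψ M t := by
  have h2 := ll_step h.pos h.ψ0 (h.pos s hs) ht hst
  have h3 : 0 ≤ ll ψ M s := by
    rw [ll_def]
    refine Real.log_nonneg ?_
    rw [le_div_iff₀ (h.Rpos hs)]
    linarith
  linarith

end FcP

/-! ### the fat tower -/

open Classical in
/-- **the fat stages** of radius `≤ 1/10` -/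
noncomputable def Ft (A ψ : ℝ) (M : Finset ℕ) : Finset ℕ :=
  M.filter fun s => Real.log s ^ (-A) < Rd ψ M s ∧ Rd ψ M s ≤ 1 / 10

lemma mem_Ft {s : ℕ} : s ∈ Ft A ψ M ↔ s ∈ M ∧ Real.log s ^ (-A) < Rd ψ M s ∧ Rd ψ M s ≤ 1 / 10 := by
  unfold Ft; rw [Finset.mem_filter]

lemma FcP.ll_fat (h : FcP A C p0 γ ψ M) (hn : Nu A C ε p0) (hs : s ∈ M)
    (hf : Real.log s ^ (-A) < Rd ψ M s) : ll ψ M s < A * Real.log (Real.log s) := by
  have hl := (h.lg hn hs).2
  have h1 := Real.log_lt_log (Real.rpow_pos_of_pos (by linarith) _) hf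
  rw [Real.log_rpow (by linarith), log_Rd] at h1
  linarith

/-- **two stages of the tower**: the larger one has a much larger logarithm -/
lemma FcP.two_fat (h : FcP A C p0 γ ψ M) (hn : Nu A C ε p0) {a b : ℕ} (ha : a ∈ M)
    (ha1 : Rd ψ M a ≤ 1 / 10) (hb : b ∈ M) (hbf : Real.log b ^ (-A) < Rd ψ M b) (hab : a < b) :
    4 * 2 ^ (1 / ε) * Real.log a ≤ Real.log b := by
  have h1 := h.ll_ge ha hb hab ha1
  have h2 := h.ll_fat hn hb hbf
  have h3 := hn.xl _ (h.lg hn hb).1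
  have h4 : (0 : ℝ) ≤ 4 * 2 ^ (1 / ε) := by positivity
  calc 4 * 2 ^ (1 / ε) * Real.log a ≤ 4 * 2 ^ (1 / ε) * (A * Real.log (Real.log b)) :=
        mul_le_mul_of_nonneg_left (by linarith) h4
    _ = 4 * 2 ^ (1 / ε) * A * Real.log (Real.log b) := by ring
    _ ≤ _ := h3

/-- **the tower sum** -/
theorem FcP.tower (h : FcP A C p0 γ ψ M) (hn : Nu A C ε p0) (hne : (Ft A ψ M).Nonempty) :
    ∑ s ∈ (Ft A ψ M).erase ((Ft A ψ M).min' hne), ll ψ M s ^ (-ε) ≤ 2 * Real.log p0 ^ (-ε) := by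
  have hε := hn.ε0
  have key := tele_hi (fun s => ll ψ M s ^ (-ε)) (fun s => 2 * Real.log s ^ (-ε)) (Ft A ψ M) hne
    fun a ha b hb hab => by
      obtain ⟨a1, a2, a3⟩ := mem_Ft.1 ha
      obtain ⟨b1, b2, b3⟩ := mem_Ft.1 hb
      have h1 := h.ll_ge a1 b1 hab a3
      have hla := (h.lg hn a1).2
      have h2 := h.two_fat hn a1 a3 b1 b2 hab
      have h3 : ll ψ M b ^ (-ε) ≤ Real.log a ^ (-ε) :=
        Real.rpow_le_rpow_of_nonpos (by linarith) h1 (by linarith)
      have h4 : Real.log b ^ (-ε) ≤ 1 / 2 * Real.log a ^ (-ε) := by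
        have h5 : (2 : ℝ) ^ (1 / ε) * Real.log a ≤ Real.log b := by
          have : 0 ≤ (2 : ℝ) ^ (1 / ε) * Real.log a := by positivity
          linarith
        calc Real.log b ^ (-ε) ≤ ((2 : ℝ) ^ (1 / ε) * Real.log a) ^ (-ε) :=
              Real.rpow_le_rpow_of_nonpos (by positivity) h5 (by linarith)
          _ = ((2 : ℝ) ^ (1 / ε)) ^ (-ε) * Real.log a ^ (-ε) :=
              Real.mul_rpow (by positivity) (by linarith)
          _ = 1 / 2 * Real.log a ^ (-ε) := by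
              congr 1
              rw [← Real.rpow_mul (by norm_num)]
              have e1 : 1 / ε * -ε = -1 := by field_simp
              rw [e1, Real.rpow_neg_one]
              norm_num
      show ll ψ M b ^ (-ε) ≤ 2 * Real.log a ^ (-ε) - 2 * Real.log b ^ (-ε)
      linarith
  refine key.trans ?_
  obtain ⟨a1, a2, a3⟩ := mem_Ft.1 ((Ft A ψ M).min'_mem hne)
  obtain ⟨b1, b2, b3⟩ := mem_Ft.1 ((Ft A ψ M).max'_mem hne)
  have h1 : 0 ≤ Real.log ((Ft A ψ M).max' hne) ^ (-ε) :=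
    Real.rpow_nonneg (by linarith [(h.lg hn b1).2]) _
  have h2 : Real.log ((Ft A ψ M).min' hne) ^ (-ε) ≤ Real.log p0 ^ (-ε) :=
    Real.rpow_le_rpow_of_nonpos (by linarith [hn.log2]) (h.lg hn a1).1 (by linarith)
  linarith

/-- a stage of the tower which is not the last one -/
lemma FcP.ll_big (h : FcP A C p0 γ ψ M) (hn : Nu A C ε p0) (hne : (Ft A ψ M).Nonempty) {s : ℕ}
    (hs : s ∈ (Ft A ψ M).erase ((Ft A ψ M).min' hne)) : Real.log p0 ≤ ll ψ M s := by
  obtain ⟨h1, h2⟩ := Finset.mem_erase.1 hs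
  obtain ⟨a1, a2, a3⟩ := mem_Ft.1 ((Ft A ψ M).min'_mem hne)
  obtain ⟨b1, b2, b3⟩ := mem_Ft.1 h2
  have hlt : (Ft A ψ M).min' hne < s := lt_of_le_of_ne ((Ft A ψ M).min'_le s h2) h1.symm
  exact (h.lg hn a1).1.trans (h.ll_ge a1 b1 hlt a3)

/-! ### the births -/

/-- **a birth in its zone** at the missing tie `s` -/
def EB (Zw : ℝ → ℝ) (e : UV) (γ ψ : ℝ) (M : Finset ℕ) (s : ℕ) : Prop :=
  ∃ μ : ℚ, own e γ ψ (s :: lst M s) = some μ ∧ sla e γ ψ (lst M s) ≠ some μ ∧
    ZnP e (Zw (Rd ψ M s)) (Rd ψ M s) |(Pd M s : ℝ) * γ - ((Pd M s * μ : ℚ) : ℝ)|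
      ((Pd M s : ℚ) * μ).den

/-- a new label is a change of the sticky label -/
lemma chg_of_new (hM : ∀ x ∈ M, 0 < x) (hs : s ∈ M) (h1 : own e γ ψ (s :: lst M s) = some μ)
    (h2 : sla e γ ψ (lst M s) ≠ some μ) : Chg e γ ψ M s := by
  intro h3
  rw [sl_of_own h1] at h3
  refine h2 (sla_some.2 ⟨h3.symm, ?_⟩)
  have h4 := (own_spec (Pd_pos hM (hM s hs)) h1).2.2.2
  have h5 : acc e γ ψ (s * (lst M s).prod) μ := by
    have h6 : Pd M s = s * (lst M s).prod := List.prod_cons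
    rw [← h6]; exact h4
  exact acc_anti (hM s hs) h5

lemma cw_le {Z l : ℝ} (hZ : 1 ≤ Z) (hl : 1 ≤ l) (hε : 0 < ε) (h : Real.log Z ≤ l ^ ε) :
    cw Z ≤ 13 * l ^ ε := by
  have h1 : (1 : ℝ) ≤ l ^ ε := Real.one_le_rpow hl hε.le
  have h2 : Real.log 32 ≤ 4 := by
    have : Real.log 32 = 5 * Real.log 2 := by
      rw [show (32 : ℝ) = 2 ^ 5 by norm_num, Real.log_pow]; push_cast; ring
    have h2 := Real.log_two_lt_d9
    linarith
  unfold cw
  linarith

open Classical in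
/-- **number of grid points for which there is a birth in its zone at the stage `s`** -/
theorem card_birth (h : FcP A C p0 γ ψ M) (hn : Nu A C ε p0) (hZ : ZwOK Zw ε) {s : ℕ} (hs : s ∈ M)
    (h10 : Rd ψ M s ≤ 1 / 10) (hl : Real.log p0 ≤ ll ψ M s) (N : ℕ) :
    ((Finset.univ.filter fun a : Fin N × Fin N => EB Zw (ge N a.1 a.2) γ ψ M s).card : ℝ) ≤
      N ^ 2 * (205 * ll ψ M s ^ (-ε)) + 2 * N := by
  set T := Finset.univ.filter fun a : Fin N × Fin N => EB Zw (ge N a.1 a.2) γ ψ M s with hT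
  set l : ℝ := ll ψ M s with hldef
  set R : ℝ := Rd ψ M s with hR
  set Z : ℝ := Zw R with hZdef
  have hR0 : 0 < R := h.Rpos hs
  have hP0 := h.Ppos hs
  have hZ1 : 1 ≤ Z := hZ.one R
  have hl2 : 2 ≤ l := hn.log2.trans hl
  have hlZ : Real.log Z ≤ l ^ ε := hZ.small R hR0 h10
  have hlZ0 : 0 ≤ Real.log Z := Real.log_nonneg hZ1
  have hxe := hn.xe l hl
  have hle : 1 ≤ l ^ ε := Real.one_le_rpow (by linarith) hn.ε0.le
  have hε2 := hn.ε2
  have hε0 := hn.ε0
  have hle2 : l ^ ε / l ≤ l ^ (-ε) := by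
    rw [div_le_iff₀ (by linarith)]
    have e1 : l ^ (-ε) * l = l ^ (1 - ε) := by
      nth_rewrite 2 [← Real.rpow_one l]
      rw [← Real.rpow_add (by linarith)]; congr 1; ring
    rw [e1]
    exact Real.rpow_le_rpow_of_exponent_le (by linarith) (by linarith)
  rcases T.eq_empty_or_nonempty with hE | ⟨a₀, ha₀⟩
  · rw [hE]
    simp only [Finset.card_empty, Nat.cast_zero]
    have : 0 ≤ l ^ (-ε) := Real.rpow_nonneg (by linarith) _
    positivity
  obtain ⟨μ, hμ, -, -⟩ := (Finset.mem_filter.1 ha₀).2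
  have hN : (0 : ℝ) < N := by exact_mod_cast Fin.pos a₀.1
  set k : ℕ := ((Pd M s : ℚ) * μ).den with hk
  have hk0 : 0 < k := Rat.den_pos _
  set U := Finset.univ.filter fun i : Fin N =>
    5 * Real.log k ≤ (1 + (i : ℝ) / (20 * N)) * l ∧
      (1 + (i : ℝ) / (20 * N)) * l ≤ 5 * Real.log k + 7 * Real.log Z with hU
  set V := Finset.univ.filter fun j : Fin N =>
    Xk γ ψ μ ≤ (1 + 4 * ((j : ℝ) / (20 * N))) * l ∧
      (1 + 4 * ((j : ℝ) / (20 * N))) * l ≤ Xk γ ψ μ + cw Z with hV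
  have hsub : T ⊆ U ×ˢ Finset.univ ∪ Finset.univ ×ˢ V := by
    intro a ha
    obtain ⟨μ', h1, -, h3⟩ := (Finset.mem_filter.1 ha).2
    have e1 : μ = μ' := own_same hP0 hμ h1
    subst e1
    obtain ⟨g0, g1, g2, g3⟩ := own_spec hP0 h1
    rw [Finset.mem_union, Finset.mem_product, Finset.mem_product]
    rcases h3 with h3 | h3 | h3
    · exfalso
      have h4 := Real.log_lt_log one_pos h3
      have hZ0 : 0 < Zw (Rd ψ M s) := by
        have := hZ.one (Rd ψ M s)
        linarith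
      rw [Real.log_one, Real.log_mul (by positivity) hR0.ne', Real.log_mul (by norm_num) hZ0.ne',
        log_Rd] at h4
      have h5 : Real.log 10 ≤ 9 := by
        have := Real.log_le_sub_one_of_pos (show (0 : ℝ) < 10 by norm_num)
        linarith
      have h6 : Real.log (Zw (Rd ψ M s)) ≤ l ^ ε := hlZ
      have h7 : ll ψ M s = l := rfl
      rw [h7] at h4
      linarith
    · left
      refine ⟨Finset.mem_filter.2 ⟨Finset.mem_univ _, ?_, ?_⟩, Finset.mem_univ _⟩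
      · exact den_log hk0 hP0 g0 g2
      · exact (den_zone_log hZ1 hk0 hP0 g0 h3).le
    · right
      obtain ⟨k1, k2⟩ := zone_log hZ1 hP0 g0 h3
      refine ⟨Finset.mem_univ _, Finset.mem_filter.2 ⟨Finset.mem_univ _, ?_, ?_⟩⟩
      · exact (acc_log hP0 g0 k1).1 g3
      · exact k2.le
  have c1 := (Finset.card_le_card hsub).trans (Finset.card_union_le _ _)
  rw [Finset.card_product, Finset.card_product, Finset.card_univ, Fintype.card_fin] at c1
  have c2 : (T.card : ℝ) ≤ U.card * N + N * V.card := by exact_mod_cast c1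
  have c3 : (U.card : ℝ) ≤ 20 * N * (7 * Real.log Z) / l + 1 :=
    card_u U (x := 5 * Real.log k) (by linarith) (by linarith) fun i hi => (Finset.mem_filter.1 hi).2
  have c4 : (V.card : ℝ) ≤ 5 * N * cw Z / l + 1 :=
    card_v V (x := Xk γ ψ μ) (by linarith) (cw_nonneg hZ1) fun i hi => (Finset.mem_filter.1 hi).2
  have c5 := cw_le hZ1 (by linarith) hn.ε0 hlZ
  have c6 : 20 * N * (7 * Real.log Z) / l ≤ N * (140 * l ^ (-ε)) := by
    calc 20 * N * (7 * Real.log Z) / l = N * (140 * (Real.log Z / l)) := by ring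
      _ ≤ N * (140 * (l ^ ε / l)) := by
          refine mul_le_mul_of_nonneg_left ?_ hN.le
          refine mul_le_mul_of_nonneg_left ?_ (by norm_num)
          exact div_le_div_of_nonneg_right hlZ (by linarith)
      _ ≤ N * (140 * l ^ (-ε)) := by
          refine mul_le_mul_of_nonneg_left ?_ hN.le
          exact mul_le_mul_of_nonneg_left hle2 (by norm_num)
  have c7 : 5 * N * cw Z / l ≤ N * (65 * l ^ (-ε)) := by
    calc 5 * N * cw Z / l ≤ 5 * N * (13 * l ^ ε) / l := by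
          refine div_le_div_of_nonneg_right ?_ (by linarith)
          exact mul_le_mul_of_nonneg_left c5 (by positivity)
      _ = N * (65 * (l ^ ε / l)) := by ring
      _ ≤ N * (65 * l ^ (-ε)) := by
          refine mul_le_mul_of_nonneg_left ?_ hN.le
          exact mul_le_mul_of_nonneg_left hle2 (by norm_num)
  calc (T.card : ℝ) ≤ U.card * N + N * V.card := c2
    _ ≤ (N * (140 * l ^ (-ε)) + 1) * N + N * (N * (65 * l ^ (-ε)) + 1) := by
        refine add_le_add (mul_le_mul_of_nonneg_right (by linarith) hN.le)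
          (mul_le_mul_of_nonneg_left (by linarith) hN.le)
    _ = N ^ 2 * (205 * l ^ (-ε)) + 2 * N := by ring

open Classical in
/-- **the births in their zones, summed over the grid** -/
theorem births (h : FcP A C p0 γ ψ M) (hn : Nu A C ε p0) (hZ : ZwOK Zw ε) (N : ℕ) :
    ∑ a : Fin N × Fin N, ((M.filter fun s => EB Zw (ge N a.1 a.2) γ ψ M s).card : ℝ) ≤
      N ^ 2 * (2 + 410 * Real.log p0 ^ (-ε)) + 2 * N * M.card := by
  have hlp : 0 ≤ Real.log p0 ^ (-ε) := Real.rpow_nonneg (by linarith [hn.log2]) _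
  -- thin births of one `e`
  have thin : ∀ e : UV, (M.filter fun s => EB Zw e γ ψ M s ∧ s ∉ Ft A ψ M).card ≤ 1 := by
    intro e
    rw [Finset.card_le_one]
    intro a ha b hb
    obtain ⟨a1, ⟨μ, a2, a3, -⟩, a4⟩ := Finset.mem_filter.1 ha
    obtain ⟨b1, ⟨ν, b2, b3, -⟩, b4⟩ := Finset.mem_filter.1 hb
    have th : ∀ x ∈ M, x ∉ Ft A ψ M → Rd ψ M x ≤ 1 / 10 → Rd ψ M x ≤ Real.log x ^ (-A) := by
      intro x hx h1 h2
      by_contra h3
      push Not at h3
      exact h1 (mem_Ft.2 ⟨hx, h3, h2⟩)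
    exact h.one e a1 b1 (th a a1 a4 (h.le10 a1 a2)) (th b b1 b4 (h.le10 b1 b2))
      (chg_of_new h.pos a1 a2 a3) (chg_of_new h.pos b1 b2 b3)
  rcases (Ft A ψ M).eq_empty_or_nonempty with hE | hne
  · have h1 : ∀ a : Fin N × Fin N,
        ((M.filter fun s => EB Zw (ge N a.1 a.2) γ ψ M s).card : ℝ) ≤ 1 := by
      intro a
      have h2 := thin (ge N a.1 a.2)
      have h3 : (M.filter fun s => EB Zw (ge N a.1 a.2) γ ψ M s) =
          M.filter fun s => EB Zw (ge N a.1 a.2) γ ψ M s ∧ s ∉ Ft A ψ M := by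
        ext x
        rw [Finset.mem_filter, Finset.mem_filter, hE]
        simp
      rw [h3]; exact_mod_cast h2
    refine (Finset.sum_le_sum fun a _ => h1 a).trans ?_
    rw [Finset.sum_const, Finset.card_univ, Fintype.card_prod, Fintype.card_fin, nsmul_eq_mul]
    push_cast
    have : (0 : ℝ) ≤ 2 * N * M.card := by positivity
    nlinarith [sq_nonneg (N : ℝ)]
  set F := Ft A ψ M with hFdef
  set F' := F.erase (F.min' hne) with hF'
  have h1 : ∀ a : Fin N × Fin N, ((M.filter fun s => EB Zw (ge N a.1 a.2) γ ψ M s).card : ℝ) ≤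
      2 + ((F'.filter fun s => EB Zw (ge N a.1 a.2) γ ψ M s).card : ℝ) := by
    intro a
    have h2 := thin (ge N a.1 a.2)
    have h3 : (M.filter fun s => EB Zw (ge N a.1 a.2) γ ψ M s) ⊆
        (M.filter fun s => EB Zw (ge N a.1 a.2) γ ψ M s ∧ s ∉ F) ∪ ({F.min' hne} ∪
          F'.filter fun s => EB Zw (ge N a.1 a.2) γ ψ M s) := by
      intro x hx
      obtain ⟨x1, x2⟩ := Finset.mem_filter.1 hx
      rw [Finset.mem_union, Finset.mem_union]
      by_cases x3 : x ∈ F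
      · right
        by_cases x4 : x = F.min' hne
        · left; exact Finset.mem_singleton.2 x4
        · right; exact Finset.mem_filter.2 ⟨Finset.mem_erase.2 ⟨x4, x3⟩, x2⟩
      · left; exact Finset.mem_filter.2 ⟨x1, x2, x3⟩
    have h4 := (Finset.card_le_card h3).trans ((Finset.card_union_le _ _).trans
      (Nat.add_le_add_left (Finset.card_union_le _ _) _))
    rw [Finset.card_singleton] at h4
    have h5 : (M.filter fun s => EB Zw (ge N a.1 a.2) γ ψ M s).card ≤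
        2 + (F'.filter fun s => EB Zw (ge N a.1 a.2) γ ψ M s).card := by omega
    exact_mod_cast h5
  have h2 : ∑ a : Fin N × Fin N, ((F'.filter fun s => EB Zw (ge N a.1 a.2) γ ψ M s).card : ℝ) =
      ∑ s ∈ F', ((Finset.univ.filter fun a : Fin N × Fin N => EB Zw (ge N a.1 a.2) γ ψ M s).card : ℝ) := by
    simp only [Finset.card_filter]
    push_cast
    exact Finset.sum_comm
  have h3 : ∑ s ∈ F', ((Finset.univ.filter fun a : Fin N × Fin N =>
      EB Zw (ge N a.1 a.2) γ ψ M s).card : ℝ) ≤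
      ∑ s ∈ F', (N ^ 2 * (205 * ll ψ M s ^ (-ε)) + 2 * N) := by
    refine Finset.sum_le_sum fun s hs => ?_
    obtain ⟨s1, s2, s3⟩ := mem_Ft.1 (Finset.mem_of_mem_erase hs)
    exact card_birth h hn hZ s1 s3 (h.ll_big hn hne hs) N
  have h4 : ∑ s ∈ F', ((N : ℝ) ^ 2 * (205 * ll ψ M s ^ (-ε)) + 2 * N) =
      (N : ℝ) ^ 2 * 205 * ∑ s ∈ F', ll ψ M s ^ (-ε) + F'.card * (2 * N) := by
    rw [Finset.sum_add_distrib, Finset.mul_sum, Finset.sum_const, nsmul_eq_mul]
    congr 1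
    exact Finset.sum_congr rfl fun s _ => by ring
  have h5 := h.tower hn hne
  have h6 : (F'.card : ℝ) ≤ M.card := by
    have : F'.card ≤ M.card := Finset.card_le_card fun x hx =>
      (mem_Ft.1 (Finset.mem_of_mem_erase hx)).1
    exact_mod_cast this
  have h7 : ∑ a : Fin N × Fin N, ((M.filter fun s => EB Zw (ge N a.1 a.2) γ ψ M s).card : ℝ) ≤
      2 * (N : ℝ) ^ 2 + ∑ a : Fin N × Fin N,
        ((F'.filter fun s => EB Zw (ge N a.1 a.2) γ ψ M s).card : ℝ) := by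
    refine (Finset.sum_le_sum fun a _ => h1 a).trans (le_of_eq ?_)
    rw [Finset.sum_add_distrib, Finset.sum_const, Finset.card_univ, Fintype.card_prod,
      Fintype.card_fin, nsmul_eq_mul]
    push_cast; ring
  rw [h2] at h7
  rw [h4] at h3
  have h8 : (N : ℝ) ^ 2 * 205 * ∑ s ∈ F', ll ψ M s ^ (-ε) ≤
      (N : ℝ) ^ 2 * 205 * (2 * Real.log p0 ^ (-ε)) :=
    mul_le_mul_of_nonneg_left h5 (by positivity)
  have h9 : (F'.card : ℝ) * (2 * N) ≤ M.card * (2 * N) :=
    mul_le_mul_of_nonneg_right h6 (by positivity)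
  linarith

end Crest.Agent.R4P.AvG32
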