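import Crest.Agent.R4P.AvB_32

/-!
R4 (S0004) with powers, helper32: **the deaths by accuracy near the threshold, averaged over the
exponents** (helper33 10296 (b), helper32 12322).

* `DD`, `ED`  : death by accuracy at the missing tie `s`; near the threshold;
* `dd_chg`    : between two deaths there is a change of the sticky label;
* `LC`        : the last change above a stage;
* `superthin` : below a super-thin stage (`log s < ll^(2ε)`) nothing is fat;
* `two`       : for ONE first exponent `u` at most two labels are in use in a gap of the fat tower;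
* `one_label` : one label: number of the grid points and stages in its zone;
* `gap`       : one gap of the tower;
* `deaths`    : the sum over the grid of the number of the near deaths.
-/

set_option autoImplicit false
set_option linter.unusedSectionVars false
set_option linter.unusedVariables false

namespace Crest.Agent.R4P.AvG32

open Crest.Agent.R4.LF363
open Crest.Agent.R4.W363 (lst lst_prod mem_lst)
open Crest.Agent.R4P.PosP33 Crest.Agent.R4P.LabD33
open Crest.Agent.R4P.StM6 (d5 d5_pos)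
open Crest.Agent.R4P.Bir30 (lst_mem lst_not_mem Few Qb Qb_le)

variable {e e' : UV} {γ ψ A C ε : ℝ} {b s s' t t' z p0 : ℕ} {σ τ ρ κ κ' μ : ℚ} {M : Finset ℕ}
  {Zw : ℝ → ℝ}

/-! ### deaths -/

/-- **death by accuracy** at the missing tie `s` -/
def DD (e : UV) (γ ψ : ℝ) (M : Finset ℕ) (s : ℕ) : Prop :=
  ∃ κ : ℚ, sla e γ ψ (lst M s) = some κ ∧ own e γ ψ (s :: lst M s) = none ∧
    ¬ acc e γ ψ (Pd M s) κ

/-- **death by accuracy near the threshold** at the missing tie `s` -/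
def ED (Zw : ℝ → ℝ) (e : UV) (γ ψ : ℝ) (M : Finset ℕ) (s : ℕ) : Prop :=
  ∃ κ : ℚ, sla e γ ψ (lst M s) = some κ ∧ own e γ ψ (s :: lst M s) = none ∧
    ¬ acc e γ ψ (Pd M s) κ ∧ NrQ e (Zw (Rd ψ M s)) γ ψ (Pd M s) κ

lemma ED.dd (h : ED Zw e γ ψ M s) : DD e γ ψ M s := by
  obtain ⟨κ, h1, h2, h3, -⟩ := h
  exact ⟨κ, h1, h2, h3⟩

/-- accuracy at a multiple -/
lemma acc_dvd {V : ℕ} (hV : 0 < V) (h : b ∣ V) (ha : acc e γ ψ V κ) : acc e γ ψ b κ := by
  obtain ⟨k, rfl⟩ := h
  rw [mul_comm] at ha hV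
  exact acc_anti (Nat.pos_of_mul_pos_right hV) ha

/-- **between two deaths there is a change of the sticky label** -/
lemma dd_chg (hM : ∀ x ∈ M, 0 < x) (h1 : DD e γ ψ M s) (h2 : DD e γ ψ M s') (hs : s ∈ M)
    (hlt : s' < s) : ∃ x ∈ M, s' < x ∧ x < s ∧ Chg e γ ψ M x := by
  by_contra hc
  push Not at hc
  obtain ⟨κ, k1, k2, k3⟩ := h1
  obtain ⟨κ', k4, -, -⟩ := h2
  have e1 := sl_const_of (e := e) (γ := γ) (ψ := ψ) hM (show s' ≤ s - 1 by omega)
    fun x hx h3 h4 => hc x hx h3 (by omega)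
  rw [lst_mem hs (hM s hs), sl_of_none k2] at e1
  obtain ⟨k5, -⟩ := sla_some.1 k1
  obtain ⟨k7, k8⟩ := sla_some.1 k4
  rw [k7, k5] at e1
  rw [Option.some.inj e1] at k8
  exact k3 (acc_dvd (lst_pos hM s') (Pd_dvd hs hlt) k8)

/-! ### the last change -/

/-- `t` is the last change above the stage `s` -/
structure LC (e : UV) (γ ψ : ℝ) (M : Finset ℕ) (s t : ℕ) : Prop where
  mem : t ∈ M
  lt : s < t
  chg : Chg e γ ψ M t
  last : ∀ x ∈ M, s < x → x < t → ¬ Chg e γ ψ M x

lemma exists_LC {x : ℕ} (hx : x ∈ M) (h1 : s < x) (h2 : Chg e γ ψ M x) :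
    ∃ t, LC e γ ψ M s t ∧ t ≤ x := by
  classical
  have hne : (M.filter fun x => s < x ∧ Chg e γ ψ M x).Nonempty :=
    ⟨x, Finset.mem_filter.2 ⟨hx, h1, h2⟩⟩
  obtain ⟨a1, a2, a3⟩ := Finset.mem_filter.1 ((M.filter fun x => s < x ∧ Chg e γ ψ M x).min'_mem hne)
  refine ⟨_, ⟨a1, a2, a3, fun y hy h3 h4 h5 => ?_⟩,
    Finset.min'_le (M.filter fun x => s < x ∧ Chg e γ ψ M x) x (Finset.mem_filter.2 ⟨hx, h1, h2⟩)⟩
  have := Finset.min'_le (M.filter fun x => s < x ∧ Chg e γ ψ M x) y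
    (Finset.mem_filter.2 ⟨hy, h3, h5⟩)
  omega

/-- the last change is not above a given change -/
lemma LC.le (h : LC e γ ψ M s t) {x : ℕ} (hx : x ∈ M) (h1 : s < x) (h2 : Chg e γ ψ M x) : t ≤ x := by
  by_contra hc
  exact h.last x hx h1 (by omega) h2

/-- the sticky label of the stage is the own label of the last change -/
lemma LC.own (hM : ∀ x ∈ M, 0 < x) (h : LC e γ ψ M s t) (hκ : sl e γ ψ (lst M s) = some κ) :
    LabD33.own e γ ψ (t :: lst M t) = some κ := by
  have h0 := hM t h.mem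
  obtain ⟨τ, k1, k2, -⟩ := h.chg.own
  have h1 := h.lt
  have e1 := sl_const_of (e := e) (γ := γ) (ψ := ψ) hM (show s ≤ t - 1 by omega)
    fun x hx h3 h4 => h.last x hx h3 (by omega)
  rw [lst_mem h.mem h0, k2, hκ] at e1
  rw [k1, e1]

/-- the radius at the last change -/
lemma LC.le10 (hM : ∀ x ∈ M, 0 < x) (h : LC e γ ψ M s t) : Rd ψ M t ≤ 1 / 10 := by
  obtain ⟨τ, k1, -, -⟩ := h.chg.own
  exact (own_spec (Pd_pos hM (hM t h.mem)) k1).2.1

/-! ### super-thin stages -/

lemma lst_split (hs : s ∈ M) (hps : b < s) : (lst M b).prod = Qb M b s * Pd M s := by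
  classical
  rw [Pd_eq hs (by omega), lst_prod, lst_prod]
  unfold Qb
  have e : M.filter (b < ·) = M.filter (fun x => b < x ∧ x < s) ∪ M.filter (s - 1 < ·) := by
    ext x
    simp only [Finset.mem_filter, Finset.mem_union]
    constructor
    · rintro ⟨h1, h2⟩
      rcases lt_or_ge x s with h | h
      · exact Or.inl ⟨h1, h2, h⟩
      · exact Or.inr ⟨h1, by omega⟩
    · rintro (⟨h1, h2, h3⟩ | ⟨h1, h2⟩)
      · exact ⟨h1, h2⟩
      · exact ⟨h1, by omega⟩
  rw [e, Finset.prod_union]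
  rw [Finset.disjoint_left]
  intro x hx hy
  rw [Finset.mem_filter] at hx hy
  omega

/-- **below a super-thin stage nothing is fat** -/
theorem FcP.superthin (h : FcP A C p0 γ ψ M) (hn : Nu A C ε p0) (hs : s ∈ M) (ht : t ∈ M)
    (hlt : t < s) (h10 : Rd ψ M s ≤ 1 / 10) (hst : Real.log s < ll ψ M s ^ (2 * ε))
    (hf : Real.log t ^ (-A) < Rd ψ M t) : False := by
  have hC := hn.C0
  have hA := hn.A0
  have hε := hn.ε0
  have hx2 := (h.lg hn hs).2
  have hx := (h.lg hn hs).1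
  have hlt2 := (h.lg hn ht).2
  set x : ℝ := Real.log s with hxd
  have hl0 : 0 ≤ ll ψ M s := by
    rw [ll_def]
    refine Real.log_nonneg ?_
    rw [le_div_iff₀ (h.Rpos hs)]
    linarith
  -- `x^(C+3) < ll s`
  have h1 : x ^ (C + 3) ≤ ll ψ M s := by
    have e1 : (ll ψ M s ^ (2 * ε)) ^ (1 / (2 * ε)) = ll ψ M s := by
      rw [← Real.rpow_mul hl0]
      have : 2 * ε * (1 / (2 * ε)) = 1 := by field_simp
      rw [this, Real.rpow_one]
    rw [← e1]
    calc x ^ (C + 3) ≤ x ^ (1 / (2 * ε)) := by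
          refine Real.rpow_le_rpow_of_exponent_le (by linarith) ?_
          rw [le_div_iff₀ (by positivity)]
          have := hn.εC
          linarith
      _ ≤ (ll ψ M s ^ (2 * ε)) ^ (1 / (2 * ε)) :=
          Real.rpow_le_rpow (by linarith) hst.le (by positivity)
  -- the product of the ties between
  have hs3 : 3 ≤ s := by
    have h5 := hn.three
    have h6 := h.mp s hs
    omega
  have ht0 := h.pos t ht
  have h2 := Qb_le (p := t - 1) h.pos h.few (h.mp s hs).le hs3
  have h3 : Pd M t = Qb M (t - 1) s * Pd M s := by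
    rw [Pd_eq ht ht0]; exact lst_split hs (by omega)
  have hQ0 : (0 : ℝ) < Qb M (t - 1) s := by
    exact_mod_cast Bir30.Qb_pos h.pos (t - 1) s
  have h4 : Real.log (Rd ψ M t) = Real.log (Qb M (t - 1) s) - ll ψ M s := by
    have e1 : Rd ψ M t = Qb M (t - 1) s * Rd ψ M s := by
      have e2 : ((Pd M t : ℕ) : ℝ) = Qb M (t - 1) s * (Pd M s : ℕ) := by
        rw [h3, Nat.cast_mul]
      show ((Pd M t : ℕ) : ℝ) * ψ = _ * (((Pd M s : ℕ) : ℝ) * ψ)
      rw [e2]; ring
    rw [e1, Real.log_mul hQ0.ne' (h.Rpos hs).ne', log_Rd]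
    ring
  have h5 : Real.log (Qb M (t - 1) s) ≤ x ^ (C + 2) := by
    have := Real.log_le_log hQ0 h2
    rwa [Real.log_exp] at this
  have h6 := Real.log_lt_log (Real.rpow_pos_of_pos (by linarith) _) hf
  rw [Real.log_rpow (by linarith), h4] at h6
  -- numbers
  have h7 : Real.log (Real.log t) ≤ Real.log x := by
    refine Real.log_le_log (by linarith) ?_
    exact Real.log_le_log (by exact_mod_cast ht0) (by exact_mod_cast hlt.le)
  have h8 := hn.xl x hx
  have h9 : A * Real.log x ≤ x := by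
    have hlx : 0 ≤ Real.log x := Real.log_nonneg (by linarith)
    have h10 : (1 : ℝ) ≤ 2 ^ (1 / ε) := Real.one_le_rpow (by norm_num) (by positivity)
    have h11 : 0 ≤ A * Real.log x := by positivity
    nlinarith
  have h12 : A * Real.log (Real.log t) ≤ A * Real.log x := mul_le_mul_of_nonneg_left h7 hA
  have h13 : x ≤ x ^ (C + 2) := by
    calc x = x ^ (1 : ℝ) := (Real.rpow_one x).symm
      _ ≤ x ^ (C + 2) := Real.rpow_le_rpow_of_exponent_le (by linarith) (by linarith)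
  have h14 : x ^ (C + 3) = x * x ^ (C + 2) := by
    rw [show C + 3 = 1 + (C + 2) by ring, Real.rpow_add (by linarith), Real.rpow_one]
  nlinarith

/-! ### two labels -/

lemma FcP.ll_nonneg (h : FcP A C p0 γ ψ M) (hs : s ∈ M) (h1 : Rd ψ M s ≤ 1 / 10) :
    0 ≤ ll ψ M s := by
  rw [ll_def]
  refine Real.log_nonneg ?_
  rw [le_div_iff₀ (h.Rpos hs)]
  linarith

/-- **for one first exponent at most two labels are in use in a gap of the tower**: the labels whose last
change is above the stage `z` of the tower are equal -/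
theorem FcP.two (h : FcP A C p0 γ ψ M) (hn : Nu A C ε p0) (hu : e.u = e'.u) (hz : z ∈ Ft A ψ M)
    (hsz : s < z) (hsz' : s' < z) (ht : LC e γ ψ M s t) (ht' : LC e' γ ψ M s' t')
    (hzt : z < t) (hzt' : z < t') (htt : t' ≤ t)
    (hκ : sla e γ ψ (lst M s) = some κ) (hκ' : sla e' γ ψ (lst M s') = some κ') : κ = κ' := by
  obtain ⟨z1, z2, z3⟩ := mem_Ft.1 hz
  have o := ht.own h.pos (sla_some.1 hκ).1
  have o' := ht'.own h.pos (sla_some.1 hκ').1
  rcases htt.eq_or_lt with rfl | hlt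
  · exact own_same (h.Ppos ht.mem) o o'
  have hnc : ¬ Chg e γ ψ M t' := ht.last t' ht'.mem (by omega) hlt
  have e1 : sl e γ ψ (lst M s) = sl e γ ψ (lst M t') :=
    sl_const_of h.pos (by omega) fun x hx h1 h2 => ht.last x hx h1 (by omega)
  have e2 : sl e γ ψ (t' :: lst M t') = some κ := by
    unfold Chg at hnc
    push Not at hnc
    rw [hnc, ← e1]; exact (sla_some.1 hκ).1
  cases ho : LabD33.own e γ ψ (t' :: lst M t') with
  | some ρ =>
    rw [sl_of_own ho] at e2
    rw [Option.some.inj e2] at ho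
    exact own_same (h.Ppos ht'.mem) ho o'
  | none =>
    exfalso
    have hP' := h.Ppos ht'.mem
    have hPz := h.Ppos z1
    obtain ⟨g0, g1, g2, g3⟩ := own_spec hP' o'
    have hna : ¬ acc e γ ψ (Pd M t') κ' := by
      intro ha
      have h1 : LabD33.own e γ ψ (t' :: lst M t') = some κ' :=
        own_of (e := e) hP' g0 g1 (by rw [hu]; exact g2) ha
      rw [ho] at h1
      exact absurd h1 (by simp)
    have hne := ne_of_not_acc g0.le hna
    rw [acc_log hP' g0 hne] at hna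
    push Not at hna
    have ha' : acc e' γ ψ (Pd M z) κ' :=
      acc_dvd (lst_pos h.pos s') (Pd_dvd z1 hsz') (sla_some.1 hκ').2
    rw [acc_log hPz g0 hne] at ha'
    have l1 : 0 ≤ ll ψ M t' := h.ll_nonneg ht'.mem g1
    have l2 : 0 ≤ ll ψ M z := h.ll_nonneg z1 z3
    have h1 : ll ψ M t' ≤ (1 + 4 * e.v) * ll ψ M t' := by nlinarith [e.v0]
    have h2 : (1 + 4 * e'.v) * ll ψ M z ≤ 6 / 5 * ll ψ M z :=
      mul_le_mul_of_nonneg_right (by linarith [e'.v1]) l2
    have h3 := h.ll_ge z1 ht'.mem hzt' z3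
    have h4 := h.ll_fat hn z1 z2
    have h5 := hn.xl _ (h.lg hn z1).1
    have h6 : (1 : ℝ) ≤ 2 ^ (1 / ε) := Real.one_le_rpow (by norm_num) (by have := hn.ε0; positivity)
    have h7 : 0 ≤ A * Real.log (Real.log z) := by linarith
    have h8 : 4 * (A * Real.log (Real.log z)) ≤ Real.log z := by nlinarith
    have h9 : ll ψ M t' < 6 / 5 * ll ψ M z := by
      change (1 + 4 * e.v) * ll ψ M t' < _ at hna
      change _ ≤ (1 + 4 * e'.v) * ll ψ M z at ha'
      linarith
    linarith [(h.lg hn z1).2]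

/-! ### one label -/

open Classical in
/-- **one label in one gap**: number of the grid points and stages in its zone -/
theorem FcP.one_label (h : FcP A C p0 γ ψ M) (hn : Nu A C ε p0) (hZ : ZwOK Zw ε) {S : Finset ℕ}
    {l₀ X : ℝ} (hl₀ : Real.log p0 ≤ l₀) (hS : ∀ s ∈ S, s ∈ M ∧ l₀ ≤ ll ψ M s ∧ Rd ψ M s ≤ 1 / 10 ∧
      ll ψ M s ^ (2 * ε) ≤ Real.log s) (N : ℕ) {T : Finset (Fin N × ℕ)}
    (hT : ∀ a ∈ T, a.2 ∈ S ∧ (1 + 4 * ((a.1 : ℝ) / (20 * N))) * ll ψ M a.2 ≤ X ∧
      X ≤ (1 + 4 * ((a.1 : ℝ) / (20 * N))) * ll ψ M a.2 + cw (Zw (Rd ψ M a.2))) :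
    (T.card : ℝ) ≤ N * (130 * l₀ ^ (-ε)) + S.card := by
  have hε := hn.ε0
  have hε2 := hn.ε2
  have hl₀2 : 2 ≤ l₀ := hn.log2.trans hl₀
  have hN0 : (0 : ℝ) ≤ N := Nat.cast_nonneg _
  have hl₀p : 0 ≤ l₀ ^ (-ε) := Real.rpow_nonneg (by linarith) _
  -- the stages of `T`
  set S' := T.image Prod.snd with hS'
  have hSS : S' ⊆ S := by
    intro s hs
    obtain ⟨a, ha, rfl⟩ := Finset.mem_image.1 hs
    exact (hT a ha).1
  rcases S'.eq_empty_or_nonempty with hE | hne
  · have : T = ∅ := by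
      rw [hS', Finset.image_eq_empty] at hE
      exact hE
    rw [this]
    simp only [Finset.card_empty, Nat.cast_zero]
    positivity
  -- the facts of a stage
  have cwl : ∀ s ∈ S, cw (Zw (Rd ψ M s)) ≤ 13 * ll ψ M s ^ ε ∧ 2 ≤ ll ψ M s ∧
      13 * ll ψ M s ^ ε ≤ 1 / 20 * ll ψ M s := by
    intro s hs
    obtain ⟨s1, s2, s3, -⟩ := hS s hs
    have h2 : 2 ≤ ll ψ M s := hl₀2.trans s2
    have h3 := hn.xe _ (hl₀.trans s2)
    exact ⟨cw_le (hZ.one _) (by linarith) hε (hZ.small _ (h.Rpos s1) s3), h2, by linarith⟩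
  have win : ∀ s ∈ S', ll ψ M s ≤ X ∧ 4 / 5 * X ≤ ll ψ M s := by
    intro s hs
    have hsS := hSS hs
    obtain ⟨a, ha, rfl⟩ := Finset.mem_image.1 hs
    obtain ⟨-, a1, a2⟩ := hT a ha
    obtain ⟨c1, c2, c3⟩ := cwl _ hsS
    obtain ⟨g1, g2⟩ := grid_le a.1
    constructor
    · nlinarith
    · have : (1 + 4 * ((a.1 : ℝ) / (20 * N))) * ll ψ M a.2 ≤ 6 / 5 * ll ψ M a.2 :=
        mul_le_mul_of_nonneg_right (by linarith) (by linarith)
      linarith
  -- fibres
  have fib : ∀ s ∈ S', ((T.filter fun a => a.2 = s).card : ℝ) ≤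
      N * (65 * (ll ψ M s ^ ε / ll ψ M s)) + 1 := by
    intro s hs
    have hsS := hSS hs
    obtain ⟨c1, c2, c3⟩ := cwl _ hsS
    set V := Finset.univ.filter fun j : Fin N =>
      X - cw (Zw (Rd ψ M s)) ≤ (1 + 4 * ((j : ℝ) / (20 * N))) * ll ψ M s ∧
        (1 + 4 * ((j : ℝ) / (20 * N))) * ll ψ M s ≤
          X - cw (Zw (Rd ψ M s)) + cw (Zw (Rd ψ M s)) with hV
    have h1 : (T.filter fun a => a.2 = s).card ≤ V.card := by
      refine Finset.card_le_card_of_injOn (fun a => a.1) (fun a ha => ?_) ?_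
      · obtain ⟨a1, a2⟩ := Finset.mem_filter.1 ha
        subst a2
        obtain ⟨-, b1, b2⟩ := hT a a1
        exact Finset.mem_coe.2 (Finset.mem_filter.2 ⟨Finset.mem_univ _, by linarith, by linarith⟩)
      · intro a ha c hc hac
        have a2 := (Finset.mem_filter.1 ha).2
        have c2 := (Finset.mem_filter.1 hc).2
        exact Prod.ext hac (a2.trans c2.symm)
    have h2 := card_v V (l := ll ψ M s) (x := X - cw (Zw (Rd ψ M s))) (c := cw (Zw (Rd ψ M s)))
      (by linarith) (cw_nonneg (hZ.one _)) fun j hj => (Finset.mem_filter.1 hj).2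
    have h3 : ((T.filter fun a => a.2 = s).card : ℝ) ≤ V.card := by exact_mod_cast h1
    refine (h3.trans h2).trans ?_
    have h4 : 5 * N * cw (Zw (Rd ψ M s)) / ll ψ M s ≤ 5 * N * (13 * ll ψ M s ^ ε) / ll ψ M s := by
      refine div_le_div_of_nonneg_right ?_ (by linarith)
      exact mul_le_mul_of_nonneg_left c1 (by positivity)
    have h5 : 5 * N * (13 * ll ψ M s ^ ε) / ll ψ M s = N * (65 * (ll ψ M s ^ ε / ll ψ M s)) := by
      ring
    linarith
  have hcard : (T.card : ℝ) = ∑ s ∈ S', ((T.filter fun a => a.2 = s).card : ℝ) := by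
    rw [Finset.card_eq_sum_card_image Prod.snd T]
    push_cast
    rfl
  -- the sum over the stages
  have hX : l₀ ≤ X := by
    obtain ⟨s, hs⟩ := hne
    exact (hS s (hSS hs)).2.1.trans (win s hs).1
  have hX0 : 0 < 4 / 5 * X := by linarith
  have key : ∑ s ∈ S', (ll ψ M s ^ ε / ll ψ M s) ≤ 2 * l₀ ^ (-ε) := by
    set m := S'.max' hne with hm
    have hm' : m ∈ S' := S'.max'_mem hne
    rw [← Finset.add_sum_erase S' _ hm']
    have t1 : ll ψ M m ^ ε / ll ψ M m ≤ l₀ ^ (-ε) := by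
      have h1 := (hS m (hSS hm')).2.1
      have h2 : 0 < ll ψ M m := by linarith
      rw [div_le_iff₀ h2]
      have e1 : ll ψ M m ^ (-ε) * ll ψ M m = ll ψ M m ^ (1 - ε) := by
        nth_rewrite 2 [← Real.rpow_one (ll ψ M m)]
        rw [← Real.rpow_add h2]; congr 1; ring
      calc ll ψ M m ^ ε ≤ ll ψ M m ^ (1 - ε) :=
            Real.rpow_le_rpow_of_exponent_le (by linarith) (by linarith)
        _ = ll ψ M m ^ (-ε) * ll ψ M m := e1.symm
        _ ≤ l₀ ^ (-ε) * ll ψ M m := mul_le_mul_of_nonneg_right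
            (Real.rpow_le_rpow_of_nonpos (by linarith) h1 (by linarith)) h2.le
    have t2 : ∑ s ∈ S'.erase m, (ll ψ M s ^ ε / ll ψ M s) ≤
        (4 / 5 * X) ^ (-1 - ε) * ∑ s ∈ S'.erase m, Real.log s := by
      rw [Finset.mul_sum]
      refine Finset.sum_le_sum fun s hs => ?_
      have hs' := Finset.mem_of_mem_erase hs
      obtain ⟨s1, s2, s3, s4⟩ := hS s (hSS hs')
      have h2 : 0 < ll ψ M s := by linarith
      have e1 : ll ψ M s ^ ε / ll ψ M s = ll ψ M s ^ (-1 - ε) * ll ψ M s ^ (2 * ε) := by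
        rw [← Real.rpow_add h2, div_eq_mul_inv, ← Real.rpow_neg_one, ← Real.rpow_add h2]
        congr 1; ring
      rw [e1]
      refine mul_le_mul ?_ s4 (Real.rpow_nonneg h2.le _) (Real.rpow_nonneg hX0.le _)
      exact Real.rpow_le_rpow_of_nonpos hX0 (win s hs').2 (by linarith)
    have t3 := tele_lo (fun s => Real.log s) (fun s => ll ψ M s) S' hne fun a ha c hc hac => by
      have a1 := (hS a (hSS ha)).1
      have c1 := (hS c (hSS hc)).1
      exact ll_step h.pos h.ψ0 (h.pos a a1) c1 hac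
    have t4 : ∑ s ∈ S'.erase m, Real.log s ≤ 1 / 5 * X := by
      refine t3.trans ?_
      have := (win _ hm').1
      have := (win _ (S'.min'_mem hne)).2
      linarith
    have t5 : (4 / 5 * X) ^ (-1 - ε) * ∑ s ∈ S'.erase m, Real.log s ≤ 1 / 2 * l₀ ^ (-ε) := by
      calc (4 / 5 * X) ^ (-1 - ε) * ∑ s ∈ S'.erase m, Real.log s ≤
            (4 / 5 * X) ^ (-1 - ε) * (1 / 5 * X) :=
            mul_le_mul_of_nonneg_left t4 (Real.rpow_nonneg hX0.le _)
        _ = 1 / 4 * (4 / 5 * X) ^ (-ε) := by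
            have e1 : (4 / 5 * X) ^ (-1 - ε) * (4 / 5 * X) = (4 / 5 * X) ^ (-ε) := by
              nth_rewrite 2 [← Real.rpow_one (4 / 5 * X)]
              rw [← Real.rpow_add hX0]; congr 1; ring
            rw [← e1]; ring
        _ ≤ 1 / 4 * (2 * l₀ ^ (-ε)) := by
            refine mul_le_mul_of_nonneg_left ?_ (by norm_num)
            calc (4 / 5 * X) ^ (-ε) ≤ (4 / 5 * l₀) ^ (-ε) :=
                  Real.rpow_le_rpow_of_nonpos (by linarith) (by linarith) (by linarith)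
              _ = (4 / 5) ^ (-ε) * l₀ ^ (-ε) := Real.mul_rpow (by norm_num) (by linarith)
              _ ≤ 2 * l₀ ^ (-ε) := by
                  refine mul_le_mul_of_nonneg_right ?_ hl₀p
                  calc (4 / 5 : ℝ) ^ (-ε) ≤ (4 / 5 : ℝ) ^ (-1 : ℝ) :=
                        Real.rpow_le_rpow_of_exponent_ge (by norm_num) (by norm_num) (by linarith)
                    _ ≤ 2 := by rw [Real.rpow_neg_one]; norm_num
        _ = 1 / 2 * l₀ ^ (-ε) := by ring
    linarith
  rw [hcard]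
  calc ∑ s ∈ S', ((T.filter fun a => a.2 = s).card : ℝ) ≤
        ∑ s ∈ S', (N * (65 * (ll ψ M s ^ ε / ll ψ M s)) + 1) := Finset.sum_le_sum fib
    _ = N * 65 * ∑ s ∈ S', (ll ψ M s ^ ε / ll ψ M s) + S'.card := by
        rw [Finset.sum_add_distrib, Finset.mul_sum, Finset.sum_const, nsmul_eq_mul, mul_one]
        congr 1
        exact Finset.sum_congr rfl fun s _ => by ring
    _ ≤ N * 65 * (2 * l₀ ^ (-ε)) + S.card := by
        refine add_le_add (mul_le_mul_of_nonneg_left key (by positivity)) ?_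
        exact_mod_cast Finset.card_le_card hSS
    _ = N * (130 * l₀ ^ (-ε)) + S.card := by ring

end Crest.Agent.R4P.AvG32
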