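import Crest.Agent.R4P.LabD_33
import Crest.Agent.R4P.Bir_30

/-!
R4 (S0004) with powers, helper32: **tools for the average over the exponents** (helper32 10435 (B)).

* `own_mono`, `own_same` : permissive labels are monotone in the exponents; the labels of one stage are
  the same rational for all exponents;
* `Xk`, `ell`, `acc_log`, `nr_log`, `zone_log`, `den_log` : the accuracy and its zones in logarithms:
  `acc e γ ψ b κ ↔ 5 log (|γ - κ| / ψ) ≤ (1 + 4 v) log (1 / (b ψ))`;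
* `ge N i j` : the grid of exponents `(i / (20 N), j / (20 N))`, `card_v`, `card_u` : number of grid points
  in a window;
* `tele_hi`, `tele_lo` : telescoping sums over a finite set of natural numbers;
* `Pd`, `Rd`, `ll` : product, radius, `log (1 / R)` of the stage below a missing tie, `ll_step`;
* `Chg`, `sl_const_of` : changes of the sticky label.
-/

set_option autoImplicit false
set_option linter.unusedSectionVars false
set_option linter.unusedVariables false

namespace Crest.Agent.R4P.AvG32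

open Crest.Agent.R4.LF363
open Crest.Agent.R4.W363 (lst lst_prod mem_lst)
open Crest.Agent.R4P.PosP33 Crest.Agent.R4P.LabD33
open Crest.Agent.R4P.StM6 (d5 d5_pos)
open Crest.Agent.R4P.Bir30 (lst_mem lst_not_mem)

variable {e e' : UV} {γ ψ : ℝ} {b s : ℕ} {σ τ ρ κ μ : ℚ} {L : List ℕ}

/-! ### monotonicity in the exponents -/

/-- the largest exponents -/
noncomputable def eM : UV := ⟨1 / 20, 1 / 20, by norm_num, le_rfl, by norm_num, le_rfl⟩

lemma acc_mono (hb : 0 < b) (hψ : 0 < ψ) (h1 : b * ψ ≤ 1) (hv : e.v ≤ e'.v)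
    (h : acc e γ ψ b τ) : acc e' γ ψ b τ := by
  have hb' : (0 : ℝ) < b := by exact_mod_cast hb
  rw [← near_iff hb hψ.le] at h ⊢
  exact h.trans (Real.rpow_le_rpow_of_exponent_ge (mul_pos hb' hψ) h1 (by linarith))

/-- the labels are monotone in the exponents -/
lemma own_mono (hL : 0 < L.prod) (hu : e.u ≤ e'.u) (hv : e.v ≤ e'.v)
    (h : own e γ ψ L = some τ) : own e' γ ψ L = some τ := by
  obtain ⟨h0, h1, h2, h3⟩ := own_spec hL h
  have hb' : (0 : ℝ) < L.prod := by exact_mod_cast hL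
  refine own_of hL h0 h1 (le_trans ?_ h2) (acc_mono hL h0 (by linarith) hv h3)
  refine mul_le_mul_of_nonneg_left ?_ (d5_pos _ _).le
  exact Real.rpow_le_rpow_of_exponent_ge (mul_pos hb' h0) (by linarith) (by linarith)

lemma own_max (hL : 0 < L.prod) (h : own e γ ψ L = some τ) : own eM γ ψ L = some τ :=
  own_mono hL e.u1 e.v1 h

/-- **the labels of one stage are equal for all exponents** -/
lemma own_same (hL : 0 < L.prod) (h : own e γ ψ L = some τ) (h' : own e' γ ψ L = some σ) : τ = σ := by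
  have h1 := own_max hL h
  rw [own_max hL h'] at h1
  exact (Option.some.inj h1).symm

/-! ### logarithms -/

/-- the accuracy number `5 log (|γ - κ| / ψ)` -/
noncomputable def Xk (γ ψ : ℝ) (κ : ℚ) : ℝ := 5 * Real.log (|γ - κ| / ψ)

/-- `log (1 / (b ψ))` -/
noncomputable def ell (ψ : ℝ) (b : ℕ) : ℝ := Real.log (1 / (b * ψ))

lemma ell_eq (hb : 0 < b) (hψ : 0 < ψ) : ell ψ b = -(Real.log b + Real.log ψ) := by
  have hb' : (0 : ℝ) < b := by exact_mod_cast hb
  unfold ell
  rw [one_div, Real.log_inv, Real.log_mul hb'.ne' hψ.ne']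

lemma Xk_eq (hψ : 0 < ψ) (hne : γ ≠ κ) : Xk γ ψ κ = 5 * (Real.log |γ - κ| - Real.log ψ) := by
  unfold Xk
  rw [Real.log_div (abs_pos.2 (sub_ne_zero.2 hne)).ne' hψ.ne']

lemma log_lhs (hb : 0 < b) (hne : γ ≠ κ) : 0 < (b : ℝ) ^ (1 + 4 * e.v) * |γ - κ| ^ 5 ∧
    Real.log ((b : ℝ) ^ (1 + 4 * e.v) * |γ - κ| ^ 5) =
      (1 + 4 * e.v) * Real.log b + 5 * Real.log |γ - κ| := by
  have hb' : (0 : ℝ) < b := by exact_mod_cast hb
  have h1 : 0 < |γ - κ| := abs_pos.2 (sub_ne_zero.2 hne)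
  have h2 : 0 < (b : ℝ) ^ (1 + 4 * e.v) := Real.rpow_pos_of_pos hb' _
  refine ⟨by positivity, ?_⟩
  rw [Real.log_mul h2.ne' (by positivity), Real.log_rpow hb', Real.log_pow]
  push_cast; ring

/-- **accuracy in logarithms** -/
lemma acc_log (hb : 0 < b) (hψ : 0 < ψ) (hne : γ ≠ κ) :
    acc e γ ψ b κ ↔ Xk γ ψ κ ≤ (1 + 4 * e.v) * ell ψ b := by
  obtain ⟨h1, h2⟩ := log_lhs (e := e) hb hne
  rw [ell_eq hb hψ, Xk_eq hψ hne]
  unfold acc
  rw [← Real.log_le_log_iff h1 (Real.rpow_pos_of_pos hψ _), h2, Real.log_rpow hψ]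
  constructor <;> intro h <;> linarith

lemma ne_of_not_acc (hψ : 0 ≤ ψ) (h : ¬ acc e γ ψ b κ) : γ ≠ κ := by
  rintro rfl
  refine h ?_
  unfold acc
  rw [sub_self, abs_zero]
  have : 0 ≤ ψ ^ (4 * (1 - e.v)) := Real.rpow_nonneg hψ _
  simpa using this

/-- **the accuracy is near its threshold** -/
def NrQ (e : UV) (Z γ ψ : ℝ) (b : ℕ) (κ : ℚ) : Prop :=
  (b : ℝ) ^ (1 + 4 * e.v) * |γ - κ| ^ 5 ≤ 32 * Z ^ 9 * ψ ^ (4 * (1 - e.v))

/-- the logarithmic width of the zones of the accuracy -/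
noncomputable def cw (Z : ℝ) : ℝ := Real.log 32 + 9 * Real.log Z

lemma cw_nonneg {Z : ℝ} (hZ : 1 ≤ Z) : 0 ≤ cw Z := by
  have := Real.log_nonneg hZ
  have := Real.log_nonneg (show (1 : ℝ) ≤ 32 by norm_num)
  unfold cw; linarith

lemma nr_log {Z : ℝ} (hZ : 1 ≤ Z) (hb : 0 < b) (hψ : 0 < ψ) (hne : γ ≠ κ)
    (h : NrQ e Z γ ψ b κ) : Xk γ ψ κ ≤ (1 + 4 * e.v) * ell ψ b + cw Z := by
  obtain ⟨h1, h2⟩ := log_lhs (e := e) hb hne
  have hp : 0 < ψ ^ (4 * (1 - e.v)) := Real.rpow_pos_of_pos hψ _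
  have hZ9 : 0 < Z ^ 9 := by positivity
  unfold NrQ at h
  have h3 := Real.log_le_log h1 h
  rw [h2, Real.log_mul (by positivity) hp.ne', Real.log_mul (by norm_num) hZ9.ne', Real.log_rpow hψ,
    Real.log_pow] at h3
  rw [ell_eq hb hψ, Xk_eq hψ hne]
  unfold cw
  push_cast at h3
  linarith

/-- **the zone of the accuracy of a label, in logarithms** -/
lemma zone_log {Z : ℝ} (hZ : 1 ≤ Z) (hb : 0 < b) (hψ : 0 < ψ)
    (h : ((b : ℝ) * ψ) ^ (4 * (1 - e.v)) < 32 * Z ^ 9 * |(b : ℝ) * γ - ((b * κ : ℚ) : ℝ)| ^ 5) :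
    γ ≠ κ ∧ (1 + 4 * e.v) * ell ψ b < Xk γ ψ κ + cw Z := by
  have hb' : (0 : ℝ) < b := by exact_mod_cast hb
  have hR : 0 < ((b : ℝ) * ψ) ^ (4 * (1 - e.v)) := Real.rpow_pos_of_pos (mul_pos hb' hψ) _
  have e0 : |(b : ℝ) * γ - ((b * κ : ℚ) : ℝ)| = b * |γ - κ| := by
    have e0 : (b : ℝ) * γ - ((b * κ : ℚ) : ℝ) = b * (γ - κ) := by push_cast; ring
    rw [e0, abs_mul, Nat.abs_cast]
  rw [e0] at h
  have hne : γ ≠ κ := by
    rintro rfl
    rw [sub_self, abs_zero] at h
    norm_num at h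
    linarith
  have hg : 0 < |γ - κ| := abs_pos.2 (sub_ne_zero.2 hne)
  refine ⟨hne, ?_⟩
  have h3 := Real.log_lt_log hR h
  rw [Real.log_rpow (mul_pos hb' hψ), Real.log_mul hb'.ne' hψ.ne', Real.log_mul (by positivity)
    (by positivity), Real.log_mul (by norm_num) (by positivity), Real.log_pow, Real.log_pow,
    Real.log_mul hb'.ne' hg.ne'] at h3
  rw [ell_eq hb hψ, Xk_eq hψ hne]
  unfold cw
  push_cast at h3
  linarith

/-- the denominator of a label, in logarithms -/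
lemma den_log {k : ℕ} (hk : 0 < k) (hb : 0 < b) (hψ : 0 < ψ)
    (h : (k : ℝ) ^ 5 * (b * ψ) ^ (1 + e.u) ≤ 1) : 5 * Real.log k ≤ (1 + e.u) * ell ψ b := by
  have hb' : (0 : ℝ) < b := by exact_mod_cast hb
  have hk' : (0 : ℝ) < k := by exact_mod_cast hk
  have hR : 0 < ((b : ℝ) * ψ) ^ (1 + e.u) := Real.rpow_pos_of_pos (mul_pos hb' hψ) _
  have h3 := Real.log_le_log (by positivity) h
  rw [Real.log_one, Real.log_mul (by positivity) hR.ne', Real.log_pow,
    Real.log_rpow (mul_pos hb' hψ), Real.log_mul hb'.ne' hψ.ne'] at h3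
  rw [ell_eq hb hψ]
  push_cast at h3
  linarith

/-- the zone of the denominator, in logarithms -/
lemma den_zone_log {k : ℕ} {Z : ℝ} (hZ : 1 ≤ Z) (hk : 0 < k) (hb : 0 < b) (hψ : 0 < ψ)
    (h : 1 < Z ^ 7 * ((k : ℝ) ^ 5 * (b * ψ) ^ (1 + e.u))) :
    (1 + e.u) * ell ψ b < 5 * Real.log k + 7 * Real.log Z := by
  have hb' : (0 : ℝ) < b := by exact_mod_cast hb
  have hk' : (0 : ℝ) < k := by exact_mod_cast hk
  have hR : 0 < ((b : ℝ) * ψ) ^ (1 + e.u) := Real.rpow_pos_of_pos (mul_pos hb' hψ) _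
  have h3 := Real.log_lt_log one_pos h
  rw [Real.log_one, Real.log_mul (by positivity) (by positivity), Real.log_mul (by positivity) hR.ne',
    Real.log_pow, Real.log_pow, Real.log_rpow (mul_pos hb' hψ), Real.log_mul hb'.ne' hψ.ne'] at h3
  rw [ell_eq hb hψ]
  push_cast at h3
  linarith

/-! ### the grid -/

lemma grid_le {N : ℕ} (i : Fin N) : 0 ≤ (i : ℝ) / (20 * N) ∧ (i : ℝ) / (20 * N) ≤ 1 / 20 := by
  have hN : 0 < N := Fin.pos i
  have hN' : (0 : ℝ) < N := by exact_mod_cast hN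
  have hi : ((i : ℕ) : ℝ) ≤ N := by exact_mod_cast i.2.le
  refine ⟨by positivity, ?_⟩
  rw [div_le_div_iff₀ (by positivity) (by norm_num)]
  linarith

/-- **the grid of exponents** -/
noncomputable def ge (N : ℕ) (i j : Fin N) : UV where
  u := (i : ℝ) / (20 * N)
  v := (j : ℝ) / (20 * N)
  u0 := (grid_le i).1
  u1 := (grid_le i).2
  v0 := (grid_le j).1
  v1 := (grid_le j).2

/-- points of an arithmetic progression in a window -/
lemma cnt_win {N : ℕ} (S : Finset (Fin N)) {δ w : ℝ} (hδ : 0 < δ) (hw : 0 ≤ w)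
    (h : ∀ i ∈ S, ∀ j ∈ S, ((j : ℝ) - i) * δ ≤ w) : (S.card : ℝ) ≤ w / δ + 1 := by
  rcases S.eq_empty_or_nonempty with rfl | hne
  · simp only [Finset.card_empty, Nat.cast_zero]
    positivity
  have h1 : S ⊆ Finset.Icc (S.min' hne) (S.max' hne) := fun x hx =>
    Finset.mem_Icc.2 ⟨S.min'_le x hx, S.le_max' x hx⟩
  have h2 := Finset.card_le_card h1
  rw [Fin.card_Icc] at h2
  have h3 := h _ (S.min'_mem hne) _ (S.max'_mem hne)
  have h4 : (S.min' hne : ℕ) ≤ (S.max' hne : ℕ) := S.min'_le _ (S.max'_mem hne)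
  have h5 : (S.card : ℝ) ≤ ((S.max' hne : ℕ) : ℝ) - ((S.min' hne : ℕ) : ℝ) + 1 := by
    have h6 : (S.card : ℝ) ≤ (((S.max' hne : ℕ) + 1 - (S.min' hne : ℕ) : ℕ) : ℝ) := by
      exact_mod_cast h2
    rw [Nat.cast_sub (by omega)] at h6
    push_cast at h6
    linarith
  have h7 : ((S.max' hne : ℕ) : ℝ) - ((S.min' hne : ℕ) : ℝ) ≤ w / δ := by
    rw [le_div_iff₀ hδ]; exact h3
  linarith

/-- **the second exponent in a window** -/
lemma card_v {N : ℕ} (S : Finset (Fin N)) {l x c : ℝ} (hl : 0 < l) (hc : 0 ≤ c)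
    (h : ∀ j ∈ S, x ≤ (1 + 4 * ((j : ℝ) / (20 * N))) * l ∧
      (1 + 4 * ((j : ℝ) / (20 * N))) * l ≤ x + c) : (S.card : ℝ) ≤ 5 * N * c / l + 1 := by
  rcases S.eq_empty_or_nonempty with rfl | ⟨j₀, hj₀⟩
  · simp only [Finset.card_empty, Nat.cast_zero]
    positivity
  have hN : (0 : ℝ) < N := by exact_mod_cast Fin.pos j₀
  have h1 := cnt_win S (δ := l / (5 * N)) (w := c) (by positivity) hc fun i hi j hj => by
    have a1 := (h i hi).1
    have a2 := (h j hj).2
    have e1 : ((j : ℝ) - i) * (l / (5 * N)) =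
        (1 + 4 * ((j : ℝ) / (20 * N))) * l - (1 + 4 * ((i : ℝ) / (20 * N))) * l := by
      field_simp
      ring
    rw [e1]; linarith
  refine h1.trans (le_of_eq ?_)
  field_simp

/-- **the first exponent in a window** -/
lemma card_u {N : ℕ} (S : Finset (Fin N)) {l x c : ℝ} (hl : 0 < l) (hc : 0 ≤ c)
    (h : ∀ i ∈ S, x ≤ (1 + (i : ℝ) / (20 * N)) * l ∧
      (1 + (i : ℝ) / (20 * N)) * l ≤ x + c) : (S.card : ℝ) ≤ 20 * N * c / l + 1 := by
  rcases S.eq_empty_or_nonempty with rfl | ⟨j₀, hj₀⟩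
  · simp only [Finset.card_empty, Nat.cast_zero]
    positivity
  have hN : (0 : ℝ) < N := by exact_mod_cast Fin.pos j₀
  have h1 := cnt_win S (δ := l / (20 * N)) (w := c) (by positivity) hc fun i hi j hj => by
    have a1 := (h i hi).1
    have a2 := (h j hj).2
    have e1 : ((j : ℝ) - i) * (l / (20 * N)) =
        (1 + (j : ℝ) / (20 * N)) * l - (1 + (i : ℝ) / (20 * N)) * l := by
      field_simp
      ring
    rw [e1]; linarith
  refine h1.trans (le_of_eq ?_)
  field_simp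

/-! ### telescoping sums -/

/-- `f b ≤ φ a - φ b` for `a < b` ==> the sum of `f` without the smallest element is `≤ φ min - φ max` -/
lemma tele_hi (f φ : ℕ → ℝ) (S : Finset ℕ) (hne : S.Nonempty)
    (h : ∀ a ∈ S, ∀ b ∈ S, a < b → f b ≤ φ a - φ b) :
    ∑ s ∈ S.erase (S.min' hne), f s ≤ φ (S.min' hne) - φ (S.max' hne) := by
  classical
  induction S using Finset.induction_on_max with
  | empty => exact absurd hne (by simp)
  | insert b S hb ih =>
    rcases S.eq_empty_or_nonempty with rfl | hS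
    · simp
    have hbS : b ∉ S := fun h => lt_irrefl _ (hb b h)
    have e1 : (insert b S).min' hne = S.min' hS := by
      refine le_antisymm (Finset.min'_le _ _ (Finset.mem_insert_of_mem (S.min'_mem hS))) ?_
      refine Finset.le_min' _ _ _ fun y hy => ?_
      rcases Finset.mem_insert.1 hy with rfl | hy
      · exact (hb _ (S.min'_mem hS)).le
      · exact S.min'_le y hy
    have e2 : (insert b S).max' hne = b := by
      refine le_antisymm ?_ (Finset.le_max' _ _ (Finset.mem_insert_self _ _))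
      refine Finset.max'_le _ _ _ fun y hy => ?_
      rcases Finset.mem_insert.1 hy with rfl | hy
      · exact le_rfl
      · exact (hb y hy).le
    rw [e1, e2]
    have hm : S.min' hS ≠ b := fun h => hbS (h ▸ S.min'_mem hS)
    have e3 : (insert b S).erase (S.min' hS) = insert b (S.erase (S.min' hS)) := by
      rw [Finset.erase_insert_of_ne hm.symm]
    rw [e3, Finset.sum_insert (fun h => hbS (Finset.mem_of_mem_erase h))]
    have h1 := ih hS fun a ha c hc hac => h a (Finset.mem_insert_of_mem ha) c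
      (Finset.mem_insert_of_mem hc) hac
    have h2 := h (S.max' hS) (Finset.mem_insert_of_mem (S.max'_mem hS)) b
      (Finset.mem_insert_self _ _) (hb _ (S.max'_mem hS))
    linarith

/-- `f a ≤ φ b - φ a` for `a < b` ==> the sum of `f` without the largest element is `≤ φ max - φ min` -/
lemma tele_lo (f φ : ℕ → ℝ) (S : Finset ℕ) (hne : S.Nonempty)
    (h : ∀ a ∈ S, ∀ b ∈ S, a < b → f a ≤ φ b - φ a) :
    ∑ s ∈ S.erase (S.max' hne), f s ≤ φ (S.max' hne) - φ (S.min' hne) := by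
  classical
  induction S using Finset.induction_on_max with
  | empty => exact absurd hne (by simp)
  | insert b S hb ih =>
    rcases S.eq_empty_or_nonempty with rfl | hS
    · simp
    have hbS : b ∉ S := fun h => lt_irrefl _ (hb b h)
    have e1 : (insert b S).min' hne = S.min' hS := by
      refine le_antisymm (Finset.min'_le _ _ (Finset.mem_insert_of_mem (S.min'_mem hS))) ?_
      refine Finset.le_min' _ _ _ fun y hy => ?_
      rcases Finset.mem_insert.1 hy with rfl | hy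
      · exact (hb _ (S.min'_mem hS)).le
      · exact S.min'_le y hy
    have e2 : (insert b S).max' hne = b := by
      refine le_antisymm ?_ (Finset.le_max' _ _ (Finset.mem_insert_self _ _))
      refine Finset.max'_le _ _ _ fun y hy => ?_
      rcases Finset.mem_insert.1 hy with rfl | hy
      · exact le_rfl
      · exact (hb y hy).le
    rw [e1, e2, Finset.erase_insert hbS]
    have h1 := ih hS fun a ha c hc hac => h a (Finset.mem_insert_of_mem ha) c
      (Finset.mem_insert_of_mem hc) hac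
    have h2 := h (S.max' hS) (Finset.mem_insert_of_mem (S.max'_mem hS)) b
      (Finset.mem_insert_self _ _) (hb _ (S.max'_mem hS))
    have h3 := Finset.add_sum_erase S f (S.max'_mem hS)
    linarith

/-! ### stages -/

variable {M : Finset ℕ}

/-- product of the stage below the missing tie `s` -/
noncomputable abbrev Pd (M : Finset ℕ) (s : ℕ) : ℕ := (s :: lst M s).prod

/-- radius of the stage below the missing tie `s` -/
noncomputable abbrev Rd (ψ : ℝ) (M : Finset ℕ) (s : ℕ) : ℝ := (Pd M s : ℝ) * ψ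

/-- `log (1 / R)` of the stage below the missing tie `s` -/
noncomputable abbrev ll (ψ : ℝ) (M : Finset ℕ) (s : ℕ) : ℝ := ell ψ (Pd M s)

lemma lst_pos (hM : ∀ x ∈ M, 0 < x) (p : ℕ) : 0 < (lst M p).prod :=
  List.prod_pos fun x hx => hM x (mem_lst.1 hx).1

lemma Pd_pos (hM : ∀ x ∈ M, 0 < x) {s : ℕ} (hs : 0 < s) : 0 < Pd M s := by
  show 0 < (s :: lst M s).prod
  rw [List.prod_cons]; exact Nat.mul_pos hs (lst_pos hM s)

/-- the products grow downwards -/
lemma lst_dvd {a b : ℕ} (h : a ≤ b) : (lst M b).prod ∣ (lst M a).prod := by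
  rw [lst_prod, lst_prod]
  exact Finset.prod_dvd_prod_of_subset _ _ _ fun x hx => by
    rw [Finset.mem_filter] at hx ⊢
    exact ⟨hx.1, lt_of_le_of_lt h hx.2⟩

lemma Pd_eq {t : ℕ} (ht : t ∈ M) (h0 : 0 < t) : Pd M t = (lst M (t - 1)).prod := by
  rw [lst_mem ht h0]

/-- the stage below `t` divides every later stage -/
lemma Pd_dvd {s t : ℕ} (ht : t ∈ M) (h : s < t) : Pd M t ∣ (lst M s).prod := by
  rw [Pd_eq ht (by omega)]
  exact lst_dvd (by omega)

lemma Rd_step (hM : ∀ x ∈ M, 0 < x) (hψ : 0 < ψ) {s t : ℕ} (ht : t ∈ M) (h : s < t) :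
    (s : ℝ) * Rd ψ M t ≤ Rd ψ M s := by
  have h1 : Pd M t ≤ (lst M s).prod := Nat.le_of_dvd (lst_pos hM s) (Pd_dvd ht h)
  have h2 : s * Pd M t ≤ Pd M s := by
    show s * Pd M t ≤ (s :: lst M s).prod
    rw [List.prod_cons]
    exact Nat.mul_le_mul_left s h1
  have h3 : (s : ℝ) * Pd M t ≤ Pd M s := by exact_mod_cast h2
  unfold Rd
  rw [← mul_assoc]
  exact mul_le_mul_of_nonneg_right h3 hψ.le

lemma Rd_pos (hM : ∀ x ∈ M, 0 < x) (hψ : 0 < ψ) {s : ℕ} (hs : 0 < s) : 0 < Rd ψ M s :=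
  mul_pos (by exact_mod_cast Pd_pos hM hs) hψ

lemma ll_def (ψ : ℝ) (M : Finset ℕ) (s : ℕ) : ll ψ M s = Real.log (1 / Rd ψ M s) := rfl

lemma log_Rd (ψ : ℝ) (M : Finset ℕ) (s : ℕ) : Real.log (Rd ψ M s) = -ll ψ M s := by
  rw [ll_def, one_div, Real.log_inv]; ring

/-- **one tie**: `log (1 / R)` drops by at least `log s` -/
lemma ll_step (hM : ∀ x ∈ M, 0 < x) (hψ : 0 < ψ) {s t : ℕ} (hs : 0 < s) (ht : t ∈ M) (h : s < t) :
    Real.log s ≤ ll ψ M t - ll ψ M s := by
  have h1 := Rd_step hM hψ ht h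
  have h2 := Rd_pos hM hψ (hM t ht)
  have hs' : (0 : ℝ) < s := by exact_mod_cast hs
  have h3 := Real.log_le_log (mul_pos hs' h2) h1
  rw [Real.log_mul hs'.ne' h2.ne', log_Rd, log_Rd] at h3
  linarith

/-! ### changes of the sticky label -/

/-- the sticky label changes at the missing tie `x` -/
def Chg (e : UV) (γ ψ : ℝ) (M : Finset ℕ) (x : ℕ) : Prop :=
  sl e γ ψ (x :: lst M x) ≠ sl e γ ψ (lst M x)

/-- at a change there is a new own label -/
lemma Chg.own {x : ℕ} (h : Chg e γ ψ M x) : ∃ τ, own e γ ψ (x :: lst M x) = some τ ∧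
    sl e γ ψ (x :: lst M x) = some τ ∧ sl e γ ψ (lst M x) ≠ some τ := by
  cases h1 : LabD33.own e γ ψ (x :: lst M x) with
  | none => exact absurd (sl_of_none h1) h
  | some τ =>
    refine ⟨τ, rfl, sl_of_own h1, fun h2 => h ?_⟩
    rw [h2, sl_of_own h1]

/-- **no change between two columns: the sticky label is constant** -/
lemma sl_const_of (hM : ∀ x ∈ M, 0 < x) {a : ℕ} : ∀ {b : ℕ}, a ≤ b →
    (∀ x ∈ M, a < x → x ≤ b → ¬ Chg e γ ψ M x) → sl e γ ψ (lst M a) = sl e γ ψ (lst M b) := by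
  intro b h
  induction b, h using Nat.le_induction with
  | base => intro _; rfl
  | succ b hab ih =>
    intro hn
    have h1 := ih fun x hx h1 h2 => hn x hx h1 (by omega)
    rw [h1]
    by_cases hm : (b + 1) ∈ M
    · have h2 := hn (b + 1) hm (by omega) le_rfl
      unfold Chg at h2
      push Not at h2
      have h3 := lst_mem hm (Nat.succ_pos b)
      rw [Nat.succ_sub_one] at h3
      rw [h3, h2]
    · have h3 := lst_not_mem hm (Nat.succ_pos b)
      rw [Nat.succ_sub_one] at h3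
      rw [h3]

end Crest.Agent.R4P.AvG32
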