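import Crest.Agent.R4P.AvD_32

/-!
R4 (S0004) with powers, helper32: **the payable events of an item, averaged over the exponents**: births in
their zones, deaths by accuracy near the threshold, events of size.

* `gap`    : near deaths in one gap of the fat tower, for one first exponent;
* `deaths` : `∑ over the grid #{near deaths} ≤ N² (6 + 520 (log p0)^(-ε)) + 2 N #M`;
* `SE`     : events of size (`r₀ < R`): at most two per item and `e`;
* `EV`     : all events; `events` : the sum over the grid;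
* `avg_events` : **the average number of events of an item is at most `12`**, eventually in `p0`.
-/

set_option autoImplicit false
set_option linter.unusedSectionVars false
set_option linter.unusedVariables false

namespace Crest.Agent.R4P.AvG32

open Crest.Agent.R4.LF363
open Crest.Agent.R4.W363 (lst lst_prod mem_lst)
open Crest.Agent.R4P.PosP33 Crest.Agent.R4P.LabD33
open Crest.Agent.R4P.StM6 (d5 d5_pos)
open Crest.Agent.R4P.Bir30 (lst_mem lst_not_mem Few Qb Qb_le)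

variable {e e' : UV} {γ ψ A C ε : ℝ} {b s s' t t' y z p0 : ℕ} {σ τ ρ κ κ' μ : ℚ} {M F : Finset ℕ}
  {Zw : ℝ → ℝ}

/-! ### gaps of the tower -/

/-- the stage of the tower at or below the stage `s` -/
def gp (F : Finset ℕ) (s : ℕ) : ℕ := (F.filter (· ≤ s)).sup id

lemma gp_mem (h : (F.filter (· ≤ s)).Nonempty) : gp F s ∈ F ∧ gp F s ≤ s := by
  obtain ⟨x, hx, e⟩ := Finset.exists_mem_eq_sup _ h id
  unfold gp
  rw [e]
  exact Finset.mem_filter.1 hx

lemma le_gp {x : ℕ} (hx : x ∈ F) (h : x ≤ s) : x ≤ gp F s :=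
  Finset.le_sup (f := id) (Finset.mem_filter.2 ⟨hx, h⟩)

lemma gp_le (hF : ∀ x ∈ F, 0 < x) (hy : y ∈ F) (h : gp F s = y) : y ≤ s := by
  have h1 : (F.filter (· ≤ s)).Nonempty := by
    by_contra hc
    rw [Finset.not_nonempty_iff_eq_empty] at hc
    unfold gp at h
    rw [hc, Finset.sup_empty] at h
    have := hF y hy
    rw [← h] at this
    exact lt_irrefl _ this
  rw [← h]; exact (gp_mem h1).2

/-- the main case of a near death -/
structure Mn (Zw : ℝ → ℝ) (A ε : ℝ) (e : UV) (γ ψ : ℝ) (M : Finset ℕ) (s : ℕ) : Prop where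
  ed : ED Zw e γ ψ M s
  fat : ∃ t, LC e γ ψ M s t ∧ t ∈ Ft A ψ M
  le : Rd ψ M s ≤ 1 / 10
  nst : ll ψ M s ^ (2 * ε) ≤ Real.log s

open Classical in
/-- the stages of the gap `y` -/
noncomputable def Sy (A ε ψ : ℝ) (M : Finset ℕ) (y : ℕ) : Finset ℕ :=
  M.filter fun s => gp (Ft A ψ M) s = y ∧ Rd ψ M s ≤ 1 / 10 ∧ ll ψ M s ^ (2 * ε) ≤ Real.log s

open Classical in
/-- **near deaths in one gap of the tower**, for one first exponent -/
theorem FcP.gap (h : FcP A C p0 γ ψ M) (hn : Nu A C ε p0) (hZ : ZwOK Zw ε)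
    (hne : (Ft A ψ M).Nonempty) (hy : y ∈ (Ft A ψ M).erase ((Ft A ψ M).min' hne)) (N : ℕ)
    (i : Fin N) :
    (((Finset.univ ×ˢ Sy A ε ψ M y).filter fun a : Fin N × ℕ =>
      Mn Zw A ε (ge N i a.1) γ ψ M a.2).card : ℝ) ≤
      N * (260 * ll ψ M y ^ (-ε)) + 2 * (Sy A ε ψ M y).card := by
  set F := Ft A ψ M with hF
  set S := Sy A ε ψ M y with hS
  set T := (Finset.univ ×ˢ S).filter fun a : Fin N × ℕ => Mn Zw A ε (ge N i a.1) γ ψ M a.2 with hT
  have hyF : y ∈ F := Finset.mem_of_mem_erase hy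
  obtain ⟨y1, y2, y3⟩ := mem_Ft.1 hyF
  have hly := h.ll_big hn hne hy
  have hly2 : 2 ≤ ll ψ M y := hn.log2.trans hly
  have hFp : ∀ x ∈ F, 0 < x := fun x hx => h.pos x (mem_Ft.1 hx).1
  have hlp : 0 ≤ ll ψ M y ^ (-ε) := Real.rpow_nonneg (by linarith) _
  -- stages of the gap
  have hSs : ∀ s ∈ S, s ∈ M ∧ ll ψ M y ≤ ll ψ M s ∧ Rd ψ M s ≤ 1 / 10 ∧
      ll ψ M s ^ (2 * ε) ≤ Real.log s := by
    intro s hs
    obtain ⟨s1, s2, s3, s4⟩ := Finset.mem_filter.1 hs
    refine ⟨s1, ?_, s3, s4⟩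
    rcases (gp_le hFp hyF s2).eq_or_lt with h1 | h1
    · rw [h1]
    · have h2 := ll_step h.pos h.ψ0 (h.pos y y1) s1 h1
      have h3 := (h.lg hn y1).2
      linarith
  have hSF : ∀ s ∈ S, ∀ t ∈ F, s < t → y < t := fun s hs t ht h1 =>
    lt_of_le_of_lt (gp_le hFp hyF (Finset.mem_filter.1 hs).2.1) h1
  have hFS : ∀ s ∈ S, ∀ t ∈ F, y < t → s < t := by
    intro s hs t ht h1
    by_contra hc
    push Not at hc
    have h2 := le_gp ht hc
    rw [(Finset.mem_filter.1 hs).2.1] at h2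
    omega
  rcases (F.filter (y < ·)).eq_empty_or_nonempty with hE | hE
  · -- the last stage of the tower: no fat change above
    have : T = ∅ := by
      rw [Finset.eq_empty_iff_forall_notMem]
      intro a ha
      obtain ⟨a1, a2⟩ := Finset.mem_filter.1 ha
      obtain ⟨-, a3⟩ := Finset.mem_product.1 a1
      obtain ⟨t, ht, htF⟩ := a2.fat
      have h1 : t ∈ F.filter (y < ·) := Finset.mem_filter.2 ⟨htF, hSF _ a3 t htF ht.lt⟩
      rw [hE] at h1
      exact absurd h1 (by simp)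
    rw [this]
    simp only [Finset.card_empty, Nat.cast_zero]
    positivity
  set z := (F.filter (y < ·)).min' hE with hz
  obtain ⟨zF, hyz⟩ := Finset.mem_filter.1 ((F.filter (y < ·)).min'_mem hE)
  have hzt : ∀ s ∈ S, ∀ t ∈ F, s < t → z ≤ t := fun s hs t ht h1 =>
    Finset.min'_le _ _ (Finset.mem_filter.2 ⟨ht, hSF s hs t ht h1⟩)
  -- the zone of a label
  have zone : ∀ a ∈ T, ∀ κ : ℚ, sla (ge N i a.1) γ ψ (lst M a.2) = some κ →
      (1 + 4 * ((a.1 : ℝ) / (20 * N))) * ll ψ M a.2 ≤ Xk γ ψ κ ∧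
      Xk γ ψ κ ≤ (1 + 4 * ((a.1 : ℝ) / (20 * N))) * ll ψ M a.2 + cw (Zw (Rd ψ M a.2)) := by
    intro a ha κ hκ
    obtain ⟨a1, a2⟩ := Finset.mem_filter.1 ha
    obtain ⟨-, a3⟩ := Finset.mem_product.1 a1
    obtain ⟨κ', k1, -, k3, k4⟩ := a2.ed
    rw [hκ] at k1
    have ek : κ = κ' := Option.some.inj k1
    subst ek
    have hne' := ne_of_not_acc h.ψ0.le k3
    have hP := h.Ppos (hSs _ a3).1
    rw [acc_log hP h.ψ0 hne'] at k3
    push Not at k3
    exact ⟨k3.le, nr_log (hZ.one _) hP h.ψ0 hne' k4⟩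
  -- a set with one label
  have one : ∀ T' ⊆ T, (∀ a ∈ T', ∀ b ∈ T', ∀ κ κ' : ℚ, sla (ge N i a.1) γ ψ (lst M a.2) = some κ →
      sla (ge N i b.1) γ ψ (lst M b.2) = some κ' → κ = κ') →
      (T'.card : ℝ) ≤ N * (130 * ll ψ M y ^ (-ε)) + S.card := by
    intro T' hT' heq
    rcases T'.eq_empty_or_nonempty with hE' | ⟨a₀, ha₀⟩
    · rw [hE']
      simp only [Finset.card_empty, Nat.cast_zero]
      positivity
    obtain ⟨κ, k1, -⟩ := (Finset.mem_filter.1 (hT' ha₀)).2.ed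
    refine h.one_label hn hZ hly hSs N (X := Xk γ ψ κ) fun a ha => ?_
    obtain ⟨κ', k1', -⟩ := (Finset.mem_filter.1 (hT' ha)).2.ed
    have ek := heq _ ha₀ _ ha _ _ k1 k1'
    subst ek
    refine ⟨?_, zone a (hT' ha) _ k1'⟩
    exact (Finset.mem_product.1 (Finset.mem_filter.1 (hT' ha)).1).2
  set T₁ := T.filter fun a => ∃ t, LC (ge N i a.1) γ ψ M a.2 t ∧ t ∈ F ∧ z < t with hT₁
  set T₂ := T.filter fun a => LC (ge N i a.1) γ ψ M a.2 z with hT₂
  have hsub : T ⊆ T₁ ∪ T₂ := by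
    intro a ha
    obtain ⟨a1, a2⟩ := Finset.mem_filter.1 ha
    obtain ⟨-, a3⟩ := Finset.mem_product.1 a1
    obtain ⟨t, ht, htF⟩ := a2.fat
    have h1 := hzt _ a3 t htF ht.lt
    rw [Finset.mem_union]
    rcases h1.eq_or_lt with h2 | h2
    · right
      refine Finset.mem_filter.2 ⟨ha, ?_⟩
      have e1 : z = t := h2
      rw [e1]; exact ht
    · left
      exact Finset.mem_filter.2 ⟨ha, t, ht, htF, h2⟩
  have c1 := one T₁ (Finset.filter_subset _ _) (by
    intro a ha b hb κ κ' hκ hκ'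
    obtain ⟨a1, t, a2, a3, a4⟩ := Finset.mem_filter.1 ha
    obtain ⟨b1, t', b2, b3, b4⟩ := Finset.mem_filter.1 hb
    have sa := (Finset.mem_product.1 (Finset.mem_filter.1 a1).1).2
    have sb := (Finset.mem_product.1 (Finset.mem_filter.1 b1).1).2
    have za := hFS _ sa z zF hyz
    have zb := hFS _ sb z zF hyz
    rcases le_total t' t with h1 | h1
    · exact h.two (e := ge N i a.1) (e' := ge N i b.1) hn rfl zF za zb a2 b2 a4 b4 h1 hκ hκ'
    · exact (h.two (e := ge N i b.1) (e' := ge N i a.1) hn rfl zF zb za b2 a2 b4 a4 h1 hκ' hκ).symm)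
  have c2 := one T₂ (Finset.filter_subset _ _) (by
    intro a ha b hb κ κ' hκ hκ'
    obtain ⟨a1, a2⟩ := Finset.mem_filter.1 ha
    obtain ⟨b1, b2⟩ := Finset.mem_filter.1 hb
    exact own_same (h.Ppos (mem_Ft.1 zF).1) (a2.own h.pos (sla_some.1 hκ).1)
      (b2.own h.pos (sla_some.1 hκ').1))
  have c3 : (T.card : ℝ) ≤ T₁.card + T₂.card := by
    exact_mod_cast (Finset.card_le_card hsub).trans (Finset.card_union_le _ _)
  linarith

open Classical in
/-- **the near deaths of the main case**, for one first exponent -/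
theorem FcP.mains (h : FcP A C p0 γ ψ M) (hn : Nu A C ε p0) (hZ : ZwOK Zw ε)
    (hne : (Ft A ψ M).Nonempty) (N : ℕ) (i : Fin N) :
    ∑ j : Fin N, ((M.filter fun s => Mn Zw A ε (ge N i j) γ ψ M s ∧
      gp (Ft A ψ M) s ∈ (Ft A ψ M).erase ((Ft A ψ M).min' hne)).card : ℝ) ≤
      N * (520 * Real.log p0 ^ (-ε)) + 2 * M.card := by
  set F := Ft A ψ M with hF
  set F' := F.erase (F.min' hne) with hF'
  set W := (Finset.univ ×ˢ M).filter fun a : Fin N × ℕ =>
    Mn Zw A ε (ge N i a.1) γ ψ M a.2 ∧ gp F a.2 ∈ F' with hW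
  have e1 : ∑ j : Fin N, ((M.filter fun s => Mn Zw A ε (ge N i j) γ ψ M s ∧ gp F s ∈ F').card : ℝ) =
      W.card := by
    rw [hW, Finset.card_filter, Finset.sum_product]
    push_cast
    refine Finset.sum_congr rfl fun j _ => ?_
    rw [Finset.card_filter]
    push_cast
    rfl
  rw [e1]
  have e2 : W.card = ∑ y ∈ F', (W.filter fun a => gp F a.2 = y).card :=
    Finset.card_eq_sum_card_fiberwise fun a ha => (Finset.mem_filter.1 ha).2.2
  have e3 : ∀ y ∈ F', ((W.filter fun a => gp F a.2 = y).card : ℝ) ≤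
      N * (260 * ll ψ M y ^ (-ε)) + 2 * (M.filter fun s => gp F s = y).card := by
    intro y hy
    have h1 := h.gap hn hZ hne hy N i
    have h2 : (W.filter fun a => gp F a.2 = y) ⊆ (Finset.univ ×ˢ Sy A ε ψ M y).filter fun a =>
        Mn Zw A ε (ge N i a.1) γ ψ M a.2 := by
      intro a ha
      obtain ⟨a1, a2⟩ := Finset.mem_filter.1 ha
      obtain ⟨a3, a4, a5⟩ := Finset.mem_filter.1 a1
      refine Finset.mem_filter.2 ⟨Finset.mem_product.2 ⟨Finset.mem_univ _, Finset.mem_filter.2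
        ⟨(Finset.mem_product.1 a3).2, a2, a4.le, a4.nst⟩⟩, a4⟩
    have h3 : ((W.filter fun a => gp F a.2 = y).card : ℝ) ≤
        (((Finset.univ ×ˢ Sy A ε ψ M y).filter fun a : Fin N × ℕ =>
          Mn Zw A ε (ge N i a.1) γ ψ M a.2).card : ℝ) := by
      exact_mod_cast Finset.card_le_card h2
    have h4 : ((Sy A ε ψ M y).card : ℝ) ≤ (M.filter fun s => gp F s = y).card := by
      have : (Sy A ε ψ M y).card ≤ (M.filter fun s => gp F s = y).card :=
        Finset.card_le_card fun s hs => by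
          obtain ⟨s1, s2, -⟩ := Finset.mem_filter.1 hs
          exact Finset.mem_filter.2 ⟨s1, s2⟩
      exact_mod_cast this
    linarith
  have e4 : ∑ y ∈ F', ((M.filter fun s => gp F s = y).card : ℝ) ≤ M.card := by
    have h1 : (M.filter fun s => gp F s ∈ F').card =
        ∑ y ∈ F', ((M.filter fun s => gp F s ∈ F').filter fun s => gp F s = y).card :=
      Finset.card_eq_sum_card_fiberwise fun a ha => (Finset.mem_filter.1 ha).2
    have h2 : ∑ y ∈ F', (M.filter fun s => gp F s = y).card ≤ M.card := by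
      calc ∑ y ∈ F', (M.filter fun s => gp F s = y).card =
            ∑ y ∈ F', ((M.filter fun s => gp F s ∈ F').filter fun s => gp F s = y).card := by
            refine Finset.sum_congr rfl fun y hy => ?_
            congr 1
            ext s
            rw [Finset.mem_filter, Finset.mem_filter, Finset.mem_filter]
            constructor
            · rintro ⟨s1, s2⟩
              exact ⟨⟨s1, by rw [s2]; exact hy⟩, s2⟩
            · rintro ⟨⟨s1, -⟩, s2⟩
              exact ⟨s1, s2⟩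
        _ = (M.filter fun s => gp F s ∈ F').card := h1.symm
        _ ≤ M.card := Finset.card_le_card (Finset.filter_subset _ _)
    exact_mod_cast h2
  have e5 := h.tower hn hne
  have hN : (0 : ℝ) ≤ N := Nat.cast_nonneg _
  calc (W.card : ℝ) = ∑ y ∈ F', ((W.filter fun a => gp F a.2 = y).card : ℝ) := by
        rw [e2]; push_cast; rfl
    _ ≤ ∑ y ∈ F', (N * (260 * ll ψ M y ^ (-ε)) + 2 * ((M.filter fun s => gp F s = y).card : ℝ)) :=
        Finset.sum_le_sum e3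
    _ = N * 260 * ∑ y ∈ F', ll ψ M y ^ (-ε) +
        2 * ∑ y ∈ F', ((M.filter fun s => gp F s = y).card : ℝ) := by
        rw [Finset.sum_add_distrib, Finset.mul_sum, Finset.mul_sum]
        congr 1
        exact Finset.sum_congr rfl fun s _ => by ring
    _ ≤ N * 260 * (2 * Real.log p0 ^ (-ε)) + 2 * M.card :=
        add_le_add (mul_le_mul_of_nonneg_left e5 (by positivity)) (by linarith)
    _ = N * (520 * Real.log p0 ^ (-ε)) + 2 * M.card := by ring

/-! ### the exceptional deaths -/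

lemma card_one {P : ℕ → Prop} [DecidablePred P]
    (h : ∀ a ∈ M, ∀ b ∈ M, b < a → P a → P b → False) : (M.filter P).card ≤ 1 := by
  rw [Finset.card_le_one]
  intro a ha b hb
  obtain ⟨a1, a2⟩ := Finset.mem_filter.1 ha
  obtain ⟨b1, b2⟩ := Finset.mem_filter.1 hb
  rcases lt_trichotomy a b with h1 | h1 | h1
  · exact (h b b1 a a1 h1 b2 a2).elim
  · exact h1
  · exact (h a a1 b b1 h1 a2 b2).elim

open Classical in
/-- **one `e`**: the near deaths outside of the main case are at most six -/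
theorem FcP.deaths_one (h : FcP A C p0 γ ψ M) (hn : Nu A C ε p0) (e : UV) :
    (M.filter fun s => ED Zw e γ ψ M s).card ≤ 6 + (M.filter fun s => Mn Zw A ε e γ ψ M s ∧
      ∃ hne : (Ft A ψ M).Nonempty, gp (Ft A ψ M) s ∈ (Ft A ψ M).erase ((Ft A ψ M).min' hne)).card := by
  set F := Ft A ψ M with hF
  have hFp : ∀ x ∈ F, 0 < x := fun x hx => h.pos x (mem_Ft.1 hx).1
  have thin : ∀ {s t : ℕ}, LC e γ ψ M s t → t ∉ F → Rd ψ M t ≤ Real.log t ^ (-A) := by
    intro s t ht h1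
    by_contra h2
    push Not at h2
    exact h1 (mem_Ft.2 ⟨ht.mem, h2, ht.le10 h.pos⟩)
  have p3 : ∀ {a b : ℕ}, a ∈ M → b < a → ED Zw e γ ψ M a → ED Zw e γ ψ M b →
      (∃ t, LC e γ ψ M b t ∧ t ∈ F) → ∃ t ∈ F, b < t ∧ t < a := by
    intro a b ha hba h1 h2 h3
    obtain ⟨t, ht, htF⟩ := h3
    obtain ⟨x, x1, x2, x3, x4⟩ := dd_chg h.pos h1.dd h2.dd ha hba
    exact ⟨t, htF, ht.lt, lt_of_le_of_lt (ht.le x1 x2 x4) x3⟩
  -- the classes
  have c1 : (M.filter fun s => ED Zw e γ ψ M s ∧ ¬ ∃ x ∈ M, s < x ∧ Chg e γ ψ M x).card ≤ 1 := by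
    refine card_one fun a ha b hb hab h1 h2 => ?_
    obtain ⟨x, x1, x2, x3, x4⟩ := dd_chg h.pos h1.1.dd h2.1.dd ha hab
    exact h2.2 ⟨x, x1, x2, x4⟩
  have c2 : (M.filter fun s => ED Zw e γ ψ M s ∧ ∃ t, LC e γ ψ M s t ∧ t ∉ F).card ≤ 1 := by
    refine card_one fun a ha b hb hab h1 h2 => ?_
    obtain ⟨h1, t, t1, t2⟩ := h1
    obtain ⟨h2, t', t1', t2'⟩ := h2
    obtain ⟨x, x1, x2, x3, x4⟩ := dd_chg h.pos h1.dd h2.dd ha hab
    have h3 := t1'.le x1 x2 x4
    have h4 := h.one e t1.mem t1'.mem (thin t1 t2) (thin t1' t2') t1.chg t1'.chg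
    have h5 := t1.lt
    omega
  have c3 : (M.filter fun s => ED Zw e γ ψ M s ∧ (∃ t, LC e γ ψ M s t ∧ t ∈ F) ∧
      Rd ψ M s ≤ 1 / 10 ∧ Real.log s < ll ψ M s ^ (2 * ε)).card ≤ 1 := by
    refine card_one fun a ha b hb hab h1 h2 => ?_
    obtain ⟨t, t1, t2, t3⟩ := p3 ha hab h1.1 h2.1 h2.2.1
    obtain ⟨k1, k2, -⟩ := mem_Ft.1 t1
    exact h.superthin hn ha k1 t3 h1.2.2.1 h1.2.2.2 k2
  have c4 : (M.filter fun s => ED Zw e γ ψ M s ∧ (∃ t, LC e γ ψ M s t ∧ t ∈ F) ∧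
      1 / 10 < Rd ψ M s).card ≤ 1 := by
    refine card_one fun a ha b hb hab h1 h2 => ?_
    obtain ⟨t, t1, t2, t3⟩ := p3 ha hab h1.1 h2.1 h2.2.1
    obtain ⟨k1, -, k2⟩ := mem_Ft.1 t1
    have h3 := Rd_step h.pos h.ψ0 ha t3
    have h4 : (1 : ℝ) ≤ t := by exact_mod_cast h.pos t k1
    have h5 := h1.2.2
    nlinarith
  have c5 : (M.filter fun s => ED Zw e γ ψ M s ∧ (∃ t, LC e γ ψ M s t ∧ t ∈ F) ∧
      ¬ (F.filter (· ≤ s)).Nonempty).card ≤ 1 := by
    refine card_one fun a ha b hb hab h1 h2 => ?_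
    obtain ⟨t, t1, t2, t3⟩ := p3 ha hab h1.1 h2.1 h2.2.1
    exact h1.2.2 ⟨t, Finset.mem_filter.2 ⟨t1, t3.le⟩⟩
  have c6 : (M.filter fun s => ED Zw e γ ψ M s ∧ (∃ t, LC e γ ψ M s t ∧ t ∈ F) ∧
      ∃ hne : F.Nonempty, gp F s = F.min' hne).card ≤ 1 := by
    refine card_one fun a ha b hb hab h1 h2 => ?_
    obtain ⟨t, t1, t2, t3⟩ := p3 ha hab h1.1 h2.1 h2.2.1
    obtain ⟨h1, -, hne, h4⟩ := h1
    obtain ⟨h2, -, hne', h5⟩ := h2
    have h6 := le_gp t1 t3.le
    have h7 := gp_le hFp (F.min'_mem hne) h5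
    omega
  -- the cover
  have hsub : (M.filter fun s => ED Zw e γ ψ M s) ⊆
      (M.filter fun s => ED Zw e γ ψ M s ∧ ¬ ∃ x ∈ M, s < x ∧ Chg e γ ψ M x) ∪
      ((M.filter fun s => ED Zw e γ ψ M s ∧ ∃ t, LC e γ ψ M s t ∧ t ∉ F) ∪
      ((M.filter fun s => ED Zw e γ ψ M s ∧ (∃ t, LC e γ ψ M s t ∧ t ∈ F) ∧
        Rd ψ M s ≤ 1 / 10 ∧ Real.log s < ll ψ M s ^ (2 * ε)) ∪
      ((M.filter fun s => ED Zw e γ ψ M s ∧ (∃ t, LC e γ ψ M s t ∧ t ∈ F) ∧
        1 / 10 < Rd ψ M s) ∪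
      ((M.filter fun s => ED Zw e γ ψ M s ∧ (∃ t, LC e γ ψ M s t ∧ t ∈ F) ∧
        ¬ (F.filter (· ≤ s)).Nonempty) ∪
      ((M.filter fun s => ED Zw e γ ψ M s ∧ (∃ t, LC e γ ψ M s t ∧ t ∈ F) ∧
        ∃ hne : F.Nonempty, gp F s = F.min' hne) ∪
      (M.filter fun s => Mn Zw A ε e γ ψ M s ∧
        ∃ hne : F.Nonempty, gp F s ∈ F.erase (F.min' hne))))))) := by
    intro s hs
    obtain ⟨s1, s2⟩ := Finset.mem_filter.1 hs
    simp only [Finset.mem_union, Finset.mem_filter, s1, s2, true_and]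
    by_cases k1 : ∃ x ∈ M, s < x ∧ Chg e γ ψ M x
    swap
    · exact Or.inl k1
    right
    obtain ⟨x, x1, x2, x3⟩ := k1
    obtain ⟨t, ht, -⟩ := exists_LC x1 x2 x3
    by_cases k2 : t ∈ F
    swap
    · exact Or.inl ⟨t, ht, k2⟩
    right
    have k2' : ∃ t, LC e γ ψ M s t ∧ t ∈ F := ⟨t, ht, k2⟩
    rcases lt_or_ge (1 / 10) (Rd ψ M s) with k3 | k3
    · exact Or.inr (Or.inl ⟨k2', k3⟩)
    rcases lt_or_ge (Real.log s) (ll ψ M s ^ (2 * ε)) with k4 | k4
    · exact Or.inl ⟨k2', k3, k4⟩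
    right; right
    by_cases k5 : (F.filter (· ≤ s)).Nonempty
    swap
    · exact Or.inl ⟨k2', k5⟩
    right
    have hne : F.Nonempty := ⟨t, k2⟩
    by_cases k6 : gp F s = F.min' hne
    · exact Or.inl ⟨k2', hne, k6⟩
    · exact Or.inr ⟨⟨s2, k2', k3, k4⟩, hne, Finset.mem_erase.2 ⟨k6, (gp_mem k5).1⟩⟩
  have h7 := Finset.card_le_card hsub
  refine h7.trans ((Finset.card_union_le _ _).trans ?_)
  refine (add_le_add c1 ((Finset.card_union_le _ _).trans (add_le_add c2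
    ((Finset.card_union_le _ _).trans (add_le_add c3 ((Finset.card_union_le _ _).trans
    (add_le_add c4 ((Finset.card_union_le _ _).trans (add_le_add c5
    ((Finset.card_union_le _ _).trans (add_le_add c6 le_rfl))))))))))).trans ?_
  omega

open Classical in
/-- **the near deaths, summed over the grid** -/
theorem deaths (h : FcP A C p0 γ ψ M) (hn : Nu A C ε p0) (hZ : ZwOK Zw ε) (N : ℕ) :
    ∑ a : Fin N × Fin N, ((M.filter fun s => ED Zw (ge N a.1 a.2) γ ψ M s).card : ℝ) ≤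
      N ^ 2 * (6 + 520 * Real.log p0 ^ (-ε)) + 2 * N * M.card := by
  have hlp : 0 ≤ Real.log p0 ^ (-ε) := Real.rpow_nonneg (by linarith [hn.log2]) _
  have h1 : ∀ a : Fin N × Fin N, ((M.filter fun s => ED Zw (ge N a.1 a.2) γ ψ M s).card : ℝ) ≤
      6 + ((M.filter fun s => Mn Zw A ε (ge N a.1 a.2) γ ψ M s ∧
        ∃ hne : (Ft A ψ M).Nonempty,
          gp (Ft A ψ M) s ∈ (Ft A ψ M).erase ((Ft A ψ M).min' hne)).card : ℝ) := fun a => by
    exact_mod_cast h.deaths_one hn (ge N a.1 a.2)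
  have h2 : ∑ a : Fin N × Fin N, ((M.filter fun s => Mn Zw A ε (ge N a.1 a.2) γ ψ M s ∧
        ∃ hne : (Ft A ψ M).Nonempty,
          gp (Ft A ψ M) s ∈ (Ft A ψ M).erase ((Ft A ψ M).min' hne)).card : ℝ) ≤
      N * (N * (520 * Real.log p0 ^ (-ε)) + 2 * M.card) := by
    rw [Fintype.sum_prod_type]
    have h3 : ∀ i : Fin N, ∑ j : Fin N, ((M.filter fun s => Mn Zw A ε (ge N i j) γ ψ M s ∧
        ∃ hne : (Ft A ψ M).Nonempty,
          gp (Ft A ψ M) s ∈ (Ft A ψ M).erase ((Ft A ψ M).min' hne)).card : ℝ) ≤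
        N * (520 * Real.log p0 ^ (-ε)) + 2 * M.card := by
      intro i
      by_cases hne : (Ft A ψ M).Nonempty
      · refine le_trans (le_of_eq ?_) (h.mains hn hZ hne N i)
        refine Finset.sum_congr rfl fun j _ => ?_
        congr 2
        ext s
        simp only [Finset.mem_filter]
        constructor
        · rintro ⟨a1, a2, hne', a3⟩
          exact ⟨a1, a2, a3⟩
        · rintro ⟨a1, a2, a3⟩
          exact ⟨a1, a2, hne, a3⟩
      · have e0 : ∀ j : Fin N, ((M.filter fun s => Mn Zw A ε (ge N i j) γ ψ M s ∧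
          ∃ hne : (Ft A ψ M).Nonempty,
            gp (Ft A ψ M) s ∈ (Ft A ψ M).erase ((Ft A ψ M).min' hne)).card : ℝ) = 0 := by
          intro j
          rw [Nat.cast_eq_zero, Finset.card_eq_zero, Finset.eq_empty_iff_forall_notMem]
          intro s hs
          exact hne (Finset.mem_filter.1 hs).2.2.choose
        rw [Finset.sum_congr rfl fun j _ => e0 j, Finset.sum_const_zero]
        positivity
    refine (Finset.sum_le_sum fun i _ => h3 i).trans (le_of_eq ?_)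
    rw [Finset.sum_const, Finset.card_univ, Fintype.card_fin, nsmul_eq_mul]
  refine (Finset.sum_le_sum fun a _ => h1 a).trans ?_
  rw [Finset.sum_add_distrib, Finset.sum_const, Finset.card_univ, Fintype.card_prod,
    Fintype.card_fin, nsmul_eq_mul]
  push_cast
  nlinarith

/-! ### events of size, all events -/

/-- **event of size**: label or death at a stage of radius `> r₀` -/
def SE (r₀ : ℝ) (e : UV) (γ ψ : ℝ) (M : Finset ℕ) (s : ℕ) : Prop :=
  r₀ < Rd ψ M s ∧ ((∃ μ, own e γ ψ (s :: lst M s) = some μ) ∨ DD e γ ψ M s)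

open Classical in
/-- at most two events of size -/
theorem FcP.size_two (h : FcP A C p0 γ ψ M) {r₀ : ℝ} (hr : 1 ≤ r₀ * p0) (e : UV) :
    (M.filter fun s => SE r₀ e γ ψ M s).card ≤ 2 := by
  -- after a stage of radius `> r₀` there is no label
  have key : ∀ {a x : ℕ}, a ∈ M → x ∈ M → x < a → r₀ < Rd ψ M a → ∀ {τ : ℚ},
      own e γ ψ (x :: lst M x) = some τ → False := by
    intro a x ha hx hxa h1 τ h2
    have h3 := Rd_step h.pos h.ψ0 ha hxa
    have h4 := h.le10 hx h2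
    have h5 : (p0 : ℝ) < x := by exact_mod_cast h.mp x hx
    have h6 : (0 : ℝ) ≤ p0 := Nat.cast_nonneg _
    have hr0 : 0 < r₀ := by
      by_contra hc
      push Not at hc
      nlinarith
    nlinarith
  have c1 : (M.filter fun s => r₀ < Rd ψ M s ∧ ∃ μ, own e γ ψ (s :: lst M s) = some μ).card ≤ 1 := by
    refine card_one fun a ha b hb hab h1 h2 => ?_
    obtain ⟨μ, hμ⟩ := h2.2
    exact key ha hb hab h1.1 hμ
  have c2 : (M.filter fun s => r₀ < Rd ψ M s ∧ DD e γ ψ M s).card ≤ 1 := by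
    refine card_one fun a ha b hb hab h1 h2 => ?_
    obtain ⟨x, x1, x2, x3, x4⟩ := dd_chg h.pos h1.2 h2.2 ha hab
    obtain ⟨τ, hτ, -, -⟩ := x4.own
    exact key ha x1 x3 h1.1 hτ
  have hsub : (M.filter fun s => SE r₀ e γ ψ M s) ⊆
      (M.filter fun s => r₀ < Rd ψ M s ∧ ∃ μ, own e γ ψ (s :: lst M s) = some μ) ∪
      (M.filter fun s => r₀ < Rd ψ M s ∧ DD e γ ψ M s) := by
    intro s hs
    obtain ⟨s1, s2, s3⟩ := Finset.mem_filter.1 hs
    rw [Finset.mem_union]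
    rcases s3 with s3 | s3
    · exact Or.inl (Finset.mem_filter.2 ⟨s1, s2, s3⟩)
    · exact Or.inr (Finset.mem_filter.2 ⟨s1, s2, s3⟩)
  have := (Finset.card_le_card hsub).trans (Finset.card_union_le _ _)
  omega

/-- **the events of an item at the missing tie `s`**, for the exponents `e` -/
def EV (Zw : ℝ → ℝ) (r₀ : ℝ) (e : UV) (γ ψ : ℝ) (M : Finset ℕ) (s : ℕ) : Prop :=
  EB Zw e γ ψ M s ∨ ED Zw e γ ψ M s ∨ SE r₀ e γ ψ M s

open Classical in
/-- **all events, summed over the grid** -/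
theorem events (h : FcP A C p0 γ ψ M) (hn : Nu A C ε p0) (hZ : ZwOK Zw ε) {r₀ : ℝ}
    (hr : 1 ≤ r₀ * p0) (N : ℕ) :
    ∑ a : Fin N × Fin N, ((M.filter fun s => EV Zw r₀ (ge N a.1 a.2) γ ψ M s).card : ℝ) ≤
      N ^ 2 * (10 + 930 * Real.log p0 ^ (-ε)) + 4 * N * M.card := by
  have h1 : ∀ a : Fin N × Fin N, ((M.filter fun s => EV Zw r₀ (ge N a.1 a.2) γ ψ M s).card : ℝ) ≤
      ((M.filter fun s => EB Zw (ge N a.1 a.2) γ ψ M s).card : ℝ) +
      (((M.filter fun s => ED Zw (ge N a.1 a.2) γ ψ M s).card : ℝ) + 2) := by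
    intro a
    have h2 := h.size_two hr (ge N a.1 a.2)
    have hsub : (M.filter fun s => EV Zw r₀ (ge N a.1 a.2) γ ψ M s) ⊆
        (M.filter fun s => EB Zw (ge N a.1 a.2) γ ψ M s) ∪
        ((M.filter fun s => ED Zw (ge N a.1 a.2) γ ψ M s) ∪
        (M.filter fun s => SE r₀ (ge N a.1 a.2) γ ψ M s)) := by
      intro s hs
      obtain ⟨s1, s2⟩ := Finset.mem_filter.1 hs
      rw [Finset.mem_union, Finset.mem_union]
      rcases s2 with s2 | s2 | s2
      · exact Or.inl (Finset.mem_filter.2 ⟨s1, s2⟩)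
      · exact Or.inr (Or.inl (Finset.mem_filter.2 ⟨s1, s2⟩))
      · exact Or.inr (Or.inr (Finset.mem_filter.2 ⟨s1, s2⟩))
    have h3 := (Finset.card_le_card hsub).trans ((Finset.card_union_le _ _).trans
      (Nat.add_le_add_left (Finset.card_union_le _ _) _))
    have h4 : (M.filter fun s => EV Zw r₀ (ge N a.1 a.2) γ ψ M s).card ≤
        (M.filter fun s => EB Zw (ge N a.1 a.2) γ ψ M s).card +
        ((M.filter fun s => ED Zw (ge N a.1 a.2) γ ψ M s).card + 2) := by omega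
    exact_mod_cast h4
  have h2 := births h hn hZ N
  have h3 := deaths h hn hZ N
  refine (Finset.sum_le_sum fun a _ => h1 a).trans ?_
  rw [Finset.sum_add_distrib, Finset.sum_add_distrib, Finset.sum_const, Finset.card_univ,
    Fintype.card_prod, Fintype.card_fin, nsmul_eq_mul]
  push_cast
  nlinarith

open Classical in
/-- **the average number of events of an item is at most `12`** -/
theorem avg_events (A C ε : ℝ) (hA : 0 ≤ A) (hC : 0 ≤ C) (hε : 0 < ε)
    (hεC : ε * (2 * (C + 3)) ≤ 1) : ∃ p₁ : ℕ, ∀ p0 ≥ p₁, ∀ {γ ψ : ℝ} {M : Finset ℕ},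
    FcP A C p0 γ ψ M → ∀ {Zw : ℝ → ℝ}, ZwOK Zw ε → ∀ {r₀ : ℝ}, 1 ≤ r₀ * p0 →
    ∀ {N : ℕ}, 0 < N → 4 * M.card ≤ N →
    ∑ a : Fin N × Fin N, 1 / (N : ℝ) ^ 2 *
      ((M.filter fun s => EV Zw r₀ (ge N a.1 a.2) γ ψ M s).card : ℝ) ≤ 12 := by
  obtain ⟨p₁, h1⟩ := exists_nu A C ε hA hC hε hεC
  have h2 : ∀ᶠ p : ℕ in Filter.atTop, (930 : ℝ) ≤ Real.log p ^ ε :=
    ((tendsto_rpow_atTop hε).comp (Real.tendsto_log_atTop.comp
      tendsto_natCast_atTop_atTop)).eventually_ge_atTop _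
  obtain ⟨p₂, h3⟩ := Filter.eventually_atTop.1 h2
  refine ⟨max p₁ p₂, fun p0 hp {γ ψ M} h {Zw} hZ {r₀} hr {N} hN hM => ?_⟩
  have hn := h1 p0 ((le_max_left _ _).trans hp)
  have h4 := h3 p0 ((le_max_right _ _).trans hp)
  have h5 := events h hn hZ hr N
  have hN' : (0 : ℝ) < N := by exact_mod_cast hN
  have hl : 0 < Real.log p0 := by linarith [hn.log2]
  have h6 : 930 * Real.log p0 ^ (-ε) ≤ 1 := by
    rw [Real.rpow_neg hl.le, ← div_eq_mul_inv, div_le_one (Real.rpow_pos_of_pos hl _)]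
    exact h4
  have h7 : (4 : ℝ) * M.card ≤ N := by exact_mod_cast hM
  rw [← Finset.mul_sum]
  calc 1 / (N : ℝ) ^ 2 * ∑ a : Fin N × Fin N,
        ((M.filter fun s => EV Zw r₀ (ge N a.1 a.2) γ ψ M s).card : ℝ) ≤
        1 / (N : ℝ) ^ 2 * (N ^ 2 * (10 + 930 * Real.log p0 ^ (-ε)) + 4 * N * M.card) :=
        mul_le_mul_of_nonneg_left h5 (by positivity)
    _ ≤ 1 / (N : ℝ) ^ 2 * (N ^ 2 * 12) := by
        refine mul_le_mul_of_nonneg_left ?_ (by positivity)
        nlinarith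
    _ = 12 := by field_simp

end Crest.Agent.R4P.AvG32
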