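import Crest.Agent.R4.Tour104

/-!
R4 (S0004) with powers, helper28: **the `b`-fibre lemma**.

`f1` is `1/b`-periodic (content of items divisible by `b`), `f0` is not zero at most at one point of
every fibre `x + m/b` (content of one index from items not divisible by `b`: the exact centres are
`b`-free).  Then `I (min f1 f0) ≤ I f1 / b`.

* `fib_min`, `fib_sum` (families of classes), `fib_w` (with a `1/b`-periodic weight).
* `bfree_unique` : two `b`-free rationals which differ by `m/b` are equal (`0 ≤ m < b`).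
-/

set_option autoImplicit false
set_option linter.unusedVariables false
open MeasureTheory

namespace Crest.Agent.R4P.BFib28

open Crest.Agent.R4.Tour104

/-- periodicity `1/b` -/
def Per (b : ℕ) (f : ℝ → ℝ) : Prop := ∀ x, f (x + 1 / (b : ℝ)) = f x

/-- not zero at most once in every fibre -/
def One (b : ℕ) (f : ℝ → ℝ) : Prop :=
  ∀ x : ℝ, ∀ m : ℕ, 0 < m → m < b → f x ≠ 0 → f (x + m / (b : ℝ)) = 0

lemma Per.nat {b : ℕ} {f : ℝ → ℝ} (h : Per b f) (x : ℝ) (m : ℕ) : f (x + m / (b : ℝ)) = f x := by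
  induction m with
  | zero => simp
  | succ m ih =>
    have e : x + ((m + 1 : ℕ) : ℝ) / (b : ℝ) = (x + m / (b : ℝ)) + 1 / (b : ℝ) := by
      push_cast; ring
    rw [e, h, ih]

lemma Per.mul {b : ℕ} {f g : ℝ → ℝ} (hf : Per b f) (hg : Per b g) : Per b fun x => f x * g x :=
  fun x => by
    show f _ * g _ = _
    rw [hf, hg]

lemma Per.sum {b : ℕ} {ι : Type*} (s : Finset ι) {f : ι → ℝ → ℝ} (hf : ∀ i ∈ s, Per b (f i)) :
    Per b fun x => ∑ i ∈ s, f i x := fun x => Finset.sum_congr rfl fun i hi => hf i hi x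

lemma fib_pt {b : ℕ} (hb : 0 < b) {f1 f0 : ℝ → ℝ} (h0 : ∀ x, 0 ≤ f1 x) (hp : Per b f1)
    (ho : One b f0) (y : ℝ) :
    ∑ i ∈ Finset.range b, min (f1 ((y + i) / b)) (f0 ((y + i) / b)) ≤ f1 (y / b) := by
  have hb' : (b : ℝ) ≠ 0 := by exact_mod_cast hb.ne'
  have e1 : ∀ i : ℕ, (y + i) / (b : ℝ) = y / b + i / b := fun i => by rw [add_div]
  have e2 : ∀ i : ℕ, f1 ((y + i) / (b : ℝ)) = f1 (y / b) := fun i => by rw [e1, hp.nat]
  by_cases h : ∃ i ∈ Finset.range b, f0 ((y + i) / (b : ℝ)) ≠ 0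
  · obtain ⟨i, hi, hf⟩ := h
    have hz : ∀ j ∈ Finset.range b, j ≠ i → f0 ((y + j) / (b : ℝ)) = 0 := by
      intro j hj hji
      rw [Finset.mem_range] at hi hj
      rcases lt_or_gt_of_ne hji with h1 | h1
      · by_contra hc
        have e : (y + i) / (b : ℝ) = (y + j) / b + ((i - j : ℕ) : ℝ) / b := by
          rw [Nat.cast_sub h1.le]; ring
        exact hf (by rw [e]; exact ho _ _ (by omega) (by omega) hc)
      · have e : (y + j) / (b : ℝ) = (y + i) / b + ((j - i : ℕ) : ℝ) / b := by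
          rw [Nat.cast_sub h1.le]; ring
        rw [e]; exact ho _ _ (by omega) (by omega) hf
    have : ∑ j ∈ Finset.range b, min (f1 ((y + j) / b)) (f0 ((y + j) / b)) ≤
        ∑ j ∈ Finset.range b, if j = i then f1 (y / b) else 0 := by
      refine Finset.sum_le_sum fun j hj => ?_
      split_ifs with hji
      · rw [← e2 j]; exact min_le_left _ _
      · rw [hz j hj hji]; exact min_le_right _ _
    refine this.trans ?_
    rw [Finset.sum_ite_eq' (Finset.range b) i fun _ => f1 (y / b)]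
    rw [if_pos hi]
  · push Not at h
    refine le_trans (Finset.sum_le_sum fun i hi => ?_) ((Finset.sum_const_zero).le.trans (h0 _))
    rw [h i hi]
    exact min_le_right _ _

lemma PB_min {f g : ℝ → ℝ} (hf : PB f) (hg : PB g) : PB fun x => min (f x) (g x) := by
  obtain ⟨B, hB⟩ := hf.bdd
  exact ⟨hf.meas.min hg.meas, fun x => le_min (hf.nonneg x) (hg.nonneg x),
    ⟨B, fun x => (min_le_left _ _).trans (hB x)⟩, fun x => by rw [hf.per, hg.per]⟩

/-- **the `b`-fibre lemma** -/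
theorem fib_min {b : ℕ} (hb : 0 < b) {f1 f0 : ℝ → ℝ} (h1 : PB f1) (h0 : PB f0) (hp : Per b f1)
    (ho : One b f0) : I (fun x => min (f1 x) (f0 x)) ≤ 1 / (b : ℝ) * I f1 := by
  have hb' : (0:ℝ) < b := by exact_mod_cast hb
  have hm := PB_min h1 h0
  rw [← I_Ep hb hm.integrableOn, ← I_Ep hb h1.integrableOn, ← I_smul]
  refine I_mono (hm.Ep hb).integrableOn ((h1.Ep hb).smul (by positivity)).integrableOn fun y => ?_
  have k := fib_pt hb h1.nonneg hp ho y
  have e : Ep b f1 y = f1 (y / b) := by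
    unfold Ep
    have e2 : ∀ i ∈ Finset.range b, f1 ((y + i) / (b : ℝ)) = f1 (y / b) := fun i _ => by
      rw [add_div, hp.nat]
    rw [Finset.sum_congr rfl e2, Finset.sum_const, Finset.card_range, nsmul_eq_mul]
    field_simp
  rw [e]
  show Ep b (fun x => min (f1 x) (f0 x)) y ≤ _
  unfold Ep
  rw [one_div, div_eq_inv_mul]
  exact mul_le_mul_of_nonneg_left k (inv_nonneg.2 hb'.le)

/-- **families of classes** -/
theorem fib_sum {b : ℕ} (hb : 0 < b) {ζ : Type*} (S : Finset ζ) {F1 F0 : ζ → ℝ → ℝ}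
    (h1 : ∀ z ∈ S, PB (F1 z)) (h0 : ∀ z ∈ S, PB (F0 z)) (hp : ∀ z ∈ S, Per b (F1 z))
    (ho : ∀ z ∈ S, One b (F0 z)) :
    I (fun x => ∑ z ∈ S, min (F1 z x) (F0 z x)) ≤ 1 / (b : ℝ) * I fun x => ∑ z ∈ S, F1 z x := by
  rw [I_sum S fun z hz => (PB_min (h1 z hz) (h0 z hz)).integrableOn,
    I_sum S fun z hz => (h1 z hz).integrableOn, Finset.mul_sum]
  exact Finset.sum_le_sum fun z hz => fib_min hb (h1 z hz) (h0 z hz) (hp z hz) (ho z hz)

/-- **with a `1/b`-periodic weight** -/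
theorem fib_w {b : ℕ} (hb : 0 < b) {ζ : Type*} (S : Finset ζ) {F1 F0 : ζ → ℝ → ℝ} {ω : ℝ → ℝ}
    (hω : PB ω) (hωp : Per b ω)
    (h1 : ∀ z ∈ S, PB (F1 z)) (h0 : ∀ z ∈ S, PB (F0 z)) (hp : ∀ z ∈ S, Per b (F1 z))
    (ho : ∀ z ∈ S, One b (F0 z)) :
    I (fun x => ω x * ∑ z ∈ S, min (F1 z x) (F0 z x)) ≤
      1 / (b : ℝ) * I fun x => ω x * ∑ z ∈ S, F1 z x := by
  have h := fib_sum hb S (F1 := fun z x => ω x * F1 z x) (F0 := fun z x => ω x * F0 z x)
    (fun z hz => hω.mul (h1 z hz)) (fun z hz => hω.mul (h0 z hz))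
    (fun z hz => hωp.mul (hp z hz)) (fun z hz x m m0 m1 hx => by
      have : F0 z x ≠ 0 := fun h => hx (by show _ * _ = (0:ℝ); rw [h, mul_zero])
      show _ * _ = (0:ℝ)
      rw [ho z hz x m m0 m1 this, mul_zero])
  have e1 : (fun x => ω x * ∑ z ∈ S, min (F1 z x) (F0 z x)) =
      fun x => ∑ z ∈ S, min (ω x * F1 z x) (ω x * F0 z x) := by
    funext x
    rw [Finset.mul_sum]
    refine Finset.sum_congr rfl fun z _ => ?_
    rw [mul_min_of_nonneg _ _ (hω.nonneg x)]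
  have e2 : (fun x => ω x * ∑ z ∈ S, F1 z x) = fun x => ∑ z ∈ S, ω x * F1 z x :=
    funext fun x => Finset.mul_sum _ _ _
  rw [e1, e2]
  exact h

/-- **two `b`-free rationals at distance `m/b`**, `0 < m < b`: impossible. `D c`, `D' c'` integers
with `b` prime to `D`, `D'`. -/
lemma bfree_unique {b : ℕ} (hb : b.Prime) {D D' : ℕ} (hD : ¬ b ∣ D) (hD' : ¬ b ∣ D') {c c' : ℝ}
    {k k' : ℤ} (hc : (D : ℝ) * c = k) (hc' : (D' : ℝ) * c' = k') {m : ℕ} (m0 : 0 < m)
    (m1 : m < b) (h : c' = c + m / (b : ℝ)) : False := by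
  have hb0 : (b : ℝ) ≠ 0 := by exact_mod_cast hb.ne_zero
  -- `D D' m = b (D k' - D' k)`
  have e1 : (D : ℝ) * D' * m = b * (D * k' - D' * k) := by
    rw [← hc, ← hc', h]
    field_simp
    ring
  have e2 : (D : ℤ) * D' * m = b * (D * k' - D' * k) := by exact_mod_cast e1
  have h1 : (b : ℤ) ∣ (D : ℤ) * D' * m := ⟨_, e2⟩
  have hbp : Prime (b : ℤ) := Nat.prime_iff_prime_int.1 hb
  rcases hbp.dvd_or_dvd h1 with h2 | h2
  · rcases hbp.dvd_or_dvd h2 with h3 | h3
    · exact hD (by exact_mod_cast h3)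
    · exact hD' (by exact_mod_cast h3)
  · have h3 : b ∣ m := by exact_mod_cast h2
    exact absurd (Nat.le_of_dvd m0 h3) (by omega)

end Crest.Agent.R4P.BFib28
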