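import Crest.Agent.R4P.BthW_48

/-!
R4 (S0004) with powers, T3, helper48: **the squares of the second order births without counting classes**.

* **`KTp D wr p b T K y`** : the kernel `K` is `≥ 1` on the pairs (P piece `j`, N piece `i`) such that `j` and
  `i` are active for one type (`sA`, `sB`), and on the mismatched second order pairs of one type (`sM`);
* **`MaT_sq`, `MbT_sq`** : `(∑_c flow_c)² ≤ (∑_c P_c) (∑_c N_c)`;
* **`sum_KT`** : `∑ MaT² ≤ E`, `∑ MbT² ≤ E`, `∑ emm ≤ F`, `E + F ≤ ∑_{j,i} K j i pA_j pB_i`.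
-/

set_option autoImplicit false
set_option linter.unusedSectionVars false
set_option linter.unusedVariables false
open MeasureTheory Filter Set

namespace Crest.Agent.R4P.BthZ48

open Crest.Agent.R4.Tour104 Crest.Agent.R4.Tour758 Crest.Agent.R4.Clos758 Crest.Agent.R4.ClosL758
open Crest.Agent.R4P.Grp36 Crest.Agent.R4P.GWa343 Crest.Agent.R4P.GWb343
open Crest.Agent.R4P.GWc343 hiding SB
open Crest.Agent.R4P.GWd343 Crest.Agent.R4P.GCol27 Crest.Agent.R4P.TrR343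
open Crest.Agent.R4P.DTp26 Crest.Agent.R4P.VR407 Crest.Agent.R4P.Bp407 Crest.Agent.R4P.MSd343
open Crest.Agent.R4P.DTm407 Crest.Agent.R4P.DTn407 Crest.Agent.R4P.DTn407.TD'
open Crest.Agent.R4P.DTo407 Crest.Agent.R4P.DTo407.TD'
open Crest.Agent.R4P.DTe407 hiding ch_mul
open Crest.Agent.R4P.DTs407
open Crest.Agent.R4P.Walk560 (DT)
open Crest.Agent.R4P.BthU48 Crest.Agent.R4P.BthW48

section row
variable {μ Λ κ ζ : Type} [Fintype Λ] [DecidableEq Λ] [Fintype κ] [DecidableEq κ]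
  [Fintype ζ] [DecidableEq ζ]
variable {wr : ℕ → Λ → κ} {D : TD μ Λ κ ζ} {Inv : ℕ → μ × List (DT Λ κ) → Prop} {p : ℕ}
  {b : μ × List (DT Λ κ)}

/-- **kernel of the second order pairs** : `K ≥ 1` on the pairs of active pieces of one type -/
structure KTp (D : TD μ Λ κ ζ) (wr : ℕ → Λ → κ) (p : ℕ) (b : μ × List (DT Λ κ))
    (T : ℝ → Λ → Λ → Prop) (K : Λ → Λ → ℝ) (y : ℝ) : Prop where
  /-- `j`, `j'` P pieces of one type, `i'`, `i` their partners -/
  sA : ∀ {j i' j' i}, pA (bB p b.2) j y ≠ 0 → pB (bB p b.2) i' y ≠ 0 → pA (bB p b.2) j' y ≠ 0 →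
    pB (bB p b.2) i y ≠ 0 → XX D wr p b y j i' → T y j i' → XX D wr p b y j' i → T y j' i →
    D.lt p b.1 y j = D.lt p b.1 y j' → D.lt p b.1 y j ≠ none → 1 ≤ K j i
  /-- `i'`, `i` N pieces of one type, `j`, `j'` their partners -/
  sB : ∀ {j i' j' i}, pA (bB p b.2) j y ≠ 0 → pB (bB p b.2) i' y ≠ 0 → pA (bB p b.2) j' y ≠ 0 →
    pB (bB p b.2) i y ≠ 0 → XX D wr p b y j i' → T y j i' → XX D wr p b y j' i → T y j' i →
    D.lt p b.1 y i' = D.lt p b.1 y i → D.lt p b.1 y i ≠ none → 1 ≤ K j i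
  /-- one type, different real classes -/
  sM : ∀ {j i}, pA (bB p b.2) j y ≠ 0 → pB (bB p b.2) i y ≠ 0 → T y j i →
    D.lt p b.1 y j = D.lt p b.1 y i → D.lt p b.1 y j ≠ none → wr p j ≠ wr p i → 1 ≤ K j i

/-- **the kernel from an index** : the low type of the pieces determines an index `ix`, the real class
determines the index; `K ≥ 1` on the pairs of one index with different low types -/
theorem KTp.of_ix {T : ℝ → Λ → Λ → Prop} {K : Λ → Λ → ℝ} {y : ℝ} {ι : Type*} (ix : Λ → ι)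
    {Ac : Λ → Prop}
    (hc : ∀ j i, Ac j → Ac i → wr p j = wr p i → ix j = ix i)
    (ht : ∀ j i, Ac j → Ac i → D.lt p b.1 y j = D.lt p b.1 y i → D.lt p b.1 y j ≠ none →
      ix j = ix i)
    (hA : ∀ j, pA (bB p b.2) j y ≠ 0 → Ac j) (hB : ∀ i, pB (bB p b.2) i y ≠ 0 → Ac i)
    (h1 : ∀ j i, pA (bB p b.2) j y ≠ 0 → pB (bB p b.2) i y ≠ 0 → ix j = ix i →
      D.lt p b.1 y j ≠ D.lt p b.1 y i → (∃ i', pB (bB p b.2) i' y ≠ 0 ∧ XX D wr p b y j i' ∧
        T y j i') → (∃ j', pA (bB p b.2) j' y ≠ 0 ∧ XX D wr p b y j' i ∧ T y j' i) → 1 ≤ K j i)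
    (h2 : ∀ j i, pA (bB p b.2) j y ≠ 0 → pB (bB p b.2) i y ≠ 0 → T y j i →
      D.lt p b.1 y j = D.lt p b.1 y i → D.lt p b.1 y j ≠ none → wr p j ≠ wr p i → 1 ≤ K j i) :
    KTp D wr p b T K y where
  sA := fun {j i' j' i} a1 a2 a3 a4 x1 t1 x2 t2 e hn => h1 j i a1 a4
    ((ht j j' (hA j a1) (hA j' a3) e hn).trans (hc j' i (hA j' a3) (hB i a4) x2.1.symm))
    (fun h => x2.2 (by rw [← e, h])) ⟨i', a2, x1, t1⟩ ⟨j', a3, x2, t2⟩
  sB := fun {j i' j' i} a1 a2 a3 a4 x1 t1 x2 t2 e hn => h1 j i a1 a4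
    ((hc j i' (hA j a1) (hB i' a2) x1.1.symm).trans (ht i' i (hB i' a2) (hB i a4) e (by rwa [e])))
    (fun h => x1.2 (by rw [e, ← h])) ⟨i', a2, x1, t1⟩ ⟨j', a3, x2, t2⟩
  sM := fun {j i} a1 a2 t e hn hw => h2 j i a1 a2 t e hn hw

section ev
variable (H : TYp wr D Inv) (hb : Inv p b) (hp : p ≠ 0)
include H hb hp

lemma chi_i (y : ℝ) (j : Λ) : ∑ i, ch (XX D wr p b y j i) (fA wr p b j y * pB (bB p b.2) i y) ≤
    pA (bB p b.2) j y := by
  rw [← xw_mul H hb hp]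
  have h1 := xw1 H hb hp (D := D) y j
  have h2 := DTe407.pA0 H hb hp j y
  nlinarith

lemma chi_j (y : ℝ) (i : Λ) : ∑ j, ch (XX D wr p b y j i) (fA wr p b j y * pB (bB p b.2) i y) ≤
    pB (bB p b.2) i y := by
  rw [← yw_mul H hb hp]
  have h1 := (yw1 H hb hp (D := D) y i).trans (rfle1 H hb hp _ y)
  have h2 := DTe407.pB0 H hb hp i y
  nlinarith

/-- **the square of a plan by the products of the active contents** -/
lemma cr_sq {P : ℝ → Λ → Λ → Prop} {y : ℝ} : cr D wr p b P y ^ 2 ≤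
    dbl (fun j i => pA (bB p b.2) j y * pB (bB p b.2) i y) fun j i =>
      (∃ i', pA (bB p b.2) j y ≠ 0 ∧ pB (bB p b.2) i' y ≠ 0 ∧ XX D wr p b y j i' ∧ P y j i') ∧
      ∃ j', pA (bB p b.2) j' y ≠ 0 ∧ pB (bB p b.2) i y ≠ 0 ∧ XX D wr p b y j' i ∧ P y j' i := by
  set PA : Λ → Prop := fun j => ∃ i', pA (bB p b.2) j y ≠ 0 ∧ pB (bB p b.2) i' y ≠ 0 ∧
    XX D wr p b y j i' ∧ P y j i' with hPA
  set PB' : Λ → Prop := fun i => ∃ j', pA (bB p b.2) j' y ≠ 0 ∧ pB (bB p b.2) i y ≠ 0 ∧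
    XX D wr p b y j' i ∧ P y j' i with hPB
  have c0 : 0 ≤ cr D wr p b P y := dbl_nonneg (fpB0 H hb hp y)
  have act : ∀ j i, XX D wr p b y j i ∧ P y j i → fA wr p b j y * pB (bB p b.2) i y ≠ 0 →
      PA j ∧ PB' i := fun j i h hz => by
    have hA : pA (bB p b.2) j y ≠ 0 := fun h' => hz (by simp only [fA, h', zero_div, mul_zero,
      zero_mul])
    have hB : pB (bB p b.2) i y ≠ 0 := fun h' => hz (by rw [h', mul_zero])
    exact ⟨⟨i, hA, hB, h⟩, ⟨j, hA, hB, h⟩⟩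
  have h1 : cr D wr p b P y ≤ ∑ j, ch (PA j) (pA (bB p b.2) j y) := by
    refine Finset.sum_le_sum fun j _ => ?_
    by_cases hj : PA j
    · rw [ch_on hj]
      refine le_trans (Finset.sum_le_sum fun i _ => ?_) (chi_i H hb hp (D := D) y j)
      exact ch_mono2 (fpB0 H hb hp y j i) fun h => h.1
    · rw [ch_off hj]
      refine (Finset.sum_eq_zero fun i _ => ?_).le
      by_cases h : XX D wr p b y j i ∧ P y j i
      · rw [ch_on h]
        by_contra hz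
        exact hj (act j i h hz).1
      · exact ch_off h
  have h2 : cr D wr p b P y ≤ ∑ i, ch (PB' i) (pB (bB p b.2) i y) := by
    unfold cr
    rw [Finset.sum_comm]
    refine Finset.sum_le_sum fun i _ => ?_
    by_cases hi : PB' i
    · rw [ch_on hi]
      refine le_trans (Finset.sum_le_sum fun j _ => ?_) (chi_j H hb hp (D := D) y i)
      exact ch_mono2 (fpB0 H hb hp y j i) fun h => h.1
    · rw [ch_off hi]
      refine (Finset.sum_eq_zero fun j _ => ?_).le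
      by_cases h : XX D wr p b y j i ∧ P y j i
      · rw [ch_on h]
        by_contra hz
        exact hi (act j i h hz).2
      · exact ch_off h
  have h3 := mul_le_mul h1 h2 c0 (c0.trans h1)
  rw [← sq] at h3
  refine h3.trans (le_of_eq ?_)
  rw [Finset.sum_mul_sum]
  unfold dbl
  refine Finset.sum_congr rfl fun j _ => Finset.sum_congr rfl fun i _ => ?_
  by_cases hj : PA j
  · by_cases hi : PB' i
    · rw [ch_on hj, ch_on hi, ch_on ⟨hj, hi⟩]
    · rw [ch_off hi, ch_off (P := PA j ∧ PB' i) fun h => hi h.2, mul_zero]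
  · rw [ch_off hj, ch_off (P := PA j ∧ PB' i) fun h => hj h.1, zero_mul]

/-- **P side** -/
theorem MaT_sq {T : ℝ → Λ → Λ → Prop} {K : Λ → Λ → ℝ} {y : ℝ} (k : KTp D wr p b T K y) (z : ζ) :
    MaT D wr p b T z y ^ 2 ≤ dbl (fun j i => pA (bB p b.2) j y * pB (bB p b.2) i y) fun j i =>
      D.lt p b.1 y j = some z ∧ D.lt p b.1 y j ≠ D.lt p b.1 y i ∧ 1 ≤ K j i := by
  refine (cr_sq H hb hp).trans (dbl_mono (pAB0 H hb hp y) ?_)
  rintro j i - ⟨⟨i', a1, a2, x1, z1, t1⟩, ⟨j', a3, a4, x2, z2, t2⟩⟩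
  have e : D.lt p b.1 y j = D.lt p b.1 y j' := z1.trans z2.symm
  exact ⟨z1, fun h => x2.2 (by rw [← e, h]),
    k.sA a1 a2 a3 a4 x1 t1 x2 t2 e (by rw [z1]; exact Option.some_ne_none z)⟩

/-- **N side** -/
theorem MbT_sq {T : ℝ → Λ → Λ → Prop} {K : Λ → Λ → ℝ} {y : ℝ} (k : KTp D wr p b T K y) (z : ζ) :
    MbT D wr p b T z y ^ 2 ≤ dbl (fun j i => pA (bB p b.2) j y * pB (bB p b.2) i y) fun j i =>
      D.lt p b.1 y i = some z ∧ D.lt p b.1 y j ≠ D.lt p b.1 y i ∧ 1 ≤ K j i := by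
  refine (cr_sq H hb hp).trans (dbl_mono (pAB0 H hb hp y) ?_)
  rintro j i - ⟨⟨i', a1, a2, x1, z1, t1⟩, ⟨j', a3, a4, x2, z2, t2⟩⟩
  have e : D.lt p b.1 y i' = D.lt p b.1 y i := z1.trans z2.symm
  exact ⟨z2, fun h => x1.2 (by rw [e, ← h]),
    k.sB a1 a2 a3 a4 x1 t1 x2 t2 e (by rw [z2]; exact Option.some_ne_none z)⟩

/-- **the squares by the energy of the kernel** -/
theorem sum_KT {T : ℝ → Λ → Λ → Prop} {K : Λ → Λ → ℝ} {y : ℝ} (k : KTp D wr p b T K y)
    (K0 : ∀ j i, 0 ≤ K j i) : ∃ E F : ℝ, 0 ≤ E ∧ 0 ≤ F ∧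
      ∑ z, MaT D wr p b T z y ^ 2 ≤ E ∧ ∑ z, MbT D wr p b T z y ^ 2 ≤ E ∧
      ∑ z, emm D wr p b T z y ≤ F ∧
      E + F ≤ ∑ j, ∑ i, K j i * (pA (bB p b.2) j y * pB (bB p b.2) i y) := by
  have hAB := pAB0 H hb hp y
  refine ⟨dbl (fun j i => pA (bB p b.2) j y * pB (bB p b.2) i y) fun j i =>
      D.lt p b.1 y j ≠ D.lt p b.1 y i ∧ 1 ≤ K j i,
    dbl (fun j i => pA (bB p b.2) j y * pB (bB p b.2) i y) fun j i =>
      D.lt p b.1 y j = D.lt p b.1 y i ∧ 1 ≤ K j i, dbl_nonneg hAB, dbl_nonneg hAB, ?_, ?_, ?_, ?_⟩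
  · refine (Finset.sum_le_sum fun z _ => MaT_sq H hb hp k z).trans ?_
    exact dbl_sel (s := fun (z : ζ) j i => D.lt p b.1 y j = some z) hAB
      fun z z' j i h h' => Option.some.inj (h.symm.trans h')
  · refine (Finset.sum_le_sum fun z _ => MbT_sq H hb hp k z).trans ?_
    exact dbl_sel (s := fun (z : ζ) j i => D.lt p b.1 y i = some z) hAB
      fun z z' j i h h' => Option.some.inj (h.symm.trans h')
  · have h1 : ∀ z, emm D wr p b T z y ≤ dbl (fun j i => pA (bB p b.2) j y * pB (bB p b.2) i y)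
        fun j i => D.lt p b.1 y j = some z ∧ D.lt p b.1 y j = D.lt p b.1 y i ∧ 1 ≤ K j i := by
      intro z
      refine dbl_mono hAB ?_
      rintro j i h0 ⟨z1, z2, hw, t⟩
      have hA : pA (bB p b.2) j y ≠ 0 := left_ne_zero_of_mul h0
      have hB : pB (bB p b.2) i y ≠ 0 := right_ne_zero_of_mul h0
      exact ⟨z1, z1.trans z2.symm, k.sM hA hB t (z1.trans z2.symm)
        (by rw [z1]; exact Option.some_ne_none z) hw⟩
    refine (Finset.sum_le_sum fun z _ => h1 z).trans ?_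
    exact dbl_sel (s := fun (z : ζ) j i => D.lt p b.1 y j = some z) hAB
      fun z z' j i h h' => Option.some.inj (h.symm.trans h')
  · unfold dbl
    rw [← Finset.sum_add_distrib]
    refine Finset.sum_le_sum fun j _ => ?_
    rw [← Finset.sum_add_distrib]
    refine Finset.sum_le_sum fun i _ => ?_
    beta_reduce
    have n := hAB j i
    by_cases hK : 1 ≤ K j i
    · by_cases e : D.lt p b.1 y j = D.lt p b.1 y i
      · rw [ch_off fun h => h.1 e, ch_on ⟨e, hK⟩]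
        nlinarith
      · rw [ch_on ⟨e, hK⟩, ch_off fun h => e h.1]
        nlinarith
    · rw [ch_off fun h => hK h.2, ch_off fun h => hK h.2, add_zero]
      exact mul_nonneg (K0 j i) n

end ev

end row

end Crest.Agent.R4P.BthZ48
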