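import Crest.Agent.R4P.BthX_48
import Crest.Agent.R4P.BthZ_48
import Crest.Agent.R4P.EnC_48

/-!
R4 (S0004) with powers, T3, helper48: **own-height births of the typed rows, bundle by bundle**.

* `sE_eq` : births of a type on a fibre `= et + 2 Mb + Ma`; `sE_ne` : they need N content in the bundle;
* `sum_h_le`, `sum_Bl_le` : squares of the typed contents by the total energies `E2`;
* **`I_xO`** : `I (xO) ≤ M (10/(θ p) (τ (10 bil (K p) pA pB) + 1/τ ([N content] E2 (pA + pQ) + E2 pB)))` for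
  a static kernel of the second order pairs (`EK`; from `BthZ48.KTp` by `EK.of_KTp`).
-/

set_option autoImplicit false
set_option linter.unusedSectionVars false
set_option linter.unusedVariables false
open MeasureTheory Filter Set

namespace Crest.Agent.R4P.BthY48

open Crest.Agent.R4.Tour104 Crest.Agent.R4.Tour758 Crest.Agent.R4.Clos758 Crest.Agent.R4.ClosL758
open Crest.Agent.R4P.Grp36 Crest.Agent.R4P.GWa343 Crest.Agent.R4P.GWb343
open Crest.Agent.R4P.GWc343 hiding SB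
open Crest.Agent.R4P.GWd343 Crest.Agent.R4P.GCol27
open Crest.Agent.R4P.TrR343 hiding sE
open Crest.Agent.R4P.DTp26 Crest.Agent.R4P.VR407 Crest.Agent.R4P.Bp407 Crest.Agent.R4P.MSd343
open Crest.Agent.R4P.DTm407 Crest.Agent.R4P.DTn407 Crest.Agent.R4P.DTn407.TD'
open Crest.Agent.R4P.DTo407 Crest.Agent.R4P.DTo407.TD'
open Crest.Agent.R4P.DTe407 hiding ch_mul
open Crest.Agent.R4P.DTs407
open Crest.Agent.R4P.Walk560 (DT)
open Crest.Agent.R4P.RXm55 Crest.Agent.R4P.MSm25 Crest.Agent.R4P.RSys343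
open Crest.Agent.R4P.BthR48 Crest.Agent.R4P.BthS48 Crest.Agent.R4P.BthT48 Crest.Agent.R4P.BthU48
open Crest.Agent.R4P.BthW48 Crest.Agent.R4P.BthX48 Crest.Agent.R4P.BthZ48
open Crest.Agent.R4P.GMer27 (M M_mono M_add M_smul M_nonneg)
open Crest.Agent.R4P.EnC48 (E2 bil_le_E2)
open Crest.Agent.R4P.JnE5 (bil)

variable {μ Λ κ ζ : Type} [Fintype Λ] [DecidableEq Λ] [Fintype κ] [DecidableEq κ]
  [Fintype ζ] [DecidableEq ζ]
variable {wr : ℕ → Λ → κ} {D : TD μ Λ κ ζ} {Inv : ℕ → μ × List (DT Λ κ) → Prop} {p : ℕ}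
  {b : μ × List (DT Λ κ)}

/-! ### typed contents by totals -/

lemma sum_bcp_le (o : ℝ → Λ → Option ζ) (L : List (DT Λ κ)) {x : ℝ} (h0 : ∀ j, 0 ≤ jv L j x) :
    ∑ z : ζ, bcp o L (some z) x ≤ ∑ j, jv L j x := by
  simp only [bcp_eq, hz_eq]
  rw [Finset.sum_comm]
  refine Finset.sum_le_sum fun j _ => ?_
  rcases h : o x j with _ | z
  · simp only [reduceCtorEq, if_false, Finset.sum_const_zero]
    exact h0 j
  · simp

lemma sum_cz_le (kd : Λ → κ) (o : ℝ → Λ → Option ζ) (f : Λ → ℝ → ℝ) {x : ℝ}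
    (h0 : ∀ j, 0 ≤ f j x) : ∑ z : ζ, ∑ c, cz kd o f c (some z) x ≤ ∑ j, f j x := by
  simp only [cz_eq]
  have e : ∀ z : ζ, ∑ c, ∑ j, (if kd j = c ∧ o x j = some z then f j x else 0) =
      ∑ j, if o x j = some z then f j x else 0 := by
    intro z
    rw [Finset.sum_comm]
    refine Finset.sum_congr rfl fun j _ => ?_
    by_cases h : o x j = some z
    · simp [h]
    · simp [h]
  rw [Finset.sum_congr rfl fun z _ => e z, Finset.sum_comm]
  refine Finset.sum_le_sum fun j _ => ?_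
  rcases h : o x j with _ | z
  · simp only [reduceCtorEq, if_false, Finset.sum_const_zero]
    exact h0 j
  · simp

lemma sum_sq_le_sq {ι : Type*} [Fintype ι] {f : ι → ℝ} (h0 : ∀ i, 0 ≤ f i) {S : ℝ}
    (h : ∑ i, f i ≤ S) : ∑ i, f i ^ 2 ≤ S ^ 2 := by
  have h1 : ∑ i, f i ^ 2 ≤ (∑ i, f i) ^ 2 := by
    rw [sq (∑ i, f i), Finset.sum_mul]
    refine Finset.sum_le_sum fun i _ => ?_
    rw [sq]
    exact mul_le_mul_of_nonneg_left (Finset.single_le_sum (f := f) (fun i _ => h0 i)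
      (Finset.mem_univ i)) (h0 i)
  have h2 : 0 ≤ ∑ i, f i := Finset.sum_nonneg fun i _ => h0 i
  exact h1.trans (pow_le_pow_left₀ h2 h 2)

section ev
variable (H : TYp wr D Inv) (hb : Inv p b) (hp : p ≠ 0)
include H hb hp

/-- P and pulled contents, typed -/
lemma sum_h_sq (y : ℝ) : ∑ z, D.h p (D.cP p b) z y ^ 2 ≤
    (∑ j, (pA (bB p b.2) j y + pQ (bB p b.2) j y)) ^ 2 := by
  have Kk := H.bok hb hp
  have e : ∀ j, jv (D.cP p b).2 j y = pA (bB p b.2) j y + pQ (bB p b.2) j y :=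
    fun j => jv_chP Kk j y
  have h0 : ∀ j, 0 ≤ jv (D.cP p b).2 j y := fun j => by
    rw [e]
    exact add_nonneg ((Kk.PA j).nonneg y) ((Kk.PQ j).nonneg y)
  refine sum_sq_le_sq (fun z => ?_) ?_
  · show 0 ≤ bcp (D.tp p (D.cP p b).1) (D.cP p b).2 (some z) y
    rw [bcp_eq, hz_eq]
    refine Finset.sum_nonneg fun j _ => ?_
    split_ifs
    · exact h0 j
    · exact le_rfl
  · have h1 := sum_bcp_le (ζ := ζ) (D.tp p (D.cP p b).1) (D.cP p b).2 h0
    rw [Finset.sum_congr rfl fun j _ => e j] at h1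
    exact h1

/-- N contents, typed -/
lemma sum_Bl_sq (y : ℝ) : ∑ z, Bl D wr p b z y ^ 2 ≤ (∑ j, pB (bB p b.2) j y) ^ 2 := by
  have Kk := H.bok hb hp
  have h0 : ∀ j, 0 ≤ pB (bB p b.2) j y := fun j => (Kk.PBb j).nonneg y
  refine sum_sq_le_sq (fun z => (PBl H hb hp z).nonneg y) ?_
  exact sum_cz_le (wr p) (D.lt p b.1) (pB (bB p b.2)) h0

end ev

/-- energy of a kernel at a point -/
noncomputable def GK (K : Λ → Λ → ℝ) (p : ℕ) (b : μ × List (DT Λ κ)) (y : ℝ) : ℝ :=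
  ∑ j, ∑ i, K j i * (pA (bB p b.2) j y * pB (bB p b.2) i y)

/-- **the squares of the second order births are paid by the kernel** -/
def EK (D : TD μ Λ κ ζ) (wr : ℕ → Λ → κ) (p : ℕ) (b : μ × List (DT Λ κ)) (T : ℝ → Λ → Λ → Prop)
    (K : Λ → Λ → ℝ) (y : ℝ) : Prop :=
  ∃ E F : ℝ, 0 ≤ E ∧ 0 ≤ F ∧ ∑ z, MaT D wr p b T z y ^ 2 ≤ E ∧ ∑ z, MbT D wr p b T z y ^ 2 ≤ E ∧
    ∑ z, emm D wr p b T z y ≤ F ∧ E + F ≤ GK K p b y

lemma EK.of_KTp (H : TYp wr D Inv) (hb : Inv p b) (hp : p ≠ 0) {T : ℝ → Λ → Λ → Prop}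
    {K : Λ → Λ → ℝ} {y : ℝ} (k : KTp D wr p b T K y) (K0 : ∀ j i, 0 ≤ K j i) :
    EK D wr p b T K y := sum_KT H hb hp k K0

lemma PGK (H : TYp wr D Inv) (hb : Inv p b) (hp : p ≠ 0) {K : Λ → Λ → ℝ} (K0 : ∀ j i, 0 ≤ K j i) :
    PB (GK K p b) := by
  have Kk := H.bok hb hp
  exact PB.sum _ fun j _ => PB.sum _ fun i _ => ((Kk.PA j).mul (Kk.PBb i)).smul (K0 j i)

lemma I_GK (H : TYp wr D Inv) (hb : Inv p b) (hp : p ≠ 0) {K : Λ → Λ → ℝ}
    (K0 : ∀ j i, 0 ≤ K j i) : I (GK K p b) = bil K (pA (bB p b.2)) (pB (bB p b.2)) := by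
  have Kk := H.bok hb hp
  have pj : ∀ j i, PB fun x => K j i * (pA (bB p b.2) j x * pB (bB p b.2) i x) := fun j i =>
    ((Kk.PA j).mul (Kk.PBb i)).smul (K0 j i)
  unfold GK
  rw [PrF45.I_sum2 pj]
  unfold bil
  exact Finset.sum_congr rfl fun j _ => Finset.sum_congr rfl fun i _ => I_smul _ _

section inst
variable (H : TYp wr D Inv) (hU : ∀ {p b}, Inv p b → p ≠ 0 → ∀ z x, ¬ D.spc p b z x)
  (T : ℕ → μ × List (DT Λ κ) → ℝ → Λ → Λ → Prop) (Lo : ℕ → μ × List (DT Λ κ) → ℝ → Λ → Prop)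
  (hT : ∀ {p b}, Inv p b → p ≠ 0 → ∀ j i, MP fun y => T p b y j i)
  (hL : ∀ {p b}, Inv p b → p ≠ 0 → ∀ i, MP fun y => Lo p b y i)

/-- **the births of a type on a fibre** -/
lemma sE_eq (hb : Inv p b) (hp : p ≠ 0) (z : ζ) (y : ℝ) :
    sE (rowsW H hU T Lo hT hL) p b z y = (etT D wr p b (T p b) (Lo p b) z y +
      MbT D wr p b (T p b) z y) + (MbT D wr p b (T p b) z y + MaT D wr p b (T p b) z y) := by
  have hp0 : 0 < p := Nat.pos_of_ne_zero hp
  have hp' : (p : ℝ) ≠ 0 := by exact_mod_cast hp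
  have h1 := lift_ElT H hb hp (hT hb hp) (hL hb hp) z y
  have hM : PB fun y => MbT D wr p b (T p b) z y + MaT D wr p b (T p b) z y :=
    (PMbT H hb hp (hT hb hp) z).add (PMaT H hb hp (hT hb hp) z)
  have h2 : ∑ k ∈ Finset.range p, EsT D wr p b (T p b) z ((y + (k:ℕ)) / p) =
      MbT D wr p b (T p b) z y + MaT D wr p b (T p b) z y := by
    have e : ∀ k ∈ Finset.range p, EsT D wr p b (T p b) z ((y + (k:ℕ)) / p) =
        1 / (p : ℝ) * (MbT D wr p b (T p b) z y + MaT D wr p b (T p b) z y) := fun k _ => by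
      unfold EsT
      rw [DTo407.fib_per hp0 (P := fun y => MbT D wr p b (T p b) z y + MaT D wr p b (T p b) z y)
        hM.per y k]
    rw [Finset.sum_congr rfl e, Finset.sum_const, Finset.card_range, nsmul_eq_mul]
    field_simp
  have h3 : sE (rowsW H hU T Lo hT hL) p b z y =
      ∑ k ∈ Finset.range p, (rowsW H hU T Lo hT hL).E2 p b z ((y + (k:ℕ)) / p) := by
    unfold sE Ep
    field_simp
  have e2 : ∀ x, (rowsW H hU T Lo hT hL).E2 p b z x =
      ElT D wr p b (T p b) (Lo p b) z x + EsT D wr p b (T p b) z x := fun x => by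
    show ElT D wr p b (T p b) (Lo p b) z x + EsT D wr p b (T p b) z x + 0 = _
    rw [add_zero]
  rw [h3, Finset.sum_congr rfl fun k _ => e2 _, Finset.sum_add_distrib, h1, h2]

/-- N content in the bundle -/
def Ac (p : ℕ) (b : μ × List (DT Λ κ)) : Prop := ∃ i y, pB (bB p b.2) i y ≠ 0

/-- **births need N content** -/
lemma sE_ne (hb : Inv p b) (hp : p ≠ 0) {z : ζ} {y : ℝ}
    (h : sE (rowsW H hU T Lo hT hL) p b z y ≠ 0) : Ac p b := by
  by_contra hn
  have h0 : ∀ i y, pB (bB p b.2) i y = 0 := fun i y => by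
    by_contra h1
    exact hn ⟨i, y, h1⟩
  apply h
  rw [sE_eq H hU T Lo hT hL hb hp]
  have e1 : etT D wr p b (T p b) (Lo p b) z y = 0 := by
    unfold etT uB
    refine Finset.sum_eq_zero fun i _ => ?_
    rw [h0, mul_zero, mul_zero]
    by_cases hc : D.lt p b.1 y i = some z
    · rw [ch_on hc]
    · rw [ch_off hc]
  have e2 : ∀ P : ℝ → Λ → Λ → Prop, cr D wr p b P y = 0 := fun P => by
    by_contra hc
    obtain ⟨j, i, -, -, -, hB⟩ := cr_ne H hb hp hc
    exact hB (h0 i y)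
  have e3 : MbT D wr p b (T p b) z y = 0 := e2 _
  have e4 : MaT D wr p b (T p b) z y = 0 := e2 _
  rw [e1, e3, e4]
  norm_num

/-- squares of the births on the fibres -/
lemma sum_sE (hb : Inv p b) (hp : p ≠ 0) {y : ℝ} {K : Λ → Λ → ℝ}
    (k : EK D wr p b (T p b) K y) :
    ∑ z, sE (rowsW H hU T Lo hT hL) p b z y ^ 2 ≤ 2 * (10 * GK K p b y) := by
  have h1 : ∑ z, ((2 * etT D wr p b (T p b) (Lo p b) z y ^ 2 + 2 * MbT D wr p b (T p b) z y ^ 2) +
      (MbT D wr p b (T p b) z y + MaT D wr p b (T p b) z y) ^ 2) ≤ 10 * GK K p b y := by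
    obtain ⟨E, F, hE, hF, q1, q2, q3, q4⟩ := k
    have h3 : ∑ z, ((2 * etT D wr p b (T p b) (Lo p b) z y ^ 2 +
        2 * MbT D wr p b (T p b) z y ^ 2) +
        (MbT D wr p b (T p b) z y + MaT D wr p b (T p b) z y) ^ 2) ≤
        ∑ z, (4 * emm D wr p b (T p b) z y + 6 * MaT D wr p b (T p b) z y ^ 2 +
          4 * MbT D wr p b (T p b) z y ^ 2) :=
      Finset.sum_le_sum fun z _ => by
        have h4 := etT_sq H hb hp (T := T p b) (Lo := Lo p b) z y
        nlinarith [sq_nonneg (MbT D wr p b (T p b) z y - MaT D wr p b (T p b) z y)]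
    have e4 : ∑ z, (4 * emm D wr p b (T p b) z y + 6 * MaT D wr p b (T p b) z y ^ 2 +
          4 * MbT D wr p b (T p b) z y ^ 2) = 4 * ∑ z, emm D wr p b (T p b) z y +
        6 * ∑ z, MaT D wr p b (T p b) z y ^ 2 + 4 * ∑ z, MbT D wr p b (T p b) z y ^ 2 := by
      rw [Finset.mul_sum, Finset.mul_sum, Finset.mul_sum, ← Finset.sum_add_distrib,
        ← Finset.sum_add_distrib]
    rw [e4] at h3
    linarith
  have h2 : ∑ z, sE (rowsW H hU T Lo hT hL) p b z y ^ 2 ≤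
      2 * ∑ z, ((2 * etT D wr p b (T p b) (Lo p b) z y ^ 2 + 2 * MbT D wr p b (T p b) z y ^ 2) +
      (MbT D wr p b (T p b) z y + MaT D wr p b (T p b) z y) ^ 2) := by
    rw [Finset.mul_sum]
    refine Finset.sum_le_sum fun z _ => ?_
    rw [sE_eq H hU T Lo hT hL hb hp]
    set e := etT D wr p b (T p b) (Lo p b) z y
    set m := MbT D wr p b (T p b) z y
    set a := MaT D wr p b (T p b) z y
    nlinarith [sq_nonneg ((e + m) - (m + a)), sq_nonneg (e - m)]
  linarith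

/-- **one member** -/
theorem I_xo {θ τ : ℕ → ℝ} (hθ : 0 < θ p) (hτ : 0 < τ p) (hb : Inv p b) (hp : p ≠ 0)
    {K : Λ → Λ → ℝ} (K0 : ∀ j i, 0 ≤ K j i) (k : ∀ y, EK D wr p b (T p b) K y) :
    ∑ z, I (xo (rowsW H hU T Lo hT hL) θ τ p b z) ≤ 10 / (θ p * p) * (τ p *
      (10 * bil K (pA (bB p b.2)) (pB (bB p b.2))) +
      1 / τ p * (ch (Ac p b) (E2 (fun j y => pA (bB p b.2) j y + pQ (bB p b.2) j y)) +
        E2 (pB (bB p b.2)))) := by
  have hp0 : 0 < p := Nat.pos_of_ne_zero hp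
  have hp' : (0:ℝ) < p := by exact_mod_cast hp0
  have Kk := H.bok hb hp
  set Q := rowsW H hU T Lo hT hL with hQ
  have Px : ∀ z, PB (xo Q θ τ p b z) := fun z => Pxo Q hb hp hθ hτ z
  have pT : ∀ j, PB fun y => pA (bB p b.2) j y + pQ (bB p b.2) j y :=
    fun j => (Kk.PA j).add (Kk.PQ j)
  have pS : PB fun y => (∑ j, (pA (bB p b.2) j y + pQ (bB p b.2) j y)) ^ 2 :=
    BthT48.Fib.PB_sq (PB.sum _ fun j _ => pT j)
  have pB2 : PB fun y => (∑ j, pB (bB p b.2) j y) ^ 2 :=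
    BthT48.Fib.PB_sq (PB.sum _ fun j _ => Kk.PBb j)
  have pW : PB fun y => 10 * GK K p b y := (PGK H hb hp K0).smul (by norm_num)
  -- the fibres
  have h1 : ∀ z y, Ep p (xo Q θ τ p b z) y ≤ 10 / (θ p * p) * (τ p / 2 * sE Q p b z y ^ 2 +
      1 / τ p * (ch (sE Q p b z y ≠ 0) (D.h p (D.cP p b) z y ^ 2) + Bl D wr p b z y ^ 2)) := by
    intro z y
    have a1 := Ep_self hp0 (PsE Q hb hp z) (lift_sE Q hp z) y
    have a2 := Ep_share hp0 (E := Q.E2 p b z) (s := sE Q p b z) (h := (rxm H).hP p b z)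
      (a := D.h p (D.cP p b) z) (G := Gl D wr p b z) (B := Bl D wr p b z) (Q.pE2 hb hp z)
      (PsE Q hb hp z) (gmu H hb hp z).pa (PGl H z) ((rxm H).pP hb hp z) (lift_sE Q hp z)
      (lift_Gl H hb hp z) (fun x => hP_le H hb hp (hU hb hp) z x) y
    have e : Ep p (xo Q θ τ p b z) y = 5 / θ p * (τ p * Ep p (fun x => Q.E2 p b z x *
        sE Q p b z (p * x)) y + 1 / τ p * Ep p (fun x => (rxm H).hP p b z x ^ 2 *
          (Q.E2 p b z x / sE Q p b z (p * x))) y) := by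
      rw [← TyS16.Ep_smul', ← TyS16.Ep_smul', ← TyS16.Ep_add', ← TyS16.Ep_smul']
      congr 1
      funext x
      unfold xo
      ring
    rw [e, a1]
    have a3 := mul_le_mul_of_nonneg_left a2 (show (0:ℝ) ≤ 1 / τ p by positivity)
    have a4 := mul_le_mul_of_nonneg_left (add_le_add (le_refl (τ p * (1 / (p:ℝ) *
      sE Q p b z y ^ 2))) a3) (show (0:ℝ) ≤ 5 / θ p by positivity)
    refine a4.trans (le_of_eq ?_)
    field_simp
    ring
  -- sum over the types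
  have h2 : ∀ y, ∑ z, Ep p (xo Q θ τ p b z) y ≤ 10 / (θ p * p) * (τ p * (10 * GK K p b y) +
      1 / τ p * (ch (Ac p b) ((∑ j, (pA (bB p b.2) j y + pQ (bB p b.2) j y)) ^ 2) +
        (∑ j, pB (bB p b.2) j y) ^ 2)) := by
    intro y
    refine (Finset.sum_le_sum fun z _ => h1 z y).trans ?_
    rw [← Finset.mul_sum]
    refine mul_le_mul_of_nonneg_left ?_ (by positivity)
    rw [Finset.sum_add_distrib, ← Finset.mul_sum, ← Finset.mul_sum, Finset.sum_add_distrib]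
    have b1 := sum_sE H hU T Lo hT hL hb hp (y := y) (k y)
    have b2 := sum_Bl_sq H hb hp y
    have b3 : ∑ z, ch (sE Q p b z y ≠ 0) (D.h p (D.cP p b) z y ^ 2) ≤
        ch (Ac p b) ((∑ j, (pA (bB p b.2) j y + pQ (bB p b.2) j y)) ^ 2) := by
      by_cases hA : Ac p b
      · rw [ch_on hA]
        refine le_trans (Finset.sum_le_sum fun z _ => ?_) (sum_h_sq H hb hp y)
        by_cases hs : sE Q p b z y ≠ 0
        · rw [ch_on hs]
        · rw [ch_off hs]; exact sq_nonneg _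
      · rw [ch_off hA]
        refine (Finset.sum_eq_zero fun z _ => ch_off fun hs => hA ?_).le
        exact sE_ne H hU T Lo hT hL hb hp hs
    have b4 := mul_le_mul_of_nonneg_left b1 (show (0:ℝ) ≤ τ p / 2 by positivity)
    have b5 := mul_le_mul_of_nonneg_left (add_le_add b3 b2) (show (0:ℝ) ≤ 1 / τ p by positivity)
    linarith
  -- integrals
  have e1 : ∑ z, I (xo Q θ τ p b z) = I fun y => ∑ z, Ep p (xo Q θ τ p b z) y := by
    rw [I_sum _ fun z _ => ((Px z).Ep hp0).integrableOn]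
    exact Finset.sum_congr rfl fun z _ => (I_Ep hp0 (Px z).integrableOn).symm
  rw [e1]
  have pC : PB fun y => ch (Ac p b) ((∑ j, (pA (bB p b.2) j y + pQ (bB p b.2) j y)) ^ 2) := by
    by_cases hA : Ac p b
    · simp only [ch_on hA]; exact pS
    · simp only [ch_off hA]; exact PB.const le_rfl
  have pF : PB fun y => 10 / (θ p * p) * (τ p * (10 * GK K p b y) +
      1 / τ p * (ch (Ac p b) ((∑ j, (pA (bB p b.2) j y + pQ (bB p b.2) j y)) ^ 2) +
        (∑ j, pB (bB p b.2) j y) ^ 2)) :=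
    ((pW.smul hτ.le).add ((pC.add pB2).smul (by positivity))).smul (by positivity)
  refine (I_mono (PB.sum _ fun z _ => (Px z).Ep hp0).integrableOn pF.integrableOn h2).trans
    (le_of_eq ?_)
  rw [I_smul, I_add (pW.smul hτ.le).integrableOn
    ((pC.add pB2).smul (show (0:ℝ) ≤ 1 / τ p by positivity)).integrableOn, I_smul, I_smul, I_smul,
    I_add pC.integrableOn pB2.integrableOn, I_GK H hb hp K0]
  have e2 : I (fun y => ch (Ac p b) ((∑ j, (pA (bB p b.2) j y + pQ (bB p b.2) j y)) ^ 2)) =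
      ch (Ac p b) (E2 (fun j y => pA (bB p b.2) j y + pQ (bB p b.2) j y)) := by
    by_cases hA : Ac p b
    · simp only [ch_on hA]; rfl
    · simp only [ch_off hA]; simp [I]
  rw [e2]
  rfl

/-- **the group** -/
theorem I_xO {θ τ : ℕ → ℝ} (hθ : 0 < θ p) (hτ : 0 < τ p) {s : Gs (μ × List (DT Λ κ))}
    (hs : (rxm H).gok p s) (hp : p ≠ 0) {K : Λ → Λ → ℝ} (K0 : ∀ j i, 0 ≤ K j i)
    (k : ∀ j y, EK D wr p (s.L j) (T p (s.L j)) K y) :
    I (xO (rowsW H hU T Lo hT hL) θ τ p s) ≤ M s.c fun j => 10 / (θ p * p) *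
      (τ p * (10 * bil K (pA (bB p (s.L j).2)) (pB (bB p (s.L j).2))) +
      1 / τ p * (ch (Ac p (s.L j)) (E2 (fun i y => pA (bB p (s.L j).2) i y +
        pQ (bB p (s.L j).2) i y)) + E2 (pB (bB p (s.L j).2)))) := by
  have c0 := hs.1.c0
  have Px : ∀ j z, PB (xo (rowsW H hU T Lo hT hL) θ τ p (s.L j) z) :=
    fun j z => Pxo _ (hs.2 j) hp hθ hτ z
  have e1 : xO (rowsW H hU T Lo hT hL) θ τ p s =
      fun x => M s.c fun j => ∑ z, xo (rowsW H hU T Lo hT hL) θ τ p (s.L j) z x := by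
    funext x
    unfold xO M
    rw [Finset.sum_comm]
    exact Finset.sum_congr rfl fun j _ => (Finset.mul_sum _ _ _).symm
  have e2 : I (xO (rowsW H hU T Lo hT hL) θ τ p s) =
      M s.c fun j => ∑ z, I (xo (rowsW H hU T Lo hT hL) θ τ p (s.L j) z) := by
    rw [e1]
    unfold M
    rw [I_sum _ fun j _ => ((PB.sum _ fun z _ => Px j z).smul (c0 j)).integrableOn]
    refine Finset.sum_congr rfl fun j _ => ?_
    rw [I_smul, I_sum _ fun z _ => (Px j z).integrableOn]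
  rw [e2]
  exact M_mono c0 fun j => I_xo H hU T Lo hT hL hθ hτ (hs.2 j) hp K0 (k j)

end inst

end Crest.Agent.R4P.BthY48
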