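import Crest.Agent.R4P.ThA_45
import Crest.Agent.R4P.XEx_29
import Crest.Agent.R4P.PN_36

/-!
R4 (S0004) with powers, helper625: **item-level budgets of the group walk** (helper17, doc 1177).

* `PsiOk Ψ` : `0 ≤ Ψ v ≤ v`, measurable; `IE Ψ t = Σ_j ∫ Ψ (val_j)`, `MS t = Σ_j ∫ val_j`.
* `lamI Ψ` : item-level loss of `Ψ` at a tie or pull, `(1-w) IE Ψ t₁ + w IE Ψ t₀ - IE Ψ t`.
* `GS_lamI_le` : **the sum of the losses over a group walk is at most the mass of the group**
  (any `Ψ`, convex or not).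
* `ItDat`, `toDT_ItDat` : item data of the ties of a concrete tree
  (`v = f - w u - R + g`, `u` = unmatched incumbents, `R` = reduction, `g` = lifted challengers).
* `bnd a v = (v - a)⁺`; `lamI_bnd` : `(w/4) Σ_j ∫_{2a ≤ f_j ≤ 4a} u_j ≤ lamI (bnd a)`.
* `abv a v = v 1_{v > a}`; `lamI_abv` : the mass which drops below `a` is `lamI (abv a)`.
-/

set_option autoImplicit false
set_option linter.unusedSectionVars false
set_option linter.unusedVariables false
open MeasureTheory Filter Set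

namespace Crest.Agent.R4P.Bud625

open Crest.Agent.R4.Tour104 Crest.Agent.R4.Tour758 Crest.Agent.R4.Avg758 Crest.Agent.R4.Clos758
open Crest.Agent.R4.ClosL758 Crest.Agent.R4.ClosG758 Crest.Agent.R4.ClosR758
open Crest.Agent.R4.Fam464 Crest.Agent.R4.Lam368
open Crest.Agent.R4P.ClosR442 Crest.Agent.R4P.Grp36
open Crest.Agent.R4P.Walk560 (DT)
open Crest.Agent.R4P.Item758
open Crest.Agent.R4P.Cnt588

/-! ### the functions -/

/-- admissible functions of the height -/
structure PsiOk (Ψ : ℝ → ℝ) : Prop where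
  meas : Measurable Ψ
  n : ∀ v, 0 ≤ v → 0 ≤ Ψ v
  le : ∀ v, 0 ≤ v → Ψ v ≤ v

lemma PsiOk.zero {Ψ : ℝ → ℝ} (h : PsiOk Ψ) : Ψ 0 = 0 := le_antisymm (h.le 0 le_rfl) (h.n 0 le_rfl)

lemma PsiOk.PB {Ψ : ℝ → ℝ} (h : PsiOk Ψ) {f : ℝ → ℝ} (hf : PB f) : PB fun x => Ψ (f x) := by
  obtain ⟨M, hM⟩ := hf.bdd
  exact ⟨h.meas.comp hf.meas, fun x => h.n _ (hf.nonneg x),
    ⟨M, fun x => (h.le _ (hf.nonneg x)).trans (hM x)⟩, fun x => by rw [hf.per]⟩

section gen
variable {Λ κ : Type*} [Fintype Λ]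

/-- item energy -/
noncomputable def IE (Ψ : ℝ → ℝ) (t : DT Λ κ) : ℝ := ∑ j, I (fun x => Ψ (t.g.val j x))

/-- mass -/
noncomputable def MS (t : DT Λ κ) : ℝ := ∑ j, I (fun x => t.g.val j x)

/-- item-level loss of a tie or pull -/
noncomputable def lamI (Ψ : ℝ → ℝ) : DT Λ κ → ℝ
  | .br p w r t₁ t₀ v B G => (1 - w) * IE Ψ t₁ + w * IE Ψ t₀ - IE Ψ (.br p w r t₁ t₀ v B G)
  | _ => 0

/-- the two sides of an `add` node have different items -/
def AddD : DT Λ κ → Prop
  | .add _ _ t₁ t₀ => ∀ j, (∀ x, t₁.g.val j x = 0) ∨ (∀ x, t₀.g.val j x = 0)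
  | _ => True

/-- all nodes: item means, bounded functions, disjoint `add` nodes -/
structure BNd (t : DT Λ κ) : Prop where
  im : IMean t
  pb : ∀ j, PB (t.g.val j)
  ad : AddD t

/-- mass minus energy -/
noncomputable def DD (Ψ : ℝ → ℝ) (t : DT Λ κ) : ℝ := MS t - IE Ψ t

lemma DD_nonneg {Ψ : ℝ → ℝ} (h : PsiOk Ψ) {t : DT Λ κ} (hp : ∀ j, PB (t.g.val j)) :
    0 ≤ DD Ψ t := by
  unfold DD MS IE
  rw [← Finset.sum_sub_distrib]
  refine Finset.sum_nonneg fun j _ => ?_
  have := I_mono (h.PB (hp j)).integrableOn (hp j).integrableOn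
    fun x => h.le _ ((hp j).nonneg x)
  linarith

lemma DD_le {Ψ : ℝ → ℝ} (h : PsiOk Ψ) {t : DT Λ κ} (hp : ∀ j, PB (t.g.val j)) :
    DD Ψ t ≤ MS t := by
  unfold DD
  have : 0 ≤ IE Ψ t := Finset.sum_nonneg fun j _ => I_nonneg (h.PB (hp j)).nonneg
  linarith

/-- sum over the members of a group -/
noncomputable def lsum (F : DT Λ κ → ℝ) (g : Gp Λ κ) : ℝ := (g.map fun m => m.1 * F m.2).sum

lemma lsum_append (F : DT Λ κ → ℝ) (g h : Gp Λ κ) : lsum F (g ++ h) = lsum F g + lsum F h := by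
  simp [lsum]

@[simp] lemma lsum_nil (F : DT Λ κ → ℝ) : lsum F ([] : Gp Λ κ) = 0 := rfl

lemma lsum_cons (F : DT Λ κ → ℝ) (m : ℝ × DT Λ κ) (g : Gp Λ κ) :
    lsum F (m :: g) = m.1 * F m.2 + lsum F g := by simp [lsum]

lemma lsum_filter (F : DT Λ κ → ℝ) (q : DT Λ κ → Bool) (g : Gp Λ κ) :
    lsum F (g.filter fun m => q m.2) + lsum F (g.filter fun m => !q m.2) = lsum F g := by
  induction g with
  | nil => simp
  | cons m g ih =>
    by_cases h : q m.2 = true
    · rw [List.filter_cons_of_pos (by simpa using h), List.filter_cons_of_neg (by simp [h]),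
        lsum_cons, lsum_cons]
      linarith
    · rw [List.filter_cons_of_neg (by simpa using h),
        List.filter_cons_of_pos (by simpa using h), lsum_cons, lsum_cons]
      linarith

/-- `F` is additive at the `add` nodes and does not see `up` nodes -/
def AddF (F : DT Λ κ → ℝ) (t : DT Λ κ) : Prop :=
  match t with
  | .add b r t₁ t₀ => F (.add b r t₁ t₀) = F t₁ + F t₀
  | .up b Sp t => F (.up b Sp t) = F t
  | _ => True

lemma lsum_rs {F : DT Λ κ → ℝ} (p : ℕ) (c : ℝ) (t : DT Λ κ) (h : t.All (AddF F)) :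
    lsum F ((rs p t).map fun t => (c, t)) = c * F t := by
  induction t with
  | leaf r f => simp [rs, lsum]
  | br q w r t₁ t₀ v B G => simp [rs, lsum]
  | add q r t₁ t₀ ih₁ ih₀ =>
    unfold rs
    split_ifs with hq
    · have e : F (.add q r t₁ t₀) = F t₁ + F t₀ := h.1
      rw [List.map_append, lsum_append, ih₁ h.2.1, ih₀ h.2.2, e]; ring
    · simp [lsum]
  | up q Sp t ih =>
    unfold rs
    split_ifs with hq
    · have e : F (.up q Sp t) = F t := h.1
      rw [ih h.2, e]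
    · simp [lsum]

lemma lsum_rsG {F : DT Λ κ → ℝ} (p : ℕ) (g : Gp Λ κ) (h : ∀ m ∈ g, m.2.All (AddF F)) :
    lsum F (rsG p g) = lsum F g := by
  induction g with
  | nil => rfl
  | cons m g ih =>
    rw [rsG_cons, lsum_append, lsum_rs p m.1 m.2 (h m (by simp)),
      ih fun a ha => h a (List.mem_cons_of_mem _ ha), lsum_cons]

/-- splitting -/
lemma lsum_split {F : DT Λ κ → ℝ} (p : ℕ) (g : Gp Λ κ) (h : ∀ m ∈ g, m.2.All (AddF F)) :
    lsum F g = lsum F (gB p g) + lsum F (gR p g) := by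
  rw [← lsum_rsG p g h]
  exact (lsum_filter F (fun t => isB p t) (rsG p g)).symm

/-- mean step: `F` at a tie or pull is `lam` plus the children -/
lemma lsum_step {F lam : DT Λ κ → ℝ} {p : ℕ} {g : Gp Λ κ} (hb : ∀ m ∈ g, isB p m.2 = true)
    (h : ∀ m ∈ g, ∀ w r t₁ t₀ v B G, m.2 = .br p w r t₁ t₀ v B G →
      F m.2 = lam m.2 + (1 - w) * F t₁ + w * F t₀) :
    lsum F g = lsum lam g +
      lsum F (g.flatMap fun m => (chd m.2).map fun q => (m.1 * q.1, q.2)) := by
  induction g with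
  | nil => simp
  | cons m g ih =>
    obtain ⟨w, r, t₁, t₀, v, B, G, e⟩ := isB_eq (hb m (by simp))
    rw [lsum_cons, lsum_cons, List.flatMap_cons, lsum_append,
      ih (fun a ha => hb a (List.mem_cons_of_mem _ ha))
        (fun a ha => h a (List.mem_cons_of_mem _ ha)),
      h m (by simp) w r t₁ t₀ v B G e]
    have e2 : lsum F ((chd m.2).map fun q => (m.1 * q.1, q.2)) =
        m.1 * (1 - w) * F t₁ + m.1 * w * F t₀ := by
      rw [e]
      simp [chd, lsum]
    rw [e2]; ring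

/-- **potential lemma** : a nonnegative node functional which is additive and drops by `lam` -/
theorem GS_lsum_le {F lam : DT Λ κ → ℝ} (hF : ∀ t : DT Λ κ, t.All BNd → 0 ≤ F t)
    (hA : ∀ t : DT Λ κ, t.All BNd → t.All (AddF F))
    (hs : ∀ (p : ℕ) (w : ℝ) (r : Λ → κ) (t₁ t₀ : DT Λ κ) (v : Λ → ℝ → ℝ) (B G : κ → ℝ → ℝ),
      (DT.br p w r t₁ t₀ v B G).All BNd → F (.br p w r t₁ t₀ v B G) =
        lam (.br p w r t₁ t₀ v B G) + (1 - w) * F t₁ + w * F t₀) :
    ∀ (n p : ℕ) (g : Gp Λ κ), (∀ m ∈ g, 0 ≤ m.1) → (∀ m ∈ g, m.2.All BNd) →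
      GS (fun _ g => lsum lam g) n p g ≤ lsum F g := by
  intro n
  induction n with
  | zero =>
    intro p g hw hg
    unfold GS lsum
    refine List.sum_nonneg fun x hx => ?_
    obtain ⟨m, hm, rfl⟩ := List.mem_map.1 hx
    exact mul_nonneg (hw m hm) (hF _ (hg m hm))
  | succ n ih =>
    intro p g hw hg
    have h0 : 0 ≤ lsum F g := by
      unfold lsum
      refine List.sum_nonneg fun x hx => ?_
      obtain ⟨m, hm, rfl⟩ := List.mem_map.1 hx
      exact mul_nonneg (hw m hm) (hF _ (hg m hm))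
    unfold GS
    split_ifs with hp
    · exact h0
    · have hrs : ∀ m ∈ rsG p g, 0 ≤ m.1 ∧ m.2.All BNd := by
        intro m hm
        obtain ⟨m', h1, h2, h3⟩ := mem_rsG hm
        exact ⟨by rw [h2]; exact hw m' h1, rs_all p (hg m' h1) _ h3⟩
      have hB : ∀ m ∈ gB p g, 0 ≤ m.1 ∧ m.2.All BNd := fun m hm => hrs m (List.mem_filter.1 hm).1
      have hR : ∀ m ∈ gR p g, 0 ≤ m.1 ∧ m.2.All BNd := fun m hm => hrs m (List.mem_filter.1 hm).1
      have hC : ∀ m ∈ gC p g, 0 ≤ m.1 ∧ m.2.All BNd := by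
        intro m hm
        obtain ⟨m', h1, q, h2, rfl⟩ := mem_gC hm
        obtain ⟨w, r, t₁, t₀, v, B, G, e⟩ := isB_eq (mem_gB h1).2
        obtain ⟨k1, k2⟩ := hB m' h1
        have k3 := k2.self.im
        rw [e] at h2 k2 k3
        simp only [chd, List.mem_cons, List.not_mem_nil, or_false] at h2
        rcases h2 with rfl | rfl
        · exact ⟨mul_nonneg k1 (by linarith [k3.2.2.1]), k2.2.1⟩
        · exact ⟨mul_nonneg k1 k3.2.1, k2.2.2⟩
      have h1 := ih p _ (fun m hm => (hC m hm).1) (fun m hm => (hC m hm).2)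
      have h2 := ih (p - 1) _ (fun m hm => (hR m hm).1) (fun m hm => (hR m hm).2)
      have h3 := lsum_split (F := F) p g fun m hm => hA _ (hg m hm)
      have h4 : lsum F (gB p g) = lsum lam (gB p g) + lsum F (gC p g) := by
        refine lsum_step (fun m hm => (mem_gB hm).2) fun m hm w r t₁ t₀ v B G e => ?_
        have k := (hB m hm).2
        rw [e] at k ⊢
        exact hs p w r t₁ t₀ v B G k
      linarith

lemma MS_add {b : ℕ} {r : Λ → κ} {t₁ t₀ : DT Λ κ} (h1 : ∀ j, PB (t₁.g.val j))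
    (h0 : ∀ j, PB (t₀.g.val j)) : MS (.add b r t₁ t₀) = MS t₁ + MS t₀ := by
  unfold MS
  rw [← Finset.sum_add_distrib]
  exact Finset.sum_congr rfl fun j _ => I_add (h1 j).integrableOn (h0 j).integrableOn

lemma IE_add {Ψ : ℝ → ℝ} (h : PsiOk Ψ) {b : ℕ} {r : Λ → κ} {t₁ t₀ : DT Λ κ}
    (hd : AddD (.add b r t₁ t₀ : DT Λ κ)) : IE Ψ (.add b r t₁ t₀) = IE Ψ t₁ + IE Ψ t₀ := by
  unfold IE
  rw [← Finset.sum_add_distrib]
  refine Finset.sum_congr rfl fun j _ => ?_
  have e0 : I (fun _ => (0 : ℝ)) = 0 := by simp [I]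
  rcases hd j with h1 | h1
  · have e1 : (fun x => Ψ ((DT.add b r t₁ t₀).g.val j x)) = fun x => Ψ (t₀.g.val j x) := by
      funext x
      rw [val_add, h1, zero_add]
    have e2 : (fun x => Ψ (t₁.g.val j x)) = fun _ => 0 := by
      funext x
      rw [h1, h.zero]
    rw [e1, e2, e0, zero_add]
  · have e1 : (fun x => Ψ ((DT.add b r t₁ t₀).g.val j x)) = fun x => Ψ (t₁.g.val j x) := by
      funext x
      rw [val_add, h1, add_zero]
    have e2 : (fun x => Ψ (t₀.g.val j x)) = fun _ => 0 := by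
      funext x
      rw [h1, h.zero]
    rw [e1, e2, e0, add_zero]

lemma all_addF_DD {Ψ : ℝ → ℝ} (h : PsiOk Ψ) (t : DT Λ κ) (ht : t.All BNd) :
    t.All (AddF (DD Ψ)) := by
  induction t with
  | leaf r f => exact trivial
  | br q w r t₁ t₀ v B G ih₁ ih₀ => exact ⟨trivial, ih₁ ht.2.1, ih₀ ht.2.2⟩
  | add q r t₁ t₀ ih₁ ih₀ =>
    refine ⟨?_, ih₁ ht.2.1, ih₀ ht.2.2⟩
    show DD Ψ (.add q r t₁ t₀) = DD Ψ t₁ + DD Ψ t₀
    unfold DD
    rw [MS_add ht.2.1.self.pb ht.2.2.self.pb, IE_add h ht.1.ad]; ring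
  | up q Sp t ih => exact ⟨rfl, ih ht.2⟩

lemma MS_br {p : ℕ} {w : ℝ} {r : Λ → κ} {t₁ t₀ : DT Λ κ} {v : Λ → ℝ → ℝ} {B G : κ → ℝ → ℝ}
    (hi : IMean (.br p w r t₁ t₀ v B G : DT Λ κ)) (hv : ∀ j, PB (v j))
    (h1 : ∀ j, PB (t₁.g.val j)) (h0 : ∀ j, PB (t₀.g.val j)) :
    MS (.br p w r t₁ t₀ v B G) = (1 - w) * MS t₁ + w * MS t₀ := by
  obtain ⟨hp, w0, w1, hm⟩ := hi
  unfold MS
  rw [Finset.mul_sum, Finset.mul_sum, ← Finset.sum_add_distrib]
  refine Finset.sum_congr rfl fun j _ => ?_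
  have e1 : I (fun x => v j x) = I (Ep p (v j)) := (I_Ep hp (hv j).integrableOn).symm
  have e2 : Ep p (v j) = fun y => (1 - w) * t₁.g.val j y + w * t₀.g.val j y := funext (hm j)
  show I (fun x => v j x) = _
  rw [e1, e2, I_add ((h1 j).smul (by linarith)).integrableOn ((h0 j).smul w0).integrableOn,
    I_smul, I_smul]

/-- **the item-level losses of a group walk are at most the mass of the group** -/
theorem GS_lamI_le {Ψ : ℝ → ℝ} (h : PsiOk Ψ) (n p : ℕ) {g : Gp Λ κ} (hw : ∀ m ∈ g, 0 ≤ m.1)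
    (hg : ∀ m ∈ g, m.2.All BNd) :
    GS (fun _ g => lsum (lamI Ψ) g) n p g ≤ lsum MS g := by
  refine (GS_lsum_le (F := DD Ψ) (lam := lamI Ψ) (fun t ht => DD_nonneg h ht.self.pb)
    (fun t ht => all_addF_DD h t ht) ?_ n p g hw hg).trans ?_
  · intro p w r t₁ t₀ v B G ht
    have e := MS_br ht.self.im ht.self.pb ht.2.1.self.pb ht.2.2.self.pb
    unfold DD
    rw [e]
    show _ = ((1 - w) * IE Ψ t₁ + w * IE Ψ t₀ - IE Ψ (.br p w r t₁ t₀ v B G)) + _ + _
    ring
  · unfold lsum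
    exact List.sum_le_sum fun m hm => mul_le_mul_of_nonneg_left (DD_le h (hg m hm).self.pb)
      (hw m hm)

end gen

/-! ### item data of the ties -/

/-- item data of a tie or pull `(p, w)` : `f` incumbents, `b` challengers (on the `y`-circle),
`v` = value above, `uu` = unmatched incumbents, `rr` = reduction of the incumbents, `gg` = lifted
challengers; `G` = the gain of the classes of `r`. -/
structure ItDat {Λ κ : Type*} [Fintype Λ] [DecidableEq κ] (p : ℕ) (w : ℝ) (r : Λ → κ)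
    (f b v : Λ → ℝ → ℝ) (G : κ → ℝ → ℝ) (uu rr gg : Λ → ℝ → ℝ) : Prop where
  ev : ∀ j x, v j x = f j (p * x) - w * uu j (p * x) - rr j x + gg j x
  pu : ∀ j, PB (uu j)
  pr : ∀ j, PB (rr j)
  pg : ∀ j, PB (gg j)
  u1 : ∀ j y, uu j y ≤ f j y
  r1 : ∀ j x, rr j x ≤ f j (p * x) - uu j (p * x)
  g1 : ∀ j x, gg j x ≤ b j (p * x)
  mr : ∀ j y, Ep p (rr j) y = w * (f j y - uu j y)
  mg : ∀ j y, Ep p (gg j) y = w * b j y
  dj : ∀ j, (∀ y, f j y = 0) ∨ (∀ y, b j y = 0)
  eG : ∀ c x, G c x = ∑ j ∈ Finset.univ.filter (fun j => r j = c), (gg j x - rr j x)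

/-- the ties and pulls have item data, `w ≤ 1/2` -/
def ItD {Λ κ : Type*} [Fintype Λ] [DecidableEq κ] : DT Λ κ → Prop
  | .br p w r t₁ t₀ v _ G => 0 < p ∧ 0 ≤ w ∧ w ≤ 1 / 2 ∧ ∃ uu rr gg : Λ → ℝ → ℝ,
      ItDat p w r t₁.g.val t₀.g.val v G uu rr gg
  | _ => True

section data
variable {Λ κ : Type} [Fintype Λ] [DecidableEq Λ] [Fintype κ] [DecidableEq κ]

lemma single_fib {p : ℕ} (hp : 0 < p) {g : ℝ → ℝ} (hg : ∀ x, 0 ≤ g x) (x : ℝ) :
    g x ≤ ∑ i ∈ Finset.range p, g ((p * x + (i : ℝ)) / p) := by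
  have hp' : (0 : ℝ) < p := by exact_mod_cast hp
  have h0 : g ((p * x + ((0 : ℕ) : ℝ)) / p) = g x := by
    congr 1; push_cast; field_simp; ring
  rw [← h0]
  exact Finset.single_le_sum (f := fun i : ℕ => g ((p * x + (i : ℝ)) / p))
    (fun i _ => hg _) (Finset.mem_range.2 hp)

/-- **item data of the laminar tournament** -/
lemma itDat_lam {p n : ℕ} {f g G : Λ → ℝ → ℝ} (hd : Dat p f g G) {c : ℕ → Λ → κ}
    (hj : ∀ j, (∀ y, f j y = 0) ∨ (∀ y, G j y = 0)) :
    ItDat p (1 / (p : ℝ)) (c n) f G (fun j => lamF p f g G c (n + 1) j)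
      (fun a => DW p f g G c (n + 1) (clz (c n) a))
      (fun j => (st p f g G c (n + 1)).u j) (fun j => lamR p f g G c (n + 1) j) g := by
  have hp' : (0 : ℝ) < p := by exact_mod_cast hd.hp
  have hgood := good_st (c := c) hd (n + 1)
  have hR0 : ∀ j x, 0 ≤ lamR p f g G c (n + 1) j x := fun j => (PB_lamR hd j).nonneg
  have hsum : ∀ j y, ∑ i ∈ Finset.range p, lamR p f g G c (n + 1) j ((y + i) / p) =
      f j y - (st p f g G c (n + 1)).u j y := fun j y => hgood.sum j y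
  have hE : ∀ j y, Ep p (lamR p f g G c (n + 1) j) y =
      1 / (p : ℝ) * (f j y - (st p f g G c (n + 1)).u j y) := fun j y => by
    unfold Ep
    rw [hsum j y, div_eq_inv_mul, ← one_div]
  refine ⟨fun j x => ?_, hgood.u, fun j => PB_lamR hd j, hd.hg, fun j y => ?_, fun j x => ?_,
    fun j x => ?_, hE, fun j y => ?_, hj, fun a x => ?_⟩
  · unfold lamF
    rw [hE j (p * x)]
    ring
  · have h1 : 0 ≤ ∑ i ∈ Finset.range p, lamR p f g G c (n + 1) j ((y + i) / p) :=
      Finset.sum_nonneg fun i _ => hR0 j _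
    rw [hsum j y] at h1
    linarith
  · have h1 := single_fib hd.hp (hR0 j) x
    rw [hsum j (p * x)] at h1
    exact h1
  · have h1 := single_fib hd.hp (hd.hg j).nonneg x
    rw [hd.hl j (p * x)] at h1
    exact h1
  · unfold Ep
    rw [hd.hl j y, div_eq_inv_mul, ← one_div]
  · unfold DW fW RW
    rw [← Finset.sum_sub_distrib]
    rfl

/-- **item data at all the nodes of a concrete tree** -/
theorem toDT_ItD (D : Item758.Par Λ κ) (sp : ℕ → Finset Λ) (t : Cnt588.IT) : ∀ b pr : ℕ, 0 < b →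
    Fit b pr t → (D.toFT b pr t).Adm b → (D.toDT sp b pr t).All ItD := by
  induction t with
  | leaf S => intro b pr hb hF h; exact trivial
  | br p Sp t₁ t₀ ih₁ ih₀ =>
    intro b pr hb hF h
    have hd := FT.dat hb h
    obtain ⟨hp, hpb, hN, a1, a0⟩ := h
    obtain ⟨hpp, -, hdj, f1, f0⟩ := hF
    have hbp : 0 < b * p := Nat.mul_pos hb hp
    refine ⟨?_, ih₁ b (pr * p) hb f1 a1, ih₀ (b * p) pr hbp f0 a0⟩
    have v1 : (D.toDT sp b (pr * p) t₁).g.val = fun j => (D.toFT b (pr * p) t₁).U 1 j := by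
      rw [D.toDT_g]; exact FT.toG_val _ _ hb a1
    have v0 : (D.toDT sp (b * p) pr t₀).g.val = fun j => (D.toFT (b * p) pr t₀).U 1 j := by
      rw [D.toDT_g]; exact FT.toG_val _ _ hbp a0
    have h2 : (2 : ℝ) ≤ p := by exact_mod_cast hpp.two_le
    refine ⟨hp, by positivity, ?_, ?_⟩
    · rw [div_le_div_iff₀ (by linarith) (by norm_num)]
      linarith
    · rw [v1, v0]
      refine ⟨_, _, _, itDat_lam (n := 0) (c := fun _ => D.rho p) hd fun j => ?_⟩
      by_cases hj : D.it j ∈ t₁.items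
      · right
        intro y
        exact D.U_zero t₀ _ _ _ j (Finset.disjoint_left.1 hdj hj) y
      · left
        intro y
        exact D.U_zero t₁ _ _ _ j hj y
  | add p t₁ t₀ ih₁ ih₀ =>
    intro b pr hb hF h
    obtain ⟨hdj, f1, f0⟩ := hF
    exact ⟨trivial, ih₁ b pr hb f1 h.1, ih₀ b pr hb f0 h.2⟩
  | up b' Sp t ih =>
    intro b pr hb hF h
    exact ⟨trivial, ih b pr hb hF h⟩
  | pl p t ih =>
    intro b pr hb hF h
    obtain ⟨hp, hpb, a1⟩ := h
    obtain ⟨hpp, -, f1⟩ := hF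
    refine ⟨?_, ih b (pr * p) hb f1 a1, trivial⟩
    have v1 : (D.toDT sp b (pr * p) t).g.val = fun j => (D.toFT b (pr * p) t).U 1 j := by
      rw [D.toDT_g]; exact FT.toG_val _ _ hb a1
    have pbv : ∀ j, PB ((D.toFT b (pr * p) t).U 1 j) := fun j => FT.pb hb a1 (one_dvd _) j
    refine ⟨hp, le_rfl, by norm_num, fun j => (D.toFT b (pr * p) t).U 1 j, fun _ _ => 0,
      fun _ _ => 0, ?_⟩
    rw [v1]
    refine ⟨fun j x => ?_, pbv, fun _ => PB.const le_rfl, fun _ => PB.const le_rfl,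
      fun j y => le_rfl, fun j x => ?_, fun j x => ?_, fun j y => ?_, fun j y => ?_,
      fun j => Or.inr fun _ => rfl, fun c x => ?_⟩
    · show (D.toFT b (pr * p) t).U 1 j (p * x) = _
      ring
    · simp
    · exact le_rfl
    · rw [Ep_const hp]; ring
    · rw [Ep_const hp]; ring
    · simp
  | far p t₁ t₀ ih₁ ih₀ =>
    intro b pr hb hF h
    obtain ⟨hdj, f1, f0⟩ := hF
    exact ⟨trivial, ih₁ b pr hb f1 h.1, ih₀ b pr hb f0 h.2⟩

/-- **disjoint `add` nodes of a concrete tree** -/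
theorem toDT_AddD (D : Item758.Par Λ κ) (sp : ℕ → Finset Λ) (t : Cnt588.IT) : ∀ b pr : ℕ, 0 < b →
    Fit b pr t → (D.toFT b pr t).Adm b → (D.toDT sp b pr t).All AddD := by
  have key : ∀ (t₁ t₀ : Cnt588.IT) (b pr : ℕ), 0 < b → Disjoint t₁.items t₀.items →
      (D.toFT b pr t₁).Adm b → (D.toFT b pr t₀).Adm b → ∀ j,
      (∀ x, (D.toDT sp b pr t₁).g.val j x = 0) ∨ (∀ x, (D.toDT sp b pr t₀).g.val j x = 0) := by
    intro t₁ t₀ b pr hb hdj a1 a0 j
    have v1 : (D.toDT sp b pr t₁).g.val = fun j => (D.toFT b pr t₁).U 1 j := by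
      rw [D.toDT_g]; exact FT.toG_val _ _ hb a1
    have v0 : (D.toDT sp b pr t₀).g.val = fun j => (D.toFT b pr t₀).U 1 j := by
      rw [D.toDT_g]; exact FT.toG_val _ _ hb a0
    rw [v1, v0]
    by_cases hj : D.it j ∈ t₁.items
    · exact Or.inr fun y => D.U_zero t₀ _ _ _ j (Finset.disjoint_left.1 hdj hj) y
    · exact Or.inl fun y => D.U_zero t₁ _ _ _ j hj y
  induction t with
  | leaf S => intro b pr hb hF h; exact trivial
  | br p Sp t₁ t₀ ih₁ ih₀ =>
    intro b pr hb hF h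
    obtain ⟨hp, hpb, hN, a1, a0⟩ := h
    obtain ⟨hpp, -, hdj, f1, f0⟩ := hF
    exact ⟨trivial, ih₁ b (pr * p) hb f1 a1, ih₀ (b * p) pr (Nat.mul_pos hb hp) f0 a0⟩
  | add p t₁ t₀ ih₁ ih₀ =>
    intro b pr hb hF h
    obtain ⟨hdj, f1, f0⟩ := hF
    exact ⟨key t₁ t₀ b pr hb hdj h.1 h.2, ih₁ b pr hb f1 h.1, ih₀ b pr hb f0 h.2⟩
  | up b' Sp t ih =>
    intro b pr hb hF h
    exact ⟨trivial, ih b pr hb hF h⟩
  | pl p t ih =>
    intro b pr hb hF h
    obtain ⟨hp, hpb, a1⟩ := h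
    obtain ⟨hpp, -, f1⟩ := hF
    exact ⟨trivial, ih b (pr * p) hb f1 a1, trivial⟩
  | far p t₁ t₀ ih₁ ih₀ =>
    intro b pr hb hF h
    obtain ⟨hdj, f1, f0⟩ := hF
    exact ⟨key t₁ t₀ b pr hb hdj h.1 h.2, ih₁ b pr hb f1 h.1, ih₀ b pr hb f0 h.2⟩

end data

/-! ### one fibre -/

section fib
variable {p : ℕ}

/-- challengers: no loss for a convex function -/
lemma Ep_N {Ψ : ℝ → ℝ} (hc : ConvexOn ℝ (Ici 0) Ψ) (h0 : Ψ 0 = 0) (hp : 0 < p) {b w : ℝ}
    {g : ℝ → ℝ} {y : ℝ} (hb : 0 ≤ b) (g0 : ∀ x, 0 ≤ g x)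
    (g1 : ∀ i : ℕ, g ((y + i) / p) ≤ b) (mg : Ep p g y = w * b) :
    Ep p (fun x => Ψ (g x)) y ≤ w * Ψ b := by
  have hp' : (0 : ℝ) < p := by exact_mod_cast hp
  rcases hb.eq_or_lt with hb0 | hb0
  · have e : ∀ i : ℕ, Ψ (g ((y + i) / p)) = 0 := fun i => by
      have := le_antisymm ((g1 i).trans hb0.symm.le) (g0 _)
      rw [this, h0]
    unfold Ep
    simp only [e, Finset.sum_const_zero, zero_div]
    rw [← hb0, h0, mul_zero]
  · have key : ∀ i : ℕ, Ψ (g ((y + i) / p)) ≤ Ψ b / b * g ((y + i) / p) := by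
      intro i
      have l0 : 0 ≤ g ((y + i) / p) / b := div_nonneg (g0 _) hb
      have l1 : g ((y + i) / p) / b ≤ 1 := (div_le_one hb0).2 (g1 i)
      have h1 := hc.2 (mem_Ici.2 le_rfl) (mem_Ici.2 hb) (sub_nonneg.2 l1) l0 (by ring)
      simp only [smul_eq_mul, mul_zero, zero_add, h0] at h1
      have e1 : g ((y + i) / p) / b * b = g ((y + i) / p) := by field_simp
      rw [e1] at h1
      refine h1.trans (le_of_eq ?_)
      ring
    have h2 : Ep p (fun x => Ψ (g x)) y ≤ Ψ b / b * Ep p g y := by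
      rw [← Ep_smul]
      unfold Ep
      exact div_le_div_of_nonneg_right (Finset.sum_le_sum fun i _ => key i) hp'.le
    refine h2.trans (le_of_eq ?_)
    rw [mg]; field_simp

/-- incumbents with unmatched part `u` -/
lemma Ep_P {Ψ : ℝ → ℝ} (hc : ConvexOn ℝ (Ici 0) Ψ) (hp : 0 < p) {f u w : ℝ}
    {R : ℝ → ℝ} {y : ℝ} (hu : 0 ≤ u) (huf : u ≤ f) (hw0 : 0 ≤ w) (hw : w ≤ 1) (R0 : ∀ x, 0 ≤ R x)
    (R1 : ∀ i : ℕ, R ((y + i) / p) ≤ f - u) (mR : Ep p R y = w * (f - u)) :
    Ep p (fun x => Ψ (f - w * u - R x)) y ≤ (1 - w) * Ψ (f - w * u) + w * Ψ ((1 - w) * u) := by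
  have hp' : (0 : ℝ) < p := by exact_mod_cast hp
  have ha : 0 ≤ f - w * u := by nlinarith
  have hb : 0 ≤ (1 - w) * u := mul_nonneg (by linarith) hu
  rcases (sub_nonneg.2 huf).eq_or_lt with h0 | h0
  · have e : ∀ i : ℕ, R ((y + i) / p) = 0 := fun i =>
      le_antisymm ((R1 i).trans h0.symm.le) (R0 _)
    have hfu : f = u := by linarith
    have e1 : Ep p (fun x => Ψ (f - w * u - R x)) y = Ψ (f - w * u) := by
      unfold Ep
      simp only [e, sub_zero, Finset.sum_const, Finset.card_range, nsmul_eq_mul]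
      field_simp
    have e2 : f - w * u = (1 - w) * u := by rw [hfu]; ring
    rw [e1, e2]
    apply le_of_eq; ring
  · set s := f - u with hs
    have key : ∀ i : ℕ, Ψ (f - w * u - R ((y + i) / p)) ≤
        Ψ (f - w * u) + (Ψ ((1 - w) * u) - Ψ (f - w * u)) / s * R ((y + i) / p) := by
      intro i
      have l0 : 0 ≤ R ((y + i) / p) / s := div_nonneg (R0 _) h0.le
      have l1 : R ((y + i) / p) / s ≤ 1 := (div_le_one h0).2 (R1 i)
      have h1 := hc.2 (mem_Ici.2 ha) (mem_Ici.2 hb) (sub_nonneg.2 l1) l0 (by ring)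
      simp only [smul_eq_mul] at h1
      have e1 : (1 - R ((y + i) / p) / s) * (f - w * u) + R ((y + i) / p) / s * ((1 - w) * u) =
          f - w * u - R ((y + i) / p) := by
        have : (1 - w) * u = f - w * u - s := by rw [hs]; ring
        rw [this]
        field_simp
        ring
      rw [e1] at h1
      refine h1.trans (le_of_eq ?_)
      ring
    have h2 : Ep p (fun x => Ψ (f - w * u - R x)) y ≤
        Ψ (f - w * u) + (Ψ ((1 - w) * u) - Ψ (f - w * u)) / s * Ep p R y := by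
      have e1 : Ψ (f - w * u) + (Ψ ((1 - w) * u) - Ψ (f - w * u)) / s * Ep p R y =
          Ep p (fun x => Ψ (f - w * u) + (Ψ ((1 - w) * u) - Ψ (f - w * u)) / s * R x) y := by
        rw [Ep_add, Ep_smul, Ep_const hp]
      rw [e1]
      unfold Ep
      exact div_le_div_of_nonneg_right (Finset.sum_le_sum fun i _ => key i) hp'.le
    refine h2.trans (le_of_eq ?_)
    rw [mR]; field_simp; ring

/-- `(v - a)⁺` -/
noncomputable def bnd (a v : ℝ) : ℝ := max (v - a) 0

lemma bnd_ok {a : ℝ} (ha : 0 ≤ a) : PsiOk (bnd a) where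
  meas := (measurable_id.sub measurable_const).max measurable_const
  n := fun v _ => le_max_right _ _
  le := fun v hv => max_le (by linarith) hv

lemma bnd_convex (a : ℝ) : ConvexOn ℝ (Ici 0) (bnd a) := by
  have h1 : ConvexOn ℝ (Ici (0 : ℝ)) fun v : ℝ => v - a :=
    ⟨convex_Ici 0, fun x _ y _ s t _ _ hst => by
      simp only [smul_eq_mul]
      have : a = s * a + t * a := by rw [← add_mul, hst, one_mul]
      apply le_of_eq
      linarith⟩
  exact h1.sup (convexOn_const 0 (convex_Ici 0))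

/-- **the loss of a band** : `2 a ≤ f ≤ 4 a`, `w ≤ 1/2` -/
lemma bnd_loss {a f u w : ℝ} (ha : 0 ≤ a) (h1 : 2 * a ≤ f) (h2 : f ≤ 4 * a) (hu : 0 ≤ u)
    (huf : u ≤ f) (w0 : 0 ≤ w) (w1 : w ≤ 1 / 2) :
    (1 - w) * bnd a (f - w * u) + w * bnd a ((1 - w) * u) + w * u / 4 ≤ (1 - w) * bnd a f := by
  have hf : 0 ≤ f := hu.trans huf
  have k1 : a ≤ f - w * u := by nlinarith
  have e1 : bnd a (f - w * u) = f - w * u - a := max_eq_left (by linarith)
  have e2 : bnd a f = f - a := max_eq_left (by linarith)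
  rw [e1, e2]
  rcases le_total ((1 - w) * u) a with h | h
  · have e3 : bnd a ((1 - w) * u) = 0 := max_eq_right (by linarith)
    rw [e3]
    nlinarith [mul_nonneg w0 hu]
  · have e3 : bnd a ((1 - w) * u) = (1 - w) * u - a := max_eq_left (by linarith)
    rw [e3]
    have k2 : u / 4 ≤ a := by linarith
    nlinarith [mul_le_mul_of_nonneg_left k2 w0]

end fib

/-! ### local inequalities -/

section loc
variable {Λ κ : Type*} [Fintype Λ] [DecidableEq κ] {p : ℕ} {w : ℝ} {r : Λ → κ}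
  {f b v : Λ → ℝ → ℝ} {G : κ → ℝ → ℝ} {uu rr gg : Λ → ℝ → ℝ}

/-- `v` is nonnegative and below the height of the child -/
lemma ItDat.v_le (h : ItDat p w r f b v G uu rr gg) (w0 : 0 ≤ w) (j : Λ) (x : ℝ) :
    v j x ≤ f j (p * x) + b j (p * x) := by
  rw [h.ev]
  have h1 := mul_nonneg w0 ((h.pu j).nonneg (p * x))
  have h2 := (h.pr j).nonneg x
  have h3 := h.g1 j x
  linarith

/-- a challenger -/
lemma ItDat.chal (h : ItDat p w r f b v G uu rr gg) {j : Λ} (hj : ∀ y, f j y = 0) :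
    (∀ y, uu j y = 0) ∧ (∀ x, rr j x = 0) ∧ ∀ x, v j x = gg j x := by
  have h1 : ∀ y, uu j y = 0 := fun y =>
    le_antisymm ((h.u1 j y).trans (hj y).le) ((h.pu j).nonneg y)
  have h2 : ∀ x, rr j x = 0 := fun x =>
    le_antisymm ((h.r1 j x).trans (by rw [hj, h1, sub_zero])) ((h.pr j).nonneg x)
  exact ⟨h1, h2, fun x => by rw [h.ev, hj, h1, h2]; ring⟩

/-- an incumbent -/
lemma ItDat.inc (h : ItDat p w r f b v G uu rr gg) {j : Λ} (hj : ∀ y, b j y = 0) :
    (∀ x, gg j x = 0) ∧ ∀ x, v j x = f j (p * x) - w * uu j (p * x) - rr j x := by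
  have h1 : ∀ x, gg j x = 0 := fun x =>
    le_antisymm ((h.g1 j x).trans (hj _).le) ((h.pg j).nonneg x)
  exact ⟨h1, fun x => by rw [h.ev, h1, add_zero]⟩

/-- **one item on one fibre**, convex `Ψ` -/
theorem ItDat.pt {Ψ : ℝ → ℝ} (hc : ConvexOn ℝ (Ici 0) Ψ) (h0 : Ψ 0 = 0)
    (h : ItDat p w r f b v G uu rr gg) (hp : 0 < p) (w0 : 0 ≤ w) (w1 : w ≤ 1)
    (hf : ∀ j, PB (f j)) (hb : ∀ j, PB (b j)) (j : Λ) (y : ℝ) :
    Ep p (fun x => Ψ (v j x)) y + ((1 - w) * Ψ (f j y) - ((1 - w) * Ψ (f j y - w * uu j y) +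
      w * Ψ ((1 - w) * uu j y))) ≤ (1 - w) * Ψ (f j y) + w * Ψ (b j y) := by
  rcases h.dj j with hj | hj
  · obtain ⟨k1, k2, k3⟩ := h.chal hj
    have e : (fun x => Ψ (v j x)) = fun x => Ψ (gg j x) := by funext x; rw [k3]
    rw [e, hj y, k1 y]
    have h1 := Ep_N hc h0 hp ((hb j).nonneg y) (h.pg j).nonneg (y := y) (w := w)
      (fun i => by
        have := h.g1 j ((y + i) / p)
        rwa [pull_fibre hp (hb j).per y i] at this) (h.mg j y)
    simp only [mul_zero, sub_zero, h0, add_zero, zero_add]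
    exact h1
  · obtain ⟨k1, k2⟩ := h.inc hj
    have e : Ep p (fun x => Ψ (v j x)) y =
        Ep p (fun x => Ψ (f j y - w * uu j y - rr j x)) y := by
      unfold Ep
      congr 1
      refine Finset.sum_congr rfl fun i _ => ?_
      show Ψ (v j ((y + i) / p)) = Ψ (f j y - w * uu j y - rr j ((y + i) / p))
      rw [k2, pull_fibre hp (hf j).per y i, pull_fibre hp (h.pu j).per y i]
    have h1 := Ep_P hc hp ((h.pu j).nonneg y) (h.u1 j y) w0 w1 (h.pr j).nonneg (y := y)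
      (fun i => by
        have := h.r1 j ((y + i) / p)
        rwa [pull_fibre hp (hf j).per y i, pull_fibre hp (h.pu j).per y i] at this) (h.mr j y)
    rw [e, hj y, h0, mul_zero]
    linarith

open Classical in
/-- unmatched incumbents in the band `2a ≤ f ≤ 4a` -/
noncomputable def ub (a : ℝ) (f uu : Λ → ℝ → ℝ) (j : Λ) (y : ℝ) : ℝ :=
  if 2 * a ≤ f j y ∧ f j y ≤ 4 * a then uu j y else 0

lemma PB_ub {a : ℝ} (hf : ∀ j, PB (f j)) (hu : ∀ j, PB (uu j)) (j : Λ) : PB (ub a f uu j) := by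
  classical
  obtain ⟨M, hM⟩ := (hu j).bdd
  refine ⟨?_, fun y => ?_, ⟨M, fun y => ?_⟩, fun y => ?_⟩
  · unfold ub
    refine Measurable.ite ?_ (hu j).meas measurable_const
    exact (measurableSet_le measurable_const (hf j).meas).inter
      (measurableSet_le (hf j).meas measurable_const)
  · unfold ub
    split_ifs
    · exact (hu j).nonneg y
    · exact le_rfl
  · unfold ub
    split_ifs
    · exact hM y
    · exact ((hu j).nonneg 0).trans (hM 0)
  · unfold ub
    rw [(hf j).per, (hu j).per]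

end loc

section node
variable {Λ κ : Type*} [Fintype Λ] [DecidableEq κ]

/-- **no item-level loss for a convex function** and the budget of the band `[2a, 4a]` -/
theorem lamI_bnd {p : ℕ} {w : ℝ} {r : Λ → κ} {t₁ t₀ : DT Λ κ} {v : Λ → ℝ → ℝ} {B G : κ → ℝ → ℝ}
    {uu rr gg : Λ → ℝ → ℝ} (h : ItDat p w r t₁.g.val t₀.g.val v G uu rr gg) (hp : 0 < p)
    (w0 : 0 ≤ w) (w1 : w ≤ 1 / 2) (h1 : ∀ j, PB (t₁.g.val j)) (h0 : ∀ j, PB (t₀.g.val j))
    (hv : ∀ j, PB (v j)) {a : ℝ} (ha : 0 ≤ a) :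
    w / 4 * ∑ j, I (ub a t₁.g.val uu j) ≤ lamI (bnd a) (.br p w r t₁ t₀ v B G) := by
  have hΨ := bnd_ok ha
  have key : ∀ j, w / 4 * I (ub a t₁.g.val uu j) + I (fun x => bnd a (v j x)) ≤
      (1 - w) * I (fun y => bnd a (t₁.g.val j y)) + w * I (fun y => bnd a (t₀.g.val j y)) := by
    intro j
    have p1 := PB_ub (a := a) h1 h.pu j
    have p2 := hΨ.PB (hv j)
    have p3 := hΨ.PB (h1 j)
    have p4 := hΨ.PB (h0 j)
    have hw1 : 0 ≤ 1 - w := by linarith
    have hw4 : 0 ≤ w / 4 := by linarith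
    rw [← I_Ep hp p2.integrableOn, ← I_smul, ← I_smul, ← I_smul,
      ← I_add (p1.smul hw4).integrableOn (p2.Ep hp).integrableOn,
      ← I_add (p3.smul hw1).integrableOn (p4.smul w0).integrableOn]
    refine I_mono ((p1.smul hw4).add (p2.Ep hp)).integrableOn
      ((p3.smul hw1).add (p4.smul w0)).integrableOn fun y => ?_
    have k := h.pt (bnd_convex a) hΨ.zero hp w0 (by linarith) h1 h0 j y
    have hu0 := (h.pu j).nonneg y
    have huf := h.u1 j y
    have hf0 := (h1 j).nonneg y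
    show w / 4 * ub a t₁.g.val uu j y + Ep p (fun x => bnd a (v j x)) y ≤ _
    unfold ub
    split_ifs with hb
    · have k2 := bnd_loss ha hb.1 hb.2 hu0 huf w0 w1
      have e : w / 4 * uu j y = w * uu j y / 4 := by ring
      rw [e]
      linarith
    · have k2 : (1 - w) * bnd a (t₁.g.val j y - w * uu j y) + w * bnd a ((1 - w) * uu j y) ≤
          (1 - w) * bnd a (t₁.g.val j y) := by
        have c1 : bnd a (t₁.g.val j y - w * uu j y) ≤ bnd a (t₁.g.val j y) - w * uu j y ∨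
            bnd a (t₁.g.val j y - w * uu j y) = 0 := by
          rcases le_total (t₁.g.val j y - w * uu j y) a with hh | hh
          · right; exact max_eq_right (by linarith)
          · left
            have e1 : bnd a (t₁.g.val j y - w * uu j y) = t₁.g.val j y - w * uu j y - a :=
              max_eq_left (by linarith)
            have e2 : bnd a (t₁.g.val j y) = t₁.g.val j y - a :=
              max_eq_left (by nlinarith)
            rw [e1, e2]; linarith
        have c2 : bnd a ((1 - w) * uu j y) ≤ (1 - w) * uu j y :=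
          hΨ.le _ (mul_nonneg hw1 hu0)
        have c3 : 0 ≤ bnd a ((1 - w) * uu j y) := hΨ.n _ (mul_nonneg hw1 hu0)
        rcases c1 with c1 | c1
        · nlinarith [mul_le_mul_of_nonneg_left c1 hw1, mul_le_mul_of_nonneg_left c2 w0]
        · rw [c1]
          -- f - w u ≤ a, bound w * bnd a ((1-w) u) by (1-w) * bnd a f
          rcases le_total ((1 - w) * uu j y) a with hh | hh
          · have e3 : bnd a ((1 - w) * uu j y) = 0 := max_eq_right (by linarith)
            rw [e3]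
            have := mul_nonneg hw1 (hΨ.n _ hf0)
            linarith
          · have e3 : bnd a ((1 - w) * uu j y) = (1 - w) * uu j y - a := max_eq_left (by linarith)
            have e4 : t₁.g.val j y - a ≤ bnd a (t₁.g.val j y) := le_max_left _ _
            rw [e3]
            have hh2 : (1 - w) * uu j y - a ≤ t₁.g.val j y - a := by nlinarith
            have hh3 : 0 ≤ (1 - w) * uu j y - a := by linarith
            nlinarith [mul_le_mul_of_nonneg_left e4 hw1, mul_le_mul_of_nonneg_left hh2 hw1,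
              mul_nonneg (sub_nonneg.2 w1) hh3]
      have e0 : w / 4 * (0 : ℝ) = 0 := mul_zero _
      linarith
  show _ ≤ (1 - w) * ∑ j, I (fun x => bnd a (t₁.g.val j x)) +
    w * ∑ j, I (fun x => bnd a (t₀.g.val j x)) - ∑ j, I (fun x => bnd a (v j x))
  rw [Finset.mul_sum, Finset.mul_sum, Finset.mul_sum]
  have := Finset.sum_le_sum fun j (_ : j ∈ Finset.univ) => key j
  rw [Finset.sum_add_distrib, Finset.sum_add_distrib] at this
  linarith

open Classical in
/-- `v` above the level `a` -/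
noncomputable def abv (a v : ℝ) : ℝ := if a < v then v else 0

lemma abv_ok (a : ℝ) : PsiOk (abv a) where
  meas := by
    classical
    unfold abv
    exact Measurable.ite (measurableSet_lt measurable_const measurable_id) measurable_id
      measurable_const
  n := fun v hv => by
    unfold abv
    split_ifs
    · exact hv
    · exact le_rfl
  le := fun v hv => by
    unfold abv
    split_ifs
    · exact le_rfl
    · exact hv

open Classical in
/-- the mass of `j` above the tie at `x` which drops from above `a` to below `a` -/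
noncomputable def drp (a : ℝ) (p : ℕ) (f b v : Λ → ℝ → ℝ) (j : Λ) (x : ℝ) : ℝ :=
  if a < f j (p * x) + b j (p * x) ∧ v j x ≤ a then v j x else 0

lemma PB_drp {a : ℝ} {p : ℕ} {f b v : Λ → ℝ → ℝ} (hf : ∀ j, PB (f j)) (hb : ∀ j, PB (b j))
    (hv : ∀ j, PB (v j)) (j : Λ) : PB (drp a p f b v j) := by
  classical
  obtain ⟨M, hM⟩ := (hv j).bdd
  have pf := (hf j).pull p
  have pb := (hb j).pull p
  refine ⟨?_, fun y => ?_, ⟨M, fun y => ?_⟩, fun y => ?_⟩
  · unfold drp
    refine Measurable.ite ?_ (hv j).meas measurable_const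
    exact (measurableSet_lt measurable_const (pf.meas.add pb.meas)).inter
      (measurableSet_le (hv j).meas measurable_const)
  · unfold drp
    split_ifs
    · exact (hv j).nonneg y
    · exact le_rfl
  · unfold drp
    split_ifs
    · exact hM y
    · exact ((hv j).nonneg 0).trans (hM 0)
  · unfold drp
    have e1 : f j (p * (y + 1)) = f j (p * y) := pf.per y
    have e2 : b j (p * (y + 1)) = b j (p * y) := pb.per y
    rw [e1, e2, (hv j).per]

/-- **the mass which drops below `a` at a tie is the item-level loss of `abv a`** -/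
theorem lamI_abv {p : ℕ} {w : ℝ} {r : Λ → κ} {t₁ t₀ : DT Λ κ} {v : Λ → ℝ → ℝ} {B G : κ → ℝ → ℝ}
    {uu rr gg : Λ → ℝ → ℝ} (h : ItDat p w r t₁.g.val t₀.g.val v G uu rr gg)
    (hi : IMean (.br p w r t₁ t₀ v B G : DT Λ κ)) (h1 : ∀ j, PB (t₁.g.val j))
    (h0 : ∀ j, PB (t₀.g.val j)) (hv : ∀ j, PB (v j)) (a : ℝ) :
    lamI (abv a) (.br p w r t₁ t₀ v B G) = ∑ j, I (drp a p t₁.g.val t₀.g.val v j) := by
  classical
  obtain ⟨hp, w0, w1, hm⟩ := hi
  have hΨ := abv_ok a
  have hw1 : 0 ≤ 1 - w := by linarith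
  show (1 - w) * ∑ j, I (fun x => abv a (t₁.g.val j x)) +
    w * ∑ j, I (fun x => abv a (t₀.g.val j x)) - ∑ j, I (fun x => abv a (v j x)) = _
  rw [Finset.mul_sum, Finset.mul_sum, ← Finset.sum_add_distrib, ← Finset.sum_sub_distrib]
  refine Finset.sum_congr rfl fun j _ => ?_
  have p2 := hΨ.PB (hv j)
  have p3 := hΨ.PB (h1 j)
  have p4 := hΨ.PB (h0 j)
  have p5 := PB_drp (a := a) (p := p) h1 h0 hv j
  have e1 : (1 - w) * I (fun x => abv a (t₁.g.val j x)) + w * I (fun x => abv a (t₀.g.val j x)) =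
      I (fun x => drp a p t₁.g.val t₀.g.val v j x + abv a (v j x)) := by
    rw [← I_smul, ← I_smul, ← I_add (p3.smul hw1).integrableOn (p4.smul w0).integrableOn,
      ← I_Ep hp (p5.add p2).integrableOn]
    congr 1
    funext y
    have e2 : ∀ i : ℕ, drp a p t₁.g.val t₀.g.val v j ((y + i) / p) + abv a (v j ((y + i) / p)) =
        (if a < t₁.g.val j y + t₀.g.val j y then 1 else 0) * v j ((y + i) / p) := by
      intro i
      have k1 := h.v_le w0 j ((y + i) / p)
      unfold drp abv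
      rw [pull_fibre hp (h1 j).per y i, pull_fibre hp (h0 j).per y i] at *
      by_cases c1 : a < t₁.g.val j y + t₀.g.val j y
      · by_cases c2 : v j ((y + i) / p) ≤ a
        · rw [if_pos ⟨c1, c2⟩, if_neg (not_lt.2 c2), if_pos c1]; ring
        · rw [if_neg (fun h => c2 h.2), if_pos (not_le.1 c2), if_pos c1]; ring
      · have c3 : ¬ a < v j ((y + i) / p) := fun h => c1 (h.trans_le k1)
        rw [if_neg (fun h => c1 h.1), if_neg c3, if_neg c1]; ring
    have e3 : Ep p (fun x => drp a p t₁.g.val t₀.g.val v j x + abv a (v j x)) y =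
        (if a < t₁.g.val j y + t₀.g.val j y then 1 else 0) * Ep p (v j) y := by
      rw [← Ep_smul]
      unfold Ep
      congr 1
      exact Finset.sum_congr rfl fun i _ => e2 i
    rw [e3, hm j y]
    rcases h.dj j with hj | hj
    · rw [hj y, zero_add, hΨ.zero, mul_zero, zero_add, zero_add]
      unfold abv
      by_cases c1 : a < t₀.g.val j y
      · rw [if_pos c1, if_pos c1, one_mul]
      · rw [if_neg c1, if_neg c1, zero_mul, mul_zero]
    · rw [hj y, add_zero, hΨ.zero, mul_zero, add_zero, add_zero]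
      unfold abv
      by_cases c1 : a < t₁.g.val j y
      · rw [if_pos c1, if_pos c1, one_mul]
      · rw [if_neg c1, if_neg c1, zero_mul, mul_zero]
  rw [e1, I_add p5.integrableOn p2.integrableOn]
  show I (drp a p t₁.g.val t₀.g.val v j) + _ - _ = _
  ring

end node

/-! ### contexts -/

section ctx
open Crest.Agent.R4P.Cnt588 Crest.Agent.R4P.Data758 Crest.Agent.R4P.Skel189
open Crest.Agent.R4P.Bld532 (NS All)
open Crest.Agent.R4P.FinT26 Crest.Agent.R4P.TopX36 Crest.Agent.R4P.Mrg35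
open Crest.Agent.R4P.Item758

variable {N : Skel189.Num} {γ : ℝ} {p0 P₀ : ℕ}

/-- **all nodes of a context have item data and item means** -/
theorem ctx_BNd_ItD (X : Ctx N γ p0 P₀) :
    All (fun u τ => (X.self u τ Finset.univ).t.All fun t => BNd t ∧ ItD t)
      ⟨top X.S, 1, 1, 1⟩ X.c.t :=
  All.mono (fun u τ h => by
    have hW := RseNd23.node_wts h X.Y
    have hA := (X.c.D.par X.Y).toFT_Adm τ u.B u.A h.B_pos h.fit hW
    have k1 := XEx29.toDT_Gd (X.c.D.par X.Y) X.c.sp τ u.B u.A h.B_pos h.fit hW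
    have k2 := toDT_ItD (X.c.D.par X.Y) X.c.sp τ u.B u.A h.B_pos h.fit hA
    have k3 := toDT_AddD (X.c.D.par X.Y) X.c.sp τ u.B u.A h.B_pos h.fit hA
    exact DT.All.mono (fun t ht => ⟨⟨ht.1.1, ht.1.2.2.2, ht.2.2⟩, ht.2.1⟩)
      (DT.All.and k1 (DT.All.and k2 k3)))
    (Step588.ctx_NDt (X := X))

end ctx

end Crest.Agent.R4P.Bud625
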