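import Crest.Agent.R4P.ChU5_17
import Crest.Agent.R4P.RsSum_19
import Crest.Agent.R4P.NumX_34

/-!
R4 (S0004), powers pass, helper17 (TgtCrs, height reserve): **the raw children without an event**: when
no tie is missing (`u.B = v.B`) and the range is the same, the index of every piece of the child is the
same at the column of the child and at the column of the parent.

* `KA X v p u t` : `zero` and `noev` (the hypotheses `HP` of `RsSum_19`), columns;
* `ctx_KA` : at all the raw children of all the nodes;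
* `ka_fin` : for the final numbers.
-/

set_option autoImplicit false
set_option linter.unusedSectionVars false
set_option linter.unusedVariables false

open MeasureTheory Filter

namespace Crest.Agent.R4P.ChU17

open Crest.Agent.R4P.Cnt588 Crest.Agent.R4P.Item758 Crest.Agent.R4P.W363
open Crest.Agent.R4P.Data758 Crest.Agent.R4P.LfDat734
open Crest.Agent.R4P.Bld532 (NS All NodeOk Ws_nonneg)
open Crest.Agent.R4P.Step588 (NDt)
open Crest.Agent.R4P.WalkIT579 (tp isL nodeOk_hi top_of_nodeOk)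
open Crest.Agent.R4P.Skel189 Crest.Agent.R4P.RseSt23 Crest.Agent.R4P.RseNd23
open Crest.Agent.R4P.DseCh23 (hd hu hu_c hu_A hu_B hu_n hd_items All_hd)
open Crest.Agent.R4P.DseFin21 (PF ctx_PF)
open Crest.Agent.R4P.FinE26 (ForN)
open Crest.Agent.R4P.FinAll26 (NumFin)
open Crest.Agent.R4P.NumX34 (rgOk RgTh)
open Crest.Agent.R4P.IxRange34 (RgOk ix_const_rg)
open Crest.Agent.R4P.ParT21
open Crest.Agent.R4P.ParF5 (NumOK)
open Crest.Agent.R4P.NumG23
open Crest.Agent.R4.Soft104 (w)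
open Crest.Agent.R4.ClosR758 (rv Ro)
open Crest.Agent.R4.Tour104 (Q)
open Crest.Agent.R4P.RsSum19 (Ix Q_congr0)

variable {N : Skel189.Num} {γ : ℝ} {p0 P₀ : ℕ}

/-- the values of the pieces outside the items vanish -/
lemma val_supp {X : Ctx N γ p0 P₀} {u : NS} {t : IT} (hn : NDt X.par (w X.ψ) X.c.t u t)
    {j : X.c.Lam} (h : (X.g u t).val j ≠ (fun _ => 0)) : j.1.1 ∈ t.items := by
  by_contra hj
  apply h
  have hval : ((X.c.D.par X.Y).toG u.B u.A t).val =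
      fun j => ((X.c.D.par X.Y).toFT u.B u.A t).U 1 j :=
    Par.toG_val _ hn.B_pos hn.fit (node_wts hn X.Y)
  have e : (X.g u t).val = fun j => ((X.c.D.par X.Y).toFT u.B u.A t).U 1 j := hval
  rw [e]
  funext x
  exact (X.c.D.par X.Y).U_zero t u.B u.A 1 j hj x

/-- **the raw child without an event** -/
structure KA (X : Ctx N γ p0 P₀) (v : NS) (p : ℕ) (u : NS) (t : IT) : Prop where
  top : ¬ isL t → p0 < tp t
  tople : ¬ isL t → tp t ≤ p
  core : ¬ isL (hd t) → p0 < tp (hd t)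
  corele : ¬ isL (hd t) → tp (hd t) ≤ p
  zero : ¬ isL t → u.B = v.B → ParF5.rg (tp t) = ParF5.rg p →
    Q (Ix ((X.c.D.par X.Y).rho p) \ Ix ((X.c.D.par X.Y).rho (tp t))) (X.g u t).val (X.g u t).val = 0
  noev : ¬ isL (hd t) → u.B = v.B → ParF5.rg (tp (hd t)) = ParF5.rg p →
    ∀ j j' : X.c.Lam, (X.g u t).val j ≠ (fun _ => 0) → (X.g u t).val j' ≠ (fun _ => 0) →
      (j, j') ∈ Ro ((X.c.D.par X.Y).rho p) → (j, j') ∈ Ro ((X.c.D.par X.Y).rho (tp (hd t)))

/-- the index of a piece of the child -/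
lemma ix_eq {X : Ctx N γ p0 P₀} {rg : ℕ → ℕ} (hr : RgOk X.c.wp X.c.lam rg) {v : NS} {V : IT}
    {u : NS} {t : IT} (hv : PF X v V) (lV : ¬ isL V) (hu : PF X u t) (lt : ¬ isL t)
    (hsub : t.items ⊆ V.items) (hn : u.n ≤ tp V + 1) (hB : u.B = v.B) (hrg : rg (tp t) = rg (tp V))
    {j : X.c.Lam} (hj : j.1.1 ∈ t.items) :
    (X.c.world (tp t) j.1).1 = (X.c.world (tp V) j.1).1 := by
  have k := nodeOk_hi hu.nd.self.node lt
  refine ix_const_rg hr (by have := k.2.2.1; omega) hrg j.1 fun l hl hlt => ?_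
  have e1 := mt_node hu.nd X.tOk lt hj
  have e2 := mt_node hv.nd X.tOk lV (hsub hj)
  have h1 : l ∈ u.B.primeFactors := by rw [← e1]; exact Finset.mem_filter.2 ⟨hl, hlt⟩
  rw [hB, ← e2] at h1
  exact (Finset.mem_filter.1 h1).2

/-- **from the nodes** -/
lemma ka_of {X : Ctx N γ p0 P₀} (hr : RgOk X.c.wp X.c.lam ParF5.rg) {v : NS} {V : IT}
    {u : NS} {t : IT} (hv : PF X v V) (lV : ¬ isL V) (hu : All (PF X) u t)
    (hsub : t.items ⊆ V.items) (hn : u.n ≤ tp V + 1) : KA X v (tp V) u t := by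
  have hh := All_hd t u hu
  have hhn : (DseCh23.hu u t).n ≤ u.n := hu_n (fun _ _ h => h.nd.self.node) t u hu
  refine ⟨fun lt => ?_, fun lt => ?_, fun lt => ?_, fun lt => ?_, fun lt hB hrg => ?_,
    fun lt hB hrg j j' h1 h2 h3 => ?_⟩
  · exact (nodeOk_hi hu.self.nd.self.node lt).2.1
  · have := (nodeOk_hi hu.self.nd.self.node lt).2.2.1
    omega
  · exact (nodeOk_hi hh.self.nd.self.node lt).2.1
  · have := (nodeOk_hi hh.self.nd.self.node lt).2.2.1
    omega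
  · refine Q_congr0 fun e he => ?_
    obtain ⟨k1, k2⟩ := Finset.mem_sdiff.1 he
    by_contra hc
    rw [not_or] at hc
    have a1 := ix_eq hr hv lV hu.self lt hsub hn hB hrg (val_supp hu.self.nd hc.1)
    have a2 := ix_eq hr hv lV hu.self lt hsub hn hB hrg (val_supp hu.self.nd hc.2)
    apply k2
    unfold Ix at k1 ⊢
    rw [Finset.mem_sdiff, Cf.Ro_par, Cf.mem_Ro] at k1 ⊢
    refine ⟨Finset.mem_univ _, ?_⟩
    rw [a1, a2]
    exact k1.2
  · have i1 : j.1.1 ∈ (hd t).items := by rw [hd_items]; exact val_supp hu.self.nd h1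
    have i2 : j'.1.1 ∈ (hd t).items := by rw [hd_items]; exact val_supp hu.self.nd h2
    have hs' : (hd t).items ⊆ V.items := by rw [hd_items]; exact hsub
    have hB' : (DseCh23.hu u t).B = v.B := by rw [hu_B]; exact hB
    have a1 := ix_eq hr hv lV hh.self lt hs' (hhn.trans hn) hB' hrg i1
    have a2 := ix_eq hr hv lV hh.self lt hs' (hhn.trans hn) hB' hrg i2
    rw [Cf.Ro_par, Cf.mem_Ro] at h3 ⊢
    rw [a1, a2]
    exact h3

/-- **at all the raw children** -/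
theorem ka_all {X : Ctx N γ p0 P₀} (hr : RgOk X.c.wp X.c.lam ParF5.rg) (t : IT) : ∀ u : NS,
    All (PF X) u t → All (fun v V => RawAll (KA X v) v V) u t := by
  induction t with
  | leaf S => intro u _; exact trivial
  | br p Sp t₁ t₀ ih₁ ih₀ =>
    intro u hh
    have hl : ¬ isL (.br p Sp t₁ t₀) := fun h => h
    have a1 : KA X u p ⟨p, u.c / (1 - 1 / (p : ℝ)), u.A * p, u.B⟩ t₁ :=
      ka_of (V := .br p Sp t₁ t₀) hr hh.1 hl hh.2.1 Finset.subset_union_left (Nat.le_succ p)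
    have a2 : KA X u p ⟨p, u.c * p, u.A, u.B * p⟩ t₀ :=
      ka_of (V := .br p Sp t₁ t₀) hr hh.1 hl hh.2.2 Finset.subset_union_right (Nat.le_succ p)
    exact ⟨⟨a1, a2⟩, ih₁ _ hh.2.1, ih₀ _ hh.2.2⟩
  | add b t₁ t₀ ih₁ ih₀ =>
    intro u hh
    have hl : ¬ isL (.add b t₁ t₀) := fun h => h
    have a1 : KA X u b ⟨b + 1, u.c, u.A, u.B⟩ t₁ :=
      ka_of (V := .add b t₁ t₀) hr hh.1 hl hh.2.1 Finset.subset_union_left le_rfl
    have a2 : KA X u b ⟨b + 1, u.c, u.A, u.B⟩ t₀ :=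
      ka_of (V := .add b t₁ t₀) hr hh.1 hl hh.2.2 Finset.subset_union_right le_rfl
    exact ⟨⟨a1, a2⟩, ih₁ _ hh.2.1, ih₀ _ hh.2.2⟩
  | up b Sp t ih =>
    intro u hh
    have hl : ¬ isL (.up b Sp t) := fun h => h
    have a1 : KA X u b ⟨b, u.c, u.A, u.B⟩ t :=
      ka_of (V := .up b Sp t) hr hh.1 hl hh.2 (Finset.Subset.refl _) (Nat.le_succ b)
    exact ⟨a1, ih _ hh.2⟩
  | pl b t ih =>
    intro u hh
    have hl : ¬ isL (.pl b t) := fun h => h
    have a1 : KA X u b ⟨b + 1, u.c, u.A * b, u.B⟩ t :=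
      ka_of (V := .pl b t) hr hh.1 hl hh.2 (Finset.Subset.refl _) le_rfl
    exact ⟨a1, ih _ hh.2⟩
  | far b t₁ t₀ ih₁ ih₀ =>
    intro u hh
    have hl : ¬ isL (.far b t₁ t₀) := fun h => h
    have a1 : KA X u b ⟨b + 1, u.c, u.A, u.B⟩ t₁ :=
      ka_of (V := .far b t₁ t₀) hr hh.1 hl hh.2.1 Finset.subset_union_left le_rfl
    have a2 : KA X u b ⟨b + 1, u.c, u.A, u.B⟩ t₀ :=
      ka_of (V := .far b t₁ t₀) hr hh.1 hl hh.2.2 Finset.subset_union_right le_rfl
    exact ⟨⟨a1, a2⟩, ih₁ _ hh.2.1, ih₀ _ hh.2.2⟩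

/-- **in a context**, any numbers with a thinness constant on the ranges -/
theorem ctx_KA {th : ℕ → (ℕ → ℝ) → Finset ℕ → ℕ → ℝ} {Ct C₀ : ℝ} {Sx : ℕ → (ℕ → ℝ) → Finset ℕ → Finset ℕ}
    (h : NumOK N th Ct C₀ Sx) (hth : RgTh th p0) (X : Ctx N γ p0 P₀) :
    All (fun v V => RawAll (KA X v) v V) ⟨top X.S, 1, 1, 1⟩ X.c.t :=
  ka_all (rgOk h hth X) _ _ (ctx_PF X)

/-- **the target** -/
def TgtKA (N : Skel189.Num) (γ : ℝ) : Prop :=
  Ev N γ fun p0 P₀ X => All (fun v V => RawAll (KA X v) v V) ⟨top X.S, 1, 1, 1⟩ X.c.t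

/-- **the raw children without an event, for the final numbers** -/
theorem ka_fin : ForN ParT21.thF NumG23.SxF TgtKA :=
  ⟨0, fun N Ct C₀ γ h hN hG => ⟨0, fun p0 _ => ⟨0, fun P₀ _ X => ctx_KA h (hN.rg p0) X⟩⟩⟩

end Crest.Agent.R4P.ChU17
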