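import Crest.Agent.R4P.AvI_32

/-!
R4 (S0004) with powers, helper32: **the core count** (helper33 10025 (3), 10296 (a)): own missing ties `s` of an
item with a sparse label of denominator `k`, `s` open (`log s > (log k)^a`), whose next open missing tie is
`≤ (log s)^C'`.

* `kl`       : the denominator of the sticky label above the missing tie `s`;
* `Core`     : the core ties; `same_den`, `new_den` : the denominator at two core ties;
* `sparse_of`, `core_item` : the same for the items of a context (`BFP`);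
* `core_sum` : **`∑ 1 / log k ≤ (10 / a) (loglog p0)^(-a)`** over the core ties of one item, for every `e : UV`.
-/

set_option autoImplicit false
set_option linter.unusedSectionVars false
set_option linter.unusedVariables false

namespace Crest.Agent.R4P.CoC32

open Crest.Agent.R4.LF363
open Crest.Agent.R4.W363 (lst lst_prod mem_lst)
open Crest.Agent.R4P.PosP33 Crest.Agent.R4P.LabD33 Crest.Agent.R4P.AvG32
open Crest.Agent.R4P.StM6 (d5 d5_pos)
open Crest.Agent.R4P.Bir30 (lst_mem lst_not_mem Few Qb Qb_le)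

variable {e : UV} {γ ψ A C C' a : ℝ} {b s s' t p0 : ℕ} {κ κ' : ℚ} {M : Finset ℕ}

/-- the denominator of the sticky label above the missing tie `s` (`1` if there is none) -/
noncomputable def kl (e : UV) (γ ψ : ℝ) (M : Finset ℕ) (s : ℕ) : ℕ :=
  ((sl e γ ψ (lst M s)).map fun κ => (((lst M s).prod : ℚ) * κ).den).getD 1

lemma kl_some (h : sl e γ ψ (lst M s) = some κ) :
    kl e γ ψ M s = (((lst M s).prod : ℚ) * κ).den := by
  unfold kl; rw [h]; rfl

lemma kl_pos (s : ℕ) : 0 < kl e γ ψ M s := by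
  unfold kl
  cases sl e γ ψ (lst M s) with
  | none => exact one_pos
  | some κ => exact Rat.den_pos _

/-- **a core tie** of the item: `A` = exponent of the births, `2 A` = exponent of the sparseness -/
structure Core (A C' a : ℝ) (e : UV) (γ ψ : ℝ) (M : Finset ℕ) (s : ℕ) : Prop where
  mem : s ∈ M
  lab : ∃ κ, sl e γ ψ (lst M s) = some κ
  sparse : 2 * A * Real.log (Real.log s) < 5 * Real.log (kl e γ ψ M s)
  opn : Real.log (kl e γ ψ M s) ^ a < Real.log s
  next : ∀ x ∈ M, x < s → Real.log (kl e γ ψ M s) ^ a < Real.log x →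
    Real.log x ≤ C' * Real.log (Real.log s)

/-! ### the denominators -/

lemma den_nat_mul (n : ℕ) (hn : 0 < n) (x : ℚ) : (((n : ℚ)) * x).den * n.gcd x.den = x.den := by
  have h := Rat.mul_den (n : ℚ) x
  rw [Rat.num_natCast, Rat.den_natCast, one_mul, Int.natAbs_mul, Int.natAbs_natCast,
    Nat.Coprime.gcd_mul_right_cancel _ x.reduced] at h
  rw [h]
  exact Nat.div_mul_cancel (Nat.gcd_dvd_right _ _)

/-- **one label at two stages**: the denominator is the same or it has lost a prime `> s'` -/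
theorem same_den (hM : ∀ x ∈ M, x.Prime) (hs : s' < s)
    (h : sl e γ ψ (lst M s) = some κ) (h' : sl e γ ψ (lst M s') = some κ) :
    kl e γ ψ M s' = kl e γ ψ M s ∨ kl e γ ψ M s' * s' < kl e γ ψ M s := by
  classical
  rw [kl_some h, kl_some h']
  set n : ℕ := ∏ x ∈ M.filter (fun x => s' < x ∧ x ≤ s), x with hn
  have e1 : (lst M s').prod = n * (lst M s).prod := by
    rw [lst_prod, lst_prod, hn]
    have e : M.filter (s' < ·) = M.filter (fun x => s' < x ∧ x ≤ s) ∪ M.filter (s < ·) := by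
      ext x
      simp only [Finset.mem_filter, Finset.mem_union]
      constructor
      · rintro ⟨h1, h2⟩
        rcases le_or_gt x s with h | h
        · exact Or.inl ⟨h1, h2, h⟩
        · exact Or.inr ⟨h1, h⟩
      · rintro (⟨h1, h2, h3⟩ | ⟨h1, h2⟩)
        · exact ⟨h1, h2⟩
        · exact ⟨h1, by omega⟩
    rw [e, Finset.prod_union]
    rw [Finset.disjoint_left]
    intro x hx hy
    rw [Finset.mem_filter] at hx hy
    omega
  have hn0 : 0 < n := Finset.prod_pos fun x hx => (hM x (Finset.mem_filter.1 hx).1).pos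
  have e2 : (((lst M s').prod : ℕ) : ℚ) * κ = (n : ℚ) * (((lst M s).prod : ℕ) * κ) := by
    rw [e1]; push_cast; ring
  have h3 := den_nat_mul n hn0 ((((lst M s).prod : ℕ) : ℚ) * κ)
  rw [← e2] at h3
  set k : ℕ := ((((lst M s).prod : ℕ) : ℚ) * κ).den with hk
  set k' : ℕ := ((((lst M s').prod : ℕ) : ℚ) * κ).den with hk'
  set g : ℕ := n.gcd k with hg
  have hk0 : 0 < k' := Rat.den_pos _
  by_cases hg1 : g = 1
  · left
    rw [hg1, mul_one] at h3
    exact h3
  · right
    have hgp : 0 < g := Nat.gcd_pos_of_pos_left _ hn0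
    obtain ⟨p, hp, hpg⟩ := Nat.exists_prime_and_dvd hg1
    have hpn : p ∣ n := hpg.trans (Nat.gcd_dvd_left _ _)
    obtain ⟨x, hx, hpx⟩ := (Prime.dvd_finsetProd_iff hp.prime _).1 hpn
    obtain ⟨x1, x2, -⟩ := Finset.mem_filter.1 hx
    have e3 : p = x := (Nat.prime_dvd_prime_iff_eq hp (hM x x1)).1 hpx
    have h5 : s' < g := by
      have := Nat.le_of_dvd hgp hpg
      omega
    rw [← h3]
    exact Nat.mul_lt_mul_of_pos_left h5 hk0

/-- **a new label**: the denominator is much smaller -/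
theorem new_den (h : FcP A C p0 γ ψ M) (hA : 0 < A) (hp0 : 8 ≤ p0) (hs : s ∈ M) (hs' : s' ∈ M) (hlt : s' < s)
    (hκ : sl e γ ψ (lst M s) = some κ) (hκ' : sl e γ ψ (lst M s') = some κ') (hne : κ ≠ κ')
    (hth : ∀ t ∈ M, s' < t → t ≤ s → Chg e γ ψ M t → Real.log t ^ (-A) < Rd ψ M t)
    (hsp : 2 * A * Real.log (Real.log s) < 5 * Real.log (kl e γ ψ M s)) :
    40 * Real.log (kl e γ ψ M s') ≤ 21 * Real.log (kl e γ ψ M s) := by
  -- the last change
  have hx : ∃ x ∈ M, s' < x ∧ x ≤ s ∧ Chg e γ ψ M x := by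
    by_contra hc
    push Not at hc
    have := sl_const_of (e := e) (γ := γ) (ψ := ψ) h.pos hlt.le fun x hx h1 h2 => hc x hx h1 h2
    rw [hκ, hκ'] at this
    exact hne (Option.some.inj this).symm
  obtain ⟨x, x1, x2, x3, x4⟩ := hx
  obtain ⟨t, ht, htx⟩ := exists_LC x1 x2 x4
  have ho := ht.own h.pos hκ'
  have hts : t ≤ s := htx.trans x3
  have hP := h.Ppos ht.mem
  obtain ⟨g0, g1, g2, -⟩ := own_spec hP ho
  -- the denominator at the birth
  have hkk : kl e γ ψ M s' ≤ (((Pd M t : ℕ) : ℚ) * κ').den := by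
    rw [kl_some hκ']
    obtain ⟨m, hm⟩ := Pd_dvd ht.mem ht.lt
    have e1 : ((((lst M s').prod : ℕ) : ℚ)) * κ' = (m : ℚ) * (((Pd M t : ℕ) : ℚ) * κ') := by
      rw [hm]; push_cast; ring
    rw [e1]
    exact Bir30.den_mul_le m _
  set k₁ : ℕ := (((Pd M t : ℕ) : ℚ) * κ').den with hk₁
  have hk₁0 : 0 < k₁ := Rat.den_pos _
  have h1 := den_log (e := e) hk₁0 hP g0 g2
  have hfat := hth t ht.mem ht.lt hts ht.chg
  -- logarithms
  have hlog : ∀ y ∈ M, 2 ≤ Real.log y := by
    intro y hy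
    have h2 : (8 : ℝ) ≤ y := by exact_mod_cast hp0.trans (h.mp y hy).le
    rw [Real.le_log_iff_exp_le (by linarith)]
    have h3 := Real.exp_one_lt_d9
    have h4 : Real.exp 2 = Real.exp 1 * Real.exp 1 := by rw [← Real.exp_add]; norm_num
    have h5 := Real.exp_pos 1
    nlinarith
  have h2 : ll ψ M t < A * Real.log (Real.log t) := by
    have h3 := Real.log_lt_log (Real.rpow_pos_of_pos (by linarith [hlog t ht.mem]) _) hfat
    rw [Real.log_rpow (by linarith [hlog t ht.mem]), log_Rd] at h3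
    linarith
  have h3 : Real.log (Real.log t) ≤ Real.log (Real.log s) := by
    refine Real.log_le_log (by linarith [hlog t ht.mem]) ?_
    exact Real.log_le_log (by exact_mod_cast h.pos t ht.mem) (by exact_mod_cast hts)
  have h4 : Real.log (kl e γ ψ M s') ≤ Real.log k₁ :=
    Real.log_le_log (by exact_mod_cast kl_pos s') (by exact_mod_cast hkk)
  have h5 : (1 + e.u) * ell ψ (Pd M t) ≤ 21 / 20 * ell ψ (Pd M t) := by
    refine mul_le_mul_of_nonneg_right (by linarith [e.u1]) ?_
    have := h.ll_nonneg ht.mem g1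
    exact this
  have h6 : ell ψ (Pd M t) = ll ψ M t := rfl
  have h7 : A * Real.log (Real.log t) ≤ A * Real.log (Real.log s) :=
    mul_le_mul_of_nonneg_left h3 hA.le
  rw [h6] at h5 h1
  linarith

/-! ### numbers -/

/-- `y^(-a) - x^(-a)` from below -/
lemma pow_gap {x y a : ℝ} (hy : 0 < y) (hyx : y ≤ x) (ha : 0 < a) :
    a * (x - y) * x ^ (-a - 1) ≤ y ^ (-a) - x ^ (-a) := by
  have hx : 0 < x := lt_of_lt_of_le hy hyx
  have e1 : y ^ (-a) = (x / y) ^ a * x ^ (-a) := by
    rw [Real.div_rpow hx.le hy.le, Real.rpow_neg hx.le, Real.rpow_neg hy.le]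
    have : x ^ a ≠ 0 := (Real.rpow_pos_of_pos hx _).ne'
    field_simp
  have h1 : 1 - y / x ≤ Real.log (x / y) := by
    have := Real.one_sub_inv_le_log_of_pos (show 0 < x / y by positivity)
    rwa [inv_div] at this
  have h2 : 1 + a * Real.log (x / y) ≤ (x / y) ^ a := by
    have h3 := Real.add_one_le_exp (Real.log (x / y) * a)
    rw [Real.rpow_def_of_pos (by positivity)]
    linarith
  have h4 : a * (1 - y / x) ≤ (x / y) ^ a - 1 := by nlinarith
  have h5 : 0 < x ^ (-a) := Real.rpow_pos_of_pos hx _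
  have e2 : a * (x - y) * x ^ (-a - 1) = a * (1 - y / x) * x ^ (-a) := by
    rw [Real.rpow_sub_one hx.ne']
    field_simp
  rw [e1, e2]
  nlinarith [mul_le_mul_of_nonneg_right h4 h5.le]

/-- **the step of the potential**: `x - y ≥ y^a` or `40 y ≤ 21 x` -/
lemma gap_step {x y a : ℝ} (hy : 0 < y) (hx1 : 1 ≤ x) (hyx : y ≤ x) (ha : 0 < a) (ha1 : a ≤ 1)
    (h : y ^ a ≤ x - y ∨ 40 * y ≤ 21 * x) : 1 / x ≤ 3 / a * (y ^ (-a) - x ^ (-a)) := by
  have hx : 0 < x := by linarith
  have h1 := pow_gap hy hyx ha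
  have key : x ^ a / 3 ≤ x - y → 1 / x ≤ 3 / a * (y ^ (-a) - x ^ (-a)) := by
    intro h2
    have h3 : a * (x ^ a / 3) * x ^ (-a - 1) ≤ a * (x - y) * x ^ (-a - 1) := by
      refine mul_le_mul_of_nonneg_right ?_ (Real.rpow_nonneg hx.le _)
      exact mul_le_mul_of_nonneg_left h2 ha.le
    have e1 : a * (x ^ a / 3) * x ^ (-a - 1) = a / 3 * (1 / x) := by
      have : x ^ a * x ^ (-a - 1) = 1 / x := by
        rw [← Real.rpow_add hx, show a + (-a - 1) = -1 by ring, Real.rpow_neg_one, one_div]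
      calc a * (x ^ a / 3) * x ^ (-a - 1) = a / 3 * (x ^ a * x ^ (-a - 1)) := by ring
        _ = _ := by rw [this]
    rw [e1] at h3
    have h4 : a / 3 * (1 / x) ≤ y ^ (-a) - x ^ (-a) := h3.trans h1
    calc 1 / x = 3 / a * (a / 3 * (1 / x)) := by field_simp
      _ ≤ _ := mul_le_mul_of_nonneg_left h4 (by positivity)
  have hxa : x ^ a ≤ x := by
    calc x ^ a ≤ x ^ (1 : ℝ) := Real.rpow_le_rpow_of_exponent_le hx1 ha1
      _ = x := Real.rpow_one x
  apply key
  rcases h with h | h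
  · rcases le_total (x / 2) y with h2 | h2
    · have h3 : (x / 2) ^ a ≤ y ^ a := Real.rpow_le_rpow (by linarith) h2 ha.le
      have h4 : (x / 2) ^ a = x ^ a * (1 / 2) ^ a := by
        rw [← Real.mul_rpow hx.le (by norm_num)]; congr 1; ring
      have h5 : (1 / 2 : ℝ) ≤ (1 / 2) ^ a := by
        calc (1 / 2 : ℝ) = (1 / 2) ^ (1 : ℝ) := (Real.rpow_one _).symm
          _ ≤ _ := Real.rpow_le_rpow_of_exponent_ge (by norm_num) (by norm_num) ha1
      have h6 : 0 ≤ x ^ a := Real.rpow_nonneg hx.le _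
      nlinarith
    · linarith
  · linarith

/-- large numbers for the core count -/
structure NuC (C' : ℝ) (p0 : ℕ) : Prop where
  three : 16 ≤ p0
  xl : ∀ x : ℝ, Real.log (Real.log p0) ≤ x → 2 * Real.log (C' * x) ≤ x

lemma exists_nuC (C' : ℝ) (hC' : 0 < C') : ∃ p₁ : ℕ, ∀ p0 ≥ p₁, NuC C' p0 := by
  have h1 : ∀ᶠ x : ℝ in Filter.atTop, 2 * Real.log (C' * x) ≤ x := by
    have h2 := (isLittleO_log_rpow_atTop (show (0 : ℝ) < 1 by norm_num)).bound
      (show (0 : ℝ) < 1 / 4 by norm_num)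
    filter_upwards [h2, Filter.eventually_ge_atTop (1 : ℝ),
      Filter.eventually_ge_atTop (4 * Real.log C')] with x hx hx1 hx2
    have hl : 0 ≤ Real.log x := Real.log_nonneg hx1
    rw [Real.norm_eq_abs, Real.norm_eq_abs, abs_of_nonneg hl, Real.rpow_one,
      abs_of_nonneg (by linarith)] at hx
    rw [Real.log_mul hC'.ne' (by linarith)]
    linarith
  obtain ⟨x₁, hx₁⟩ := Filter.eventually_atTop.1 h1
  have h3 : ∀ᶠ p : ℕ in Filter.atTop, x₁ ≤ Real.log (Real.log p) :=
    (Real.tendsto_log_atTop.comp (Real.tendsto_log_atTop.comp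
      tendsto_natCast_atTop_atTop)).eventually_ge_atTop _
  obtain ⟨p₁, hp₁⟩ := Filter.eventually_atTop.1 h3
  exact ⟨max p₁ 16, fun p0 hp => ⟨(le_max_right _ _).trans hp, fun x hx =>
    hx₁ x ((hp₁ p0 ((le_max_left _ _).trans hp)).trans hx)⟩⟩

lemma NuC.ll1 (h : NuC C' p0) : 1 ≤ Real.log (Real.log p0) := by
  have h1 : (16 : ℝ) ≤ p0 := by exact_mod_cast h.three
  have h2 : Real.exp 1 ≤ Real.log p0 := by
    rw [Real.le_log_iff_exp_le (by linarith)]
    have h3 := Real.exp_one_lt_d9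
    calc Real.exp (Real.exp 1) ≤ Real.exp (2.7182818286) := Real.exp_le_exp.2 h3.le
      _ ≤ 16 := by
        have e1 : (2.7182818286 : ℝ) = 2.7182818286 * 1 := by norm_num
        have h4 : Real.exp (2.7182818286) = Real.exp 1 ^ (2.7182818286 : ℝ) := by
          rw [← Real.exp_mul]; congr 1; norm_num
        rw [h4]
        calc Real.exp 1 ^ (2.7182818286 : ℝ) ≤ (2.7182818286 : ℝ) ^ (2.7182818286 : ℝ) :=
              Real.rpow_le_rpow (Real.exp_pos 1).le h3.le (by norm_num)
          _ ≤ (2.7182818286 : ℝ) ^ (2.75 : ℝ) :=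
              Real.rpow_le_rpow_of_exponent_le (by norm_num) (by norm_num)
          _ ≤ 16 := by
              have h5 : ((2.7182818286 : ℝ) ^ (2.75 : ℝ)) ^ 4 = 2.7182818286 ^ 11 := by
                rw [← Real.rpow_natCast, ← Real.rpow_mul (by norm_num), ← Real.rpow_natCast]
                norm_num
              refine le_of_pow_le_pow_left₀ (show (4 : ℕ) ≠ 0 by norm_num) (by norm_num) ?_
              rw [h5]
              norm_num
      _ ≤ p0 := h1
  have h3 := Real.log_le_log (Real.exp_pos 1) h2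
  rwa [Real.log_exp] at h3

/-! ### the sum -/

/-- the potential -/
noncomputable def Psi (a : ℝ) (e : UV) (γ ψ : ℝ) (M : Finset ℕ) (s : ℕ) : ℝ :=
  1 / Real.log (Real.log s) + 3 / a * Real.log (kl e γ ψ M s) ^ (-a)

section sum
variable (h : FcP A C p0 γ ψ M) (hn : NuC C' p0) (hA : 10 ≤ A) (ha : 0 < a) (ha1 : a ≤ 1)
  (hM : ∀ x ∈ M, x.Prime)
include h hn

lemma lls {s : ℕ} (hs : s ∈ M) : Real.log (Real.log p0) ≤ Real.log (Real.log s) := by
  have h1 : (16 : ℝ) ≤ p0 := by exact_mod_cast hn.three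
  have h2 : 0 < Real.log p0 := Real.log_pos (by linarith)
  exact Real.log_le_log h2 (Real.log_le_log (by linarith) (by exact_mod_cast (h.mp s hs).le))

include hA

lemma logk {s : ℕ} (hs : Core A C' a e γ ψ M s) :
    4 * Real.log (Real.log s) ≤ Real.log (kl e γ ψ M s) := by
  have h1 := hs.sparse
  have h2 := (lls h hn hs.mem)
  have h3 := hn.ll1
  nlinarith

include ha ha1 hM

/-- **one step** -/
lemma step {s s' : ℕ} (hs : Core A C' a e γ ψ M s) (hs' : Core A C' a e γ ψ M s') (hlt : s' < s)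
    (hth : ∀ t ∈ M, s' < t → t ≤ s → Chg e γ ψ M t → Real.log t ^ (-A) < Rd ψ M t) :
    1 / Real.log (kl e γ ψ M s) ≤ Psi a e γ ψ M s' - Psi a e γ ψ M s := by
  obtain ⟨κ, hκ⟩ := hs.lab
  obtain ⟨κ', hκ'⟩ := hs'.lab
  have hl1 := hn.ll1
  have hls := lls h hn hs.mem
  have hls' := lls h hn hs'.mem
  have hx4 := logk h hn hA hs
  have hy4 := logk h hn hA hs'
  set x : ℝ := Real.log (kl e γ ψ M s) with hx
  set y : ℝ := Real.log (kl e γ ψ M s') with hy
  have hx0 : 0 < x := by linarith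
  have hy0 : 0 < y := by linarith
  have hs0 : 0 < s' := h.pos s' hs'.mem
  -- the two kinds
  have hd : (y = x ∨ y + Real.log s' ≤ x) ∨ 40 * y ≤ 21 * x := by
    by_cases hκκ : κ = κ'
    · left
      subst hκκ
      rcases same_den hM hlt hκ hκ' with h1 | h1
      · left; rw [hy, hx, h1]
      · right
        have h2 : ((kl e γ ψ M s' : ℕ) : ℝ) * s' ≤ kl e γ ψ M s := by exact_mod_cast h1.le
        have h3 : (0 : ℝ) < kl e γ ψ M s' := by exact_mod_cast kl_pos s'
        have h4 : (0 : ℝ) < s' := by exact_mod_cast hs0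
        have h5 := Real.log_le_log (by positivity) h2
        rw [Real.log_mul h3.ne' h4.ne'] at h5
        exact h5
    · right
      exact new_den h (by linarith) (by have := hn.three; omega) hs.mem hs'.mem hlt hκ hκ' hκκ hth
        hs.sparse
  have hlogs' : 0 < Real.log s' := by
    have h1 : 0 < Real.log (Real.log s') := by linarith
    by_contra hc
    push Not at hc
    have h2 : (1 : ℝ) ≤ s' := by exact_mod_cast hs0
    have h3 : Real.log s' = 0 := le_antisymm hc (Real.log_nonneg h2)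
    rw [h3, Real.log_zero] at h1
    exact lt_irrefl _ h1
  have hyx : y ≤ x := by
    rcases hd with (h1 | h1) | h1
    · exact h1.le
    · linarith
    · linarith
  have hpow : x ^ (-a) ≤ y ^ (-a) := Real.rpow_le_rpow_of_nonpos hy0 hyx (by linarith)
  have hmono : 1 / Real.log (Real.log s) ≤ 1 / Real.log (Real.log s') := by
    refine one_div_le_one_div_of_le (by linarith) ?_
    exact Real.log_le_log hlogs' (Real.log_le_log (by exact_mod_cast hs0) (by exact_mod_cast hlt.le))
  have h3a : 0 < 3 / a := by positivity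
  unfold Psi
  rw [← hx, ← hy]
  rcases le_or_gt (Real.log s') (C' * Real.log (Real.log s)) with hc | hc
  · -- the tower
    have h1 := hn.xl _ hls
    have h2 : Real.log (Real.log s') ≤ Real.log (C' * Real.log (Real.log s)) :=
      Real.log_le_log hlogs' hc
    have h3 : 2 * Real.log (Real.log s') ≤ Real.log (Real.log s) := by linarith
    have h4 : 2 * (1 / Real.log (Real.log s)) ≤ 1 / Real.log (Real.log s') := by
      rw [mul_one_div, div_le_div_iff₀ (by linarith) (by linarith)]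
      linarith
    have h5 : 1 / x ≤ 1 / Real.log (Real.log s) :=
      one_div_le_one_div_of_le (by linarith) (by linarith)
    have h6 : 0 ≤ 3 / a * (y ^ (-a) - x ^ (-a)) := mul_nonneg h3a.le (by linarith)
    linarith
  · -- the denominator drops
    have h1 : Real.log s' ≤ x ^ a := by
      by_contra hc'
      push Not at hc'
      have := hs.next s' hs'.mem hlt hc'
      linarith
    have h2 : y ^ a < Real.log s' := hs'.opn
    have h3 : y ^ a ≤ x - y ∨ 40 * y ≤ 21 * x := by
      rcases hd with (h4 | h4) | h4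
      · exfalso
        rw [h4] at h2
        linarith
      · left; linarith
      · exact Or.inr h4
    have h4 := gap_step hy0 (by linarith) hyx ha ha1 h3
    linarith

/-- the sum over a part without thin changes -/
lemma part {S : Finset ℕ} (hS : ∀ s ∈ S, Core A C' a e γ ψ M s)
    (hth : ∀ s ∈ S, ∀ s' ∈ S, s' < s → ∀ t ∈ M, s' < t → t ≤ s → Chg e γ ψ M t →
      Real.log t ^ (-A) < Rd ψ M t) :
    ∑ s ∈ S, 1 / Real.log (kl e γ ψ M s) ≤ 5 / a * Real.log (Real.log p0) ^ (-a) := by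
  have hl1 := hn.ll1
  have hL0 : 0 < Real.log (Real.log p0) ^ (-a) := Real.rpow_pos_of_pos (by linarith) _
  rcases S.eq_empty_or_nonempty with rfl | hne
  · rw [Finset.sum_empty]; positivity
  set m := S.min' hne with hm
  have hmS : m ∈ S := S.min'_mem hne
  have h1 := tele_hi (fun s => 1 / Real.log (kl e γ ψ M s)) (Psi a e γ ψ M) S hne
    fun b hb c hc hbc => step h hn hA ha ha1 hM (hS c hc) (hS b hb) hbc (hth c hc b hb hbc)
  rw [← Finset.add_sum_erase S _ hmS]
  have hcm := hS m hmS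
  have h2 := lls h hn hcm.mem
  have h3 := logk h hn hA hcm
  have hMx := hS _ (S.max'_mem hne)
  have h4 := lls h hn hMx.mem
  have h5 := logk h hn hA hMx
  have p1 : 0 ≤ Psi a e γ ψ M (S.max' hne) := by
    unfold Psi
    have : 0 ≤ Real.log (kl e γ ψ M (S.max' hne)) ^ (-a) := Real.rpow_nonneg (by linarith) _
    have : 0 < 1 / Real.log (Real.log ((S.max' hne : ℕ) : ℝ)) := by
      have : 0 < Real.log (Real.log ((S.max' hne : ℕ) : ℝ)) := by linarith
      positivity
    positivity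
  have hinv : 1 / Real.log (Real.log p0) ≤ Real.log (Real.log p0) ^ (-a) := by
    rw [one_div, ← Real.rpow_neg_one]
    exact Real.rpow_le_rpow_of_exponent_le hl1 (by linarith)
  have p2 : Psi a e γ ψ M m ≤ (1 + 3 / a) * Real.log (Real.log p0) ^ (-a) := by
    unfold Psi
    have a1 : 1 / Real.log (Real.log m) ≤ 1 / Real.log (Real.log p0) :=
      one_div_le_one_div_of_le (by linarith) h2
    have a2 : Real.log (kl e γ ψ M m) ^ (-a) ≤ Real.log (Real.log p0) ^ (-a) :=
      Real.rpow_le_rpow_of_nonpos (by linarith) (by linarith) (by linarith)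
    have a3 : 3 / a * Real.log (kl e γ ψ M m) ^ (-a) ≤ 3 / a * Real.log (Real.log p0) ^ (-a) :=
      mul_le_mul_of_nonneg_left a2 (by positivity)
    linarith
  have p3 : 1 / Real.log (kl e γ ψ M m) ≤ 1 * Real.log (Real.log p0) ^ (-a) := by
    have a1 : 1 / Real.log (kl e γ ψ M m) ≤ 1 / Real.log (Real.log p0) :=
      one_div_le_one_div_of_le (by linarith) (by linarith)
    linarith
  have h6 : 2 ≤ 2 / a := by
    rw [le_div_iff₀ ha]; linarith
  have h7 : (1 + (1 + 3 / a)) * Real.log (Real.log p0) ^ (-a) ≤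
      5 / a * Real.log (Real.log p0) ^ (-a) := by
    refine mul_le_mul_of_nonneg_right ?_ hL0.le
    have : 5 / a = 2 / a + 3 / a := by ring
    linarith
  linarith

/-- **the core count**: the sum of `1 / log k` over the core ties of one item -/
theorem core_sum {S : Finset ℕ} (hS : ∀ s ∈ S, Core A C' a e γ ψ M s) :
    ∑ s ∈ S, 1 / Real.log (kl e γ ψ M s) ≤ 10 / a * Real.log (Real.log p0) ^ (-a) := by
  classical
  by_cases ht : ∃ t ∈ M, Chg e γ ψ M t ∧ Rd ψ M t ≤ Real.log t ^ (-A)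
  · obtain ⟨t₀, t1, t2, t3⟩ := ht
    have uniq : ∀ t ∈ M, Chg e γ ψ M t → t ≠ t₀ → Real.log t ^ (-A) < Rd ψ M t := by
      intro t h1 h2 h3
      by_contra h4
      push Not at h4
      exact h3 (h.one e h1 t1 h4 t3 h2 t2)
    have c1 := part h hn hA ha ha1 hM (S := S.filter fun s => t₀ ≤ s)
      (fun s hs => hS s (Finset.mem_filter.1 hs).1) fun s hs s' hs' hlt t h1 h2 h3 h4 =>
        uniq t h1 h4 (by
          have := (Finset.mem_filter.1 hs').2
          omega)
    have c2 := part h hn hA ha ha1 hM (S := S.filter fun s => ¬ t₀ ≤ s)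
      (fun s hs => hS s (Finset.mem_filter.1 hs).1) fun s hs s' hs' hlt t h1 h2 h3 h4 =>
        uniq t h1 h4 (by
          have := (Finset.mem_filter.1 hs).2
          omega)
    rw [← Finset.sum_filter_add_sum_filter_not S (fun s => t₀ ≤ s)]
    have : 10 / a * Real.log (Real.log p0) ^ (-a) = 5 / a * Real.log (Real.log p0) ^ (-a) +
        5 / a * Real.log (Real.log p0) ^ (-a) := by ring
    linarith
  · push Not at ht
    have c1 := part h hn hA ha ha1 hM hS fun s hs s' hs' hlt t h1 h2 h3 h4 => ht t h1 h4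
    have hl1 := hn.ll1
    have hL0 : 0 < Real.log (Real.log p0) ^ (-a) := Real.rpow_pos_of_pos (by linarith) _
    refine c1.trans (mul_le_mul_of_nonneg_right ?_ hL0.le)
    exact div_le_div_of_nonneg_right (by norm_num) ha.le

end sum

/-- **eventually in `p0`, the sum is small** -/
theorem exists_core (A C' a δ : ℝ) (hA : 10 ≤ A) (hC' : 0 < C') (ha : 0 < a) (ha1 : a ≤ 1)
    (hδ : 0 < δ) : ∃ p₁ : ℕ, ∀ p0 ≥ p₁, ∀ {C γ ψ : ℝ} {M : Finset ℕ}, FcP A C p0 γ ψ M →
    (∀ x ∈ M, x.Prime) → ∀ {e : UV} {S : Finset ℕ}, (∀ s ∈ S, Core A C' a e γ ψ M s) →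
    ∑ s ∈ S, 1 / Real.log (kl e γ ψ M s) ≤ δ := by
  obtain ⟨p₁, h1⟩ := exists_nuC C' hC'
  have h2 : ∀ᶠ p : ℕ in Filter.atTop, 10 / a / δ ≤ Real.log (Real.log p) ^ a :=
    ((tendsto_rpow_atTop ha).comp (Real.tendsto_log_atTop.comp (Real.tendsto_log_atTop.comp
      tendsto_natCast_atTop_atTop))).eventually_ge_atTop _
  obtain ⟨p₂, h3⟩ := Filter.eventually_atTop.1 h2
  refine ⟨max p₁ p₂, fun p0 hp {C γ ψ M} h hM {e S} hS => ?_⟩
  have hn := h1 p0 ((le_max_left _ _).trans hp)
  have h4 := h3 p0 ((le_max_right _ _).trans hp)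
  have hl := hn.ll1
  refine (core_sum h hn hA ha ha1 hM hS).trans ?_
  rw [Real.rpow_neg (by linarith), ← div_eq_mul_inv,
    div_le_iff₀ (Real.rpow_pos_of_pos (by linarith) _)]
  rw [div_le_iff₀ hδ] at h4
  linarith

/-! ### items of a context -/

section item
open Crest.Agent.R4P.Bir30 (Aex BF)
open Crest.Agent.R4P.BirP47 (BFP)
open Crest.Agent.R4P.Skel189 Crest.Agent.R4P.Data758

variable {N : Skel189.Num} {c : Cf} {q : ℕ}

/-- a label which is not dense at the tie is sparse -/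
lemma sparse_of (h : BFP N c p0 q) (hs : s ∈ c.t.mt q) {e : UV}
    (hκ : sl e c.γ (c.r q) (lst (c.t.mt q) s) = some κ)
    (hd : ¬ StM6.dense (c.wp.thr s) (lst (c.t.mt q) s).prod κ) :
    2 * Aex N * Real.log (Real.log s) < 5 * Real.log (kl e c.γ (c.r q) (c.t.mt q) s) := by
  have hls : 1 < Real.log s := h.log_pos' hs
  have ht := h.thr2 s (h.mp s hs).le
  unfold StM6.dense at hd
  push Not at hd
  have h1 : 1 < d5 (lst (c.t.mt q) s).prod κ * Real.log s ^ (-(2 * Aex N)) :=
    lt_of_lt_of_le hd (mul_le_mul_of_nonneg_left ht (d5_pos _ _).le)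
  have h2 := Real.log_lt_log one_pos h1
  have hk : (0 : ℝ) < (((lst (c.t.mt q) s).prod : ℚ) * κ).den := by
    exact_mod_cast Rat.den_pos _
  rw [Real.log_one, Real.log_mul (d5_pos _ _).ne' (Real.rpow_pos_of_pos (by linarith) _).ne',
    Real.log_rpow (by linarith)] at h2
  have h3 : Real.log (d5 (lst (c.t.mt q) s).prod κ) = 5 * Real.log (kl e c.γ (c.r q) (c.t.mt q) s) := by
    rw [kl_some hκ]
    unfold d5
    rw [Real.log_pow]
    push_cast
    rfl
  rw [h3] at h2
  linarith

/-- **the core count for an item of a context**, for every `e : UV`: the sum of `1 / log k` over the core ties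
of the item is `≤ δ`, eventually in `p0` -/
theorem core_item (hC1 : 0 ≤ N.C1) (C' a δ : ℝ) (hC' : 0 < C') (ha : 0 < a) (ha1 : a ≤ 1)
    (hδ : 0 < δ) : ∃ p₁ : ℕ, ∀ p0 ≥ p₁, ∀ {c : Cf} {q : ℕ}, BFP N c p0 q → 0 < c.r q →
    (∀ x ∈ c.t.mt q, x.Prime) → ∀ {e : UV} {S : Finset ℕ},
    (∀ s ∈ S, Core (Aex N) C' a e c.γ (c.r q) (c.t.mt q) s) →
    ∑ s ∈ S, 1 / Real.log (kl e c.γ (c.r q) (c.t.mt q) s) ≤ δ := by
  obtain ⟨p₁, h⟩ := exists_core (Aex N) C' a δ (by unfold Aex; linarith) hC' ha ha1 hδ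
  exact ⟨p₁, fun p0 hp {c q} hB hr hM {e S} hS => h p0 hp (AvI32.fcP hB hr) hM hS⟩

end item

end Crest.Agent.R4P.CoC32
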