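import Crest.Agent.R4P.FinX_26
import Crest.Agent.R4P.MrgC_35
import Crest.Agent.R4P.NumX_34

/-!
R4 (S0004), POWERS, helper26: **the last file: MAIN and S0004 from the three open targets**.

* `TgtX N γ` : group [X], the bound of the crossing states (`CBX`).
* `TgtB N γ` : group [W-eSHR], the births (`eNew`) for the strategy `SXN`.
* `TgtD N γ` : group [W-dseR] (`dseR`).
* `NumFin` : the final numbers; `exists_numFin`.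
* `MAIN_fin`, `S0004_fin`.
-/

set_option autoImplicit false
set_option linter.unusedSectionVars false
set_option linter.unusedVariables false

open MeasureTheory Filter

namespace Crest.Agent.R4P.FinAll26

open Crest.Agent.R4.Tour104 Crest.Agent.R4.Tour758 Crest.Agent.R4.Avg758 Crest.Agent.R4.Clos758
open Crest.Agent.R4.ClosL758 Crest.Agent.R4.ClosG758 Crest.Agent.R4.ClosR758
open Crest.Agent.R4.Fam464 Crest.Agent.R4P.Cnt588 Crest.Agent.R4P.Walk560 Crest.Agent.R4P.Item758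
open Crest.Agent.R4.Soft104 Crest.Agent.R4.Max709
open Crest.Agent.R4P.Bld532 (NS All NodeOk)
open Crest.Agent.R4P.Data758 Crest.Agent.R4P.SkelF29 Crest.Agent.R4P.Strip29
open Crest.Agent.R4P.Skel189 Crest.Agent.R4P.OSWS245 Crest.Agent.R4P.ParF5 Crest.Agent.R4P.Fin5
open Crest.Agent.R4P.NumX34
open Crest.Agent.R4.Fin532 (MAIN)
open Crest.Agent.R4P.PayA26 Crest.Agent.R4P.FinX26 Crest.Agent.R4P.Mrg35 Crest.Agent.R4P.PayR26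
open Crest.Agent.R4P.KindPay36 (CA KOk)
open Crest.Agent.R4P.AccAl31 (alX)
open Crest.Agent.R4P

/-- **target of [X]** : the crossing states of the contexts with large `p0` are bounded by classes -/
def TgtX (N : Skel189.Num) (γ : ℝ) : Prop :=
  ∃ C Ce K₁ s₁ s₂ B₁ A : ℝ, KOk C N.C1 N.c2 N.B K₁ 0 s₁ s₂ (1/50) ∧
    3 * ((N.B + 2) + (CA C N.c2 s₂ + N.C1 + 1) + 4) ≤ A ∧
    Ev N γ fun p0 P₀ X => CF X → ∀ j₀ : X.c.Lam, ∃ Q' : NS → IT → Prop,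
      All Q' ⟨top X.S, 1, 1, 1⟩ X.c.t ∧ CBX X j₀ Q' B₁ C Ce K₁ s₁ s₂ (alX A γ (1 / (1 - s₂)))

/-- **target of [W-eSHR]** : the births of the main walk -/
def TgtB (N : Skel189.Num) (γ : ℝ) : Prop :=
  ∃ a : ℝ, 0 ≤ a ∧ Ev N γ fun p0 P₀ X => CF X → ∀ (j₀ : X.c.Lam) (Hb : NS → IT → Prop),
    PartWF X j₀ Hb (SXN X j₀) (eNew (X.c.D.par X.Y).rho (SXN X j₀)) a

/-- **target of [W-dseR]** -/
def TgtD (N : Skel189.Num) (γ : ℝ) : Prop :=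
  ∃ a : ℝ, 0 ≤ a ∧ Ev N γ fun p0 P₀ X => CF X → ∀ (j₀ : X.c.Lam) (Hb : NS → IT → Prop),
    PartF X j₀ Hb (fun u τ A => dseR A (X.g u τ)) a

/-- contexts with `P₀ ≥ 2` -/
lemma Ev_P2 (N : Skel189.Num) {γ : ℝ} {F : ∀ (p0 P₀ : ℕ), Ctx N γ p0 P₀ → Prop}
    (h : ∃ p₁ : ℕ, ∀ p0 ≥ p₁, ∀ P₀ : ℕ, 2 ≤ P₀ → ∀ X : Ctx N γ p0 P₀, F p0 P₀ X) : Ev N γ F := by
  obtain ⟨p₁, h⟩ := h
  exact ⟨p₁, fun p0 hp => ⟨2, fun P₀ hP X => h p0 hp P₀ hP X⟩⟩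

/-- **`MAIN` from the three targets** -/
theorem MAIN_fin {N : Skel189.Num} {th : ℕ → (ℕ → ℝ) → Finset ℕ → ℕ → ℝ} {Ct C₀ : ℝ}
    {Sx : ℕ → (ℕ → ℝ) → Finset ℕ → Finset ℕ} {γ : ℝ} (h : NumOK N th Ct C₀ Sx) (hX : TgtX N γ)
    (hB : TgtB N γ) (hD : TgtD N γ) : MAIN γ := by
  obtain ⟨C, Ce, K₁, s₁, s₂, B₁, A, hk, hA, hX⟩ := hX
  obtain ⟨a, ha, hB⟩ := hB
  obtain ⟨a', ha', hD⟩ := hD
  obtain ⟨p₁, hp₁⟩ := part_eXR N (Ce := Ce) hk hA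
  have hXR : Ev N γ fun p0 P₀ X => ∀ (j₀ : X.c.Lam) (Q' : NS → IT → Prop),
      All Q' ⟨top X.S, 1, 1, 1⟩ X.c.t → ∀ B₁ B : ℝ, B₁ + 1 ≤ B →
      CBX X j₀ Q' B₁ C Ce K₁ s₁ s₂ (alX A γ (1 / (1 - s₂))) → ∀ Hb : NS → IT → Prop,
      PartWF X j₀ Hb (SXN X j₀) (eXR (SXN X j₀) (X.c.D.par X.Y).rho (X.tm j₀) B) (a6X N.B K₁) :=
    Ev_P2 N ⟨p₁, fun p0 hp0 P₀ hP X j₀ => hp₁ p0 hp0 γ P₀ hP X j₀⟩
  refine MAIN_of_three h (fun X j₀ => SXN X j₀)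
    (Ev_P2 N ⟨0, fun p0 _ P₀ _ X j₀ => ⟨SXN_blind X j₀, SXN_nosplit X j₀⟩⟩)
    (Ev_P2 N ⟨0, fun p0 _ P₀ _ X j₀ s => SXN_st X j₀ s⟩)
    (Ev_P2 N ⟨0, fun p0 _ P₀ _ X j₀ d A => SXN_jt X j₀ d A⟩) (fun B₀ => ?_)
  have h6 := a6X_nonneg (B := N.B) hk.K0
  refine ⟨fun _ => max 0 (max B₀ (B₁ + 1)), fun _ => a', fun _ => a, fun _ => a6X N.B K₁ + a,
    fun _ => (le_max_left _ _).trans (le_max_right _ _), fun _ => le_max_left _ _, fun _ => ha',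
    fun _ => ha, fun _ => by positivity, fun K hK Kb hKb => ?_⟩
  refine (((hX.and hXR).and hB).and hD).mono fun p0 P₀ X hh hC j₀ => ?_
  obtain ⟨⟨⟨x1, x2⟩, x3⟩, x4⟩ := hh
  obtain ⟨Q', hQ, hQ'⟩ := x1 hC j₀
  have hb := x3 hC j₀ (BootF X j₀ (fun _ _ => 0) (Kb p0))
  refine ⟨x4 hC j₀ _, part_SHR hb, ?_⟩
  exact part_X hb (x2 j₀ Q' hQ B₁ _ ((le_max_right _ _).trans (le_max_right _ _)) hQ' _)

/-- **S0004 from the three targets** -/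
theorem S0004_fin (H : ∃ (N : Skel189.Num) (th : ℕ → (ℕ → ℝ) → Finset ℕ → ℕ → ℝ) (Ct C₀ : ℝ)
      (Sx : ℕ → (ℕ → ℝ) → Finset ℕ → Finset ℕ), NumOK N th Ct C₀ Sx ∧
      ∀ γ : ℝ, TgtX N γ ∧ TgtB N γ ∧ TgtD N γ)
    (γ : ℝ) (ψ : ℕ → ℝ)
    (hψ : ∀ q, 0 ≤ ψ q) (hdiv : ¬ Summable fun q : ℕ => (Nat.totient q : ℝ) / q * ψ q) :
    ∀ᵐ x : ℝ, ∃ᶠ q : ℕ in atTop, |(q : ℝ) * x - γ - round ((q : ℝ) * x - γ)| < ψ q := by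
  obtain ⟨N, th, Ct, C₀, Sx, h, H⟩ := H
  exact Fin5.S0004_of (fun γ => MAIN_fin h (H γ).1 (H γ).2.1 (H γ).2.2) γ ψ hψ hdiv

/-! ### the numbers -/

/-- **the final numbers**: `c2 = 1`, `B = 4 C1`, `Ct = 120 C1`, `C1 ≥ c₁` -/
structure NumFin (N : Skel189.Num) (th : ℕ → (ℕ → ℝ) → Finset ℕ → ℕ → ℝ) (Ct c₁ : ℝ) : Prop where
  C1 : c₁ ≤ N.C1
  c2 : N.c2 = 1
  B : N.B = 4 * N.C1
  A : N.A = 1
  a' : N.a' = N.C1 + 5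
  a : N.a = 2 * N.C1 - 4
  Ct : Ct = 120 * N.C1
  rg : ∀ p0 : ℕ, RgTh th p0

/-- **the numbers exist**, for any thinness `th Ct` constant on the ranges and any further prune `Sx`
(which may depend on `C1`) -/
theorem exists_numFin : ∃ C₀ : ℝ, 1 ≤ C₀ ∧ ∀ (c₁ : ℝ) (th : ℝ → ℕ → (ℕ → ℝ) → Finset ℕ → ℕ → ℝ)
    (Sx : ℝ → ℕ → (ℕ → ℝ) → Finset ℕ → Finset ℕ),
    (∀ Ct : ℝ, 0 < Ct → (∃ p₁ : ℕ, ∀ p0 ≥ p₁, ∀ (ψ : ℕ → ℝ) (S : Finset ℕ),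
      ∀ p ≥ p0, Real.log p ^ (-Ct) ≤ th Ct p0 ψ S p) ∧
      ∀ p0 : ℕ, RgTh (th Ct) p0) →
    (∀ C1 : ℝ, c₁ ≤ C1 → ∃ p₁ : ℕ, ∀ p0 ≥ p₁, ∃ Q₁ : ℕ, ∀ P₀ ≥ Q₁, ∀ (ψ : ℕ → ℝ) (S : Finset ℕ),
      SysM P₀ ψ S → Sx C1 p0 ψ S ⊆ S ∧ (1 - 1 / 8) * Ws (w ψ) S ≤ Ws (w ψ) (Sx C1 p0 ψ S)) →
    ∃ (N : Skel189.Num) (Ct : ℝ), NumOK N (th Ct) Ct C₀ (Sx N.C1) ∧ NumFin N (th Ct) Ct c₁ := by
  obtain ⟨c₀, C₀, hc₀, hC₀, H⟩ := exists_num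
  refine ⟨C₀, hC₀, fun c₁ th Sx hth hSx => ?_⟩
  set C1 : ℝ := max c₁ (max c₀ 10) with hC1
  have e1 : c₁ ≤ C1 := le_max_left _ _
  have e2 : c₀ ≤ C1 := (le_max_left _ _).trans (le_max_right _ _)
  have e3 : 10 ≤ C1 := (le_max_right _ _).trans (le_max_right _ _)
  have hCt : 0 < 120 * C1 := by linarith
  obtain ⟨N, n1, n2, n3, n4, n5, n6, hN⟩ := H (4 * C1) C1 1 (2 * C1 - 4) (C1 + 5) 1 (120 * C1) e2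
    one_pos (by linarith) le_rfl (by linarith) le_rfl (by linarith) (by linarith) (by linarith) hCt.le
    (th (120 * C1)) (hth _ hCt).1 (Sx C1) (hSx C1 e1)
  refine ⟨N, 120 * C1, by rw [n2]; exact hN, ?_⟩
  exact ⟨by rw [n2]; exact e1, n3, by rw [n1, n2], n6, by rw [n5, n2], by rw [n4, n2], by rw [n2],
    (hth _ hCt).2⟩

/-- **S0004 from the three targets for the final numbers** -/
theorem S0004_num {th : ℝ → ℕ → (ℕ → ℝ) → Finset ℕ → ℕ → ℝ} {Sx : ℝ → ℕ → (ℕ → ℝ) → Finset ℕ → Finset ℕ} {cS : ℝ}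
    (hth : ∀ Ct : ℝ, 0 < Ct → (∃ p₁ : ℕ, ∀ p0 ≥ p₁, ∀ (ψ : ℕ → ℝ) (S : Finset ℕ),
      ∀ p ≥ p0, Real.log p ^ (-Ct) ≤ th Ct p0 ψ S p) ∧
      ∀ p0 : ℕ, RgTh (th Ct) p0)
    (hSx : ∀ C1 : ℝ, cS ≤ C1 → ∃ p₁ : ℕ, ∀ p0 ≥ p₁, ∃ Q₁ : ℕ, ∀ P₀ ≥ Q₁, ∀ (ψ : ℕ → ℝ) (S : Finset ℕ),
      SysM P₀ ψ S → Sx C1 p0 ψ S ⊆ S ∧ (1 - 1 / 8) * Ws (w ψ) S ≤ Ws (w ψ) (Sx C1 p0 ψ S))
    (hX : ∃ c : ℝ, ∀ (N : Skel189.Num) (Ct C₀ : ℝ), NumOK N (th Ct) Ct C₀ (Sx N.C1) →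
      NumFin N (th Ct) Ct c → ∀ γ, TgtX N γ)
    (hB : ∃ c : ℝ, ∀ (N : Skel189.Num) (Ct C₀ : ℝ), NumOK N (th Ct) Ct C₀ (Sx N.C1) →
      NumFin N (th Ct) Ct c → ∀ γ, TgtB N γ)
    (hD : ∃ c : ℝ, ∀ (N : Skel189.Num) (Ct C₀ : ℝ), NumOK N (th Ct) Ct C₀ (Sx N.C1) →
      NumFin N (th Ct) Ct c → ∀ γ, TgtD N γ)
    (γ : ℝ) (ψ : ℕ → ℝ)
    (hψ : ∀ q, 0 ≤ ψ q) (hdiv : ¬ Summable fun q : ℕ => (Nat.totient q : ℝ) / q * ψ q) :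
    ∀ᵐ x : ℝ, ∃ᶠ q : ℕ in atTop, |(q : ℝ) * x - γ - round ((q : ℝ) * x - γ)| < ψ q := by
  obtain ⟨cX, hX⟩ := hX
  obtain ⟨cB, hB⟩ := hB
  obtain ⟨cD, hD⟩ := hD
  obtain ⟨C₀, -, H⟩ := exists_numFin
  obtain ⟨N, Ct, h1, h2⟩ := H (max (max cX cB) (max cD cS)) th Sx hth (fun C1 hC1 =>
    hSx C1 (((le_max_right _ _).trans (le_max_right _ _)).trans hC1))
  have red : ∀ c : ℝ, c ≤ max (max cX cB) (max cD cS) → NumFin N (th Ct) Ct c := fun c hc =>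
    ⟨hc.trans h2.C1, h2.c2, h2.B, h2.A, h2.a', h2.a, h2.Ct, h2.rg⟩
  refine S0004_fin ⟨N, th Ct, Ct, C₀, Sx N.C1, h1, fun γ => ⟨?_, ?_, ?_⟩⟩ γ ψ hψ hdiv
  · exact hX N Ct C₀ h1 (red _ ((le_max_left _ _).trans (le_max_left _ _))) γ
  · exact hB N Ct C₀ h1 (red _ ((le_max_right _ _).trans (le_max_left _ _))) γ
  · exact hD N Ct C₀ h1 (red _ ((le_max_left _ _).trans (le_max_right _ _))) γ

end Crest.Agent.R4P.FinAll26
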