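import Crest.Agent.R4P.CrsG_29
import Crest.Agent.R4P.HgR_9
import Crest.Agent.R4P.WOk_244
import Crest.Agent.R4P.GWg_343

/-!
R4 (S0004) with powers, `TgtCrs`, helper29: **`TgtCrsE` from the bound of the supply `SS`** of the
running height (`HgR9.SS`, `W = 2`).

* `TgtSS kd` : at every node which is not a pull, for every `n` there is `m ≥ n` with
  `SS 2 kd m t.top [(1, t)] ≤ a (μ + μ²)`.
* `tgtCrsE_of_SS`, `forN_tgtCrsE_SS`.
-/

set_option autoImplicit false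
set_option linter.unusedSectionVars false
set_option linter.unusedVariables false
open MeasureTheory Filter Set

namespace Crest.Agent.R4P.CrsH29

open Crest.Agent.R4.Tour104 Crest.Agent.R4.Tour758 Crest.Agent.R4.Avg758 Crest.Agent.R4.Clos758
open Crest.Agent.R4.ClosL758 Crest.Agent.R4.ClosG758 Crest.Agent.R4.ClosR758
open Crest.Agent.R4P.ClosR442 Crest.Agent.R4P.Walk560 Crest.Agent.R4P.Grp36
open Crest.Agent.R4P.Xfer36 Crest.Agent.R4P.TopC36 Crest.Agent.R4P.TW17 Crest.Agent.R4P.TE26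
open Crest.Agent.R4P.Cnt588 Crest.Agent.R4P.Data758 Crest.Agent.R4P.Skel189
open Crest.Agent.R4P.Bld532 (NS All)
open Crest.Agent.R4P.Fin5 (CF)
open Crest.Agent.R4P.FinT26 Crest.Agent.R4P.FinE26 Crest.Agent.R4P.FinX26 Crest.Agent.R4P.FinEE26
open Crest.Agent.R4P.Mrg35 Crest.Agent.R4P.SkelF29 Crest.Agent.R4P.Item758
open Crest.Agent.R4P.TopX36 Crest.Agent.R4P.CrsD26 Crest.Agent.R4P.XEx29 Crest.Agent.R4P.XBr29
open Crest.Agent.R4P.XPr29 Crest.Agent.R4P.CrsG29 Crest.Agent.R4P.PN36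
open Crest.Agent.R4P.ClosP542 (PulG)
open Crest.Agent.R4P.LogL51 (XL XL_succ XL_zero XL_succ0 XL_nonneg Ce Ce_nonneg gOk_gN)
open Crest.Agent.R4P.LogG51 (gtot)
open Crest.Agent.R4P.HgR9 (SS Rf XL_le_SS)
open Crest.Agent.R4P

section mono
variable {Λ κ δ : Type*} [Fintype Λ] [Fintype δ] [DecidableEq δ]

/-- the separated sum grows with the number of steps -/
lemma XL_mono_succ (kd : ℕ → Λ → δ) : ∀ (n p : ℕ) (g : Gp Λ κ), GOk g →
    XL kd n p g ≤ XL kd (n + 1) p g := by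
  intro n
  induction n with
  | zero => intro p g hg; rw [XL_zero]; exact XL_nonneg kd _ _ _ hg
  | succ n ih =>
    intro p g hg
    by_cases hp : p = 0
    · subst hp; rw [XL_succ0, XL_succ0]
    · rw [XL_succ _ n hp, XL_succ _ (n + 1) hp]
      have h1 := ih p _ (hg.gC (p := p))
      have h2 := ih (p - 1) _ (gOk_gN (p := p) hg)
      linarith

lemma XL_mono (kd : ℕ → Λ → δ) {n m : ℕ} (h : n ≤ m) (p : ℕ) {g : Gp Λ κ} (hg : GOk g) :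
    XL kd n p g ≤ XL kd m p g := by
  induction h with
  | refl => exact le_rfl
  | step _ ih => exact ih.trans (XL_mono_succ kd _ p g hg)

end mono

section wok
variable {Λ κ : Type*}

/-- the two definitions of the weight condition agree -/
lemma wok_iff (W : ℝ) : ∀ (n p : ℕ) (g : Gp Λ κ),
    WOk244.WOk W n p g ↔ HgR9.WOk W n p g := by
  intro n
  induction n with
  | zero => intro p g; exact Iff.rfl
  | succ n ih =>
    intro p g
    show (_ ∧ (p ≠ 0 → _ ∧ _)) ↔ (_ ∧ (p ≠ 0 → _ ∧ _))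
    rw [ih, ih]
    exact Iff.rfl

end wok

variable {N : Skel189.Num} {γ : ℝ} {p0 P₀ : ℕ}

/-- the facts of the groups of the nodes of a context -/
theorem ctx_HF (N : Skel189.Num) (γ : ℝ) : Ev N γ fun p0 P₀ X => ∀ j₀ : X.c.Lam,
    All (fun u τ => PN36.GAll NOk (g1 X u τ) ∧
      PN36.GAll (WrN (X.c.D.par X.Y).rho) (g1 X u τ) ∧
      ∀ n, HgR9.WOk 2 n (X.self u τ Finset.univ).t.top (g1 X u τ)) ⟨top X.S, 1, 1, 1⟩ X.c.t := by
  obtain ⟨p1, h1⟩ := Sep244.par_PS N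
  refine ⟨p1, fun p0 hp0 => ⟨0, fun P₀ _ X j₀ => ?_⟩⟩
  have hS : Sep244.PS X.par (Crest.Agent.R4.Soft104.w X.ψ) := h1 p0 hp0 _ X.hW
  refine All.mono (fun u τ hh => ?_) (All.and (PN36.ctx_NOk X j₀) (WOk244.wok_self X hS))
  obtain ⟨a1, a2⟩ := hh
  refine ⟨fun m hm => ?_, fun m hm => ?_, fun n => ?_⟩
  · rw [List.mem_singleton.1 hm]; exact a1
  · rw [List.mem_singleton.1 hm]
    exact GWg343.toDT_WrN (X.c.D.par X.Y) X.c.sp τ u.B u.A
  · have h2 := (wok_iff 2 n _ _).1 (a2 Finset.univ n)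
    have e : (X.self u τ Finset.univ).p = (X.self u τ Finset.univ).t.top := max_self _
    rw [e] at h2
    exact h2

/-- the worlds of the ties refine the index classes -/
lemma Rf_of {X : Ctx N γ p0 P₀} {kd : ℕ → X.c.Lam → X.c.Lam}
    (hkd : ∀ q : ℕ, q.Prime → kd q = kdx X q) {t : DT X.c.Lam (LbX X)} {n : ℕ} (hc : t.Col n)
    (h : t.All (WrN (X.c.D.par X.Y).rho)) : t.All (Rf kd) := by
  induction t generalizing n with
  | leaf r f => exact trivial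
  | br p w r t₁ t₀ v B G ih₁ ih₀ =>
    refine ⟨⟨ixL (X := X), fun j => ?_⟩, ih₁ hc.2.2.1 h.2.1, ih₀ hc.2.2.2.1 h.2.2⟩
    have hr : r = (X.c.D.par X.Y).rho p := h.1
    rw [hkd p hc.1, hr]; rfl
  | add b r t₁ t₀ ih₁ ih₀ => exact ⟨trivial, ih₁ hc.2.2.1 h.2.1, ih₀ hc.2.2.2 h.2.2⟩
  | up b Sp t ih => exact ⟨trivial, ih hc.2.2 h.2⟩

/-- bound of the supply in a context -/
def SSAt (X : Ctx N γ p0 P₀) (j₀ : X.c.Lam) (kd : ℕ → X.c.Lam → X.c.Lam) (a : ℝ) : Prop :=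
  All (fun u τ => ¬ PulG (X.g u τ) → ∀ n, ∃ m, n ≤ m ∧
    SS 2 kd m (X.self u τ Finset.univ).t.top (g1 X u τ) ≤
      a * (X.mu j₀ u τ Finset.univ + X.mu j₀ u τ Finset.univ * X.mu j₀ u τ Finset.univ))
    ⟨top X.S, 1, 1, 1⟩ X.c.t

/-- **the supply is paid** -/
def TgtSS (kd : ∀ {N : Skel189.Num} {γ : ℝ} {p0 P₀ : ℕ} (X : Ctx N γ p0 P₀),
    ℕ → X.c.Lam → X.c.Lam) (N : Skel189.Num) (γ : ℝ) : Prop :=
  ∃ a : ℝ, 0 ≤ a ∧ Ev N γ fun p0 P₀ X => CF X → ∀ j₀ : X.c.Lam, SSAt X j₀ (kd X) a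

/-- **`TgtCrsE` from the bound of the supply** -/
theorem tgtCrsE_of_SS {ε : ℝ} (hε : 0 < ε)
    {kd : ∀ {N : Skel189.Num} {γ : ℝ} {p0 P₀ : ℕ} (X : Ctx N γ p0 P₀), ℕ → X.c.Lam → X.c.Lam}
    (hkd : ∀ {N : Skel189.Num} {γ : ℝ} {p0 P₀ : ℕ} (X : Ctx N γ p0 P₀) (q : ℕ), q.Prime →
      kd X q = kdx X q)
    (hH : TgtSS kd N γ) : TgtCrsE ε N γ := by
  have hT := tgtT1 N γ
  obtain ⟨a, ha, hH⟩ := hH
  refine ⟨Ce ε 1 * (4 + a), mul_nonneg (Ce_nonneg hε zero_le_one) (by linarith), ?_⟩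
  refine (((hT.and hH).and (ctx_mass N γ)).and (ctx_HF N γ)).mono ?_
  rintro p0 P₀ X ⟨⟨⟨h1, h2⟩, h3⟩, h4⟩ hC j₀ Hb
  refine All.mono (fun u τ hh hp hb => ?_)
    (All.and (All.and (All.and (All.and (h1 hC j₀) (h2 hC j₀)) (h3 j₀)) (h4 j₀))
      (All.and (ctx_Gd X) (ctx_mumu X j₀)))
  obtain ⟨⟨⟨⟨⟨n, k1⟩, k2⟩, k3⟩, kN, kW, kO⟩, ⟨hG, hc⟩, hmu⟩ := hh
  obtain ⟨m, hm, k2⟩ := k2 hp n
  set t := (X.self u τ Finset.univ).t with ht
  have hok : GOk (g1 X u τ) := (GX.one hG hc).gok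
  have hRf : PN36.GAll (Rf (kd X)) (g1 X u τ) := fun m' hm' => by
    rw [List.mem_singleton.1 hm']
    have hw := kW _ (List.mem_singleton.2 rfl)
    exact Rf_of (fun q hq => hkd X q hq) hc hw
  have e1 : XP (ker (kX (X.c.D.par X.Y).rho)) n t.top (g1 X u τ) (g1 X u τ) =
      XL (kd X) n t.top (g1 X u τ) := by
    rw [XP_eq_XL_one rel_ixL hG hc]
    exact (XL_congr_one (fun q hq => hkd X q hq) hG hc n).symm
  have k4 := XL_mono (kd X) hm t.top hok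
  have k5 := XL_le_SS (W := 2) (by norm_num) (kd X) (H0 := 1) (eta := ε) one_pos hε m t.top hok kN
    hRf (kO m)
  have e2 : I (fun x => gtot (g1 X u τ) x ^ 2) = I (fun x => tt Finset.univ (X.g u τ) x ^ 2) := by
    congr 1; funext x; rw [gtot_g1]
  have hCe := Ce_nonneg hε zero_le_one (η := ε) (H0 := 1)
  set μ := X.mu j₀ u τ Finset.univ with hμ
  have hμ0 : 0 ≤ μ := (hmu Finset.univ).1
  have k6 : Ce ε 1 * (I (fun x => gtot (g1 X u τ) x) + SS 2 (kd X) m t.top (g1 X u τ)) ≤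
      Ce ε 1 * (4 * μ + a * (μ + μ * μ)) :=
    mul_le_mul_of_nonneg_left (add_le_add k3 k2) hCe
  have k7 : Ce ε 1 * (4 * μ + a * (μ + μ * μ)) ≤ Ce ε 1 * (4 + a) * (μ + μ * μ) := by
    have : 0 ≤ Ce ε 1 * (4 * (μ * μ)) := by positivity
    nlinarith
  show WF (SXN X j₀) (xX (X.c.D.par X.Y).rho (SXN X j₀)) (Fl.self, X.self u τ Finset.univ) -
    ε * I (fun x => tt Finset.univ (X.g u τ) x ^ 2) ≤ _
  rw [e1] at k1
  rw [e2] at k5
  linarith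

/-- **`TgtCrsE` for all the numbers, from the supply** -/
theorem forN_tgtCrsE_SS {th : ℝ → ℕ → (ℕ → ℝ) → Finset ℕ → ℕ → ℝ} {Sx : ℝ → ℝ → ℕ → (ℕ → ℝ) → Finset ℕ → Finset ℕ}
    {ε : ℝ} (hε : 0 < ε)
    {kd : ∀ {N : Skel189.Num} {γ : ℝ} {p0 P₀ : ℕ} (X : Ctx N γ p0 P₀), ℕ → X.c.Lam → X.c.Lam}
    (hkd : ∀ {N : Skel189.Num} {γ : ℝ} {p0 P₀ : ℕ} (X : Ctx N γ p0 P₀) (q : ℕ), q.Prime →
      kd X q = kdx X q)
    (hH : ForN th Sx (TgtSS kd)) : ForN th Sx (TgtCrsE ε) :=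
  forN_mono hH fun N γ h => tgtCrsE_of_SS hε (fun X q hq => hkd X q hq) h

end Crest.Agent.R4P.CrsH29
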