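import Crest.Agent.R4P.DTp_26

/-!
R4 (S0004) with powers, T3 (heights > 1), helper26: **localised cumulative classes**.

* `cmp S E j` : component of `j` in the graph with vertex set `S` and edges `E` (`{j}` outside `S`);
  `cmp_eq_iff`, `cmp_mono` (more vertices, more edges), `cmp_map` (pointwise map of the ids), `MP_cmp`.
* `EW wr p P` : edge = equal keys at a column in `[p, P]`; `wr_cmp` : a real class is inside one
  component; `cmp_EW_mono` : nestedness going down.
* `ty S E r c` : the type of a class `c` (the component of its present pieces), `ty_of`, `MP_ty`,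
  `hz_ty` : contents by pieces = contents by classes.
-/

set_option autoImplicit false
set_option linter.unusedSectionVars false
set_option linter.unusedVariables false
open MeasureTheory Filter Set

namespace Crest.Agent.R4P.DTq26

open Crest.Agent.R4.Tour104 Crest.Agent.R4.Clos758 Crest.Agent.R4.ClosL758
open Crest.Agent.R4P.Grp36 Crest.Agent.R4P.GWa343 Crest.Agent.R4P.GWb343 Crest.Agent.R4P.GWc343
open Crest.Agent.R4P.DTp26
open Crest.Agent.R4P.Walk560 (DT)

section cmp
variable {Λ : Type*} [Fintype Λ]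

/-- the edges inside the vertex set -/
def Adj (S : Finset Λ) (E : Λ → Λ → Prop) (a b : Λ) : Prop := a ∈ S ∧ b ∈ S ∧ E a b

open Classical in
/-- **the component of `j`** -/
noncomputable def cmp (S : Finset Λ) (E : Λ → Λ → Prop) (j : Λ) : Finset Λ :=
  Finset.univ.filter fun i => Relation.EqvGen (Adj S E) j i

variable {S S' : Finset Λ} {E E' : Λ → Λ → Prop} {i j : Λ}

lemma mem_cmp : i ∈ cmp S E j ↔ Relation.EqvGen (Adj S E) j i := by
  classical
  simp [cmp]

lemma self_mem_cmp (S : Finset Λ) (E : Λ → Λ → Prop) (j : Λ) : j ∈ cmp S E j :=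
  mem_cmp.2 (Relation.EqvGen.refl j)

lemma cmp_eq_iff : cmp S E i = cmp S E j ↔ Relation.EqvGen (Adj S E) i j := by
  constructor
  · intro h
    have h1 := self_mem_cmp S E j
    rw [← h] at h1
    exact mem_cmp.1 h1
  · intro h
    ext k
    rw [mem_cmp, mem_cmp]
    exact ⟨fun h2 => (h.symm _ _).trans _ _ _ h2, fun h2 => h.trans _ _ _ h2⟩

lemma cmp_eq_of_mem (h : i ∈ cmp S E j) : cmp S E i = cmp S E j :=
  cmp_eq_iff.2 ((mem_cmp.1 h).symm _ _)

lemma cmp_eq_of_edge (hi : i ∈ S) (hj : j ∈ S) (h : E i j) : cmp S E i = cmp S E j :=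
  cmp_eq_iff.2 (Relation.EqvGen.rel _ _ ⟨hi, hj, h⟩)

lemma eqv_out {i j : Λ} (h : Relation.EqvGen (Adj S E) i j) : i = j ∨ (i ∈ S ∧ j ∈ S) := by
  induction h with
  | rel a b h => exact Or.inr ⟨h.1, h.2.1⟩
  | refl a => exact Or.inl rfl
  | symm a b _ ih =>
    rcases ih with h | h
    · exact Or.inl h.symm
    · exact Or.inr ⟨h.2, h.1⟩
  | trans a b c _ _ ih1 ih2 =>
    rcases ih1 with h | h
    · subst h; exact ih2
    · rcases ih2 with h2 | h2
      · subst h2; exact Or.inr h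
      · exact Or.inr ⟨h.1, h2.2⟩

lemma cmp_out (h : j ∉ S) : cmp S E j = {j} := by
  ext i
  rw [mem_cmp, Finset.mem_singleton]
  constructor
  · intro h2
    rcases eqv_out h2 with h3 | h3
    · exact h3.symm
    · exact absurd h3.1 h
  · rintro rfl
    exact Relation.EqvGen.refl _

lemma cmp_sub (h : j ∈ S) : cmp S E j ⊆ S := by
  intro i hi
  rcases eqv_out (mem_cmp.1 hi) with h3 | h3
  · rw [← h3]; exact h
  · exact h3.2

/-- a property preserved by the edges is constant on the component -/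
lemma cmp_const {α : Type*} {f : Λ → α} (h : ∀ a ∈ S, ∀ b ∈ S, E a b → f a = f b)
    (hi : i ∈ cmp S E j) : f i = f j := by
  have h2 := mem_cmp.1 hi
  clear hi
  induction h2 with
  | rel a b h3 => exact (h a h3.1 b h3.2.1 h3.2.2).symm
  | refl a => rfl
  | symm a b _ ih => exact ih.symm
  | trans a b c _ _ ih1 ih2 => exact ih2.trans ih1

/-- **nestedness**: more vertices and more edges -/
lemma cmp_mono (hS : S ⊆ S') (hE : ∀ a ∈ S, ∀ b ∈ S, E a b → E' a b)
    (h : cmp S E i = cmp S E j) : cmp S' E' i = cmp S' E' j := by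
  rw [cmp_eq_iff] at h ⊢
  exact h.mono fun a b hab => ⟨hS hab.1, hS hab.2.1, hE a hab.1 b hab.2.1 hab.2.2⟩

lemma cmp_subset (hS : S ⊆ S') (hE : ∀ a ∈ S, ∀ b ∈ S, E a b → E' a b) (j : Λ) :
    cmp S E j ⊆ cmp S' E' j := by
  intro i hi
  rw [mem_cmp] at hi ⊢
  exact hi.mono fun a b hab => ⟨hS hab.1, hS hab.2.1, hE a hab.1 b hab.2.1 hab.2.2⟩

lemma cmp_congr (hE : ∀ a ∈ S, ∀ b ∈ S, E a b ↔ E' a b) : cmp S E = cmp S E' := by
  funext j
  refine Finset.Subset.antisymm (cmp_subset (Finset.Subset.refl _) (fun a ha b hb h =>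
    (hE a ha b hb).1 h) j) (cmp_subset (Finset.Subset.refl _) (fun a ha b hb h =>
    (hE a ha b hb).2 h) j)

open Classical in
/-- the map of the ids -/
noncomputable def cmap (S : Finset Λ) (E : Λ → Λ → Prop) (S' : Finset Λ) (E' : Λ → Λ → Prop)
    (z : Finset Λ) : Finset Λ :=
  if h : ∃ j, cmp S E j = z then cmp S' E' h.choose else z

lemma cmap_cmp (hS : S ⊆ S') (hE : ∀ a ∈ S, ∀ b ∈ S, E a b → E' a b) (j : Λ) :
    cmap S E S' E' (cmp S E j) = cmp S' E' j := by
  have h : ∃ i, cmp S E i = cmp S E j := ⟨j, rfl⟩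
  unfold cmap
  rw [dif_pos h]
  exact cmp_mono hS hE h.choose_spec

/-- the components are measurable and periodic -/
lemma MP_cmp {s : ℝ → Finset Λ} (hs : MP s) (E : Λ → Λ → Prop) (j : Λ) :
    MP fun x => cmp (s x) E j := by
  have : Countable (Finset Λ) := by
    have : Finite (Finset Λ) := inferInstance
    infer_instance
  exact hs.map fun S => cmp S E j

lemma MP_cmp' {s : ℝ → Finset Λ} {E : ℝ → Λ → Λ → Prop} (hs : MP s)
    (hE : ∀ a b, MP fun x => E x a b) (j : Λ) : MP fun x => cmp (s x) (E x) j := by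
  have c1 : Countable (Finset Λ) := by
    have : Finite (Finset Λ) := inferInstance
    infer_instance
  have c2 : Countable (Λ → Λ → Prop) := by
    have : Finite (Λ → Λ → Prop) := inferInstance
    infer_instance
  have h2 : MP E := MP.pi fun a => MP.pi fun b => hE a b
  exact hs.map2 h2 fun S E => cmp S E j

end cmp

/-! ### equal keys at a column -/

section key
variable {Λ κ : Type*} [Fintype Λ]

/-- equal keys at a column in `[p, P]` -/
def EW (wr : ℕ → Λ → κ) (p P : ℕ) (a b : Λ) : Prop := ∃ t, p ≤ t ∧ t ≤ P ∧ wr t a = wr t b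

variable {wr : ℕ → Λ → κ} {p p' P : ℕ} {S S' : Finset Λ} {i j : Λ}

/-- **a real class is inside one component** -/
lemma wr_cmp {t : ℕ} (h1 : p ≤ t) (h2 : t ≤ P) (hi : i ∈ S) (hj : j ∈ S) (h : wr t i = wr t j) :
    cmp S (EW wr p P) i = cmp S (EW wr p P) j := cmp_eq_of_edge hi hj ⟨t, h1, h2, h⟩

/-- **nestedness going down** -/
lemma cmp_EW_mono (hp : p' ≤ p) (hS : S ⊆ S')
    (h : cmp S (EW wr p P) i = cmp S (EW wr p P) j) :
    cmp S' (EW wr p' P) i = cmp S' (EW wr p' P) j :=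
  cmp_mono hS (fun a _ b _ ⟨t, h1, h2, h3⟩ => ⟨t, hp.trans h1, h2, h3⟩) h

lemma cmap_EW (hp : p' ≤ p) (hS : S ⊆ S') (j : Λ) :
    cmap S (EW wr p P) S' (EW wr p' P) (cmp S (EW wr p P) j) = cmp S' (EW wr p' P) j :=
  cmap_cmp hS (fun a _ b _ ⟨t, h1, h2, h3⟩ => ⟨t, hp.trans h1, h2, h3⟩) j

end key

/-! ### the type of a class -/

section ty
variable {Λ κ : Type*} [Fintype Λ] [Fintype κ]

open Classical in
/-- **the type of a class** : the component of its present pieces (`∅` if there are none) -/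
noncomputable def ty (S : Finset Λ) (E : Λ → Λ → Prop) (r : Λ → κ) (c : κ) : Finset Λ :=
  if h : ∃ j ∈ S, r j = c then cmp S E h.choose else ∅

variable {S S' : Finset Λ} {E E' : Λ → Λ → Prop} {r : Λ → κ} {i j : Λ} {c : κ}

/-- the edges contain the classes of `r` -/
lemma ty_of (hE : ∀ a ∈ S, ∀ b ∈ S, r a = r b → E a b) (hj : j ∈ S) : ty S E r (r j) = cmp S E j := by
  have h : ∃ i ∈ S, r i = r j := ⟨j, hj, rfl⟩
  unfold ty
  rw [dif_pos h]
  exact cmp_eq_of_edge h.choose_spec.1 hj (hE _ h.choose_spec.1 _ hj h.choose_spec.2)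

lemma ty_out (h : ∀ j ∈ S, r j ≠ c) : ty S E r c = ∅ := by
  unfold ty
  rw [dif_neg]
  rintro ⟨j, hj, h2⟩
  exact h j hj h2

lemma ty_eq_iff (hE : ∀ a ∈ S, ∀ b ∈ S, r a = r b → E a b) (hi : i ∈ S) (hj : j ∈ S) :
    ty S E r (r i) = ty S E r (r j) ↔ Relation.EqvGen (Adj S E) i j := by
  rw [ty_of hE hi, ty_of hE hj, cmp_eq_iff]

lemma MP_ty {s : ℝ → Finset Λ} (hs : MP s) (E : Λ → Λ → Prop) (r : Λ → κ) (c : κ) :
    MP fun x => ty (s x) E r c := by
  have : Countable (Finset Λ) := by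
    have : Finite (Finset Λ) := inferInstance
    infer_instance
  exact hs.map fun S => ty S E r c

/-- **contents by pieces and contents by classes** -/
lemma hz_ty {s : ℝ → Finset Λ} {E : ℝ → Λ → Λ → Prop} {V : Λ → ℝ → ℝ} {x : ℝ}
    (hS : ∀ j, V j x ≠ 0 → j ∈ s x) (hE : ∀ a ∈ s x, ∀ b ∈ s x, r a = r b → E x a b)
    (z : Finset Λ) : hz (fun x j => cmp (s x) (E x) j) V z x =
      hz (fun x c => ty (s x) (E x) r c) (fun c x => hz (fun _ => r) V c x) z x := by
  classical
  have e := hz_comp (fun _ => r) (fun x c => ty (s x) (E x) r c) V z x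
  rw [← e]
  refine hz_congr (fun c => rfl) (fun j hj => ?_) z
  exact (ty_of hE (hS j hj)).symm

end ty

end Crest.Agent.R4P.DTq26
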