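import Crest.Agent.R4P.ThrG_21

/-!
R4 (S0004) with powers, helper493: **the prune of the straddlers of the random grid `(i + a)²`** (helper21's
`thr`, rule v3).

* `cnt`      : `#{k < m : ∃ i, |s - (i + k/m)| ≤ δ} ≤ 2 m δ + 1`;
* `geo`      : `∑_F f ≤ 2 B` when `f` at least doubles at every smaller element;
* `cnt_Zn`   : `#{k < m : Zn (k/m) u} ≤ 2 m u^(-1/4) + 1`;
* `tower`    : the fat-start stages of one item are tower-decreasing: `∑_(s ∈ F) u_s^(-1/4) ≤ 2 u0^(-1/4)`;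
* **`massG : MassG`** : some shift keeps most of the mass; `aF_spec`.
-/

set_option autoImplicit false
set_option linter.unusedSectionVars false
set_option linter.unusedVariables false

open Filter

namespace Crest.Agent.R4P.ThrS493

open Crest.Agent.R4P.Cnt588 Crest.Agent.R4P.Bld532 Finset
open Crest.Agent.R4P.PruneAcc17 (Bab)
open Crest.Agent.R4.Max709 Crest.Agent.R4.Soft104
open Crest.Agent.R4P.Skel189 Crest.Agent.R4P.ParF5 Crest.Agent.R4P.ThrG21

/-! ### counting of the shifts -/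

open Classical in
/-- **the bad shifts of one number** -/
theorem cnt (s δ : ℝ) (hδ : 0 ≤ δ) {m : ℕ} (hm : 0 < m) :
    (((range m).filter fun k : ℕ => ∃ i : ℕ, |s - ((i : ℝ) + (k : ℝ) / m)| ≤ δ).card : ℝ) ≤
      2 * m * δ + 1 := by
  have hm' : (0 : ℝ) < m := by exact_mod_cast hm
  set F := (range m).filter fun k : ℕ => ∃ i : ℕ, |s - ((i : ℝ) + (k : ℝ) / m)| ≤ δ with hF
  -- the chosen integers
  have hch : ∀ k ∈ F, ∃ i : ℕ, |s - ((i : ℝ) + (k : ℝ) / m)| ≤ δ := fun k hk =>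
    (Finset.mem_filter.1 hk).2
  choose! i hi using hch
  set g : ℕ → ℤ := fun k => (i k : ℤ) * m + k with hg
  have hinj : Set.InjOn g F := by
    intro a ha b hb e
    have ha' := Finset.mem_range.1 (Finset.mem_filter.1 ha).1
    have hb' := Finset.mem_range.1 (Finset.mem_filter.1 hb).1
    have e' : i a * m + a = i b * m + b := by
      have : ((i a * m + a : ℕ) : ℤ) = ((i b * m + b : ℕ) : ℤ) := by
        push_cast; exact e
      exact_mod_cast this
    have h1 : (i a * m + a) % m = (i b * m + b) % m := by rw [e']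
    rw [Nat.mul_add_mod_self_right, Nat.mul_add_mod_self_right, Nat.mod_eq_of_lt ha',
      Nat.mod_eq_of_lt hb'] at h1
    exact h1
  have hsub : F.image g ⊆ Finset.Icc ⌈m * (s - δ)⌉ ⌊m * (s + δ)⌋ := by
    intro z hz
    obtain ⟨k, hk, rfl⟩ := Finset.mem_image.1 hz
    have h := abs_le.1 (hi k hk)
    have e : ((g k : ℤ) : ℝ) = m * ((i k : ℝ) + (k : ℝ) / m) := by
      rw [hg]; push_cast; field_simp
    rw [Finset.mem_Icc, Int.ceil_le, Int.le_floor, e]
    constructor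
    · exact mul_le_mul_of_nonneg_left (by linarith [h.2]) hm'.le
    · exact mul_le_mul_of_nonneg_left (by linarith [h.1]) hm'.le
  have h1 : F.card ≤ (Finset.Icc ⌈m * (s - δ)⌉ ⌊m * (s + δ)⌋).card := by
    rw [← Finset.card_image_of_injOn hinj]
    exact Finset.card_le_card hsub
  have h2 : ((Finset.Icc ⌈m * (s - δ)⌉ ⌊m * (s + δ)⌋).card : ℝ) ≤ 2 * m * δ + 1 := by
    rw [Int.card_Icc]
    rcases le_or_gt 0 (⌊m * (s + δ)⌋ + 1 - ⌈m * (s - δ)⌉) with h3 | h3
    · have e : (((⌊m * (s + δ)⌋ + 1 - ⌈m * (s - δ)⌉).toNat : ℕ) : ℝ) =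
          ((⌊m * (s + δ)⌋ + 1 - ⌈m * (s - δ)⌉ : ℤ) : ℝ) := by
        rw [← Int.cast_natCast, Int.toNat_of_nonneg h3]
      rw [e]
      push_cast
      have a1 := Int.floor_le (m * (s + δ))
      have a2 := Int.le_ceil (m * (s - δ))
      nlinarith
    · rw [Int.toNat_of_nonpos h3.le]
      push_cast
      positivity
  have h3 : (F.card : ℝ) ≤ ((Finset.Icc ⌈m * (s - δ)⌉ ⌊m * (s + δ)⌋).card : ℝ) := by
    exact_mod_cast h1
  exact h3.trans h2

/-- **geometric sums** -/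
theorem geo (f : ℕ → ℝ) (hf : ∀ s, 0 ≤ f s) (B : ℝ) (F : Finset ℕ)
    (h1 : ∀ s ∈ F, ∀ s' ∈ F, s' < s → 2 * f s ≤ f s') (hB : ∀ s ∈ F, f s ≤ B) (hB0 : 0 ≤ B) :
    ∑ s ∈ F, f s ≤ 2 * B := by
  have key : ∀ F : Finset ℕ, (∀ s ∈ F, ∀ s' ∈ F, s' < s → 2 * f s ≤ f s') →
      ∀ hne : F.Nonempty, ∑ s ∈ F, f s ≤ 2 * f (F.min' hne) := by
    intro F
    induction F using Finset.strongInduction with
    | _ F ih =>
      intro h hne
      set a := F.min' hne with ha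
      have hmem : a ∈ F := F.min'_mem hne
      rw [← Finset.add_sum_erase F f hmem]
      rcases (F.erase a).eq_empty_or_nonempty with he | hne'
      · rw [he]; simp; linarith [hf a]
      · have h2 := ih (F.erase a) (Finset.erase_ssubset hmem)
          (fun s hs s' hs' => h s (Finset.mem_of_mem_erase hs) s' (Finset.mem_of_mem_erase hs')) hne'
        have hb := (F.erase a).min'_mem hne'
        have hlt : a < (F.erase a).min' hne' :=
          lt_of_le_of_ne (F.min'_le _ (Finset.mem_of_mem_erase hb)) (Finset.ne_of_mem_erase hb).symm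
        have h3 := h _ (Finset.mem_of_mem_erase hb) a hmem hlt
        linarith
  rcases F.eq_empty_or_nonempty with he | hne
  · rw [he]; simp; linarith
  · have h2 := key F h1 hne
    have h3 := hB _ (F.min'_mem hne)
    linarith

open Classical in
/-- **the bad shifts of one stage** -/
theorem cnt_Zn {u : ℝ} (hu : 0 < u) {m : ℕ} (hm : 0 < m) :
    (((range m).filter fun k : ℕ => Zn ((k : ℝ) / m) u).card : ℝ) ≤
      2 * m * u ^ (-(1 / 4) : ℝ) + 1 := by
  refine le_trans ?_ (cnt (Real.sqrt u) (u ^ (-(1 / 4) : ℝ)) (Real.rpow_nonneg hu.le _) hm)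
  have hsub : ((range m).filter fun k : ℕ => Zn ((k : ℝ) / m) u) ⊆
      (range m).filter fun k : ℕ => ∃ i : ℕ, |Real.sqrt u - ((i : ℝ) + (k : ℝ) / m)| ≤
        u ^ (-(1 / 4) : ℝ) := by
    intro k hk
    obtain ⟨h1, i, h2⟩ := Finset.mem_filter.1 hk
    refine Finset.mem_filter.2 ⟨h1, i, ?_⟩
    have hs : 0 < Real.sqrt u := Real.sqrt_pos.2 hu
    have hx : 0 ≤ (i : ℝ) + (k : ℝ) / m := by positivity
    set x := (i : ℝ) + (k : ℝ) / m with hxd
    have e1 : u - x ^ 2 = (Real.sqrt u - x) * (Real.sqrt u + x) := by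
      have : Real.sqrt u ^ 2 = u := Real.sq_sqrt hu.le
      nlinarith
    rw [e1, abs_mul, abs_of_pos (by linarith : 0 < Real.sqrt u + x)] at h2
    have e2 : u ^ (1 / 4 : ℝ) = u ^ (-(1 / 4) : ℝ) * Real.sqrt u := by
      rw [Real.sqrt_eq_rpow, ← Real.rpow_add hu]; norm_num
    have h3 : |Real.sqrt u - x| * Real.sqrt u ≤ u ^ (-(1 / 4) : ℝ) * Real.sqrt u := by
      rw [← e2]
      refine le_trans ?_ h2
      exact mul_le_mul_of_nonneg_left (by linarith) (abs_nonneg _)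
    exact le_of_mul_le_mul_right h3 hs
  exact_mod_cast Finset.card_le_card hsub

/-! ### the stages of one item -/

variable {t : IT} {ψ : ℕ → ℝ} {q : ℕ}

/-- the radius of a later stage -/
lemma rS_step (hψ : 0 ≤ ψ q) (hpos : ∀ x ∈ t.mt q, 0 < x) {s s' : ℕ} (hs : s ∈ t.mt q)
    (h : s' < s) : (s' : ℝ) * rS t ψ q s ≤ rS t ψ q s' := by
  unfold rS
  have h1 : s * Bab t q s ≤ Bab t q s' := by
    unfold Bab
    have h2 : s ∉ (t.mt q).filter (s < ·) := by simp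
    have e : s * ∏ x ∈ (t.mt q).filter (s < ·), x =
        ∏ x ∈ insert s ((t.mt q).filter (s < ·)), x := (Finset.prod_insert (f := fun x => x) h2).symm
    rw [e]
    refine Finset.prod_le_prod_of_subset_of_one_le' ?_ fun x hx _ => ?_
    · intro x hx
      rcases Finset.mem_insert.1 hx with rfl | hx
      · exact Finset.mem_filter.2 ⟨hs, h⟩
      · obtain ⟨a, b⟩ := Finset.mem_filter.1 hx
        exact Finset.mem_filter.2 ⟨a, h.trans b⟩
    · exact hpos x (Finset.mem_filter.1 hx).1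
  have h3 : ((s : ℝ) * Bab t q s) ≤ (Bab t q s' : ℝ) := by exact_mod_cast h1
  have h4 : (s : ℝ) * (Bab t q s * (ψ q / 2)) = (s : ℝ) * Bab t q s * (ψ q / 2) := by ring
  rw [h4]
  exact mul_le_mul_of_nonneg_left (mul_le_mul_of_nonneg_right h3 (by linarith)) (by positivity)

/-- the logarithmic radius of a stage -/
noncomputable abbrev uS (t : IT) (ψ : ℕ → ℝ) (q s : ℕ) : ℝ := Real.log (1 / rS t ψ q s)

/-- a fat-start stage with `u > 0` -/
lemma uS_lt {Ct : ℝ} (hCt : 0 < Ct) {s : ℕ} (h : thrF Ct s < rS t ψ q s) (hu : 0 < uS t ψ q s) :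
    3 ≤ s ∧ uS t ψ q s < Ct * Real.log (Real.log s) := by
  have hr : 0 < rS t ψ q s := (thrF_pos Ct s).trans h
  have e : uS t ψ q s = -Real.log (rS t ψ q s) := by
    unfold uS; rw [one_div, Real.log_inv]
  have hs : 3 ≤ s := by
    by_contra hn
    have h1 : ⌊Real.log s⌋₊ = 0 := by
      rw [Nat.floor_eq_zero]
      have h2 : s ≤ 2 := by omega
      rcases Nat.eq_zero_or_pos s with h0 | h0
      · rw [h0]; simp
      · have h3 : (s : ℝ) ≤ 2 := by exact_mod_cast h2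
        have h4 : Real.log s ≤ Real.log 2 := Real.log_le_log (by exact_mod_cast h0) h3
        have h5 := Real.log_two_lt_d9
        linarith
    have h2 : thrF Ct s = 1 := by
      unfold thrF rg
      rw [h1]; simp
    rw [h2] at h
    have h3 := Real.log_pos h
    linarith
  refine ⟨hs, ?_⟩
  have h1 := thrF_ge hCt.le hs
  have h2 : 0 < Real.log s := by linarith [one_lt_log hs]
  have h3 : Real.log (Real.log s ^ (-Ct)) < Real.log (rS t ψ q s) :=
    Real.log_lt_log (Real.rpow_pos_of_pos h2 _) (h1.trans_lt h)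
  rw [Real.log_rpow h2] at h3
  rw [e]
  linarith

open Classical in
/-- the fat-start stages with `u ≥ u0` -/
noncomputable def Fs (Ct u0 : ℝ) (t : IT) (ψ : ℕ → ℝ) (q : ℕ) : Finset ℕ :=
  (t.mt q).filter fun s => thrF Ct s < rS t ψ q s ∧ u0 ≤ uS t ψ q s

/-- **the fat-start stages of one item are tower-decreasing** -/
theorem tower {Ct u0 : ℝ} (hCt : 0 < Ct) (hu0 : 1 ≤ u0)
    (hbig : ∀ u : ℝ, u0 ≤ u → 16 * (Ct * Real.log u) ≤ u) (hψ : 0 ≤ ψ q)
    (hpos : ∀ x ∈ t.mt q, 0 < x) :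
    ∑ s ∈ Fs Ct u0 t ψ q, uS t ψ q s ^ (-(1 / 4) : ℝ) ≤ 2 * u0 ^ (-(1 / 4) : ℝ) := by
  classical
  have hF : ∀ s ∈ Fs Ct u0 t ψ q, s ∈ t.mt q ∧ thrF Ct s < rS t ψ q s ∧ u0 ≤ uS t ψ q s :=
    fun s hs => ⟨(Finset.mem_filter.1 hs).1, (Finset.mem_filter.1 hs).2⟩
  set f : ℕ → ℝ := fun s => |uS t ψ q s| ^ (-(1 / 4) : ℝ) with hf
  have ef : ∀ s ∈ Fs Ct u0 t ψ q, uS t ψ q s ^ (-(1 / 4) : ℝ) = f s := fun s hs => by
    rw [hf]
    show _ = |uS t ψ q s| ^ (-(1 / 4) : ℝ)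
    rw [abs_of_pos (by linarith [(hF s hs).2.2])]
  rw [Finset.sum_congr rfl ef]
  refine geo f (fun s => Real.rpow_nonneg (abs_nonneg _) _) _ _ (fun s hs s' hs' hlt => ?_)
    (fun s hs => ?_) (Real.rpow_nonneg (by linarith) _)
  · rw [← ef s hs, ← ef s' hs']
    obtain ⟨a1, a2, a3⟩ := hF s hs
    obtain ⟨b1, b2, b3⟩ := hF s' hs'
    have ua : 0 < uS t ψ q s := by linarith
    have ub : 0 < uS t ψ q s' := by linarith
    obtain ⟨-, c2⟩ := uS_lt hCt a2 ua
    obtain ⟨d1, d2⟩ := uS_lt hCt b2 ub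
    have ra : 0 < rS t ψ q s := (thrF_pos Ct s).trans a2
    have rb : 0 < rS t ψ q s' := (thrF_pos Ct s').trans b2
    have rb1 : rS t ψ q s' < 1 := by
      by_contra hn
      have h1 : 1 / rS t ψ q s' ≤ 1 := by
        rw [div_le_one rb]; exact not_lt.1 hn
      have h2 := Real.log_nonpos (by positivity) h1
      linarith
    -- `s' < e^u`
    have h1 := (rS_step hψ hpos a1 hlt).trans_lt rb1
    have s0 : (0 : ℝ) < s' := by
      have : (3 : ℝ) ≤ s' := by exact_mod_cast d1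
      linarith
    have h2 : Real.log s' ≤ uS t ψ q s := by
      refine Real.log_le_log s0 ?_
      rw [le_div_iff₀ ra]
      exact h1.le
    have hl : 1 < Real.log s' := one_lt_log d1
    have h3 : Real.log (Real.log s') ≤ Real.log (uS t ψ q s) := Real.log_le_log (by linarith) h2
    have h4 : 16 * uS t ψ q s' ≤ uS t ψ q s := by
      have h5 := hbig _ a3
      have h6 := mul_le_mul_of_nonneg_left h3 hCt.le
      linarith
    -- `2 u_s^(-1/4) ≤ u_s'^(-1/4)`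
    have h5 : uS t ψ q s ^ (-(1 / 4) : ℝ) ≤ (16 * uS t ψ q s') ^ (-(1 / 4) : ℝ) :=
      Real.rpow_le_rpow_of_nonpos (by linarith) h4 (by norm_num)
    have h6 : (16 * uS t ψ q s') ^ (-(1 / 4) : ℝ) =
        1 / 2 * uS t ψ q s' ^ (-(1 / 4) : ℝ) := by
      rw [Real.mul_rpow (by norm_num) ub.le]
      congr 1
      rw [show (16 : ℝ) = 2 ^ (4 : ℝ) by norm_num, ← Real.rpow_mul (by norm_num)]
      rw [show (4 : ℝ) * -(1 / 4) = -1 by norm_num, Real.rpow_neg_one]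
      norm_num
    rw [h6] at h5
    linarith
  · rw [← ef s hs]
    exact Real.rpow_le_rpow_of_nonpos (by linarith) (hF s hs).2.2 (by norm_num)

open Classical in
/-- **the bad shifts of one item** -/
theorem cnt_item {Ct u0 : ℝ} (hCt : 0 < Ct) (hu0 : 1 ≤ u0)
    (hbig : ∀ u : ℝ, u0 ≤ u → 16 * (Ct * Real.log u) ≤ u) (hψ : 0 ≤ ψ q)
    (hpos : ∀ x ∈ t.mt q, 0 < x) {m : ℕ} (hm : 0 < m) :
    (((range m).filter fun k : ℕ => ¬ StrOk Ct ((k : ℝ) / m) u0 t ψ q).card : ℝ) ≤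
      4 * m * u0 ^ (-(1 / 4) : ℝ) + (t.mt q).card := by
  have hsub : ((range m).filter fun k : ℕ => ¬ StrOk Ct ((k : ℝ) / m) u0 t ψ q) ⊆
      (Fs Ct u0 t ψ q).biUnion fun s => (range m).filter fun k : ℕ =>
        Zn ((k : ℝ) / m) (uS t ψ q s) := by
    intro k hk
    obtain ⟨h1, h2⟩ := Finset.mem_filter.1 hk
    unfold StrOk at h2
    push Not at h2
    obtain ⟨s, a1, a2, a3, a4⟩ := h2
    exact Finset.mem_biUnion.2 ⟨s, Finset.mem_filter.2 ⟨a1, a2, a3⟩,
      Finset.mem_filter.2 ⟨h1, a4⟩⟩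
  have h1 : (((range m).filter fun k : ℕ => ¬ StrOk Ct ((k : ℝ) / m) u0 t ψ q).card : ℝ) ≤
      ∑ s ∈ Fs Ct u0 t ψ q, (2 * m * uS t ψ q s ^ (-(1 / 4) : ℝ) + 1) := by
    have h2 := (Finset.card_le_card hsub).trans Finset.card_biUnion_le
    have h3 : (((range m).filter fun k : ℕ => ¬ StrOk Ct ((k : ℝ) / m) u0 t ψ q).card : ℝ) ≤
        ∑ s ∈ Fs Ct u0 t ψ q, (((range m).filter fun k : ℕ =>
          Zn ((k : ℝ) / m) (uS t ψ q s)).card : ℝ) := by exact_mod_cast h2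
    refine h3.trans (Finset.sum_le_sum fun s hs => ?_)
    exact cnt_Zn (by linarith [(Finset.mem_filter.1 hs).2.2]) hm
  refine h1.trans ?_
  rw [Finset.sum_add_distrib, ← Finset.mul_sum]
  have h2 := tower hCt hu0 hbig hψ hpos (Ct := Ct)
  have h3 : ∑ s ∈ Fs Ct u0 t ψ q, (1 : ℝ) ≤ (t.mt q).card := by
    rw [Finset.sum_const, nsmul_eq_mul, mul_one]
    exact_mod_cast Finset.card_le_card (Finset.filter_subset _ _)
  have h4 := mul_le_mul_of_nonneg_left h2 (by positivity : (0 : ℝ) ≤ 2 * m)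
  have e : 2 * (m : ℝ) * (2 * u0 ^ (-(1 / 4) : ℝ)) = 4 * m * u0 ^ (-(1 / 4) : ℝ) := by ring
  rw [e] at h4
  linarith

/-- **MASS LEMMA of the straddlers** -/
theorem massG : MassG := by
  classical
  intro Ct ε hCt hε
  have hCt0 : 0 < Ct := by linarith
  -- large `u0`
  have e1 : ∀ᶠ u : ℝ in atTop, 16 * (Ct * Real.log u) ≤ u := by
    have h1 := Real.isLittleO_log_id_atTop.bound (show (0 : ℝ) < 1 / (16 * Ct) by positivity)
    filter_upwards [h1, eventually_ge_atTop 1] with u hu hu1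
    rw [Real.norm_eq_abs, Real.norm_eq_abs, abs_of_nonneg (Real.log_nonneg hu1), id,
      abs_of_nonneg (by linarith : (0 : ℝ) ≤ u)] at hu
    calc 16 * (Ct * Real.log u) ≤ 16 * (Ct * (1 / (16 * Ct) * u)) := by gcongr
      _ = u := by field_simp
  have e2 : ∀ᶠ u : ℝ in atTop, 4 * u ^ (-(1 / 4) : ℝ) ≤ ε / 2 := by
    have h1 : Tendsto (fun u : ℝ => 4 * u ^ (-(1 / 4) : ℝ)) atTop (nhds (4 * 0)) :=
      (tendsto_rpow_neg_atTop (by norm_num : (0 : ℝ) < 1 / 4)).const_mul 4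
    rw [mul_zero] at h1
    exact h1.eventually_le_const (by positivity)
  obtain ⟨U, hU⟩ := eventually_atTop.1 (e1.and (e2.and (eventually_ge_atTop (1 : ℝ))))
  have e3 : Tendsto (fun p : ℕ => u0F Ct p) atTop atTop := by
    unfold u0F
    exact (Real.tendsto_log_atTop.comp (Real.tendsto_log_atTop.comp
      tendsto_natCast_atTop_atTop)).const_mul_atTop (by positivity)
  obtain ⟨p₁, hp₁⟩ := eventually_atTop.1 (e3.eventually_ge_atTop U)
  refine ⟨p₁, fun p0 hp0 t n ht ψ S hψ => ?_⟩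
  set u0 := u0F Ct p0 with hu0
  have hUu : U ≤ u0 := hp₁ p0 hp0
  obtain ⟨-, k2, k3⟩ := hU u0 hUu
  have hbig : ∀ u : ℝ, u0 ≤ u → 16 * (Ct * Real.log u) ≤ u := fun u hu => (hU u (hUu.trans hu)).1
  have hpos : ∀ q, ∀ x ∈ t.mt q, 0 < x := fun q x hx => (BldF542.mt_lt t n ht q x hx).1.pos
  -- the number of the shifts
  obtain ⟨m, hm0, hm⟩ : ∃ m : ℕ, 0 < m ∧ ∀ q ∈ S, ((t.mt q).card : ℝ) ≤ ε / 2 * m := by
    obtain ⟨m, hm⟩ := exists_nat_ge (∑ q ∈ S, ((t.mt q).card : ℝ) / (ε / 2))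
    refine ⟨m + 1, by omega, fun q hq => ?_⟩
    have h1 : ((t.mt q).card : ℝ) / (ε / 2) ≤ ∑ q ∈ S, ((t.mt q).card : ℝ) / (ε / 2) :=
      Finset.single_le_sum (f := fun q => ((t.mt q).card : ℝ) / (ε / 2))
        (fun q _ => by positivity) hq
    have h2 : ((t.mt q).card : ℝ) / (ε / 2) ≤ m := h1.trans hm
    rw [div_le_iff₀ (by positivity)] at h2
    push_cast
    nlinarith
  have hm' : (0 : ℝ) < m := by exact_mod_cast hm0
  -- averaging
  have hw : ∀ q, 0 ≤ w ψ q := fun q => w_nonneg hψ q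
  set bad : ℕ → Finset ℕ := fun k => S.filter fun q => ¬ StrOk Ct ((k : ℝ) / m) u0 t ψ q with hbad
  have hcount : ∑ k ∈ range m, Ws (w ψ) (bad k) ≤ ε * m * Ws (w ψ) S := by
    have h1 : ∀ k ∈ range m, Ws (w ψ) (bad k) = ∑ q ∈ S,
        (if ¬ StrOk Ct ((k : ℝ) / m) u0 t ψ q then w ψ q else 0) := fun k _ => by
      unfold Ws
      rw [hbad, Finset.sum_filter]
    rw [Finset.sum_congr rfl h1, Finset.sum_comm]
    unfold Ws
    rw [Finset.mul_sum]
    refine Finset.sum_le_sum fun q hq => ?_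
    rw [← Finset.sum_filter, Finset.sum_const, nsmul_eq_mul]
    have h2 := cnt_item hCt0 k3 hbig (hψ q) (hpos q) hm0 (t := t)
    have h3 := hm q hq
    refine mul_le_mul_of_nonneg_right ?_ (hw q)
    refine h2.trans ?_
    have h4 := mul_le_mul_of_nonneg_left k2 hm'.le
    nlinarith
  obtain ⟨k, hk, hle⟩ : ∃ k ∈ range m, Ws (w ψ) (bad k) ≤ ε * Ws (w ψ) S := by
    by_contra hn
    push Not at hn
    have h1 : ∑ k ∈ range m, ε * Ws (w ψ) S < ∑ k ∈ range m, Ws (w ψ) (bad k) :=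
      Finset.sum_lt_sum_of_nonempty (Finset.nonempty_range_iff.2 hm0.ne') hn
    rw [Finset.sum_const, Finset.card_range, nsmul_eq_mul] at h1
    have e : ε * m * Ws (w ψ) S = m * (ε * Ws (w ψ) S) := by ring
    rw [e] at hcount
    linarith
  have hk' : (k : ℝ) < m := by exact_mod_cast Finset.mem_range.1 hk
  refine ⟨(k : ℝ) / m, by positivity, by rw [div_lt_one hm']; exact hk', ?_⟩
  have h1 : Ws (w ψ) (SxG Ct ((k : ℝ) / m) t p0 ψ S) + Ws (w ψ) (bad k) = Ws (w ψ) S := by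
    unfold Ws SxG
    rw [hbad]
    exact Finset.sum_filter_add_sum_filter_not S _ _
  linarith

/-- **the shift of the system** : in `[0,1)`, and it keeps most of the mass -/
theorem aF_spec {Ct : ℝ} (hCt : 1 ≤ Ct) : ∃ p₁ : ℕ, ∀ p0 ≥ p₁, ∀ (ψ : ℕ → ℝ) (S : Finset ℕ) (n : ℕ),
    (trF Ct p0 ψ S).Ok n → (∀ q, 0 ≤ ψ q) → 0 ≤ aF Ct p0 ψ S ∧ aF Ct p0 ψ S < 1 ∧
      (1 - 1 / 16) * Ws (w ψ) S ≤ Ws (w ψ) (SxG Ct (aF Ct p0 ψ S) (trF Ct p0 ψ S) p0 ψ S) := by
  classical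
  obtain ⟨p₁, h⟩ := massG Ct (1 / 16) hCt (by norm_num)
  refine ⟨p₁, fun p0 hp0 ψ S n ht hψ => ?_⟩
  have hex := h p0 hp0 (trF Ct p0 ψ S) n ht ψ S hψ
  have e : aF Ct p0 ψ S = hex.choose := by
    unfold aF
    rw [dif_pos hex]
  rw [e]
  exact hex.choose_spec

/-- the shift is always in `[0,1)` -/
theorem aF_mem (Ct : ℝ) (p0 : ℕ) (ψ : ℕ → ℝ) (S : Finset ℕ) :
    0 ≤ aF Ct p0 ψ S ∧ aF Ct p0 ψ S < 1 := by
  unfold aF
  split_ifs with h
  · exact ⟨h.choose_spec.1, h.choose_spec.2.1⟩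
  · exact ⟨le_rfl, one_pos⟩

end Crest.Agent.R4P.ThrS493
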