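import Crest.Agent.R4P.FinD_21
import Crest.Agent.R4P.PruneAcc2_17
import Crest.Agent.R4P.PruneBad_17
import Crest.Agent.R4P.ThrS_493

/-!
R4 (S0004), POWERS, helper23: **the numbers with two more facts; the prune depends on `γ`**.

* `NumG N` : leaf tags are trivial, upper bound of the thinness of the leaf worlds;
* `exists_numFinG` : the numbers exist, `NumOK`, `NumFin` and `NumG`;
* `SxF γ C1` : the prune: no accidents, no bad missing ties and up primes (target `γ`), no straddling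
  stages (`ThrG_21`); `SxF_mass`, `SxF_subA`, `SxF_subB`, `SxF_subG`;
* `S0004_numG` : **S0004 from the three targets**, the prune depends on `γ`.
-/

set_option autoImplicit false
set_option linter.unusedSectionVars false
set_option linter.unusedVariables false

open MeasureTheory Filter

namespace Crest.Agent.R4P.NumG23

open Crest.Agent.R4P.Skel189 Crest.Agent.R4P.NMCtx927 Crest.Agent.R4P.RseNd23
open Crest.Agent.R4P.LeafC734 (LNum exists_LNum leafE_ctx)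
open Crest.Agent.R4.Soft104 Crest.Agent.R4.Max709
open Crest.Agent.R4P.Fac393 (Fac)
open Crest.Agent.R4P.PowTag83 Crest.Agent.R4P.Cnt588
open Crest.Agent.R4P.ParF5 Crest.Agent.R4P.FinAll26 Crest.Agent.R4P.NumX34
open Crest.Agent.R4P.ParT21
open Crest.Agent.R4P.PruneAcc17 (SxA SxA_mass)
open Crest.Agent.R4P.PruneBad17 (SxB SxB_mass)

/-- **two more facts of the numbers** -/
structure NumG (N : Skel189.Num) : Prop where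
  tgL : N.tgL = fun _ _ _ _ => 0
  thLhi : ∃ p₁ : ℕ, ∀ p0 ≥ p₁, ∀ m : ℕ, N.thrL p0 m ≤ Real.log ((m + p0 : ℕ) : ℝ) ^ (-(N.C1 - 2))

theorem NumG.of {N : Skel189.Num} {th : ℕ → (ℕ → ℝ) → Finset ℕ → ℕ → ℝ} {Ct C₀ : ℝ}
    {Sx : ℕ → (ℕ → ℝ) → Finset ℕ → Finset ℕ} (h : NumOK N th Ct C₀ Sx) : NumG N :=
  ⟨h.tgL, h.thLhi⟩

/-- **the final numbers exist**, with `NumG` -/
theorem exists_numFinG : ∃ C₀ : ℝ, 1 ≤ C₀ ∧ ∀ (c₁ : ℝ) (th : ℝ → ℕ → (ℕ → ℝ) → Finset ℕ → ℕ → ℝ)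
    (Sx : ℝ → ℕ → (ℕ → ℝ) → Finset ℕ → Finset ℕ),
    (∀ Ct : ℝ, 0 < Ct → (∃ p₁ : ℕ, ∀ p0 ≥ p₁, ∀ (ψ : ℕ → ℝ) (S : Finset ℕ),
      ∀ p ≥ p0, Real.log p ^ (-Ct) ≤ th Ct p0 ψ S p) ∧
      ∀ p0 : ℕ, RgTh (th Ct) p0) →
    (∀ C1 : ℝ, c₁ ≤ C1 → ∃ p₁ : ℕ, ∀ p0 ≥ p₁, ∃ Q₁ : ℕ, ∀ P₀ ≥ Q₁, ∀ (ψ : ℕ → ℝ) (S : Finset ℕ),
      SysM P₀ ψ S → Sx C1 p0 ψ S ⊆ S ∧ (1 - 1 / 8) * Ws (w ψ) S ≤ Ws (w ψ) (Sx C1 p0 ψ S)) →
    ∃ (N : Skel189.Num) (Ct : ℝ), NumOK N (th Ct) Ct C₀ (Sx N.C1) ∧ NumFin N (th Ct) Ct c₁ ∧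
      NumG N := by
  obtain ⟨c₀, C₀, hc₀, hC₀, H⟩ := exists_num
  refine ⟨C₀, hC₀, fun c₁ th Sx hth hSx => ?_⟩
  set C1 : ℝ := max c₁ (max c₀ 10) with hC1
  have e1 : c₁ ≤ C1 := le_max_left _ _
  have e2 : c₀ ≤ C1 := (le_max_left _ _).trans (le_max_right _ _)
  have e3 : 10 ≤ C1 := (le_max_right _ _).trans (le_max_right _ _)
  have hCt : 0 < 120 * C1 := by linarith
  obtain ⟨N, n1, n2, n3, n4, n5, n6, hN⟩ := H (4 * C1) C1 1 (2 * C1 - 4) (C1 + 5) 1 (120 * C1)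
    e2 one_pos (by linarith) le_rfl (by linarith) le_rfl (by linarith) (by linarith) (by linarith)
    hCt.le (th (120 * C1)) (hth _ hCt).1 (Sx C1) (hSx C1 e1)
  refine ⟨N, 120 * C1, by rw [n2]; exact hN, ?_, NumG.of hN⟩
  exact ⟨by rw [n2]; exact e1, n3, by rw [n1, n2], n6, by rw [n5, n2], by rw [n4, n2], by rw [n2],
    (hth _ hCt).2⟩

/-! ### the prune -/

/-- the exponent of the accidents -/
noncomputable def aAcc (C1 : ℝ) : ℝ := 3 * (4 * C1 + C1 + 1 + 3)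

open Classical in
/-- the items without straddling stages (`ThrG_21`) -/
noncomputable def SxGc (C1 : ℝ) (p0 : ℕ) (ψ : ℕ → ℝ) (S : Finset ℕ) : Finset ℕ :=
  if 1 ≤ C1 then
    ThrG21.SxG (120 * C1) (ThrG21.aF (120 * C1) p0 ψ S) (ThrG21.trF (120 * C1) p0 ψ S) p0 ψ S
  else S

/-- **the prune**: no accidents, no bad missing ties and up primes, no straddling stages -/
noncomputable def SxF (γ C1 : ℝ) (p0 : ℕ) (ψ : ℕ → ℝ) (S : Finset ℕ) : Finset ℕ :=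
  (SxA γ (aAcc C1) (4 * C1) C1 1 p0 ψ S ∩ SxB γ (4 * C1) C1 1 p0 ψ S) ∩ SxGc C1 p0 ψ S

lemma SxF_subA (γ C1 : ℝ) (p0 : ℕ) (ψ : ℕ → ℝ) (S : Finset ℕ) :
    SxF γ C1 p0 ψ S ⊆ SxA γ (aAcc C1) (4 * C1) C1 1 p0 ψ S :=
  Finset.inter_subset_left.trans Finset.inter_subset_left

lemma SxF_subB (γ C1 : ℝ) (p0 : ℕ) (ψ : ℕ → ℝ) (S : Finset ℕ) :
    SxF γ C1 p0 ψ S ⊆ SxB γ (4 * C1) C1 1 p0 ψ S :=
  Finset.inter_subset_left.trans Finset.inter_subset_right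

lemma SxF_subG (γ : ℝ) {C1 : ℝ} (h : 1 ≤ C1) (p0 : ℕ) (ψ : ℕ → ℝ) (S : Finset ℕ) :
    SxF γ C1 p0 ψ S ⊆ ThrG21.SxG (120 * C1) (ThrG21.aF (120 * C1) p0 ψ S)
      (ThrG21.trF (120 * C1) p0 ψ S) p0 ψ S := by
  refine Finset.inter_subset_right.trans ?_
  unfold SxGc
  rw [if_pos h]

/-- two prunes together -/
lemma Ws_inter {W : ℕ → ℝ} (hW : ∀ q, 0 ≤ W q) {S A B : Finset ℕ} {a b : ℝ} (hA : A ⊆ S)
    (hB : B ⊆ S) (h1 : (1 - a) * Ws W S ≤ Ws W A) (h2 : (1 - b) * Ws W S ≤ Ws W B) :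
    (1 - (a + b)) * Ws W S ≤ Ws W (A ∩ B) := by
  have e1 : Ws W (A ∪ B) + Ws W (A ∩ B) = Ws W A + Ws W B := Finset.sum_union_inter
  have e2 : Ws W (A ∪ B) ≤ Ws W S :=
    Finset.sum_le_sum_of_subset_of_nonneg (Finset.union_subset hA hB) fun q _ _ => hW q
  linarith

/-- **mass of the items without straddling stages** -/
theorem SxGc_mass (C1 : ℝ) (hC1 : 0 ≤ C1) :
    ∃ p₁ : ℕ, ∀ p0 ≥ p₁, ∀ (P₀ : ℕ) (ψ : ℕ → ℝ) (S : Finset ℕ), SysM P₀ ψ S →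
      SxGc C1 p0 ψ S ⊆ S ∧ (1 - 1 / 16) * Ws (w ψ) S ≤ Ws (w ψ) (SxGc C1 p0 ψ S) := by
  classical
  by_cases h : 1 ≤ C1
  · obtain ⟨p3, h3⟩ := Bld532.par_Good (4 * (120 * C1 / 120)) (120 * C1 / 120) 1 (by linarith)
      (by linarith) zero_le_one
    obtain ⟨p4, h4⟩ := ThrS493.aF_spec (show (1:ℝ) ≤ 120 * C1 by linarith)
    refine ⟨p3 + p4, fun p0 hp0 P₀ ψ S hS => ?_⟩
    have hW : ∀ q, 0 ≤ w ψ q := w_nonneg hS.nonneg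
    have hO : (ThrG21.trF (120 * C1) p0 ψ S).Ok (top S) :=
      Bld532.bld_Ok _ (w ψ) hW (h3 p0 (by omega)) (top S) 1 1 1 S (Bld532.Bk.root S hS.pos (top S))
    obtain ⟨-, -, d2⟩ := h4 p0 (by omega) ψ S (top S) hO hS.nonneg
    unfold SxGc
    rw [if_pos h]
    exact ⟨Finset.filter_subset _ _, d2⟩
  · refine ⟨0, fun p0 hp0 P₀ ψ S hS => ?_⟩
    unfold SxGc
    rw [if_neg h]
    have : 0 ≤ Ws (w ψ) S := Finset.sum_nonneg fun q _ => w_nonneg hS.nonneg q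
    exact ⟨subset_rfl, by linarith⟩

/-- **mass of the pruned set** -/
theorem SxF_mass (γ C1 : ℝ) (hC1 : 0 ≤ C1) :
    ∃ p₁ : ℕ, ∀ p0 ≥ p₁, ∃ Q₁ : ℕ, ∀ P₀ ≥ Q₁, ∀ (ψ : ℕ → ℝ) (S : Finset ℕ), SysM P₀ ψ S →
      SxF γ C1 p0 ψ S ⊆ S ∧ (1 - 1 / 8) * Ws (w ψ) S ≤ Ws (w ψ) (SxF γ C1 p0 ψ S) := by
  classical
  obtain ⟨p1, h1⟩ := SxA_mass γ (aAcc C1) (4 * C1) C1 1 (1/32) (by norm_num) (by linarith) hC1
    zero_le_one le_rfl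
  obtain ⟨p2, h2⟩ := SxB_mass γ (4 * C1) C1 1 (1/32) (by norm_num) (by linarith) hC1 zero_le_one
  obtain ⟨p3, h3⟩ := SxGc_mass C1 hC1
  refine ⟨p1 + p2 + p3, fun p0 hp0 => ?_⟩
  obtain ⟨Q1, g1⟩ := h1 p0 (by omega)
  obtain ⟨Q2, g2⟩ := h2 p0 (by omega)
  refine ⟨Q1 + Q2, fun P₀ hP ψ S hS => ?_⟩
  obtain ⟨a1, a2⟩ := g1 P₀ (by omega) ψ S hS
  obtain ⟨b1, b2⟩ := g2 P₀ (by omega) ψ S hS
  obtain ⟨d1, d2⟩ := h3 p0 (by omega) P₀ ψ S hS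
  have hW : ∀ q, 0 ≤ w ψ q := w_nonneg hS.nonneg
  refine ⟨(SxF_subA γ C1 p0 ψ S).trans a1, ?_⟩
  have k1 := Ws_inter hW a1 b1 a2 b2
  have k2 := Ws_inter hW (Finset.inter_subset_left.trans a1) d1 k1 d2
  refine le_trans (le_of_eq ?_) k2
  norm_num

/-- **S0004 from the three targets**, the prune depends on `γ` -/
theorem S0004_numG {th : ℝ → ℕ → (ℕ → ℝ) → Finset ℕ → ℕ → ℝ} {Sx : ℝ → ℝ → ℕ → (ℕ → ℝ) → Finset ℕ → Finset ℕ} {cS : ℝ}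
    (hth : ∀ Ct : ℝ, 0 < Ct → (∃ p₁ : ℕ, ∀ p0 ≥ p₁, ∀ (ψ : ℕ → ℝ) (S : Finset ℕ),
      ∀ p ≥ p0, Real.log p ^ (-Ct) ≤ th Ct p0 ψ S p) ∧
      ∀ p0 : ℕ, RgTh (th Ct) p0)
    (hSx : ∀ γ C1 : ℝ, cS ≤ C1 → ∃ p₁ : ℕ, ∀ p0 ≥ p₁, ∃ Q₁ : ℕ, ∀ P₀ ≥ Q₁, ∀ (ψ : ℕ → ℝ)
      (S : Finset ℕ), SysM P₀ ψ S →
      Sx γ C1 p0 ψ S ⊆ S ∧ (1 - 1 / 8) * Ws (w ψ) S ≤ Ws (w ψ) (Sx γ C1 p0 ψ S))
    (hX : ∃ c : ℝ, ∀ (N : Skel189.Num) (Ct C₀ γ : ℝ), NumOK N (th Ct) Ct C₀ (Sx γ N.C1) →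
      NumFin N (th Ct) Ct c → NumG N → TgtX N γ)
    (hB : ∃ c : ℝ, ∀ (N : Skel189.Num) (Ct C₀ γ : ℝ), NumOK N (th Ct) Ct C₀ (Sx γ N.C1) →
      NumFin N (th Ct) Ct c → NumG N → TgtB N γ)
    (hD : ∃ c : ℝ, ∀ (N : Skel189.Num) (Ct C₀ γ : ℝ), NumOK N (th Ct) Ct C₀ (Sx γ N.C1) →
      NumFin N (th Ct) Ct c → NumG N → TgtD N γ)
    (γ : ℝ) (ψ : ℕ → ℝ)
    (hψ : ∀ q, 0 ≤ ψ q) (hdiv : ¬ Summable fun q : ℕ => (Nat.totient q : ℝ) / q * ψ q) :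
    ∀ᵐ x : ℝ, ∃ᶠ q : ℕ in atTop, |(q : ℝ) * x - γ - round ((q : ℝ) * x - γ)| < ψ q := by
  obtain ⟨cX, hX⟩ := hX
  obtain ⟨cB, hB⟩ := hB
  obtain ⟨cD, hD⟩ := hD
  obtain ⟨C₀, -, H⟩ := exists_numFinG
  refine Fin5.S0004_of (fun γ => ?_) γ ψ hψ hdiv
  obtain ⟨N, Ct, h1, h2, h3⟩ := H (max (max cX cB) (max cD cS)) th (Sx γ) hth (fun C1 hC1 =>
    hSx γ C1 (((le_max_right _ _).trans (le_max_right _ _)).trans hC1))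
  have red : ∀ c : ℝ, c ≤ max (max cX cB) (max cD cS) → NumFin N (th Ct) Ct c := fun c hc =>
    ⟨hc.trans h2.C1, h2.c2, h2.B, h2.A, h2.a', h2.a, h2.Ct, h2.rg⟩
  exact MAIN_fin h1 (hX N Ct C₀ γ h1 (red _ ((le_max_left _ _).trans (le_max_left _ _))) h3)
    (hB N Ct C₀ γ h1 (red _ ((le_max_right _ _).trans (le_max_left _ _))) h3)
    (hD N Ct C₀ γ h1 (red _ ((le_max_left _ _).trans (le_max_right _ _))) h3)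

end Crest.Agent.R4P.NumG23
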