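import Crest.Agent.R4P.DseK_23
import Crest.Agent.R4P.NumG_23
import Crest.Agent.R4P.DseTag_28

/-!
R4 (S0004), powers pass, helper23 ([W-dseR], D5): **the target `FinD21.TChK`**.

* `ctx_DH` : the facts `DH X` of the contexts; `ctx_TN` : the upper bounds of the thinness;
* `tchk_of` : `TChK N γ (N.B + 2) (N.C1 + 3)` from the statement on the lost labels.
-/

set_option autoImplicit false
set_option linter.unusedSectionVars false
set_option linter.unusedVariables false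

open MeasureTheory Filter

namespace Crest.Agent.R4P.DseTk23

open Crest.Agent.R4P.Cnt588 Crest.Agent.R4P.Item758 Crest.Agent.R4P.W363
open Crest.Agent.R4P.Data758 Crest.Agent.R4P.LfDat734
open Crest.Agent.R4P.Bld532 (NS All NodeOk Bk)
open Crest.Agent.R4P.WalkIT579 (tp isL)
open Crest.Agent.R4P.Skel189 Crest.Agent.R4P.RseSt23 Crest.Agent.R4P.RseNd23
open Crest.Agent.R4.Item758 (IL)
open Crest.Agent.R4.Soft104 (w)
open Crest.Agent.R4P.PruneAcc17 (NoAcc NoAcc.of SxA)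
open Crest.Agent.R4P.PruneBad17 (NoBad NoBad.of SxB)
open Crest.Agent.R4P.StB21 Crest.Agent.R4P.DseCh23 Crest.Agent.R4P.DseN23 Crest.Agent.R4P.DseKid23
open Crest.Agent.R4P.ParF5 Crest.Agent.R4P.NumX34 Crest.Agent.R4P.ParT21
open Crest.Agent.R4P.FinAll26 (TgtD NumFin Ev_P2)
open Crest.Agent.R4P.Fin5 (CF)
open Crest.Agent.R4P.FinD21 (TChK)
open Crest.Agent.R4P.NumG23

variable {N : Skel189.Num} {Ct C₀ : ℝ} {Sx : ℕ → (ℕ → ℝ) → Finset ℕ → Finset ℕ}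

/-- `log m` is large -/
lemma log_large (C : ℝ) : ∃ p₁ : ℕ, ∀ m : ℕ, p₁ ≤ m → C ≤ Real.log m := by
  refine ⟨⌈Real.exp C⌉₊, fun m hm => ?_⟩
  have h1 : Real.exp C ≤ m := (Nat.le_ceil _).trans (by exact_mod_cast hm)
  rwa [Real.le_log_iff_exp_le ((Real.exp_pos _).trans_le h1)]

/-- `log (m + p0) ≤ 2 log m` for `p0 ≤ m` -/
lemma log_add_le {m p0 : ℕ} (hm : 2 ≤ m) (h : p0 ≤ m) :
    Real.log ((m + p0 : ℕ) : ℝ) ≤ 2 * Real.log m := by
  have hlp : 0 < ((m + p0 : ℕ) : ℝ) := by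
    have : 0 < m + p0 := by omega
    exact_mod_cast this
  have k1 : ((m + p0 : ℕ) : ℝ) ≤ (m : ℝ) ^ 2 := by
    have : m + p0 ≤ m ^ 2 := by nlinarith
    exact_mod_cast this
  have k2 := Real.log_le_log hlp k1
  rw [Real.log_pow] at k2
  exact_mod_cast k2

/-- **the upper bound of the thinness**, a constant is absorbed -/
theorem thr_le (h : NumOK N (thF Ct) Ct C₀ Sx) (hCt : 0 < Ct) : ∃ p₁ : ℕ, ∀ p0 ≥ p₁,
    ∀ (γ : ℝ) (P₀ : ℕ) (X : Ctx N γ p0 P₀), ∀ p : ℕ, p0 < p →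
      X.c.wp.thr p ≤ Real.log p ^ (-(Ct - 1)) := by
  obtain ⟨p1, h1⟩ := ctx_hi h hCt one_pos
  exact ⟨p1, fun p0 hp0 γ P₀ X p hp => h1 γ p0 P₀ X p (by omega)⟩

/-- **the facts of the contexts** -/
theorem ctx_DH (h : NumOK N (thF Ct) Ct C₀ Sx) (hG : NumG N) (hC2 : 2 ≤ N.C1)
    (hC : N.C1 - 2 < Ct) (hCt : 2 ≤ Ct) :
    ∃ p₁ : ℕ, ∀ p0 ≥ p₁, ∀ (γ : ℝ) (P₀ : ℕ) (X : Ctx N γ p0 P₀), DH X := by
  obtain ⟨p1, h1⟩ := ctx_TH h hC2 hC
  obtain ⟨p2, h2⟩ := Fin5.NumOK.facts h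
  obtain ⟨p3, hL⟩ := h.lnum
  obtain ⟨p4, h4⟩ := thr_le h (by linarith)
  obtain ⟨p5, h5⟩ := exp45 (2 ^ (((40 : ℕ) : ℝ) * (N.C1 - 2))) (((40 : ℕ) : ℝ) * (N.C1 - 2))
  obtain ⟨p6, h6⟩ := log_large (2 ^ (N.C1 - 2) + 10)
  obtain ⟨p7, h7⟩ := log_ge_rpow (N.C1 - 1) (c := 1/2) (by norm_num)
  refine ⟨p1 + p2 + p3 + p4 + p5 + p6 + p7 + 4, fun p0 hp0 γ P₀ X => ?_⟩
  have hd : ∀ p, X.c.wp.dep p = depF p := fun p => by rw [X.dep, h.dep]
  have hdL : ∀ m, X.c.wpL.dep m = N.depL p0 m := fun m => by rw [X.depL]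
  have htL : ∀ m, X.c.wpL.thr m = N.thrL p0 m := fun m => by rw [X.thrL]
  have h20 : (0:ℝ) < 2 ^ (N.C1 - 2) := Real.rpow_pos_of_pos (by norm_num) _
  have hl : ∀ m : ℕ, p0 ≤ m → 2 ^ (N.C1 - 2) + 10 ≤ Real.log m := fun m hm => h6 m (by omega)
  refine
    { th := h1 p0 (by omega) γ P₀ X
      rse := (h2 p0 (by omega) γ P₀ X).rse
      dep := fun m p hm hp => by rw [hd, hd]; exact depF_mono (by omega) hp
      depL := fun m p hm hp => ?_
      tg := fun m p hm hp hlog q r he => h.tag.tg_eq_of X hlog he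
      tgL := fun q => by rw [X.tgL, hG.tgL]
      thr1 := fun p hp => ?_
      thrL0 := fun m hm => ?_
      thrL1 := fun m hm => by rw [htL]; exact hL.hi p0 (by omega) m }
  · -- the depths
    rw [hd, hdL]
    set C3 : ℝ := ((40 : ℕ) : ℝ) * (N.C1 - 2) with hC3
    have hC30 : 0 ≤ C3 := mul_nonneg (Nat.cast_nonneg _) (by linarith)
    have k1 := hL.etalo p0 (by omega) m
    have hlm := hl m hm
    have hlp := hl p (hm.trans hp)
    have hm0 : (0:ℝ) < m := by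
      have : 0 < m := by omega
      exact_mod_cast this
    have k2 : Real.log ((m + p0 : ℕ) : ℝ) ≤ 2 * Real.log p := by
      refine (log_add_le (by omega) hm).trans ?_
      have := Real.log_le_log hm0 (show (m:ℝ) ≤ p by exact_mod_cast hp)
      linarith
    have k3 : 0 < Real.log ((m + p0 : ℕ) : ℝ) := by
      refine Real.log_pos ?_
      have : 1 < m + p0 := by omega
      exact_mod_cast this
    have k4 : (2 * Real.log p) ^ (-C3) ≤ 2 / 2 ^ N.depL p0 m :=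
      (Real.rpow_le_rpow_of_nonpos k3 k2 (by linarith)).trans k1
    have hp0' : 0 < Real.log p := by linarith
    have k5 : (2 * Real.log p) ^ (-C3) = (2 ^ C3 * Real.log p ^ C3)⁻¹ := by
      rw [Real.rpow_neg (by linarith), Real.mul_rpow (by norm_num) hp0'.le]
    rw [k5] at k4
    have k6 : (0:ℝ) < 2 ^ N.depL p0 m := by positivity
    have k7 : (0:ℝ) < 2 ^ C3 * Real.log p ^ C3 :=
      mul_pos (Real.rpow_pos_of_pos (by norm_num) _) (Real.rpow_pos_of_pos hp0' _)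
    rw [inv_eq_one_div, div_le_div_iff₀ k7 k6, one_mul] at k4
    obtain ⟨-, k8⟩ := h5 p (by omega)
    have k9 := Real.exp_pos (-(Real.log p ^ (4/5:ℝ)))
    have k10 : Real.exp (Real.log p ^ (4/5:ℝ)) * Real.exp (-(Real.log p ^ (4/5:ℝ))) = 1 := by
      rw [← Real.exp_add, add_neg_cancel, Real.exp_zero]
    have k11 : 2 ^ C3 * Real.log p ^ C3 ≤ Real.exp (Real.log p ^ (4/5:ℝ)) := by
      have := Real.exp_pos (Real.log p ^ (4/5:ℝ))
      nlinarith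
    have k12 := depF_ge (p := p) (by omega)
    have k13 : (2:ℝ) ^ N.depL p0 m ≤ 2 ^ depF p := by linarith
    exact (pow_le_pow_iff_right₀ (by norm_num)).1 k13
  · have k1 := h4 p0 (by omega) γ P₀ X p hp
    have k2 := hl p hp.le
    refine k1.trans ?_
    calc Real.log p ^ (-(Ct - 1)) ≤ Real.log p ^ (-(1:ℝ)) :=
          Real.rpow_le_rpow_of_exponent_le (by linarith) (by linarith)
      _ = (Real.log p)⁻¹ := Real.rpow_neg_one _
      _ ≤ 1 / 10 := by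
          rw [inv_eq_one_div]
          exact one_div_le_one_div_of_le (by norm_num) (by linarith)
  · rw [htL]
    refine le_trans ?_ (hL.lo p0 (by omega) m)
    have hlm := hl m hm
    have hm0 : 0 < Real.log m := by linarith
    have k3 : 0 < Real.log ((m + p0 : ℕ) : ℝ) := by
      refine Real.log_pos ?_
      have : 1 < m + p0 := by omega
      exact_mod_cast this
    refine le_trans ?_ (Real.rpow_le_rpow_of_nonpos k3 (log_add_le (by omega) hm) (by linarith))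
    refine (h7 m (by omega)).trans ?_
    rw [Real.mul_rpow (by norm_num) hm0.le]
    have e : Real.log m ^ (-(N.C1 - 2)) = Real.log m * Real.log m ^ (-(N.C1 - 1)) := by
      conv_rhs => rw [← Real.rpow_one (Real.log (m:ℝ)), ← Real.rpow_mul hm0.le,
        ← Real.rpow_add hm0]
      congr 1; ring
    rw [e]
    have e2 : (2:ℝ) ^ (-(N.C1 - 2)) * 2 ^ (N.C1 - 2) = 1 := by
      rw [← Real.rpow_add (by norm_num)]; norm_num
    have q1 : (0:ℝ) < 2 ^ (-(N.C1 - 2)) := Real.rpow_pos_of_pos (by norm_num) _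
    have q2 : 0 < Real.log m ^ (-(N.C1 - 1)) := Real.rpow_pos_of_pos hm0 _
    have q3 : 1 ≤ 2 ^ (-(N.C1 - 2)) * Real.log m := by
      calc (1:ℝ) = 2 ^ (-(N.C1 - 2)) * 2 ^ (N.C1 - 2) := e2.symm
        _ ≤ 2 ^ (-(N.C1 - 2)) * Real.log m := mul_le_mul_of_nonneg_left (by linarith) q1.le
    calc Real.log m ^ (-(N.C1 - 1)) = 1 * Real.log m ^ (-(N.C1 - 1)) := (one_mul _).symm
      _ ≤ (2 ^ (-(N.C1 - 2)) * Real.log m) * Real.log m ^ (-(N.C1 - 1)) :=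
          mul_le_mul_of_nonneg_right q3 q2.le
      _ = _ := by ring

/-- **the upper bounds of the thinness** -/
theorem ctx_TN (h : NumOK N (thF Ct) Ct C₀ Sx) (hG : NumG N) (hC2 : 2 ≤ N.C1) (hCt : 0 < Ct) :
    ∃ p₁ : ℕ, ∀ p0 ≥ p₁, ∀ (γ : ℝ) (P₀ : ℕ) (X : Ctx N γ p0 P₀), TN X (Ct - 1) (N.C1 - 2) := by
  obtain ⟨p1, h1⟩ := thr_le h hCt
  obtain ⟨p2, h2⟩ := hG.thLhi
  refine ⟨p1 + p2 + 2, fun p0 hp0 γ P₀ X => ⟨fun p hp => h1 p0 (by omega) γ P₀ X p hp, ?_⟩⟩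
  intro m hm
  have e : X.c.wpL.thr m = N.thrL p0 m := by rw [X.thrL]
  rw [e]
  refine (h2 p0 (by omega) m).trans ?_
  have hlm : 0 < Real.log m := Real.log_pos (by exact_mod_cast (by omega : 1 < m))
  refine Real.rpow_le_rpow_of_nonpos hlm ?_ (by linarith)
  refine Real.log_le_log (by exact_mod_cast (by omega : 0 < m)) ?_
  exact_mod_cast Nat.le_add_right m p0

/-- **the target `TChK`** from the statement on the lost labels -/
theorem tchk_of (hW : ∃ K₀ : ℝ, ∀ CL C2 Cθ κ : ℝ, 0 ≤ CL → 0 ≤ C2 → 0 ≤ κ → K₀ < Cθ →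
      κ + 2 + C2/500 < 47/5000 * Cθ → WL CL C2 Cθ κ) :
    ∃ c : ℝ, ∀ (N : Skel189.Num) (Ct C₀ : ℝ) (Sx : ℕ → (ℕ → ℝ) → Finset ℕ → Finset ℕ),
      NumOK N (thF Ct) Ct C₀ Sx → NumFin N (thF Ct) Ct c → NumG N → ∀ (γ A' : ℝ), 0 ≤ A' →
      (∀ p0 ψ S, Sx p0 ψ S ⊆ SxA γ A' N.B N.C1 N.c2 p0 ψ S) →
      (∀ p0 ψ S, Sx p0 ψ S ⊆ SxB γ N.B N.C1 N.c2 p0 ψ S) →
      TChK N γ (N.B + 2) (N.C1 + 3) := by
  obtain ⟨K₁, hK⟩ := kL
  obtain ⟨K₂, hW⟩ := hW
  refine ⟨3000 + |K₁| + |K₂|, fun N Ct C₀ Sx h hN hG γ A' hA' hSA hSB => ?_⟩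
  have c1 := hN.C1
  have c2 := hN.c2
  have cB := hN.B
  have cCt := hN.Ct
  have a1 := le_abs_self K₁
  have a2 := le_abs_self K₂
  have a3 := abs_nonneg K₁
  have a4 := abs_nonneg K₂
  have hC1 : 3000 ≤ N.C1 := by linarith
  have hCT : (0:ℝ) ≤ 2 * Step588.CT := by have := Step588.CT_pos; positivity
  have hC2 : (0:ℝ) ≤ N.B + N.c2 + 3 := by linarith
  have u3 : KL (2 * Step588.CT) (N.B + N.c2 + 3) (Ct - 1) 3 :=
    hK _ _ _ _ hCT hC2 (by norm_num) (by linarith) (by rw [cB, c2, cCt]; linarith)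
  have w3 : WL (2 * Step588.CT) (N.B + N.c2 + 3) (Ct - 1) 3 :=
    hW _ _ _ _ hCT hC2 (by norm_num) (by linarith) (by rw [cB, c2, cCt]; linarith)
  have uκ : KL (2 * Step588.CT) (N.B + N.c2 + 3) (Ct - 1) (N.C1 + 3) :=
    hK _ _ _ _ hCT hC2 (by linarith) (by linarith) (by rw [cB, c2, cCt]; linarith)
  have u1 : KL (2 * Step588.CT) (N.B + N.c2 + 3) (N.C1 - 2) 1 :=
    hK _ _ _ _ hCT hC2 (by norm_num) (by linarith) (by rw [cB, c2]; linarith)
  have w1 : WL (2 * Step588.CT) (N.B + N.c2 + 3) (N.C1 - 2) 1 :=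
    hW _ _ _ _ hCT hC2 (by norm_num) (by linarith) (by rw [cB, c2]; linarith)
  obtain ⟨p1, h1⟩ := chok N (Cu := Ct - 1) (C6 := N.C1 - 2) (K := N.B + 2) (κ := N.C1 + 3)
    (A' := A') hA' (by linarith) (by linarith) u3 w3 uκ u1 w1
  obtain ⟨p2, h2⟩ := kid_KQ N A'
  obtain ⟨p3, h3⟩ := ctx_DH h hG (by linarith) (by linarith) (by linarith)
  obtain ⟨p4, h4⟩ := ctx_TN h hG (by linarith) (by linarith)
  refine Ev_P2 N ⟨p1 + p2 + p3 + p4, fun p0 hp0 P₀ hP X hC A hIL v V u τ hk => ?_⟩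
  have hD := h3 p0 (by omega) γ P₀ X
  have hT := h4 p0 (by omega) γ P₀ X
  have hS : N.S2 p0 X.ψ X.S ⊆ Sx p0 X.ψ X.S := by rw [h.S2]; exact Finset.inter_subset_right
  have hγ : X.c.γ = γ := X.hγ
  refine h1 p0 (by omega) γ P₀ X hD hT X.Y A hIL v V u τ hk
    (h2 p0 (by omega) γ P₀ hP X hD ?_ ?_ v V u τ hk)
  · intro q hq
    rw [hγ]
    exact NoAcc.of X (hS.trans (hSA _ _ _)) hq
  · intro q hq
    rw [hγ]
    exact NoBad.of X (hS.trans (hSB _ _ _)) hq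

end Crest.Agent.R4P.DseTk23
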