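import Crest.Agent.R4P.FarPay_7
import Crest.Agent.R4P.AddPay_7
import Crest.Agent.R4P.LfK_244

/-!
R4 (S0004) with powers, T3, helper5: **pairs of pieces of one INDEX** across add and far nodes, general
form (copy of helper7's `FarNode_7`, `FarPair_7` with the relation "one index" instead of "one world").

* `ixf X b` : the index of a piece at the column `b`; `SX X b = Dr (ixf X b)`, labelled `SL`, unlabelled `SU`;
* `univ_Ro` : `univ \ Ro (rho b) = SX X b` (the relation of `EK17.EX`);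
* `eS` : energy of a population in a subtree, pairs of one index;
* `lift_pair`, `lab_pair`, `unl_pair`.
-/

set_option autoImplicit false
set_option linter.unusedSectionVars false
set_option linter.unusedVariables false

open MeasureTheory Filter

namespace Crest.Agent.R4P.JnA5

open Crest.Agent.R4P.Cnt588 Crest.Agent.R4P.Item758 Crest.Agent.R4P.W363
open Crest.Agent.R4P.Data758 Crest.Agent.R4P.OmSt532 Crest.Agent.R4P.OmData532
open Crest.Agent.R4P.LfDat734 Crest.Agent.R4P.WPex189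
open Crest.Agent.R4P.Bld532 (NS All NodeOk Bk plk dv nd)
open Crest.Agent.R4P.Step588 (NDt ND1 ctx_NDt uq_lt)
open Crest.Agent.R4P.WalkIT579 (tp isL nodeOk_hi top_of_nodeOk)
open Crest.Agent.R4P.Skel189 Crest.Agent.R4P.RseSt23 Crest.Agent.R4P.RseNd23
open Crest.Agent.R4.Soft104 (w)
open Crest.Agent.R4.LF363 (Lab)
open Crest.Agent.R4.HVW560 (cof wt)
open Crest.Agent.R4.AvgItem710 (Dp mul_cof mul_cof' cof_pos cof_coprime exists_of_I_ne)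
open Crest.Agent.R4P.AvgItem710
open Crest.Agent.R4.ClosL758 Crest.Agent.R4.ClosR758 Crest.Agent.R4.Tour104 Crest.Agent.R4.Fam464
open Crest.Agent.R4.Tour758 Crest.Agent.R4.Avg758
open Crest.Agent.R4P.PairR23 (iF_rel_le)
open Crest.Agent.R4.Lift223 (qe cen cen_add cen_den floor_eq_of_window)
open Crest.Agent.R4P.AddNode7 hiding lift_add_core lift_add exact2 F_add PE_add lab_add lab_add2 DU_none F_addU PE_addU unl_add
open Crest.Agent.R4P.FarLift7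
open Crest.Agent.R4P.FarNode7 hiding lift_pair F_pair PE_pair F_pairU PE_pairU lab_pair unl_pair exW eA
open Crest.Agent.R4.ClsS (eps1)
open Crest.Agent.R4

section ctx
variable {N : Skel189.Num} {γ : ℝ} {p0 P₀ : ℕ} {X : Ctx N γ p0 P₀} {u : NS} {b : ℕ} {t₁ t₀ : IT}

/-- the index of a piece at the column `b` -/
noncomputable abbrev ixf (X : Ctx N γ p0 P₀) (b : ℕ) (j : X.c.Lam) : Bool × ℕ := (X.c.world b j.1).1

/-- pairs of pieces of one index -/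
noncomputable abbrev SX (X : Ctx N γ p0 P₀) (b : ℕ) : Finset (X.c.Lam × X.c.Lam) := Dr (ixf X b)

lemma mem_SX {b : ℕ} {x : X.c.Lam × X.c.Lam} :
    x ∈ SX X b ↔ (X.c.world b x.1.1).1 = (X.c.world b x.2.1).1 := by
  unfold SX Dr
  rw [Finset.mem_filter]
  exact and_iff_right (Finset.mem_univ _)

/-- **the relation of `EK17.EX`** -/
lemma univ_Ro (X : Ctx N γ p0 P₀) (Y : Finset (ℕ × ℕ × Finset ℕ)) (b : ℕ) :
    (Finset.univ : Finset (X.c.Lam × X.c.Lam)) \ Ro ((X.c.D.par Y).rho b) = SX X b := by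
  classical
  have hs := Ro_subset ((X.c.D.par Y).rho b)
  ext x
  have h1 : x ∈ RS X Y b ↔ _ := mem_RS
  have h2 : x ∈ Dr ((X.c.D.par Y).rho b) ↔ _ := mem_Dr
  have h3 : x ∈ Rr ((X.c.D.par Y).rho b) ↔ ¬ x ∈ Dr ((X.c.D.par Y).rho b) := by
    unfold Rr Dr; simp
  rw [mem_SX, Finset.mem_sdiff]
  unfold RS at h1
  rw [Finset.mem_sdiff, h3] at h1
  constructor
  · rintro ⟨-, h4⟩
    by_cases h5 : x ∈ Dr ((X.c.D.par Y).rho b)
    · exact (h2.1 h5).1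
    · exact (h1.1 ⟨h5, h4⟩).1
  · intro h4
    refine ⟨Finset.mem_univ _, fun h5 => ?_⟩
    by_cases h6 : ret X.c.t b x.1.1.1 = ret X.c.t b x.2.1.1 ∧ X.c.tg b x.1.1.1 = X.c.tg b x.2.1.1
    · exact (h3.1 (hs h5)) (h2.2 ⟨h4, h6⟩)
    · have h7 : ret X.c.t b x.1.1.1 ≠ ret X.c.t b x.2.1.1 ∨ X.c.tg b x.1.1.1 ≠ X.c.tg b x.2.1.1 := by
        by_contra hc
        push Not at hc
        exact h6 hc
      exact (h1.2 ⟨h4, h7⟩).2 h5

/-- labelled pairs of pieces of one index -/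
noncomputable def SL (X : Ctx N γ p0 P₀) (b : ℕ) : Finset (X.c.Lam × X.c.Lam) :=
  (SX X b).filter fun x => (stq X b x.1.1.1).isSome = true

/-- unlabelled pairs of pieces of one index -/
noncomputable def SU (X : Ctx N γ p0 P₀) (b : ℕ) : Finset (X.c.Lam × X.c.Lam) :=
  (SX X b).filter fun x => ¬ (stq X b x.1.1.1).isSome = true

lemma Q_SL_SU (X : Ctx N γ p0 P₀) (b : ℕ) (f g : X.c.Lam → ℝ → ℝ) :
    Q (SX X b) f g = Q (SL X b) f g + Q (SU X b) f g := by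
  unfold Q SL SU
  exact (Finset.sum_filter_add_sum_filter_not _ _ _).symm

lemma SU_none (hlam : X.c.lam b = 0) {x : X.c.Lam × X.c.Lam}
    (hx : x ∈ SU X b) : (X.c.world b x.1.1).1 = (X.c.world b x.2.1).1 ∧
      stq X b x.1.1.1 = none ∧ stq X b x.2.1.1 = none := by
  obtain ⟨hx1, hx2⟩ := Finset.mem_filter.1 hx
  have hix := mem_SX.1 hx1
  have hs2 := isSome_pair hlam hix
  have h1 : stq X b x.1.1.1 = none := Option.not_isSome_iff_eq_none.1 hx2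
  refine ⟨hix, h1, ?_⟩
  have h3 : (stq X b x.1.1.1).isSome = (stq X b x.2.1.1).isSome := hs2
  rw [h1] at h3
  have h4 : (stq X b x.2.1.1).isSome = false := h3.symm
  rw [← Option.not_isSome_iff_eq_none, h4]
  simp

/-- energy of a population in a subtree, pairs of one index at the column `b` -/
noncomputable def eS (X : Ctx N γ p0 P₀) (Y : Finset (ℕ × ℕ × Finset ℕ)) (b : ℕ) (u : NS) (t : IT)
    (A : Finset X.c.Lam) : ℝ :=
  Q (SX X b) (rv A (Uw X Y u t)) (rv A (Uw X Y u t))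

variable {Y : Finset (ℕ × ℕ × Finset ℕ)} {τ th tl : IT} {i m : ℕ} {A₁ A₀ : Finset X.c.Lam}

/-- **coincidence of two labelled pieces of one world** -/
lemma exW (h : NDt X.par (w X.ψ) X.c.t u τ) (hbt : b ≤ top X.S) (hlam : X.c.lam b = 0)
    {j j' : X.c.Lam} (hx : (j, j') ∈ SL X b) (hj : j.1.1 ∈ τ.items) (hj' : j'.1.1 ∈ τ.items)
    {z : ℝ} {a a' : ℤ}
    (l1 : (u.B : ℝ) / (1 : ℕ) * X.c.bp j.1.1 j.1.2 ≤
      ((j.1.1 / u.A : ℕ) : ℝ) * z - (u.B : ℝ) / (1 : ℕ) * X.c.γ - a)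
    (l2 : ((j.1.1 / u.A : ℕ) : ℝ) * z - (u.B : ℝ) / (1 : ℕ) * X.c.γ - a <
      (u.B : ℝ) / (1 : ℕ) * X.c.bp j.1.1 (j.1.2 + 1))
    (l3 : (u.B : ℝ) / (1 : ℕ) * X.c.bp j'.1.1 j'.1.2 ≤
      ((j'.1.1 / u.A : ℕ) : ℝ) * z - (u.B : ℝ) / (1 : ℕ) * X.c.γ - a')
    (l4 : ((j'.1.1 / u.A : ℕ) : ℝ) * z - (u.B : ℝ) / (1 : ℕ) * X.c.γ - a' <
      (u.B : ℝ) / (1 : ℕ) * X.c.bp j'.1.1 (j'.1.2 + 1)) :
    ((a:ℝ) + ((labB X u b j.1.1 : ℚ) : ℝ)) * ((j'.1.1 / u.A : ℕ) : ℝ) =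
        (a' + ((labB X u b j'.1.1 : ℚ) : ℝ)) * ((j.1.1 / u.A : ℕ) : ℝ) ∧
      ((a:ℝ) + ((labB X u b j.1.1 : ℚ) : ℝ)) * (cof (j'.1.1 / u.A) (j.1.1 / u.A) : ℕ) =
        (a' + ((labB X u b j'.1.1 : ℚ) : ℝ)) * (cof (j.1.1 / u.A) (j'.1.1 / u.A) : ℕ) := by
  obtain ⟨hx1, hx2⟩ := Finset.mem_filter.1 hx
  have hix := mem_SX.1 hx1
  have hs2 := isSome_pair hlam hix
  obtain ⟨σ, hσ⟩ := Option.isSome_iff_exists.1 hx2
  rw [hx2] at hs2
  obtain ⟨σ', hσ'⟩ := Option.isSome_iff_exists.1 hs2.symm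
  have e1 := rel_some h hbt hlam hix hj hj' hσ hσ' l1 l2 l3 l4
  have f1 : labB X u b j.1.1 = (u.B : ℚ) * σ := labB_some hσ
  have f2 : labB X u b j'.1.1 = (u.B : ℚ) * σ' := labB_some hσ'
  rw [f1, f2]
  exact e1

/-- **the lift part of the labelled pairs** -/
theorem lift_pair (P : PR X Y u τ b i m th tl A₁ A₀) (hbt : b ≤ top X.S) (hlam : X.c.lam b = 0)
    (hd1 : X.c.d1 * Kc X.S ≤ 1) :
    Q ((SL X b).filter fun x => ¬ b ∣ (labB X u b x.2.1.1).den)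
      (rv A₁ (Uw X Y u th)) (rv A₀ (Uw X Y u tl)) ≤
      2 * Real.sqrt (Q (SX X b) (rv A₁ (Uw X Y u th)) (rv A₁ (Uw X Y u th)) *
        Q (SX X b) (rv A₀ (Uw X Y u tl)) (rv A₀ (Uw X Y u tl)) /
          (b:ℝ) ^ (m + 1)) := by
  classical
  have h := P.nf.nd
  have hb := P.bp
  have pu : ∀ j, PB (Uw X Y u th j) := fun j =>
    FT.pb h.B_pos ((X.c.D.par Y).toFT_Adm _ _ _ h.B_pos P.f1 P.w1) (one_dvd _) j
  have pf : ∀ j, PB (rv A₁ (Uw X Y u th) j) := fun j => PB_rv pu A₁ j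
  have pg : ∀ j, PB (rv A₀ (Uw X Y u tl) j) := fun j =>
    PB_rv (fun j => FT.pb h.B_pos ((X.c.D.par Y).toFT_Adm _ _ _ h.B_pos P.f0 P.w0)
      (one_dvd _) j) A₀ j
  have hpos : ∀ q ∈ τ.items, 0 < q / u.A := fun q hq => Nat.pos_of_ne_zero (h.div_ne hq)
  have hbk : 0 < b ^ (i + m) := pow_pos hb.pos _
  have hbkR : ((b ^ (i + m) : ℕ) : ℝ) ≠ 0 := by exact_mod_cast hbk.ne'
  have A1 : ∀ j, AV (b ^ (i + m)) (rv A₁ (Uw X Y u th) j) := by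
    intro j
    by_cases hj : j ∈ A₁
    · rw [rv_of_mem hj]
      by_cases hj' : j.1.1 ∈ th.items
      · exact P.av j hj hj'
      · have e : Uw X Y u th j = fun _ => 0 := funext fun x => FarNear7.Uw_zero Y hj' x
        rw [e]
        exact AV_zero _
    · rw [rv_of_not_mem hj]
      exact AV_zero _
  have A2 : ∀ j : X.c.Lam, (∃ z, rv A₁ (Uw X Y u th) j z ≠ 0) → ∀ z : ℝ,
      Cn X u b j (z + 1 / (b ^ (i + m) : ℕ)) = Cn X u b j z + 1 / (b ^ (i + m) : ℕ) := by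
    intro j ⟨z, hz⟩ y
    have hjA : j ∈ A₁ := by
      by_contra hc
      exact hz (congrFun (rv_of_not_mem (f := Uw X Y u th) hc) z)
    obtain ⟨m1, -⟩ := Par.supp _ h.B_pos P.f1 P.w1 (one_dvd _) (rv_ne hz)
    have m1' : j.1.1 ∈ th.items := m1
    exact cen_add (hpos _ (P.s1 m1')) (P.hi j hjA m1') _ _ y
  have A3 : ∀ e ∈ (SL X b).filter fun x => ¬ b ∣ (labB X u b x.2.1.1).den, ∀ z : ℝ,
      (∃ s : ℕ, rv A₁ (Uw X Y u th) e.1 (z + (s : ℝ) / (b ^ (i + m) : ℕ)) ≠ 0) →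
      rv A₀ (Uw X Y u tl) e.2 z ≠ 0 →
      Cn X u b e.1 z = Cn X u b e.2 z ∧ ixf X b e.1 = ixf X b e.2 ∧
        ¬ b ^ i ∣ (Cn X u b e.1 z).den := by
    intro e he z ⟨s, hz⟩ hz'
    obtain ⟨g1, g2⟩ := Finset.mem_filter.1 he
    have g1' : (e.1, e.2) ∈ SL X b := g1
    have hjA : e.1 ∈ A₁ := by
      by_contra hc
      exact hz (congrFun (rv_of_not_mem (f := Uw X Y u th) hc) _)
    have hjA' : e.2 ∈ A₀ := by
      by_contra hc
      exact hz' (congrFun (rv_of_not_mem (f := Uw X Y u tl) hc) _)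
    obtain ⟨m1, a, -, l1, l2⟩ := Par.supp _ h.B_pos P.f1 P.w1 (one_dvd _) (rv_ne hz)
    obtain ⟨m0, a', -, l3, l4⟩ := Par.supp _ h.B_pos P.f0 P.w0 (one_dvd _) (rv_ne hz')
    have m1' : e.1.1.1 ∈ th.items := m1
    have m0' : e.2.1.1 ∈ tl.items := m0
    have w1 := hpos _ (P.s1 m1')
    have w0 := hpos _ (P.s0 m0')
    obtain ⟨c, hc⟩ := P.hi _ hjA m1'
    have hcR : ((e.1.1.1 / u.A : ℕ) : ℝ) * ((s : ℝ) / (b ^ (i + m) : ℕ)) =
        (((c * s : ℕ) : ℤ) : ℝ) := by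
      have hb0 : (b:ℝ) ^ (i + m) ≠ 0 := by
        have : (b:ℝ) ≠ 0 := by exact_mod_cast hb.ne_zero
        positivity
      rw [hc]
      push_cast
      field_simp
    have l1' : (u.B : ℝ) / (1 : ℕ) * X.c.bp e.1.1.1 e.1.1.2 ≤
        ((e.1.1.1 / u.A : ℕ) : ℝ) * z - (u.B : ℝ) / (1 : ℕ) * X.c.γ -
          ((a - ((c * s : ℕ) : ℤ) : ℤ) : ℝ) := by
      rw [Int.cast_sub, ← hcR]
      have l1'' : (u.B : ℝ) / (1 : ℕ) * X.c.bp e.1.1.1 e.1.1.2 ≤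
        ((e.1.1.1 / u.A : ℕ) : ℝ) * (z + (s : ℝ) / (b ^ (i + m) : ℕ)) -
          (u.B : ℝ) / (1 : ℕ) * X.c.γ - a := l1
      rw [mul_add] at l1''
      linarith
    have l2' : ((e.1.1.1 / u.A : ℕ) : ℝ) * z - (u.B : ℝ) / (1 : ℕ) * X.c.γ -
          ((a - ((c * s : ℕ) : ℤ) : ℤ) : ℝ) <
        (u.B : ℝ) / (1 : ℕ) * X.c.bp e.1.1.1 (e.1.1.2 + 1) := by
      rw [Int.cast_sub, ← hcR]
      have l2'' : ((e.1.1.1 / u.A : ℕ) : ℝ) * (z + (s : ℝ) / (b ^ (i + m) : ℕ)) -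
          (u.B : ℝ) / (1 : ℕ) * X.c.γ - a <
        (u.B : ℝ) / (1 : ℕ) * X.c.bp e.1.1.1 (e.1.1.2 + 1) := l2
      rw [mul_add] at l2''
      linarith
    have x1 := (exW h hbt hlam g1' (P.s1 m1') (P.s0 m0') l1' l2' l3 l4).1
    have c1 := Cn_eq (b := b) hd1 h (P.s1 m1') l1' l2'
    have c0 := Cn_eq (b := b) hd1 h (P.s0 m0') l3 l4
    have hC12 : Cn X u b e.1 z = Cn X u b e.2 z := by
      rw [c1, c0]
      have w1q : ((e.1.1.1 / u.A : ℕ) : ℚ) ≠ 0 := by exact_mod_cast w1.ne'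
      have w0q : ((e.2.1.1 / u.A : ℕ) : ℚ) ≠ 0 := by exact_mod_cast w0.ne'
      rw [div_eq_div_iff w1q w0q]
      exact_mod_cast x1
    refine ⟨hC12, ?_, ?_⟩
    · exact (Finset.mem_filter.1 (Finset.mem_filter.1 g1).1).2
    · rw [hC12, c0]
      exact cen_not_dvd hb w0 (P.lo _ hjA' m0') g2 a'
  have key := lift_avg (k := i + m) (m := i) hb P.im (Nat.le_add_right i m) pf pg A1 A2 A3
  have e : i + m + 1 - i = m + 1 := by omega
  rw [e] at key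
  exact key

/-- energy of a labelled pair of items -/
theorem F_pair (P : PR X Y u τ b i m th tl A₁ A₀) (hbt : b ≤ top X.S) (hlam : X.c.lam b = 0)
    {R : Finset (X.c.Lam × X.c.Lam)} (hP : R ⊆ SL X b) {e : ℕ × ℕ}
    (h1 : e.1 ∈ th.items) (h0 : e.2 ∈ tl.items) :
    (X.c.D.par Y).iF R (rv A₁ (Uw X Y u th)) (rv A₀ (Uw X Y u tl)) e ≤
      2 * ((RB X u e.1 * RB X u e.2) / DA u.A (RB X u) e) := by
  have h := P.nf.nd
  have key := iF_rel_le (D := X.c.D.par Y) (ρ := X.c.rr) (b := u.B) (pr := u.A) (c := 1)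
    (b' := u.B) (pr' := u.A) (c' := 1) (A := A₁) (A' := A₀) (X.ok.rad Y) h.B_pos h.B_pos P.f1 P.f0
    P.w1 P.w0 (one_dvd _) (one_dvd _) R e h1 h0
    (C := ((labB X u b e.1 : ℚ) : ℝ)) (C' := ((labB X u b e.2 : ℚ) : ℝ)) (δ := 0) le_rfl
    (fun x hx _ _ i1 i2 y a a' l1 l2 l3 l4 => by
      have i1' : x.1.1.1 = e.1 := i1
      have i2' : x.2.1.1 = e.2 := i2
      rw [← i1'] at l1 l2 h1
      rw [← i2'] at l3 l4 h0
      have hx' : (x.1, x.2) ∈ SL X b := hP hx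
      have k := (exW h hbt hlam hx' (P.s1 h1) (P.s0 h0) l1 l2 l3 l4).2
      rw [i1', i2'] at k
      rw [k, sub_self, abs_zero])
  rw [Nat.cast_one, div_one, mul_zero, zero_add, mul_one] at key
  exact key

/-- **a pair of items of labelled pieces of one world** -/
theorem PE_pair (P : PR X Y u τ b i m th tl A₁ A₀) (hbt : b ≤ top X.S) (hlam : X.c.lam b = 0)
    {R : Finset (X.c.Lam × X.c.Lam)} (hP : R ⊆ SL X b) {e : ℕ × ℕ}
    (he : e ∈ (X.c.D.par Y).PE R (rv A₁ (Uw X Y u th)) (rv A₀ (Uw X Y u tl))) :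
    ∃ j j' : X.c.Lam, (j, j') ∈ R ∧ j ∈ A₁ ∧ j' ∈ A₀ ∧ e = (j.1.1, j'.1.1) ∧
      j.1.1 ∈ th.items ∧ j'.1.1 ∈ tl.items ∧ j.1.1 ∈ X.S' ∧ j'.1.1 ∈ X.S' ∧
      (∃ σ, stq X b j.1.1 = some σ) ∧ (∃ σ, stq X b j'.1.1 = some σ) ∧
      ∃ a a' : ℤ, ((a:ℝ) + ((labB X u b j.1.1 : ℚ) : ℝ)) * (cof (j'.1.1 / u.A) (j.1.1 / u.A) : ℕ) =
        (a' + ((labB X u b j'.1.1 : ℚ) : ℝ)) * (cof (j.1.1 / u.A) (j'.1.1 / u.A) : ℕ) := by
  have h := P.nf.nd
  obtain ⟨j, j', hR, hI, e1, e2⟩ := Par.mem_PE.1 he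
  obtain ⟨y, y1, y2⟩ := exists_of_I_ne hI
  have hA : j ∈ A₁ := by
    by_contra hc
    exact y1 (congrFun (rv_of_not_mem (f := Uw X Y u th) hc) y)
  have hA' : j' ∈ A₀ := by
    by_contra hc
    exact y2 (congrFun (rv_of_not_mem (f := Uw X Y u tl) hc) y)
  have z1 := rv_ne y1
  have z2 := rv_ne y2
  obtain ⟨m1, a, o1, l1, l2⟩ := Par.supp _ h.B_pos P.f1 P.w1 (one_dvd _) z1
  obtain ⟨m0, a', o0, l3, l4⟩ := Par.supp _ h.B_pos P.f0 P.w0 (one_dvd _) z2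
  have hs1 : j.1.1 ∈ X.S' := by
    by_contra hc
    exact o1 (X.om_zero hc _ _)
  have hs0 : j'.1.1 ∈ X.S' := by
    by_contra hc
    exact o0 (X.om_zero hc _ _)
  obtain ⟨hx1, hx2⟩ := Finset.mem_filter.1 (hP hR)
  have hix := mem_SX.1 hx1
  have hs2 := isSome_pair hlam hix
  have hσ := Option.isSome_iff_exists.1 hx2
  rw [hx2] at hs2
  have hσ' := Option.isSome_iff_exists.1 hs2.symm
  have x2 := (exW h hbt hlam (hP hR) (P.s1 m1) (P.s0 m0) l1 l2 l3 l4).2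
  exact ⟨j, j', hR, hA, hA', Prod.ext e1.symm e2.symm, m1, m0, hs1, hs0, hσ, hσ', a, a', x2⟩

/-- energy of an unlabelled pair of items -/
theorem F_pairU (P : PR X Y u τ b i m th tl A₁ A₀) (hbt : b ≤ top X.S) (hlam : X.c.lam b = 0)
    {e : ℕ × ℕ} (h1 : e.1 ∈ th.items) (h0 : e.2 ∈ tl.items) {η : ℝ} (hη : etaL X.c.wp b ≤ η) :
    (X.c.D.par Y).iF (SU X b) (rv A₁ (Uw X Y u th)) (rv A₀ (Uw X Y u tl)) e ≤
      2 * ((RB X u e.1 * RB X u e.2) / DA u.A (RB X u) e) * (2 * (η * DA u.A (RB X u) e) + 1) := by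
  have h := P.nf.nd
  have hrr : ∀ q, 0 < X.c.rr q := (X.ok.rad Y).pos
  have hDA : 0 ≤ DA u.A (RB X u) e := by
    unfold DA Crest.Agent.R4.AvgItem710.Dp
    refine le_max_of_le_left ?_
    have := (hrr e.1).le
    positivity
  have hη0 : 0 ≤ η := (etaL_pos _ _).le.trans hη
  have key := iF_rel_le (D := X.c.D.par Y) (ρ := X.c.rr) (b := u.B) (pr := u.A) (c := 1)
    (b' := u.B) (pr' := u.A) (c' := 1) (A := A₁) (A' := A₀) (X.ok.rad Y) h.B_pos h.B_pos P.f1 P.f0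
    P.w1 P.w0 (one_dvd _) (one_dvd _) (SU X b) e h1 h0
    (C := u.B * X.c.γ) (C' := u.B * X.c.γ) (δ := η * DA u.A (RB X u) e) (mul_nonneg hη0 hDA)
    (fun x hx _ _ i1 i2 y a a' l1 l2 l3 l4 => by
      obtain ⟨hix, hs, hs'⟩ := SU_none hlam hx
      have i1' : x.1.1.1 = e.1 := i1
      have i2' : x.2.1.1 = e.2 := i2
      rw [← i1'] at l1 l2 h1
      rw [← i2'] at l3 l4 h0
      have k := rel_none h hbt hlam hix (P.s1 h1) (P.s0 h0) hs hs' l1 l2 l3 l4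
      rw [i1', i2'] at k
      exact k.trans (mul_le_mul_of_nonneg_right hη hDA))
  rw [Nat.cast_one, div_one] at key
  exact key

/-- **a pair of items of unlabelled pieces of one world** -/
theorem PE_pairU (P : PR X Y u τ b i m th tl A₁ A₀) (hbt : b ≤ top X.S) (hlam : X.c.lam b = 0)
    {e : ℕ × ℕ} {η : ℝ} (hη : etaL X.c.wp b ≤ η)
    (he : e ∈ (X.c.D.par Y).PE (SU X b) (rv A₁ (Uw X Y u th)) (rv A₀ (Uw X Y u tl))) :
    ∃ j j' : X.c.Lam, j ∈ A₁ ∧ j' ∈ A₀ ∧ e = (j.1.1, j'.1.1) ∧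
      j.1.1 ∈ th.items ∧ j'.1.1 ∈ tl.items ∧ j.1.1 ∈ X.S' ∧ j'.1.1 ∈ X.S' ∧
      stq X b j.1.1 = none ∧ stq X b j'.1.1 = none ∧
      ∃ a a' : ℤ, |(a + (u.B : ℝ) * X.c.γ) * (cof (j'.1.1 / u.A) (j.1.1 / u.A) : ℕ) -
        (a' + (u.B : ℝ) * X.c.γ) * (cof (j.1.1 / u.A) (j'.1.1 / u.A) : ℕ)| ≤
          η * DA u.A (RB X u) (j.1.1, j'.1.1) := by
  have h := P.nf.nd
  obtain ⟨j, j', hR, hI, e1, e2⟩ := Par.mem_PE.1 he
  obtain ⟨y, y1, y2⟩ := exists_of_I_ne hI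
  have hA : j ∈ A₁ := by
    by_contra hc
    exact y1 (congrFun (rv_of_not_mem (f := Uw X Y u th) hc) y)
  have hA' : j' ∈ A₀ := by
    by_contra hc
    exact y2 (congrFun (rv_of_not_mem (f := Uw X Y u tl) hc) y)
  have z1 := rv_ne y1
  have z2 := rv_ne y2
  obtain ⟨m1, a, o1, l1, l2⟩ := Par.supp _ h.B_pos P.f1 P.w1 (one_dvd _) z1
  obtain ⟨m0, a', o0, l3, l4⟩ := Par.supp _ h.B_pos P.f0 P.w0 (one_dvd _) z2
  have hs1 : j.1.1 ∈ X.S' := by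
    by_contra hc
    exact o1 (X.om_zero hc _ _)
  have hs0 : j'.1.1 ∈ X.S' := by
    by_contra hc
    exact o0 (X.om_zero hc _ _)
  obtain ⟨hix, hs, hs'⟩ := SU_none hlam hR
  have k := rel_none h hbt hlam hix (P.s1 m1) (P.s0 m0) hs hs' l1 l2 l3 l4
  refine ⟨j, j', hA, hA', Prod.ext e1.symm e2.symm, m1, m0, hs1, hs0, hs, hs', a, a', ?_⟩
  refine k.trans (mul_le_mul_of_nonneg_right hη ?_)
  unfold DA Crest.Agent.R4.AvgItem710.Dp
  refine le_max_of_le_left ?_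
  have := (X.ok.rad Y).pos j.1.1
  positivity


open Classical in
set_option maxHeartbeats 1000000 in
/-- **the labelled pairs** -/
theorem lab_pair (N : Skel189.Num) : ∃ p₁ : ℕ, ∀ p0 ≥ p₁, ∀ (γ : ℝ) (P₀ : ℕ), 2 ≤ P₀ →
    ∀ X : Ctx N γ p0 P₀, RseH X → X.c.d1 * Kc X.S ≤ 1 → ∀ (Y : Finset (ℕ × ℕ × Finset ℕ))
      (u : NS) (τ : IT) (b i m : ℕ) (th tl : IT) (A₁ A₀ : Finset X.c.Lam),
      PR X Y u τ b i m th tl A₁ A₀ →
      Q (SL X b) (rv A₁ (Uw X Y u th)) (rv A₀ (Uw X Y u tl)) ≤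
        2 * Real.sqrt (eS X Y b u th A₁ * eS X Y b u tl A₀ / (b:ℝ) ^ (m + 1)) +
        (if m = 0 then (b:ℝ) ^ (-(1/7):ℝ) * (mA X u th A₁ + mA X u tl A₀)
        else (b:ℝ) ^ (-(13/25):ℝ) * (mA X u th A₁ * mA X u tl A₀)^(1/2+LL207.e1)) := by
  have hc2 := N.hc2
  have hCT := Step588.CT_pos
  obtain ⟨p1, h1⟩ := alive_facts N
  obtain ⟨p2, h2⟩ := ll_two' (2 * Step588.CT) (by positivity)
  obtain ⟨p3, h3⟩ := ll_bad' (2 * Step588.CT) N.c2 (by positivity) hc2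
  obtain ⟨p5, h5⟩ := num_p (N.c2 + 2)
  refine ⟨p1 + p2 + p3 + p5 + 2, fun p0 hp0 γ P₀ hP X hX hd1 Y u τ b i m th tl A₁ A₀ P => ?_⟩
  obtain rfl := P.col
  have hN := P.nf
  have h := hN.nd
  have hl := P.nl
  have hbp := P.bp
  obtain ⟨k1, k2, k3, k4⟩ := nodeOk_hi h.self.node hl
  have k2' : p0 < tp τ := k2
  have hbt : tp τ ≤ top X.S := (le_of_lt k3).trans hN.lvl
  obtain ⟨n1, n2, n3, n4, n5⟩ := h5 (tp τ) (by omega)
  have hpR : (0:ℝ) < tp τ := by exact_mod_cast (by omega : 0 < tp τ)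
  have hpR1 : (1:ℝ) ≤ tp τ := by exact_mod_cast (by omega : 1 ≤ tp τ)
  have hlam := hX.lam (tp τ) k2' hbt
  have hthr := hX.thr (tp τ) k2'
  set T1 : Finset ℕ := al X th A₁ with hT1
  set T0 : Finset ℕ := al X tl A₀ with hT0
  have hm1 : ∀ q ∈ T1, (tp τ) ^ (i + m) ∣ q / u.A := fun q hq => by
    rw [hT1] at hq; unfold al at hq
    obtain ⟨a1, a2, j, hj, rfl⟩ := Finset.mem_filter.1 hq
    exact P.hi j hj a1
  have hm0 : ∀ q ∈ T0, ¬ (tp τ) ^ i ∣ q / u.A := fun q hq => by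
    rw [hT0] at hq; unfold al at hq
    obtain ⟨a1, a2, j, hj, rfl⟩ := Finset.mem_filter.1 hq
    exact P.lo j hj a1
  set T : Finset ℕ := T1 ∪ T0 with hT
  have hTm : ∀ q ∈ T, q ∈ τ.items ∧ q ∈ X.S' := fun q hq => by
    rw [hT, Finset.mem_union, hT1, hT0] at hq
    unfold al at hq
    rcases hq with hq | hq
    · obtain ⟨a1, a2⟩ := Finset.mem_filter.1 hq
      exact ⟨P.s1 a1, a2.1⟩
    · obtain ⟨a1, a2⟩ := Finset.mem_filter.1 hq
      exact ⟨P.s0 a1, a2.1⟩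
  have hTF : ∀ q ∈ T, AlF X u τ q := fun q hq =>
    h1 p0 (by omega) γ P₀ hP X u _ hN hl q (hTm q hq).1 (hTm q hq).2
  have hT1T : T1 ⊆ T := by rw [hT]; exact Finset.subset_union_left
  have hT0T : T0 ⊆ T := by rw [hT]; exact Finset.subset_union_right
  -- masses
  have hwA0 : ∀ q ∈ T, 0 ≤ wA u.A (RB X u) q := fun q hq => by
    unfold wA
    have := (hTF q hq).R0.le
    positivity
  have hmass : ∀ T' ⊆ T, ∑ q ∈ T', wA u.A (RB X u) q ≤ u.c * ∑ q ∈ T', w X.ψ q := by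
    intro T' hT'
    rw [Finset.mul_sum]
    exact Finset.sum_le_sum fun q hq => (hTF q (hT' hq)).wle
  have hM2 : ∑ q ∈ T, wA u.A (RB X u) q ≤ Real.log (tp τ) ^ N.c2 := by
    refine (hmass T subset_rfl).trans (le_trans ?_ k1)
    refine mul_le_mul_of_nonneg_left ?_ hN.c0.le
    unfold Ws
    refine Finset.sum_le_sum_of_subset_of_nonneg (fun q hq => (hTm q hq).1) fun q _ _ => X.hW q
  -- labelled items
  set TL : Finset ℕ := T.filter fun q => (stq X (tp τ) q).isSome = true with hTL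
  set S1 : Finset ℕ := T1.filter fun q => (stq X (tp τ) q).isSome = true with hS1
  set S0 : Finset ℕ := T0.filter fun q => (stq X (tp τ) q).isSome = true with hS0
  have hS10 : S1 ∪ S0 = TL := by
    rw [hS1, hS0, hTL, hT, Finset.filter_union]
  have hTLT : TL ⊆ T := Finset.filter_subset _ _
  have hS1T : S1 ⊆ T1 := Finset.filter_subset _ _
  have hS0T : S0 ⊆ T0 := Finset.filter_subset _ _
  -- the pairs
  set R : Finset (X.c.Lam × X.c.Lam) :=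
    (SL X (tp τ)).filter fun x => ¬ ¬ tp τ ∣ (labB X u (tp τ) x.2.1.1).den with hR'
  have hPD : R ⊆ SL X (tp τ) := Finset.filter_subset _ _
  have hsplit : Q (SL X (tp τ)) (rv A₁ (Uw X Y u th)) (rv A₀ (Uw X Y u tl)) =
      Q ((SL X (tp τ)).filter fun x => ¬ tp τ ∣ (labB X u (tp τ) x.2.1.1).den)
        (rv A₁ (Uw X Y u th)) (rv A₀ (Uw X Y u tl)) +
        Q R (rv A₁ (Uw X Y u th)) (rv A₀ (Uw X Y u tl)) := by
    unfold Q
    rw [hR']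
    exact (Finset.sum_filter_add_sum_filter_not _ _ _).symm
  have hlift := lift_pair P hbt hlam hd1
  set D := X.c.D.par Y with hD
  set F : ℕ × ℕ → ℝ := fun e => D.iF R (rv A₁ (Uw X Y u th)) (rv A₀ (Uw X Y u tl)) e with hF
  set E : Finset (ℕ × ℕ) := D.PE R (rv A₁ (Uw X Y u th)) (rv A₀ (Uw X Y u tl)) with hE
  have hQE : Q R (rv A₁ (Uw X Y u th)) (rv A₀ (Uw X Y u tl)) = ∑ e ∈ E, F e := D.Q_eq _ _ _
  -- facts of the pairs
  have hfact : ∀ e ∈ E, e.1 ∈ S1 ∧ e.2 ∈ S0 ∧ e.1 ∈ th.items ∧ e.2 ∈ tl.items ∧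
      tp τ ∣ (labB X u (tp τ) e.2).den ∧ ∃ a a' : ℤ,
        ((a:ℝ) + ((labB X u (tp τ) e.1 : ℚ) : ℝ)) * (cof (e.2 / u.A) (e.1 / u.A) : ℕ) =
        (a' + ((labB X u (tp τ) e.2 : ℚ) : ℝ)) * (cof (e.1 / u.A) (e.2 / u.A) : ℕ) := by
    intro e he
    obtain ⟨j, j', hR, hj, hj', rfl, i1, i0, s1, s0, ⟨σ, hσ⟩, ⟨σ', hσ'⟩, a, a', hex⟩ :=
      PE_pair P hbt hlam hPD he
    have hden := not_not.1 (Finset.mem_filter.1 hR).2
    refine ⟨?_, ?_, i1, i0, hden, a, a', hex⟩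
    · refine Finset.mem_filter.2 ⟨?_, ?_⟩
      · rw [hT1]; unfold al
        exact Finset.mem_filter.2 ⟨i1, s1, j, hj, rfl⟩
      · show (stq X (tp τ) j.1.1).isSome = true
        rw [hσ]; rfl
    · refine Finset.mem_filter.2 ⟨?_, ?_⟩
      · rw [hT0]; unfold al
        exact Finset.mem_filter.2 ⟨i0, s0, j', hj', rfl⟩
      · show (stq X (tp τ) j'.1.1).isSome = true
        rw [hσ']; rfl
  have hZ : ∀ e ∈ E, labB X u (tp τ) e.1 ≠ labB X u (tp τ) e.2 ∧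
      tp τ ≤ LL207.Zc (labB X u (tp τ) e.1) (labB X u (tp τ) e.2) := by
    intro e he
    obtain ⟨f1, f0, -, -, hden, a, a', hex⟩ := hfact e he
    have g1 := hS1T f1
    have g0 := hS0T f0
    have q1 := hTF _ (hT1T g1)
    have hcop : Nat.Coprime (cof (e.1 / u.A) (e.2 / u.A)) (cof (e.2 / u.A) (e.1 / u.A)) :=
      cof_coprime q1.pos
    have hbd := b_dvd_cof hbp ((pow_dvd_pow _ (Nat.le_add_right i m)).trans (hm1 _ g1)) (hm0 _ g0)
    have hz := RseAr23.Zc_of_exact hbp hbd hcop (labB X u (tp τ) e.1) (labB X u (tp τ) e.2) hex hden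
    exact ⟨hz.2, hz.1⟩
  have hFle : ∀ e ∈ E, F e ≤ 2 * ((RB X u e.1 * RB X u e.2) / DA u.A (RB X u) e) := by
    intro e he
    obtain ⟨f1, f0, g1, g0, -⟩ := hfact e he
    exact F_pair P hbt hlam hPD g1 g0
  -- labels
  have hK : ∀ s : ℕ, tp τ < s → Real.log (tp τ) ^ (N.c2 + 2) ≤ s * X.c.wp.thr s := by
    intro s hs
    have hsR : (0:ℝ) < s := by
      have : 0 < s := by omega
      exact_mod_cast this
    have hps : ((tp τ : ℕ) : ℝ) ≤ s := by exact_mod_cast hs.le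
    have h6 := hX.thr s (k2'.trans hs)
    have h7 : (s:ℝ) ^ (1/2:ℝ) = s * (s:ℝ) ^ (-(1/2:ℝ)) := by
      conv_rhs => rw [← Real.rpow_one (s:ℝ), ← Real.rpow_mul hsR.le, ← Real.rpow_add hsR]
      norm_num
    calc Real.log (tp τ) ^ (N.c2 + 2) ≤ ((tp τ : ℕ) : ℝ) ^ (1/2:ℝ) := n5
      _ ≤ (s:ℝ) ^ (1/2:ℝ) := Real.rpow_le_rpow hpR.le hps (by norm_num)
      _ = s * (s:ℝ) ^ (-(1/2:ℝ)) := h7
      _ ≤ s * X.c.wp.thr s := mul_le_mul_of_nonneg_left h6 hsR.le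
  have hthr0 : 0 < X.c.wp.thr (tp τ) := (Real.rpow_pos_of_pos hpR _).trans_le hthr
  have hK4 : 32 * (Real.log (tp τ) ^ (N.c2 + 2)) ^ 4 <
      (tp τ : ℝ) ^ 2 * X.c.wp.thr (tp τ) ^ 2 := by
    refine n4.trans_le ?_
    have h7 : (((tp τ : ℕ):ℝ) ^ (-(1/2:ℝ))) ^ 2 ≤ X.c.wp.thr (tp τ) ^ 2 :=
      pow_le_pow_left₀ (Real.rpow_nonneg hpR.le _) hthr 2
    have h8 : (((tp τ : ℕ):ℝ) ^ (-(1/2:ℝ))) ^ 2 = ((tp τ : ℕ):ℝ)⁻¹ := by
      rw [← Real.rpow_natCast, ← Real.rpow_mul hpR.le, ← Real.rpow_neg_one]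
      norm_num
    rw [h8] at h7
    calc ((tp τ : ℕ):ℝ) = ((tp τ : ℕ):ℝ) ^ 2 * ((tp τ : ℕ):ℝ)⁻¹ := by field_simp
      _ ≤ ((tp τ : ℕ):ℝ) ^ 2 * X.c.wp.thr (tp τ) ^ 2 := mul_le_mul_of_nonneg_left h7 (sq_nonneg _)
  obtain ⟨Λf, hΛ, hlab⟩ := lab_nodeB h X.tOk hl (wp := X.c.wp) (wpL := X.c.wpL) (lam := X.c.lam)
    (lv := X.c.lv) (γ := X.c.γ) (r := X.c.r) hK hthr0 hK4
  have hLAB : ∀ q ∈ TL, Lab (u.B * X.c.γ) (RB X u q) (labB X u (tp τ) q) ∨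
      (labB X u (tp τ) q ∈ Λf ∧ ((tp τ : ℕ):ℝ)⁻¹ ≤ RB X u q) := by
    intro q hq
    obtain ⟨hq1, hq2⟩ := Finset.mem_filter.1 hq
    have hf := hTF q hq1
    obtain ⟨σ, hσ⟩ := Option.isSome_iff_exists.1 hq2
    have hσ' : stq X (tp τ) q = some σ := hσ
    have hR : RB X u q = u.B * X.c.r q := by
      show (u.B:ℝ) * X.c.rr q = _
      rw [hf.rr]
    rw [labB_some hσ', hR]
    rcases hlab q (hTm q hq1).1 hf.hi σ hσ' with h6 | h6
    · exact Or.inl h6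
    · refine Or.inr ⟨h6.1, le_trans ?_ h6.2.le⟩
      refine le_trans ?_ hthr
      rw [← Real.rpow_neg_one]
      exact Real.rpow_le_rpow_of_exponent_le hpR1 (by norm_num)
  have hsubM : ∑ q ∈ TL, wA u.A (RB X u) q ≤ ∑ q ∈ T, wA u.A (RB X u) q :=
    Finset.sum_le_sum_of_subset_of_nonneg hTLT fun q hq _ => hwA0 q hq
  have hES : E ⊆ S1 ×ˢ S0 := fun e he =>
    Finset.mem_product.2 ⟨(hfact e he).1, (hfact e he).2.1⟩
  have hEE : E ⊆ TL ×ˢ TL := fun e he => by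
    rw [← hS10]
    exact Finset.mem_product.2 ⟨Finset.mem_union_left _ (hfact e he).1,
      Finset.mem_union_right _ (hfact e he).2.1⟩
  have i1 : ∑ q ∈ S1, wA u.A (RB X u) q ≤ mA X u th A₁ :=
    (Finset.sum_le_sum_of_subset_of_nonneg hS1T fun q hq _ => hwA0 q (hT1T hq)).trans
      (hmass T1 hT1T)
  have i0 : ∑ q ∈ S0, wA u.A (RB X u) q ≤ mA X u tl A₀ :=
    (Finset.sum_le_sum_of_subset_of_nonneg hS0T fun q hq _ => hwA0 q (hT0T hq)).trans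
      (hmass T0 hT0T)
  have j1 : 0 ≤ ∑ q ∈ S1, wA u.A (RB X u) q :=
    Finset.sum_nonneg fun q hq => hwA0 q (hT1T (hS1T hq))
  have j0 : 0 ≤ ∑ q ∈ S0, wA u.A (RB X u) q :=
    Finset.sum_nonneg fun q hq => hwA0 q (hT0T (hS0T hq))
  rw [hsplit, hQE]
  refine add_le_add hlift ?_
  by_cases hm : m = 0
  · rw [if_pos hm]
    have kJ := h3 (tp τ) (by omega) u.A (u.B * X.c.γ) TL E (RB X u) (labB X u (tp τ)) Λf F
      (fun q hq => (hTF q (hTLT hq)).dvd) hΛ hEE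
      (fun q hq => ⟨(hTF q (hTLT hq)).pos, (hTF q (hTLT hq)).R0⟩)
      (fun q hq => (hTF q (hTLT hq)).lo)
      (hsubM.trans hM2) hLAB hFle
      (fun e he _ => by
        obtain ⟨z1, z2⟩ := hZ e he
        obtain ⟨-, -, -, -, -, hex⟩ := hfact e he
        exact ⟨z1, by exact_mod_cast z2, hex⟩)
    refine kJ.trans (mul_le_mul_of_nonneg_left ?_ (Real.rpow_nonneg hpR.le _))
    rw [← hS10]
    have hu : ∑ q ∈ S1 ∪ S0, wA u.A (RB X u) q ≤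
        ∑ q ∈ S1, wA u.A (RB X u) q + ∑ q ∈ S0, wA u.A (RB X u) q := by
      have h8 := Finset.sum_union_inter (s₁ := S1) (s₂ := S0) (f := fun q => wA u.A (RB X u) q)
      have h9 : 0 ≤ ∑ q ∈ S1 ∩ S0, wA u.A (RB X u) q :=
        Finset.sum_nonneg fun q hq => hwA0 q (hT1T (hS1T (Finset.mem_inter.1 hq).1))
      linarith
    exact hu.trans (add_le_add i1 i0)
  · rw [if_neg hm]
    have kN := h2 (tp τ) (by omega) u.A (u.B * X.c.γ) S1 S0 E (RB X u) (labB X u (tp τ)) Λf F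
      (fun q hq => (hTF q (hTLT (hS10 ▸ hq))).dvd) hΛ hES
      (fun q hq => ⟨(hTF q (hTLT (hS10 ▸ hq))).pos, (hTF q (hTLT (hS10 ▸ hq))).R0⟩)
      (fun q hq => (hTF q (hTLT (hS10 ▸ hq))).lo)
      (fun q hq => hLAB q (hS10 ▸ hq)) hFle
      (fun e he _ => by
        obtain ⟨z1, z2⟩ := hZ e he
        obtain ⟨f1, f0, -, -, -, hex⟩ := hfact e he
        refine ⟨z1, by exact_mod_cast z2, ?_, hex⟩
        have g1 := hm1 _ (hS1T f1)
        have g0 := hm0 _ (hS0T f0)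
        have q1 := hTF _ (hT1T (hS1T f1))
        have q0 := hTF _ (hT0T (hS0T f0))
        have him := P.im
        refine pow_dvd_cof (i := i - 1) (s := 2) hbp q1.pos q0.pos
          ((pow_dvd_pow _ (by omega)).trans g1) ?_
        have e1 : i - 1 + 1 = i := by omega
        rw [e1]
        exact g0)
    refine kN.trans (mul_le_mul_of_nonneg_left ?_ (Real.rpow_nonneg hpR.le _))
    exact Real.rpow_le_rpow (mul_nonneg j1 j0) (mul_le_mul i1 i0 j0 (j1.trans i1))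
      (by unfold LL207.e1; norm_num)

open Classical in
set_option maxHeartbeats 1000000 in
/-- **the unlabelled pairs** -/
theorem unl_pair : ∃ κ₀ : ℝ, 0 ≤ κ₀ ∧ ∀ (N : Skel189.Num) (Ct A₀ : ℝ), 0 ≤ Ct → 0 ≤ A₀ →
    ∃ p₁ : ℕ, ∀ p0 ≥ p₁, ∀ (γ : ℝ) (P₀ : ℕ), 2 ≤ P₀ →
    ∀ X : Ctx N γ p0 P₀, RseH X → (∀ p, p0 < p → Real.log p ^ (-Ct) ≤ X.c.wp.thr p) →
    ∀ (Y : Finset (ℕ × ℕ × Finset ℕ)) (u : NS) (τ : IT) (b i m : ℕ) (th tl : IT)
      (Ah Al : Finset X.c.Lam), PR X Y u τ b i m th tl Ah Al →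
      Q (SU X b) (rv Ah (Uw X Y u th)) (rv Al (Uw X Y u tl)) ≤
        Real.log b ^ (-A₀) * (mA X u th Ah * mA X u tl Al) +
        Real.log b ^ (κ₀ + (Ct + A₀) / 500) * (((b:ℝ)^(-(1/2-eps1)))^(m+1) *
          (mA X u th Ah * mA X u tl Al)^(1/2+eps1)) +
        Real.log b ^ (κ₀ + (Ct + A₀) / 500) / (b:ℝ)^(m+1) * mA X u th Ah := by
  have hCT := Step588.CT_pos
  have he1 : eps1 = 1/1000 := rfl
  obtain ⟨κ₀, hκ₀, HH⟩ := uu_crossM'
  refine ⟨κ₀, hκ₀, fun N Ct A₀ hCt hA₀ => ?_⟩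
  obtain ⟨p1, h1⟩ := alive_facts N
  obtain ⟨p2, h2⟩ := HH (2 * Step588.CT) Ct A₀ (by positivity) hCt hA₀
  set C3 := κ₀ + (Ct + A₀) / 500 with hC3
  refine ⟨p1 + p2 + 2, fun p0 hp0 γ P₀ hP X hX hthrC Y u τ b i m th tl Ah Al P => ?_⟩
  obtain rfl := P.col
  have hN := P.nf
  have h := hN.nd
  have hl := P.nl
  have hbp := P.bp
  obtain ⟨k1, k2, k3, k4⟩ := nodeOk_hi h.self.node hl
  have k2' : p0 < tp τ := k2
  have hbt : tp τ ≤ top X.S := (le_of_lt k3).trans hN.lvl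
  have hpR : (0:ℝ) < tp τ := by exact_mod_cast (by omega : 0 < tp τ)
  have hpR2 : (2:ℝ) ≤ tp τ := by exact_mod_cast (by omega : 2 ≤ tp τ)
  have hlog : 0 ≤ Real.log ((tp τ : ℕ) : ℝ) := Real.log_nonneg (by linarith)
  have hlam := hX.lam (tp τ) k2' hbt
  have hdep := hX.dep (tp τ) k2' hbt
  have hthr := hthrC (tp τ) k2'
  set η : ℝ := Real.exp (-(Real.log (tp τ) ^ (4/5:ℝ))) with hη
  have hη0 : 0 < η := Real.exp_pos _
  have hηe : etaL X.c.wp (tp τ) ≤ η := by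
    unfold etaL
    rw [hη, Real.exp_neg, ← one_div, div_le_div_iff₀ (by positivity) (Real.exp_pos _)]
    linarith
  set T1 : Finset ℕ := al X th Ah with hT1
  set T0 : Finset ℕ := al X tl Al with hT0
  have hm1 : ∀ q ∈ T1, (tp τ) ^ (i + m) ∣ q / u.A := fun q hq => by
    rw [hT1] at hq; unfold al at hq
    obtain ⟨a1, a2, j, hj, rfl⟩ := Finset.mem_filter.1 hq
    exact P.hi j hj a1
  have hm0 : ∀ q ∈ T0, ¬ (tp τ) ^ i ∣ q / u.A := fun q hq => by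
    rw [hT0] at hq; unfold al at hq
    obtain ⟨a1, a2, j, hj, rfl⟩ := Finset.mem_filter.1 hq
    exact P.lo j hj a1
  set T : Finset ℕ := T1 ∪ T0 with hT
  have hTm : ∀ q ∈ T, q ∈ τ.items ∧ q ∈ X.S' := fun q hq => by
    rw [hT, Finset.mem_union, hT1, hT0] at hq
    unfold al at hq
    rcases hq with hq | hq
    · obtain ⟨a1, a2⟩ := Finset.mem_filter.1 hq
      exact ⟨P.s1 a1, a2.1⟩
    · obtain ⟨a1, a2⟩ := Finset.mem_filter.1 hq
      exact ⟨P.s0 a1, a2.1⟩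
  have hTF : ∀ q ∈ T, AlF X u τ q := fun q hq =>
    h1 p0 (by omega) γ P₀ hP X u _ hN hl q (hTm q hq).1 (hTm q hq).2
  have hT1T : T1 ⊆ T := by rw [hT]; exact Finset.subset_union_left
  have hT0T : T0 ⊆ T := by rw [hT]; exact Finset.subset_union_right
  have hwA0 : ∀ q ∈ T, 0 ≤ wA u.A (RB X u) q := fun q hq => by
    unfold wA
    have := (hTF q hq).R0.le
    positivity
  have hmass : ∀ T' ⊆ T, ∑ q ∈ T', wA u.A (RB X u) q ≤ u.c * ∑ q ∈ T', w X.ψ q := by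
    intro T' hT'
    rw [Finset.mul_sum]
    exact Finset.sum_le_sum fun q hq => (hTF q (hT' hq)).wle
  -- unlabelled items
  set S1 : Finset ℕ := T1.filter fun q => stq X (tp τ) q = none with hS1
  set S0 : Finset ℕ := T0.filter fun q => stq X (tp τ) q = none with hS0
  have hS1T : S1 ⊆ T1 := Finset.filter_subset _ _
  have hS0T : S0 ⊆ T0 := Finset.filter_subset _ _
  have hSS : ∀ q ∈ S1 ∪ S0, q ∈ T := fun q hq => by
    rcases Finset.mem_union.1 hq with h6 | h6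
    · exact hT1T (hS1T h6)
    · exact hT0T (hS0T h6)
  set D := X.c.D.par Y with hD
  set F : ℕ × ℕ → ℝ :=
    fun e => D.iF (SU X (tp τ)) (rv Ah (Uw X Y u th)) (rv Al (Uw X Y u tl)) e with hF
  set E : Finset (ℕ × ℕ) :=
    D.PE (SU X (tp τ)) (rv Ah (Uw X Y u th)) (rv Al (Uw X Y u tl)) with hE
  have hQE : Q (SU X (tp τ)) (rv Ah (Uw X Y u th)) (rv Al (Uw X Y u tl)) = ∑ e ∈ E, F e :=
    D.Q_eq _ _ _
  have hfact : ∀ e ∈ E, e.1 ∈ S1 ∧ e.2 ∈ S0 ∧ e.1 ∈ th.items ∧ e.2 ∈ tl.items ∧ ∃ a a' : ℤ,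
      |(a + (u.B : ℝ) * X.c.γ) * (cof (e.2 / u.A) (e.1 / u.A) : ℕ) -
        (a' + (u.B : ℝ) * X.c.γ) * (cof (e.1 / u.A) (e.2 / u.A) : ℕ)| ≤
          η * DA u.A (RB X u) e := by
    intro e he
    obtain ⟨j, j', hj, hj', rfl, i1, i0, s1, s0, hσ, hσ', a, a', hex⟩ :=
      PE_pairU P hbt hlam hηe he
    refine ⟨?_, ?_, i1, i0, a, a', hex⟩
    · refine Finset.mem_filter.2 ⟨?_, hσ⟩
      rw [hT1]; unfold al
      exact Finset.mem_filter.2 ⟨i1, s1, j, hj, rfl⟩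
    · refine Finset.mem_filter.2 ⟨?_, hσ'⟩
      rw [hT0]; unfold al
      exact Finset.mem_filter.2 ⟨i0, s0, j', hj', rfl⟩
  have key := h2 (tp τ) (by omega) hbp u.A η (u.B * X.c.γ) i m S1 S0 E (RB X u) F
    (fun q hq => (hTF q (hSS q hq)).dvd) hη0 le_rfl
    (fun q hq => ⟨(hTF q (hSS q hq)).pos, (hTF q (hSS q hq)).R0⟩)
    (fun q hq => (hTF q (hSS q hq)).lo)
    (fun Z hZ q hq => (hTF q (hSS q hq)).tame Z hZ)
    (fun q hq => hm1 q (hS1T hq)) (fun q hq => hm0 q (hS0T hq))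
    (fun e he => Finset.mem_product.2 ⟨(hfact e he).1, (hfact e he).2.1⟩)
    (fun e he => F_pairU P hbt hlam (hfact e he).2.2.1 (hfact e he).2.2.2.1 hηe)
    (fun e he _ => (hfact e he).2.2.2.2)
    (fun q hq hthin ρ => by
      obtain ⟨hq1, hq2⟩ := Finset.mem_filter.1 hq
      have hqT := hT1T hq1
      have hf := hTF q hqT
      have hR : RB X u q = u.B * X.c.r q := by
        show (u.B:ℝ) * X.c.rr q = _
        rw [hf.rr]
      rw [hR]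
      refine st_noneB h X.tOk hl (hTm q hqT).1 hlam hq2 ?_ ρ
      rw [← hR]
      exact hthin.trans hthr)
  rw [hQE]
  refine key.trans ?_
  have i1 : ∑ q ∈ S1, wA u.A (RB X u) q ≤ mA X u th Ah :=
    (Finset.sum_le_sum_of_subset_of_nonneg hS1T fun q hq _ => hwA0 q (hT1T hq)).trans
      (hmass T1 hT1T)
  have i0 : ∑ q ∈ S0, wA u.A (RB X u) q ≤ mA X u tl Al :=
    (Finset.sum_le_sum_of_subset_of_nonneg hS0T fun q hq _ => hwA0 q (hT0T hq)).trans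
      (hmass T0 hT0T)
  have n1 : 0 ≤ ∑ q ∈ S1, wA u.A (RB X u) q :=
    Finset.sum_nonneg fun q hq => hwA0 q (hT1T (hS1T hq))
  have n0 : 0 ≤ ∑ q ∈ S0, wA u.A (RB X u) q :=
    Finset.sum_nonneg fun q hq => hwA0 q (hT0T (hS0T hq))
  have i2 : (∑ q ∈ S1, wA u.A (RB X u) q) * ∑ q ∈ S0, wA u.A (RB X u) q ≤
      mA X u th Ah * mA X u tl Al := mul_le_mul i1 i0 n0 (n1.trans i1)
  have i3 := Real.rpow_le_rpow (mul_nonneg n1 n0) i2 (by rw [he1]; norm_num : (0:ℝ) ≤ 1/2+eps1)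
  have hb3 : 0 ≤ (((tp τ : ℕ):ℝ)^(-(1/2-eps1))) ^ (m+1) := by positivity
  have hlC : 0 ≤ Real.log ((tp τ : ℕ):ℝ) ^ C3 := Real.rpow_nonneg hlog _
  refine add_le_add (add_le_add ?_ ?_) ?_
  · exact mul_le_mul_of_nonneg_left i2 (Real.rpow_nonneg hlog _)
  · exact mul_le_mul_of_nonneg_left (mul_le_mul_of_nonneg_left i3 hb3) hlC
  · exact mul_le_mul_of_nonneg_left i1 (div_nonneg hlC (by positivity))


end ctx

end Crest.Agent.R4P.JnA5
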