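import Crest.Agent.R4P.StJ_6
import Crest.Agent.R4P.PairX_41

/-!
R4 (S0004) with powers, T3, helper9: **the rule of a label function and of a name code**.

* `nm Z p M q a` : `1` if `a = 0` (plain), `StG6.vtag Z p M q a` otherwise (name with the code `a`, width
  `Z a`); `nm_code`, `nm_inj`, `nm_congr`, `nm_rest`, `nm_N`, `nm_P`.
* **`RN c lb cd Z n`** : rule with the label `lb p M q` and the tag `nm` of the code `cd p M q`, automatic
  bound; **`SEG_RN`**, **`MEG_RN`** : there is an event iff the label or the code changes; `MEG_RN_P`.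
* in a context: `ctx_SEGN`, `ctx_MEGN`.
* **real labels**: `stL` (column), `rs` (memory): the events as equations of `c.st` and `low`; the type
  determines the real index.
* `NOn` : the tags of N pieces only (virtual exponent `k0` of the tie).
* **the code `cdA`** : real label of the column; the N pieces whose real state changes at their own tie and
  which satisfy `pd` are flagged in the code (`cdp 1 (vb p)`, pending): **`SEG_A`**, **`MEG_A`**; `pdZ` : only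
  pieces with a name above, outside of a zone.
-/

set_option autoImplicit false
set_option linter.unusedSectionVars false
set_option linter.unusedVariables false
open MeasureTheory Filter Set

namespace Crest.Agent.R4P.RuN9

open Crest.Agent.R4P.Cnt588 Crest.Agent.R4P.Item758 Crest.Agent.R4P.W363
open Crest.Agent.R4P.Data758
open Crest.Agent.R4P.Bld532 (NS All NodeOk Bk)
open Crest.Agent.R4P.WalkIT579 (tp isL)
open Crest.Agent.R4P.StratN36 (ex)
open Crest.Agent.R4P.Step588 Crest.Agent.R4P.RseSt23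
open Crest.Agent.R4P.DTp26 Crest.Agent.R4P.DTm407
open Crest.Agent.R4P.TYI47 Crest.Agent.R4P.TYJ47 Crest.Agent.R4P.TYK47
open Crest.Agent.R4P.TYP9 Crest.Agent.R4P.RsT47
open Crest.Agent.R4P.StM6 Crest.Agent.R4P.StM246 Crest.Agent.R4P.StE6 Crest.Agent.R4P.StF6
open Crest.Agent.R4P.StG6
open Crest.Agent.R4P.StB21 (bt TH LvF)

-- product of the C-steps of a stage
variable {Tc : ℕ}

/-! ### names -/

section names
variable {Z : ℕ → ℝ} {p q q' a a' k0 : ℕ} {M M' : Finset ℕ}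

open Classical in
/-- **tag of the code `a`** : `1` if `a = 0` (plain), the name otherwise -/
noncomputable def nm (Z : ℕ → ℝ) (p : ℕ) (M : Finset ℕ) (q a : ℕ) : ℕ :=
  if a = 0 then 1 else vtag Z p M q a

lemma nm_zero : nm Z p M q 0 = 1 := if_pos rfl

lemma nm_pos (h : a ≠ 0) : nm Z p M q a = vtag Z p M q a := if_neg h

lemma nm_ne : nm Z p M q a ≠ 0 := by
  unfold nm
  split_ifs
  · exact one_ne_zero
  · exact vtag_ne

/-- the tag determines the code -/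
lemma nm_code (h2 : ∀ k, 2 ≤ Z k) : (nm Z p M q a).factorization 2 = a := by
  by_cases h : a = 0
  · subst h
    rw [nm_zero]
    simp
  · rw [nm_pos h, vtag_fac_two (h2 a)]

lemma nm_one (h2 : ∀ k, 2 ≤ Z k) : nm Z p M q a = 1 ↔ a = 0 := by
  constructor
  · intro h
    have h1 := nm_code (p := p) (M := M) (q := q) (a := a) h2
    rw [h] at h1
    simpa using h1.symm
  · rintro rfl
    exact nm_zero

/-- **equal tags**: equal codes; not plain: equal virtual exponents above the width -/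
theorem nm_inj (h2 : ∀ k, 2 ≤ Z k) (h : nm Z p M q a = nm Z p M' q' a') :
    a = a' ∧ (a ≠ 0 → ∀ s : ℕ, s.Prime → s ≤ p → Z a < (s : ℝ) → vex s M q = vex s M' q') := by
  have e1 := nm_code (Z := Z) (p := p) (M := M) (q := q) (a := a) h2
  have e2 := nm_code (Z := Z) (p := p) (M := M') (q := q') (a := a') h2
  have e : a = a' := by rw [← e1, ← e2, h]
  subst e
  refine ⟨rfl, fun ha => ?_⟩
  rw [nm_pos ha, nm_pos ha] at h
  exact (vtag_inj h2 h).2

/-- **equal codes and equal virtual exponents: equal tags** -/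
theorem nm_congr (h : a ≠ 0 → ∀ s : ℕ, s.Prime → s ≤ p → Z a < (s : ℝ) → vex s M q = vex s M' q') :
    nm Z p M q a = nm Z p M' q' a := by
  by_cases ha : a = 0
  · subst ha
    rw [nm_zero, nm_zero]
  · rw [nm_pos ha, nm_pos ha]
    exact vtag_congr (h ha)

/-- **the tag is a function of the modulus and of the code** -/
theorem nm_mul (hq : 0 < q) (hq' : 0 < q') (hM : ∀ l ∈ M, l.Prime) (hM' : ∀ l ∈ M', l.Prime)
    (h : q * Bm M = q' * Bm M') : nm Z p M q a = nm Z p M' q' a :=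
  nm_congr fun _ s hs _ _ => by rw [vex_eq hs hq hM, vex_eq hs hq' hM', h]

/-- the map of the rest keeps the code -/
lemma gR_code {m : ℕ} : (gR p m).factorization 2 = m.factorization 2 := by
  unfold gR
  split_ifs with h
  · rw [Nat.factorization_ordCompl, Finsupp.erase_ne (by omega)]
  · rfl

/-- the map of the ties keeps the code -/
lemma gT_code (h2 : ∀ k, 2 ≤ Z k) {m : ℕ} (hm : m ≠ 0) :
    (gT Z p k0 m).factorization 2 = m.factorization 2 := by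
  unfold gT
  split_ifs with h
  · obtain ⟨-, h1, h3, -⟩ := h
    have hp2 : p ≠ 2 := by
      rintro rfl
      exact absurd (h2 (m.factorization 2)) (not_le.2 (by exact_mod_cast h3))
    rw [Nat.factorization_mul hm h1.ne_zero, Finsupp.add_apply, Nat.Prime.factorization h1,
      Finsupp.single_apply, if_neg hp2, add_zero]
  · rfl

/-- **rest**, the code stays -/
theorem nm_rest (h2 : ∀ k, 2 ≤ Z k) (hp : 0 < p) : nm Z (p - 1) M q a = gR p (nm Z p M q a) := by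
  by_cases ha : a = 0
  · subst ha
    rw [nm_zero, nm_zero, gR_one]
  · rw [nm_pos ha, nm_pos ha]
    exact vtag_rest h2 hp

/-- **rest**: the tag below is the image of the tag above iff the code stays -/
theorem nm_rest_iff (h2 : ∀ k, 2 ≤ Z k) (hp : 0 < p) :
    nm Z (p - 1) M q a' = gR p (nm Z p M q a) ↔ a' = a := by
  constructor
  · intro h
    have h1 := congrArg (fun m => m.factorization 2) h
    simp only [gR_code, nm_code h2] at h1
    exact h1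
  · rintro rfl
    exact nm_rest h2 hp

/-- **tie, N pieces**, the code stays -/
theorem nm_N (h2 : ∀ k, 2 ≤ Z k) (hp : p.Prime) (h1 : p ∈ M') (h0 : p ∉ M)
    (hs : ∀ s, s ≠ p → (s ∈ M' ↔ s ∈ M)) (hx : ex p q = k0) :
    nm Z p M' q a = gT Z p k0 (nm Z p M q a) := by
  by_cases ha : a = 0
  · subst ha
    rw [nm_zero, nm_zero, gT_one]
  · rw [nm_pos ha, nm_pos ha]
    exact vtag_N h2 ha hp h1 h0 hs hx

/-- **tie, N pieces**: the tag below is the image of the tag above iff the code stays -/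
theorem nm_N_iff (h2 : ∀ k, 2 ≤ Z k) (hp : p.Prime) (h1 : p ∈ M') (h0 : p ∉ M)
    (hs : ∀ s, s ≠ p → (s ∈ M' ↔ s ∈ M)) (hx : ex p q = k0) :
    nm Z p M' q a' = gT Z p k0 (nm Z p M q a) ↔ a' = a := by
  constructor
  · intro h
    have h3 := congrArg (fun m => m.factorization 2) h
    simp only [gT_code h2 nm_ne, nm_code h2] at h3
    exact h3
  · rintro rfl
    exact nm_N h2 hp h1 h0 hs hx

/-- **tie, P pieces and pulls** -/
theorem nm_P (h2 : ∀ k, 2 ≤ Z k) (h0 : p ∉ M) (hx : ex p q ≠ k0) :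
    gT Z p k0 (nm Z p M q a) = nm Z p M q a := by
  by_cases ha : a = 0
  · subst ha
    rw [nm_zero, gT_one]
  · rw [nm_pos ha]
    exact vtag_P h2 h0 hx

/-- **the tags which are moved at the tie** (named, the tie is wider than the width, virtual exponent
`k0`) : only N pieces have them -/
def NOn (Z : ℕ → ℝ) (p k0 m : ℕ) : Prop :=
  m.factorization 2 ≠ 0 ∧ p.Prime ∧ Z (m.factorization 2) < (p : ℝ) ∧ m.factorization p = k0

/-- P pieces and pulls have no tag of N pieces -/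
theorem not_NOn (h2 : ∀ k, 2 ≤ Z k) (h0 : p ∉ M) (hx : ex p q ≠ k0) :
    ¬ NOn Z p k0 (nm Z p M q a) := by
  rintro ⟨h1, h3, h4, h5⟩
  have ha : a ≠ 0 := by rwa [nm_code h2] at h1
  rw [nm_pos ha] at h4 h5
  rw [vtag_fac_two (h2 a)] at h4
  have hp2 : p ≠ 2 := by
    rintro rfl
    exact absurd (h2 a) (not_le.2 (by exact_mod_cast h4))
  rw [vtag_fac_ne (h2 a) hp2, if_pos ⟨h3, le_rfl, h4⟩] at h5
  unfold vex at h5
  rw [if_neg h0, add_zero] at h5
  exact hx h5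

/-- the named N pieces have such a tag -/
theorem NOn_of (h2 : ∀ k, 2 ≤ Z k) (hp : p.Prime) (h0 : p ∉ M) (hx : ex p q = k0) (ha : a ≠ 0)
    (hz : Z a < (p : ℝ)) : NOn Z p k0 (nm Z p M q a) := by
  have hp2 : p ≠ 2 := by
    rintro rfl
    exact absurd (h2 a) (not_le.2 (by exact_mod_cast hz))
  refine ⟨by rw [nm_code h2]; exact ha, hp, by rw [nm_code h2]; exact hz, ?_⟩
  rw [nm_pos ha, vtag_fac_ne (h2 a) hp2, if_pos ⟨hp, le_rfl, hz⟩]
  unfold vex
  rw [if_neg h0, hx, add_zero]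

end names

/-! ### the rule -/

section rule
variable {c : Cf} {n p q k0 : ℕ} {Z : ℕ → ℝ} {M M' : Finset ℕ}
  {lb : ℕ → Finset ℕ → ℕ → Option ℚ} {cd : ℕ → Finset ℕ → ℕ → ℕ}

/-- tag of the rule (the list is cut to the missing ties of the item) -/
noncomputable def tgN (c : Cf) (cd : ℕ → Finset ℕ → ℕ → ℕ) (Z : ℕ → ℝ) (p : ℕ) (M : Finset ℕ)
    (q : ℕ) : ℕ :=
  nm Z p (M ∩ c.t.mt q) q (cd p (M ∩ c.t.mt q) q)

lemma tgN_sub (h : M ⊆ c.t.mt q) : tgN c cd Z p M q = nm Z p M q (cd p M q) := by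
  unfold tgN
  rw [Finset.inter_eq_left.2 h]

/-- a bound of the tags -/
noncomputable def KN (c : Cf) (cd : ℕ → Finset ℕ → ℕ → ℕ) (Z : ℕ → ℝ) (n : ℕ) : ℕ :=
  c.S.sup fun q => (c.t.mt q).powerset.sup fun M => (Finset.range (n + 1)).sup fun p =>
    nm Z p M q (cd p M q)

lemma tgN_le (hq : q ∈ c.S) (hp : p ≤ n) : tgN c cd Z p M q ≤ KN c cd Z n := by
  unfold tgN KN
  have h1 : M ∩ c.t.mt q ∈ (c.t.mt q).powerset := Finset.mem_powerset.2 Finset.inter_subset_right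
  have h2 : p ∈ Finset.range (n + 1) := Finset.mem_range.2 (Nat.lt_succ_of_le hp)
  refine le_trans ?_ (Finset.le_sup (f := fun q => (c.t.mt q).powerset.sup fun M =>
    (Finset.range (n + 1)).sup fun p => nm Z p M q (cd p M q)) hq)
  refine le_trans ?_ (Finset.le_sup (f := fun M => (Finset.range (n + 1)).sup fun p =>
    nm Z p M q (cd p M q)) h1)
  exact Finset.le_sup (f := fun p => nm Z p (M ∩ c.t.mt q) q (cd p (M ∩ c.t.mt q) q)) h2

variable (c) in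
/-- **the rule of a label function `lb` and a code function `cd`** (`0` plain, otherwise a name) -/
noncomputable def RN (lb : ℕ → Finset ℕ → ℕ → Option ℚ) (cd : ℕ → Finset ℕ → ℕ → ℕ) (Z : ℕ → ℝ)
    (n : ℕ) : Rule c :=
  RC c lb (tgN c cd Z) (KN c cd Z n)

lemma RN_le (hp : p ≤ n) (M : Finset ℕ) (T : ℕ) (x : ℝ) (j : c.Lam) :
    (RN c lb cd Z n).tg p M T x j ≤ (RN c lb cd Z n).K := tgN_le (Cf.mem_S j) hp

lemma RN_lb {x : ℝ} {j : c.Lam} : (RN c lb cd Z n).lb p M x j = lb p M j.1.1 := rfl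

lemma RN_tg {T : ℕ} {x : ℝ} {j : c.Lam} (h : M ⊆ c.t.mt j.1.1) :
    (RN c lb cd Z n).tg p M T x j = nm Z p M j.1.1 (cd p M j.1.1) := tgN_sub h

/-- **static events**: the label or the code changes -/
theorem SEG_RN (h2 : ∀ k, 2 ≤ Z k) (hp : 0 < p) {x : ℝ} {j : c.Lam} (hM : M ⊆ c.t.mt j.1.1) :
    SEG (RN c lb cd Z n) (gR p) p M Tc x j ↔
      lb (p - 1) M j.1.1 ≠ lb p M j.1.1 ∨ cd (p - 1) M j.1.1 ≠ cd p M j.1.1 := by
  have h' : SEG (RN c lb cd Z n) (gR p) p M Tc x j ↔ (lb (p - 1) M j.1.1 ≠ lb p M j.1.1 ∨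
    tgN c cd Z (p - 1) M j.1.1 ≠ gR p (tgN c cd Z p M j.1.1)) := Iff.rfl
  rw [h', tgN_sub hM, tgN_sub hM, Ne, Ne, Ne, nm_rest_iff h2 hp]

/-- **events of a tie, N pieces**: the label or the code changes -/
theorem MEG_RN (h2 : ∀ k, 2 ≤ Z k) (hp : p.Prime) {x y : ℝ} {j : c.Lam}
    (hM : M ⊆ c.t.mt j.1.1) (hM' : M' ⊆ c.t.mt j.1.1) (h1 : p ∈ M') (h0 : p ∉ M)
    (hs : ∀ s, s ≠ p → (s ∈ M' ↔ s ∈ M)) (hx : ex p j.1.1 = k0) :
    MEG (RN c lb cd Z n) (gT Z p k0) p M M' Tc x y j ↔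
      lb p M' j.1.1 ≠ lb p M j.1.1 ∨ cd p M' j.1.1 ≠ cd p M j.1.1 := by
  have h' : MEG (RN c lb cd Z n) (gT Z p k0) p M M' Tc x y j ↔ (lb p M' j.1.1 ≠ lb p M j.1.1 ∨
    tgN c cd Z p M' j.1.1 ≠ gT Z p k0 (tgN c cd Z p M j.1.1)) := Iff.rfl
  rw [h', tgN_sub hM, tgN_sub hM', Ne, Ne, Ne, nm_N_iff h2 hp h1 h0 hs hx]

/-- **no event of P pieces and pulls** -/
theorem MEG_RN_P (h2 : ∀ k, 2 ≤ Z k) {x y : ℝ} {j : c.Lam} (h0 : p ∉ M)
    (hM : M ⊆ c.t.mt j.1.1) (hx : ex p j.1.1 ≠ k0) :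
    ¬ MEG (RN c lb cd Z n) (gT Z p k0) p M M Tc x y j := by
  have h' : MEG (RN c lb cd Z n) (gT Z p k0) p M M Tc x y j ↔ (lb p M j.1.1 ≠ lb p M j.1.1 ∨
    tgN c cd Z p M j.1.1 ≠ gT Z p k0 (tgN c cd Z p M j.1.1)) := Iff.rfl
  rw [h', tgN_sub hM]
  push Not
  exact ⟨rfl, (nm_P h2 h0 hx).symm⟩

/-- the N pieces of an own missing tie -/
theorem MEG_tieN (h2 : ∀ k, 2 ≤ Z k) (hO : c.t.Ok n) {n' : ℕ} {x y : ℝ} {j : c.Lam}
    (hm : p ∈ c.t.mt j.1.1) (hx : ex p j.1.1 = k0) :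
    MEG (RN c lb cd Z n') (gT Z p k0) p (Mhi c p j.1.1) (Mlo c p j.1.1) Tc x y j ↔
      lb p (Mlo c p j.1.1) j.1.1 ≠ lb p (Mhi c p j.1.1) j.1.1 ∨
        cd p (Mlo c p j.1.1) j.1.1 ≠ cd p (Mhi c p j.1.1) j.1.1 :=
  MEG_RN h2 (BldF542.mt_lt c.t n hO j.1.1 p hm).1 Mhi_sub Mlo_sub (mem_lo_of hm) not_mem_hi
    (fun s hs => lo_iff_hi hs) hx

/-- **equal types**: equal indices, equal codes, equal names -/
theorem RN_tp (h2 : ∀ k, 2 ≤ Z k) {n : ℕ} (hp : p ≤ n) {m m' : Me} {x x' : ℝ} {j j' : c.Lam}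
    (hj : pm c.t p m j.1.1 ⊆ c.t.mt j.1.1) (hj' : pm c.t p m' j'.1.1 ⊆ c.t.mt j'.1.1) :
    (RN c lb cd Z n).tp n p m x j = (RN c lb cd Z n).tp n p m' x' j' ↔
      ixp c p (lb p (pm c.t p m j.1.1) j.1.1) (pm c.t p m j.1.1) m.2 x j =
        ixp c p (lb p (pm c.t p m' j'.1.1) j'.1.1) (pm c.t p m' j'.1.1) m'.2 x' j' ∧
      cd p (pm c.t p m j.1.1) j.1.1 = cd p (pm c.t p m' j'.1.1) j'.1.1 ∧
      (cd p (pm c.t p m j.1.1) j.1.1 ≠ 0 → ∀ s : ℕ, s.Prime → s ≤ p →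
        Z (cd p (pm c.t p m j.1.1) j.1.1) < (s : ℝ) →
          vex s (pm c.t p m j.1.1) j.1.1 = vex s (pm c.t p m' j'.1.1) j'.1.1) := by
  rw [Rule.tp_iff hp hp (RN_le hp _ _ _ _) (RN_le hp _ _ _ _)]
  have e : ∀ (M M' : Finset ℕ), M ⊆ c.t.mt j.1.1 → M' ⊆ c.t.mt j'.1.1 →
      ((RN c lb cd Z n).it p M m.2 x j = (RN c lb cd Z n).it p M' m'.2 x' j' ↔
      (ixp c p (lb p M j.1.1) M m.2 x j = ixp c p (lb p M' j'.1.1) M' m'.2 x' j' ∧
        nm Z p M j.1.1 (cd p M j.1.1) = nm Z p M' j'.1.1 (cd p M' j'.1.1))) := by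
    intro M M' hM hM'
    unfold Rule.it
    rw [RN_tg hM, RN_tg hM', Prod.ext_iff]
    rfl
  rw [e _ _ hj hj']
  refine and_congr_right fun _ => ?_
  constructor
  · exact nm_inj h2
  · rintro ⟨h3, h4⟩
    rw [← h3]
    exact nm_congr h4

end rule

/-! ### contexts -/

section ctx
open Crest.Agent.R4P.Skel189 Crest.Agent.R4P.Frame758
open Crest.Agent.R4.Soft104 Crest.Agent.R4.Fam464
open Crest.Agent.R4P.StratX36 Crest.Agent.R4P.TopX36
open Crest.Agent.R4P.GWa343 Crest.Agent.R4P.GWb343 Crest.Agent.R4P.GWc343 Crest.Agent.R4P.GWf343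
open Crest.Agent.R4P.GWg343 (FX ctx_BI)
open Crest.Agent.R4P.TrR343
open Crest.Agent.R4P.Walk560 (DT WrN)

variable {N : Skel189.Num} {γ : ℝ} {p0 P₀ : ℕ} {X : Ctx N γ p0 P₀} {Q : NS → IT → Prop}
  {C : ℝ} {p : ℕ} {b : Me × List (DT X.c.Lam (LbX X))} {Z : ℕ → ℝ}
  {lb : ℕ → Finset ℕ → ℕ → Option ℚ} {cd : ℕ → Finset ℕ → ℕ → ℕ}

variable (X) in
/-- **the rule in a context** -/
noncomputable abbrev RNX (lb : ℕ → Finset ℕ → ℕ → Option ℚ) (cd : ℕ → Finset ℕ → ℕ → ℕ)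
    (Z : ℕ → ℝ) : Rule X.c := RN X.c lb cd Z (Skel189.top X.S)

lemma RNX_le : p ≤ Skel189.top X.S → ∀ M T x j, (RNX X lb cd Z).tg p M T x j ≤
    (RNX X lb cd Z).K := fun h M T x j => RN_le h M T x j

lemma pm_sub {c : Cf} {m : Me} {q : ℕ} : pm c.t p m q ⊆ c.t.mt q := Finset.filter_subset _ _

/-- **(SEG, context)** -/
theorem ctx_SEGN (h2 : ∀ k, 2 ≤ Z k) {j : X.c.Lam} {x : ℝ} {m : Me} (h : RestP X p m j.1.1) :
    SEG (RNX X lb cd Z) (gR p) p (pm X.c.t p m j.1.1) Tc x j ↔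
      lb (p - 1) (Mlo X.c p j.1.1) j.1.1 ≠ lb p (Mlo X.c p j.1.1) j.1.1 ∨
        cd (p - 1) (Mlo X.c p j.1.1) j.1.1 ≠ cd p (Mlo X.c p j.1.1) j.1.1 := by
  rw [h.lo]
  exact SEG_RN h2 h.pr Mlo_sub

/-- **(MEG, context)** only N pieces have events -/
theorem ctx_MEGN (h2 : ∀ k, 2 ≤ Z k) {j : X.c.Lam} {x y : ℝ} {m : Me} (h : TieP X p m j x) :
    MEG (RNX X lb cd Z) (gT Z p (TYJ47.cnt p m.1)) p (pm X.c.t p m j.1.1)
      (pm X.c.t p (tuM p m) j.1.1) Tc x y j ↔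
    p ∈ X.c.t.mt j.1.1 ∧ ex p j.1.1 = TYJ47.cnt p m.1 ∧
      (lb p (Mlo X.c p j.1.1) j.1.1 ≠ lb p (Mhi X.c p j.1.1) j.1.1 ∨
        cd p (Mlo X.c p j.1.1) j.1.1 ≠ cd p (Mhi X.c p j.1.1) j.1.1) := by
  rcases h.side with ⟨h1, h3⟩ | ⟨h1, h3, h4⟩
  · rw [h1, h.hi]
    constructor
    · exact fun hM => absurd hM (MEG_RN_P h2 not_mem_hi Mhi_sub h3)
    · exact fun hM => absurd hM.2.1 h3
  · rw [h1, h.hi]
    have e := MEG_tieN (lb := lb) (cd := cd) (Tc := Tc) (n' := Skel189.top X.S) (x := x) (y := y)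
      h2 X.tOk h3 h4
    constructor
    · exact fun hM => ⟨h3, h4, e.1 hM⟩
    · exact fun hM => e.2 hM.2.2

/-! #### real labels -/

/-- **real label of the column** -/
noncomputable def stL (c : Cf) (p : ℕ) (_M : Finset ℕ) (q : ℕ) : Option ℚ := c.st p q

/-- **(SEG, labels of the column)** -/
theorem SEG_st (h2 : ∀ k, 2 ≤ Z k) {j : X.c.Lam} {x : ℝ} {m : Me} (h : RestP X p m j.1.1) :
    SEG (RNX X (stL X.c) cd Z) (gR p) p (pm X.c.t p m j.1.1) Tc x j ↔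
      X.c.st (p - 1) j.1.1 ≠ X.c.st p j.1.1 ∨
        cd (p - 1) (Mlo X.c p j.1.1) j.1.1 ≠ cd p (Mlo X.c p j.1.1) j.1.1 :=
  ctx_SEGN h2 h

/-- **(MEG, labels of the column)** only the code changes -/
theorem MEG_st (h2 : ∀ k, 2 ≤ Z k) {j : X.c.Lam} {x y : ℝ} {m : Me} (h : TieP X p m j x) :
    MEG (RNX X (stL X.c) cd Z) (gT Z p (TYJ47.cnt p m.1)) p (pm X.c.t p m j.1.1)
      (pm X.c.t p (tuM p m) j.1.1) Tc x y j ↔
    p ∈ X.c.t.mt j.1.1 ∧ ex p j.1.1 = TYJ47.cnt p m.1 ∧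
      cd p (Mlo X.c p j.1.1) j.1.1 ≠ cd p (Mhi X.c p j.1.1) j.1.1 := by
  rw [ctx_MEGN h2 h]
  refine and_congr_right fun _ => and_congr_right fun _ => ?_
  constructor
  · rintro (h1 | h1)
    · exact absurd rfl h1
    · exact h1
  · exact Or.inr

/-- **(SEG, labels with memory)** -/
theorem SEG_rs (h2 : ∀ k, 2 ≤ Z k) (hT : TH X) {j : X.c.Lam} {x : ℝ} {m : Me}
    (h : RestP X p m j.1.1) :
    SEG (RNX X (rs X.c) cd Z) (gR p) p (pm X.c.t p m j.1.1) Tc x j ↔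
      X.c.st (p - 1) j.1.1 ≠ low X.c p j.1.1 ∨
        cd (p - 1) (Mlo X.c p j.1.1) j.1.1 ≠ cd p (Mlo X.c p j.1.1) j.1.1 := by
  rw [ctx_SEGN h2 h, rs_dn h.pr (hT.lam _), rs_lo h.pr]

/-- **(MEG, labels with memory)** -/
theorem MEG_rs (h2 : ∀ k, 2 ≤ Z k) (hT : TH X) {j : X.c.Lam} {x y : ℝ} {m : Me}
    (h : TieP X p m j x) :
    MEG (RNX X (rs X.c) cd Z) (gT Z p (TYJ47.cnt p m.1)) p (pm X.c.t p m j.1.1)
      (pm X.c.t p (tuM p m) j.1.1) Tc x y j ↔
    p ∈ X.c.t.mt j.1.1 ∧ ex p j.1.1 = TYJ47.cnt p m.1 ∧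
      (low X.c p j.1.1 ≠ X.c.st p j.1.1 ∨
        cd p (Mlo X.c p j.1.1) j.1.1 ≠ cd p (Mhi X.c p j.1.1) j.1.1) := by
  have e1 : rs X.c p (Mlo X.c p j.1.1) j.1.1 = low X.c p j.1.1 := rs_lo h.pr
  have e2 : rs X.c p (Mhi X.c p j.1.1) j.1.1 = X.c.st p j.1.1 := rs_hi (hT.lam _)
  rw [ctx_MEGN h2 h, e1, e2]

/-- the label with memory of a piece of the rest -/
lemma rs_rest {q : ℕ} {m : Me} (h : RestP X p m q) : rs X.c p (pm X.c.t p m q) q = low X.c p q := by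
  rw [h.lo]
  exact rs_lo h.pr

/-- the label with memory of a piece above a tie -/
lemma rs_tie (hT : TH X) {j : X.c.Lam} {x : ℝ} {m : Me} (h : TieP X p m j x) :
    rs X.c p (pm X.c.t p m j.1.1) j.1.1 = X.c.st p j.1.1 := by
  rw [h.hi]
  exact rs_hi (hT.lam _)

/-! #### codes: additional information `u`, width `v` -/

/-- the code of a name with the information `u` and the width code `v` -/
def cdp (u v : ℕ) : ℕ := Nat.pair u v + 1

/-- the width of a code -/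
def Zc (W : ℕ → ℝ) (a : ℕ) : ℝ := W (Nat.unpair (a - 1)).2

lemma cdp_ne {u v : ℕ} : cdp u v ≠ 0 := Nat.succ_ne_zero _

lemma Zc_cdp {W : ℕ → ℝ} {u v : ℕ} : Zc W (cdp u v) = W v := by
  unfold Zc cdp
  rw [Nat.add_sub_cancel, Nat.unpair_pair]

lemma cdp_inj {u v u' v' : ℕ} (h : cdp u v = cdp u' v') : u = u' ∧ v = v' := by
  have h1 : Nat.pair u v = Nat.pair u' v' := Nat.succ_injective h
  exact Nat.pair_eq_pair.1 h1

lemma two_le_Zc {W : ℕ → ℝ} (h : ∀ v, 2 ≤ W v) (a : ℕ) : 2 ≤ Zc W a := h _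

section codes
variable {c : Cf} {q q' : ℕ} {M M' : Finset ℕ} {pl : ℕ → Finset ℕ → ℚ → Prop} {vb : ℕ → ℕ}
  {pd zn : ℕ → Finset ℕ → ℕ → Prop} {W : ℕ → ℝ}

open Classical in
/-- **base code** : plain iff the real label `κ` of the column is plain (`pl p M κ`) -/
noncomputable def cdB (c : Cf) (pl : ℕ → Finset ℕ → ℚ → Prop) (vb : ℕ → ℕ) (p : ℕ)
    (M : Finset ℕ) (q : ℕ) : ℕ :=
  if ∃ κ : ℚ, c.st p q = some κ ∧ pl p M κ then 0 else cdp 0 (vb p)

open Classical in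
/-- **the code** : the base code; if the state with memory is not the state of the column (N pieces whose
real state changes below their own tie) and `pd` holds: the name `pending` -/
noncomputable def cdA (c : Cf) (pl : ℕ → Finset ℕ → ℚ → Prop) (pd : ℕ → Finset ℕ → ℕ → Prop)
    (vb : ℕ → ℕ) (p : ℕ) (M : Finset ℕ) (q : ℕ) : ℕ :=
  if rs c p M q ≠ c.st p q ∧ pd p M q then cdp 1 (vb p) else cdB c pl vb p M q

/-- **pending pieces**: a name above the tie, not in the zone -/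
def pdZ (c : Cf) (pl : ℕ → Finset ℕ → ℚ → Prop) (vb : ℕ → ℕ) (zn : ℕ → Finset ℕ → ℕ → Prop)
    (p : ℕ) (M : Finset ℕ) (q : ℕ) : Prop :=
  cdB c pl vb p (M.erase p) q ≠ 0 ∧ ¬ zn p M q

lemma cdB_zero : cdB c pl vb p M q = 0 ↔ ∃ κ : ℚ, c.st p q = some κ ∧ pl p M κ := by
  unfold cdB
  split_ifs with h
  · exact ⟨fun _ => h, fun _ => rfl⟩
  · exact ⟨fun h1 => absurd h1 cdp_ne, fun h1 => absurd h1 h⟩

lemma cdB_some {κ : ℚ} (h : c.st p q = some κ) : cdB c pl vb p M q = 0 ↔ pl p M κ := by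
  rw [cdB_zero]
  constructor
  · rintro ⟨κ', h1, h2⟩
    rw [h] at h1
    rw [Option.some.inj h1]
    exact h2
  · exact fun h1 => ⟨κ, h, h1⟩

lemma cdB_or : cdB c pl vb p M q = 0 ∨ cdB c pl vb p M q = cdp 0 (vb p) := by
  unfold cdB
  split_ifs
  · exact Or.inl rfl
  · exact Or.inr rfl

lemma cdA_eq (h : rs c p M q = c.st p q) : cdA c pl pd vb p M q = cdB c pl vb p M q :=
  if_neg fun h1 => h1.1 h

lemma cdA_not (h : ¬ pd p M q) : cdA c pl pd vb p M q = cdB c pl vb p M q :=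
  if_neg fun h1 => h h1.2

lemma cdA_off (h : ¬ (rs c p M q ≠ c.st p q ∧ pd p M q)) :
    cdA c pl pd vb p M q = cdB c pl vb p M q := if_neg h

lemma cdA_ne (h : rs c p M q ≠ c.st p q ∧ pd p M q) : cdA c pl pd vb p M q = cdp 1 (vb p) :=
  if_pos h

lemma cdp1_ne_cdB {v p' q' : ℕ} {M' : Finset ℕ} : cdp 1 v ≠ cdB c pl vb p' M' q' := by
  rcases cdB_or (c := c) (pl := pl) (vb := vb) (p := p') (M := M') (q := q') with e | e
  · rw [e]
    exact cdp_ne
  · rw [e]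
    intro h1
    exact absurd (cdp_inj h1).1 (Nat.succ_ne_zero _)

lemma cdA_ne_cdB (h : rs c p M q ≠ c.st p q ∧ pd p M q) {p' q' : ℕ} {M' : Finset ℕ} :
    cdA c pl pd vb p M q ≠ cdB c pl vb p' M' q' := by
  rw [cdA_ne h]
  exact cdp1_ne_cdB

/-- **equal codes** : pending on both sides, or on no side and equal base codes -/
theorem cdA_inj (h : cdA c pl pd vb p M q = cdA c pl pd vb p M' q') :
    (¬ (rs c p M q ≠ c.st p q ∧ pd p M q) ∧ ¬ (rs c p M' q' ≠ c.st p q' ∧ pd p M' q') ∧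
        cdB c pl vb p M q = cdB c pl vb p M' q') ∨
      ((rs c p M q ≠ c.st p q ∧ pd p M q) ∧ (rs c p M' q' ≠ c.st p q' ∧ pd p M' q')) := by
  by_cases h1 : rs c p M q ≠ c.st p q ∧ pd p M q <;>
    by_cases h2 : rs c p M' q' ≠ c.st p q' ∧ pd p M' q'
  · exact Or.inr ⟨h1, h2⟩
  · rw [cdA_off h2] at h
    exact absurd h (cdA_ne_cdB h1)
  · rw [cdA_off h1] at h
    exact absurd h.symm (cdA_ne_cdB h2)
  · rw [cdA_off h1, cdA_off h2] at h
    exact Or.inl ⟨h1, h2, h⟩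

/-- the width of the code of a named piece -/
lemma Zc_cdA (h : cdA c pl pd vb p M q ≠ 0) : Zc W (cdA c pl pd vb p M q) = W (vb p) := by
  by_cases h1 : rs c p M q ≠ c.st p q ∧ pd p M q
  · rw [cdA_ne h1, Zc_cdp]
  · rw [cdA_off h1] at h ⊢
    rcases cdB_or (c := c) (pl := pl) (vb := vb) (p := p) (M := M) (q := q) with e | e
    · exact absurd e h
    · rw [e, Zc_cdp]

end codes

section ruleA
variable {pl : ℕ → Finset ℕ → ℚ → Prop} {pd zn : ℕ → Finset ℕ → ℕ → Prop} {vb : ℕ → ℕ} {W : ℕ → ℝ}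

variable (X) in
/-- **the rule** : real label of the column, code `cdA` -/
noncomputable abbrev RAX (pl : ℕ → Finset ℕ → ℚ → Prop) (pd : ℕ → Finset ℕ → ℕ → Prop)
    (vb : ℕ → ℕ) (W : ℕ → ℝ) : Rule X.c :=
  RNX X (stL X.c) (cdA X.c pl pd vb) (Zc W)

variable (X) in
/-- **pending**: the real state of the item changes below its own missing tie `p`, and `pd` -/
def Pnd (pd : ℕ → Finset ℕ → ℕ → Prop) (p q : ℕ) : Prop :=
  low X.c p q ≠ X.c.st p q ∧ pd p (Mlo X.c p q) q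

lemma pnd_iff (hp : 0 < p) {q : ℕ} :
    (rs X.c p (Mlo X.c p q) q ≠ X.c.st p q ∧ pd p (Mlo X.c p q) q) ↔ Pnd X pd p q := by
  rw [rs_lo hp]
  rfl

lemma cdA_lo (hp : 0 < p) {q : ℕ} (h : ¬ Pnd X pd p q) :
    cdA X.c pl pd vb p (Mlo X.c p q) q = cdB X.c pl vb p (Mlo X.c p q) q :=
  cdA_off fun h1 => h ((pnd_iff hp).1 h1)

lemma cdA_lo' (hp : 0 < p) {q : ℕ} (h : Pnd X pd p q) :
    cdA X.c pl pd vb p (Mlo X.c p q) q = cdp 1 (vb p) := cdA_ne ((pnd_iff hp).2 h)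

lemma cdA_hi (hT : TH X) {q : ℕ} :
    cdA X.c pl pd vb p (Mhi X.c p q) q = cdB X.c pl vb p (Mhi X.c p q) q :=
  cdA_eq (rs_hi (hT.lam _))

lemma cdA_dn (hT : TH X) (hp : 0 < p) {q : ℕ} :
    cdA X.c pl pd vb (p - 1) (Mlo X.c p q) q = cdB X.c pl vb (p - 1) (Mlo X.c p q) q :=
  cdA_eq (rs_dn hp (hT.lam _))

/-- **(SEG)** static events: pending pieces (always), or the real state of the column changes, or the base
code changes -/
theorem SEG_A (h2 : ∀ v, 2 ≤ W v) (hT : TH X) {j : X.c.Lam} {x : ℝ} {m : Me}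
    (h : RestP X p m j.1.1) :
    SEG (RAX X pl pd vb W) (gR p) p (pm X.c.t p m j.1.1) Tc x j ↔
      Pnd X pd p j.1.1 ∨ (¬ Pnd X pd p j.1.1 ∧
        (X.c.st (p - 1) j.1.1 ≠ X.c.st p j.1.1 ∨
          cdB X.c pl vb (p - 1) (Mlo X.c p j.1.1) j.1.1 ≠
            cdB X.c pl vb p (Mlo X.c p j.1.1) j.1.1)) := by
  rw [SEG_st (two_le_Zc h2) h, cdA_dn hT h.pr]
  by_cases e : Pnd X pd p j.1.1
  · rw [cdA_lo' h.pr e]
    constructor
    · exact fun _ => Or.inl e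
    · exact fun _ => Or.inr fun h1 => cdp1_ne_cdB h1.symm
  · rw [cdA_lo h.pr e]
    constructor
    · exact fun h1 => Or.inr ⟨e, h1⟩
    · rintro (h1 | h1)
      · exact absurd h1 e
      · exact h1.2

/-- **(MEG)** events of the ties: pending N pieces, or the base code changes -/
theorem MEG_A (h2 : ∀ v, 2 ≤ W v) (hT : TH X) {j : X.c.Lam} {x y : ℝ} {m : Me}
    (h : TieP X p m j x) :
    MEG (RAX X pl pd vb W) (gT (Zc W) p (TYJ47.cnt p m.1)) p (pm X.c.t p m j.1.1)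
      (pm X.c.t p (tuM p m) j.1.1) Tc x y j ↔
    p ∈ X.c.t.mt j.1.1 ∧ ex p j.1.1 = TYJ47.cnt p m.1 ∧
      (Pnd X pd p j.1.1 ∨ (¬ Pnd X pd p j.1.1 ∧
        cdB X.c pl vb p (Mlo X.c p j.1.1) j.1.1 ≠ cdB X.c pl vb p (Mhi X.c p j.1.1) j.1.1)) := by
  rw [MEG_st (two_le_Zc h2) h, cdA_hi hT]
  refine and_congr_right fun _ => and_congr_right fun _ => ?_
  by_cases e : Pnd X pd p j.1.1
  · rw [cdA_lo' h.pr e]
    constructor
    · exact fun _ => Or.inl e
    · exact fun _ => cdp1_ne_cdB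
  · rw [cdA_lo h.pr e]
    constructor
    · exact fun h1 => Or.inr ⟨e, h1⟩
    · rintro (h1 | h1)
      · exact absurd h1 e
      · exact h1.2

lemma Mlo_erase {q : ℕ} : (Mlo X.c p q).erase p = Mhi X.c p q := by
  ext s
  rw [Finset.mem_erase]
  constructor
  · rintro ⟨h1, h3⟩
    exact (lo_iff_hi h1).1 h3
  · intro h3
    have h1 : s ≠ p := fun e => not_mem_hi (e ▸ h3)
    exact ⟨h1, (lo_iff_hi h1).2 h3⟩

/-- **pending pieces of `pdZ`** : a name above the tie, not in the zone -/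
lemma Pnd_Z {q : ℕ} : Pnd X (pdZ X.c pl vb zn) p q ↔ low X.c p q ≠ X.c.st p q ∧
    cdB X.c pl vb p (Mhi X.c p q) q ≠ 0 ∧ ¬ zn p (Mlo X.c p q) q := by
  unfold Pnd pdZ
  rw [Mlo_erase]

/-- the state with memory is the state of the column for the pieces which do not miss the column -/
lemma low_nm (hT : TH X) (hp : 0 < p) {q : ℕ} (h : p ∉ X.c.t.mt q) : low X.c p q = X.c.st p q := by
  have e : Mlo X.c p q = Mhi X.c p q := by
    refine Finset.filter_congr fun s hs => ?_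
    constructor
    · intro h1
      exact lt_of_le_of_ne h1 fun e => h (e ▸ hs)
    · exact le_of_lt
  rw [← rs_lo hp, ← rs_hi (hT.lam p)]
  show rs X.c p (Mlo X.c p q) q = rs X.c p (Mhi X.c p q) q
  rw [e]

end ruleA

end ctx

end Crest.Agent.R4P.RuN9
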