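import Crest.Agent.R4P.UU4_24
import Crest.Agent.R4P.StJ_6

/-!
R4 (S0004), powers pass, helper24: **`UU4.tieU` with the rates cut to a set `S` of the items**.

* `tie_uuO` : `UU3.tie_uuM` with the masses of the items which occur in the relation only.
* **`tieS`** : `S` a set of pieces which depends on the item only (`sdX` and not `flg`), `W` inside `S x S` :
  `I (qe W (vN u) (vN u')) ≤ lin (cut S (log p)^(-s)) (vN u) + lin (cut S (log p)^(-s)) (vN u')`.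
* `lin_cut` : rates `cut P (cut Q a)`, `cut` to a smaller set.
-/

set_option autoImplicit false
set_option linter.unusedSectionVars false
set_option linter.unusedVariables false
open MeasureTheory Filter Set

namespace Crest.Agent.R4P.UU5

open Crest.Agent.R4.Tour104 Crest.Agent.R4.Tour758 Crest.Agent.R4.Avg758 Crest.Agent.R4.Clos758
open Crest.Agent.R4P.Cnt588 Crest.Agent.R4P.Item758 Crest.Agent.R4P.W363
open Crest.Agent.R4P.Data758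
open Crest.Agent.R4P.Bld532 (NS All NodeOk Bk)
open Crest.Agent.R4P.WalkIT579 (tp isL nodeOk_hi)
open Crest.Agent.R4P.StratN36 (ex)
open Crest.Agent.R4P.Step588 Crest.Agent.R4P.RseSt23
open Crest.Agent.R4P.DTp26 Crest.Agent.R4P.DTm407
open Crest.Agent.R4P.TYI47 Crest.Agent.R4P.TYJ47 Crest.Agent.R4P.TYK47
open Crest.Agent.R4P.TYP9 Crest.Agent.R4P.RsT47
open Crest.Agent.R4P.Walk560 (DT)
open Crest.Agent.R4P.Skel189 Crest.Agent.R4P.Frame758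
open Crest.Agent.R4.Soft104 (w)
open Crest.Agent.R4.Fam464
open Crest.Agent.R4P.StratX36 hiding mm
open Crest.Agent.R4P.TopX36
open Crest.Agent.R4P.GWa343 Crest.Agent.R4P.GWb343 Crest.Agent.R4P.GWc343 Crest.Agent.R4P.GWf343
open Crest.Agent.R4P.TrR343 Crest.Agent.R4P.XEx29
open Crest.Agent.R4P.CrZ41
open Crest.Agent.R4P.E3X479 Crest.Agent.R4P.E3Y479
open Crest.Agent.R4P.GPair33 (vN PB_vN_inl)
open Crest.Agent.R4.HVW560 (cof)
open Crest.Agent.R4P.RseNd23 (NF RseH wA)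
open Crest.Agent.R4P.SameIx30 (UN RB)
open Crest.Agent.R4P.UU3 (M2X mN ocI sum_MI_le tie_uu)
open Crest.Agent.R4P.XmM18 (MI MI_nonneg)
open Crest.Agent.R4P.UU4 (rm wq Nc)
open Crest.Agent.R4P.E3V479 (qe)
open Crest.Agent.R4P.StJ6 (FMon flg)

/-- a cut of a cut -/
lemma cut_cut {Λ : Type} (P R : Λ → Prop) (a : Λ → ℝ → ℝ) :
    cut P (cut R a) = cut (fun j => P j ∧ R j) a := by
  funext j y
  unfold cut
  by_cases h1 : P j <;> by_cases h2 : R j <;> simp [h1, h2]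

section ctx
variable {N : Skel189.Num} {γ : ℝ} {p0 P₀ : ℕ} {X : Ctx N γ p0 P₀} {p : ℕ} {m : Me}

/-- **pairs of N pieces without label, masses of the items which occur**: `K = (log p)^(s+2)` -/
theorem tie_uuO (N : Skel189.Num) {s : ℝ} (hs : 0 ≤ s) : ∃ p₁ : ℕ, ∀ p0 ≥ p₁, ∀ (γ : ℝ) (P₀ : ℕ),
    2 ≤ P₀ → ∀ X : Ctx N γ p0 P₀, RseH X → ∀ {p : ℕ} {u u' : NS} {Sp Sp' : Finset ℕ}
    {t₁ t₀ t₁' t₀' : IT}, All (NF X) u (.br p Sp t₁ t₀) → All (NF X) u' (.br p Sp' t₁' t₀') →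
    M2X X u (.br p Sp t₁ t₀) → M2X X u' (.br p Sp' t₁' t₀') →
    u.A * u.B = u'.A * u'.B → ∀ R : Finset (X.c.Lam × X.c.Lam), UN X p R →
    (∀ x ∈ R, x.1.1.1 ∈ t₀.items ∧ x.2.1.1 ∈ t₀'.items) →
    (∀ x ∈ R, Real.log p ^ (s + 2) ≤ (cof (x.1.1.1 / u.A) (x.2.1.1 / u'.A) : ℕ) ∨
      Real.log p ^ (s + 2) ≤ (cof (x.2.1.1 / u'.A) (x.1.1.1 / u.A) : ℕ) ∨
      Real.log p ^ (s + 2) * RB X u x.1.1.1 ≤ RB X u' x.2.1.1 ∨
      Real.log p ^ (s + 2) * RB X u' x.2.1.1 ≤ RB X u x.1.1.1) →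
    Q R (vN X (.inl (u, .br p Sp t₁ t₀))) (vN X (.inl (u', .br p Sp' t₁' t₀'))) ≤
      Real.log p ^ (-s) * (mN X u (.br p Sp t₁ t₀) (ocI X (R.image Prod.fst) t₀.items) +
        mN X u' (.br p Sp' t₁' t₀') (ocI X (R.image Prod.snd) t₀'.items)) := by
  classical
  have hCT := Step588.CT_pos
  obtain ⟨p1, h1⟩ := tie_uu N (s + 1)
  have hlog : Filter.Tendsto (fun n : ℕ => Real.log (n : ℝ)) Filter.atTop Filter.atTop :=
    Real.tendsto_log_atTop.comp tendsto_natCast_atTop_atTop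
  obtain ⟨p2, h2⟩ := Filter.eventually_atTop.1
    (hlog.eventually (Filter.eventually_ge_atTop (2 * (1 + 24 * CT) + 1)))
  refine ⟨p1 + p2, fun p0 hp0 γ P₀ hP₀ X hX p u u' Sp Sp' t₁ t₀ t₁' t₀' hA hA' hm hm' hT R hR hRN
    hRK => ?_⟩
  have h := hA.self.nd
  have h' := hA'.self.nd
  obtain ⟨-, g2, -, -⟩ := nodeOk_hi h.self.node (show ¬ isL (.br p Sp t₁ t₀) from fun h => h)
  have hp : p0 < p := g2
  have hl2 := h2 p (by omega)
  set ℓ := Real.log (p:ℝ) with hℓ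
  have hℓ0 : 0 < ℓ := by linarith
  have hK : 0 < ℓ ^ (s + 2) := Real.rpow_pos_of_pos hℓ0 _
  have key := h1 p0 (by omega) γ P₀ hP₀ X hX hA hA' hT hK R hR hRN hRK
  set a := ∑ q ∈ ocI X (R.image Prod.fst) t₀.items, wA u.A (RB X u) q with ha
  set a' := ∑ q ∈ ocI X (R.image Prod.snd) t₀'.items, wA u'.A (RB X u') q with ha'
  set b := mN X u (.br p Sp t₁ t₀) (ocI X (R.image Prod.fst) t₀.items) with hb
  set b' := mN X u' (.br p Sp' t₁' t₀') (ocI X (R.image Prod.snd) t₀'.items) with hb'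
  have hab : a ≤ 2 * b := by
    calc a ≤ ∑ q ∈ ocI X (R.image Prod.fst) t₀.items, 2 * MI X u (.br p Sp t₁ t₀) q :=
          Finset.sum_le_sum fun q hq => by
            obtain ⟨a1, a2, -⟩ := Finset.mem_filter.1 hq
            exact hm q a2 (Finset.mem_union_right _ a1)
      _ = 2 * ∑ q ∈ ocI X (R.image Prod.fst) t₀.items, MI X u (.br p Sp t₁ t₀) q := by
          rw [Finset.mul_sum]
      _ ≤ 2 * b := mul_le_mul_of_nonneg_left (sum_MI_le h (Finset.Subset.refl _)) (by norm_num)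
  have hab' : a' ≤ 2 * b' := by
    calc a' ≤ ∑ q ∈ ocI X (R.image Prod.snd) t₀'.items, 2 * MI X u' (.br p Sp' t₁' t₀') q :=
          Finset.sum_le_sum fun q hq => by
            obtain ⟨a1, a2, -⟩ := Finset.mem_filter.1 hq
            exact hm' q a2 (Finset.mem_union_right _ a1)
      _ = 2 * ∑ q ∈ ocI X (R.image Prod.snd) t₀'.items, MI X u' (.br p Sp' t₁' t₀') q := by
          rw [Finset.mul_sum]
      _ ≤ 2 * b' := mul_le_mul_of_nonneg_left (sum_MI_le h' (Finset.Subset.refl _)) (by norm_num)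
  have hb0 : 0 ≤ b := Finset.sum_nonneg fun j _ => I_nonneg fun y => (PB_vN_inl h j).nonneg y
  have hb0' : 0 ≤ b' := Finset.sum_nonneg fun j _ => I_nonneg fun y => (PB_vN_inl h' j).nonneg y
  have e1 : ℓ ^ (-(s + 1)) = ℓ ^ (-s) * ℓ⁻¹ := by
    rw [← Real.rpow_neg_one ℓ, ← Real.rpow_add hℓ0]
    congr 1
    ring
  have e2 : 6 * (4 * CT * ℓ / ℓ ^ (s + 2)) = 24 * CT * (ℓ ^ (-s) * ℓ⁻¹) := by
    have e3 : ℓ ^ (s + 2) = ℓ ^ s * ℓ ^ 2 := by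
      rw [Real.rpow_add hℓ0]
      norm_num
    rw [e3, Real.rpow_neg hℓ0.le]
    have h5 : ℓ ^ s ≠ 0 := (Real.rpow_pos_of_pos hℓ0 _).ne'
    field_simp
    ring
  have hs0 : 0 ≤ ℓ ^ (-s) := Real.rpow_nonneg hℓ0.le _
  have e4 : (1 + 24 * CT) * ℓ⁻¹ ≤ 1 / 2 := by
    rw [← div_eq_mul_inv, div_le_iff₀ hℓ0]
    linarith
  calc _ ≤ (ℓ ^ (-(s + 1)) + 6 * (4 * CT * ℓ / ℓ ^ (s + 2))) * (a + a') := key
    _ = ℓ ^ (-s) * ((1 + 24 * CT) * ℓ⁻¹) * (a + a') := by rw [e1, e2]; ring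
    _ ≤ ℓ ^ (-s) * ((1 + 24 * CT) * ℓ⁻¹) * (2 * (b + b')) := by
        apply mul_le_mul_of_nonneg_left (by linarith)
        positivity
    _ ≤ ℓ ^ (-s) * (1 / 2) * (2 * (b + b')) := by
        apply mul_le_mul_of_nonneg_right _ (by positivity)
        exact mul_le_mul_of_nonneg_left e4 hs0
    _ = _ := by ring

/-- **N pieces without label of two ties, rates cut to a set of the items** -/
theorem tieS (N : Skel189.Num) {s : ℝ} (hs : 0 ≤ s) : ∃ p₁ : ℕ, ∀ p0 ≥ p₁, ∀ (γ : ℝ) (P₀ : ℕ),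
    2 ≤ P₀ → ∀ X : Ctx N γ p0 P₀, RseH X → ∀ {Qn : NS → IT → Prop},
    (∀ u τ, Qn u τ → NF X u τ) → (∀ u τ, Qn u τ → M2X X u τ) →
    ∀ {p : ℕ} {m : Me} {u : NS} {Sp : Finset ℕ} {t₁ t₀ : IT} {u' : NS} {Sp' : Finset ℕ}
    {t₁' t₀' : IT}, RtX X Qn p m u (.br p Sp t₁ t₀) → RtX X Qn p m u' (.br p Sp' t₁' t₀') →
    ∀ {S : X.c.Lam → Prop}, (∀ j j' : X.c.Lam, j.1.1 = j'.1.1 → S j → S j') →
    ∀ {W : ℝ → X.c.Lam → X.c.Lam → Prop}, (∀ j i, MP fun x => W x j i) →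
    (∀ x j i, W x j i → (S j ∧ S i) ∧ (sdX X p m j ∧ sdX X p m i) ∧
      (X.c.world p j.1).1 = (X.c.world p i.1).1 ∧ X.c.st p j.1.1 = none ∧
      Nc X (Real.log p ^ (s + 2)) p m j i) →
    I (qe W (vN X (.inl (u, .br p Sp t₁ t₀))) (vN X (.inl (u', .br p Sp' t₁' t₀')))) ≤
      lin (cut S fun _ _ => Real.log p ^ (-s)) (vN X (.inl (u, .br p Sp t₁ t₀))) +
      lin (cut S fun _ _ => Real.log p ^ (-s)) (vN X (.inl (u', .br p Sp' t₁' t₀'))) := by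
  classical
  obtain ⟨p1, h1⟩ := tie_uuO N hs
  refine ⟨p1, fun p0 hp0 γ P₀ hP₀ X hX Qn hF hM2 p m u Sp t₁ t₀ u' Sp' t₁' t₀' hu hu' S hS W mW
    hW => ?_⟩
  have hA := hu.1.rm.all.mono hF
  have hA' := hu'.1.rm.all.mono hF
  have hQ : ∀ u τ, Qn u τ → NDt X.par (w X.ψ) X.c.t u τ := fun u τ h => (hF u τ h).nd
  have n1 := hQ _ _ hu.1.rm.all.self
  have n1' := hQ _ _ hu'.1.rm.all.self
  have pV := fun j => PB_vN_inl n1 j
  have pV' := fun j => PB_vN_inl n1' j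
  -- the pieces of a relation
  have side : ∀ {v : NS} {S : Finset ℕ} {s₁ s₀ : IT}, RtX X Qn p m v (.br p S s₁ s₀) →
      ∀ j x, vN X (.inl (v, .br p S s₁ s₀)) j x ≠ 0 → sdX X p m j → j.1.1 ∈ s₀.items := by
    intro v S s₁ s₀ hv j x hj hsd
    have h3 := (ctx_supp (hQ _ _ hv.1.rm.all.self) (j := j) (x := x) (by
      rw [val_v (hQ _ _ hv.1.rm.all.self) j]; exact hj)).1
    rcases Finset.mem_union.1 h3 with h4 | h4
    · exfalso
      have h5 := ex_P hQ hv h4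
      unfold sdX at hsd
      omega
    · exact h4
  set R : Finset (X.c.Lam × X.c.Lam) := Finset.univ.filter fun e : X.c.Lam × X.c.Lam =>
    ∃ x, W x e.1 e.2 ∧ vN X (.inl (u, .br p Sp t₁ t₀)) e.1 x ≠ 0 ∧
      vN X (.inl (u', .br p Sp' t₁' t₀')) e.2 x ≠ 0 with hR
  have k0 := qe_Q mW pV pV'
  have mR : ∀ e ∈ R, ∃ x, W x e.1 e.2 ∧ vN X (.inl (u, .br p Sp t₁ t₀)) e.1 x ≠ 0 ∧
      vN X (.inl (u', .br p Sp' t₁' t₀')) e.2 x ≠ 0 := fun e he => (Finset.mem_filter.1 he).2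
  have hUN : UN X p R := ⟨fun e he => by
      obtain ⟨x, hx, -⟩ := mR e he
      exact (hW x _ _ hx).2.2.1, fun e he => by
      obtain ⟨x, hx, -⟩ := mR e he
      exact (hW x _ _ hx).2.2.2.1⟩
  have hI : ∀ e ∈ R, e.1.1.1 ∈ t₀.items ∧ e.2.1.1 ∈ t₀'.items := fun e he => by
    obtain ⟨x, hx, a1, a2⟩ := mR e he
    obtain ⟨-, ⟨b1, b2⟩, -⟩ := hW x _ _ hx
    exact ⟨side hu _ x a1 b1, side hu' _ x a2 b2⟩
  have wE : ∀ {v : NS} {S : Finset ℕ} {s₁ s₀ : IT}, RtX X Qn p m v (.br p S s₁ s₀) →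
      ∀ j : X.c.Lam, j.1.1 ∈ s₀.items → wq X p m j = j.1.1 / v.A ∧
        rm X p m j = SameIx30.RB X v j.1.1 := by
    intro v S s₁ s₀ hv j hj
    have hj' : j.1.1 ∈ (IT.br p S s₁ s₀).items := Finset.mem_union_right _ hj
    refine ⟨hv.1.w_eq hQ X.tOk hj', ?_⟩
    unfold rm
    rw [hv.1.B_eq hQ X.tOk hj']
  have hN : ∀ e ∈ R, Real.log p ^ (s + 2) ≤ (cof (e.1.1.1 / u.A) (e.2.1.1 / u'.A) : ℕ) ∨
      Real.log p ^ (s + 2) ≤ (cof (e.2.1.1 / u'.A) (e.1.1.1 / u.A) : ℕ) ∨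
      Real.log p ^ (s + 2) * SameIx30.RB X u e.1.1.1 ≤ SameIx30.RB X u' e.2.1.1 ∨
      Real.log p ^ (s + 2) * SameIx30.RB X u' e.2.1.1 ≤ SameIx30.RB X u e.1.1.1 := by
    intro e he
    obtain ⟨x, hx, -⟩ := mR e he
    have h4 := (hW x _ _ hx).2.2.2.2
    obtain ⟨i1, i2⟩ := hI e he
    obtain ⟨a1, a2⟩ := wE hu e.1 i1
    obtain ⟨b1, b2⟩ := wE hu' e.2 i2
    unfold Nc at h4
    rw [a1, a2, b1, b2] at h4
    exact h4
  have key := h1 p0 hp0 γ P₀ hP₀ X hX hA hA' (hu.1.rm.all.self |> hM2 _ _)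
    (hu'.1.rm.all.self |> hM2 _ _) (by rw [hu.1.T, hu'.1.T]) R hUN hI hN
  refine k0.trans (key.trans ?_)
  -- masses
  have hl0 : (0:ℝ) ≤ Real.log p ^ (-s) := Real.rpow_nonneg (Real.log_natCast_nonneg p) _
  have ms : ∀ {v : NS} {S' : Finset ℕ} {s₁ s₀ : IT}, RtX X Qn p m v (.br p S' s₁ s₀) →
      ∀ T : Finset ℕ, (∀ j : X.c.Lam, j.1.1 ∈ T → S j) →
      Real.log p ^ (-s) * mN X v (.br p S' s₁ s₀) T ≤
        lin (cut S fun _ _ => Real.log p ^ (-s)) (vN X (.inl (v, .br p S' s₁ s₀))) := by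
    intro v S' s₁ s₀ hv T hT
    unfold lin mN
    rw [Finset.mul_sum, Finset.sum_filter]
    refine Finset.sum_le_sum fun j _ => ?_
    have pj := PB_vN_inl (hQ _ _ hv.1.rm.all.self) j
    by_cases hj : j.1.1 ∈ T
    · rw [if_pos hj, ← I_smul]
      refine le_of_eq ?_
      have h6 : S j := hT j hj
      have e : cut S (fun _ _ => Real.log (p:ℝ) ^ (-s)) j =
        fun _ => Real.log (p:ℝ) ^ (-s) := funext fun y => if_pos h6
      rw [e]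
    · rw [if_neg hj]
      exact I_nonneg fun x => mul_nonneg ((PB_cut (fun _ => PB.const hl0) j).nonneg x)
        (pj.nonneg x)
  rw [mul_add]
  refine add_le_add (ms hu _ fun j hj => ?_) (ms hu' _ fun j hj => ?_)
  · obtain ⟨-, -, j', hj', e⟩ := Finset.mem_filter.1 hj
    obtain ⟨x, hx, rfl⟩ := Finset.mem_image.1 hj'
    obtain ⟨y, hy, -⟩ := mR x hx
    exact hS _ _ e (hW y _ _ hy).1.1
  · obtain ⟨-, -, j', hj', e⟩ := Finset.mem_filter.1 hj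
    obtain ⟨x, hx, rfl⟩ := Finset.mem_image.1 hj'
    obtain ⟨y, hy, -⟩ := mR x hx
    exact hS _ _ e (hW y _ _ hy).1.2

/-- `sdX` and not `flg` : a set of the items -/
lemma sdf_item {F : ℕ → Finset ℕ → Prop} {j j' : X.c.Lam} (e : j.1.1 = j'.1.1)
    (h : sdX X p m j ∧ ¬ flg F X.c p j.1.1) : sdX X p m j' ∧ ¬ flg F X.c p j'.1.1 := by
  unfold sdX at h ⊢
  rw [← e]
  exact h

/-- **N pieces without label and flag of two ties** : the field `E3Y479.JIn.tie` for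
`r := cut (not flg) (log p)^(-s)` -/
theorem tieSf (N : Skel189.Num) {s : ℝ} (hs : 0 ≤ s) : ∃ p₁ : ℕ, ∀ p0 ≥ p₁, ∀ (γ : ℝ) (P₀ : ℕ),
    2 ≤ P₀ → ∀ X : Ctx N γ p0 P₀, RseH X → ∀ {Qn : NS → IT → Prop},
    (∀ u τ, Qn u τ → NF X u τ) → (∀ u τ, Qn u τ → M2X X u τ) →
    ∀ {F : ℕ → Finset ℕ → Prop} {p : ℕ} {m : Me} {u : NS} {Sp : Finset ℕ} {t₁ t₀ : IT} {u' : NS}
    {Sp' : Finset ℕ} {t₁' t₀' : IT}, RtX X Qn p m u (.br p Sp t₁ t₀) →
    RtX X Qn p m u' (.br p Sp' t₁' t₀') →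
    ∀ {W : ℝ → X.c.Lam → X.c.Lam → Prop}, (∀ j i, MP fun x => W x j i) →
    (∀ x j i, W x j i → (sdX X p m j ∧ sdX X p m i) ∧
      (¬ flg F X.c p j.1.1 ∧ ¬ flg F X.c p i.1.1) ∧
      (X.c.world p j.1).1 = (X.c.world p i.1).1 ∧ X.c.st p j.1.1 = none ∧
      Nc X (Real.log p ^ (s + 2)) p m j i) →
    I (qe W (vN X (.inl (u, .br p Sp t₁ t₀))) (vN X (.inl (u', .br p Sp' t₁' t₀')))) ≤
      lin (cut (sdX X p m) (cut (fun j : X.c.Lam => ¬ flg F X.c p j.1.1)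
        fun _ _ => Real.log p ^ (-s))) (vN X (.inl (u, .br p Sp t₁ t₀))) +
      lin (cut (sdX X p m) (cut (fun j : X.c.Lam => ¬ flg F X.c p j.1.1)
        fun _ _ => Real.log p ^ (-s))) (vN X (.inl (u', .br p Sp' t₁' t₀'))) := by
  obtain ⟨p1, h1⟩ := tieS N hs
  refine ⟨p1, fun p0 hp0 γ P₀ hP₀ X hX Qn hF hM2 F p m u Sp t₁ t₀ u' Sp' t₁' t₀' hu hu' W mW
    hW => ?_⟩
  rw [cut_cut]
  exact h1 p0 hp0 γ P₀ hP₀ X hX hF hM2 hu hu' (S := fun j => sdX X p m j ∧ ¬ flg F X.c p j.1.1)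
    (fun j j' e h => sdf_item e h) mW fun x j i h => by
      obtain ⟨⟨a1, a2⟩, ⟨b1, b2⟩, c, d, e⟩ := hW x j i h
      exact ⟨⟨⟨a1, b1⟩, a2, b2⟩, ⟨a1, a2⟩, c, d, e⟩

end ctx

end Crest.Agent.R4P.UU5
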