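import Crest.Agent.R4P.E3Y_479
import Crest.Agent.R4P.RuN_9
import Crest.Agent.R4P.UU5_24
import Crest.Agent.R4P.JnA_5

/-!
R4 (S0004) with powers, T3, helper479 (PLAN v1, D1): **E3, direct-only form, for the rules `RNX X (stL X.c) cd
(Zc W)`** (labels of the column, codes `0`, `cdp 0 (vb p)`, `cdp 1 (vb p)`; in particular `RAX`).

* `PR0` : no related pairs.
* `grK` : groups by kinds (kind of the low type, kind of the point type); `hgrK`.
* `Un` : static form of the lost pairs: two unflagged N pieces of true ties, one real index, virtual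
  exponents above the width different; **`un_of`** : a lost pair of `TXF X (RNX ..) F ..` at two nodes.
* `Un.nc` : such pairs are not comparable; **`tin_of`** : the field from three energies (real state `none`,
  both sparse, both changed).
-/

set_option autoImplicit false
set_option linter.unusedSectionVars false
set_option linter.unusedVariables false
open MeasureTheory Filter Set

namespace Crest.Agent.R4P.E3R479

open Crest.Agent.R4.Tour104 Crest.Agent.R4.Tour758 Crest.Agent.R4.Avg758 Crest.Agent.R4.Clos758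
open Crest.Agent.R4P.Cnt588 Crest.Agent.R4P.Item758 Crest.Agent.R4P.W363
open Crest.Agent.R4P.Data758
open Crest.Agent.R4P.Bld532 (NS All NodeOk Bk dv nd farS nearS mem_dv mem_nd mem_farS mem_nearS)
open Crest.Agent.R4P.WalkIT579 (tp isL toDT_top toDT_leaf)
open Crest.Agent.R4P.StratN36 (ex)
open Crest.Agent.R4P.Step588 Crest.Agent.R4P.RseSt23
open Crest.Agent.R4P.DTp26 Crest.Agent.R4P.DTm407
open Crest.Agent.R4P.TYI47 Crest.Agent.R4P.TYJ47 Crest.Agent.R4P.TYK47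
open Crest.Agent.R4P.TYP9 Crest.Agent.R4P.RsT47
open Crest.Agent.R4P.Walk560 (DT WrN)
open Crest.Agent.R4P.Skel189 Crest.Agent.R4P.Frame758
open Crest.Agent.R4.Soft104 hiding cut
open Crest.Agent.R4.Fam464
open Crest.Agent.R4P.StratX36 hiding mm
open Crest.Agent.R4P.TopX36
open Crest.Agent.R4P.GWa343 Crest.Agent.R4P.GWb343 Crest.Agent.R4P.GWc343 Crest.Agent.R4P.GWf343
open Crest.Agent.R4P.TrR343 Crest.Agent.R4P.XEx29
open Crest.Agent.R4P.PairX41 Crest.Agent.R4P.CrZ41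
open Crest.Agent.R4P.E3V479 Crest.Agent.R4P.E3W479 Crest.Agent.R4P.E3F479 Crest.Agent.R4P.E3X479
open Crest.Agent.R4P.E3Y479
open Crest.Agent.R4P.E3G493 (gq rBG rCG)
open Crest.Agent.R4P.GPair33 (vN PB_vN_inl)
open Crest.Agent.R4.HVW560 (cof)
open Crest.Agent.R4P.StM246 Crest.Agent.R4P.StE6 Crest.Agent.R4P.StF6
open Crest.Agent.R4P.StG6 Crest.Agent.R4P.StJ6 Crest.Agent.R4P.RuN9
open Crest.Agent.R4P.StB21 (bt TH LvF)
open Crest.Agent.R4P.UU4 (Nc wq rm)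
open Crest.Agent.R4.ClosR758 (Ro mem_Ro)

/-! ### no related pairs -/

section zero
variable {μ Λ : Type} {p : ℕ} {m : μ} {j i : Λ}

/-- no related pairs -/
def PR0 {μ Λ : Type} : PR μ Λ := fun _ _ _ _ _ => False

lemma mp0 (p : ℕ) (m : μ) (j i : Λ) : MP fun x => (PR0 : PR μ Λ) p m x j i := MP.const False

end zero



/-! ### groups by kinds -/

section kinds
variable {N K : ℕ}

/-- kind of a code: plain, named, named with additional information -/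
def kc (a : ℕ) : Fin 4 := if a = 0 then 1 else if (Nat.unpair (a - 1)).1 = 0 then 2 else 3

/-- kind of a type -/
def kd (z : Option (Ty N K)) : Fin 4 := z.elim 0 fun z => kc ((z.2.1 : ℕ).factorization 2)

lemma kc_ne (a : ℕ) : kc a ≠ 0 := by
  unfold kc
  split_ifs <;> decide

lemma kd_zero (z : Option (Ty N K)) : kd z = 0 ↔ z = none := by
  cases z with
  | none => exact ⟨fun _ => rfl, fun _ => rfl⟩
  | some z =>
    constructor
    · intro h
      exact absurd h (kc_ne _)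
    · intro h
      exact absurd h (by simp)

/-- **groups by kinds** of the low type and of the point type -/
def grK {Λ : Type} (_p : ℕ) (_i : Λ) (u : Option (Ty N K) × Option (Ty N K)) : Fin (4 * 4) :=
  finProdFinEquiv (kd u.1, kd u.2)

lemma grK_iff {Λ : Type} {p p' : ℕ} {i i' : Λ} {u v : Option (Ty N K) × Option (Ty N K)} :
    grK p i u = grK p' i' v ↔ kd u.1 = kd v.1 ∧ kd u.2 = kd v.2 := by
  unfold grK
  rw [finProdFinEquiv.injective.eq_iff, Prod.mk.injEq]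

theorem hgrK {Λ : Type} (p : ℕ) (i : Λ) (u v : Option (Ty N K) × Option (Ty N K))
    (h : grK p i u = grK p i v) : u.1 = none ↔ v.1 = none := by
  rw [← kd_zero, ← kd_zero, (grK_iff.1 h).1]

/-- the codes of the rule at a column -/
lemma kc_inj {v a a' : ℕ} (ha : a = 0 ∨ a = cdp 0 v ∨ a = cdp 1 v)
    (ha' : a' = 0 ∨ a' = cdp 0 v ∨ a' = cdp 1 v) (h : kc a = kc a') : a = a' := by
  have k0 : kc 0 = 1 := rfl
  have k1 : kc (cdp 0 v) = 2 := by
    unfold kc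
    rw [if_neg cdp_ne]
    unfold cdp
    rw [Nat.add_sub_cancel, Nat.unpair_pair]
    rfl
  have k2 : kc (cdp 1 v) = 3 := by
    unfold kc
    rw [if_neg cdp_ne]
    unfold cdp
    rw [Nat.add_sub_cancel, Nat.unpair_pair]
    rfl
  rcases ha with rfl | rfl | rfl <;> rcases ha' with rfl | rfl | rfl <;>
    simp only [k0, k1, k2] at h ⊢ <;> exact absurd h (by decide)

end kinds

/-! ### pieces of a tie -/

section node
variable {N : Skel189.Num} {γ : ℝ} {p0 P₀ : ℕ} {X : Ctx N γ p0 P₀} {Q : NS → IT → Prop} {C : ℝ}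
  {p : ℕ} {m : Me} {s : NS} {Sp : Finset ℕ} {t₁ t₀ : IT} {j : X.c.Lam} {x : ℝ}

/-- **an N piece of a tie** : content with `sdX` -/
theorem n_item (hQ : ∀ u τ, Q u τ → NDt X.par (w X.ψ) X.c.t u τ)
    (hs : RtX X Q p m s (.br p Sp t₁ t₀))
    (hj : vN X (.inl (s, .br p Sp t₁ t₀)) j x ≠ 0) (hd : sdX X p m j) : j.1.1 ∈ t₀.items := by
  have h3 := (ctx_supp (hQ _ _ hs.1.rm.all.self) (j := j) (x := x) (by
    rw [val_v (hQ _ _ hs.1.rm.all.self) j]; exact hj)).1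
  rcases Finset.mem_union.1 h3 with h4 | h4
  · exfalso
    have h5 := ex_P hQ hs h4
    unfold sdX at hd
    omega
  · exact h4

/-- the data of an N piece at a true tie -/
theorem tieP_N (hQ : ∀ u τ, Q u τ → NDt X.par (w X.ψ) X.c.t u τ) (hd1 : X.c.d1 * Kc X.S ≤ 1)
    (hs : RtX X Q p m s (.br p Sp t₁ t₀))
    (hj : vN X (.inl (s, .br p Sp t₁ t₀)) j x ≠ 0) (hd : sdX X p m j) :
    TieP X p m j x ∧ p ∈ X.c.t.mt j.1.1 ∧ ex p j.1.1 = TYJ47.cnt p m.1 ∧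
      pm X.c.t p (tuM p m) j.1.1 = Mlo X.c p j.1.1 := by
  have H := carX hQ
  have hq0 := n_item hQ hs hj hd
  have hn := hQ _ _ hs.1.rm.all.self
  have hp : p.Prime := prime_of_br hn.self.node
  have h1 : ((X.c.D.par X.Y).toDT X.c.sp s.B s.A (.br p Sp t₁ t₀)).g.val j x ≠ 0 := by
    rw [val_v hn j]; exact hj
  obtain ⟨hq, a, -, h2, h3⟩ := ctx_supp hn h1
  have hl : ¬ isL (IT.br p Sp t₁ t₀) := fun h => h
  have hhi := hs.1.hi hQ hl rfl hq
  obtain ⟨hP, hN⟩ := H.br hs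
  have hx := hs.1.rm.exA hl rfl
  have hn0 := hQ _ _ hN.1.rm.all.self
  have e2 := hN.1.rm.pf hQ X.tOk hq0
  have hpB : p ∈ (s.B * p).primeFactors :=
    Nat.mem_primeFactors.2 ⟨hp, Dvd.intro_left _ rfl, hn0.bk.sfB.ne_zero⟩
  have hpm : p ∈ X.c.t.mt j.1.1 := by
    have : p ∈ prm X.c.t p (tuM p m).1 j.1.1 := by rw [← e2]; exact hpB
    exact (Finset.mem_filter.1 this).1
  have e1 : ex p j.1.1 = TYJ47.cnt p m.1 := by
    by_contra h5
    have e3 : pm X.c.t p (tuM p m) j.1.1 = pm X.c.t p m j.1.1 := by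
      rw [pm_tu, if_neg h5]
    have h6 : p ∈ pm X.c.t p (tuM p m) j.1.1 := by
      show p ∈ prm X.c.t p (tuM p m).1 j.1.1
      rw [← e2]; exact hpB
    rw [e3, hhi] at h6
    exact absurd (Finset.mem_filter.1 h6).2 (lt_irrefl p)
  have e4 : pm X.c.t p (tuM p m) j.1.1 = (X.c.t.mt j.1.1).filter (p ≤ ·) := by
    rw [pm_tu, if_pos e1]
  refine ⟨⟨hhi, hp.pos, Or.inr ⟨e4, hpm, e1⟩, fun σ => ?_⟩, hpm, e1, e4⟩
  have hwl := AddNode7.win_len hd1 hn0 (j := j) hq0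
  refine ixp_N (n := 0) hp.pos (Nat.pos_of_ne_zero hn.bk.sfB.ne_zero)
    (hs.1.B_eq hQ X.tOk hq) (hN.1.B_eq hQ X.tOk hq0) (hs.1.w_eq hQ X.tOk hq)
    (hN.1.w_eq hQ X.tOk hq0) (a := a) h2 h3 ?_ σ
  have e4 : ((⟨p, s.c * p, s.A, s.B * p⟩ : NS).B : ℝ) = ((s.B * p : ℕ) : ℝ) := rfl
  rw [e4, Nat.cast_one, div_one, ← mul_sub] at hwl
  exact hwl

/-- one missing list of the items of a tie -/
theorem Mhi_one (hQ : ∀ u τ, Q u τ → NDt X.par (w X.ψ) X.c.t u τ)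
    (hs : RtX X Q p m s (.br p Sp t₁ t₀)) {q q' : ℕ} (hq : q ∈ (IT.br p Sp t₁ t₀).items)
    (hq' : q' ∈ (IT.br p Sp t₁ t₀).items) : Mhi X.c p q = Mhi X.c p q' := by
  have hl : ¬ isL (IT.br p Sp t₁ t₀) := fun h => h
  have e1 := hs.1.hi hQ hl rfl hq
  have e2 := hs.1.hi hQ hl rfl hq'
  have e3 : s.B.primeFactors = pm X.c.t p m q := hs.1.rm.pf hQ X.tOk hq
  have e4 : s.B.primeFactors = pm X.c.t p m q' := hs.1.rm.pf hQ X.tOk hq'
  show (X.c.t.mt q).filter (p < ·) = (X.c.t.mt q').filter (p < ·)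
  rw [← e1, ← e2, ← e3, ← e4]

end node

/-! ### lost pairs -/

section pairs
variable {N : Skel189.Num} {γ : ℝ} {p0 P₀ : ℕ} {X : Ctx N γ p0 P₀} {Q : NS → IT → Prop} {C : ℝ}
  {p : ℕ} {m : Me} {j i : X.c.Lam} {x : ℝ}
  {cd : ℕ → Finset ℕ → ℕ → ℕ} {vb : ℕ → ℕ} {W : ℕ → ℝ} {F : ℕ → Finset ℕ → Prop}

/-- the index of the real class -/
lemma ix_of (h : ixL (rhoX X p j) = ixL (rhoX X p i)) :
    (X.c.world p j.1).1 = (X.c.world p i.1).1 := by
  have h0 := JnA5.univ_Ro X X.Y p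
  have h1 : (j, i) ∈ (Finset.univ : Finset (X.c.Lam × X.c.Lam)) \ Ro ((X.c.D.par X.Y).rho p) ↔
      (j, i) ∈ JnA5.SX X p := by rw [h0]
  rw [JnA5.mem_SX, Finset.mem_sdiff, mem_Ro, rel_ixL, not_not] at h1
  exact h1.1 ⟨Finset.mem_univ _, h⟩

/-- **two N pieces of one real index, inside the game, with different virtual exponents above the
width** -/
def Un (X : Ctx N γ p0 P₀) (F : ℕ → Finset ℕ → Prop) (Z : ℝ) (p : ℕ) (m : Me) (j i : X.c.Lam) :
    Prop :=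
  (sdX X p m j ∧ sdX X p m i) ∧ (¬ flg F X.c p j.1.1 ∧ ¬ flg F X.c p i.1.1) ∧
    (X.c.world p j.1).1 = (X.c.world p i.1).1 ∧
    ∃ l : ℕ, l.Prime ∧ l ≤ p ∧ Z < (l : ℝ) ∧
      vex l (Mhi X.c p j.1.1) j.1.1 ≠ vex l (Mhi X.c p i.1.1) i.1.1

/-- the codes of a column: plain, or a name with the width code `vb p` -/
def CdOk (cd : ℕ → Finset ℕ → ℕ → ℕ) (vb : ℕ → ℕ) : Prop :=
  ∀ p M q, cd p M q = 0 ∨ cd p M q = cdp 0 (vb p) ∨ cd p M q = cdp 1 (vb p)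

/-- equal names above the tie, or equal names below the tie -/
def Cd (X : Ctx N γ p0 P₀) (cd : ℕ → Finset ℕ → ℕ → ℕ) (p : ℕ) (j i : X.c.Lam) : Prop :=
  (cd p (Mhi X.c p j.1.1) j.1.1 ≠ 0 ∧
    cd p (Mhi X.c p j.1.1) j.1.1 = cd p (Mhi X.c p i.1.1) i.1.1) ∨
  (cd p (Mlo X.c p j.1.1) j.1.1 ≠ 0 ∧
    cd p (Mlo X.c p j.1.1) j.1.1 = cd p (Mlo X.c p i.1.1) i.1.1)

lemma Zc_ok (hc : CdOk cd vb) {M : Finset ℕ} {q : ℕ} (h : cd p M q ≠ 0) :
    Zc W (cd p M q) = W (vb p) := by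
  rcases hc p M q with e | e | e
  · exact absurd e h
  · rw [e, Zc_cdp]
  · rw [e, Zc_cdp]

/-- the kind of a type -/
lemma kd_tp (h2 : ∀ v, 2 ≤ W v) {n : ℕ} (hn : n = Skel189.top X.S) (hp : p ≤ n)
    (hf : ¬ flg F X.c p j.1.1) :
    kd (tpF (RNX X (stL X.c) cd (Zc W)) F n p m x j) =
      kc (cd p (pm X.c.t p m j.1.1) j.1.1) := by
  subst hn
  rw [tpF_not hf]
  unfold Rule.tp kd
  show kc _ = _
  congr 1
  have e1 : ((mkT (Nix X.c (Skel189.top X.S)) (RNX X (stL X.c) cd (Zc W)).K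
      ((RNX X (stL X.c) cd (Zc W)).it p (pm X.c.t p m j.1.1) m.2 x j).1
      ((RNX X (stL X.c) cd (Zc W)).it p (pm X.c.t p m j.1.1) m.2 x j).2).2.1 : ℕ) =
      ((RNX X (stL X.c) cd (Zc W)).it p (pm X.c.t p m j.1.1) m.2 x j).2 :=
    tag_mkT (RN_le hp (pm X.c.t p m j.1.1) m.2 x j)
  rw [e1]
  show ((RNX X (stL X.c) cd (Zc W)).tg p (pm X.c.t p m j.1.1) m.2 x j).factorization 2 = _
  rw [RN_tg pm_sub, nm_code (two_le_Zc h2)]

/-- the virtual exponents above the tie -/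
lemma vex_hi {l q q' : ℕ} (hq : p ∈ X.c.t.mt q) (hq' : p ∈ X.c.t.mt q') (he : ex p q = ex p q')
    (h : vex l (Mlo X.c p q) q ≠ vex l (Mlo X.c p q') q') :
    vex l (Mhi X.c p q) q ≠ vex l (Mhi X.c p q') q' := by
  by_cases hl : l = p
  · subst hl
    exfalso
    apply h
    unfold vex
    rw [if_pos (mem_lo_of hq), if_pos (mem_lo_of hq'), he]
  · intro h1
    apply h
    unfold vex at h1 ⊢
    simp only [lo_iff_hi hl]
    exact h1

variable {spc : ℕ → Me × List (DT X.c.Lam (LbX X)) →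
    Ty (Nix X.c (Skel189.top X.S)) (RNX X (stL X.c) cd (Zc W)).K → ℝ → Prop}
  {act : ℕ → Me × List (DT X.c.Lam (LbX X)) →
    Ty (Nix X.c (Skel189.top X.S)) (RNX X (stL X.c) cd (Zc W)).K → ℝ → LbX X}
  {s s' : NS} {Sp Sp' : Finset ℕ} {t₁ t₀ t₁' t₀' : IT}

/-- **the lost pairs of two true ties** -/
theorem un_of (hQ : ∀ u τ, Q u τ → NDt X.par (w X.ψ) X.c.t u τ) (hd1 : X.c.d1 * Kc X.S ≤ 1)
    (h2 : ∀ v, 2 ≤ W v) (hc : CdOk cd vb) (hs : RtX X Q p m s (.br p Sp t₁ t₀))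
    (hs' : RtX X Q p m s' (.br p Sp' t₁' t₀'))
    (hj : vN X (.inl (s, .br p Sp t₁ t₀)) j x ≠ 0)
    (hi : vN X (.inl (s', .br p Sp' t₁' t₀')) i x ≠ 0)
    (h : tR X (TXF X (RNX X (stL X.c) cd (Zc W)) F spc act) grK PR0 p m x j i) :
    Un X F (W (vb p)) p m j i ∧ Cd X cd p j i := by
  obtain ⟨⟨sj, si⟩, -, h | ⟨hA, hI⟩⟩ := h
  · exact h.elim
  have fj : ¬ flg F X.c p j.1.1 := fun hf => hI.1 (tpF_flg hf)
  have fi : ¬ flg F X.c p i.1.1 := fun hf => hI.2 (tpF_flg hf)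
  obtain ⟨Tj, mj, xj, lj⟩ := tieP_N hQ hd1 hs hj sj
  obtain ⟨Ti, mi, xi, li⟩ := tieP_N hQ hd1 hs' hi si
  have hp := hs.2
  have ij : ixp X.c p (X.c.st p j.1.1) (pm X.c.t p m j.1.1) m.2 x j = (X.c.world p j.1).1 :=
    ix_P hQ hd1 hs (by rw [val_v (hQ _ _ hs.1.rm.all.self) j]; exact hj)
  have ii : ixp X.c p (X.c.st p i.1.1) (pm X.c.t p m i.1.1) m.2 x i = (X.c.world p i.1).1 :=
    ix_P hQ hd1 hs' (by rw [val_v (hQ _ _ hs'.1.rm.all.self) i]; exact hi)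
  have hw : (X.c.world p j.1).1 = (X.c.world p i.1).1 := by
    rcases hA with h1 | h1
    · exact ix_of h1.1.1
    · exact ix_of h1.1.1
  -- equality of types
  have kl := RN_tp (lb := stL X.c) (cd := cd) (Z := Zc W) (two_le_Zc h2) hp
    (m := tuM p m) (m' := tuM p m) (x := p * x) (x' := p * x) (j := j) (j' := i) pm_sub pm_sub
  have ku := RN_tp (lb := stL X.c) (cd := cd) (Z := Zc W) (two_le_Zc h2) hp
    (m := m) (m' := m) (x := x) (x' := x) (j := j) (j' := i) pm_sub pm_sub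
  have e1 : ixp X.c p (stL X.c p (pm X.c.t p (tuM p m) j.1.1) j.1.1)
      (pm X.c.t p (tuM p m) j.1.1) (tuM p m).2 (p * x) j = (X.c.world p j.1).1 :=
    (Tj.ix _).trans ij
  have e2 : ixp X.c p (stL X.c p (pm X.c.t p (tuM p m) i.1.1) i.1.1)
      (pm X.c.t p (tuM p m) i.1.1) (tuM p m).2 (p * x) i = (X.c.world p i.1).1 :=
    (Ti.ix _).trans ii
  have e3 : ixp X.c p (stL X.c p (pm X.c.t p m j.1.1) j.1.1) (pm X.c.t p m j.1.1) m.2 x j =
      (X.c.world p j.1).1 := ij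
  have e4 : ixp X.c p (stL X.c p (pm X.c.t p m i.1.1) i.1.1) (pm X.c.t p m i.1.1) m.2 x i =
      (X.c.world p i.1).1 := ii
  rw [e1, e2] at kl
  rw [e3, e4] at ku
  rcases hA with ⟨⟨-, hne⟩, hg⟩ | ⟨⟨-, -, -, hne⟩, hg⟩
  · -- low types different
    have hne' : tpF (RNX X (stL X.c) cd (Zc W)) F (Skel189.top X.S) p (tuM p m) (p * x) j ≠
        tpF (RNX X (stL X.c) cd (Zc W)) F (Skel189.top X.S) p (tuM p m) (p * x) i := by
      rcases hne with h1 | h1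
      · exact h1
      · exact absurd h1 hI.1
    have k1 : kd (tpF (RNX X (stL X.c) cd (Zc W)) F (Skel189.top X.S) p (tuM p m) (p * x) j) =
        kd (tpF (RNX X (stL X.c) cd (Zc W)) F (Skel189.top X.S) p (tuM p m) (p * x) i) :=
      (grK_iff.1 hg).1
    rw [kd_tp h2 rfl hp fj, kd_tp h2 rfl hp fi] at k1
    have k2 := kc_inj (hc _ _ _) (hc _ _ _) k1
    rw [tpF_not fj, tpF_not fi, Ne, kl] at hne'
    push Not at hne'
    obtain ⟨n0, l, l1, l2, l3, l4⟩ := hne' hw k2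
    rw [Zc_ok hc n0] at l3
    rw [lj] at n0 k2 l4
    rw [li] at k2 l4
    exact ⟨⟨⟨sj, si⟩, ⟨fj, fi⟩, hw, l, l1, l2, l3, vex_hi mj mi (xj.trans xi.symm) l4⟩,
      Or.inr ⟨n0, k2⟩⟩
  · -- point types different
    have hne' : tpF (RNX X (stL X.c) cd (Zc W)) F (Skel189.top X.S) p m x j ≠
        tpF (RNX X (stL X.c) cd (Zc W)) F (Skel189.top X.S) p m x i := hne
    have k1 : kd (tpF (RNX X (stL X.c) cd (Zc W)) F (Skel189.top X.S) p m x j) =
        kd (tpF (RNX X (stL X.c) cd (Zc W)) F (Skel189.top X.S) p m x i) := (grK_iff.1 hg).2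
    rw [kd_tp h2 rfl hp fj, kd_tp h2 rfl hp fi] at k1
    have k2 := kc_inj (hc _ _ _) (hc _ _ _) k1
    rw [tpF_not fj, tpF_not fi, Ne, ku] at hne'
    push Not at hne'
    obtain ⟨n0, l, l1, l2, l3, l4⟩ := hne' hw k2
    rw [Zc_ok hc n0] at l3
    have hj' : pm X.c.t p m j.1.1 = Mhi X.c p j.1.1 := Tj.hi
    have hi' : pm X.c.t p m i.1.1 = Mhi X.c p i.1.1 := Ti.hi
    rw [hj'] at n0 k2 l4
    rw [hi'] at k2 l4
    exact ⟨⟨⟨sj, si⟩, ⟨fj, fi⟩, hw, l, l1, l2, l3, l4⟩, Or.inl ⟨n0, k2⟩⟩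

/-! #### not comparable -/

/-- a cofactor is large -/
lemma cof_ge {v w l : ℕ} (hv : 0 < v) (hw : 0 < w) (hl : l.Prime)
    (h : w.factorization l < v.factorization l) : l ≤ cof v w := by
  have hg : 0 < Nat.gcd v w := Nat.gcd_pos_of_pos_left _ hv
  have h0 : 0 < cof v w := Nat.div_pos (Nat.le_of_dvd hv (Nat.gcd_dvd_left _ _)) hg
  have h1 : (cof v w).factorization l = v.factorization l - w.factorization l := by
    unfold cof
    rw [Nat.factorization_div (Nat.gcd_dvd_left _ _), Finsupp.tsub_apply,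
      Nat.factorization_gcd hv.ne' hw.ne', Finsupp.inf_apply]
    omega
  have h2 : l ∣ cof v w := Nat.dvd_of_factorization_pos (by rw [h1]; omega)
  exact Nat.le_of_dvd h0 h2

/-- the virtual exponents and the modulus of a piece of a node -/
lemma vex_wm (hQ : ∀ u τ, Q u τ → NDt X.par (w X.ψ) X.c.t u τ) {τ : IT} (hs : RtX X Q p m s τ)
    {q l : ℕ} (hq : q ∈ τ.items) (hl : l.Prime) :
    vex l (pm X.c.t p m q) q = (wm (pm X.c.t p m q) m.2 q).factorization l +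
      m.2.factorization l ∧ 0 < wm (pm X.c.t p m q) m.2 q := by
  have hn := hQ _ _ hs.1.rm.all.self
  have hq0 : 0 < q := hn.bk.pos _ hq
  have hA : 0 < s.A := hn.bk.Apos
  have hd : s.A ∣ q := hn.bk.dvd _ hq
  have hB := hs.1.B_eq hQ X.tOk hq
  have hw := hs.1.w_eq hQ X.tOk hq
  have hB0 : 0 < s.B := hn.B_pos
  have hM : ∀ k ∈ pm X.c.t p m q, k.Prime := fun k hk =>
    (BldF542.mt_lt X.c.t (Skel189.top X.S) X.tOk q k (Finset.mem_filter.1 hk).1).1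
  have w0 : 0 < q / s.A := Nat.div_pos (Nat.le_of_dvd hq0 hd) hA
  rw [vex_eq hl hq0 hM, hB, hw]
  refine ⟨?_, w0⟩
  have e : q * s.B = q / s.A * m.2 := by
    rw [← hs.1.T]
    obtain ⟨k, hk⟩ := hd
    rw [hk, Nat.mul_div_cancel_left _ hA]
    ring
  have hT0 : m.2 ≠ 0 := by
    rw [← hs.1.T]
    exact (Nat.mul_pos hA hB0).ne'
  rw [e, Nat.factorization_mul w0.ne' hT0, Finsupp.add_apply]

/-- **the lost pairs are not comparable** -/
theorem Un.nc (hQ : ∀ u τ, Q u τ → NDt X.par (w X.ψ) X.c.t u τ) (hd1 : X.c.d1 * Kc X.S ≤ 1)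
    (hs : RtX X Q p m s (.br p Sp t₁ t₀)) (hs' : RtX X Q p m s' (.br p Sp' t₁' t₀'))
    (hj : vN X (.inl (s, .br p Sp t₁ t₀)) j x ≠ 0)
    (hi : vN X (.inl (s', .br p Sp' t₁' t₀')) i x ≠ 0) {Z K : ℝ} (h : Un X F Z p m j i)
    (hK : K ≤ Z) : Nc X K p m j i := by
  obtain ⟨⟨sj, si⟩, -, -, l, l1, l2, l3, l4⟩ := h
  obtain ⟨Tj, -, -, -⟩ := tieP_N hQ hd1 hs hj sj
  obtain ⟨Ti, -, -, -⟩ := tieP_N hQ hd1 hs' hi si
  have qj : j.1.1 ∈ (IT.br p Sp t₁ t₀).items := Finset.mem_union_right _ (n_item hQ hs hj sj)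
  have qi : i.1.1 ∈ (IT.br p Sp' t₁' t₀').items := Finset.mem_union_right _ (n_item hQ hs' hi si)
  obtain ⟨a1, a2⟩ := vex_wm hQ hs qj l1
  obtain ⟨b1, b2⟩ := vex_wm hQ hs' qi l1
  have hj' : pm X.c.t p m j.1.1 = Mhi X.c p j.1.1 := Tj.hi
  have hi' : pm X.c.t p m i.1.1 = Mhi X.c p i.1.1 := Ti.hi
  rw [← hj', ← hi', a1, b1] at l4
  have l5 : (wq X p m j).factorization l ≠ (wq X p m i).factorization l := fun e => by
    apply l4
    have e' : (wm (pm X.c.t p m j.1.1) m.2 j.1.1).factorization l =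
      (wm (pm X.c.t p m i.1.1) m.2 i.1.1).factorization l := e
    rw [e']
  rcases lt_or_gt_of_ne l5 with h1 | h1
  · right; left
    have := cof_ge b2 a2 l1 h1
    have h3 : ((l : ℕ) : ℝ) ≤ (cof (wq X p m i) (wq X p m j) : ℕ) := by exact_mod_cast this
    linarith
  · left
    have := cof_ge a2 b2 l1 h1
    have h3 : ((l : ℕ) : ℝ) ≤ (cof (wq X p m j) (wq X p m i) : ℕ) := by exact_mod_cast this
    linarith

end pairs

/-! ### the rule `RAX` -/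

section ra
variable {N : Skel189.Num} {γ : ℝ} {p0 P₀ : ℕ} {X : Ctx N γ p0 P₀} {p : ℕ} {j i : X.c.Lam}
  {pl : ℕ → Finset ℕ → ℚ → Prop} {pd zn : ℕ → Finset ℕ → ℕ → Prop} {vb : ℕ → ℕ}

lemma cdA_ok {c : Cf} : CdOk (cdA c pl pd vb) vb := by
  intro p M q
  by_cases h : rs c p M q ≠ c.st p q ∧ pd p M q
  · exact Or.inr (Or.inr (cdA_ne h))
  · rw [cdA_off h]
    rcases cdB_or (c := c) (pl := pl) (vb := vb) (p := p) (M := M) (q := q) with e | e
    · exact Or.inl e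
    · exact Or.inr (Or.inl e)

lemma cdB_np {c : Cf} {M : Finset ℕ} {q : ℕ} (h : cdB c pl vb p M q ≠ 0) :
    ∀ κ, c.st p q = some κ → ¬ pl p M κ := fun κ h1 h2 => h (cdB_zero.2 ⟨κ, h1, h2⟩)

/-- **both pieces are not plain above the tie** (pending pieces are not plain above the tie, plain pieces
above the tie are plain below the tie) -/
theorem np_of (hT : TH X) (hp : 0 < p)
    (hm : ∀ M κ, p ∉ M → pl p M κ → pl p (insert p M) κ)
    (hpd : ∀ q, pd p (Mlo X.c p q) q → cdB X.c pl vb p (Mhi X.c p q) q ≠ 0)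
    (mj : p ∈ X.c.t.mt j.1.1) (mi : p ∈ X.c.t.mt i.1.1)
    (h : Cd X (cdA X.c pl pd vb) p j i) :
    (∀ κ, X.c.st p j.1.1 = some κ → ¬ pl p (Mhi X.c p j.1.1) κ) ∧
      ∀ κ, X.c.st p i.1.1 = some κ → ¬ pl p (Mhi X.c p i.1.1) κ := by
  have hins : ∀ {q : ℕ}, p ∈ X.c.t.mt q → insert p (Mhi X.c p q) = Mlo X.c p q := by
    intro q hq
    rw [← Mlo_erase, Finset.insert_erase (mem_lo_of hq)]
  have key : ∀ {q : ℕ}, p ∈ X.c.t.mt q → cdB X.c pl vb p (Mlo X.c p q) q ≠ 0 →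
      ∀ κ, X.c.st p q = some κ → ¬ pl p (Mhi X.c p q) κ := by
    intro q hq h1 κ h2 h3
    refine cdB_np h1 κ h2 ?_
    rw [← hins hq]
    exact hm _ _ not_mem_hi h3
  rcases h with ⟨h0, h1⟩ | ⟨h0, h1⟩
  · rw [cdA_hi hT] at h0 h1
    rw [cdA_hi hT] at h1
    exact ⟨cdB_np h0, cdB_np (by rw [← h1]; exact h0)⟩
  · rcases cdA_inj h1 with ⟨a1, a2, a3⟩ | ⟨a1, a2⟩
    · rw [cdA_off a1] at h0
      exact ⟨key mj h0, key mi (by rw [← a3]; exact h0)⟩
    · exact ⟨cdB_np (hpd _ a1.2), cdB_np (hpd _ a2.2)⟩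

lemma pdZ_np : ∀ q, pdZ X.c pl vb zn p (Mlo X.c p q) q → cdB X.c pl vb p (Mhi X.c p q) q ≠ 0 := by
  intro q h
  rw [← Mlo_erase]
  exact h.1

end ra

/-! ### the energies -/

section energy
variable {N : Skel189.Num} {γ : ℝ} {p0 P₀ : ℕ} {X : Ctx N γ p0 P₀} {Q : NS → IT → Prop} {C : ℝ}
  {pl : ℕ → Finset ℕ → ℚ → Prop} {pd : ℕ → Finset ℕ → ℕ → Prop} {vb : ℕ → ℕ} {W : ℕ → ℝ}
  {F : ℕ → Finset ℕ → Prop} {r r0 r1 : ℕ → Me → X.c.Lam → ℝ → ℝ}

/-- **an energy bound of a static relation of the N pieces of two true ties**, rates `r` -/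
def EB (X : Ctx N γ p0 P₀) (Q : NS → IT → Prop) (R : ℕ → Me → X.c.Lam → X.c.Lam → Prop)
    (r : ℕ → Me → X.c.Lam → ℝ → ℝ) : Prop :=
  ∀ {p m s Sp t₁ t₀ s' Sp' t₁' t₀'}, RtX X Q p m s (.br p Sp t₁ t₀) →
    RtX X Q p m s' (.br p Sp' t₁' t₀') →
    I (qe (fun _ j i => R p m j i)
      (vN X (.inl (s, .br p Sp t₁ t₀))) (vN X (.inl (s', .br p Sp' t₁' t₀')))) ≤
      lin (cut (sdX X p m) (r p m)) (vN X (.inl (s, .br p Sp t₁ t₀))) +
        lin (cut (sdX X p m) (r p m)) (vN X (.inl (s', .br p Sp' t₁' t₀')))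

/-- rates of the pieces inside the game -/
noncomputable def rF (X : Ctx N γ p0 P₀) (F : ℕ → Finset ℕ → Prop) (a : ℕ → ℝ) (p : ℕ) (_m : Me) :
    X.c.Lam → ℝ → ℝ :=
  cut (fun j : X.c.Lam => ¬ flg F X.c p j.1.1) fun _ _ => a p

lemma PB_rF {a : ℕ → ℝ} (ha : ∀ p, 0 ≤ a p) (p : ℕ) (m : Me) (j : X.c.Lam) :
    PB (rF X F a p m j) := PB_cut (fun _ => PB.const (ha p)) j

/-- the pairs of one index with the real state `none` -/
def Wn (X : Ctx N γ p0 P₀) (F : ℕ → Finset ℕ → Prop) (Z : ℕ → ℝ) (p : ℕ) (m : Me)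
    (j i : X.c.Lam) : Prop := Un X F (Z p) p m j i ∧ X.c.st p j.1.1 = none

/-- the labelled pairs of one index: both pieces not plain above the tie -/
def Wl (X : Ctx N γ p0 P₀) (pl : ℕ → Finset ℕ → ℚ → Prop) (F : ℕ → Finset ℕ → Prop) (Z : ℕ → ℝ)
    (p : ℕ) (m : Me) (j i : X.c.Lam) : Prop :=
  Un X F (Z p) p m j i ∧ ∃ κ κ' : ℚ, X.c.st p j.1.1 = some κ ∧ X.c.st p i.1.1 = some κ' ∧
    ¬ pl p (Mhi X.c p j.1.1) κ ∧ ¬ pl p (Mhi X.c p i.1.1) κ'

/-- one index: both labelled or both not -/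
lemma some_of {p : ℕ} {j i : X.c.Lam} (h : (X.c.world p j.1).1 = (X.c.world p i.1).1) :
    (X.c.st p j.1.1).isSome = (X.c.st p i.1.1).isSome := congrArg Prod.fst h

/-- the labelled pairs of one index with equal names above or below the tie -/
def Wc (X : Ctx N γ p0 P₀) (cd : ℕ → Finset ℕ → ℕ → ℕ) (F : ℕ → Finset ℕ → Prop) (Z : ℕ → ℝ)
    (p : ℕ) (m : Me) (j i : X.c.Lam) : Prop :=
  Un X F (Z p) p m j i ∧ Cd X cd p j i ∧
    ∃ κ κ' : ℚ, X.c.st p j.1.1 = some κ ∧ X.c.st p i.1.1 = some κ'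

lemma cut_add {Λ : Type} (P : Λ → Prop) (a b : Λ → ℝ → ℝ) :
    cut P (fun j x => a j x + b j x) = fun j x => cut P a j x + cut P b j x := by
  funext j x
  unfold cut
  split_ifs
  · rfl
  · rw [add_zero]

section gen
variable {cd : ℕ → Finset ℕ → ℕ → ℕ} {spc : ℕ → Me × List (DT X.c.Lam (LbX X)) →
    Ty (Nix X.c (Skel189.top X.S)) (RNX X (stL X.c) cd (Zc W)).K → ℝ → Prop}
  {act : ℕ → Me × List (DT X.c.Lam (LbX X)) →
    Ty (Nix X.c (Skel189.top X.S)) (RNX X (stL X.c) cd (Zc W)).K → ℝ → LbX X}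
  {p : ℕ} {m : Me} {s s' : NS} {Sp Sp' : Finset ℕ} {t₁ t₀ t₁' t₀' : IT}

/-- **E3 for the rules with the labels of the column**, any code function: the lost pairs of two true ties
from the pairs with the state `none` and the labelled pairs -/
theorem tie_gen (hQ : ∀ u τ, Q u τ → NDt X.par (w X.ψ) X.c.t u τ) (hd1 : X.c.d1 * Kc X.S ≤ 1)
    (h2 : ∀ v, 2 ≤ W v) (hc : CdOk cd vb)
    (pr0 : ∀ p m j, PB (r0 p m j)) (pr1 : ∀ p m j, PB (r1 p m j))
    (h0 : EB X Q (Wn X F fun p => W (vb p)) r0)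
    (h1 : EB X Q (Wc X cd F fun p => W (vb p)) r1) (hs : RtX X Q p m s (.br p Sp t₁ t₀))
    (hs' : RtX X Q p m s' (.br p Sp' t₁' t₀')) :
    I (qe (fun x j i => tR X (TXF X (RNX X (stL X.c) cd (Zc W)) F spc act) grK PR0 p m x j i)
      (vN X (.inl (s, .br p Sp t₁ t₀))) (vN X (.inl (s', .br p Sp' t₁' t₀')))) ≤
      lin (cut (sdX X p m) fun j x => r0 p m j x + r1 p m j x)
        (vN X (.inl (s, .br p Sp t₁ t₀))) +
      lin (cut (sdX X p m) fun j x => r0 p m j x + r1 p m j x)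
        (vN X (.inl (s', .br p Sp' t₁' t₀'))) := by
  have n1 := hQ _ _ hs.1.rm.all.self
  have n1' := hQ _ _ hs'.1.rm.all.self
  have pV := fun j => PB_vN_inl n1 j
  have pV' := fun j => PB_vN_inl n1' j
  have c0 := fun j => PB_cut (P := sdX X p m) (pr0 p m) j
  have c1 := fun j => PB_cut (P := sdX X p m) (pr1 p m) j
  have k0 := h0 hs hs'
  have k1 := h1 hs hs'
  have q0 := PB_qe (R := fun _ j i => Wn X F (fun p => W (vb p)) p m j i)
    (fun j i => MP.const _) pV pV'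
  have q1 := PB_qe (R := fun _ j i => Wc X cd F (fun p => W (vb p)) p m j i)
    (fun j i => MP.const _) pV pV'
  rw [cut_add, lin_add c0 c1 pV, lin_add c0 c1 pV']
  have key : ∀ x, qe (fun x j i => tR X (TXF X (RNX X (stL X.c) cd (Zc W)) F spc act) grK
      PR0 p m x j i)
      (vN X (.inl (s, .br p Sp t₁ t₀))) (vN X (.inl (s', .br p Sp' t₁' t₀'))) x ≤
      qe (fun _ j i => Wn X F (fun p => W (vb p)) p m j i) (vN X (.inl (s, .br p Sp t₁ t₀)))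
        (vN X (.inl (s', .br p Sp' t₁' t₀'))) x +
      qe (fun _ j i => Wc X cd F (fun p => W (vb p)) p m j i) (vN X (.inl (s, .br p Sp t₁ t₀)))
        (vN X (.inl (s', .br p Sp' t₁' t₀'))) x := by
    intro x
    refine qe_cover (fun j => (pV j).nonneg x) (fun j => (pV' j).nonneg x) fun j i hj hi hr => ?_
    obtain ⟨u1, u2⟩ := un_of hQ hd1 h2 hc hs hs' hj hi hr
    have e := some_of u1.2.2.1
    cases ej : X.c.st p j.1.1 with
    | none => exact Or.inl ⟨u1, ej⟩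
    | some κ =>
      right
      rw [ej] at e
      obtain ⟨κ', ei⟩ := Option.isSome_iff_exists.1 e.symm
      exact ⟨u1, u2, κ, κ', ej, ei⟩
  have tot : I (qe (fun x j i => tR X (TXF X (RNX X (stL X.c) cd (Zc W)) F spc act) grK
      PR0 p m x j i)
      (vN X (.inl (s, .br p Sp t₁ t₀))) (vN X (.inl (s', .br p Sp' t₁' t₀')))) ≤
      I (qe (fun _ j i => Wn X F (fun p => W (vb p)) p m j i) (vN X (.inl (s, .br p Sp t₁ t₀)))
        (vN X (.inl (s', .br p Sp' t₁' t₀')))) +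
      I (qe (fun _ j i => Wc X cd F (fun p => W (vb p)) p m j i)
        (vN X (.inl (s, .br p Sp t₁ t₀))) (vN X (.inl (s', .br p Sp' t₁' t₀')))) := by
    rw [← I_add q0.integrableOn q1.integrableOn]
    by_cases hi : IntegrableOn (qe (fun x j i => tR X (TXF X (RNX X (stL X.c) cd (Zc W)) F
        spc act) grK PR0 p m x j i) (vN X (.inl (s, .br p Sp t₁ t₀)))
        (vN X (.inl (s', .br p Sp' t₁' t₀')))) (Ico 0 1)
    · exact I_mono hi (q0.add q1).integrableOn key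
    · have : I (qe (fun x j i => tR X (TXF X (RNX X (stL X.c) cd (Zc W)) F spc act) grK
          PR0 p m x j i)
          (vN X (.inl (s, .br p Sp t₁ t₀))) (vN X (.inl (s', .br p Sp' t₁' t₀')))) = 0 := by
        unfold I
        exact integral_undef hi
      rw [this]
      exact I_nonneg fun x => add_nonneg (q0.nonneg x) (q1.nonneg x)
  linarith

end gen

/-- an energy bound of a relation which holds on the contents -/
theorem EB.mono {R R' : ℕ → Me → X.c.Lam → X.c.Lam → Prop}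
    (hQ : ∀ u τ, Q u τ → NDt X.par (w X.ψ) X.c.t u τ) (h : EB X Q R' r)
    (hR : ∀ {p m s Sp t₁ t₀ s' Sp' t₁' t₀' j i x}, RtX X Q p m s (.br p Sp t₁ t₀) →
      RtX X Q p m s' (.br p Sp' t₁' t₀') → vN X (.inl (s, .br p Sp t₁ t₀)) j x ≠ 0 →
      vN X (.inl (s', .br p Sp' t₁' t₀')) i x ≠ 0 → R p m j i → R' p m j i) : EB X Q R r := by
  intro p m s Sp t₁ t₀ s' Sp' t₁' t₀' hs hs'
  have n1 := hQ _ _ hs.1.rm.all.self
  have n1' := hQ _ _ hs'.1.rm.all.self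
  have pV := fun j => PB_vN_inl n1 j
  have pV' := fun j => PB_vN_inl n1' j
  have p1 := PB_qe (R := fun _ j i => R p m j i) (fun j i => MP.const (R p m j i)) pV pV'
  have p2 := PB_qe (R := fun _ j i => R' p m j i) (fun j i => MP.const (R' p m j i)) pV pV'
  have k := h hs hs'
  have k2 : I (qe (fun _ j i => R p m j i) (vN X (.inl (s, .br p Sp t₁ t₀)))
      (vN X (.inl (s', .br p Sp' t₁' t₀')))) ≤ I (qe (fun _ j i => R' p m j i)
      (vN X (.inl (s, .br p Sp t₁ t₀))) (vN X (.inl (s', .br p Sp' t₁' t₀')))) :=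
    I_mono p1.integrableOn p2.integrableOn fun x =>
      qe_mono (fun j => (pV j).nonneg x) (fun j => (pV' j).nonneg x) (fun j => le_rfl)
        (fun j => le_rfl) fun j i hj hi hr => hR hs hs' hj hi hr
  exact k2.trans k

/-- the labelled pairs of the rule `RAX` -/
theorem eb_c (hQ : ∀ u τ, Q u τ → NDt X.par (w X.ψ) X.c.t u τ) (hd1 : X.c.d1 * Kc X.S ≤ 1)
    (hT : TH X) (hm : ∀ p M κ, p ∉ M → pl p M κ → pl p (insert p M) κ)
    (hpd : ∀ p q, pd p (Mlo X.c p q) q → cdB X.c pl vb p (Mhi X.c p q) q ≠ 0)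
    {Z : ℕ → ℝ} (h1 : EB X Q (Wl X pl F Z) r1) : EB X Q (Wc X (cdA X.c pl pd vb) F Z) r1 := by
  refine h1.mono hQ fun {p m s Sp t₁ t₀ s' Sp' t₁' t₀' j i x} hs hs' hj hi hr => ?_
  obtain ⟨u1, u2, κ, κ', ej, ei⟩ := hr
  obtain ⟨Tj, mj, -, -⟩ := tieP_N hQ hd1 hs hj u1.1.1
  obtain ⟨-, mi, -, -⟩ := tieP_N hQ hd1 hs' hi u1.1.2
  obtain ⟨v1, v2⟩ := np_of hT Tj.pr (hm p) (hpd p) mj mi u2
  exact ⟨u1, κ, κ', ej, ei, v1 κ ej, v2 κ' ei⟩

section rax
variable {spc : ℕ → Me × List (DT X.c.Lam (LbX X)) →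
    Ty (Nix X.c (Skel189.top X.S)) (RAX X pl pd vb W).K → ℝ → Prop}
  {act : ℕ → Me × List (DT X.c.Lam (LbX X)) →
    Ty (Nix X.c (Skel189.top X.S)) (RAX X pl pd vb W).K → ℝ → LbX X}
  {p : ℕ} {m : Me} {s s' : NS} {Sp Sp' : Finset ℕ} {t₁ t₀ t₁' t₀' : IT}

/-- **E3 for the rule `RAX`** : the lost pairs of two true ties from the pairs with the state `none` and
the labelled pairs -/
theorem tie_of (hQ : ∀ u τ, Q u τ → NDt X.par (w X.ψ) X.c.t u τ) (hd1 : X.c.d1 * Kc X.S ≤ 1)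
    (hT : TH X) (h2 : ∀ v, 2 ≤ W v)
    (hm : ∀ p M κ, p ∉ M → pl p M κ → pl p (insert p M) κ)
    (hpd : ∀ p q, pd p (Mlo X.c p q) q → cdB X.c pl vb p (Mhi X.c p q) q ≠ 0)
    (pr0 : ∀ p m j, PB (r0 p m j)) (pr1 : ∀ p m j, PB (r1 p m j))
    (h0 : EB X Q (Wn X F fun p => W (vb p)) r0)
    (h1 : EB X Q (Wl X pl F fun p => W (vb p)) r1) (hs : RtX X Q p m s (.br p Sp t₁ t₀))
    (hs' : RtX X Q p m s' (.br p Sp' t₁' t₀')) :
    I (qe (fun x j i => tR X (TXF X (RAX X pl pd vb W) F spc act) grK PR0 p m x j i)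
      (vN X (.inl (s, .br p Sp t₁ t₀))) (vN X (.inl (s', .br p Sp' t₁' t₀')))) ≤
      lin (cut (sdX X p m) fun j x => r0 p m j x + r1 p m j x)
        (vN X (.inl (s, .br p Sp t₁ t₀))) +
      lin (cut (sdX X p m) fun j x => r0 p m j x + r1 p m j x)
        (vN X (.inl (s', .br p Sp' t₁' t₀'))) :=
  tie_gen hQ hd1 h2 cdA_ok pr0 pr1 h0 (eb_c hQ hd1 hT hm hpd h1) hs hs'

end rax

/-- a restriction of a relation which holds on the contents -/
lemma qe_and {Λ : Type} [Fintype Λ] {R S : Λ → Λ → Prop} {V U : Λ → ℝ → ℝ}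
    (h : ∀ x j i, V j x ≠ 0 → U i x ≠ 0 → R j i → S j i) :
    qe (fun _ j i => R j i) V U = qe (fun _ j i => R j i ∧ S j i) V U := by
  classical
  funext x
  unfold qe
  refine Finset.sum_congr rfl fun j _ => Finset.sum_congr rfl fun i _ => ?_
  by_cases hj : V j x = 0
  · rw [hj]; simp
  by_cases hi : U i x = 0
  · rw [hi]; simp
  by_cases hr : R j i
  · rw [if_pos hr, if_pos ⟨hr, h x j i hj hi hr⟩]
  · rw [if_neg hr, if_neg fun h => hr h.1]

/-- **the pairs with the real state `none`** (helper24's `tieSf`), widths `≥ (log p)^(s+2)` -/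
theorem eb_n (N : Skel189.Num) {s : ℝ} (hs : 0 ≤ s) : ∃ p₁ : ℕ, ∀ p0 ≥ p₁, ∀ (γ : ℝ) (P₀ : ℕ),
    2 ≤ P₀ → ∀ X : Ctx N γ p0 P₀, RseNd23.RseH X → X.c.d1 * Kc X.S ≤ 1 →
    ∀ {Q : NS → IT → Prop}, (∀ u τ, Q u τ → RseNd23.NF X u τ) →
    (∀ u τ, Q u τ → UU3.M2X X u τ) → ∀ {F : ℕ → Finset ℕ → Prop} {Z : ℕ → ℝ},
    (∀ p, p0 < p → Real.log p ^ (s + 2) ≤ Z p) →
    EB X Q (Wn X F Z) (rF X F fun p => Real.log p ^ (-s)) := by
  obtain ⟨p1, h1⟩ := UU5.tieSf N hs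
  refine ⟨p1, fun p0 hp0 γ P₀ hP₀ X hX hd1 Q hF hM2 F Z hZ => ?_⟩
  intro p m u Sp t₁ t₀ u' Sp' t₁' t₀' hu hu'
  have hQ : ∀ u τ, Q u τ → NDt X.par (w X.ψ) X.c.t u τ := fun u τ h => (hF u τ h).nd
  have n1 := hQ _ _ hu.1.rm.all.self
  obtain ⟨-, g2, -, -⟩ := WalkIT579.nodeOk_hi n1.self.node
    (show ¬ isL (.br p Sp t₁ t₀) from fun h => h)
  have hp : p0 < p := g2
  rw [qe_and (S := fun j i => Nc X (Real.log p ^ (s + 2)) p m j i)
    fun x j i hj hi hr => hr.1.nc hQ hd1 hu hu' hj hi (hZ p hp)]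
  exact h1 p0 hp0 γ P₀ hP₀ X hX hF hM2 (F := F) hu hu' (fun j i => MP.const _)
    fun x j i h => ⟨h.1.1.1, h.1.1.2.1, h.1.1.2.2.1, h.1.2, h.2⟩

end energy

end Crest.Agent.R4P.E3R479
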