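import Crest.Agent.R4P.E3Q_479

/-!
R4 (S0004) with powers, T3, helper479 (PLAN v1, D1): **the jumps of a rule without names** (types = XX
-/

set_option autoImplicit false
set_option linter.unusedSectionVars false
set_option linter.unusedVariables false
open MeasureTheory Filter Set

namespace Crest.Agent.R4P.E3Z479

open Crest.Agent.R4.Tour104 Crest.Agent.R4.Tour758 Crest.Agent.R4.Avg758 Crest.Agent.R4.Clos758
open Crest.Agent.R4P.Cnt588 Crest.Agent.R4P.Item758 Crest.Agent.R4P.W363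
open Crest.Agent.R4P.Data758
open Crest.Agent.R4P.Bld532 (NS All NodeOk Bk)
open Crest.Agent.R4P.WalkIT579 (tp isL)
open Crest.Agent.R4P.StratN36 (ex)
open Crest.Agent.R4P.Step588 Crest.Agent.R4P.RseSt23
open Crest.Agent.R4P.DTp26 Crest.Agent.R4P.DTm407
open Crest.Agent.R4P.TYI47 Crest.Agent.R4P.TYJ47 Crest.Agent.R4P.TYK47
open Crest.Agent.R4P.TYP9 Crest.Agent.R4P.RsT47
open Crest.Agent.R4P.Walk560 (DT WrN)
open Crest.Agent.R4P.Skel189 Crest.Agent.R4P.Frame758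
open Crest.Agent.R4.Soft104 hiding cut
open Crest.Agent.R4.Fam464
open Crest.Agent.R4P.StratX36 hiding mm
open Crest.Agent.R4P.TopX36
open Crest.Agent.R4P.GWa343 Crest.Agent.R4P.GWb343 Crest.Agent.R4P.GWc343 Crest.Agent.R4P.GWf343
open Crest.Agent.R4P.TrR343
open Crest.Agent.R4P.E3V479 Crest.Agent.R4P.E3W479 Crest.Agent.R4P.E3F479
open Crest.Agent.R4P.E3X479 hiding diX
open Crest.Agent.R4P.E3Y479 Crest.Agent.R4P.E3R479 Crest.Agent.R4P.E3Q479
open Crest.Agent.R4P.GPair33 (vN PB_vN_inl)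
open Crest.Agent.R4P.StE6 Crest.Agent.R4P.StF6
open Crest.Agent.R4P.StG6 Crest.Agent.R4P.StJ6 Crest.Agent.R4P.RuN9
open Crest.Agent.R4P.StB21 (bt TH LvF)
open Crest.Agent.R4P.PVe45 (Cr LB)
open Crest.Agent.R4P.AsB407 Crest.Agent.R4P.AsC407 Crest.Agent.R4P.AsI407 Crest.Agent.R4P.AsH24
open Crest.Agent.R4P.EvC47
open Crest.Agent.R4P.OmX11 (Om)

section ctx
variable {N : Skel189.Num} {γ : ℝ} {p0 P₀ : ℕ} {X : Ctx N γ p0 P₀} {Q : NS → IT → Prop} {C : ℝ}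
  {W : ℕ → ℝ}

lemma cd0_ok {vb : ℕ → ℕ} : CdOk (fun _ _ _ => 0) vb := fun _ _ _ => Or.inl rfl

lemma not_Cd0 {p : ℕ} {j i : X.c.Lam} : ¬ Cd X (fun _ _ _ => 0) p j i := by
  rintro (⟨h, -⟩ | ⟨h, -⟩) <;> exact h rfl

/-- **no jumps without names** -/
theorem jt_zero (cf : CtxF X Q) (r : RF X)
    (hR : r.R = RNX X (stL X.c) (fun _ _ _ => 0) (Zc W)) (h2 : ∀ v, 2 ≤ W v) :
    JT X Q r.D grK (fun _ _ _ _ => 0) := by
  cases r
  dsimp only at hR
  subst hR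
  refine ⟨fun p m j => PB.const le_rfl, fun {p m s Sp t₁ t₀ s' Sp' t₁' t₀'} _ hs hs' => ?_⟩
  rw [AsI407.cut_z, AsI407.lin_z, AsI407.lin_z, add_zero]
  refine le_of_eq ?_
  unfold I
  rw [show (fun x => qe _ (vN X (.inl (s, .br p Sp t₁ t₀))) (vN X (.inl (s', .br p Sp' t₁' t₀'))) x)
    = fun _ => 0 from ?_]
  · simp
  · funext x
    refine E3Y479.qe_zero fun j i hr => ?_
    by_contra hne
    have hj : vN X (.inl (s, .br p Sp t₁ t₀)) j x ≠ 0 := fun e => hne (by rw [e, zero_mul])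
    have hi : vN X (.inl (s', .br p Sp' t₁' t₀')) i x ≠ 0 := fun e => hne (by rw [e, mul_zero])
    exact not_Cd0 (un_of (vb := fun _ => 0) cf.hQ cf.hd1 h2 cd0_ok hs hs' hj hi hr).2

/-- the zero credit -/
def cr0 {β Λ : Type} [Fintype Λ] {B : PayR45.BM β} (V : PayR45.PV B Λ) : Cr V where
  ρ := fun _ _ _ _ => 0
  r := fun _ _ _ _ => 0
  e := fun _ _ _ _ => 0
  pρ := fun _ _ => PB.const le_rfl
  pr := fun _ _ _ => PB.const le_rfl
  pe := fun _ _ _ => PB.const le_rfl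
  rest := fun _ _ _ _ _ => (add_zero _).le
  tie0 := fun _ _ _ _ _ => le_rfl
  tieP := fun _ _ _ _ _ _ => (add_zero _).le
  tieN := fun _ _ _ _ _ _ => (add_zero _).le

end ctx

end Crest.Agent.R4P.E3Z479
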