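import Crest.Agent.R4P.BthY_48

/-!
R4 (S0004) with powers, T3, helper48: **energies of the pulled contents of the bundles**.

* `E2_mono`, `E2_add`, `E2_pull`; `FE h`, `StD h` : nodes and subtrees with bounded energies;
* **`EO h p L`** : the total energy of the pulled contents of a bundle is at most `4 h p`; `EO.P`, `EO.N`,
  `EO.R` : closed under the steps of the walk; `EO.one` : the start.
-/

set_option autoImplicit false
set_option linter.unusedSectionVars false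
set_option linter.unusedVariables false
open MeasureTheory Filter Set

namespace Crest.Agent.R4P.EnO48

open Crest.Agent.R4.Tour104 Crest.Agent.R4.Tour758 Crest.Agent.R4.Avg758 Crest.Agent.R4.Clos758
open Crest.Agent.R4.ClosL758 Crest.Agent.R4.ClosG758 Crest.Agent.R4.ClosR758
open Crest.Agent.R4P.ClosR442 Crest.Agent.R4P.Grp36 Crest.Agent.R4P.GWa343 Crest.Agent.R4P.GWb343
open Crest.Agent.R4P.GWc343 hiding SB
open Crest.Agent.R4P.VR407 Crest.Agent.R4P.Bp407 Crest.Agent.R4P.MSd343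
open Crest.Agent.R4P.DTp26 (jv jv_nil jv_cons jv_append PB_jv)
open Crest.Agent.R4P.Walk560 (DT)
open Crest.Agent.R4P.LogL51 (isLf)
open Crest.Agent.R4P.PVd45 (jv_split3)
open Crest.Agent.R4P.PrG45 (bB_app)
open Crest.Agent.R4P.EnC48 (E2)

/-! ### total energies -/

section e2
variable {Λ : Type} [Fintype Λ]

lemma E2_nonneg (a : Λ → ℝ → ℝ) : 0 ≤ E2 a := I_nonneg fun _ => sq_nonneg _

lemma PB_tot {a : Λ → ℝ → ℝ} (ha : ∀ j, PB (a j)) : PB fun x => (∑ j, a j x) ^ 2 :=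
  BthT48.Fib.PB_sq (PB.sum _ fun j _ => ha j)

lemma E2_mono {a b : Λ → ℝ → ℝ} (ha : ∀ j, PB (a j)) (hb : ∀ j, PB (b j))
    (h : ∀ x, ∑ j, a j x ≤ ∑ j, b j x) : E2 a ≤ E2 b :=
  I_mono (PB_tot ha).integrableOn (PB_tot hb).integrableOn fun x =>
    pow_le_pow_left₀ (Finset.sum_nonneg fun j _ => (ha j).nonneg x) (h x) 2

lemma E2_add {a b : Λ → ℝ → ℝ} (ha : ∀ j, PB (a j)) (hb : ∀ j, PB (b j)) :
    E2 (fun j x => a j x + b j x) ≤ 2 * E2 a + 2 * E2 b := by
  have h1 : E2 (fun j x => a j x + b j x) ≤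
      I fun x => 2 * (∑ j, a j x) ^ 2 + 2 * (∑ j, b j x) ^ 2 := by
    refine I_mono (PB_tot fun j => (ha j).add (hb j)).integrableOn
      (((PB_tot ha).smul (by norm_num)).add ((PB_tot hb).smul (by norm_num))).integrableOn
      fun x => ?_
    show (∑ j, (a j x + b j x)) ^ 2 ≤ _
    rw [Finset.sum_add_distrib]
    nlinarith [sq_nonneg ((∑ j, a j x) - ∑ j, b j x)]
  refine h1.trans (le_of_eq ?_)
  rw [I_add ((PB_tot ha).smul (by norm_num : (0:ℝ) ≤ 2)).integrableOn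
    ((PB_tot hb).smul (by norm_num : (0:ℝ) ≤ 2)).integrableOn, I_smul, I_smul]
  rfl

lemma E2_pull {p : ℕ} (hp : 0 < p) {a : Λ → ℝ → ℝ} (ha : ∀ j, PB (a j)) :
    E2 (fun j x => a j (p * x)) = E2 a := I_pull hp (PB_tot ha)

lemma E2_zero : E2 (fun (_ : Λ) (_ : ℝ) => (0:ℝ)) = 0 := by
  unfold E2
  simp [I]

end e2

/-! ### trees -/

section tree
variable {Λ κ : Type} [Fintype Λ] [DecidableEq Λ] [Fintype κ] [DecidableEq κ]
variable {h : ℕ → ℝ} {p : ℕ}

/-- energy of a node which is not a leaf -/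
def FE (h : ℕ → ℝ) (t : DT Λ κ) : Prop := isLf t = true ∨ E2 t.g.val ≤ h t.top

/-- **the subtrees which are pulled have a bounded energy** -/
def StD (h : ℕ → ℝ) : DT Λ κ → Prop
  | .leaf _ _ => True
  | .br q w r t₁ t₀ v B G => E2 (nQ (.br q w r t₁ t₀ v B G)) ≤ h q ∧ t₁.All (FE h) ∧ t₀.All (FE h)
  | .add q r t₁ t₀ => (E2 t₁.g.val ≤ h q ∧ E2 t₀.g.val ≤ h q) ∧ t₁.All (FE h) ∧ t₀.All (FE h)
  | .up _ _ t => StD h t

/-- nonnegative contents, ties and pulls in the explicit form -/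
def Gd (t : DT Λ κ) : Prop := (∀ j, PB (t.g.val j)) ∧ VR t

lemma Gd.pb {t : DT Λ κ} (g : t.All Gd) : t.All fun t => ∀ j, PB (t.g.val j) :=
  g.mono fun _ h => h.1

lemma E2_nQ {q : ℕ} {w : ℝ} {r : Λ → κ} {t₁ t₀ : DT Λ κ} {v : Λ → ℝ → ℝ} {B G : κ → ℝ → ℝ}
    (hq : 0 < q) (g : (DT.br q w r t₁ t₀ v B G).All Gd) (j : Λ) (x : ℝ) :
    nQ (.br q w r t₁ t₀ v B G) j (q * x) ≤ (DT.br q w r t₁ t₀ v B G).g.val j x := by
  rcases g.1.2 with ⟨hw, hp, -⟩ | ⟨hw, hv, -⟩
  · have hw0 : w ≠ 0 := by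
      rw [hw]
      have : (0:ℝ) < q := by exact_mod_cast hp
      positivity
    unfold nQ
    simp only [if_neg hw0]
    exact (g.1.1 j).nonneg x
  · unfold nQ
    simp only [if_pos hw]
    exact (hv j x).ge

/-- **subtrees of a tree with bounded energies** -/
lemma StD_of {t : DT Λ κ} : ∀ {n : ℕ}, t.Col n → t.All Gd → t.All (FE h) → StD h t := by
  induction t with
  | leaf r f => intro n _ _ _; trivial
  | br q w r t₁ t₀ v B G ih₁ ih₀ =>
    intro n c g f
    have hq : 0 < q := c.1.pos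
    have f1 : E2 (DT.br q w r t₁ t₀ v B G).g.val ≤ h q := f.1.resolve_left (by simp [isLf])
    have pQ' : ∀ j, PB (nQ (.br q w r t₁ t₀ v B G) j) := fun j => PB_nQ (Gd.pb g) j
    refine ⟨?_, f.2.1, f.2.2⟩
    rw [← E2_pull hq pQ']
    exact (E2_mono (fun j => (pQ' j).pull q) g.1.1 fun x =>
      Finset.sum_le_sum fun j _ => E2_nQ hq g j x).trans f1
  | add q r t₁ t₀ ih₁ ih₀ =>
    intro n c g f
    have f1 : E2 (DT.add q r t₁ t₀).g.val ≤ h q := f.1.resolve_left (by simp [isLf])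
    have p1 := g.2.1.self.1
    have p0 := g.2.2.self.1
    refine ⟨⟨?_, ?_⟩, f.2.1, f.2.2⟩
    · refine (E2_mono p1 g.1.1 fun x => Finset.sum_le_sum fun j _ => ?_).trans f1
      have := (p0 j).nonneg x
      show t₁.g.val j x ≤ t₁.g.val j x + t₀.g.val j x
      linarith
    · refine (E2_mono p0 g.1.1 fun x => Finset.sum_le_sum fun j _ => ?_).trans f1
      have := (p1 j).nonneg x
      show t₀.g.val j x ≤ t₁.g.val j x + t₀.g.val j x
      linarith
  | up q Sp t ih => intro n c g f; exact ih c.2.2 g.2 f.2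

/-- pulled contents of a list -/
lemma pQ_jv {K : List (DT Λ κ)} (hp : 0 < p) (hK : ∀ s ∈ K, isB p s = true ∧ s.All Gd) (j : Λ)
    (x : ℝ) : pQ K j (p * x) ≤ jv K j x := by
  induction K with
  | nil => exact le_rfl
  | cons s K ih =>
    have ih' := ih fun t ht => hK t (List.mem_cons_of_mem _ ht)
    obtain ⟨h1, h2⟩ := hK s (by simp)
    obtain ⟨w, r, t₁, t₀, v, B, G, rfl⟩ := isB_eq h1
    have e1 : pQ (DT.br p w r t₁ t₀ v B G :: K) j (p * x) =
      nQ (.br p w r t₁ t₀ v B G) j (p * x) + pQ K j (p * x) := ls_cons _ _ _ _ _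
    rw [e1, jv_cons]
    exact add_le_add (E2_nQ hp h2 j x) ih'

lemma bB_gd {L : List (DT Λ κ)} (g : ∀ t ∈ L, t.All Gd) : ∀ s ∈ bB p L, isB p s = true ∧ s.All Gd :=
  fun s hs => by
    obtain ⟨h1, h2⟩ := List.mem_filter.1 hs
    obtain ⟨t, ht, h3⟩ := List.mem_flatMap.1 h1
    exact ⟨h2, rs_all p (g t ht) s h3⟩

lemma pba_gd {L : List (DT Λ κ)} (g : ∀ t ∈ L, t.All Gd) : PBA L := fun t ht => Gd.pb (g t ht)

/-- pulled contents of a bundle -/
lemma pQ_bB {L : List (DT Λ κ)} (hp : 0 < p) (g : ∀ t ∈ L, t.All Gd) (j : Λ) (x : ℝ) :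
    pQ (bB p L) j (p * x) ≤ jv L j x := by
  refine (pQ_jv hp (bB_gd g) j x).trans ?_
  have h1 := (pba_gd g).bL p
  have h2 := (pba_gd g).bN p
  have h3 := (PB_jv h1.self j).nonneg x
  have h4 := (PB_jv h2.self j).nonneg x
  rw [jv_split3 p L j x]
  linarith

lemma PB_pQ {L : List (DT Λ κ)} (g : ∀ t ∈ L, t.All Gd) (j : Λ) : PB (pQ (bB p L) j) :=
  PB_ls (fun t ht j => PB_nQ (Gd.pb (bB_gd g t ht).2) j) j

lemma pQ_app (A C : List (DT Λ κ)) (j : Λ) (x : ℝ) : pQ (A ++ C) j x = pQ A j x + pQ C j x := by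
  unfold pQ ls
  rw [List.map_append, List.sum_append]

/-- **one node** -/
lemma StD_E2 {t : DT Λ κ} (h0 : ∀ q, 0 ≤ h q) (hp : 0 < p) (g : t.All Gd) (s : StD h t) :
    E2 (pQ (bB p [t])) ≤ 4 * h p := by
  have hz : E2 (pQ ([] : List (DT Λ κ))) ≤ 4 * h p := by
    have e : pQ ([] : List (DT Λ κ)) = fun _ _ => 0 := rfl
    rw [e, E2_zero]
    have := h0 p
    linarith
  induction t with
  | leaf r f =>
    have e : bB p [DT.leaf r f] = [] := by simp [bB, rs, isB]
    rw [e]; exact hz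
  | br q w r t₁ t₀ v B G ih₁ ih₀ =>
    by_cases hq : q = p
    · subst hq
      have e : bB q [DT.br q w r t₁ t₀ v B G] = [DT.br q w r t₁ t₀ v B G] := by simp [bB, rs, isB]
      have e2 : pQ [DT.br q w r t₁ t₀ v B G] = nQ (.br q w r t₁ t₀ v B G) := by
        funext j y
        have : pQ [DT.br q w r t₁ t₀ v B G] j y = nQ (.br q w r t₁ t₀ v B G) j y +
          pQ [] j y := ls_cons _ _ _ _ _
        rw [this]
        show _ + 0 = _
        rw [add_zero]
      rw [e, e2]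
      have h1 := s.1
      have h2 := h0 q
      linarith
    · have e : bB p [DT.br q w r t₁ t₀ v B G] = [] := by simp [bB, rs, isB, hq]
      rw [e]; exact hz
  | add q r t₁ t₀ ih₁ ih₀ =>
    by_cases hq : q = p
    · subst hq
      have g1 : ∀ t ∈ [t₁], t.All Gd := fun t ht => by
        rw [List.mem_singleton] at ht; subst ht; exact g.2.1
      have g0 : ∀ t ∈ [t₀], t.All Gd := fun t ht => by
        rw [List.mem_singleton] at ht; subst ht; exact g.2.2
      have e : bB q [DT.add q r t₁ t₀] = bB q [t₁] ++ bB q [t₀] := by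
        simp [bB, rs, List.filter_append]
      have e2 : pQ (bB q [DT.add q r t₁ t₀]) =
          fun j y => pQ (bB q [t₁]) j y + pQ (bB q [t₀]) j y := by
        funext j y
        rw [e, pQ_app]
      have k1 : E2 (pQ (bB q [t₁])) ≤ E2 t₁.g.val := by
        rw [← E2_pull hp (fun j => PB_pQ g1 j)]
        refine E2_mono (fun j => (PB_pQ g1 j).pull q) g.2.1.self.1 fun x =>
          Finset.sum_le_sum fun j _ => ?_
        refine (pQ_bB hp g1 j x).trans (le_of_eq ?_)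
        rw [jv_cons, jv_nil, add_zero]
      have k0 : E2 (pQ (bB q [t₀])) ≤ E2 t₀.g.val := by
        rw [← E2_pull hp (fun j => PB_pQ g0 j)]
        refine E2_mono (fun j => (PB_pQ g0 j).pull q) g.2.2.self.1 fun x =>
          Finset.sum_le_sum fun j _ => ?_
        refine (pQ_bB hp g0 j x).trans (le_of_eq ?_)
        rw [jv_cons, jv_nil, add_zero]
      rw [e2]
      have h1 := E2_add (fun j => PB_pQ (p := q) g1 j) (fun j => PB_pQ (p := q) g0 j)
      have h2 := s.1.1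
      have h3 := s.1.2
      linarith
    · have e : bB p [DT.add q r t₁ t₀] = [] := by simp [bB, rs, isB, hq]
      rw [e]; exact hz
  | up q Sp t ih =>
    by_cases hq : q = p
    · subst hq
      have e : bB q [DT.up q Sp t] = bB q [t] := by simp [bB, rs]
      rw [e]
      exact ih g.2 s
    · have e : bB p [DT.up q Sp t] = [] := by simp [bB, rs, isB, hq]
      rw [e]; exact hz

/-- the resolved nodes -/
lemma StD_rs {t : DT Λ κ} : ∀ {n : ℕ}, t.Col n → t.All Gd → StD h t → ∀ s ∈ rs p t,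
    StD h s ∧ (s.Col n ∨ s.Col (p + 1)) := by
  induction t with
  | leaf r f =>
    intro n c g s u hu
    have : u = .leaf r f := by simpa [rs] using hu
    subst this; exact ⟨s, Or.inl c⟩
  | br q w r t₁ t₀ v B G ih₁ ih₀ =>
    intro n c g s u hu
    have : u = .br q w r t₁ t₀ v B G := by simpa [rs] using hu
    subst this; exact ⟨s, Or.inl c⟩
  | add q r t₁ t₀ ih₁ ih₀ =>
    intro n c g s u hu
    unfold rs at hu
    split_ifs at hu with hq
    · subst hq
      rcases List.mem_append.1 hu with h1 | h1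
      · obtain ⟨a, b⟩ := ih₁ c.2.2.1 g.2.1 (StD_of c.2.2.1 g.2.1 s.2.1) u h1
        exact ⟨a, Or.inr (b.elim id id)⟩
      · obtain ⟨a, b⟩ := ih₀ c.2.2.2 g.2.2 (StD_of c.2.2.2 g.2.2 s.2.2) u h1
        exact ⟨a, Or.inr (b.elim id id)⟩
    · have : u = .add q r t₁ t₀ := by simpa using hu
      subst this; exact ⟨s, Or.inl c⟩
  | up q Sp t ih =>
    intro n c g s u hu
    unfold rs at hu
    split_ifs at hu with hq
    · subst hq
      obtain ⟨a, b⟩ := ih c.2.2 g.2 s u hu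
      refine ⟨a, Or.inr (b.elim (fun b => ?_) id)⟩
      exact b.mono (Nat.le_succ q)
    · have : u = .up q Sp t := by simpa using hu
      subst this; exact ⟨s, Or.inl c⟩

/-- **energies of the pulled contents of a bundle** -/
def EO (h : ℕ → ℝ) (p : ℕ) (L : List (DT Λ κ)) : Prop :=
  (∀ t ∈ L, StD h t) ∧ (p ≠ 0 → E2 (pQ (bB p L)) ≤ 4 * h p)

/-- the children of the ties and pulls -/
lemma EO_ch {L : List (DT Λ κ)} (hp : p ≠ 0) (g : ∀ t ∈ L, t.All Gd)
    (c : ∀ t ∈ L, t.Col (p + 1)) (e : EO h p L) {ch : DT Λ κ → DT Λ κ}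
    (hc : ∀ w r t₁ t₀ v B G, ch (.br p w r t₁ t₀ v B G) = t₁ ∨
      (ch (.br p w r t₁ t₀ v B G) = t₀ ∧ w ≠ 0)) : EO h p ((bB p L).map ch) := by
  have hp0 : 0 < p := Nat.pos_of_ne_zero hp
  have hel : ∀ s ∈ bB p L, StD h s ∧ s.Col (p + 1) ∧ isB p s = true ∧ s.All Gd := fun s hs => by
    obtain ⟨h1, h2⟩ := bB_gd g s hs
    obtain ⟨t, ht, h3⟩ := List.mem_flatMap.1 (List.mem_filter.1 hs).1
    obtain ⟨a, b⟩ := StD_rs (c t ht) (g t ht) (e.1 t ht) s h3
    exact ⟨a, b.elim id id, h1, h2⟩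
  refine ⟨fun t ht => ?_, fun _ => ?_⟩
  · obtain ⟨s, hs, rfl⟩ := List.mem_map.1 ht
    obtain ⟨a1, a2, a3, a4⟩ := hel s hs
    obtain ⟨w, r, t₁, t₀, v, B, G, rfl⟩ := isB_eq a3
    rcases hc w r t₁ t₀ v B G with h1 | ⟨h1, -⟩
    · rw [h1]; exact StD_of a2.2.2.1 a4.2.1 a1.2.1
    · rw [h1]; exact StD_of a2.2.2.2.1 a4.2.2 a1.2.2
  · have gch : ∀ {K : List (DT Λ κ)}, (∀ s ∈ K, s.Col (p + 1) ∧ isB p s = true ∧ s.All Gd) →
        ∀ t ∈ K.map ch, t.All Gd := fun hK t ht => by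
      obtain ⟨s, hs, rfl⟩ := List.mem_map.1 ht
      obtain ⟨a2, a3, a4⟩ := hK s hs
      obtain ⟨w, r, t₁, t₀, v, B, G, rfl⟩ := isB_eq a3
      rcases hc w r t₁ t₀ v B G with h1 | ⟨h1, -⟩
      · rw [h1]; exact a4.2.1
      · rw [h1]; exact a4.2.2
    have key : ∀ {K : List (DT Λ κ)}, (∀ s ∈ K, s.Col (p + 1) ∧ isB p s = true ∧ s.All Gd) →
        ∀ j x, pQ (bB p (K.map ch)) j (p * x) ≤ pQ K j x := by
      intro K
      induction K with
      | nil => intro _ j x; exact le_rfl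
      | cons s K ih =>
        intro hK j x
        have ih' := ih (fun t ht => hK t (List.mem_cons_of_mem _ ht)) j x
        obtain ⟨a2, a3, a4⟩ := hK s (by simp)
        obtain ⟨w, r, t₁, t₀, v, B, G, rfl⟩ := isB_eq a3
        have e1 : bB p ((DT.br p w r t₁ t₀ v B G :: K).map ch) =
            bB p [ch (.br p w r t₁ t₀ v B G)] ++ bB p (K.map ch) := by
          rw [List.map_cons, ← bB_app]
          rfl
        have e2 : pQ (DT.br p w r t₁ t₀ v B G :: K) j x =
          nQ (.br p w r t₁ t₀ v B G) j x + pQ K j x := ls_cons _ _ _ _ _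
        rw [e1, pQ_app, e2]
        refine add_le_add ?_ ih'
        by_cases hw : w = 0
        · have h1 : ch (.br p w r t₁ t₀ v B G) = t₁ :=
            (hc w r t₁ t₀ v B G).resolve_right fun h => h.2 hw
          rw [h1]
          have e3 : nQ (.br p w r t₁ t₀ v B G) j x = t₁.g.val j x := by
            unfold nQ; simp only [if_pos hw]
          rw [e3]
          refine (pQ_bB hp0 (fun t ht => by
            rw [List.mem_singleton] at ht; subst ht; exact a4.2.1) j x).trans (le_of_eq ?_)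
          rw [jv_cons, jv_nil, add_zero]
        · have h1 : (ch (.br p w r t₁ t₀ v B G)).top < p := by
            have h2 := a2.2.2.2.2 hw
            rcases hc w r t₁ t₀ v B G with h1 | ⟨h1, -⟩
            · rw [h1]; exact h2.1.top_lt hp0
            · rw [h1]; exact h2.2.top_lt hp0
          rw [(PrG45.one_low h1).1]
          exact (PB_nQ (Gd.pb a4) j).nonneg x
    have g' : ∀ t ∈ (bB p L).map ch, t.All Gd := gch fun s hs => (hel s hs).2
    refine le_trans ?_ (e.2 hp)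
    rw [← E2_pull hp0 (fun j => PB_pQ g' j)]
    exact E2_mono (fun j => (PB_pQ g' j).pull p) (fun j => PB_pQ g j) fun x =>
      Finset.sum_le_sum fun j _ => key (fun s hs => (hel s hs).2) j x

lemma EO.P {L : List (DT Λ κ)} (hp : p ≠ 0) (g : ∀ t ∈ L, t.All Gd)
    (c : ∀ t ∈ L, t.Col (p + 1)) (e : EO h p L) : EO h p ((bB p L).map chP) :=
  EO_ch hp g c e fun _ _ _ _ _ _ _ => Or.inl rfl

lemma EO.N {L : List (DT Λ κ)} (hp : p ≠ 0) (g : ∀ t ∈ L, t.All Gd)
    (c : ∀ t ∈ L, t.Col (p + 1)) (e : EO h p L) : EO h p ((bB p L).map chN) :=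
  EO_ch hp g c e fun w r t₁ t₀ v B G => by
    have e6 : chN (DT.br p w r t₁ t₀ v B G) = if w = 0 then t₁ else t₀ := rfl
    rw [e6]
    by_cases hw : w = 0
    · rw [if_pos hw]; exact Or.inl rfl
    · rw [if_neg hw]; exact Or.inr ⟨rfl, hw⟩

lemma EO.R {L : List (DT Λ κ)} (h0 : ∀ q, 0 ≤ h q) (hp : p ≠ 0) (g : ∀ t ∈ L, t.All Gd)
    (c : ∀ t ∈ L, t.Col (p + 1)) (len : (bN p L).length ≤ 1) (e : EO h p L) :
    EO h (p - 1) (bN p L) := by
  have hel : ∀ s ∈ bN p L, StD h s ∧ s.All Gd := fun s hs => by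
    obtain ⟨t, ht, h3⟩ := List.mem_flatMap.1 (List.mem_filter.1 (List.mem_filter.1 hs).1).1
    exact ⟨(StD_rs (c t ht) (g t ht) (e.1 t ht) s h3).1, rs_all p (g t ht) s h3⟩
  refine ⟨fun s hs => (hel s hs).1, fun hq => ?_⟩
  match hL : bN p L with
  | [] =>
    have e1 : pQ (bB (p - 1) ([] : List (DT Λ κ))) = fun _ _ => 0 := rfl
    rw [e1, E2_zero]
    have := h0 (p - 1)
    linarith
  | [t] =>
    obtain ⟨a, b⟩ := hel t (by rw [hL]; simp)
    exact StD_E2 h0 (Nat.pos_of_ne_zero hq) b a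
  | t :: t' :: L' =>
    rw [hL] at len
    simp only [List.length_cons] at len
    omega

/-- the start -/
lemma EO.one {t : DT Λ κ} (h0 : ∀ q, 0 ≤ h q) (g : t.All Gd) (s : StD h t) : EO h p [t] :=
  ⟨fun u hu => by rw [List.mem_singleton] at hu; subst hu; exact s,
    fun hp => StD_E2 h0 (Nat.pos_of_ne_zero hp) g s⟩

end tree

end Crest.Agent.R4P.EnO48
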