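import Crest.Agent.R4P.EnO_48

/-!
R4 (S0004) with powers, T3, helper48: **the start of the walk and the sums over the true ties** for the second
order births.

* `st_FE` : `BootF` at a node gives `EnO48.StD (hX N Kb)` of its tree;
* **`ctx_tsC`** : sums over the true ties, `F q a b ≤ g q (E2 a + E2 b + 1)`, `g q q (log q)^(SC N e) ≤ 1`.
-/

set_option autoImplicit false
set_option linter.unusedSectionVars false
set_option linter.unusedVariables false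
open MeasureTheory Filter Set

namespace Crest.Agent.R4P.EnP48

open Crest.Agent.R4.Tour104 Crest.Agent.R4.Tour758 Crest.Agent.R4.Avg758 Crest.Agent.R4.Clos758
open Crest.Agent.R4.ClosL758 Crest.Agent.R4.ClosG758 Crest.Agent.R4.ClosR758
open Crest.Agent.R4P.ClosR442 Crest.Agent.R4P.Grp36 Crest.Agent.R4P.GWa343 Crest.Agent.R4P.GWb343
open Crest.Agent.R4P.GWc343 hiding SB
open Crest.Agent.R4P.VR407 Crest.Agent.R4P.Bp407 Crest.Agent.R4P.MSd343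
open Crest.Agent.R4P.DTp26 (jv jv_nil jv_cons jv_append PB_jv)
open Crest.Agent.R4P.Walk560 (DT)
open Crest.Agent.R4P.LogL51 (isLf)
open Crest.Agent.R4P.EnC48 (E2)
open Crest.Agent.R4P.EnO48

/-! ### the start of the walk -/

section start
open Crest.Agent.R4.Fam464
open Crest.Agent.R4P.Xfer36 Crest.Agent.R4P.TopC36 Crest.Agent.R4P.PN36
open Crest.Agent.R4P.Cnt588 Crest.Agent.R4P.Item758
open Crest.Agent.R4P.NodeG33 Crest.Agent.R4P.WtI25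
open Crest.Agent.R4P.Bld532 (NS All NodeOk Bk Ws_nonneg Ws_mono)
open Crest.Agent.R4P.SecO25
open Crest.Agent.R4P.JnE5 Crest.Agent.R4P.PrG45 Crest.Agent.R4P.PrJ45 Crest.Agent.R4P.PrK45
open Crest.Agent.R4P.Data758 Crest.Agent.R4P.Skel189
open Crest.Agent.R4P.Step588 (ctx_NDt All_All)
open Crest.Agent.R4P.AsmX26 (QE ctx_QE)
open Crest.Agent.R4P.SkelF29 (BootF)
open Crest.Agent.R4P.Strip29 (AdF)
open Crest.Agent.R4P.Frame758 Crest.Agent.R4.Soft104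
open Crest.Agent.R4P.CtxNF36 (par_PG)
open Crest.Agent.R4P.EnC48 hiding E2

variable {N : Skel189.Num} {γ : ℝ} {p0 P₀ : ℕ} {X : Ctx N γ p0 P₀} {j₀ : X.c.Lam} {Kb : ℝ}

/-- bound of the energies of the nodes -/
noncomputable def hX (N : Skel189.Num) (Kb : ℝ) (q : ℕ) : ℝ :=
  Kb * (Real.log q ^ N.c2 + Real.log q ^ N.c2 * Real.log q ^ N.c2)

lemma hX0 (N : Skel189.Num) (hK : 0 ≤ Kb) (q : ℕ) : 0 ≤ hX N Kb q := by
  have := Real.rpow_nonneg (Real.log_natCast_nonneg q) N.c2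
  unfold hX
  positivity

/-- energy of a node -/
lemma smr_E2 {s : NS} {t : IT} (hm : X.tn j₀ (X.g s t) = s.c * Ws (w X.ψ) t.items)
    (h : SMR AdF (X.tm j₀) (X.tn j₀) (fun _ _ => 0) Kb (X.g s t)) :
    E2 (tX X s t).g.val ≤ Kb * (s.c * Ws (w X.ψ) t.items +
      s.c * Ws (w X.ψ) t.items * (s.c * Ws (w X.ψ) t.items)) := by
  have k := h Finset.univ (Or.inr rfl)
  have e0 : (fun x => tt Finset.univ (X.g s t) x ^ 2) =
      fun y => (∑ j, (tX X s t).g.val j y) ^ 2 := by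
    funext y
    unfold tt
    rw [rv_univ, Item758.Par.toDT_g]
    rfl
  rw [e0] at k
  have f0 : X.tm j₀ (X.g s t) Finset.univ = s.c * Ws (w X.ψ) t.items := hm
  rw [f0, hm, add_zero] at k
  exact k

lemma smr_hX {s : NS} {t : IT} {q : ℕ} (hK : 0 ≤ Kb)
    (hm : X.tn j₀ (X.g s t) = s.c * Ws (w X.ψ) t.items)
    (m0 : 0 ≤ s.c * Ws (w X.ψ) t.items) (hi : s.c * Ws (w X.ψ) t.items ≤ Real.log q ^ N.c2)
    (h : SMR AdF (X.tm j₀) (X.tn j₀) (fun _ _ => 0) Kb (X.g s t)) :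
    E2 (tX X s t).g.val ≤ hX N Kb q := by
  refine (smr_E2 hm h).trans ?_
  unfold hX
  have h1 := mul_le_mul hi hi m0 (m0.trans hi)
  exact mul_le_mul_of_nonneg_left (add_le_add hi h1) hK

lemma wnn (X : Ctx N γ p0 P₀) : ∀ q, 0 ≤ w X.ψ q := fun q => by
  have := X.sys.nonneg q
  unfold w
  positivity

/-- **the subtrees of a node** -/
lemma all_FE (hK : 0 ≤ Kb) (t : IT) : ∀ s : NS, All (QE X j₀ (fun _ _ => True)) s t →
    (X.g s t).All (SMR AdF (X.tm j₀) (X.tn j₀) (fun _ _ => 0) Kb) →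
    (tX X s t).All (FE (hX N Kb)) := by
  induction t with
  | leaf S => intro s _ _; exact Or.inl rfl
  | br q Sp t₁ t₀ ih₁ ih₀ =>
    intro s h k
    obtain ⟨-, -, -, -, -, -, -, -, -, hlo, hhi, -, -⟩ := h.self.nd.self.node
    have m0 : 0 ≤ s.c * Ws (w X.ψ) (t₁.items ∪ t₀.items) :=
      mul_nonneg h.self.nf.c0.le (Ws_nonneg (wnn X) _)
    have hhi' : s.c * Ws (w X.ψ) (t₁.items ∪ t₀.items) ≤ Real.log q ^ N.c2 := hhi
    have hm : X.tn j₀ (X.g s (.br q Sp t₁ t₀)) =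
      s.c * Ws (w X.ψ) (IT.br q Sp t₁ t₀).items := h.self.mass
    have ks := k.self
    have e : E2 (tX X s (.br q Sp t₁ t₀)).g.val ≤ hX N Kb q :=
      smr_hX (s := s) (t := .br q Sp t₁ t₀) (q := q) hK hm m0 hhi' ks
    have f : FE (hX N Kb) (tX X s (.br q Sp t₁ t₀)) := Or.inr e
    exact ⟨f, ih₁ _ h.2.1 k.2.1, ih₀ _ h.2.2 k.2.2⟩
  | add q t₁ t₀ ih₁ ih₀ =>
    intro s h k
    obtain ⟨-, -, -, -, -, -, hlo, hhi, -⟩ := h.self.nd.self.node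
    have m0 : 0 ≤ s.c * Ws (w X.ψ) (t₁.items ∪ t₀.items) :=
      mul_nonneg h.self.nf.c0.le (Ws_nonneg (wnn X) _)
    have hhi' : s.c * Ws (w X.ψ) (t₁.items ∪ t₀.items) ≤ Real.log q ^ N.c2 := hhi
    have hm : X.tn j₀ (X.g s (.add q t₁ t₀)) =
      s.c * Ws (w X.ψ) (IT.add q t₁ t₀).items := h.self.mass
    have ks := k.self
    have e : E2 (tX X s (.add q t₁ t₀)).g.val ≤ hX N Kb q :=
      smr_hX (s := s) (t := .add q t₁ t₀) (q := q) hK hm m0 hhi' ks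
    have f : FE (hX N Kb) (tX X s (.add q t₁ t₀)) := Or.inr e
    have k1 : (X.g ⟨q + 1, s.c, s.A, s.B⟩ t₁).All
      (SMR AdF (X.tm j₀) (X.tn j₀) (fun _ _ => 0) Kb) := k.2.1
    have k0 : (X.g ⟨q + 1, s.c, s.A, s.B⟩ t₀).All
      (SMR AdF (X.tm j₀) (X.tn j₀) (fun _ _ => 0) Kb) := k.2.2
    exact ⟨f, ih₁ ⟨q + 1, s.c, s.A, s.B⟩ h.2.1 k1, ih₀ ⟨q + 1, s.c, s.A, s.B⟩ h.2.2 k0⟩
  | up q Sp t ih =>
    intro s h k
    obtain ⟨-, -, -, -, -, -, -, hlo, hhi, -⟩ := h.self.nd.self.node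
    have m0 : 0 ≤ s.c * Ws (w X.ψ) t.items :=
      mul_nonneg h.self.nf.c0.le (Ws_nonneg (wnn X) _)
    have hhi' : s.c * Ws (w X.ψ) t.items ≤ Real.log q ^ N.c2 := hhi
    have hm : X.tn j₀ (X.g s (.up q Sp t)) = s.c * Ws (w X.ψ) (IT.up q Sp t).items := h.self.mass
    have ks := k.self
    have e : E2 (tX X s (.up q Sp t)).g.val ≤ hX N Kb q :=
      smr_hX (s := s) (t := .up q Sp t) (q := q) hK hm m0 hhi' ks
    have f : FE (hX N Kb) (tX X s (.up q Sp t)) := Or.inr e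
    have k1 : (X.g ⟨q, s.c, s.A, s.B⟩ t).All
      (SMR AdF (X.tm j₀) (X.tn j₀) (fun _ _ => 0) Kb) := k
    exact ⟨f, ih ⟨q, s.c, s.A, s.B⟩ h.2 k1⟩
  | pl q t ih =>
    intro s h k
    obtain ⟨-, -, -, -, -, -, hhi⟩ := h.self.nd.self.node
    have m0 : 0 ≤ s.c * Ws (w X.ψ) t.items :=
      mul_nonneg h.self.nf.c0.le (Ws_nonneg (wnn X) _)
    have hhi' : s.c * Ws (w X.ψ) t.items ≤ Real.log q ^ N.c2 := hhi
    have hm : X.tn j₀ (X.g s (.pl q t)) = s.c * Ws (w X.ψ) (IT.pl q t).items := h.self.mass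
    have ks := k.self
    have e : E2 (tX X s (.pl q t)).g.val ≤ hX N Kb q :=
      smr_hX (s := s) (t := .pl q t) (q := q) hK hm m0 hhi' ks
    have f : FE (hX N Kb) (tX X s (.pl q t)) := Or.inr e
    have k1 : (X.g ⟨q + 1, s.c, s.A * q, s.B⟩ t).All
      (SMR AdF (X.tm j₀) (X.tn j₀) (fun _ _ => 0) Kb) := k.2.1
    exact ⟨f, ih ⟨q + 1, s.c, s.A * q, s.B⟩ h.2 k1, Or.inl rfl⟩
  | far q t₁ t₀ ih₁ ih₀ =>
    intro s h k
    obtain ⟨-, -, -, -, -, -, hlo, hhi, -⟩ := h.self.nd.self.node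
    have m0 : 0 ≤ s.c * Ws (w X.ψ) (t₁.items ∪ t₀.items) :=
      mul_nonneg h.self.nf.c0.le (Ws_nonneg (wnn X) _)
    have hhi' : s.c * Ws (w X.ψ) (t₁.items ∪ t₀.items) ≤ Real.log q ^ N.c2 := hhi
    have hm : X.tn j₀ (X.g s (.far q t₁ t₀)) =
      s.c * Ws (w X.ψ) (IT.far q t₁ t₀).items := h.self.mass
    have ks := k.self
    have e : E2 (tX X s (.far q t₁ t₀)).g.val ≤ hX N Kb q :=
      smr_hX (s := s) (t := .far q t₁ t₀) (q := q) hK hm m0 hhi' ks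
    have f : FE (hX N Kb) (tX X s (.far q t₁ t₀)) := Or.inr e
    have k1 : (X.g ⟨q + 1, s.c, s.A, s.B⟩ t₁).All
      (SMR AdF (X.tm j₀) (X.tn j₀) (fun _ _ => 0) Kb) := k.2.1
    have k0 : (X.g ⟨q + 1, s.c, s.A, s.B⟩ t₀).All
      (SMR AdF (X.tm j₀) (X.tn j₀) (fun _ _ => 0) Kb) := k.2.2
    exact ⟨f, ih₁ ⟨q + 1, s.c, s.A, s.B⟩ h.2.1 k1, ih₀ ⟨q + 1, s.c, s.A, s.B⟩ h.2.2 k0⟩

/-- **the start** -/
theorem st_FE (hK : 0 ≤ Kb) (t : IT) : ∀ s : NS, All (QE X j₀ (fun _ _ => True)) s t →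
    BootF X j₀ (fun _ _ => 0) Kb s t → StD (hX N Kb) (tX X s t) := by
  induction t with
  | leaf S => intro s _ _; trivial
  | br q Sp t₁ t₀ ih₁ ih₀ =>
    intro s h k
    have hq : 0 < q := h.self.nd.self.node.1.pos
    have hne : (1 / (q : ℝ)) ≠ 0 := by
      have : (0:ℝ) < q := by exact_mod_cast hq
      positivity
    refine ⟨?_, all_FE hK t₁ _ h.2.1 k.1, all_FE hK t₀ _ h.2.2 k.2⟩
    have e : nQ (tX X s (.br q Sp t₁ t₀)) = fun _ _ => 0 := by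
      funext j y
      exact if_neg hne
    have e2 : E2 (nQ (tX X s (.br q Sp t₁ t₀))) ≤ hX N Kb q := by
      rw [e, E2_zero]
      exact hX0 N hK q
    exact e2
  | add q t₁ t₀ ih₁ ih₀ =>
    intro s h k
    obtain ⟨-, -, -, -, -, -, hlo, hhi, -⟩ := h.self.nd.self.node
    have c0 := h.self.nf.c0.le
    have k1 : (X.g ⟨q + 1, s.c, s.A, s.B⟩ t₁).All
      (SMR AdF (X.tm j₀) (X.tn j₀) (fun _ _ => 0) Kb) := k.1
    have k0 : (X.g ⟨q + 1, s.c, s.A, s.B⟩ t₀).All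
      (SMR AdF (X.tm j₀) (X.tn j₀) (fun _ _ => 0) Kb) := k.2
    have hhi' : s.c * Ws (w X.ψ) (t₁.items ∪ t₀.items) ≤ Real.log q ^ N.c2 := hhi
    have i1 : s.c * Ws (w X.ψ) t₁.items ≤ Real.log q ^ N.c2 :=
      (mul_le_mul_of_nonneg_left (Ws_mono (wnn X) Finset.subset_union_left) c0).trans hhi'
    have i0 : s.c * Ws (w X.ψ) t₀.items ≤ Real.log q ^ N.c2 :=
      (mul_le_mul_of_nonneg_left (Ws_mono (wnn X) Finset.subset_union_right) c0).trans hhi'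
    have n1 : 0 ≤ s.c * Ws (w X.ψ) t₁.items := mul_nonneg c0 (Ws_nonneg (wnn X) _)
    have n0 : 0 ≤ s.c * Ws (w X.ψ) t₀.items := mul_nonneg c0 (Ws_nonneg (wnn X) _)
    have m1 : X.tn j₀ (X.g ⟨q + 1, s.c, s.A, s.B⟩ t₁) = s.c * Ws (w X.ψ) t₁.items :=
      h.2.1.self.mass
    have m0 : X.tn j₀ (X.g ⟨q + 1, s.c, s.A, s.B⟩ t₀) = s.c * Ws (w X.ψ) t₀.items :=
      h.2.2.self.mass
    have e1 : E2 (tX X ⟨q + 1, s.c, s.A, s.B⟩ t₁).g.val ≤ hX N Kb q :=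
      smr_hX (s := ⟨q + 1, s.c, s.A, s.B⟩) hK m1 n1 i1 k1.self
    have e0 : E2 (tX X ⟨q + 1, s.c, s.A, s.B⟩ t₀).g.val ≤ hX N Kb q :=
      smr_hX (s := ⟨q + 1, s.c, s.A, s.B⟩) hK m0 n0 i0 k0.self
    exact ⟨⟨e1, e0⟩, all_FE hK t₁ ⟨q + 1, s.c, s.A, s.B⟩ h.2.1 k1,
      all_FE hK t₀ ⟨q + 1, s.c, s.A, s.B⟩ h.2.2 k0⟩
  | up q Sp t ih => intro s h k; exact ih ⟨q, s.c, s.A, s.B⟩ h.2 k
  | pl q t ih =>
    intro s h k
    obtain ⟨-, -, -, -, -, -, hhi⟩ := h.self.nd.self.node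
    have c0 := h.self.nf.c0.le
    have k1 : (X.g ⟨q + 1, s.c, s.A * q, s.B⟩ t).All
      (SMR AdF (X.tm j₀) (X.tn j₀) (fun _ _ => 0) Kb) := k.1
    refine ⟨?_, all_FE hK t ⟨q + 1, s.c, s.A * q, s.B⟩ h.2 k1, Or.inl rfl⟩
    have e : nQ (tX X s (.pl q t)) = (tX X ⟨q + 1, s.c, s.A * q, s.B⟩ t).g.val := by
      funext j y
      exact if_pos rfl
    have e2 : E2 (nQ (tX X s (.pl q t))) ≤ hX N Kb q := by
      rw [e]
      exact smr_hX (s := ⟨q + 1, s.c, s.A * q, s.B⟩) hK h.2.self.mass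
        (mul_nonneg c0 (Ws_nonneg (wnn X) _)) hhi k1.self
    exact e2
  | far q t₁ t₀ ih₁ ih₀ =>
    intro s h k
    obtain ⟨-, -, -, -, -, -, hlo, hhi, -⟩ := h.self.nd.self.node
    have c0 := h.self.nf.c0.le
    have k1 : (X.g ⟨q + 1, s.c, s.A, s.B⟩ t₁).All
      (SMR AdF (X.tm j₀) (X.tn j₀) (fun _ _ => 0) Kb) := k.1
    have k0 : (X.g ⟨q + 1, s.c, s.A, s.B⟩ t₀).All
      (SMR AdF (X.tm j₀) (X.tn j₀) (fun _ _ => 0) Kb) := k.2
    have hhi' : s.c * Ws (w X.ψ) (t₁.items ∪ t₀.items) ≤ Real.log q ^ N.c2 := hhi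
    have i1 : s.c * Ws (w X.ψ) t₁.items ≤ Real.log q ^ N.c2 :=
      (mul_le_mul_of_nonneg_left (Ws_mono (wnn X) Finset.subset_union_left) c0).trans hhi'
    have i0 : s.c * Ws (w X.ψ) t₀.items ≤ Real.log q ^ N.c2 :=
      (mul_le_mul_of_nonneg_left (Ws_mono (wnn X) Finset.subset_union_right) c0).trans hhi'
    have n1 : 0 ≤ s.c * Ws (w X.ψ) t₁.items := mul_nonneg c0 (Ws_nonneg (wnn X) _)
    have n0 : 0 ≤ s.c * Ws (w X.ψ) t₀.items := mul_nonneg c0 (Ws_nonneg (wnn X) _)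
    have m1 : X.tn j₀ (X.g ⟨q + 1, s.c, s.A, s.B⟩ t₁) = s.c * Ws (w X.ψ) t₁.items :=
      h.2.1.self.mass
    have m0 : X.tn j₀ (X.g ⟨q + 1, s.c, s.A, s.B⟩ t₀) = s.c * Ws (w X.ψ) t₀.items :=
      h.2.2.self.mass
    have e1 : E2 (tX X ⟨q + 1, s.c, s.A, s.B⟩ t₁).g.val ≤ hX N Kb q :=
      smr_hX (s := ⟨q + 1, s.c, s.A, s.B⟩) hK m1 n1 i1 k1.self
    have e0 : E2 (tX X ⟨q + 1, s.c, s.A, s.B⟩ t₀).g.val ≤ hX N Kb q :=
      smr_hX (s := ⟨q + 1, s.c, s.A, s.B⟩) hK m0 n0 i0 k0.self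
    exact ⟨⟨e1, e0⟩, all_FE hK t₁ ⟨q + 1, s.c, s.A, s.B⟩ h.2.1 k1,
      all_FE hK t₀ ⟨q + 1, s.c, s.A, s.B⟩ h.2.2 k0⟩

/-! ### sums over the true ties with a mass term -/

/-- exponent of the rates -/
noncomputable def SC (N : Skel189.Num) (e : ℝ) : ℝ := EnC48.SB N e + N.C1

/-- **sums over the true ties of the energies of the children plus one** -/
theorem ctx_tsC (N : Skel189.Num) {M e : ℝ} (hM : 0 ≤ M) (he : 0 ≤ e) {ε : ℝ} (hε : 0 < ε) :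
    ∃ p₁ : ℕ, ∀ p0 ≥ p₁, ∀ (γ : ℝ) (P₀ : ℕ) (X : Ctx N γ p0 P₀) (j₀ : X.c.Lam) (Kb : ℝ), 0 ≤ Kb →
      Kb ≤ M * Real.log p0 ^ e →
      All (fun u τ => BootF X j₀ (fun _ _ => 0) Kb u τ → ∀ (g : ℕ → ℝ)
        (F : ℕ → (X.c.Lam → ℝ → ℝ) → (X.c.Lam → ℝ → ℝ) → ℝ),
        (∀ q, p0 < q → 0 ≤ g q ∧ g q * q * Real.log q ^ SC N e ≤ 1) →
        (∀ q, p0 < q → ∀ a b : X.c.Lam → ℝ → ℝ, (∀ j, PB (a j)) → (∀ j, PB (b j)) →
          F q a b ≤ g q * (E2 a + E2 b + 1)) →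
        ts F (tX X u τ) ≤ ε * X.mu j₀ u τ Finset.univ) ⟨top X.S, 1, 1, 1⟩ X.c.t := by
  obtain ⟨p1, hp1, h1⟩ := log_big (12 * M + 1) hε
  refine ⟨p1, fun p0 hp0 γ P₀ X j₀ Kb hK0 hK => ?_⟩
  have hψ := wnn X
  have hC1 : 0 ≤ N.C1 := N.hC1
  have hQE := ctx_QE X j₀ (Q' := fun _ _ => True) (All.mono (fun _ _ _ => trivial) (ctx_NDt X))
  refine All.mono (fun u τ hh hb g F hg hF => ?_)
    ((All_All _ _ hQE).and ((ctx_RgN j₀).and (All_All _ _ (ctx_RgN j₀))))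
  obtain ⟨hq, hr, hra⟩ := hh
  have hkid := kidE_below X τ u hb
  rw [ts_tsum X F τ u hr.nok]
  set a : ℕ → ℝ := fun q => (12 * M + 1) * (1 / ((q : ℝ) * Real.log q ^ 2)) with ha
  have ha0 : ∀ q, 0 ≤ a q := fun q => by
    have := Real.log_natCast_nonneg q
    positivity
  have hmu : X.mu j₀ u τ Finset.univ = u.c * Ws (w X.ψ) τ.items := hq.self.mass
  have hc0' : 0 ≤ u.c := hq.self.nf.c0.le
  rw [hmu]
  have hsum : ∀ n, Fa a X.par.p0 n ≤ ε := by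
    intro n
    have h3 : Fa a X.par.p0 n =
        (12 * M + 1) * ∑ q ∈ Finset.Ioo p0 n, 1 / ((q : ℝ) * Real.log q ^ 2) := by
      rw [Finset.mul_sum]
      rfl
    rw [h3]
    refine le_trans (mul_le_mul_of_nonneg_left (tail2 (by omega) n) (by positivity)) (h1 p0 hp0)
  refine le_trans (tsum_le (P := X.par) (W := w X.ψ) ha0 hψ τ u (All.mono (fun s t hst => ?_)
    ((All_All _ _ hq).and (hkid.and hra)))) (mul_le_mul_of_nonneg_right (hsum _)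
      (mul_nonneg hc0' (Ws_nonneg hψ _)))
  obtain ⟨h, k, r⟩ := hst
  refine ⟨h.self.nd.self.node, h.self.nf.c0.le, fun q Sp t₁ t₀ e' => ?_, fun q t' e' => ?_⟩
  · subst e'
    have hpq : p0 < q := h.self.nd.self.node.2.2.1
    obtain ⟨-, -, -, -, -, -, -, -, -, hlo, -⟩ := h.self.nd.self.node
    have hq3 : 3 ≤ q := by omega
    have hL := Bld532.one_le_log_nat hq3
    have hL0 : 0 < Real.log q := by linarith
    have hq0 : (0:ℝ) < q := by positivity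
    obtain ⟨g0, g1⟩ := hg q hpq
    have b1 := hF q hpq _ _ r.pb.2.1.self r.pb.2.2.self
    have b2 := kid_le (by omega) hM he hK0 hK h k
    set μ : ℝ := s.c * Ws (w X.ψ) (t₁.items ∪ t₀.items) with hμ
    have hμ0 : 0 ≤ μ := mul_nonneg h.self.nf.c0.le (Ws_nonneg hψ _)
    show F q (tX X ⟨q, s.c / (1 - 1 / (q : ℝ)), s.A * q, s.B⟩ t₁).g.val
      (tX X ⟨q, s.c * q, s.A, s.B * q⟩ t₀).g.val ≤ a q * μ
    have hlo' : Real.log q ^ (-N.C1) ≤ μ := hlo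
    set L := Real.log (q : ℝ) with hLd
    have hE0 : 0 ≤ e + (N.B + (N.B + N.c2)) := by
      have := N.hB; have := N.hc2
      linarith
    have c1 : 1 ≤ L ^ N.C1 * μ := by
      have h5 : 0 < L ^ N.C1 := Real.rpow_pos_of_pos hL0 _
      have h6 := mul_le_mul_of_nonneg_left hlo' h5.le
      rw [← Real.rpow_add hL0, add_neg_cancel, Real.rpow_zero] at h6
      exact h6
    have c2 : L ^ (e + (N.B + (N.B + N.c2))) ≤ L ^ (e + (N.B + (N.B + N.c2)) + N.C1) :=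
      Real.rpow_le_rpow_of_exponent_le hL (by linarith)
    have c3 : L ^ N.C1 ≤ L ^ (e + (N.B + (N.B + N.c2)) + N.C1) :=
      Real.rpow_le_rpow_of_exponent_le hL (by linarith)
    set R := L ^ (e + (N.B + (N.B + N.c2)) + N.C1) with hR
    have R0 : 0 ≤ R := Real.rpow_nonneg hL0.le _
    have b3 : E2 (tX X ⟨q, s.c / (1 - 1 / (q : ℝ)), s.A * q, s.B⟩ t₁).g.val +
        E2 (tX X ⟨q, s.c * q, s.A, s.B * q⟩ t₀).g.val + 1 ≤ (12 * M + 1) * R * μ := by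
      have d1 : 12 * M * L ^ (e + (N.B + (N.B + N.c2))) * μ ≤ 12 * M * R * μ :=
        mul_le_mul_of_nonneg_right (mul_le_mul_of_nonneg_left c2 (by positivity)) hμ0
      have d2 : L ^ N.C1 * μ ≤ R * μ := mul_le_mul_of_nonneg_right c3 hμ0
      linarith
    refine b1.trans ((mul_le_mul_of_nonneg_left b3 g0).trans ?_)
    rw [← mul_assoc]
    refine mul_le_mul_of_nonneg_right ?_ hμ0
    have eS : L ^ SC N e = R * L ^ 2 := by
      unfold SC EnC48.SB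
      rw [hR, ← Real.rpow_two, ← Real.rpow_add hL0]
      congr 1
      ring
    rw [eS] at g1
    show _ ≤ (12 * M + 1) * (1 / ((q : ℝ) * Real.log q ^ 2))
    rw [mul_one_div, le_div_iff₀ (by positivity)]
    nlinarith
  · subst e'
    exact le_rfl

end start

end Crest.Agent.R4P.EnP48
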