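import Crest.Agent.R4P.EnP_48
import Crest.Agent.R4P.AsB_407

/-!
R4 (S0004) with powers, T3, helper48: **the second order births of a game** (field `hE` of `AsD407.FmK`),
own-height price `BthX48.lprO`, static kernel `KT` of the second order pairs (`BthY48.EK`).

* `FO` : local term at a true tie; **`Kw_xO`** : the walk sum of the second order parts `xO`;
* **`vE_le`** : `vE ≤ 1/4 pn (t KT) + ts FO`;
* **`ctx_hE`** : `BootF`, `(log q)^(sO N e) ≤ θ q τ q`, `280 τ q ≤ θ q t q`  ⟹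
  `vE ≤ 1/4 pn (t KT) + ε mu`; **`bd_vE`** : field `hE` from field `hT` (same `a`).
-/

set_option autoImplicit false
set_option linter.unusedSectionVars false
set_option linter.unusedVariables false
open MeasureTheory Filter Set

namespace Crest.Agent.R4P.EnQ48

/-! ### the walk sum -/

section walk
open Crest.Agent.R4.Tour104 Crest.Agent.R4.Tour758 Crest.Agent.R4.Clos758
open Crest.Agent.R4.ClosL758
open Crest.Agent.R4P.Grp36 Crest.Agent.R4P.GWa343 Crest.Agent.R4P.GWb343 Crest.Agent.R4P.GWc343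
open Crest.Agent.R4P.GMer27 Crest.Agent.R4P.GCol27 Crest.Agent.R4P.RSys343
open Crest.Agent.R4P.RXm55 Crest.Agent.R4P.RXm55.RXm
open Crest.Agent.R4P.MSi343 (su su_add)
open Crest.Agent.R4P.MSm25 Crest.Agent.R4P.PayR45 Crest.Agent.R4P.GSK55
open Crest.Agent.R4P.DTp26 (jv PB_jv hz MP)
open Crest.Agent.R4P.MSd343 Crest.Agent.R4P.Bp407 Crest.Agent.R4P.VR407
open Crest.Agent.R4P.JnE5 Crest.Agent.R4P.JnF5 Crest.Agent.R4P.JnH5
open Crest.Agent.R4P.PVd45 Crest.Agent.R4P.PVe45 Crest.Agent.R4P.PrE45 Crest.Agent.R4P.PrD45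
open Crest.Agent.R4P.PrF45 Crest.Agent.R4P.PrG45 Crest.Agent.R4P.PrH45 Crest.Agent.R4P.PrE245
open Crest.Agent.R4P.LogL51 (isLf)
open Crest.Agent.R4P.Walk560 (DT)
open Crest.Agent.R4P.DTm407 Crest.Agent.R4P.DTn407
open Crest.Agent.R4P.BthW48 Crest.Agent.R4P.BthX48 Crest.Agent.R4P.BthY48 Crest.Agent.R4P.BthZ48
open Crest.Agent.R4P.EnC48 (E2)
open Crest.Agent.R4P.EnO48

/-- **local term at a true tie** -/
noncomputable def FO {Λ : Type} [Fintype Λ] (θ τ h : ℕ → ℝ) (q : ℕ) (a b : Λ → ℝ → ℝ) : ℝ :=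
  10 / (θ q * q) * (1 / τ q * (2 * E2 a + E2 b + ch (∃ i y, b i y ≠ 0) (8 * h q)))

variable {μ Λ κ ζ : Type} [Fintype Λ] [DecidableEq Λ] [Fintype κ] [DecidableEq κ]
  [Fintype ζ] [DecidableEq ζ]
variable {wr : ℕ → Λ → κ} {D : TD μ Λ κ ζ} {Inv : ℕ → μ × List (DT Λ κ) → Prop}
  {Inv' : ℕ → List (DT Λ κ) → Prop} {KT : ℕ → Λ → Λ → ℝ} {t θ τ h : ℕ → ℝ}

/-- the children of a group -/
lemma all_C {β : Type} (B : BM β) {P : β → Prop} {p : ℕ} {s : Gs β}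
    (hP : ∀ j, P (B.cP p (s.L j))) (hN : ∀ j, P (B.cN p (s.L j))) : ∀ j, P ((B.C p s).L j) := by
  by_cases h2 : 2 ≤ p
  · have e : B.C p s = ⟨s.J × Bool, inferInstance, cT (1 - 1 / (p : ℝ)) s.c,
      WT (1 - 1 / (p : ℝ)) s.W, fun x => if x.2 then B.cP p (s.L x.1) else B.cN p (s.L x.1)⟩ :=
      if_pos h2
    rw [e]
    rintro ⟨j, t⟩
    cases t
    · exact hN j
    · exact hP j
  · have e : B.C p s = ⟨s.J, s.fJ, s.c, s.W, fun j => B.cP p (s.L j)⟩ := if_neg h2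
    rw [e]
    exact hP

lemma FO_zero (p : ℕ) : FO θ τ h p (fun (_ : Λ) (_ : ℝ) => (0:ℝ)) (fun _ _ => 0) = 0 := by
  unfold FO
  rw [E2_zero, ch_off (fun ⟨i, y, h⟩ => h rfl)]
  ring

lemma bil_sm (c : ℝ) (K : Λ → Λ → ℝ) (f g : Λ → ℝ → ℝ) :
    bil (fun j i => c * K j i) f g = c * bil K f g := by
  unfold bil
  rw [Finset.mul_sum]
  refine Finset.sum_congr rfl fun j _ => ?_
  rw [Finset.mul_sum]
  exact Finset.sum_congr rfl fun i _ => by ring

/-- **one bundle** -/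
lemma loc_le (H : TYp wr D Inv) {p : ℕ} {b : μ × List (DT Λ κ)} (hb : Inv p b) (hp : p ≠ 0)
    (θ0 : 0 < θ p) (τ0 : 0 < τ p) (kT : ∀ j i, 0 ≤ KT p j i) (ht : 280 * τ p ≤ θ p * t p)
    (eo : EO h p b.2) :
    10 / (θ p * p) * (τ p * (10 * bil (KT p) (pA (bB p b.2)) (pB (bB p b.2))) +
      1 / τ p * (DTn407.ch (Ac p b) (E2 (fun i y => pA (bB p b.2) i y + pQ (bB p b.2) i y)) +
        E2 (pB (bB p b.2)))) ≤
      1 / 4 * (1 / (p : ℝ) * (2 * bil (fun j i => t p * KT p j i) (pA (bB p b.2))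
        (pB (bB p b.2)))) + FO θ τ h p (pA (bB p b.2)) (pB (bB p b.2)) := by
  have hp' : (0:ℝ) < p := by exact_mod_cast Nat.pos_of_ne_zero hp
  have Kk := H.bok hb hp
  set Z := bil (KT p) (pA (bB p b.2)) (pB (bB p b.2)) with hZ
  have Z0 : 0 ≤ Z := by
    refine Finset.sum_nonneg fun j _ => Finset.sum_nonneg fun i _ => mul_nonneg (kT j i) ?_
    exact I_nonneg fun x => mul_nonneg ((Kk.PA j).nonneg x) ((Kk.PBb i).nonneg x)
  rw [bil_sm]
  have e2 : DTn407.ch (Ac p b) (E2 (fun i y => pA (bB p b.2) i y + pQ (bB p b.2) i y)) ≤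
      2 * E2 (pA (bB p b.2)) + ch (∃ i y, pB (bB p b.2) i y ≠ 0) (8 * h p) := by
    have hA : 0 ≤ E2 (pA (bB p b.2)) := E2_nonneg _
    by_cases hc : ∃ i y, pB (bB p b.2) i y ≠ 0
    · rw [ch_on (P := Ac p b) hc, ch_on hc]
      have h1 := E2_add (fun j => Kk.PA j) (fun j => Kk.PQ j)
      have h2 := eo.2 hp
      linarith
    · rw [ch_off (P := Ac p b) hc, ch_off hc]
      linarith
  have e3 : 10 / (θ p * p) * (τ p * (10 * Z)) ≤ 1 / 4 * (1 / (p : ℝ) * (2 * (t p * Z))) := by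
    have h2 : 10 / (θ p * p) * (τ p * (10 * Z)) = (100 * τ p * Z) / (θ p * p) := by
      field_simp
      ring
    have h3 : 1 / 4 * (1 / (p : ℝ) * (2 * (t p * Z))) = (1 / 2 * (θ p * t p) * Z) / (θ p * p) := by
      field_simp
      ring
    rw [h2, h3]
    refine div_le_div_of_nonneg_right (mul_le_mul_of_nonneg_right ?_ Z0) (by positivity)
    linarith
  have e4 : 10 / (θ p * p) * (1 / τ p * (DTn407.ch (Ac p b)
      (E2 (fun i y => pA (bB p b.2) i y + pQ (bB p b.2) i y)) + E2 (pB (bB p b.2)))) ≤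
      FO θ τ h p (pA (bB p b.2)) (pB (bB p b.2)) := by
    unfold FO
    refine mul_le_mul_of_nonneg_left (mul_le_mul_of_nonneg_left ?_ (by positivity))
      (by positivity)
    linarith
  have e5 : 10 / (θ p * p) * (τ p * (10 * Z) +
      1 / τ p * (DTn407.ch (Ac p b) (E2 (fun i y => pA (bB p b.2) i y + pQ (bB p b.2) i y)) +
        E2 (pB (bB p b.2)))) = 10 / (θ p * p) * (τ p * (10 * Z)) +
      10 / (θ p * p) * (1 / τ p * (DTn407.ch (Ac p b)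
      (E2 (fun i y => pA (bB p b.2) i y + pQ (bB p b.2) i y)) + E2 (pB (bB p b.2)))) := by ring
  rw [e5]
  exact add_le_add e3 e4

section loc
variable (H : TYp wr D Inv) (hU : ∀ {p b}, Inv p b → p ≠ 0 → ∀ z x, ¬ D.spc p b z x)
  (T : ℕ → μ × List (DT Λ κ) → ℝ → Λ → Λ → Prop) (Lo : ℕ → μ × List (DT Λ κ) → ℝ → Λ → Prop)
  (hT : ∀ {p b}, Inv p b → p ≠ 0 → ∀ j i, MP fun y => T p b y j i)
  (hL : ∀ {p b}, Inv p b → p ≠ 0 → ∀ i, MP fun y => Lo p b y i)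

/-- **the walk sum of the second order parts of the births** -/
theorem Kw_xO (L : LB (bm (rxm H)) Prod.snd Inv') (HI : DI Inv')
    (hv : ∀ {p b}, Inv p b → ∀ s ∈ b.2, s.All VR)
    (tk : ∀ {p b}, Inv p b → p ≠ 0 → TOk p (bB p b.2))
    (len : ∀ {p b}, Inv p b → p ≠ 0 → (bN p b.2).length ≤ 1)
    (lf0 : ∀ {b}, Inv 0 b → ∀ s ∈ b.2, isLf s = true)
    (θ0 : ∀ p, 0 < θ p) (τ0 : ∀ p, 0 < τ p) (h0 : ∀ p, 0 ≤ h p)
    (kT : ∀ p j i, 0 ≤ KT p j i) (ht : ∀ p, 280 * τ p ≤ θ p * t p)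
    (kk : ∀ {p b}, Inv p b → p ≠ 0 → ∀ y, EK D wr p b (T p b) (KT p) y)
    {ok : ℕ → Gs (μ × List (DT Λ κ)) → Prop}
    (hC : ∀ {p s}, ok p s → p ≠ 0 → ok p ((bm (rxm H)).C p s))
    (hN : ∀ {p s}, ok p s → p ≠ 0 → ok (p - 1) ((bm (rxm H)).N p s))
    (hg : ∀ {p s}, ok p s → (rxm H).gok p s)
    (n p : ℕ) (s : Gs (μ × List (DT Λ κ))) (hs : ok p s) (he : ∀ j, EO h p (s.L j).2)
    (hn : ∀ j, siz (s.L j).2 + p ≤ n) :
    Kw (bm (rxm H)) (fun p s => I (xO (rowsW H hU T Lo hT hL) θ τ p s)) n p s ≤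
      GMer27.M s.c fun j => 1 / 4 * PNs (fun p j i => t p * KT p j i) (s.L j).2 +
        TS (FO θ τ h) (s.L j).2 := by
  have hK' : ∀ {p b}, (bm (rxm H)).ok p b → p ≠ 0 → KOk (wr p) p (bB p b.2) :=
    fun h hp => H.bok h hp
  have tk' : ∀ {p b}, (bm (rxm H)).ok p b → p ≠ 0 → TOk p (bB p b.2) := fun h hp => tk h hp
  have gd : ∀ {p b}, Inv p b → ∀ s ∈ b.2, s.All Gd := fun {p b} hb s hs =>
    (H.pb hb s hs).and (hv hb s hs)
  have cl : ∀ {p b}, Inv p b → ∀ s ∈ b.2, s.Col (p + 1) := fun {p b} hb s hs =>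
    HI.col (L.inv hb) s hs
  have S1 := sv_smul (show (0:ℝ) ≤ 1 / 4 by norm_num)
    (pn_sv (K' := fun p j i => t p * KT p j i) L HI hK' tk')
  have S2 := ts_sv (F := FO θ τ h) L HI hK' tk' FO_zero
  have SS := sv_add S1 S2
  have key := Kw_sv SS (ok := fun p s => ok p s ∧ ∀ j, EO h p (s.L j).2)
    (f := fun p s => I (xO (rowsW H hU T Lo hT hL) θ τ p s))
    (fun {p s} h1 hp => ⟨hC h1.1 hp, ?_⟩)
    (fun {p s} h1 hp => ⟨hN h1.1 hp, fun j => ?_⟩)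
    (fun h1 => (hg h1.1).1) (fun h1 => (hg h1.1).2) (fun {p s} h1 hp => ?_)
    (fun {p b} hb h1 => ?_) n p s ⟨hs, he⟩ hn
  · exact key
  · -- children
    have hb : ∀ j, Inv p (s.L j) := fun j => (hg h1.1).2 j
    exact all_C (bm (rxm H)) (P := fun b => EO h p b.2)
      (fun j => EO.P hp (gd (hb j)) (cl (hb j)) (h1.2 j))
      (fun j => EO.N hp (gd (hb j)) (cl (hb j)) (h1.2 j))
  · have hb : ∀ j, Inv p (s.L j) := fun j => (hg h1.1).2 j
    exact EO.R h0 hp (gd (hb j)) (cl (hb j)) (len (hb j) hp) (h1.2 j)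
  · -- the local bound
    have g := hg h1.1
    refine (I_xO H hU T Lo hT hL (θ0 p) (τ0 p) g hp (kT p)
      fun j y => kk (g.2 j) hp y).trans (M_mono g.1.c0 fun j => ?_)
    exact loc_le H (g.2 j) hp (θ0 p) (τ0 p) (kT p) (ht p) (h1.2 j)
  · have hb' : Inv p b := hb
    have hlf : ∀ s ∈ b.2, isLf s = true := by
      rcases h1 with h0 | h0
      · subst h0; exact lf0 hb'
      · have := siz_zero h0
        rw [this]
        simp
    have z1 : PNs (fun p j i => t p * KT p j i) b.2 = 0 := by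
      refine List.sum_eq_zero fun y hy => ?_
      obtain ⟨s, hs, rfl⟩ := List.mem_map.1 hy
      obtain ⟨r, f, rfl⟩ := isLf_eq (hlf s hs)
      rfl
    have z2 : TS (FO θ τ h) b.2 = 0 := TS_leaves hlf
    show 0 ≤ 1 / 4 * PNs (fun p j i => t p * KT p j i) b.2 + TS (FO θ τ h) b.2
    rw [z1, z2]
    norm_num

end loc

end walk

/-! ### the games of a context -/

section game
open Crest.Agent.R4.Tour104 Crest.Agent.R4.Tour758 Crest.Agent.R4.Clos758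
open Crest.Agent.R4.ClosL758
open Crest.Agent.R4P.Grp36 Crest.Agent.R4P.GWa343 Crest.Agent.R4P.GWb343 Crest.Agent.R4P.GWc343
open Crest.Agent.R4P.GMer27 Crest.Agent.R4P.GCol27 Crest.Agent.R4P.RSys343
open Crest.Agent.R4P.RXm55 Crest.Agent.R4P.RXm55.RXm
open Crest.Agent.R4P.MSi343 (su su_add)
open Crest.Agent.R4P.MSm25 Crest.Agent.R4P.PayR45 Crest.Agent.R4P.GSK55
open Crest.Agent.R4P.DTp26 (jv PB_jv hz MP)
open Crest.Agent.R4P.MSd343 Crest.Agent.R4P.Bp407 Crest.Agent.R4P.VR407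
open Crest.Agent.R4P.JnE5 Crest.Agent.R4P.JnF5 Crest.Agent.R4P.JnH5
open Crest.Agent.R4P.PVd45 Crest.Agent.R4P.PVe45 Crest.Agent.R4P.PrE45 Crest.Agent.R4P.PrD45
open Crest.Agent.R4P.PrF45 Crest.Agent.R4P.PrG45 Crest.Agent.R4P.PrH45 Crest.Agent.R4P.PrE245
open Crest.Agent.R4P.LogL51 (isLf)
open Crest.Agent.R4P.Walk560 (DT)
open Crest.Agent.R4.Avg758 Crest.Agent.R4.ClosG758 Crest.Agent.R4.ClosR758
open Crest.Agent.R4P.ClosR442 Crest.Agent.R4P.Xfer36 Crest.Agent.R4P.TopC36 Crest.Agent.R4P.PN36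
open Crest.Agent.R4P.GWd343 Crest.Agent.R4P.GWf343 Crest.Agent.R4P.TrR343
open Crest.Agent.R4P.GWg343 (FX ctx_BI)
open Crest.Agent.R4P.DTm407 Crest.Agent.R4P.DTn407 Crest.Agent.R4P.DTo407 Crest.Agent.R4P.RGd25
open Crest.Agent.R4P.Cnt588 Crest.Agent.R4P.Item758
open Crest.Agent.R4P.Bld532 (NS All NodeOk)
open Crest.Agent.R4P.WalkIT579 (tp isL toDT_top toDT_leaf)
open Crest.Agent.R4P.Step588 Crest.Agent.R4P.RseSt23
open Crest.Agent.R4P.TYI47 Crest.Agent.R4P.TYJ47 Crest.Agent.R4P.TYK47 Crest.Agent.R4P.TYP9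
open Crest.Agent.R4P.RsT47
open Crest.Agent.R4P.Skel189 Crest.Agent.R4P.Frame758 Crest.Agent.R4P.Data758
open Crest.Agent.R4.Soft104 Crest.Agent.R4.Fam464
open Crest.Agent.R4P.StratX36 Crest.Agent.R4P.TopX36
open Crest.Agent.R4P.AsB407 Crest.Agent.R4P.PrJ45 Crest.Agent.R4P.PrK45
open Crest.Agent.R4P.AsmX26 (QE ctx_QE)
open Crest.Agent.R4P.SkelF29 (BootF)
open Crest.Agent.R4P.BthW48 Crest.Agent.R4P.BthX48 Crest.Agent.R4P.BthY48 Crest.Agent.R4P.BthZ48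
open Crest.Agent.R4P.EnC48 (E2 log_big)
open Crest.Agent.R4P.EnO48 Crest.Agent.R4P.EnP48

variable {N : Skel189.Num} {γ : ℝ} {p0 P₀ : ℕ} {X : Ctx N γ p0 P₀} {Q : NS → IT → Prop} {C : ℝ}
  {n : ℕ} {u : NS} {τ : IT}

/-- **births of second order with own-height prices** : the second order part of the births of the game is
`xO` of the rows `rowsW` -/
structure OwnB (G : Gm X Q C n)
    (T : ℕ → Me × List (DT X.c.Lam (LbX X)) → ℝ → X.c.Lam → X.c.Lam → Prop) (θ σ : ℕ → ℝ) : Prop where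
  mT : ∀ {p b}, InvM X Q C p b → p ≠ 0 → ∀ j i, MP fun y => T p b y j i
  θ0 : ∀ p, 0 < θ p
  σ0 : ∀ p, 0 < σ p
  ex : ∃ (unm : ∀ {p b}, InvM X Q C p b → p ≠ 0 → ∀ z x, ¬ G.D.spc p b z x)
    (Lo : ℕ → Me × List (DT X.c.Lam (LbX X)) → ℝ → X.c.Lam → Prop)
    (mL : ∀ {p b}, InvM X Q C p b → p ≠ 0 → ∀ i, MP fun y => Lo p b y i),
    ∀ p s x, G.Lp.xE p s x = xO (rowsW G.H unm T Lo mT mL) θ σ p s x

/-- **the second order births of a game** -/
theorem vE_le (G : Gm X Q C n) (hQ : ∀ u τ, Q u τ → NDt X.par (w X.ψ) X.c.t u τ)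
    (hB : InvM X Q C (X.self u τ Finset.univ).p (b₀ X u τ))
    {T : ℕ → Me × List (DT X.c.Lam (LbX X)) → ℝ → X.c.Lam → X.c.Lam → Prop} {θ σ h t : ℕ → ℝ}
    (O : OwnB G T θ σ) {KT : ℕ → X.c.Lam → X.c.Lam → ℝ} (kT : ∀ p j i, 0 ≤ KT p j i)
    (kk : ∀ {p b}, InvM X Q C p b → p ≠ 0 → ∀ y, EK G.D (rhoX X) p b (T p b) (KT p) y)
    (h0 : ∀ p, 0 ≤ h p) (ht : ∀ p, 280 * σ p ≤ θ p * t p) (hs : StD h (tX X u τ))
    {k : ℕ} (hk : (X.self u τ Finset.univ).t.size + (X.self u τ Finset.univ).p ≤ k) :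
    G.vE u τ k ≤ 1 / 4 * pn (fun p j i => t p * KT p j i) (tX X u τ) +
      ts (FO θ σ h) (tX X u τ) := by
  obtain ⟨unm, Lo, mL, hx⟩ := O.ex
  have g1 : (X.self u τ Finset.univ).t.All Gd :=
    (G.H.pb hB _ (List.mem_singleton_self _)).and
      ((hB.bi.all _ (List.mem_singleton_self _)).mono fun s hs => hs.1.2)
  have h1 := Kw_xO G.H (fun h hp => unm h hp) T Lo (fun h hp => O.mT h hp) (fun h hp => mL h hp)
    (lbX G.H) diX
    (fun {p b} hb s hs => (hb.bi.all s hs).mono fun s hs => hs.1.2)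
    (fun h hp => tokX h hp) (fun h hp => h.bi.len)
    (fun {b} h => lf0 hQ (m := b.1) (L := b.2) h) O.θ0 O.σ0 h0 kT ht
    (fun hb hp y => kk hb hp y) (ok := okG G.H) (fun h hp => h.C hp) (fun h hp => h.N hp) (fun h => h.gok)
    k (X.self u τ Finset.univ).p (one (b₀ X u τ)) (okG.one hB)
    (fun j => EO.one h0 g1 hs) (fun j => by
      show siz [(X.self u τ Finset.univ).t] + _ ≤ k
      simpa [siz] using hk)
  rw [one_M (b₀ X u τ) (fun b' => 1 / 4 * PNs (fun p j i => t p * KT p j i) b'.2 +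
    TS (FO θ σ h) b'.2)] at h1
  have e1 : G.vE u τ k = Kw (bm (rxm G.H))
      (fun p s => I (xO (rowsW G.H unm T Lo O.mT mL) θ σ p s)) k
      (X.self u τ Finset.univ).p (one (b₀ X u τ)) := by
    unfold Gm.vE
    congr 1
    funext p s
    congr 1
    funext x
    exact hx p s x
  rw [e1]
  refine h1.trans (le_of_eq ?_)
  show 1 / 4 * PNs (fun p j i => t p * KT p j i) [tX X u τ] + TS (FO θ σ h) [tX X u τ] = _
  rw [PNs_cons, PNs_nil, TS_cons, TS_nil]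
  ring

/-- exponent of the rates -/
noncomputable def sO (N : Skel189.Num) (e : ℝ) : ℝ := SC N e + (e + (N.c2 + N.c2)) + 1

/-- **field `hE`**, one game -/
theorem ctx_hE (N : Skel189.Num) {M e : ℝ} (hM : 0 ≤ M) (he : 0 ≤ e) {ε : ℝ} (hε : 0 < ε) :
    ∃ p₁ : ℕ, ∀ p0 ≥ p₁, ∀ (γ : ℝ) (P₀ : ℕ) (X : Ctx N γ p0 P₀) (j₀ : X.c.Lam) (Kb : ℝ), 0 ≤ Kb →
      Kb ≤ M * Real.log p0 ^ e →
      All (fun u τ => BootF X j₀ (fun _ _ => 0) Kb u τ → ∀ {Q : NS → IT → Prop} {C : ℝ} {n : ℕ}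
        (G : Gm X Q C n) (_ : ∀ u τ, Q u τ → NDt X.par (w X.ψ) X.c.t u τ)
        (_ : InvM X Q C (X.self u τ Finset.univ).p (b₀ X u τ))
        {T : ℕ → Me × List (DT X.c.Lam (LbX X)) → ℝ → X.c.Lam → X.c.Lam → Prop} {θ σ t : ℕ → ℝ}
        (_ : OwnB G T θ σ) {KT : ℕ → X.c.Lam → X.c.Lam → ℝ} (_ : ∀ p j i, 0 ≤ KT p j i)
        (_ : ∀ {p b}, InvM X Q C p b → p ≠ 0 → ∀ y, EK G.D (rhoX X) p b (T p b) (KT p) y),
        (∀ p, 280 * σ p ≤ θ p * t p) →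
        (∀ q, p0 < q → Real.log q ^ sO N e ≤ θ q * σ q) →
        ∀ k, (X.self u τ Finset.univ).t.size + (X.self u τ Finset.univ).p ≤ k →
        G.vE u τ k ≤ 1 / 4 * pn (fun p j i => t p * KT p j i) (tX X u τ) +
          ε * X.mu j₀ u τ Finset.univ) ⟨top X.S, 1, 1, 1⟩ X.c.t := by
  obtain ⟨p1, h1⟩ := ctx_tsC N hM he hε
  obtain ⟨p2, hp2, h2⟩ := log_big (10 * (2 + 16 * M)) (ε := 1) one_pos
  refine ⟨p1 + p2, fun p0 hp0 γ P₀ X j₀ Kb hK0 hK => ?_⟩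
  have hQE := ctx_QE X j₀ (Q' := fun _ _ => True) (All.mono (fun _ _ _ => trivial) (ctx_NDt X))
  refine All.mono (fun u τ hh hb Q C n G hQ hB T θ σ t O KT kT kk ht hr k hk => ?_)
    ((All_All _ _ hQE).and (h1 p0 (by omega) γ P₀ X j₀ Kb hK0 hK))
  obtain ⟨hq, hts⟩ := hh
  have hh0 : ∀ q, 0 ≤ hX N Kb q := hX0 N hK0
  refine (vE_le G hQ hB O kT (fun h hp => kk h hp) hh0 ht (st_FE hK0 τ u hq hb) hk).trans
    (add_le_add le_rfl ?_)
  refine hts hb (fun q => 10 / (θ q * σ q * q) * (2 + 8 * hX N Kb q)) (FO θ σ (hX N Kb))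
    (fun q hq => ?_) (fun q hq a b ha hb => ?_)
  · have hq3 : 3 ≤ q := by omega
    have hL := Bld532.one_le_log_nat hq3
    have hL0 : 0 < Real.log q := by linarith
    have hq0 : (0:ℝ) < q := by positivity
    have hp00 : (0 : ℝ) < p0 := by
      have : 0 < p0 := by omega
      exact_mod_cast this
    have hll : Real.log p0 ≤ Real.log q := Real.log_le_log hp00 (by exact_mod_cast hq.le)
    have hlp : 0 < Real.log (p0 : ℝ) := by
      have h3 : 3 ≤ p0 := by omega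
      have := Bld532.one_le_log_nat h3
      linarith
    have t0 := O.θ0 q
    have s0 := O.σ0 q
    have hx0 := hh0 q
    refine ⟨by positivity, ?_⟩
    have hr' := hr q hq
    have hc2 := N.hc2
    set L := Real.log (q : ℝ) with hLd
    -- the energies
    have a1 : 1 ≤ L ^ N.c2 := Real.one_le_rpow hL hc2
    have a2 : 1 ≤ L ^ e := Real.one_le_rpow hL he
    have a3 : Kb ≤ M * L ^ e := hK.trans (mul_le_mul_of_nonneg_left
      (Real.rpow_le_rpow hlp.le hll he) hM)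
    have a4 : L ^ (e + (N.c2 + N.c2)) = L ^ e * (L ^ N.c2 * L ^ N.c2) := by
      rw [Real.rpow_add hL0, Real.rpow_add hL0]
    set c := L ^ N.c2 with hc
    set E := L ^ e with hE
    have a5 : 2 + 8 * hX N Kb q ≤ (2 + 16 * M) * L ^ (e + (N.c2 + N.c2)) := by
      have b1 : hX N Kb q ≤ (M * E) * (2 * (c * c)) := by
        unfold hX
        refine mul_le_mul a3 ?_ (by positivity) (by positivity)
        nlinarith
      have b2 : 1 ≤ E * (c * c) := by nlinarith [mul_le_mul a1 a1 zero_le_one (by linarith)]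
      rw [a4]
      nlinarith
    have a6 : L ^ sO N e = L ^ (e + (N.c2 + N.c2)) * L ^ SC N e * L := by
      unfold sO
      rw [Real.rpow_add hL0, Real.rpow_add hL0, Real.rpow_one]
      ring
    have a7 : 10 * (2 + 16 * M) ≤ L := by
      have h3 := h2 p0 (by omega)
      rw [mul_one_div, div_le_iff₀ hlp] at h3
      linarith
    have a8 : 0 < L ^ SC N e := Real.rpow_pos_of_pos hL0 _
    have a9 : 0 < L ^ (e + (N.c2 + N.c2)) := Real.rpow_pos_of_pos hL0 _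
    have e1 : 10 / (θ q * σ q * q) * (2 + 8 * hX N Kb q) * q * L ^ SC N e =
        (10 * (2 + 8 * hX N Kb q) * L ^ SC N e) / (θ q * σ q) := by field_simp
    rw [e1, div_le_one (by positivity)]
    refine le_trans ?_ hr'
    rw [a6]
    calc 10 * (2 + 8 * hX N Kb q) * L ^ SC N e
        ≤ 10 * ((2 + 16 * M) * L ^ (e + (N.c2 + N.c2))) * L ^ SC N e :=
          mul_le_mul_of_nonneg_right (mul_le_mul_of_nonneg_left a5 (by norm_num)) a8.le
      _ = (10 * (2 + 16 * M)) * (L ^ (e + (N.c2 + N.c2)) * L ^ SC N e) := by ring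
      _ ≤ L * (L ^ (e + (N.c2 + N.c2)) * L ^ SC N e) :=
          mul_le_mul_of_nonneg_right a7 (by positivity)
      _ = _ := by ring
  · have hq0 : (0:ℝ) < q := by
      have : 0 < q := by omega
      exact_mod_cast this
    have t0 := O.θ0 q
    have s0 := O.σ0 q
    have hx0 := hh0 q
    have A0 := E2_nonneg a
    have B0 := E2_nonneg b
    unfold FO
    have h3 : DTn407.ch (∃ i y, b i y ≠ 0) (8 * hX N Kb q) ≤ 8 * hX N Kb q := by
      by_cases hc : ∃ i y, b i y ≠ 0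
      · rw [ch_on hc]
      · rw [ch_off hc]; positivity
    have h4 : 2 * E2 a + E2 b + DTn407.ch (∃ i y, b i y ≠ 0) (8 * hX N Kb q) ≤
        (2 + 8 * hX N Kb q) * (E2 a + E2 b + 1) := by
      nlinarith [mul_nonneg hx0 A0, mul_nonneg hx0 B0]
    have e1 : 10 / (θ q * q) * (1 / σ q * (2 * E2 a + E2 b +
        DTn407.ch (∃ i y, b i y ≠ 0) (8 * hX N Kb q))) = 10 / (θ q * σ q * q) * (2 * E2 a + E2 b +
        DTn407.ch (∃ i y, b i y ≠ 0) (8 * hX N Kb q)) := by field_simp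
    rw [e1]
    refine (mul_le_mul_of_nonneg_left h4 (show 0 ≤ 10 / (θ q * σ q * q) by positivity)).trans
      (le_of_eq ?_)
    ring

/-- **field `hE` from field `hT`** -/
theorem bd_vE {j₀ : X.c.Lam} {A : Type} [Fintype A] {ω : A → ℝ} (ω0 : ∀ i, 0 ≤ ω i)
    (ω1 : ∑ i, ω i = 1) {v : A → ℝ} {w' : A → ℝ} {a ϑ m₀ : ℝ} (ha : 1 ≤ a) (hϑ : 0 ≤ ϑ)
    (m1 : 1 ≤ m₀) (hμ : 0 ≤ X.mu j₀ u τ Finset.univ)
    (hw : ∀ i, 0 ≤ w' i) (hv : ∀ i, v i ≤ 1 / 4 * w' i + 1 / 2 * X.mu j₀ u τ Finset.univ)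
    (hT : Bd X j₀ u τ (a / m₀) ϑ (∑ i, ω i * w' i)) :
    Bd X j₀ u τ a ϑ (∑ i, ω i * v i) := by
  have hv : ∀ i, v i ≤ m₀ / 4 * w' i + 1 / 2 * X.mu j₀ u τ Finset.univ := fun i => by
    have h1 := mul_nonneg (sub_nonneg.2 m1) (hw i)
    have h2 := hv i
    linarith
  have h1 : ∑ i, ω i * v i ≤ m₀ / 4 * ∑ i, ω i * w' i + 1 / 2 * X.mu j₀ u τ Finset.univ := by
    have h2 : ∑ i, ω i * v i ≤ ∑ i, ω i * (m₀ / 4 * w' i + 1 / 2 * X.mu j₀ u τ Finset.univ) :=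
      Finset.sum_le_sum fun i _ => mul_le_mul_of_nonneg_left (hv i) (ω0 i)
    refine h2.trans (le_of_eq ?_)
    have e : ∀ i, ω i * (m₀ / 4 * w' i + 1 / 2 * X.mu j₀ u τ Finset.univ) =
        m₀ / 4 * (ω i * w' i) + (1 / 2 * X.mu j₀ u τ Finset.univ) * ω i := fun i => by ring
    rw [Finset.sum_congr rfl fun i _ => e i, Finset.sum_add_distrib, ← Finset.mul_sum,
      ← Finset.mul_sum, ω1]
    ring
  unfold Bd at hT ⊢
  have I2 : 0 ≤ I (fun x => tt Finset.univ (X.g u τ) x ^ 2) := I_nonneg fun x => sq_nonneg _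
  have h3 := mul_le_mul_of_nonneg_left hT (show 0 ≤ m₀ / 4 by linarith)
  have e2 : m₀ / 4 * (a / m₀ * (X.mu j₀ u τ Finset.univ + X.mu j₀ u τ Finset.univ *
      X.mu j₀ u τ Finset.univ) + a / m₀ * ϑ * I (fun x => tt Finset.univ (X.g u τ) x ^ 2)) =
      a / 4 * (X.mu j₀ u τ Finset.univ + X.mu j₀ u τ Finset.univ *
      X.mu j₀ u τ Finset.univ) + a / 4 * ϑ * I (fun x => tt Finset.univ (X.g u τ) x ^ 2) := by
    have : m₀ ≠ 0 := by linarith
    field_simp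
  rw [e2] at h3
  have h4 : 0 ≤ a * ϑ * I (fun x => tt Finset.univ (X.g u τ) x ^ 2) := by positivity
  have h5 := mul_nonneg hμ hμ
  have h6 := mul_nonneg (show 0 ≤ a - 1 by linarith) hμ
  have h7 := mul_nonneg (show 0 ≤ a by linarith) h5
  nlinarith

end game

end Crest.Agent.R4P.EnQ48
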