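import Crest.Agent.R4P.EnQ_48
import Crest.Agent.R4P.AsK_407

/-!
R4 (S0004) with powers, T3, helper48: **the second order births of the games of the assembly**.

* **`ownA`** : the games `SDat.gm` have own-height births; `rateA`, `rateB` : the rates of `AsE407`;
* **`tgtE : TgtE N γ`**.
-/

set_option autoImplicit false
set_option linter.unusedSectionVars false
set_option linter.unusedVariables false
open MeasureTheory Filter Set

namespace Crest.Agent.R4P.EnR48

open Crest.Agent.R4.Tour104 Crest.Agent.R4.Tour758 Crest.Agent.R4.Avg758 Crest.Agent.R4.Clos758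
open Crest.Agent.R4.ClosL758 Crest.Agent.R4.ClosG758 Crest.Agent.R4.ClosR758
open Crest.Agent.R4P.ClosR442 Crest.Agent.R4P.Grp36
open Crest.Agent.R4P.GWa343 Crest.Agent.R4P.GWb343
open Crest.Agent.R4P.GWc343 hiding SB
open Crest.Agent.R4P.GWd343 Crest.Agent.R4P.GWf343 Crest.Agent.R4P.TrR343
open Crest.Agent.R4P.GWg343
open Crest.Agent.R4P.RXm55 Crest.Agent.R4P.MSm25
open Crest.Agent.R4P.DTp26
open Crest.Agent.R4P.Cnt588 Crest.Agent.R4P.Item758 Crest.Agent.R4P.W363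
open Crest.Agent.R4P.Bld532 (NS All NodeOk Bk)
open Crest.Agent.R4P.WalkIT579 (tp isL toDT_top toDT_leaf)
open Crest.Agent.R4P.Walk560 (DT WrN)
open Crest.Agent.R4P.Step588 Crest.Agent.R4P.RseSt23
open Crest.Agent.R4P.TYI47 Crest.Agent.R4P.TYJ47 Crest.Agent.R4P.TYK47 Crest.Agent.R4P.TYP9
open Crest.Agent.R4P.RsT47
open Crest.Agent.R4P.StB21 (LvF ctx_LvF)
open Crest.Agent.R4P.Skel189 Crest.Agent.R4P.Frame758 Crest.Agent.R4P.Data758
open Crest.Agent.R4.Soft104 Crest.Agent.R4.Fam464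
open Crest.Agent.R4P.StratX36 Crest.Agent.R4P.TopX36
open Crest.Agent.R4P.AsB407 Crest.Agent.R4P.AsC407
open Crest.Agent.R4P.Fin5 (CF)
open Crest.Agent.R4P.ParF5 (rg depF depF_congr depF_mono NumOK)
open Crest.Agent.R4P.SkelF29 (BootF)
open Crest.Agent.R4P.DTn407 Crest.Agent.R4P.DTo407
open Crest.Agent.R4P.PrJ45 Crest.Agent.R4P.PrE45 Crest.Agent.R4P.PrG45 Crest.Agent.R4P.PrD45
open Crest.Agent.R4P.PrH45 Crest.Agent.R4P.PrI45 Crest.Agent.R4P.PrK45
open Crest.Agent.R4P.AsD407 Crest.Agent.R4P.AsE407 Crest.Agent.R4P.AsI407 Crest.Agent.R4P.JnP5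
open Crest.Agent.R4P.PN36 Crest.Agent.R4P.JnE5 Crest.Agent.R4P.JnK5
open Crest.Agent.R4P.AsK407
open Crest.Agent.R4P.EnO48 Crest.Agent.R4P.EnP48 Crest.Agent.R4P.EnQ48
open Crest.Agent.R4P.BthX48 Crest.Agent.R4P.BthY48

variable {N : Skel189.Num} {γ : ℝ} {p0 P₀ : ℕ} {X : Ctx N γ p0 P₀} {Q : NS → IT → Prop} {C : ℝ}
  {n : ℕ} {cf : CtxF X Q}

/-- **the games of the assembly have own-height births** -/
theorem ownA (G : SDat X Q C n cf) : OwnB G.gm (TA G.r) θA (τA N) where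
  mT := fun _ _ j i => MP_TA G.r j i
  θ0 := θA_pos
  σ0 := τA_pos N
  ex := ⟨fun h hp => G.ld.gd.unm h hp, fun _ _ _ _ => True, fun _ _ _ => MP.const _,
    fun _ _ _ => rfl⟩

lemma rateA (N : Skel189.Num) (p : ℕ) : 280 * τA N p ≤ θA p * tA N p := by
  have h := one_log p
  have h0 : 0 < 1 + Real.log p := by linarith
  have e : tA N p = 280 * (τA N p * (1 + Real.log p) ^ 2) := by
    unfold tA τA
    rw [← Real.rpow_natCast (1 + Real.log p) 2, ← Real.rpow_add h0]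
    congr 2
    push_cast
    ring
  rw [e]
  unfold θA
  refine le_of_eq ?_
  have : (1 + Real.log (p : ℝ)) ^ 2 ≠ 0 := by positivity
  field_simp

lemma rateB (N : Skel189.Num) {q : ℕ} (hq : 1 ≤ q) :
    Real.log q ^ sO N N.c2 ≤ θA q * τA N q := by
  have h := one_log q
  have h0 : 0 < 1 + Real.log q := by linarith
  have hl : 0 ≤ Real.log q := Real.log_natCast_nonneg q
  have hB0 : 0 ≤ N.B := by have := N.hB; have := N.hC1; have := N.hc2; linarith
  have e1 : sO N N.c2 = sA N := by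
    unfold sO sA SC
    ring
  have e2 : θA q * τA N q = (1 + Real.log q) ^ sA N := by
    have h1 := θτA N q
    have h2 := θA_pos q
    have h3 := τA_pos N q
    have h4 : 0 < (1 + Real.log q) ^ sA N := Real.rpow_pos_of_pos h0 _
    rw [Real.rpow_neg h0.le, one_div] at h1
    exact inv_injective h1
  rw [e1, e2]
  refine Real.rpow_le_rpow hl (by linarith) ?_
  have := N.hc2
  have := N.hC1
  unfold sA EnC48.SB
  linarith

lemma pn_nonneg {Λ κ : Type} [Fintype Λ] [DecidableEq Λ] [Fintype κ] [DecidableEq κ]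
    {K : ℕ → Λ → Λ → ℝ} (K0 : ∀ q i j, 0 ≤ K q i j)
    {t : DT Λ κ} (hw : t.All TQ) (hp : t.All fun t => ∀ j, PB (t.g.val j)) : 0 ≤ pn K t := by
  have h1 := pn_mono (K := fun q i j => 0 * K q i j) (K' := K)
    (fun q i j => by rw [zero_mul]; exact K0 q i j) hw hp
  rwa [pn_smul 0 hw, zero_mul] at h1

/-- **second order births of the games of the assembly** -/
theorem tgtE (N : Skel189.Num) (γ : ℝ) : TgtE N γ := by
  intro M hM
  obtain ⟨p1, h1⟩ := ctx_hE N hM N.hc2 (ε := 1) one_pos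
  refine Ev.of (p₁ := p1 + 1) fun p0 hp0 P₀ _ X hC j₀ Kb k0 k1 => ?_
  refine All.mono (fun u τ hh hl hb Q C n cf G KT hQ hB jb k hk => ?_)
    ((ctx_RgN (X := X) j₀).and (h1 p0 (by omega) γ P₀ X j₀ Kb k0 k1))
  obtain ⟨hr, hh⟩ := hh
  refine (hh hb G.gm cf.hQ hB (ownA G) jb.kT (fun {p b} h hp y => ?_) (rateA N)
    (fun q hq => rateB N (by omega)) k hk).trans ?_
  · exact EK.of_KTp (G.r.H (C := C) cf) h hp (jb.kk h hp y) (jb.kT p)
  · have h2 : 0 ≤ pn (fun p j l => tA N p * KT p j l) (tX X u τ) :=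
      pn_nonneg (fun q i j => mul_nonneg (tA_pos N q).le (jb.kT q i j)) hr.tq hr.pb
    linarith

end Crest.Agent.R4P.EnR48
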