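import Crest.Agent.R4P.RuL_9
import Crest.Agent.R4P.JnK_5
import Crest.Agent.R4P.PrK_45
import Crest.Agent.R4P.AsG_24

/-!
R4 (S0004) with powers, T3, helper10, block H4 (T6): **in-member pairs which enter the flags**.

* `KSd X p` : pairs of one real index at `p`, different real indices at `p - 1`;
* `KEn X F p` : pairs of one real index at `p` which both enter the flags at the rest `p -> p - 1`;
* `KSk_tele` : the pairs of one index at a column of a node: the pairs of one index at the top of the node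
  and the pairs separated in between;
* **`rE_once`** : energies which are only nonzero at the column where the items enter the flags, each
  `<= K mass`, sum up to `<= K mass` (the first flagged nodes are an antichain);
* `ek_all` : the energies of the pairs of one index at ALL the rest columns, from `KidE` and the separated
  pairs;
* **`KNr_le`**, **`rE_KNr`** : the kernel of the rule of the real index `<=` pairs separated inside the game
  (`KMr`) + `KEn`;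
* **`tgtT6_of : TgtKE -> TgtSd -> TgtT6`**, **`tgtT6_fin`** (`TgtSd` = the node bound of `KSd`, flags
  forgotten, rates `e p + d p [p missing tie]`, `sum e <= E`).
-/

set_option autoImplicit false
set_option linter.unusedSectionVars false
set_option linter.unusedVariables false
open MeasureTheory Filter Set

namespace Crest.Agent.R4P.EnT10

open Crest.Agent.R4P.Cnt588 Crest.Agent.R4P.Item758 Crest.Agent.R4P.W363
open Crest.Agent.R4P.Data758
open Crest.Agent.R4P.Bld532 (NS All NodeOk Bk Ws_nonneg)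
open Crest.Agent.R4P.WalkIT579 (tp isL)
open Crest.Agent.R4P.Step588 Crest.Agent.R4P.RseSt23
open Crest.Agent.R4P.DTp26 Crest.Agent.R4P.DTm407
open Crest.Agent.R4P.TYI47 Crest.Agent.R4P.TYJ47 Crest.Agent.R4P.TYK47
open Crest.Agent.R4P.TYP9 Crest.Agent.R4P.RsT47
open Crest.Agent.R4P.StM6 Crest.Agent.R4P.StM246 Crest.Agent.R4P.StE6 Crest.Agent.R4P.StF6
open Crest.Agent.R4P.StG6 Crest.Agent.R4P.StJ6
open Crest.Agent.R4P.RuN9 Crest.Agent.R4P.RuL9
open Crest.Agent.R4P.RuF9 hiding TyR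
open Crest.Agent.R4P.Skel189 Crest.Agent.R4P.Frame758
open Crest.Agent.R4.Soft104 (w)
open Crest.Agent.R4P.Walk560 (DT)
open Crest.Agent.R4.Tour104 (I PB)
open Crest.Agent.R4P.JnE5 Crest.Agent.R4P.JnH5 Crest.Agent.R4P.JnR5 Crest.Agent.R4P.JnK5
open Crest.Agent.R4P.JnA5
open Crest.Agent.R4P.PrG45 Crest.Agent.R4P.PrH45 Crest.Agent.R4P.PrK45 Crest.Agent.R4P.PrL45
open Crest.Agent.R4P.AsC407 Crest.Agent.R4P.AsI407 Crest.Agent.R4P.PrM45

section ctx
variable {N : Skel189.Num} {γ : ℝ} {p0 P₀ : ℕ} {X : Ctx N γ p0 P₀}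

/-! ### kernels -/

/-- pairs of one real index at `p`, different real indices at `p - 1` -/
noncomputable def KSd (X : Ctx N γ p0 P₀) (p : ℕ) (i j : X.c.Lam) : ℝ :=
  if ixf X p i = ixf X p j ∧ ixf X (p - 1) i ≠ ixf X (p - 1) j then 1 else 0

open Classical in
/-- pairs of one real index at `p` which enter the flags at the rest `p -> p - 1` -/
noncomputable def KEn (X : Ctx N γ p0 P₀) (F : ℕ → Finset ℕ → Prop) (p : ℕ) (i j : X.c.Lam) : ℝ :=
  if Ent F X.c p i.1.1 ∧ Ent F X.c p j.1.1 ∧ ixf X p i = ixf X p j then 1 else 0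

lemma KSd_nonneg (p : ℕ) (i j : X.c.Lam) : 0 ≤ KSd X p i j := by
  unfold KSd; split_ifs <;> norm_num

lemma KEn_nonneg {F : ℕ → Finset ℕ → Prop} (p : ℕ) (i j : X.c.Lam) : 0 ≤ KEn X F p i j := by
  unfold KEn; split_ifs <;> norm_num

lemma KEn_ker (F : ℕ → Finset ℕ → Prop) (p : ℕ) : Ker (KEn X F p) where
  nn := KEn_nonneg p
  sy := fun i j => by
    classical
    unfold KEn
    refine if_congr ⟨fun h => ⟨h.2.1, h.1, h.2.2.symm⟩, fun h => ⟨h.2.1, h.1, h.2.2.symm⟩⟩ rfl rfl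

lemma KEn_le {F : ℕ → Finset ℕ → Prop} (p : ℕ) (i j : X.c.Lam) : KEn X F p i j ≤ KSk X p i j := by
  unfold KEn KSk
  by_cases h : ixf X p i = ixf X p j
  · rw [if_pos h]
    split_ifs <;> norm_num
  · rw [if_neg h, if_neg fun h' => h h'.2.2]

/-- **telescoping of one index** -/
theorem KSk_tele {q p : ℕ} (h : q ≤ p) (i j : X.c.Lam) :
    KSk X p i j ≤ KSk X q i j + ∑ p' ∈ Finset.Ioc q p, KSd X p' i j := by
  obtain ⟨d, rfl⟩ := Nat.exists_eq_add_of_le h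
  clear h
  induction d with
  | zero => simp
  | succ d ih =>
    have e : Finset.Ioc q (q + (d + 1)) = insert (q + (d + 1)) (Finset.Ioc q (q + d)) := by
      ext a
      simp only [Finset.mem_Ioc, Finset.mem_insert]
      omega
    rw [e, Finset.sum_insert (by simp)]
    have h1 : KSk X (q + (d + 1)) i j ≤ KSk X (q + d) i j + KSd X (q + (d + 1)) i j := by
      have e1 : q + (d + 1) - 1 = q + d := by omega
      unfold KSk KSd
      rw [e1]
      by_cases h1 : ixf X (q + (d + 1)) i = ixf X (q + (d + 1)) j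
      · by_cases h2 : ixf X (q + d) i = ixf X (q + d) j
        · rw [if_pos h1, if_pos h2]
          split_ifs <;> norm_num
        · rw [if_pos h1, if_neg h2, if_pos ⟨h1, h2⟩, zero_add]
      · rw [if_neg h1]
        split_ifs <;> norm_num
    linarith

/-! ### mass of a node -/

/-- mass of a node -/
noncomputable def MS (X : Ctx N γ p0 P₀) (u : NS) (τ : IT) : ℝ := u.c * Ws (w X.ψ) τ.items

lemma MS_nonneg {u : NS} (hc : 0 ≤ u.c) (τ : IT) : 0 ≤ MS X u τ :=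
  mul_nonneg hc (Ws_nonneg X.hW _)

lemma Ws_union' {W : ℕ → ℝ} {A B : Finset ℕ} (h : Disjoint A B) : Ws W (A ∪ B) = Ws W A + Ws W B :=
  Finset.sum_union h

lemma MS_br {u : NS} {p : ℕ} {Sp : Finset ℕ} {t₁ t₀ : IT} {n : ℕ} (h : (IT.br p Sp t₁ t₀).Ok n) :
    (1 - 1 / (p : ℝ)) * MS X ⟨p, u.c / (1 - 1 / (p : ℝ)), u.A * p, u.B⟩ t₁ +
      1 / (p : ℝ) * MS X ⟨p, u.c * p, u.A, u.B * p⟩ t₀ = MS X u (.br p Sp t₁ t₀) := by
  have hp : (0 : ℝ) < p := by exact_mod_cast h.1.pos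
  have h2 : (2 : ℝ) ≤ p := by exact_mod_cast h.1.two_le
  have h1 : (1 : ℝ) - 1 / p ≠ 0 := by
    have : 1 / (p : ℝ) ≤ 1 / 2 := one_div_le_one_div_of_le (by norm_num) h2
    linarith
  unfold MS
  show (1 - 1 / (p : ℝ)) * (u.c / (1 - 1 / (p : ℝ)) * _) + 1 / (p : ℝ) * (u.c * p * _) =
    u.c * Ws (w X.ψ) (t₁.items ∪ t₀.items)
  rw [Ws_union' h.2.2.1]
  have h3 : ∀ W : ℝ, (1 - 1 / (p : ℝ)) * (u.c / (1 - 1 / (p : ℝ)) * W) = u.c * W := fun W => by
    rw [← mul_assoc, mul_div_cancel₀ _ h1]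
  have h4 : ∀ W : ℝ, 1 / (p : ℝ) * (u.c * p * W) = u.c * W := fun W => by
    field_simp
  rw [h3, h4]
  ring

lemma MS_add {u : NS} {t₁ t₀ : IT} {n : ℕ} (h : Disjoint t₁.items t₀.items) :
    MS X ⟨n, u.c, u.A, u.B⟩ t₁ + MS X ⟨n, u.c, u.A, u.B⟩ t₀ =
      u.c * Ws (w X.ψ) (t₁.items ∪ t₀.items) := by
  unfold MS
  rw [Ws_union' h]
  ring

/-! ### properties at the rest columns of the nodes -/

/-- a property at the rest columns `(tp τ, c]` of all the nodes, `c` = column of the parent -/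
def CbI (F : ℕ → NS → IT → Prop) : ℕ → NS → IT → Prop
  | _, _, .leaf _ => True
  | c, u, .br p Sp t₁ t₀ => (∀ p' ∈ Finset.Ioc p c, F p' u (.br p Sp t₁ t₀)) ∧
      CbI F p ⟨p, u.c / (1 - 1 / (p : ℝ)), u.A * p, u.B⟩ t₁ ∧
      CbI F p ⟨p, u.c * p, u.A, u.B * p⟩ t₀
  | c, u, .add b t₁ t₀ => (∀ p' ∈ Finset.Ioc b c, F p' u (.add b t₁ t₀)) ∧
      CbI F b ⟨b + 1, u.c, u.A, u.B⟩ t₁ ∧ CbI F b ⟨b + 1, u.c, u.A, u.B⟩ t₀
  | c, u, .up b Sp t => (∀ p' ∈ Finset.Ioc b c, F p' u (.up b Sp t)) ∧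
      CbI F b ⟨b, u.c, u.A, u.B⟩ t
  | c, u, .pl b t => (∀ p' ∈ Finset.Ioc b c, F p' u (.pl b t)) ∧
      CbI F b ⟨b + 1, u.c, u.A * b, u.B⟩ t
  | c, u, .far b t₁ t₀ => (∀ p' ∈ Finset.Ioc b c, F p' u (.far b t₁ t₀)) ∧
      CbI F b ⟨b + 1, u.c, u.A, u.B⟩ t₁ ∧ CbI F b ⟨b + 1, u.c, u.A, u.B⟩ t₀

/-- **all the items of a node enter the flags at the same column** -/
lemma Mhi_node {u : NS} {τ : IT} (h : NDt X.par (w X.ψ) X.c.t u τ) (hl : ¬ isL τ) {q q' p' : ℕ}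
    (hq : q ∈ τ.items) (hq' : q' ∈ τ.items) (hp : tp τ ≤ p') :
    Mhi X.c p' q = Mhi X.c p' q' := by
  have key : ∀ {r : ℕ}, r ∈ τ.items → Mhi X.c p' r = u.B.primeFactors.filter (p' < ·) := by
    intro r hr
    have h1 := mt_node h X.tOk hl hr
    rw [← h1]
    ext s
    simp only [Mhi, Finset.mem_filter]
    constructor
    · rintro ⟨h2, h3⟩
      exact ⟨⟨h2, by omega⟩, h3⟩
    · rintro ⟨⟨h2, -⟩, h3⟩
      exact ⟨h2, h3⟩
  rw [key hq, key hq']

lemma Ent_node {F : ℕ → Finset ℕ → Prop} {u : NS} {τ : IT} (h : NDt X.par (w X.ψ) X.c.t u τ)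
    (hl : ¬ isL τ) {q q' p' : ℕ} (hq : q ∈ τ.items) (hq' : q' ∈ τ.items) (hp : tp τ < p')
    (he : Ent F X.c p' q) : Ent F X.c p' q' :=
  ⟨fun h1 => he.1 ((flg_congr (Mhi_node h hl hq hq' hp.le)).2 h1),
    (flg_congr (Mhi_node h hl hq hq' (by omega))).1 he.2⟩

/-! ### once per path -/

section once
variable {F : ℕ → Finset ℕ → Prop} {R : ℕ → (X.c.Lam → ℝ → ℝ) → ℝ} {K : ℝ}

/-- hypothesis at a rest column: nothing unless the items enter the flags, then at most `K mass` -/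
def HF (X : Ctx N γ p0 P₀) (F : ℕ → Finset ℕ → Prop) (R : ℕ → (X.c.Lam → ℝ → ℝ) → ℝ) (K : ℝ)
    (p' : ℕ) (u : NS) (τ : IT) : Prop :=
  R p' (vx X u τ) ≤ K * MS X u τ ∧ ((∀ q ∈ τ.items, ¬ Ent F X.c p' q) → R p' (vx X u τ) ≤ 0)

/-- facts of the nodes -/
structure NK (X : Ctx N γ p0 P₀) (u : NS) (τ : IT) : Prop where
  nd : NDt X.par (w X.ψ) X.c.t u τ
  c0 : 0 ≤ u.c

/-- columns of a flagged node -/
lemma cols_flg (hF : FMon F) {u : NS} {τ : IT} {q c : ℕ}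
    (h : ∀ p' ∈ Finset.Ioc q c, HF X F R K p' u τ) (hfl : ∀ r ∈ τ.items, flg F X.c c r) :
    cols R q c (vx X u τ) ≤ 0 := by
  refine Finset.sum_nonpos fun p' hp' => (h p' hp').2 fun r hr he => ?_
  exact he.1 (flg_le hF (Finset.mem_Ioc.1 hp').2 (hfl r hr))

lemma tp_lt : ∀ {t : IT} {n : ℕ}, t.Ok n → 0 < n → tp t < n
  | .leaf _, _, _, hn => hn
  | .br _ _ _ _, _, h, _ => h.2.1
  | .add _ _ _, _, h, _ => h.2.1
  | .up _ _ _, _, h, _ => h.2.1
  | .pl _ _, _, h, _ => h.2.1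
  | .far _ _ _, _, h, _ => h.2.1

lemma one_sub_nonneg {p : ℕ} (hp : p.Prime) : 0 ≤ 1 - 1 / (p : ℝ) := by
  have h2 : (2 : ℝ) ≤ p := by exact_mod_cast hp.two_le
  have : 1 / (p : ℝ) ≤ 1 / 2 := one_div_le_one_div_of_le (by norm_num) h2
  linarith

/-- **a flagged node** : nothing below -/
theorem rE_flg (hF : FMon F) : ∀ (τ : IT) (u : NS) (c : ℕ), tp τ ≤ c →
    All (NK X) u τ → CbI (HF X F R K) c u τ → (∀ r ∈ τ.items, flg F X.c c r) →
    rE R c (tX X u τ) ≤ 0 := by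
  intro τ
  induction τ with
  | leaf S => intro u c _ _ _ _; exact le_rfl
  | br p Sp t₁ t₀ ih₁ ih₀ =>
    intro u c ht hn hC hfl
    have hpc : p ≤ c := ht
    have hv : (DT.g (tX X u (.br p Sp t₁ t₀))).val = vx X u (.br p Sp t₁ t₀) := val_eq hn.1.nd
    have hp : p.Prime := hn.1.nd.self.ok.1
    have k1 : tp t₁ < p := tp_lt hn.2.1.self.nd.self.ok hp.pos
    have k0 : tp t₀ < p := tp_lt hn.2.2.self.nd.self.ok hp.pos
    have h1 := cols_flg hF hC.1 hfl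
    have a1 := ih₁ ⟨p, u.c / (1 - 1 / (p : ℝ)), u.A * p, u.B⟩ p k1.le hn.2.1 hC.2.1 fun r hr =>
        flg_le hF hpc (hfl r (Finset.mem_union_left _ hr))
    have a0 := ih₀ ⟨p, u.c * p, u.A, u.B * p⟩ p k0.le hn.2.2 hC.2.2 fun r hr =>
        flg_le hF hpc (hfl r (Finset.mem_union_right _ hr))
    have w1 := one_sub_nonneg hp
    have w0 : 0 ≤ 1 / (p : ℝ) := by positivity
    have b1 := mul_nonpos_of_nonneg_of_nonpos w1 a1
    have b0 := mul_nonpos_of_nonneg_of_nonpos w0 a0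
    have e : rE R c (tX X u (.br p Sp t₁ t₀)) = cols R p c (DT.g (tX X u (.br p Sp t₁ t₀))).val +
      ((1 - 1 / (p : ℝ)) * rE R p (tX X ⟨p, u.c / (1 - 1 / (p : ℝ)), u.A * p, u.B⟩ t₁) +
        1 / (p : ℝ) * rE R p (tX X ⟨p, u.c * p, u.A, u.B * p⟩ t₀)) := rfl
    rw [e, hv]
    linarith
  | add b t₁ t₀ ih₁ ih₀ =>
    intro u c ht hn hC hfl
    have hpc : b ≤ c := ht
    have hv : (DT.g (tX X u (.add b t₁ t₀))).val = vx X u (.add b t₁ t₀) := val_eq hn.1.nd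
    have k1 : tp t₁ < b + 1 := tp_lt hn.2.1.self.nd.self.ok (Nat.succ_pos b)
    have k0 : tp t₀ < b + 1 := tp_lt hn.2.2.self.nd.self.ok (Nat.succ_pos b)
    have h1 := cols_flg hF hC.1 hfl
    have a1 := ih₁ ⟨b + 1, u.c, u.A, u.B⟩ b (Nat.lt_succ_iff.1 k1)
      hn.2.1 hC.2.1 fun r hr => flg_le hF hpc (hfl r (Finset.mem_union_left _ hr))
    have a0 := ih₀ ⟨b + 1, u.c, u.A, u.B⟩ b (Nat.lt_succ_iff.1 k0)
      hn.2.2 hC.2.2 fun r hr => flg_le hF hpc (hfl r (Finset.mem_union_right _ hr))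
    have e : rE R c (tX X u (.add b t₁ t₀)) = cols R b c (DT.g (tX X u (.add b t₁ t₀))).val +
      (rE R b (tX X ⟨b + 1, u.c, u.A, u.B⟩ t₁) + rE R b (tX X ⟨b + 1, u.c, u.A, u.B⟩ t₀)) := rfl
    rw [e, hv]
    linarith
  | up b Sp t ih =>
    intro u c ht hn hC hfl
    have hpc : b ≤ c := ht
    have hv : (DT.g (tX X u (.up b Sp t))).val = vx X u (.up b Sp t) := val_eq hn.1.nd
    have hp : b.Prime := hn.1.nd.self.ok.1
    have k1 : tp t < b := tp_lt hn.2.self.nd.self.ok hp.pos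
    have h1 := cols_flg hF hC.1 hfl
    have a1 := ih ⟨b, u.c, u.A, u.B⟩ b k1.le hn.2 hC.2 fun r hr => flg_le hF hpc (hfl r hr)
    have e : rE R c (tX X u (.up b Sp t)) = cols R b c (DT.g (tX X u (.up b Sp t))).val +
      rE R b (tX X ⟨b, u.c, u.A, u.B⟩ t) := rfl
    rw [e, hv]
    linarith
  | pl b t ih =>
    intro u c ht hn hC hfl
    have hpc : b ≤ c := ht
    have hv : (DT.g (tX X u (.pl b t))).val = vx X u (.pl b t) := val_eq hn.1.nd
    have k1 : tp t < b + 1 := tp_lt hn.2.self.nd.self.ok (Nat.succ_pos b)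
    have h1 := cols_flg hF hC.1 hfl
    have a1 := ih ⟨b + 1, u.c, u.A * b, u.B⟩ b (Nat.lt_succ_iff.1 k1) hn.2 hC.2
      fun r hr => flg_le hF hpc (hfl r hr)
    have e : rE R c (tX X u (.pl b t)) = cols R b c (DT.g (tX X u (.pl b t))).val +
      ((1 - 0) * rE R b (tX X ⟨b + 1, u.c, u.A * b, u.B⟩ t) + 0 * 0) := rfl
    rw [e, hv]
    linarith
  | far b t₁ t₀ ih₁ ih₀ =>
    intro u c ht hn hC hfl
    have hpc : b ≤ c := ht
    have hv : (DT.g (tX X u (.far b t₁ t₀))).val = vx X u (.far b t₁ t₀) := val_eq hn.1.nd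
    have k1 : tp t₁ < b + 1 := tp_lt hn.2.1.self.nd.self.ok (Nat.succ_pos b)
    have k0 : tp t₀ < b + 1 := tp_lt hn.2.2.self.nd.self.ok (Nat.succ_pos b)
    have h1 := cols_flg hF hC.1 hfl
    have a1 := ih₁ ⟨b + 1, u.c, u.A, u.B⟩ b (Nat.lt_succ_iff.1 k1)
      hn.2.1 hC.2.1 fun r hr => flg_le hF hpc (hfl r (Finset.mem_union_left _ hr))
    have a0 := ih₀ ⟨b + 1, u.c, u.A, u.B⟩ b (Nat.lt_succ_iff.1 k0)
      hn.2.2 hC.2.2 fun r hr => flg_le hF hpc (hfl r (Finset.mem_union_right _ hr))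
    have e : rE R c (tX X u (.far b t₁ t₀)) = cols R b c (DT.g (tX X u (.far b t₁ t₀))).val +
      (rE R b (tX X ⟨b + 1, u.c, u.A, u.B⟩ t₁) + rE R b (tX X ⟨b + 1, u.c, u.A, u.B⟩ t₀)) := rfl
    rw [e, hv]
    linarith

/-- **columns of a node and its children** : either nothing at the columns, or the items are flagged at
the top of the node -/
lemma cols_once (hF : FMon F) (hK : 0 ≤ K) {u : NS} {τ : IT} {c : ℕ} (hl : ¬ isL τ)
    (hn : NK X u τ) (h : ∀ p' ∈ Finset.Ioc (tp τ) c, HF X F R K p' u τ) :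
    cols R (tp τ) c (vx X u τ) ≤ 0 ∨ (cols R (tp τ) c (vx X u τ) ≤ K * MS X u τ ∧
      ∀ r ∈ τ.items, flg F X.c (tp τ) r) := by
  by_cases he : ∃ p' ∈ Finset.Ioc (tp τ) c, ∃ i ∈ τ.items, Ent F X.c p' i
  · obtain ⟨p', hp', i, hi, he⟩ := he
    obtain ⟨h1, h2⟩ := Finset.mem_Ioc.1 hp'
    refine Or.inr ⟨?_, fun r hr => ?_⟩
    · unfold PrG45.cols
      rw [← Finset.add_sum_erase _ _ hp']
      have h3 : ∑ x ∈ (Finset.Ioc (tp τ) c).erase p', R x (vx X u τ) ≤ 0 := by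
        refine Finset.sum_nonpos fun p'' hp'' => ?_
        obtain ⟨h4, h5⟩ := Finset.mem_erase.1 hp''
        refine (h p'' h5).2 fun r hr hr' => h4 ?_
        have h6 : Ent F X.c p' r := Ent_node hn.nd hl hi hr h1 he
        exact (Ent.unique hF h6 hr').symm
      have h4 := (h p' hp').1
      linarith
    · have h6 : Ent F X.c p' r := Ent_node hn.nd hl hi hr h1 he
      exact flg_le hF (by omega) h6.2
  · push Not at he
    exact Or.inl (Finset.sum_nonpos fun p' hp' => (h p' hp').2 (he p' hp'))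

/-- **energies at the columns where the items enter the flags** : once per path -/
theorem rE_once (hF : FMon F) (hK : 0 ≤ K) : ∀ (τ : IT) (u : NS) (c : ℕ), tp τ ≤ c →
    All (NK X) u τ → CbI (HF X F R K) c u τ → rE R c (tX X u τ) ≤ K * MS X u τ := by
  intro τ
  induction τ with
  | leaf S =>
    intro u c _ hn _
    have h0 : NK X u (.leaf S) := hn
    exact mul_nonneg hK (MS_nonneg h0.c0 _)
  | br p Sp t₁ t₀ ih₁ ih₀ =>
    intro u c ht hn hC
    have hpc : p ≤ c := ht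
    have hv : (DT.g (tX X u (.br p Sp t₁ t₀))).val = vx X u (.br p Sp t₁ t₀) := val_eq hn.1.nd
    have hok := hn.1.nd.self.ok
    have hp : p.Prime := hok.1
    have k1 : tp t₁ < p := tp_lt hn.2.1.self.nd.self.ok hp.pos
    have k0 : tp t₀ < p := tp_lt hn.2.2.self.nd.self.ok hp.pos
    have w1 := one_sub_nonneg hp
    have w0 : 0 ≤ 1 / (p : ℝ) := by positivity
    have e : rE R c (tX X u (.br p Sp t₁ t₀)) = cols R p c (DT.g (tX X u (.br p Sp t₁ t₀))).val +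
      ((1 - 1 / (p : ℝ)) * rE R p (tX X ⟨p, u.c / (1 - 1 / (p : ℝ)), u.A * p, u.B⟩ t₁) +
        1 / (p : ℝ) * rE R p (tX X ⟨p, u.c * p, u.A, u.B * p⟩ t₀)) := rfl
    have eM := MS_br (X := X) (u := u) hok
    rw [e, hv]
    rcases cols_once (R := R) hF hK (fun h => h : ¬ isL (IT.br p Sp t₁ t₀)) hn.1 hC.1 with h1 | ⟨h1, h2⟩
    · have h1' : cols R p c (vx X u (.br p Sp t₁ t₀)) ≤ 0 := h1
      have a1 := mul_le_mul_of_nonneg_left
        (ih₁ ⟨p, u.c / (1 - 1 / (p : ℝ)), u.A * p, u.B⟩ p k1.le hn.2.1 hC.2.1) w1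
      have a0 := mul_le_mul_of_nonneg_left
        (ih₀ ⟨p, u.c * p, u.A, u.B * p⟩ p k0.le hn.2.2 hC.2.2) w0
      rw [← eM]
      nlinarith
    · have h1' : cols R p c (vx X u (.br p Sp t₁ t₀)) ≤ K * MS X u (.br p Sp t₁ t₀) := h1
      have a1 := rE_flg (R := R) (K := K) hF t₁ ⟨p, u.c / (1 - 1 / (p : ℝ)), u.A * p, u.B⟩ p k1.le
        hn.2.1 hC.2.1 fun r hr => h2 r (Finset.mem_union_left _ hr)
      have a0 := rE_flg (R := R) (K := K) hF t₀ ⟨p, u.c * p, u.A, u.B * p⟩ p k0.le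
        hn.2.2 hC.2.2 fun r hr => h2 r (Finset.mem_union_right _ hr)
      have b1 := mul_nonpos_of_nonneg_of_nonpos w1 a1
      have b0 := mul_nonpos_of_nonneg_of_nonpos w0 a0
      linarith
  | add b t₁ t₀ ih₁ ih₀ =>
    intro u c ht hn hC
    have hv : (DT.g (tX X u (.add b t₁ t₀))).val = vx X u (.add b t₁ t₀) := val_eq hn.1.nd
    have hok := hn.1.nd.self.ok
    have k1 : tp t₁ < b + 1 := tp_lt hn.2.1.self.nd.self.ok (Nat.succ_pos b)
    have k0 : tp t₀ < b + 1 := tp_lt hn.2.2.self.nd.self.ok (Nat.succ_pos b)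
    have e : rE R c (tX X u (.add b t₁ t₀)) = cols R b c (DT.g (tX X u (.add b t₁ t₀))).val +
      (rE R b (tX X ⟨b + 1, u.c, u.A, u.B⟩ t₁) + rE R b (tX X ⟨b + 1, u.c, u.A, u.B⟩ t₀)) := rfl
    have eM := MS_add (X := X) (u := u) (n := b + 1) hok.2.2.1
    have eM' : MS X u (.add b t₁ t₀) = u.c * Ws (w X.ψ) (t₁.items ∪ t₀.items) := rfl
    rw [e, hv]
    rcases cols_once (R := R) hF hK (fun h => h : ¬ isL (IT.add b t₁ t₀)) hn.1 hC.1 with h1 | ⟨h1, h2⟩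
    · have h1' : cols R b c (vx X u (.add b t₁ t₀)) ≤ 0 := h1
      have a1 := ih₁ ⟨b + 1, u.c, u.A, u.B⟩ b (Nat.lt_succ_iff.1 k1) hn.2.1 hC.2.1
      have a0 := ih₀ ⟨b + 1, u.c, u.A, u.B⟩ b (Nat.lt_succ_iff.1 k0) hn.2.2 hC.2.2
      rw [eM', ← eM]
      nlinarith
    · have h1' : cols R b c (vx X u (.add b t₁ t₀)) ≤ K * MS X u (.add b t₁ t₀) := h1
      have a1 := rE_flg (R := R) (K := K) hF t₁ ⟨b + 1, u.c, u.A, u.B⟩ b (Nat.lt_succ_iff.1 k1)
        hn.2.1 hC.2.1 fun r hr => h2 r (Finset.mem_union_left _ hr)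
      have a0 := rE_flg (R := R) (K := K) hF t₀ ⟨b + 1, u.c, u.A, u.B⟩ b (Nat.lt_succ_iff.1 k0)
        hn.2.2 hC.2.2 fun r hr => h2 r (Finset.mem_union_right _ hr)
      linarith
  | up b Sp t ih =>
    intro u c ht hn hC
    have hv : (DT.g (tX X u (.up b Sp t))).val = vx X u (.up b Sp t) := val_eq hn.1.nd
    have hp : b.Prime := hn.1.nd.self.ok.1
    have k1 : tp t < b := tp_lt hn.2.self.nd.self.ok hp.pos
    have e : rE R c (tX X u (.up b Sp t)) = cols R b c (DT.g (tX X u (.up b Sp t))).val +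
      rE R b (tX X ⟨b, u.c, u.A, u.B⟩ t) := rfl
    rw [e, hv]
    rcases cols_once (R := R) hF hK (fun h => h : ¬ isL (IT.up b Sp t)) hn.1 hC.1 with h1 | ⟨h1, h2⟩
    · have h1' : cols R b c (vx X u (.up b Sp t)) ≤ 0 := h1
      have a1 := ih ⟨b, u.c, u.A, u.B⟩ b k1.le hn.2 hC.2
      have eM : MS X ⟨b, u.c, u.A, u.B⟩ t = MS X u (.up b Sp t) := rfl
      rw [eM] at a1
      linarith
    · have h1' : cols R b c (vx X u (.up b Sp t)) ≤ K * MS X u (.up b Sp t) := h1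
      have a1 := rE_flg (R := R) (K := K) hF t ⟨b, u.c, u.A, u.B⟩ b k1.le hn.2 hC.2 h2
      linarith
  | pl b t ih =>
    intro u c ht hn hC
    have hv : (DT.g (tX X u (.pl b t))).val = vx X u (.pl b t) := val_eq hn.1.nd
    have k1 : tp t < b + 1 := tp_lt hn.2.self.nd.self.ok (Nat.succ_pos b)
    have e : rE R c (tX X u (.pl b t)) = cols R b c (DT.g (tX X u (.pl b t))).val +
      ((1 - 0) * rE R b (tX X ⟨b + 1, u.c, u.A * b, u.B⟩ t) + 0 * 0) := rfl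
    rw [e, hv]
    rcases cols_once (R := R) hF hK (fun h => h : ¬ isL (IT.pl b t)) hn.1 hC.1 with h1 | ⟨h1, h2⟩
    · have h1' : cols R b c (vx X u (.pl b t)) ≤ 0 := h1
      have a1 := ih ⟨b + 1, u.c, u.A * b, u.B⟩ b (Nat.lt_succ_iff.1 k1) hn.2 hC.2
      have eM : MS X ⟨b + 1, u.c, u.A * b, u.B⟩ t = MS X u (.pl b t) := rfl
      rw [eM] at a1
      linarith
    · have h1' : cols R b c (vx X u (.pl b t)) ≤ K * MS X u (.pl b t) := h1
      have a1 := rE_flg (R := R) (K := K) hF t ⟨b + 1, u.c, u.A * b, u.B⟩ b (Nat.lt_succ_iff.1 k1)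
        hn.2 hC.2 h2
      linarith
  | far b t₁ t₀ ih₁ ih₀ =>
    intro u c ht hn hC
    have hv : (DT.g (tX X u (.far b t₁ t₀))).val = vx X u (.far b t₁ t₀) := val_eq hn.1.nd
    have hok := hn.1.nd.self.ok
    have k1 : tp t₁ < b + 1 := tp_lt hn.2.1.self.nd.self.ok (Nat.succ_pos b)
    have k0 : tp t₀ < b + 1 := tp_lt hn.2.2.self.nd.self.ok (Nat.succ_pos b)
    have e : rE R c (tX X u (.far b t₁ t₀)) = cols R b c (DT.g (tX X u (.far b t₁ t₀))).val +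
      (rE R b (tX X ⟨b + 1, u.c, u.A, u.B⟩ t₁) + rE R b (tX X ⟨b + 1, u.c, u.A, u.B⟩ t₀)) := rfl
    have eM := MS_add (X := X) (u := u) (n := b + 1) hok.2.2.1
    have eM' : MS X u (.far b t₁ t₀) = u.c * Ws (w X.ψ) (t₁.items ∪ t₀.items) := rfl
    rw [e, hv]
    rcases cols_once (R := R) hF hK (fun h => h : ¬ isL (IT.far b t₁ t₀)) hn.1 hC.1 with h1 | ⟨h1, h2⟩
    · have h1' : cols R b c (vx X u (.far b t₁ t₀)) ≤ 0 := h1
      have a1 := ih₁ ⟨b + 1, u.c, u.A, u.B⟩ b (Nat.lt_succ_iff.1 k1) hn.2.1 hC.2.1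
      have a0 := ih₀ ⟨b + 1, u.c, u.A, u.B⟩ b (Nat.lt_succ_iff.1 k0) hn.2.2 hC.2.2
      rw [eM', ← eM]
      nlinarith
    · have h1' : cols R b c (vx X u (.far b t₁ t₀)) ≤ K * MS X u (.far b t₁ t₀) := h1
      have a1 := rE_flg (R := R) (K := K) hF t₁ ⟨b + 1, u.c, u.A, u.B⟩ b (Nat.lt_succ_iff.1 k1)
        hn.2.1 hC.2.1 fun r hr => h2 r (Finset.mem_union_left _ hr)
      have a0 := rE_flg (R := R) (K := K) hF t₀ ⟨b + 1, u.c, u.A, u.B⟩ b (Nat.lt_succ_iff.1 k0)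
        hn.2.2 hC.2.2 fun r hr => h2 r (Finset.mem_union_right _ hr)
      linarith

end once

/-! ### the energies of the pairs of one index at the rest columns -/

/-- **separated pairs of one real index**, flags forgotten: node bound at the rest columns with the rates
`e` (independent of the piece) -/
def SdN (X : Ctx N γ p0 P₀) (e : ℕ → ℝ) (u : NS) (τ : IT) : Prop :=
  ¬ isL τ → ∀ p', tp τ < p' → p' ≤ u.n → (∀ l : ℕ, l.Prime → l ∣ u.A → p' ≤ l) →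
    (∀ l : ℕ, l.Prime → l ∣ u.B → p' < l) →
    bil (KSd X p') (vx X u τ) (vx X u τ) ≤ e p' * MS X u τ

/-- energy of the pairs of one index at a rest column -/
def EkN (X : Ctx N γ p0 P₀) (K : ℝ) (p' : ℕ) (u : NS) (τ : IT) : Prop :=
  bil (KSk X p') (vx X u τ) (vx X u τ) ≤ K * MS X u τ

lemma sf_vx {u : NS} {t : IT} (h : NDt X.par (w X.ψ) X.c.t u t) (q : ℕ) :
    sf (KSk X) idk q (tX X u t) = bil (KSk X q) (vx X u t) (vx X u t) := by
  unfold sf
  rw [cf_node h q]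

lemma bil_sum' {Λ ι : Type} [Fintype Λ] (s : Finset ι) (L : ι → Λ → Λ → ℝ) (f g : Λ → ℝ → ℝ) :
    bil (fun i j => ∑ a ∈ s, L a i j) f g = ∑ a ∈ s, bil (L a) f g := by
  classical
  unfold bil
  simp only [Finset.sum_mul]
  calc ∑ c, ∑ c', ∑ a ∈ s, L a c c' * I (fun x => f c x * g c' x)
      = ∑ c, ∑ a ∈ s, ∑ c', L a c c' * I (fun x => f c x * g c' x) :=
        Finset.sum_congr rfl fun c _ => Finset.sum_comm
    _ = ∑ a ∈ s, ∑ c, ∑ c', L a c c' * I (fun x => f c x * g c' x) := Finset.sum_comm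

/-- **telescoping in a node** -/
theorem EkN_tele {K E : ℝ} {e : ℕ → ℝ} {u : NS} {τ : IT} (hr : RgN X u τ) (hm : 0 ≤ MS X u τ)
    (he : ∀ p, 0 ≤ e p) {q p' : ℕ} (h : q ≤ p') (h1 : EkN X K q u τ)
    (h2 : ∀ p'' ∈ Finset.Ioc q p', bil (KSd X p'') (vx X u τ) (vx X u τ) ≤ e p'' * MS X u τ)
    (hE : ∑ p'' ∈ Finset.Ioc q p', e p'' ≤ E) : EkN X (K + E) p' u τ := by
  have hb := fun i => pb_vx hr i
  unfold EkN at h1 ⊢
  have h3 : bil (KSk X p') (vx X u τ) (vx X u τ) ≤ bil (fun i j => KSk X q i j +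
      ∑ p'' ∈ Finset.Ioc q p', KSd X p'' i j) (vx X u τ) (vx X u τ) :=
    bil_monoK (fun i j => KSk_tele h i j) hb hb
  rw [bil_addK, bil_sum'] at h3
  have h4 : ∑ p'' ∈ Finset.Ioc q p', bil (KSd X p'') (vx X u τ) (vx X u τ) ≤
      ∑ p'' ∈ Finset.Ioc q p', e p'' * MS X u τ := Finset.sum_le_sum h2
  rw [← Finset.sum_mul] at h4
  have h5 := mul_le_mul_of_nonneg_right hE hm
  linarith

/-- facts of the nodes for the induction -/
structure NF6 (X : Ctx N γ p0 P₀) (K : ℝ) (e : ℕ → ℝ) (u : NS) (τ : IT) : Prop where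
  nd : NDt X.par (w X.ψ) X.c.t u τ
  c0 : 0 ≤ u.c
  rg : RgN X u τ
  ke : KidE X K u τ
  sd : SdN X e u τ

lemma ek_at {K E : ℝ} {e : ℕ → ℝ} (he : ∀ p, 0 ≤ e p) (hE : ∀ s : Finset ℕ, ∑ p ∈ s, e p ≤ E)
    {u : NS} {τ : IT} (hl : ¬ isL τ) (h : NF6 X K e u τ) {c : ℕ} (hc : c ≤ u.n)
    (hA : ∀ l : ℕ, l.Prime → l ∣ u.A → c ≤ l) (hp : EkN X K c u τ) :
    ∀ p' ∈ Finset.Ioc (tp τ) c, EkN X (K + E) p' u τ := by
  intro p' hp'
  obtain ⟨h1, h2⟩ := Finset.mem_Ioc.1 hp'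
  have hm := MS_nonneg (X := X) h.c0 τ
  have hE0 : 0 ≤ E := by simpa using hE ∅
  rcases eq_or_lt_of_le h2 with h3 | h3
  · subst h3
    unfold EkN at hp ⊢
    have := mul_nonneg hE0 hm
    linarith
  · have h4 : SfLe X K (tp τ) u τ := AsG24.self_KidE h.ke hl
    refine EkN_tele h.rg hm he h1.le ?_ (fun p'' hp'' => ?_) (hE _)
    · unfold SfLe at h4
      unfold EkN
      rw [← sf_vx h.nd]
      exact h4
    · obtain ⟨h5, h6⟩ := Finset.mem_Ioc.1 hp''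
      refine h.sd hl p'' h5 (by omega) (fun l hl hd => ?_) fun l hl hd => ?_
      · have := hA l hl hd
        omega
      · have := h.nd.bk.geB l hl hd
        omega

lemma sfle_ek {K : ℝ} {q : ℕ} {u : NS} {t : IT} (h : NDt X.par (w X.ψ) X.c.t u t)
    (h1 : SfLe X K q u t) : EkN X K q u t := by
  unfold SfLe at h1
  unfold EkN
  rw [← sf_vx h]
  exact h1

/-- **the energies of the pairs of one index at all the rest columns** -/
theorem ek_all {K E : ℝ} {e : ℕ → ℝ} (he : ∀ p, 0 ≤ e p) (hE : ∀ s : Finset ℕ, ∑ p ∈ s, e p ≤ E) :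
    ∀ (τ : IT) (u : NS) (c : ℕ), All (NF6 X K e) u τ → c ≤ u.n →
    (∀ l : ℕ, l.Prime → l ∣ u.A → c ≤ l) → (tp τ = c ∨ EkN X K c u τ) →
    CbI (fun p' u τ => EkN X (K + E) p' u τ) c u τ := by
  intro τ
  have key : ∀ {u : NS} {τ : IT} {c : ℕ}, ¬ isL τ → NF6 X K e u τ → c ≤ u.n →
      (∀ l : ℕ, l.Prime → l ∣ u.A → c ≤ l) → (tp τ = c ∨ EkN X K c u τ) →
      ∀ p' ∈ Finset.Ioc (tp τ) c, EkN X (K + E) p' u τ := by
    intro u τ c hl h hc hA hp
    rcases hp with h1 | h1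
    · intro p' hp'
      rw [h1, Finset.Ioc_self] at hp'
      exact absurd hp' (Finset.notMem_empty _)
    · exact ek_at he hE hl h hc hA h1
  induction τ with
  | leaf S => intro u c _ _ _ _; trivial
  | br p Sp t₁ t₀ ih₁ ih₀ =>
    intro u c h hc hA hp
    have hpr : p.Prime := h.1.nd.self.ok.1
    have hpn : p < u.n := h.1.nd.self.ok.2.1
    have hK := h.1.ke
    refine ⟨key (τ := .br p Sp t₁ t₀) (fun h => h) h.1 hc hA hp, ih₁ _ p h.2.1 le_rfl (fun l hl hd => ?_) (Or.inr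
      (sfle_ek h.2.1.self.nd hK.2.1)), ih₀ _ p h.2.2 le_rfl (fun l hl hd => ?_) (Or.inr
      (sfle_ek h.2.2.self.nd hK.2.2))⟩
    · rcases (Nat.Prime.dvd_mul hl).1 hd with h1 | h1
      · have := h.1.nd.bk.geA l hl h1
        omega
      · exact ((Nat.prime_dvd_prime_iff_eq hl hpr).1 h1).ge
    · have := h.1.nd.bk.geA l hl hd
      omega
  | add b t₁ t₀ ih₁ ih₀ =>
    intro u c h hc hA hp
    have hpn : b < u.n := h.1.nd.self.ok.2.1
    have hK := h.1.ke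
    have hA' : ∀ l : ℕ, l.Prime → l ∣ u.A → b ≤ l := fun l hl hd => by
      have := h.1.nd.bk.geA l hl hd
      omega
    exact ⟨key (τ := .add b t₁ t₀) (fun h => h) h.1 hc hA hp,
      ih₁ ⟨b + 1, u.c, u.A, u.B⟩ b h.2.1 (Nat.le_succ b) hA' (Or.inr (sfle_ek h.2.1.self.nd hK.2.1)),
      ih₀ ⟨b + 1, u.c, u.A, u.B⟩ b h.2.2 (Nat.le_succ b) hA' (Or.inr (sfle_ek h.2.2.self.nd hK.2.2))⟩
  | up b Sp t ih =>
    intro u c h hc hA hp
    have hpn : b < u.n := h.1.nd.self.ok.2.1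
    have hK := h.1.ke
    have hA' : ∀ l : ℕ, l.Prime → l ∣ u.A → b ≤ l := fun l hl hd => by
      have := h.1.nd.bk.geA l hl hd
      omega
    exact ⟨key (τ := .up b Sp t) (fun h => h) h.1 hc hA hp,
      ih ⟨b, u.c, u.A, u.B⟩ b h.2 le_rfl hA' (Or.inr (sfle_ek h.2.self.nd hK.2))⟩
  | pl b t ih =>
    intro u c h hc hA hp
    have hpr : b.Prime := h.1.nd.self.ok.1
    have hpn : b < u.n := h.1.nd.self.ok.2.1
    have hK := h.1.ke
    refine ⟨key (τ := .pl b t) (fun h => h) h.1 hc hA hp,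
      ih ⟨b + 1, u.c, u.A * b, u.B⟩ b h.2 (Nat.le_succ b) (fun l hl hd => ?_)
        (Or.inr (sfle_ek h.2.self.nd hK.2))⟩
    rcases (Nat.Prime.dvd_mul hl).1 hd with h1 | h1
    · have := h.1.nd.bk.geA l hl h1
      omega
    · exact ((Nat.prime_dvd_prime_iff_eq hl hpr).1 h1).ge
  | far b t₁ t₀ ih₁ ih₀ =>
    intro u c h hc hA hp
    have hpn : b < u.n := h.1.nd.self.ok.2.1
    have hK := h.1.ke
    have hA' : ∀ l : ℕ, l.Prime → l ∣ u.A → b ≤ l := fun l hl hd => by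
      have := h.1.nd.bk.geA l hl hd
      omega
    exact ⟨key (τ := .far b t₁ t₀) (fun h => h) h.1 hc hA hp,
      ih₁ ⟨b + 1, u.c, u.A, u.B⟩ b h.2.1 (Nat.le_succ b) hA' (Or.inr (sfle_ek h.2.1.self.nd hK.2.1)),
      ih₀ ⟨b + 1, u.c, u.A, u.B⟩ b h.2.2 (Nat.le_succ b) hA' (Or.inr (sfle_ek h.2.2.self.nd hK.2.2))⟩

lemma CbI.mono {F G : ℕ → NS → IT → Prop} {P : NS → IT → Prop}
    (h : ∀ p' u τ, P u τ → F p' u τ → G p' u τ) : ∀ (τ : IT) (u : NS) (c : ℕ),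
    All P u τ → CbI F c u τ → CbI G c u τ := by
  intro τ
  induction τ with
  | leaf S => intro u c _ _; trivial
  | br p Sp t₁ t₀ ih₁ ih₀ =>
    intro u c hP hF
    exact ⟨fun p' hp' => h _ _ _ hP.1 (hF.1 p' hp'), ih₁ _ _ hP.2.1 hF.2.1, ih₀ _ _ hP.2.2 hF.2.2⟩
  | add b t₁ t₀ ih₁ ih₀ =>
    intro u c hP hF
    exact ⟨fun p' hp' => h _ _ _ hP.1 (hF.1 p' hp'), ih₁ _ _ hP.2.1 hF.2.1, ih₀ _ _ hP.2.2 hF.2.2⟩
  | up b Sp t ih =>
    intro u c hP hF
    exact ⟨fun p' hp' => h _ _ _ hP.1 (hF.1 p' hp'), ih _ _ hP.2 hF.2⟩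
  | pl b t ih =>
    intro u c hP hF
    exact ⟨fun p' hp' => h _ _ _ hP.1 (hF.1 p' hp'), ih _ _ hP.2 hF.2⟩
  | far b t₁ t₀ ih₁ ih₀ =>
    intro u c hP hF
    exact ⟨fun p' hp' => h _ _ _ hP.1 (hF.1 p' hp'), ih₁ _ _ hP.2.1 hF.2.1, ih₀ _ _ hP.2.2 hF.2.2⟩

/-- content only of the items of the node -/
lemma bil_KEn_zero {F : ℕ → Finset ℕ → Prop} {p' : ℕ} {u : NS} {τ : IT}
    (h : ∀ q ∈ τ.items, ¬ Ent F X.c p' q) : bil (KEn X F p') (vx X u τ) (vx X u τ) = 0 := by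
  unfold bil
  refine Finset.sum_eq_zero fun i _ => Finset.sum_eq_zero fun j _ => ?_
  by_cases hi : (X.c.D.par X.Y).it i ∈ τ.items
  · have h1 : KEn X F p' i j = 0 := by
      unfold KEn
      rw [if_neg]
      rintro ⟨h2, -, -⟩
      exact h _ hi h2
    rw [h1, zero_mul]
  · have e : (fun x => vx X u τ i x * vx X u τ j x) = fun _ => 0 := funext fun x => by
      rw [vx_zero hi, zero_mul]
    rw [e]
    unfold I
    simp

/-- **T6** : the energies of the pairs which enter the flags, all the nodes -/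
theorem rE_KEn {K E : ℝ} {e : ℕ → ℝ} (hK : 0 ≤ K) (he : ∀ p, 0 ≤ e p)
    (hE : ∀ s : Finset ℕ, ∑ p ∈ s, e p ≤ E) {F : ℕ → Finset ℕ → Prop} (hF : FMon F) {u : NS} {τ : IT}
    (h : All (NF6 X K e) u τ) : rE (RN (KEn X F)) (tp τ) (tX X u τ) ≤ 2 * (K + E) * MS X u τ := by
  have hE0 : 0 ≤ E := by simpa using hE ∅
  by_cases hl : isL τ
  · cases τ with
    | leaf S => exact mul_nonneg (by linarith) (MS_nonneg (show 0 ≤ u.c from (show NF6 X K e u _ from h).c0) _)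
    | br p Sp t₁ t₀ => exact absurd hl fun h => h
    | add b t₁ t₀ => exact absurd hl fun h => h
    | up b Sp t => exact absurd hl fun h => h
    | pl b t => exact absurd hl fun h => h
    | far b t₁ t₀ => exact absurd hl fun h => h
  · have hs := h.self
    have hlt : tp τ < u.n := by
      have := (WalkIT579.top_of_nodeOk hs.nd.self.node hl).2.1
      exact this
    have h1 := ek_all (X := X) he hE τ u (tp τ) h hlt.le (fun l hl hd => by
      have := hs.nd.bk.geA l hl hd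
      omega) (Or.inl rfl)
    refine rE_once hF (by linarith) τ u (tp τ) le_rfl (All.mono (fun u τ h => ⟨h.nd, h.c0⟩) h) ?_
    refine CbI.mono (P := NF6 X K e) (fun p' u τ hn hf => ⟨?_, fun h0 => ?_⟩) τ u _ h h1
    · have hb := fun i => pb_vx hn.rg i
      have h3 := bil_monoK (f := vx X u τ) (g := vx X u τ) (fun i j => KEn_le (X := X) (F := F) p' i j) hb hb
      unfold EkN at hf
      show 2 * bil (KEn X F p') (vx X u τ) (vx X u τ) ≤ _
      linarith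
    · show 2 * bil (KEn X F p') (vx X u τ) (vx X u τ) ≤ 0
      rw [bil_KEn_zero h0, mul_zero]

/-! ### separated pairs: from the rates of the pieces -/

/-- **node bound of the separated pairs from rates** `e p + d p [p missing tie of the piece]` -/
theorem SdN_of {e d : ℕ → ℝ} (he : ∀ p, 0 ≤ e p) {u : NS} {τ : IT} {j₀ : X.c.Lam}
    (hn : NDt X.par (w X.ψ) X.c.t u τ)
    (hμ : ∀ (c : X.c.Lam → ℝ) (C : ℝ), 0 ≤ C → (∀ i, (X.c.D.par X.Y).it i ∈ τ.items → c i ≤ C) →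
      lm X c u τ ≤ 4 * C * X.mu j₀ u τ Finset.univ)
    (hm : X.mu j₀ u τ Finset.univ = u.c * Ws (w X.ψ) τ.items)
    (hV : VNd X (RN (KSd X)) (fun p j => e p + if p ∈ X.c.t.mt j.1.1 then d p else 0) u τ) :
    SdN X (fun p => 2 * e p) u τ := by
  intro hl p' h1 h2 h3 h4
  have h5 := hV hl p' h1 h2 h3
  have h6 := hμ (fun j => e p' + if p' ∈ X.c.t.mt j.1.1 then d p' else 0) (e p') (he p') fun i hi => by
    have h7 : p' ∉ X.c.t.mt i.1.1 := by
      intro h8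
      have h9 := mt_node hn X.tOk hl hi
      have h10 : p' ∈ u.B.primeFactors := by
        rw [← h9]
        exact Finset.mem_filter.2 ⟨h8, h1⟩
      exact lt_irrefl p' (h4 p' (Nat.prime_of_mem_primeFactors h10)
        (Nat.dvd_of_mem_primeFactors h10))
    rw [if_neg h7, add_zero]
  have h8 : RN (KSd X) p' (vx X u τ) = 2 * bil (KSd X p') (vx X u τ) (vx X u τ) := rfl
  have h9 : MS X u τ = X.mu j₀ u τ Finset.univ := hm.symm
  rw [h9]
  show bil (KSd X p') (vx X u τ) (vx X u τ) ≤ 2 * e p' * _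
  linarith

/-! ### the kernel of the separated pairs of the rest -/

variable {Q : NS → IT → Prop} {C : ℝ} {i j : X.c.Lam} {p : ℕ}

open Classical in
/-- **pairs separated inside the game** : one node, one point, equal types above, different types below, no
flags below -/
noncomputable def KMr (X : Ctx N γ p0 P₀) (Q : NS → IT → Prop) (r : RF X) (p : ℕ)
    (i j : X.c.Lam) : ℝ :=
  if ∃ (m : Me) (u : NS) (τ : IT) (x : ℝ), RtX X Q p m u τ ∧ tp τ < p ∧ ¬ isL τ ∧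
    vx X u τ i x ≠ 0 ∧ vx X u τ j x ≠ 0 ∧ r.D.tp p m x i ≠ none ∧
    r.D.tp p m x i = r.D.tp p m x j ∧ r.D.tp (p - 1) m x i ≠ r.D.tp (p - 1) m x j ∧
    r.D.tp (p - 1) m x i ≠ none ∧ r.D.tp (p - 1) m x j ≠ none then 1 else 0

lemma KMr_nonneg {r : RF X} (p : ℕ) (i j : X.c.Lam) : 0 ≤ KMr X Q r p i j := by
  unfold KMr; split_ifs <;> norm_num

/-- the real index at a content -/
lemma ixr_real (cf : CtxF X Q) {m : Me} {u : NS} {τ : IT} (hs : RtX X Q p m u τ) {x : ℝ}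
    (hi : vx X u τ i x ≠ 0) : ixr X p m x i = ixf X p i := by
  have hn := cf.hQ _ _ hs.1.rm.all.self
  exact PairX41.ix_P cf.hQ cf.hd1 hs (by rwa [← vx_val hn])

/-- **the separated pairs: inside the game or both enter the flags** -/
theorem KNr_le (cf : CtxF X Q) (P : PrL X) (p : ℕ) (i j : X.c.Lam) :
    KNr X Q P.rL p i j ≤ KMr X Q P.rL p i j + KEn X P.F p i j := by
  classical
  by_cases h : SpN X Q P.rL p i j
  · have hp : p ≠ 0 := by
      rintro rfl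
      obtain ⟨m, u, τ, x, -, ht, -⟩ := h
      exact absurd ht (Nat.not_lt_zero _)
    have h0 : KNr X Q P.rL p i j = 1 := if_pos h
    rw [h0]
    obtain ⟨m, u, τ, x, hs, ht, hl, qi, qj, hi, hj, -, -, f1, f2, e1, h3⟩ := P.SpN_list cf hp h
    have hn := cf.hQ _ _ hs.1.rm.all.self
    rw [ixr_real cf hs hi, ixr_real cf hs hj] at e1
    have key : flg P.F X.c (p - 1) i.1.1 ∨ flg P.F X.c (p - 1) j.1.1 → KEn X P.F p i j = 1 := by
      intro h4
      unfold KEn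
      rw [if_pos]
      rcases h4 with h4 | h4
      · exact ⟨⟨f1, h4⟩, Ent_node hn hl qi qj ht ⟨f1, h4⟩, e1⟩
      · exact ⟨Ent_node hn hl qj qi ht ⟨f2, h4⟩, ⟨f2, h4⟩, e1⟩
    by_cases g1 : flg P.F X.c (p - 1) i.1.1
    · rw [key (Or.inl g1)]
      have := KMr_nonneg (Q := Q) (r := P.rL) p i j
      linarith
    by_cases g2 : flg P.F X.c (p - 1) j.1.1
    · rw [key (Or.inr g2)]
      have := KMr_nonneg (Q := Q) (r := P.rL) p i j
      linarith
    have h5 : KMr X Q P.rL p i j = 1 := by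
      unfold KMr
      rw [if_pos]
      obtain ⟨m', u', τ', x', hs', ht', hl', hi', hj', a1, a2, a3⟩ := h
      have b1 : P.rL.D.tp (p - 1) m' x' i ≠ none := fun h => g1 (P.tp_none.1 h)
      have b2 : P.rL.D.tp (p - 1) m' x' j ≠ none := fun h => g2 (P.tp_none.1 h)
      exact ⟨m', u', τ', x', hs', ht', hl', hi', hj', a1, a2, a3.resolve_right b1, b1, b2⟩
    rw [h5]
    have := KEn_nonneg (X := X) (F := P.F) p i j
    linarith
  · have h0 : KNr X Q P.rL p i j = 0 := if_neg h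
    rw [h0]
    exact add_nonneg (KMr_nonneg p i j) (KEn_nonneg p i j)

/-- **energies of the separated pairs** -/
theorem rE_KNr (cf : CtxF X Q) (P : PrL X) {u : NS} {τ : IT} (h : RgN X u τ) (q : ℕ) :
    rE (RN (KNr X Q P.rL)) q (tX X u τ) ≤ rE (RN (KMr X Q P.rL)) q (tX X u τ) +
      rE (RN (KEn X P.F)) q (tX X u τ) := by
  have hw : (tX X u τ).All W01 := h.tq.mono fun t h => h.w01
  rw [← rE_add]
  refine rE_mono (fun p v hv => ?_) hw h.pb q
  rw [← RN_add]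
  exact RN_mono (fun q i j => KNr_le cf P q i j) p v hv

end ctx

/-! ### the contexts -/

open Crest.Agent.R4P.Fin5 (CF)
open Crest.Agent.R4P.NumX34
open Crest.Agent.R4P.FinE26 (ForN)
open Crest.Agent.R4P.AsB407 (Bd)

/-- **input** (block H1, flags forgotten): node bound of the separated pairs of one real index at all the
rest columns, rates `e p` (summable) at every column, `d p` at the own missing ties -/
def TgtSd (N : Skel189.Num) (γ : ℝ) : Prop :=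
  ∃ E : ℝ, 0 ≤ E ∧ Ev N γ fun p0 P₀ X => CF X → ∃ e d : ℕ → ℝ, (∀ p, 0 ≤ e p) ∧ (∀ p, 0 ≤ d p) ∧
    (∀ s : Finset ℕ, ∑ p ∈ s, e p ≤ E) ∧
    All (VNd X (RN (KSd X)) (fun p j => e p + if p ∈ X.c.t.mt j.1.1 then d p else 0))
      ⟨top X.S, 1, 1, 1⟩ X.c.t

/-- **target T6** : the energies of the pairs which enter the flags -/
def TgtT6 (N : Skel189.Num) (γ : ℝ) : Prop :=
  ∃ K : ℝ, 0 ≤ K ∧ Ev N γ fun p0 P₀ X => CF X → ∀ j₀ : X.c.Lam,
    All (fun u τ => ∀ F : ℕ → Finset ℕ → Prop, FMon F →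
      rE (RN (KEn X F)) (X.self u τ Finset.univ).p (tX X u τ) ≤ K * X.mu j₀ u τ Finset.univ)
      ⟨top X.S, 1, 1, 1⟩ X.c.t

/-- **T6 from the separated pairs and the energies of one index** -/
theorem tgtT6_of {N : Skel189.Num} {γ : ℝ} (h1 : TgtKE N γ) (h2 : TgtSd N γ) : TgtT6 N γ := by
  obtain ⟨K, hK, h1⟩ := h1
  obtain ⟨E, hE, h2⟩ := h2
  have h3 : Ev N γ fun p0 P₀ X => ∀ j₀ : X.c.Lam, All (fun u τ => ∀ (c : X.c.Lam → ℝ) (C : ℝ),
      0 ≤ C → (∀ i, (X.c.D.par X.Y).it i ∈ τ.items → c i ≤ C) →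
      lm X c u τ ≤ 4 * C * X.mu j₀ u τ Finset.univ) ⟨top X.S, 1, 1, 1⟩ X.c.t := by
    obtain ⟨p1, h⟩ := lm_mu N
    exact FinAll26.Ev_P2 N ⟨p1, fun p0 hp0 P₀ hP X j₀ => h p0 hp0 γ P₀ hP X j₀⟩
  refine ⟨2 * (K + 2 * E), by positivity, ((h1.and h2).and h3).mono ?_⟩
  rintro p0 P₀ X ⟨⟨g1, g2⟩, g3⟩ hC j₀
  obtain ⟨e, d, he, hd, hs, hV⟩ := g2 hC
  have hQE := AsmX26.ctx_QE X j₀ (Q' := fun _ _ => True) (All.mono (fun _ _ _ => trivial) (ctx_NDt X))
  have hN : All (NF6 X K (fun p => 2 * e p)) ⟨top X.S, 1, 1, 1⟩ X.c.t := by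
    refine All.mono (fun u τ hh => ?_) ((((ctx_NDt X).and (g1 hC)).and (hV.and (g3 j₀))).and
      ((ctx_RgN j₀).and (hQE.and (ctx_cpos (X := X)))))
    obtain ⟨⟨⟨a1, a2⟩, a3, a4⟩, a5, a6, a7⟩ := hh
    exact ⟨a1, a7.le, a5, a2, SdN_of he a1 a4 a6.mass a3⟩
  refine All.mono (fun u τ hh F hF => ?_) ((Step588.All_All _ _ hN).and hQE)
  obtain ⟨a1, a2⟩ := hh
  have key := rE_KEn (X := X) hK (fun p => by have := he p; positivity) (E := 2 * E) (fun s => by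
    rw [← Finset.mul_sum]
    have := hs s
    linarith) hF a1
  rw [TYK47.self_p]
  have e1 : X.mu j₀ u τ Finset.univ = MS X u τ := a2.mass
  rw [e1]
  exact key

/-- **T6, final numbers** -/
theorem tgtT6_fin (h : ForN ParT21.thF NumG23.SxF TgtSd) : ForN ParT21.thF NumG23.SxF TgtT6 := by
  obtain ⟨c, h⟩ := h
  obtain ⟨c1, h1⟩ := tgtKE_fin
  refine ⟨max c c1, fun N Ct C₀ γ h3 h4 h5 => ?_⟩
  exact tgtT6_of (h1 N Ct C₀ γ h3 (EndD23.NumFin.weaken h4 (le_max_right _ _)) h5)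
    (h N Ct C₀ γ h3 (EndD23.NumFin.weaken h4 (le_max_left _ _)) h5)

end Crest.Agent.R4P.EnT10
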