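import Crest.Agent.R4P.E3Y_479

/-!
R4 (S0004) with powers, T3, helper45 (dual potential, X7): **THE PAIR WALK WITH WORDS**.

* word of a piece at the column `p` with the memory `m` : `pm X.c.t p m q` (processed missing ties).
  `Wr X p b W` : the pieces of the rest of the bundle have the word `W` (one node); `Wd` : tracked word
  (up to the letter `p`); `Wd.P`, `Wd.N`, `Wd.rest`, `exists_Wr`.
* **`WC X Q C`** : word credits: `g p m W j` is the charge of the piece `j` at the rest `p` if the OTHER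
  member has the word `W` there, `r p m W j` the remaining credit: decreasing at the rests, superharmonic
  at the ties (P side `W.erase p`, weight `1 - 1/p`; N side `insert p W`, weight `1/p`).
* **`Kw_words`** : the walk sum of a sum over the pairs of different members, with
  `f p b b' ≤ Σ_j g p m W_b j ∫ V_j(b') + Σ_j g' p m W_b' j ∫ V_j(b)`, is at most
  `Σ_j (r + r') (p, m, W_j, j) ∫ V_j` at the start.
* `WC.add`, `WC.stat` (rates `ε p j`), `PO` (potentials `φ j p W` with letter charges `G j p W`),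
  **`PO.wc`** (all exponents: only the last three C-steps of a column count), `PO_letter`, **`PO_blk`**
  (blocks `[2^m, 2^(m+1))` : `Σ_(l in block, l ≤ p) G j l W / l ≤ D j m` for every fixed word), `phb_le`.
* **`Kw_root`** : from one bundle; **`fK_le`** : kernels, from two rest nodes to bundles.
-/

set_option autoImplicit false
set_option linter.unusedSectionVars false
set_option linter.unusedVariables false
open MeasureTheory Filter Set

namespace Crest.Agent.R4P.EnX45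

open Crest.Agent.R4.Tour104 Crest.Agent.R4.Tour758 Crest.Agent.R4.Avg758 Crest.Agent.R4.Clos758
open Crest.Agent.R4P.Cnt588 Crest.Agent.R4P.Item758 Crest.Agent.R4P.W363
open Crest.Agent.R4P.Data758
open Crest.Agent.R4P.Bld532 (NS All NodeOk Bk dv nd farS nearS mem_dv mem_nd mem_farS mem_nearS)
open Crest.Agent.R4P.WalkIT579 (tp isL toDT_top toDT_leaf top_of_nodeOk)
open Crest.Agent.R4P.StratN36 (ex)
open Crest.Agent.R4P.Step588 Crest.Agent.R4P.RseSt23
open Crest.Agent.R4P.DTp26 Crest.Agent.R4P.DTm407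
open Crest.Agent.R4P.TYI47 Crest.Agent.R4P.TYJ47 Crest.Agent.R4P.TYK47
open Crest.Agent.R4P.TYP9 Crest.Agent.R4P.RsT47
open Crest.Agent.R4P.Walk560 (DT WrN)
open Crest.Agent.R4P.Skel189 Crest.Agent.R4P.Frame758
open Crest.Agent.R4.Soft104 Crest.Agent.R4.Fam464
open Crest.Agent.R4P.StratX36 hiding mm
open Crest.Agent.R4P.TopX36
open Crest.Agent.R4P.GWa343 Crest.Agent.R4P.GWb343 Crest.Agent.R4P.GWc343 Crest.Agent.R4P.GWf343
open Crest.Agent.R4P.TrR343 Crest.Agent.R4P.XEx29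
open Crest.Agent.R4P.Grp36 Crest.Agent.R4P.Bp407 Crest.Agent.R4P.VR407
open Crest.Agent.R4P.GCol27 (wT)
open Crest.Agent.R4P.GMer27 (cT)
open Crest.Agent.R4P.PairX41 Crest.Agent.R4P.CrZ41
open Crest.Agent.R4P.PayR45 (BM PV BCh)
open Crest.Agent.R4P.PVe45 (Cr LB)
open Crest.Agent.R4P.PVd45 (DI)
open Crest.Agent.R4P.RSys343 Crest.Agent.R4P.RXm55 Crest.Agent.R4P.MSm25
open Crest.Agent.R4P.GSK55 (Kw Kw_succ Kw_z BC_pos BC_neg one)
open Crest.Agent.R4P.MSi343 (su)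
open Crest.Agent.R4P.E3E479 Crest.Agent.R4P.E3P479
open Crest.Agent.R4P.E3V479 Crest.Agent.R4P.E3W479 Crest.Agent.R4P.E3F479 Crest.Agent.R4P.E3X479
open Crest.Agent.R4P.E3Y479 (okE okE.toC okE.toN okE.one)
open Crest.Agent.R4P.GPair33 (vN)

/-! ### words -/

section word
variable {N : Skel189.Num} {γ : ℝ} {p0 P₀ : ℕ} {X : Ctx N γ p0 P₀} {Q : NS → IT → Prop} {C : ℝ}
  {ζ : Type} [Fintype ζ] [DecidableEq ζ] {D : TD Me X.c.Lam (LbX X) ζ} {p : ℕ}
  {b : Me × List (DT X.c.Lam (LbX X))} {W : Finset ℕ}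

lemma mem_pm {t' : IT} {p : ℕ} {m : Me} {q l : ℕ} :
    l ∈ pm t' p m q ↔ l ∈ t'.mt q ∧ (p < l ∨ (l = p ∧ ex p q < TYJ47.cnt p m.1)) :=
  Finset.mem_filter

/-- **the tracked word** of a bundle : the words of the pieces up to the letter `p` -/
def Wd (X : Ctx N γ p0 P₀) (p : ℕ) (b : Me × List (DT X.c.Lam (LbX X))) (W : Finset ℕ) : Prop :=
  (∀ l ∈ W, l.Prime ∧ p ≤ l) ∧
  ∀ j x, jv b.2 j x ≠ 0 → (∀ l, l ≠ p → (l ∈ pm X.c.t p b.1 j.1.1 ↔ l ∈ W)) ∧
    (p ∈ pm X.c.t p b.1 j.1.1 → p ∈ W)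

/-- the word of the N child -/
def ins (p : ℕ) (W : Finset ℕ) : Finset ℕ := by classical exact if p.Prime then insert p W else W

lemma ins_p {p : ℕ} (hp : p.Prime) (W : Finset ℕ) : ins p W = insert p W := by
  unfold ins
  exact if_pos hp

lemma ins_n {p : ℕ} (hp : ¬ p.Prime) (W : Finset ℕ) : ins p W = W := by
  unfold ins
  exact if_neg hp

/-- **the word of the rest** of a bundle -/
def Wr (X : Ctx N γ p0 P₀) (p : ℕ) (b : Me × List (DT X.c.Lam (LbX X))) (W : Finset ℕ) : Prop :=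
  ∀ j x, jv (bN p b.2) j x ≠ 0 → pm X.c.t p b.1 j.1.1 = W

/-- the word of a node -/
lemma pf_pm (hQ : ∀ u τ, Q u τ → NDt X.par (w X.ψ) X.c.t u τ) {m : Me} {u : NS} {τ : IT}
    (h : RtX X Q p m u τ) {q : ℕ} (hq : q ∈ τ.items) : u.B.primeFactors = pm X.c.t p m q :=
  h.1.rm.pf hQ X.tOk hq

/-- a rest has a word -/
lemma exists_Wr0 (hQ : ∀ u τ, Q u τ → NDt X.par (w X.ψ) X.c.t u τ) (h : InvM X Q C p b)
    (hp : p ≠ 0) {j j' : X.c.Lam} {x x' : ℝ} (hj : jv (bN p b.2) j x ≠ 0)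
    (hj' : jv (bN p b.2) j' x' ≠ 0) : pm X.c.t p b.1 j.1.1 = pm X.c.t p b.1 j'.1.1 := by
  rcases rest_one hQ h hp with h0 | ⟨u, τ, hu, k1, k2, k3⟩
  · exact absurd (h0 j x) hj
  · have hn := hQ _ _ hu.1.rm.all.self
    have key : ∀ {j : X.c.Lam} {x : ℝ}, jv (bN p b.2) j x ≠ 0 → j.1.1 ∈ τ.items := by
      intro j x hj
      rw [k3 j x, ← val_v hn j] at hj
      exact (ctx_supp hn hj).1
    rw [← pf_pm hQ hu (key hj), ← pf_pm hQ hu (key hj')]

/-- **the word of the rest from the tracked word** -/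
lemma exists_Wr (hQ : ∀ u τ, Q u τ → NDt X.par (w X.ψ) X.c.t u τ) (h : InvM X Q C p b)
    (hp : p ≠ 0) (hW : Wd X p b W) (hle : ∀ j x, jv (bN p b.2) j x ≠ 0 → jv b.2 j x ≠ 0) :
    ∃ W', Wr X p b W' ∧ (W' = W ∨ W' = W.erase p) := by
  classical
  by_cases hc : ∃ j x, jv (bN p b.2) j x ≠ 0
  · obtain ⟨j, x, hj⟩ := hc
    refine ⟨pm X.c.t p b.1 j.1.1, fun j' x' hj' => exists_Wr0 hQ h hp hj' hj, ?_⟩
    obtain ⟨h1, h2⟩ := hW.2 j x (hle j x hj)
    by_cases hpm : p ∈ pm X.c.t p b.1 j.1.1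
    · left
      ext l
      by_cases hl : l = p
      · subst hl; exact ⟨h2, fun _ => hpm⟩
      · exact h1 l hl
    · right
      ext l
      rw [Finset.mem_erase]
      by_cases hl : l = p
      · subst hl; exact ⟨fun h => absurd h hpm, fun h => absurd rfl h.1⟩
      · exact ⟨fun h => ⟨hl, (h1 l hl).1 h⟩, fun h => (h1 l hl).2 h.2⟩
  · push Not at hc
    exact ⟨W, fun j x hj => absurd (hc j x) hj, Or.inl rfl⟩

/-- the rest -/
lemma Wd.rest (hQ : ∀ u τ, Q u τ → NDt X.par (w X.ψ) X.c.t u τ) (h : InvM X Q C p b)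
    (hp : p ≠ 0) (hW : Wr X p b W) (h1 : ∀ l ∈ W, l.Prime ∧ p ≤ l) :
    Wd X (p - 1) (b.1, bN p b.2) W := by
  refine ⟨fun l hl => ⟨(h1 l hl).1, by have := (h1 l hl).2; omega⟩, fun j x hj => ?_⟩
  have hj' : jv (bN p b.2) j x ≠ 0 := hj
  have e : pm X.c.t (p - 1) b.1 j.1.1 = W := by
    rw [(rest_pmX hQ h hp hj').1]; exact hW j x hj'
  show (∀ l, l ≠ p - 1 → (l ∈ pm X.c.t (p - 1) b.1 j.1.1 ↔ l ∈ W)) ∧
    (p - 1 ∈ pm X.c.t (p - 1) b.1 j.1.1 → p - 1 ∈ W)
  rw [e]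
  exact ⟨fun l _ => Iff.rfl, id⟩

lemma pm_tu {m : Me} {q l : ℕ} (hl : l ≠ p) :
    l ∈ pm X.c.t p (tuM p m) q ↔ l ∈ pm X.c.t p m q := by
  rw [mem_pm, mem_pm]
  constructor
  · rintro ⟨h1, h2 | h2⟩
    · exact ⟨h1, Or.inl h2⟩
    · exact absurd h2.1 hl
  · rintro ⟨h1, h2 | h2⟩
    · exact ⟨h1, Or.inl h2⟩
    · exact absurd h2.1 hl

/-- the P side -/
lemma Wd.tieP (hQ : ∀ u τ, Q u τ → NDt X.par (w X.ψ) X.c.t u τ) (h : InvM X Q C p b) (hp : p ≠ 0)
    (hW : Wd X p b W)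
    (hup : ∀ j y, jv ((bB p b.2).map chP) j y ≠ 0 → ∃ x, jv b.2 j x ≠ 0) :
    Wd X p (tuM p b.1, (bB p b.2).map chP) (W.erase p) := by
  refine ⟨fun l hl => hW.1 l (Finset.mem_of_mem_erase hl), fun j y hj => ?_⟩
  have hj' : jv ((bB p b.2).map chP) j y ≠ 0 := hj
  obtain ⟨x, hx⟩ := hup j y hj'
  obtain ⟨h1, h2⟩ := hW.2 j x hx
  refine ⟨fun l hl => ?_, fun hpm => ?_⟩
  · show l ∈ pm X.c.t p (tuM p b.1) j.1.1 ↔ l ∈ W.erase p
    rw [pm_tu hl, Finset.mem_erase, h1 l hl]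
    exact ⟨fun h => ⟨hl, h⟩, fun h => h.2⟩
  · exfalso
    have h3 : p ∈ pm X.c.t p (tuM p b.1) j.1.1 := hpm
    obtain ⟨-, h4⟩ := mem_pm.1 h3
    have h5 : ex p j.1.1 < TYJ47.cnt p (tuM p b.1).1 := by
      rcases h4 with h4 | h4
      · exact absurd h4 (lt_irrefl _)
      · exact h4.2
    have h6 : sdX X p b.1 j := by
      unfold sdX
      have e : TYJ47.cnt p (tuM p b.1).1 = TYJ47.cnt p b.1.1 + 1 := TYJ47.cnt_tu _ _
      omega
    have h7 := (sd_InvM hQ h hp j y).1 h6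
    apply hj'
    rw [jv_chP h.kok, h7.1, h7.2, add_zero]

/-- the N side -/
lemma Wd.tieN (hW : Wd X p b W)
    (hup : ∀ j y, jv ((bB p b.2).map chN) j y ≠ 0 → p.Prime ∧ ∃ x, jv b.2 j x ≠ 0) :
    Wd X p (tuM p b.1, (bB p b.2).map chN) (ins p W) := by
  refine ⟨fun l hl => ?_, fun j y hj => ?_⟩
  · by_cases hp : p.Prime
    · rw [ins_p hp, Finset.mem_insert] at hl
      rcases hl with rfl | hl
      · exact ⟨hp, le_rfl⟩
      · exact hW.1 l hl
    · rw [ins_n hp] at hl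
      exact hW.1 l hl
  obtain ⟨hpr, x, hx⟩ := hup j y hj
  obtain ⟨h1, h2⟩ := hW.2 j x hx
  rw [ins_p hpr]
  refine ⟨fun l hl => ?_, fun _ => Finset.mem_insert_self _ _⟩
  show l ∈ pm X.c.t p (tuM p b.1) j.1.1 ↔ l ∈ insert p W
  rw [pm_tu hl, Finset.mem_insert, h1 l hl]
  exact ⟨fun h => Or.inr h, fun h => h.resolve_left hl⟩

/-! #### the exponent of the column -/

/-- **ties and pulls** : the column is prime, the exponent of the C-steps is at most the exponent of the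
item -/
lemma tie_ex (hQ : ∀ u τ, Q u τ → NDt X.par (w X.ψ) X.c.t u τ) (h : InvM X Q C p b)
    {j : X.c.Lam} {x : ℝ} (hj : jv (bB p b.2) j x ≠ 0) :
    p.Prime ∧ b.1.2 ≠ 0 ∧ ex p b.1.2 ≤ ex p j.1.1 := by
  have H := carX hQ
  have key : ∀ {s : NS} {τ : IT}, RtX X Q p b.1 s τ → ¬ isL τ → tp τ = p →
      ((X.c.D.par X.Y).toDT X.c.sp s.B s.A τ).g.val j x ≠ 0 →
      p.Prime ∧ b.1.2 ≠ 0 ∧ ex p b.1.2 ≤ ex p j.1.1 := by
    intro s τ hs hl ht h1
    have hn := hQ _ _ hs.1.rm.all.self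
    have hq := (ctx_supp hn h1).1
    obtain ⟨a1, a2, a3⟩ := top_of_nodeOk hn.self.node hl
    rw [ht] at a1 a2
    have hB0 : s.B ≠ 0 := hn.bk.sfB.ne_zero
    have hA0 : s.A ≠ 0 := hn.bk.Apos.ne'
    have hnB : ¬ p ∣ s.B := fun hd => by
      have := hn.bk.geB p a1 hd
      omega
    have e1 : ex p b.1.2 = ex p s.A := by
      rw [← hs.1.T]
      unfold ex
      rw [Nat.factorization_mul hA0 hB0, Finsupp.coe_add, Pi.add_apply,
        Nat.factorization_eq_zero_of_not_dvd hnB, add_zero]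
    refine ⟨a1, ?_, ?_⟩
    · rw [← hs.1.T]
      exact Nat.mul_ne_zero hA0 hB0
    · rw [e1]
      exact Crest.Agent.R4P.StratN36.ex_le (hn.bk.pos _ hq) (hn.bk.dvd _ hq)
  rcases jv_bB_node H h.mi hj with ⟨s, Sp, t₁, t₀, hs, h1⟩ | ⟨s, t₁, hs, h1⟩
  · exact key hs (fun h => h) rfl h1
  · exact key hs (fun h => h) rfl h1

/-- **the rest of a prime column** : at most one factor `p` is left -/
lemma rest_ex (hQ : ∀ u τ, Q u τ → NDt X.par (w X.ψ) X.c.t u τ) (h : InvM X Q C p b)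
    (hp : p.Prime) {j : X.c.Lam} {x : ℝ} (hj : jv (bN p b.2) j x ≠ 0) :
    ex p j.1.1 ≤ ex p b.1.2 + 1 := by
  rcases rest_one hQ h hp.ne_zero with h0 | ⟨u, τ, hu, k1, k2, k3⟩
  · exact absurd (h0 j x) hj
  · have hn := hQ _ _ hu.1.rm.all.self
    rw [k3 j x, ← val_v hn j] at hj
    have hq := (ctx_supp hn hj).1
    obtain ⟨a1, a2, a3⟩ := top_of_nodeOk hn.self.node k2
    have hun : u.n ≤ p := by
      by_contra hc
      have := a3 p hp (not_le.1 hc)
      omega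
    have hB0 : u.B ≠ 0 := hn.bk.sfB.ne_zero
    have hA0 : u.A ≠ 0 := hn.bk.Apos.ne'
    have h1 : ¬ p ^ 2 ∣ j.1.1 / u.A := hn.self.rad _ hq p hp hun
    rw [Crest.Agent.R4P.StratN36.dvd_iff hp (hn.bk.pos _ hq) (hn.bk.dvd _ hq)] at h1
    have h2 : ex p u.A ≤ ex p b.1.2 := by
      rw [← hu.1.T]
      unfold ex
      rw [Nat.factorization_mul hA0 hB0, Finsupp.coe_add, Pi.add_apply]
      exact Nat.le_add_right _ _
    omega

lemma ex_tuM {m : Me} (hp : p.Prime) (hm : m.2 ≠ 0) : ex p (tuM p m).2 = ex p m.2 + 1 := by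
  show ex p (m.2 * p) = _
  exact ex_mul hp (Nat.pos_of_ne_zero hm)

end word

/-! ### word credits -/

lemma propext_ind {P P' : Prop} (h : P ↔ P') : ind P = ind P' := by rw [propext h]

section wc
variable {N : Skel189.Num} {γ : ℝ} {p0 P₀ : ℕ} {X : Ctx N γ p0 P₀} {Q : NS → IT → Prop} {C : ℝ}

/-- **word credits** : `g p m W j` charge of the piece `j` at the rest `p`, `W` = word of the other member
there; `r` = remaining credit -/
structure WC (X : Ctx N γ p0 P₀) (Q : NS → IT → Prop) (C : ℝ) where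
  g : ℕ → Me → Finset ℕ → X.c.Lam → ℝ
  r : ℕ → Me → Finset ℕ → X.c.Lam → ℝ
  g0 : ∀ p m W j, 0 ≤ g p m W j
  r0 : ∀ p m W j, 0 ≤ r p m W j
  rest : ∀ {p : ℕ} {b : Me × List (DT X.c.Lam (LbX X))} {W : Finset ℕ} {j : X.c.Lam} {x : ℝ},
    InvM X Q C p b → p ≠ 0 → (∀ l ∈ W, l.Prime ∧ p ≤ l) → jv (bN p b.2) j x ≠ 0 →
    g p b.1 W j + r (p - 1) b.1 W j ≤ r p b.1 W j
  er : ∀ {p : ℕ} {b : Me × List (DT X.c.Lam (LbX X))} {W : Finset ℕ} {j : X.c.Lam} {x : ℝ},
    InvM X Q C p b → p ≠ 0 → (∀ l ∈ W, l.Prime ∧ p ≤ l) → jv (bN p b.2) j x ≠ 0 →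
    r p b.1 (W.erase p) j ≤ r p b.1 W j
  tie : ∀ {p : ℕ} {b : Me × List (DT X.c.Lam (LbX X))} {W : Finset ℕ} {j : X.c.Lam} {x : ℝ},
    InvM X Q C p b → p.Prime → (∀ l ∈ W, l.Prime ∧ p ≤ l) → jv (bB p b.2) j x ≠ 0 →
    (1 - 1 / (p : ℝ)) * r p (tuM p b.1) (W.erase p) j + 1 / (p : ℝ) * r p (tuM p b.1) (insert p W) j ≤
      r p b.1 W j

/-- sum of two credits -/
def WC.add (V V' : WC X Q C) : WC X Q C where
  g := fun p m W j => V.g p m W j + V'.g p m W j
  r := fun p m W j => V.r p m W j + V'.r p m W j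
  g0 := fun p m W j => add_nonneg (V.g0 p m W j) (V'.g0 p m W j)
  r0 := fun p m W j => add_nonneg (V.r0 p m W j) (V'.r0 p m W j)
  rest := fun {p b W j x} h hp hW hj => by
    have h1 := V.rest (W := W) h hp hW hj
    have h2 := V'.rest (W := W) h hp hW hj
    linarith
  er := fun h hp hW hj => add_le_add (V.er h hp hW hj) (V'.er h hp hW hj)
  tie := fun {p b W j x} h hp hW hj => by
    have h1 := V.tie (W := W) h hp hW hj
    have h2 := V'.tie (W := W) h hp hW hj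
    rw [mul_add, mul_add]
    linarith

end wc

/-! ### masses of the steps -/

section mass
variable {N : Skel189.Num} {γ : ℝ} {p0 P₀ : ℕ} {X : Ctx N γ p0 P₀} {Q : NS → IT → Prop} {C : ℝ}
  {ζ : Type} [Fintype ζ] [DecidableEq ζ] {D : TD Me X.c.Lam (LbX X) ζ}
  {Inv' : ℕ → List (DT X.c.Lam (LbX X)) → Prop} {p : ℕ} {b : Me × List (DT X.c.Lam (LbX X))}

lemma I_z {f : ℝ → ℝ} (h : ∀ x, f x = 0) : I f = 0 := by
  have e : f = fun _ => 0 := funext h
  rw [e]
  unfold I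
  simp

variable {H : TYp (rhoX X) D (InvM X Q C)}

lemma pbv (L : LB (bm (DTn407.rxm H)) Prod.snd Inv') (HI : DI Inv') (h : InvM X Q C p b)
    (j : X.c.Lam) : PB (jv b.2 j) := (L.pv HI).pv (b := b) h j

/-- rest and ties -/
lemma m_spl (L : LB (bm (DTn407.rxm H)) Prod.snd Inv') (HI : DI Inv') (h : InvM X Q C p b)
    (hp : p ≠ 0) (j : X.c.Lam) : I (jv (bB p b.2) j) + I (jv (bN p b.2) j) ≤ I (jv b.2 j) := by
  have pB : PB (jv (bB p b.2) j) := (L.pv HI).pvB (b := b) h hp j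
  have pN : PB (jv (bN p b.2) j) := by
    have := (L.pv HI).pv (b := (bm (DTn407.rxm H)).rN p b) (L.okR h hp) j
    exact this
  rw [← I_add pB.integrableOn pN.integrableOn]
  exact I_mono (pB.add pN).integrableOn (pbv L HI h j).integrableOn fun x =>
    (L.pv HI).spl (b := b) h hp j x

lemma le_N (L : LB (bm (DTn407.rxm H)) Prod.snd Inv') (HI : DI Inv') (h : InvM X Q C p b)
    (hp : p ≠ 0) {j : X.c.Lam} {x : ℝ} (hj : jv (bN p b.2) j x ≠ 0) : jv b.2 j x ≠ 0 := by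
  have h1 : jv (bB p b.2) j x + jv (bN p b.2) j x ≤ jv b.2 j x :=
    (L.pv HI).spl (b := b) h hp j x
  have h2 := ((L.pv HI).pvB (b := b) h hp j).nonneg x
  have h3 : 0 ≤ jv (bN p b.2) j x :=
    ((L.pv HI).pv (b := (bm (DTn407.rxm H)).rN p b) (L.okR h hp) j).nonneg x
  have h4 : 0 ≤ jv (bB p b.2) j x := h2
  have h5 := lt_of_le_of_ne h3 (Ne.symm hj)
  intro h6
  linarith

lemma le_B (L : LB (bm (DTn407.rxm H)) Prod.snd Inv') (HI : DI Inv') (h : InvM X Q C p b)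
    (hp : p ≠ 0) {j : X.c.Lam} {x : ℝ} (hj : jv (bB p b.2) j x ≠ 0) : jv b.2 j x ≠ 0 := by
  have h1 : jv (bB p b.2) j x + jv (bN p b.2) j x ≤ jv b.2 j x :=
    (L.pv HI).spl (b := b) h hp j x
  have h2 := ((L.pv HI).pvB (b := b) h hp j).nonneg x
  have h3 : 0 ≤ jv (bN p b.2) j x :=
    ((L.pv HI).pv (b := (bm (DTn407.rxm H)).rN p b) (L.okR h hp) j).nonneg x
  have h4 : 0 ≤ jv (bB p b.2) j x := h2
  have h5 := lt_of_le_of_ne h4 (Ne.symm hj)
  intro h6
  linarith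

lemma mean_pt (L : LB (bm (DTn407.rxm H)) Prod.snd Inv') (HI : DI Inv') (h : InvM X Q C p b)
    (hp : p ≠ 0) (j : X.c.Lam) (y : ℝ) : (1 - 1 / (p : ℝ)) * jv ((bB p b.2).map chP) j y +
      1 / (p : ℝ) * jv ((bB p b.2).map chN) j y ≤ Ep p (jv (bB p b.2) j) y :=
  (L.pv HI).mean (b := b) h hp j y

lemma pbP (L : LB (bm (DTn407.rxm H)) Prod.snd Inv') (HI : DI Inv') (h : InvM X Q C p b)
    (hp : p ≠ 0) (j : X.c.Lam) : PB (jv ((bB p b.2).map chP) j) :=
  (L.pv HI).pv (b := (bm (DTn407.rxm H)).cP p b) (L.okP h hp) j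

lemma pbNc (L : LB (bm (DTn407.rxm H)) Prod.snd Inv') (HI : DI Inv') (h : InvM X Q C p b)
    (hp : p ≠ 0) (j : X.c.Lam) : PB (jv ((bB p b.2).map chN) j) :=
  (L.pv HI).pv (b := (bm (DTn407.rxm H)).cN p b) (L.okN h hp) j

lemma pbBB (L : LB (bm (DTn407.rxm H)) Prod.snd Inv') (HI : DI Inv') (h : InvM X Q C p b)
    (hp : p ≠ 0) (j : X.c.Lam) : PB (jv (bB p b.2) j) := (L.pv HI).pvB (b := b) h hp j

lemma oneP (L : LB (bm (DTn407.rxm H)) Prod.snd Inv') (HI : DI Inv')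
    {b : Me × List (DT X.c.Lam (LbX X))} (h : InvM X Q C 1 b)
    (j : X.c.Lam) (y : ℝ) : jv ((bB 1 b.2).map chP) j y = 0 := (L.pv HI).one (b := b) h j y

lemma hq0 (hp : p ≠ 0) : 0 ≤ 1 - 1 / (p : ℝ) := by
  have hp1 : (1 : ℝ) ≤ p := by exact_mod_cast Nat.one_le_iff_ne_zero.2 hp
  have : (1 : ℝ) / p ≤ 1 := by rw [div_le_one (by linarith)]; exact hp1
  linarith

/-- **the masses of a tie** -/
lemma m_tie (L : LB (bm (DTn407.rxm H)) Prod.snd Inv') (HI : DI Inv') (h : InvM X Q C p b)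
    (hp : p ≠ 0) (j : X.c.Lam) : (1 - 1 / (p : ℝ)) * I (jv ((bB p b.2).map chP) j) +
      1 / (p : ℝ) * I (jv ((bB p b.2).map chN) j) ≤ I (jv (bB p b.2) j) := by
  have hp0 : 0 < p := Nat.pos_of_ne_zero hp
  have pP := pbP L HI h hp j
  have pN := pbNc L HI h hp j
  have w0 : (0:ℝ) ≤ 1 / p := by positivity
  rw [← I_Ep hp0 (pbBB L HI h hp j).integrableOn, ← I_smul, ← I_smul,
    ← I_add (pP.smul (hq0 hp)).integrableOn (pN.smul w0).integrableOn]
  exact I_mono ((pP.smul (hq0 hp)).add (pN.smul w0)).integrableOn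
    ((pbBB L HI h hp j).Ep hp0).integrableOn fun y => mean_pt L HI h hp j y

lemma up_aux (L : LB (bm (DTn407.rxm H)) Prod.snd Inv') (HI : DI Inv') (h : InvM X Q C p b)
    (hp : p ≠ 0) {j : X.c.Lam} (h0 : ∀ x, jv (bB p b.2) j x = 0) (y : ℝ) :
    jv ((bB p b.2).map chP) j y = 0 ∧ jv ((bB p b.2).map chN) j y = 0 := by
  have h1 := mean_pt L HI h hp j y
  have e : Ep p (jv (bB p b.2) j) y = 0 := by
    unfold Ep
    simp [h0]
  rw [e] at h1
  have n1 := (pbP L HI h hp j).nonneg y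
  have n2 := (pbNc L HI h hp j).nonneg y
  have hpp : (0:ℝ) < p := by exact_mod_cast Nat.pos_of_ne_zero hp
  have w0 : (0:ℝ) < 1 / p := by positivity
  have a1 := mul_nonneg (hq0 hp) n1
  have a2 := mul_nonneg w0.le n2
  have b2 : 1 / (p : ℝ) * jv ((bB p b.2).map chN) j y = 0 := by linarith
  have c2 : jv ((bB p b.2).map chN) j y = 0 := by
    rcases mul_eq_zero.1 b2 with h | h
    · exact absurd h w0.ne'
    · exact h
  refine ⟨?_, c2⟩
  by_cases hp1 : p = 1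
  · subst hp1
    exact oneP L HI h j y
  · have h2 : (2 : ℝ) ≤ p := by
      have : 2 ≤ p := by omega
      exact_mod_cast this
    have q0 : 0 < 1 - 1 / (p : ℝ) := by
      have : (1 : ℝ) / p ≤ 1 / 2 := one_div_le_one_div_of_le (by norm_num) h2
      linarith
    have b1 : (1 - 1 / (p : ℝ)) * jv ((bB p b.2).map chP) j y = 0 := by linarith
    rcases mul_eq_zero.1 b1 with h | h
    · exact absurd h q0.ne'
    · exact h

lemma upP (L : LB (bm (DTn407.rxm H)) Prod.snd Inv') (HI : DI Inv') (h : InvM X Q C p b)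
    (hp : p ≠ 0) {j : X.c.Lam} {y : ℝ} (hj : jv ((bB p b.2).map chP) j y ≠ 0) :
    ∃ x, jv (bB p b.2) j x ≠ 0 := by
  by_contra hc
  push Not at hc
  exact hj (up_aux L HI h hp hc y).1

lemma upN (L : LB (bm (DTn407.rxm H)) Prod.snd Inv') (HI : DI Inv') (h : InvM X Q C p b)
    (hp : p ≠ 0) {j : X.c.Lam} {y : ℝ} (hj : jv ((bB p b.2).map chN) j y ≠ 0) :
    ∃ x, jv (bB p b.2) j x ≠ 0 := by
  by_contra hc
  push Not at hc
  exact hj (up_aux L HI h hp hc y).2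

end mass

/-! ### the walk -/

section walk
variable {N : Skel189.Num} {γ : ℝ} {p0 P₀ : ℕ} {X : Ctx N γ p0 P₀} {Q : NS → IT → Prop} {C : ℝ}
  {ζ : Type} [Fintype ζ] [DecidableEq ζ] {D : TD Me X.c.Lam (LbX X) ζ}
  {Inv' : ℕ → List (DT X.c.Lam (LbX X)) → Prop} {H : TYp (rhoX X) D (InvM X Q C)}

/-- remaining credit of a group -/
noncomputable def Phi (V : WC X Q C) (p : ℕ) (s : Gs (Me × List (DT X.c.Lam (LbX X))))
    (wd : s.J → Finset ℕ) : ℝ :=
  ∑ k, ∑ k', s.c k * s.c k' * ∑ j, V.r p (s.L k').1 (wd k) j * I (jv (s.L k').2 j)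

/-- charges of a group at the rest -/
noncomputable def Gch (V : WC X Q C) (p : ℕ) (s : Gs (Me × List (DT X.c.Lam (LbX X))))
    (wr : s.J → Finset ℕ) : ℝ :=
  ∑ k, ∑ k', s.c k * s.c k' * ∑ j, V.g p (s.L k').1 (wr k) j * I (jv (bN p (s.L k').2) j)

/-- credit of the ties of a group -/
noncomputable def PhiB (V : WC X Q C) (p : ℕ) (s : Gs (Me × List (DT X.c.Lam (LbX X))))
    (wd : s.J → Finset ℕ) : ℝ :=
  ∑ k, ∑ k', s.c k * s.c k' * ∑ j, V.r p (s.L k').1 (wd k) j * I (jv (bB p (s.L k').2) j)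

lemma Phi_nonneg (L : LB (bm (DTn407.rxm H)) Prod.snd Inv') (HI : DI Inv') (V : WC X Q C) {p : ℕ}
    {s : Gs (Me × List (DT X.c.Lam (LbX X)))} (c0 : ∀ k, 0 ≤ s.c k)
    (hs : ∀ k, InvM X Q C p (s.L k)) (wd : s.J → Finset ℕ) : 0 ≤ Phi V p s wd := by
  refine Finset.sum_nonneg fun k _ => Finset.sum_nonneg fun k' _ =>
    mul_nonneg (mul_nonneg (c0 k) (c0 k')) (Finset.sum_nonneg fun j _ =>
      mul_nonneg (V.r0 _ _ _ _) (I_nonneg fun x => (pbv L HI (hs k') j).nonneg x))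

/-- **the children** -/
theorem Phi_C (hQ : ∀ u τ, Q u τ → NDt X.par (w X.ψ) X.c.t u τ) (htu : D.tu = tuM)
    (L : LB (bm (DTn407.rxm H)) Prod.snd Inv') (HI : DI Inv') {p : ℕ}
    {s : Gs (Me × List (DT X.c.Lam (LbX X)))} (hp : p ≠ 0) (c0 : ∀ k, 0 ≤ s.c k)
    (hs : ∀ k, InvM X Q C p (s.L k)) (wd : s.J → Finset ℕ) (hw : ∀ k, Wd X p (s.L k) (wd k)) :
    ∃ wd' : ((bm (DTn407.rxm H)).C p s).J → Finset ℕ,
      (∀ k, Wd X p (((bm (DTn407.rxm H)).C p s).L k) (wd' k)) ∧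
      ∀ V : WC X Q C, Phi V p ((bm (DTn407.rxm H)).C p s) wd' ≤ PhiB V p s wd := by
  have mP : ∀ b, (bm (DTn407.rxm H)).cP p b = (D.tu p b.1, (bB p b.2).map chP) := fun _ => rfl
  have mN : ∀ b, (bm (DTn407.rxm H)).cN p b = (D.tu p b.1, (bB p b.2).map chN) := fun _ => rfl
  by_cases h2 : 2 ≤ p
  · rw [BC_pos _ h2]
    refine ⟨fun x => if x.2 = true then (wd x.1).erase p else ins p (wd x.1), fun x => ?_,
      fun V => ?_⟩
    · obtain ⟨k, a⟩ := x
      cases a with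
      | true =>
        show Wd X p ((bm (DTn407.rxm H)).cP p (s.L k)) ((wd k).erase p)
        rw [mP, htu]
        exact (hw k).tieP hQ (hs k) hp fun j y hj => by
          obtain ⟨x, hx⟩ := upP L HI (hs k) hp hj
          exact ⟨x, le_B L HI (hs k) hp hx⟩
      | false =>
        show Wd X p ((bm (DTn407.rxm H)).cN p (s.L k)) (ins p (wd k))
        rw [mN, htu]
        exact (hw k).tieN fun j y hj => by
          obtain ⟨x, hx⟩ := upN L HI (hs k) hp hj
          exact ⟨(tie_ex hQ (hs k) hx).1, x, le_B L HI (hs k) hp hx⟩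
    · set q : ℝ := 1 - 1 / (p : ℝ) with hq
      have hq1 : 1 - q = 1 / (p : ℝ) := by rw [hq]; ring
      have q0 : 0 ≤ q := hq0 hp
      have w0 : (0:ℝ) ≤ 1 / p := by positivity
      unfold Phi PhiB
      simp only [Fintype.sum_prod_type, Fintype.sum_bool]
      refine Finset.sum_le_sum fun k _ => ?_
      rw [← Finset.sum_add_distrib]
      refine Finset.sum_le_sum fun k' _ => ?_
      show cT q s.c (k, true) * cT q s.c (k', true) * ∑ j, V.r p (D.tu p (s.L k').1) ((wd k).erase p) j *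
            I (jv ((bB p (s.L k').2).map chP) j) +
          cT q s.c (k, true) * cT q s.c (k', false) * ∑ j, V.r p (D.tu p (s.L k').1) ((wd k).erase p) j *
            I (jv ((bB p (s.L k').2).map chN) j) +
          (cT q s.c (k, false) * cT q s.c (k', true) * ∑ j, V.r p (D.tu p (s.L k').1) (ins p (wd k)) j *
            I (jv ((bB p (s.L k').2).map chP) j) +
          cT q s.c (k, false) * cT q s.c (k', false) * ∑ j, V.r p (D.tu p (s.L k').1) (ins p (wd k)) j *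
            I (jv ((bB p (s.L k').2).map chN) j)) ≤ _
      rw [htu]
      have c1 : cT q s.c (k, true) = s.c k * q := rfl
      have c2 : cT q s.c (k, false) = s.c k * (1 - q) := rfl
      have c3 : cT q s.c (k', true) = s.c k' * q := rfl
      have c4 : cT q s.c (k', false) = s.c k' * (1 - q) := rfl
      rw [c1, c2, c3, c4, hq1]
      have e : s.c k * q * (s.c k' * q) * ∑ j, V.r p (tuM p (s.L k').1) ((wd k).erase p) j *
            I (jv ((bB p (s.L k').2).map chP) j) +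
          s.c k * q * (s.c k' * (1 / (p : ℝ))) * ∑ j, V.r p (tuM p (s.L k').1) ((wd k).erase p) j *
            I (jv ((bB p (s.L k').2).map chN) j) +
          (s.c k * (1 / (p : ℝ)) * (s.c k' * q) * ∑ j, V.r p (tuM p (s.L k').1) (ins p (wd k)) j *
            I (jv ((bB p (s.L k').2).map chP) j) +
          s.c k * (1 / (p : ℝ)) * (s.c k' * (1 / (p : ℝ))) * ∑ j,
            V.r p (tuM p (s.L k').1) (ins p (wd k)) j * I (jv ((bB p (s.L k').2).map chN) j)) =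
          s.c k * s.c k' * ∑ j, (q * V.r p (tuM p (s.L k').1) ((wd k).erase p) j +
            1 / (p : ℝ) * V.r p (tuM p (s.L k').1) (ins p (wd k)) j) *
            (q * I (jv ((bB p (s.L k').2).map chP) j) +
              1 / (p : ℝ) * I (jv ((bB p (s.L k').2).map chN) j)) := by
        simp only [Finset.mul_sum]
        rw [← Finset.sum_add_distrib, ← Finset.sum_add_distrib, ← Finset.sum_add_distrib]
        exact Finset.sum_congr rfl fun j _ => by ring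
      rw [e]
      refine mul_le_mul_of_nonneg_left (Finset.sum_le_sum fun j _ => ?_)
        (mul_nonneg (c0 k) (c0 k'))
      have m1 := m_tie L HI (hs k') hp j
      have nP : 0 ≤ I (jv ((bB p (s.L k').2).map chP) j) :=
        I_nonneg fun x => (pbP L HI (hs k') hp j).nonneg x
      have nN : 0 ≤ I (jv ((bB p (s.L k').2).map chN) j) :=
        I_nonneg fun x => (pbNc L HI (hs k') hp j).nonneg x
      have nM : 0 ≤ q * I (jv ((bB p (s.L k').2).map chP) j) +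
          1 / (p : ℝ) * I (jv ((bB p (s.L k').2).map chN) j) :=
        add_nonneg (mul_nonneg q0 nP) (mul_nonneg w0 nN)
      by_cases hc : ∃ x, jv (bB p (s.L k').2) j x ≠ 0
      · obtain ⟨x, hx⟩ := hc
        have hpr := (tie_ex hQ (hs k') hx).1
        rw [ins_p hpr]
        exact mul_le_mul (V.tie (W := wd k) (hs k') hpr (hw k).1 hx) m1 nM (V.r0 _ _ _ _)
      · push Not at hc
        have e0 : I (jv (bB p (s.L k').2) j) = 0 := I_z hc
        rw [e0] at m1 ⊢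
        have : q * I (jv ((bB p (s.L k').2).map chP) j) +
          1 / (p : ℝ) * I (jv ((bB p (s.L k').2).map chN) j) = 0 := le_antisymm m1 nM
        rw [this, mul_zero, mul_zero]
  · have hp1 : p = 1 := by omega
    subst hp1
    rw [BC_neg _ h2]
    refine ⟨fun k => (wd k).erase 1, fun k => ?_, fun V => ?_⟩
    · show Wd X 1 ((bm (DTn407.rxm H)).cP 1 (s.L k)) ((wd k).erase 1)
      rw [mP, htu]
      exact (hw k).tieP hQ (hs k) hp fun j y hj => absurd (oneP L HI (hs k) j y) hj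
    · unfold Phi PhiB
      refine Finset.sum_le_sum fun k _ => Finset.sum_le_sum fun k' _ =>
        mul_le_mul_of_nonneg_left (Finset.sum_le_sum fun j _ => ?_) (mul_nonneg (c0 k) (c0 k'))
      have e0 : I (jv ((bB 1 (s.L k').2).map chP) j) = 0 := I_z fun y => oneP L HI (hs k') j y
      show V.r 1 _ ((wd k).erase 1) j * I (jv ((bB 1 (s.L k').2).map chP) j) ≤ _
      rw [e0, mul_zero]
      exact mul_nonneg (V.r0 _ _ _ _) (I_nonneg fun x => (pbBB L HI (hs k') hp j).nonneg x)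

/-- **one column** -/
theorem Phi_step (L : LB (bm (DTn407.rxm H)) Prod.snd Inv') (HI : DI Inv') (V : WC X Q C) {p : ℕ}
    {s : Gs (Me × List (DT X.c.Lam (LbX X)))} (hp : p ≠ 0) (c0 : ∀ k, 0 ≤ s.c k)
    (hs : ∀ k, InvM X Q C p (s.L k)) {wd wr : s.J → Finset ℕ}
    (hw : ∀ k, ∀ l ∈ wd k, l.Prime ∧ p ≤ l)
    (hr : ∀ k, wr k = wd k ∨ wr k = (wd k).erase p) :
    Gch V p s wr + Phi V (p - 1) ((bm (DTn407.rxm H)).N p s) wr + PhiB V p s wd ≤ Phi V p s wd := by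
  have e : Phi V (p - 1) ((bm (DTn407.rxm H)).N p s) wr = ∑ k, ∑ k', s.c k * s.c k' *
      ∑ j, V.r (p - 1) (s.L k').1 (wr k) j * I (jv (bN p (s.L k').2) j) := rfl
  rw [e]
  unfold Gch PhiB Phi
  rw [← Finset.sum_add_distrib, ← Finset.sum_add_distrib]
  refine Finset.sum_le_sum fun k _ => ?_
  rw [← Finset.sum_add_distrib, ← Finset.sum_add_distrib]
  refine Finset.sum_le_sum fun k' _ => ?_
  rw [← mul_add, ← mul_add, ← Finset.sum_add_distrib, ← Finset.sum_add_distrib]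
  refine mul_le_mul_of_nonneg_left (Finset.sum_le_sum fun j _ => ?_) (mul_nonneg (c0 k) (c0 k'))
  have m1 := m_spl L HI (hs k') hp j
  have nN : 0 ≤ I (jv (bN p (s.L k').2) j) :=
    I_nonneg fun x => ((L.pv HI).pv (b := (bm (DTn407.rxm H)).rN p (s.L k')) (L.okR (hs k') hp) j).nonneg x
  have key : (V.g p (s.L k').1 (wr k) j + V.r (p - 1) (s.L k').1 (wr k) j) *
      I (jv (bN p (s.L k').2) j) ≤ V.r p (s.L k').1 (wd k) j * I (jv (bN p (s.L k').2) j) := by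
    by_cases hc : ∃ x, jv (bN p (s.L k').2) j x ≠ 0
    · obtain ⟨x, hx⟩ := hc
      refine mul_le_mul_of_nonneg_right ?_ nN
      have h1 : ∀ l ∈ wr k, l.Prime ∧ p ≤ l := fun l hl => by
        rcases hr k with h | h
        · rw [h] at hl; exact hw k l hl
        · rw [h] at hl; exact hw k l (Finset.mem_of_mem_erase hl)
      refine (V.rest (W := wr k) (hs k') hp h1 hx).trans ?_
      rcases hr k with h | h
      · rw [h]
      · rw [h]
        exact V.er (hs k') hp (hw k) hx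
    · push Not at hc
      have e0 : I (jv (bN p (s.L k').2) j) = 0 := I_z hc
      rw [e0, mul_zero, mul_zero]
  have m2 := mul_le_mul_of_nonneg_left m1 (V.r0 p (s.L k').1 (wd k) j)
  linarith

open Classical in
/-- **sums over the pairs of different members** -/
noncomputable def Po {β : Type} (f : ℕ → β → β → ℝ) (p : ℕ) (s : Gs β) : ℝ :=
  ∑ k, ∑ k', if k = k' then 0 else s.c k * s.c k' * f p (s.L k) (s.L k')

/-- **THE PAIR WALK WITH WORDS** -/
theorem Kw_words (hQ : ∀ u τ, Q u τ → NDt X.par (w X.ψ) X.c.t u τ) (htu : D.tu = tuM)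
    (L : LB (bm (DTn407.rxm H)) Prod.snd Inv') (HI : DI Inv') (V V' : WC X Q C)
    {f : ℕ → Me × List (DT X.c.Lam (LbX X)) → Me × List (DT X.c.Lam (LbX X)) → ℝ}
    (hf : ∀ {p : ℕ} {b b' : Me × List (DT X.c.Lam (LbX X))} {W W' : Finset ℕ}, p ≠ 0 →
      InvM X Q C p b → InvM X Q C p b' → b'.1 = b.1 → Wr X p b W → Wr X p b' W' →
      f p b b' ≤ ∑ j, V.g p b.1 W j * I (jv (bN p b'.2) j) +
        ∑ j, V'.g p b.1 W' j * I (jv (bN p b.2) j)) :
    ∀ (n p : ℕ) (s : Gs (Me × List (DT X.c.Lam (LbX X)))) (wd : s.J → Finset ℕ), okE H p s →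
      (∀ k, Wd X p (s.L k) (wd k)) →
      Kw (bm (DTn407.rxm H)) (Po f) n p s ≤ Phi V p s wd + Phi V' p s wd := by
  classical
  intro n
  induction n with
  | zero =>
    intro p s wd hs hw
    exact add_nonneg (Phi_nonneg L HI V hs.1.1.1.c0 hs.1.1.2 wd)
      (Phi_nonneg L HI V' hs.1.1.1.c0 hs.1.1.2 wd)
  | succ n ih =>
    intro p s wd hs hw
    by_cases hp : p = 0
    · subst hp
      rw [Kw_z]
      exact add_nonneg (Phi_nonneg L HI V hs.1.1.1.c0 hs.1.1.2 wd)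
        (Phi_nonneg L HI V' hs.1.1.1.c0 hs.1.1.2 wd)
    rw [Kw_succ _ _ n hp]
    have c0 := hs.1.1.1.c0
    have hI : ∀ k, InvM X Q C p (s.L k) := hs.1.1.2
    obtain ⟨m, hm⟩ := hs.1.2
    have hx : ∀ k, ∃ W', Wr X p (s.L k) W' ∧ (W' = wd k ∨ W' = (wd k).erase p) := fun k =>
      exists_Wr hQ (hI k) hp (hw k) fun j x hj => le_N L HI (hI k) hp hj
    choose wr hwr hr using hx
    obtain ⟨wd', hw', hC⟩ := Phi_C hQ htu L HI hp c0 hI wd hw
    have i1 := ih p _ wd' (okE.toC hQ hs hp) hw'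
    have h1r : ∀ k, ∀ l ∈ wr k, l.Prime ∧ p ≤ l := fun k l hl => by
      rcases hr k with h | h
      · rw [h] at hl; exact (hw k).1 l hl
      · rw [h] at hl; exact (hw k).1 l (Finset.mem_of_mem_erase hl)
    have i2 := ih (p - 1) ((bm (DTn407.rxm H)).N p s) wr (okE.toN hs hp)
      fun k => Wd.rest hQ (hI k) hp (hwr k) (h1r k)
    have s1 := Phi_step L HI V hp c0 hI (fun k => (hw k).1) hr
    have s2 := Phi_step L HI V' hp c0 hI (fun k => (hw k).1) hr
    have t1 := hC V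
    have t2 := hC V'
    have hl : Po f p s ≤ Gch V p s wr + Gch V' p s wr := by
      have sw : Gch V' p s wr = ∑ k, ∑ k', s.c k * s.c k' *
          ∑ j, V'.g p (s.L k).1 (wr k') j * I (jv (bN p (s.L k).2) j) := by
        unfold Gch
        rw [Finset.sum_comm]
        exact Finset.sum_congr rfl fun k _ => Finset.sum_congr rfl fun k' _ => by
          rw [mul_comm (s.c k') (s.c k)]
      rw [sw]
      unfold Po Gch
      rw [← Finset.sum_add_distrib]
      refine Finset.sum_le_sum fun k _ => ?_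
      rw [← Finset.sum_add_distrib]
      refine Finset.sum_le_sum fun k' _ => ?_
      rw [← mul_add]
      have hmm : (s.L k').1 = (s.L k).1 := by rw [hm k, hm k']
      have h1 := hf hp (hI k) (hI k') hmm (hwr k) (hwr k')
      have pn := fun k j => (I_nonneg fun x => ((L.pv HI).pv
        (b := (bm (DTn407.rxm H)).rN p (s.L k)) (L.okR (hI k) hp) j).nonneg x :
        0 ≤ I (jv (bN p (s.L k).2) j))
      have n1 : 0 ≤ ∑ j, V.g p (s.L k').1 (wr k) j * I (jv (bN p (s.L k').2) j) :=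
        Finset.sum_nonneg fun j _ => mul_nonneg (V.g0 _ _ _ _) (pn k' j)
      have n2 : 0 ≤ ∑ j, V'.g p (s.L k).1 (wr k') j * I (jv (bN p (s.L k).2) j) :=
        Finset.sum_nonneg fun j _ => mul_nonneg (V'.g0 _ _ _ _) (pn k j)
      split_ifs with hk
      · exact mul_nonneg (mul_nonneg (c0 k) (c0 k')) (add_nonneg n1 n2)
      · refine mul_le_mul_of_nonneg_left ?_ (mul_nonneg (c0 k) (c0 k'))
        rw [hmm]
        exact h1
    linarith

end walk

/-! ### constructors -/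

section jp
variable {N : Skel189.Num} {γ : ℝ} {p0 P₀ : ℕ} {X : Ctx N γ p0 P₀} {Q : NS → IT → Prop} {C : ℝ}

/-- the C-steps of the column which count for the item -/
def kap (p : ℕ) (m : Me) (q : ℕ) : ℕ := min 3 (ex p q + 1 - ex p m.2)

lemma kap_le (p : ℕ) (m : Me) (q : ℕ) : (kap p m q : ℝ) ≤ 3 := by
  exact_mod_cast min_le_left _ _

/-- jump of a letter -/
noncomputable def jmp (φ G : X.c.Lam → ℕ → Finset ℕ → ℝ) (j : X.c.Lam) (p : ℕ) (W : Finset ℕ) : ℝ :=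
  max 0 (φ j (p - 1) (insert p W) + G j p W - φ j (p - 1) W)

lemma jmp_nonneg (φ G : X.c.Lam → ℕ → Finset ℕ → ℝ) (j : X.c.Lam) (p : ℕ) (W : Finset ℕ) :
    0 ≤ jmp φ G j p W := le_max_left _ _

open Classical in
/-- the remaining credit of a potential `φ` with the letter charges `G` -/
noncomputable def rj (φ G : X.c.Lam → ℕ → Finset ℕ → ℝ) (p : ℕ) (m : Me) (W : Finset ℕ)
    (j : X.c.Lam) : ℝ :=
  if p.Prime then φ j (p - 1) (W.erase p) +
    (ind (p ∈ W ∧ ex p j.1.1 ≤ ex p m.2 + 1) + (kap p m j.1.1 : ℝ) / p) * jmp φ G j p (W.erase p)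
  else φ j (p - 1) W

/-- **potentials** : `φ j p W`, words of primes `> p`, `G` charge of the letter -/
structure PO (X : Ctx N γ p0 P₀) (φ G : X.c.Lam → ℕ → Finset ℕ → ℝ) : Prop where
  φ0 : ∀ j p W, 0 ≤ φ j p W
  G0 : ∀ j p W, 0 ≤ G j p W
  mono : ∀ j p W, (∀ l ∈ W, l.Prime ∧ p < l) → φ j (p - 1) W ≤ φ j p W
  hb : ∀ j p W, p.Prime → (∀ l ∈ W, l.Prime ∧ p < l) →
    φ j (p - 1) W + 3 / (p : ℝ) * jmp φ G j p W ≤ φ j p W

variable {φ G : X.c.Lam → ℕ → Finset ℕ → ℝ}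

/-- the credit above the C-steps -/
lemma PO.rj_le (h : PO X φ G) {p : ℕ} {m : Me} {W : Finset ℕ} {j : X.c.Lam}
    (hW : ∀ l ∈ W, l.Prime ∧ p < l) : rj φ G p m W j ≤ φ j p W := by
  have hn : p ∉ W := fun h1 => lt_irrefl _ (hW p h1).2
  unfold rj
  split_ifs with hp
  · have e : W.erase p = W := Finset.erase_eq_of_notMem hn
    rw [e, ind_off (fun h1 => hn h1.1), zero_add]
    refine le_trans ?_ (h.hb j p W hp hW)
    have hpp : (0:ℝ) < p := by exact_mod_cast hp.pos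
    have : (kap p m j.1.1 : ℝ) / p ≤ 3 / p := div_le_div_of_nonneg_right (kap_le _ _ _) hpp.le
    have := mul_le_mul_of_nonneg_right this (jmp_nonneg φ G j p W)
    linarith
  · exact h.mono j p W hW

lemma PO.rj_nonneg (h : PO X φ G) (p : ℕ) (m : Me) (W : Finset ℕ) (j : X.c.Lam) :
    0 ≤ rj φ G p m W j := by
  unfold rj
  split_ifs with hp
  · exact add_nonneg (h.φ0 _ _ _) (mul_nonneg (add_nonneg (ind_nonneg _) (by positivity))
      (jmp_nonneg _ _ _ _ _))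
  · exact h.φ0 _ _ _

open Classical in
/-- **the word credit of a potential** -/
noncomputable def PO.wc (hQ : ∀ u τ, Q u τ → NDt X.par (w X.ψ) X.c.t u τ) (h : PO X φ G) :
    WC X Q C where
  g := fun p _ W j => if p ∈ W then G j p (W.erase p) else 0
  r := rj φ G
  g0 := fun p m W j => by
    show 0 ≤ if p ∈ W then G j p (W.erase p) else 0
    split_ifs
    · exact h.G0 _ _ _
    · exact le_rfl
  r0 := h.rj_nonneg
  rest := fun {p b W j x} hb hp hW hj => by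
    show (if p ∈ W then G j p (W.erase p) else 0) + rj φ G (p - 1) b.1 W j ≤ rj φ G p b.1 W j
    have h1 : rj φ G (p - 1) b.1 W j ≤ φ j (p - 1) W := h.rj_le fun l hl =>
      ⟨(hW l hl).1, by have := (hW l hl).2; omega⟩
    by_cases hpr : p.Prime
    · have e : rj φ G p b.1 W j = φ j (p - 1) (W.erase p) +
        (ind (p ∈ W ∧ ex p j.1.1 ≤ ex p b.1.2 + 1) + (kap p b.1 j.1.1 : ℝ) / p) *
          jmp φ G j p (W.erase p) := by unfold rj; exact if_pos hpr
      have hk : 0 ≤ (kap p b.1 j.1.1 : ℝ) / p := by positivity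
      have n0 := jmp_nonneg φ G j p (W.erase p)
      have n1 := mul_nonneg hk n0
      by_cases hm : p ∈ W
      · rw [e, if_pos hm, ind_on ⟨hm, rest_ex hQ hb hpr hj⟩]
        have h2 : φ j (p - 1) (insert p (W.erase p)) + G j p (W.erase p) -
            φ j (p - 1) (W.erase p) ≤ jmp φ G j p (W.erase p) := le_max_right _ _
        rw [Finset.insert_erase hm] at h2
        linarith
      · rw [e, if_neg hm, Finset.erase_eq_of_notMem hm] at *
        have h3 := ind_nonneg (p ∈ W ∧ ex p j.1.1 ≤ ex p b.1.2 + 1)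
        have h4 := mul_nonneg h3 n0
        linarith
    · have hm : p ∉ W := fun h2 => hpr (hW p h2).1
      have e : rj φ G p b.1 W j = φ j (p - 1) W := by unfold rj; exact if_neg hpr
      rw [e, if_neg hm]
      linarith
  er := fun {p b W j x} hb hp hW hj => by
    by_cases hpr : p.Prime
    · unfold rj
      rw [if_pos hpr, if_pos hpr, Finset.erase_idem, ind_off (fun h1 => absurd h1.1
        (Finset.notMem_erase p W))]
      have n0 := jmp_nonneg φ G j p (W.erase p)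
      have h4 := mul_nonneg (ind_nonneg (p ∈ W ∧ ex p j.1.1 ≤ ex p b.1.2 + 1)) n0
      linarith
    · have hm : p ∉ W := fun h2 => hpr (hW p h2).1
      rw [Finset.erase_eq_of_notMem hm]
  tie := fun {p b W j x} hb hpr hW hj => by
    obtain ⟨-, hm0, hex⟩ := tie_ex hQ hb hj
    have hpp : (0:ℝ) < p := by exact_mod_cast hpr.pos
    have e1 : rj φ G p (tuM p b.1) (W.erase p) j = φ j (p - 1) (W.erase p) +
        (kap p (tuM p b.1) j.1.1 : ℝ) / p * jmp φ G j p (W.erase p) := by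
      unfold rj
      rw [if_pos hpr, Finset.erase_idem, ind_off (fun h1 => absurd h1.1
        (Finset.notMem_erase p W)), zero_add]
    have e2 : rj φ G p (tuM p b.1) (insert p W) j = φ j (p - 1) (W.erase p) +
        (ind (ex p j.1.1 ≤ ex p b.1.2 + 2) + (kap p (tuM p b.1) j.1.1 : ℝ) / p) *
          jmp φ G j p (W.erase p) := by
      unfold rj
      rw [if_pos hpr, Finset.erase_insert_eq_erase]
      congr 3
      apply propext_ind
      rw [ex_tuM hpr hm0]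
      exact ⟨fun h => h.2, fun h => ⟨Finset.mem_insert_self _ _, h⟩⟩
    have e3 : rj φ G p b.1 W j = φ j (p - 1) (W.erase p) +
        (ind (p ∈ W ∧ ex p j.1.1 ≤ ex p b.1.2 + 1) + (kap p b.1 j.1.1 : ℝ) / p) *
          jmp φ G j p (W.erase p) := by unfold rj; exact if_pos hpr
    rw [e1, e2, e3]
    have n0 := jmp_nonneg φ G j p (W.erase p)
    have hk : (kap p (tuM p b.1) j.1.1 : ℝ) + ind (ex p j.1.1 ≤ ex p b.1.2 + 2) ≤
        (kap p b.1 j.1.1 : ℝ) := by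
      have e4 := ex_tuM (p := p) (m := b.1) hpr hm0
      unfold kap
      rw [e4]
      by_cases hc : ex p j.1.1 ≤ ex p b.1.2 + 2
      · rw [ind_on hc]
        have : min 3 (ex p j.1.1 + 1 - (ex p b.1.2 + 1)) + 1 ≤ min 3 (ex p j.1.1 + 1 - ex p b.1.2) := by
          omega
        exact_mod_cast this
      · rw [ind_off hc, add_zero]
        have : min 3 (ex p j.1.1 + 1 - (ex p b.1.2 + 1)) ≤ min 3 (ex p j.1.1 + 1 - ex p b.1.2) := by
          omega
        exact_mod_cast this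
    have h5 : (kap p (tuM p b.1) j.1.1 : ℝ) / p + 1 / p * ind (ex p j.1.1 ≤ ex p b.1.2 + 2) ≤
        (kap p b.1 j.1.1 : ℝ) / p := by
      rw [div_add' _ _ _ hpp.ne', div_le_div_iff_of_pos_right hpp]
      have : 1 / (p:ℝ) * ind (ex p j.1.1 ≤ ex p b.1.2 + 2) * p =
        ind (ex p j.1.1 ≤ ex p b.1.2 + 2) := by field_simp
      rw [this]
      exact hk
    have h6 := mul_le_mul_of_nonneg_right h5 n0
    have h7 := mul_nonneg (ind_nonneg (p ∈ W ∧ ex p j.1.1 ≤ ex p b.1.2 + 1)) n0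
    have e7 : (1 - 1 / (p : ℝ)) * (φ j (p - 1) (W.erase p) +
        (kap p (tuM p b.1) j.1.1 : ℝ) / p * jmp φ G j p (W.erase p)) + 1 / (p : ℝ) *
        (φ j (p - 1) (W.erase p) + (ind (ex p j.1.1 ≤ ex p b.1.2 + 2) +
          (kap p (tuM p b.1) j.1.1 : ℝ) / p) * jmp φ G j p (W.erase p)) =
        φ j (p - 1) (W.erase p) + ((kap p (tuM p b.1) j.1.1 : ℝ) / p +
          1 / p * ind (ex p j.1.1 ≤ ex p b.1.2 + 2)) * jmp φ G j p (W.erase p) := by ring
    rw [e7]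
    linarith

end jp

/-! ### the block potential -/

section blk
variable {N : Skel189.Num} {γ : ℝ} {p0 P₀ : ℕ} {X : Ctx N γ p0 P₀} {Q : NS → IT → Prop} {C : ℝ}

/-- the columns of the block of `p` up to `p` -/
def blk (p : ℕ) : Finset ℕ :=
  (Finset.Ico (2 ^ Nat.log 2 p) (2 ^ (Nat.log 2 p + 1))).filter (· ≤ p)

lemma mem_blk {p l : ℕ} : l ∈ blk p ↔ 2 ^ Nat.log 2 p ≤ l ∧ l ≤ p := by
  unfold blk
  rw [Finset.mem_filter, Finset.mem_Ico]
  constructor
  · rintro ⟨⟨h1, -⟩, h2⟩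
    exact ⟨h1, h2⟩
  · rintro ⟨h1, h2⟩
    exact ⟨⟨h1, lt_of_le_of_lt h2 (Nat.lt_pow_succ_log_self (by norm_num) p)⟩, h2⟩

lemma blk_same {p : ℕ} (hp : p ≠ 0) (h : Nat.log 2 (p - 1) = Nat.log 2 p) :
    blk p = insert p (blk (p - 1)) := by
  have h1 : 2 ^ Nat.log 2 p ≤ p := Nat.pow_log_le_self 2 hp
  ext l
  rw [Finset.mem_insert, mem_blk, mem_blk, h]
  constructor
  · rintro ⟨h2, h3⟩
    by_cases hl : l = p
    · exact Or.inl hl
    · exact Or.inr ⟨h2, by omega⟩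
  · rintro (rfl | ⟨h2, h3⟩)
    · exact ⟨h1, le_rfl⟩
    · exact ⟨h2, by omega⟩

lemma notMem_blk {p : ℕ} (hp : p ≠ 0) : p ∉ blk (p - 1) := by
  rw [mem_blk]
  rintro ⟨-, h⟩
  omega

lemma blk_new {p : ℕ} (hp : 2 ≤ p) (h : Nat.log 2 (p - 1) ≠ Nat.log 2 p) :
    Nat.log 2 p = Nat.log 2 (p - 1) + 1 ∧ blk p = {p} := by
  have h1 : Nat.log 2 (p - 1) ≤ Nat.log 2 p := Nat.log_mono_right (by omega)
  have h2 : p - 1 < 2 ^ (Nat.log 2 (p - 1) + 1) := Nat.lt_pow_succ_log_self (by norm_num) _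
  have h3 : 2 ^ Nat.log 2 p ≤ p := Nat.pow_log_le_self 2 (by omega)
  have h4 : 2 ^ (Nat.log 2 (p - 1) + 1) ≤ 2 ^ Nat.log 2 p :=
    Nat.pow_le_pow_right (by norm_num) (by omega)
  have h5 : 2 ^ (Nat.log 2 (p - 1) + 1) = 2 ^ Nat.log 2 p := by omega
  have h6 : Nat.log 2 (p - 1) + 1 = Nat.log 2 p := Nat.pow_right_injective le_rfl h5
  refine ⟨h6.symm, ?_⟩
  ext l
  rw [mem_blk, Finset.mem_singleton]
  omega

/-- sum of the charges of the block -/
noncomputable def Sb (G : X.c.Lam → ℕ → Finset ℕ → ℝ) (j : X.c.Lam) (p : ℕ) (W : Finset ℕ) : ℝ :=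
  ∑ l ∈ blk p, 1 / (l : ℝ) * G j l W

noncomputable def ab (p : ℕ) : ℝ := ∑ l ∈ blk p, 1 / (l : ℝ)

lemma ab_nonneg (p : ℕ) : 0 ≤ ab p := Finset.sum_nonneg fun l _ => by positivity

lemma ab_le (p : ℕ) : ab p ≤ 1 := by
  unfold ab
  have h1 : ∀ l ∈ blk p, 1 / (l : ℝ) ≤ 1 / (2 ^ Nat.log 2 p : ℕ) := fun l hl => by
    have := (mem_blk.1 hl).1
    have h0 : (0:ℝ) < (2 ^ Nat.log 2 p : ℕ) := by positivity
    exact one_div_le_one_div_of_le h0 (by exact_mod_cast this)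
  refine (Finset.sum_le_sum h1).trans ?_
  rw [Finset.sum_const, nsmul_eq_mul]
  have h2 : (blk p).card ≤ 2 ^ Nat.log 2 p := by
    unfold blk
    refine (Finset.card_filter_le _ _).trans ?_
    rw [Nat.card_Ico, pow_succ]
    omega
  have h0 : (0:ℝ) < (2 ^ Nat.log 2 p : ℕ) := by positivity
  rw [mul_one_div, div_le_one h0]
  exact_mod_cast h2

/-- **the block potential** -/
noncomputable def phb (G : X.c.Lam → ℕ → Finset ℕ → ℝ) (D : X.c.Lam → ℕ → ℝ) (j : X.c.Lam)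
    (p : ℕ) (W : Finset ℕ) : ℝ :=
  if p = 0 then 0 else 3 * Sb G j p W + 9 * ab p * D j (Nat.log 2 p) +
    21 * ∑ m ∈ Finset.range (Nat.log 2 p), D j m

variable {G : X.c.Lam → ℕ → Finset ℕ → ℝ} {D : X.c.Lam → ℕ → ℝ}

lemma Sb_nonneg (G0 : ∀ j p W, 0 ≤ G j p W) (j : X.c.Lam) (p : ℕ) (W : Finset ℕ) :
    0 ≤ Sb G j p W := Finset.sum_nonneg fun l _ => mul_nonneg (by positivity) (G0 _ _ _)

lemma phb_pos {j : X.c.Lam} {p : ℕ} {W : Finset ℕ} (hp : p ≠ 0) : phb G D j p W =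
    3 * Sb G j p W + 9 * ab p * D j (Nat.log 2 p) + 21 * ∑ m ∈ Finset.range (Nat.log 2 p), D j m :=
  if_neg hp

/-- **the value of the block potential** -/
theorem phb_le (G0 : ∀ j p W, 0 ≤ G j p W) (D0 : ∀ j m, 0 ≤ D j m)
    (hD : ∀ (j : X.c.Lam) (m p : ℕ) (W : Finset ℕ), (∀ l ∈ W, l.Prime ∧ p < l) →
      ∑ l ∈ (Finset.Ico (2 ^ m) (2 ^ (m + 1))).filter (· ≤ p), 1 / (l : ℝ) * G j l W ≤ D j m)
    {j : X.c.Lam} {p : ℕ} {W : Finset ℕ} (hW : ∀ l ∈ W, l.Prime ∧ p < l) :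
    phb G D j p W ≤ 21 * ∑ m ∈ Finset.range (Nat.log 2 p + 1), D j m := by
  by_cases hp : p = 0
  · subst hp
    unfold phb
    rw [if_pos rfl]
    exact mul_nonneg (by norm_num) (Finset.sum_nonneg fun m _ => D0 _ _)
  · rw [phb_pos hp, Finset.sum_range_succ]
    have h1 : Sb G j p W ≤ D j (Nat.log 2 p) := hD j (Nat.log 2 p) p W hW
    have h2 := mul_le_mul_of_nonneg_right (ab_le p) (D0 j (Nat.log 2 p))
    have h3 := D0 j (Nat.log 2 p)
    linarith

/-- **the block potential is a potential** -/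
theorem PO_blk (G0 : ∀ j p W, 0 ≤ G j p W) (D0 : ∀ j m, 0 ≤ D j m)
    (hD : ∀ (j : X.c.Lam) (m p : ℕ) (W : Finset ℕ), (∀ l ∈ W, l.Prime ∧ p < l) →
      ∑ l ∈ (Finset.Ico (2 ^ m) (2 ^ (m + 1))).filter (· ≤ p), 1 / (l : ℝ) * G j l W ≤ D j m) :
    PO X (phb G D) G := by
  have hS : ∀ (j : X.c.Lam) (p : ℕ) (W : Finset ℕ), (∀ l ∈ W, l.Prime ∧ p < l) →
      Sb G j p W ≤ D j (Nat.log 2 p) := fun j p W hW => hD j (Nat.log 2 p) p W hW
  -- one step, with an excess `e ≤ 3 D + G`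
  have key : ∀ (j : X.c.Lam) (p : ℕ) (W : Finset ℕ) (a e : ℝ), 2 ≤ p →
      (∀ l ∈ W, l.Prime ∧ p < l) → 0 ≤ a → a ≤ 1 → e ≤ 3 * D j (Nat.log 2 (p - 1)) + G j p W →
      0 ≤ e → phb G D j (p - 1) W + a * (3 / (p : ℝ) * e) ≤ phb G D j p W := by
    intro j p W a e hp hW ha ha1 he he0
    have hpp : (2:ℝ) ≤ p := by exact_mod_cast hp
    have hp0 : (0:ℝ) < p := by linarith
    have w0 : 0 ≤ 1 / (p:ℝ) := by positivity
    have w1 : 1 / (p:ℝ) ≤ 1 / 2 := one_div_le_one_div_of_le (by norm_num) hpp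
    have d0 := D0 j (Nat.log 2 (p - 1))
    have g0 := G0 j p W
    have hm : a * (3 / (p : ℝ) * e) ≤ 3 * (1 / (p:ℝ)) * (3 * D j (Nat.log 2 (p - 1)) + G j p W) := by
      have h1 : 3 / (p:ℝ) * e ≤ 3 / (p:ℝ) * (3 * D j (Nat.log 2 (p - 1)) + G j p W) :=
        mul_le_mul_of_nonneg_left he (by positivity)
      have h2 : 0 ≤ 3 / (p:ℝ) * e := by positivity
      have h3 : a * (3 / (p : ℝ) * e) ≤ 3 / (p:ℝ) * e := by nlinarith
      have e3 : 3 / (p:ℝ) = 3 * (1 / (p:ℝ)) := by ring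
      rw [e3] at h1 h3
      rw [e3]
      linarith
    rw [phb_pos (by omega : p ≠ 0), phb_pos (by omega : p - 1 ≠ 0)]
    by_cases hl : Nat.log 2 (p - 1) = Nat.log 2 p
    · have eS : Sb G j p W = 1 / (p:ℝ) * G j p W + Sb G j (p - 1) W := by
        unfold Sb
        rw [blk_same (by omega) hl, Finset.sum_insert (notMem_blk (by omega))]
      have ea : ab p = 1 / (p:ℝ) + ab (p - 1) := by
        unfold ab
        rw [blk_same (by omega) hl, Finset.sum_insert (notMem_blk (by omega))]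
      rw [eS, ea]
      rw [hl] at hm ⊢
      nlinarith [hm]
    · obtain ⟨h1, h2⟩ := blk_new hp hl
      have eS : Sb G j p W = 1 / (p:ℝ) * G j p W := by
        unfold Sb
        rw [h2, Finset.sum_singleton]
      have ea : ab p = 1 / (p:ℝ) := by
        unfold ab
        rw [h2, Finset.sum_singleton]
      have h3 := hS j (p - 1) W fun l hl => ⟨(hW l hl).1, by have := (hW l hl).2; omega⟩
      have h4 := mul_le_mul_of_nonneg_right (ab_le (p - 1)) d0
      have h5 := mul_le_mul_of_nonneg_right w1 d0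
      have h6 : 0 ≤ 1 / (p:ℝ) * D j (Nat.log 2 p) := mul_nonneg w0 (D0 _ _)
      rw [eS, ea, h1, Finset.sum_range_succ]
      rw [h1] at h6
      nlinarith [hm]
  refine ⟨fun j p W => ?_, G0, fun j p W hW => ?_, fun j p W hp hW => ?_⟩
  · unfold phb
    split_ifs with h
    · exact le_rfl
    · exact add_nonneg (add_nonneg (mul_nonneg (by norm_num) (Sb_nonneg G0 j p W))
        (mul_nonneg (mul_nonneg (by norm_num) (ab_nonneg p)) (D0 _ _)))
        (mul_nonneg (by norm_num) (Finset.sum_nonneg fun m _ => D0 _ _))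
  · by_cases h2 : 2 ≤ p
    · have := key j p W 0 0 h2 hW le_rfl zero_le_one
        (add_nonneg (mul_nonneg (by norm_num) (D0 _ _)) (G0 _ _ _)) le_rfl
      simpa using this
    · have h0 : phb G D j (p - 1) W = 0 := by
        unfold phb
        exact if_pos (by omega)
      rw [h0]
      unfold phb
      split_ifs with h
      · exact le_rfl
      · exact add_nonneg (add_nonneg (mul_nonneg (by norm_num) (Sb_nonneg G0 j p W))
          (mul_nonneg (mul_nonneg (by norm_num) (ab_nonneg p)) (D0 _ _)))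
          (mul_nonneg (by norm_num) (Finset.sum_nonneg fun m _ => D0 _ _))
  · have h2 : 2 ≤ p := hp.two_le
    have h3 := hS j (p - 1) (insert p W) fun l hl => by
      rw [Finset.mem_insert] at hl
      rcases hl with rfl | hl
      · exact ⟨hp, by omega⟩
      · exact ⟨(hW l hl).1, by have := (hW l hl).2; omega⟩
    have h4 := Sb_nonneg G0 j (p - 1) W
    have h5 : jmp (phb G D) G j p W ≤ 3 * D j (Nat.log 2 (p - 1)) + G j p W := by
      unfold jmp
      refine max_le (add_nonneg (mul_nonneg (by norm_num) (D0 _ _)) (G0 _ _ _)) ?_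
      rw [phb_pos (by omega : p - 1 ≠ 0), phb_pos (by omega : p - 1 ≠ 0)]
      linarith
    have := key j p W 1 (jmp (phb G D) G j p W) h2 hW zero_le_one le_rfl h5 (jmp_nonneg _ _ _ _ _)
    simpa using this

end blk

/-! ### static rates and letters -/

section stat
variable {N : Skel189.Num} {γ : ℝ} {p0 P₀ : ℕ} {X : Ctx N γ p0 P₀} {Q : NS → IT → Prop} {C : ℝ}

/-- zero potential part: the letter `p` in the word of the other member costs `ε p j` -/
theorem PO_letter {ε : ℕ → X.c.Lam → ℝ} (hε : ∀ p j, 0 ≤ ε p j) :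
    PO X (fun j p _ => ∑ l ∈ Finset.Icc 1 p, 3 / (l : ℝ) * ε l j) (fun j p _ => ε p j) := by
  have hs : ∀ (j : X.c.Lam) (p : ℕ), 1 ≤ p → ∑ l ∈ Finset.Icc 1 p, 3 / (l : ℝ) * ε l j =
      ∑ l ∈ Finset.Icc 1 (p - 1), 3 / (l : ℝ) * ε l j + 3 / (p : ℝ) * ε p j := by
    intro j p hp
    obtain ⟨n, rfl⟩ := Nat.exists_eq_add_of_le hp
    rw [show 1 + n - 1 = n by omega, show 1 + n = n + 1 by omega,
      Finset.sum_Icc_succ_top (by omega : 1 ≤ n + 1)]
  refine ⟨fun j p W => Finset.sum_nonneg fun l _ => mul_nonneg (by positivity) (hε _ _),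
    fun j p W => hε _ _, fun j p W hW => ?_, fun j p W hp hW => ?_⟩
  · show ∑ l ∈ Finset.Icc 1 (p - 1), 3 / (l : ℝ) * ε l j ≤ ∑ l ∈ Finset.Icc 1 p, 3 / (l : ℝ) * ε l j
    refine Finset.sum_le_sum_of_subset_of_nonneg (Finset.Icc_subset_Icc_right (by omega))
      fun l _ _ => mul_nonneg (by positivity) (hε _ _)
  · show ∑ l ∈ Finset.Icc 1 (p - 1), 3 / (l : ℝ) * ε l j + 3 / (p : ℝ) * _ ≤
      ∑ l ∈ Finset.Icc 1 p, 3 / (l : ℝ) * ε l j
    have e : jmp (fun (j : X.c.Lam) (p : ℕ) (_ : Finset ℕ) =>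
        ∑ l ∈ Finset.Icc 1 p, 3 / (l : ℝ) * ε l j) (fun j p _ => ε p j) j p W = ε p j := by
      unfold jmp
      rw [show (∑ l ∈ Finset.Icc 1 (p - 1), 3 / (l : ℝ) * ε l j) + ε p j -
        (∑ l ∈ Finset.Icc 1 (p - 1), 3 / (l : ℝ) * ε l j) = ε p j by ring]
      exact max_eq_right (hε _ _)
    rw [e, hs j p hp.one_lt.le]

/-- **static rates** -/
noncomputable def WC.stat (ε : ℕ → X.c.Lam → ℝ) (hε : ∀ p j, 0 ≤ ε p j) : WC X Q C where
  g := fun p _ _ j => ε p j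
  r := fun p _ _ j => ∑ l ∈ Finset.Icc 1 p, ε l j
  g0 := fun p _ _ j => hε p j
  r0 := fun p _ _ j => Finset.sum_nonneg fun l _ => hε l j
  rest := fun {p b W j x} _ hp _ _ => by
    obtain ⟨n, rfl⟩ := Nat.exists_eq_succ_of_ne_zero hp
    show ε (n + 1) j + ∑ l ∈ Finset.Icc 1 n, ε l j ≤ ∑ l ∈ Finset.Icc 1 (n + 1), ε l j
    rw [Finset.sum_Icc_succ_top (by omega : 1 ≤ n + 1)]
    linarith
  er := fun _ _ _ _ => le_rfl
  tie := fun {p b W j x} _ _ _ _ => by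
    have : (1 - 1 / (p : ℝ)) * (∑ l ∈ Finset.Icc 1 p, ε l j) + 1 / (p : ℝ) *
      (∑ l ∈ Finset.Icc 1 p, ε l j) = ∑ l ∈ Finset.Icc 1 p, ε l j := by ring
    exact this.le

end stat

/-! ### the root and the nodes -/

section root
variable {N : Skel189.Num} {γ : ℝ} {p0 P₀ : ℕ} {X : Ctx N γ p0 P₀} {Q : NS → IT → Prop} {C : ℝ}
  {ζ : Type} [Fintype ζ] [DecidableEq ζ] {D : TD Me X.c.Lam (LbX X) ζ}
  {Inv' : ℕ → List (DT X.c.Lam (LbX X)) → Prop} {H : TYp (rhoX X) D (InvM X Q C)}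

/-- the pieces of one tree have one word -/
lemma one_word (hQ : ∀ u τ, Q u τ → NDt X.par (w X.ψ) X.c.t u τ) {p : ℕ}
    {b : Me × List (DT X.c.Lam (LbX X))} {t : DT X.c.Lam (LbX X)} (h : InvM X Q C p b)
    (hb : b.2 = [t]) {j j' : X.c.Lam} {x x' : ℝ} (hj : jv b.2 j x ≠ 0) (hj' : jv b.2 j' x' ≠ 0) :
    pm X.c.t p b.1 j.1.1 = pm X.c.t p b.1 j'.1.1 := by
  obtain ⟨s, τ, hs, ht, h1⟩ := jv_node h.mi hj
  have hn := hQ _ _ hs.1.rm.all.self
  have e : t = (X.c.D.par X.Y).toDT X.c.sp s.B s.A τ := by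
    rw [hb] at ht
    exact (List.mem_singleton.1 ht).symm
  have h2 : ((X.c.D.par X.Y).toDT X.c.sp s.B s.A τ).g.val j' x' ≠ 0 := by
    rw [hb, e, jv_cons, jv_nil, add_zero] at hj'
    exact hj'
  rw [← pf_pm hQ hs (ctx_supp hn h1).1, ← pf_pm hQ hs (ctx_supp hn h2).1]

/-- **the pair walk from one bundle** -/
theorem Kw_root (hQ : ∀ u τ, Q u τ → NDt X.par (w X.ψ) X.c.t u τ) (htu : D.tu = tuM)
    (L : LB (bm (DTn407.rxm H)) Prod.snd Inv') (HI : DI Inv') (V V' : WC X Q C)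
    {f : ℕ → Me × List (DT X.c.Lam (LbX X)) → Me × List (DT X.c.Lam (LbX X)) → ℝ}
    (hf : ∀ {p : ℕ} {b b' : Me × List (DT X.c.Lam (LbX X))} {W W' : Finset ℕ}, p ≠ 0 →
      InvM X Q C p b → InvM X Q C p b' → b'.1 = b.1 → Wr X p b W → Wr X p b' W' →
      f p b b' ≤ ∑ j, V.g p b.1 W j * I (jv (bN p b'.2) j) +
        ∑ j, V'.g p b.1 W' j * I (jv (bN p b.2) j))
    (n : ℕ) {p : ℕ} {b : Me × List (DT X.c.Lam (LbX X))} (h : InvM X Q C p b)
    (hs : okE H p (one b))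
    (hw : ∀ j j' x x', jv b.2 j x ≠ 0 → jv b.2 j' x' ≠ 0 →
      pm X.c.t p b.1 j.1.1 = pm X.c.t p b.1 j'.1.1) :
    Kw (bm (DTn407.rxm H)) (Po f) n p (one b) ≤
      ∑ j, (V.r p b.1 (pm X.c.t p b.1 j.1.1) j + V'.r p b.1 (pm X.c.t p b.1 j.1.1) j) *
        I (jv b.2 j) := by
  obtain ⟨W, hW, hW'⟩ : ∃ W, Wd X p b W ∧ ∀ j x, jv b.2 j x ≠ 0 → pm X.c.t p b.1 j.1.1 = W := by
    by_cases hc : ∃ j x, jv b.2 j x ≠ 0
    · obtain ⟨j, x, hj⟩ := hc
      refine ⟨pm X.c.t p b.1 j.1.1, ⟨fun l hl => ?_, fun j' x' hj' => ?_⟩,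
        fun j' x' hj' => hw j' j x' x hj' hj⟩
      · obtain ⟨h1, h2⟩ := mem_pm.1 hl
        exact ⟨(BldF542.mt_lt X.c.t _ X.tOk _ l h1).1, by omega⟩
      · rw [hw j' j x' x hj' hj]
        exact ⟨fun l _ => Iff.rfl, id⟩
    · push Not at hc
      exact ⟨∅, ⟨fun l hl => absurd hl (Finset.notMem_empty l), fun j x hj => absurd (hc j x) hj⟩,
        fun j x hj => absurd (hc j x) hj⟩
  have h1 := Kw_words hQ htu L HI V V' hf n p (one b) (fun _ => W) hs fun _ => hW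
  refine h1.trans (le_of_eq ?_)
  have e : ∀ V : WC X Q C, Phi V p (one b) (fun _ => W) =
      ∑ j, V.r p b.1 (pm X.c.t p b.1 j.1.1) j * I (jv b.2 j) := by
    intro V
    unfold Phi
    show ∑ _k : Unit, ∑ _k' : Unit, (1:ℝ) * 1 * ∑ j, V.r p b.1 W j * I (jv b.2 j) = _
    simp only [Finset.univ_unique, Finset.sum_singleton, one_mul]
    refine Finset.sum_congr rfl fun j _ => ?_
    by_cases hc : ∃ x, jv b.2 j x ≠ 0
    · obtain ⟨x, hx⟩ := hc
      rw [hW' j x hx]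
    · push Not at hc
      rw [I_z hc, mul_zero, mul_zero]
  rw [e, e, ← Finset.sum_add_distrib]
  exact Finset.sum_congr rfl fun j _ => by ring

/-- energy of a kernel for two rests -/
noncomputable def fK (K : ℕ → X.c.Lam → X.c.Lam → ℝ) (p : ℕ)
    (b b' : Me × List (DT X.c.Lam (LbX X))) : ℝ :=
  ∑ i, ∑ i', K p i i' * I (fun x => jv (bN p b.2) i x * jv (bN p b'.2) i' x)

/-- **from nodes to bundles** -/
theorem fK_le (hQ : ∀ u τ, Q u τ → NDt X.par (w X.ψ) X.c.t u τ)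
    {K : ℕ → X.c.Lam → X.c.Lam → ℝ} {V V' : WC X Q C}
    (hin : ∀ {p : ℕ} {m : Me} {u u' : NS} {τ τ' : IT}, p ≠ 0 → RtX X Q p m u τ →
      RtX X Q p m u' τ' → tp τ < p → tp τ' < p → ¬ isL τ → ¬ isL τ' →
      ∑ i, ∑ i', K p i i' * I (fun x => vN X (.inl (u, τ)) i x * vN X (.inl (u', τ')) i' x) ≤
        ∑ j, V.g p m u.B.primeFactors j * I (vN X (.inl (u', τ')) j) +
        ∑ j, V'.g p m u'.B.primeFactors j * I (vN X (.inl (u, τ)) j))
    {p : ℕ} {b b' : Me × List (DT X.c.Lam (LbX X))} {W W' : Finset ℕ} (hp : p ≠ 0)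
    (h : InvM X Q C p b) (h' : InvM X Q C p b') (hm : b'.1 = b.1) (hW : Wr X p b W)
    (hW' : Wr X p b' W') :
    fK K p b b' ≤ ∑ j, V.g p b.1 W j * I (jv (bN p b'.2) j) +
      ∑ j, V'.g p b.1 W' j * I (jv (bN p b.2) j) := by
  have n1 : 0 ≤ ∑ j, V.g p b.1 W j * I (jv (bN p b'.2) j) := Finset.sum_nonneg fun j _ =>
    mul_nonneg (V.g0 _ _ _ _) (I_nonneg fun x => (E3Y479.pbN h' hp j).nonneg x)
  have n2 : 0 ≤ ∑ j, V'.g p b.1 W' j * I (jv (bN p b.2) j) := Finset.sum_nonneg fun j _ =>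
    mul_nonneg (V'.g0 _ _ _ _) (I_nonneg fun x => (E3Y479.pbN h hp j).nonneg x)
  have zero : (∀ j x, jv (bN p b.2) j x = 0) ∨ (∀ j x, jv (bN p b'.2) j x = 0) →
      fK K p b b' ≤ ∑ j, V.g p b.1 W j * I (jv (bN p b'.2) j) +
      ∑ j, V'.g p b.1 W' j * I (jv (bN p b.2) j) := by
    intro h0
    have e : fK K p b b' = 0 := by
      unfold fK
      refine Finset.sum_eq_zero fun i _ => Finset.sum_eq_zero fun i' _ => ?_
      rw [I_z, mul_zero]
      intro x
      rcases h0 with h0 | h0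
      · rw [h0, zero_mul]
      · rw [h0, mul_zero]
    rw [e]
    exact add_nonneg n1 n2
  by_cases c1 : ∃ j x, jv (bN p b.2) j x ≠ 0
  swap
  · push Not at c1
    exact zero (Or.inl c1)
  by_cases c2 : ∃ j x, jv (bN p b'.2) j x ≠ 0
  swap
  · push Not at c2
    exact zero (Or.inr c2)
  obtain ⟨j, x, hj⟩ := c1
  obtain ⟨j', x', hj'⟩ := c2
  rcases rest_one hQ h hp with h0 | ⟨u, τ, hu, k1, k2, k3⟩
  · exact absurd (h0 j x) hj
  rcases rest_one hQ h' hp with h0 | ⟨u', τ', hu', k1', k2', k3'⟩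
  · exact absurd (h0 j' x') hj'
  have e1 : jv (bN p b.2) = vN X (.inl (u, τ)) := funext fun j => funext fun x => k3 j x
  have e2 : jv (bN p b'.2) = vN X (.inl (u', τ')) := funext fun j => funext fun x => k3' j x
  have w1 : u.B.primeFactors = W := by
    rw [← hW j x hj]
    refine pf_pm hQ hu ?_
    have hn := hQ _ _ hu.1.rm.all.self
    rw [k3 j x, ← val_v hn j] at hj
    exact (ctx_supp hn hj).1
  have w2 : u'.B.primeFactors = W' := by
    rw [← hW' j' x' hj']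
    refine pf_pm hQ hu' ?_
    have hn := hQ _ _ hu'.1.rm.all.self
    rw [k3' j' x', ← val_v hn j'] at hj'
    exact (ctx_supp hn hj').1
  rw [hm] at hu'
  have h3 := hin hp hu hu' k1 k1' k2 k2'
  unfold fK
  rw [e1, e2, ← w1, ← w2]
  exact h3

end root

end Crest.Agent.R4P.EnX45
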