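import Crest.Agent.R4P.FineW_33

/-!
R4 (S0004) with powers, helper33: **two comparable pieces of one type at a tie, permissive game labels**
(any system `G : ℕ → GLb` whose own labels are the permissive ones `lab0P e`, with ANY sleeping criterion;
game labels `StG32.grG`), N pieces, P pieces and pulls.

* `gU`, `gD`  : game label above / below the tie `p` (memory `m`);
* `ki_tie`    : the three cases (`EvA33.Ki`), `st_tie` : a piece which stays with a sparse label;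
* `Pc.relW`   : one index above: one exact centre;
* **`tie_pairG`** : one index above, the mate has the smaller rank ==> one index below, or `EN` (new own label
  in its zone), or the payer loses its label (`EA`) with a mate which keeps it, or both lose it;
* `tie_pairP` : the system `GlP32.gC e`, `EA` = accuracy death near the threshold.
-/

set_option autoImplicit false
set_option linter.unusedSectionVars false
set_option linter.unusedVariables false
open MeasureTheory Filter Set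

namespace Crest.Agent.R4P.EvV33

open Crest.Agent.R4P.Cnt588 Crest.Agent.R4P.Item758 Crest.Agent.R4P.W363
open Crest.Agent.R4P.Data758
open Crest.Agent.R4P.Bld532 (NS All NodeOk Bk)
open Crest.Agent.R4P.WalkIT579 (tp isL toDT_top toDT_leaf)
open Crest.Agent.R4P.StratN36 (ex)
open Crest.Agent.R4P.Step588 Crest.Agent.R4P.RseSt23
open Crest.Agent.R4P.DTp26 Crest.Agent.R4P.DTm407
open Crest.Agent.R4P.TYI47 Crest.Agent.R4P.TYJ47 Crest.Agent.R4P.TYK47
open Crest.Agent.R4P.TYP9 Crest.Agent.R4P.RsT47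
open Crest.Agent.R4P.Walk560 (DT WrN)
open Crest.Agent.R4P.Skel189 Crest.Agent.R4P.Frame758
open Crest.Agent.R4.Soft104 Crest.Agent.R4.Fam464
open Crest.Agent.R4P.StratX36 Crest.Agent.R4P.TopX36
open Crest.Agent.R4P.TrR343
open Crest.Agent.R4P.StM6 (dense)
open Crest.Agent.R4P.StM246 Crest.Agent.R4P.StE6
open Crest.Agent.R4P.PosP33 Crest.Agent.R4P.StG32 Crest.Agent.R4P.GlP32 Crest.Agent.R4P.FineW33
open Crest.Agent.R4P.StB21 (TH)
open Crest.Agent.R4P.WPex189 (LbW Fine)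
open Crest.Agent.R4.HVW560 (cof)
open Crest.Agent.R4P.EvA33 Crest.Agent.R4P.EvU33 Crest.Agent.R4P.EvP33

section ctx
variable {N : Skel189.Num} {γ : ℝ} {p0 P₀ : ℕ} {X : Ctx N γ p0 P₀} {e : UV} {G : ℕ → GLb}
  {p : ℕ} {j i : X.c.Lam} {x : ℝ} {m : Me} {A A' B B' : ℕ} {a a' : ℤ} {z z' : ℝ} {Z : ℝ}

/-- **game label above the tie** -/
noncomputable abbrev gU (X : Ctx N γ p0 P₀) (G : ℕ → GLb) (p : ℕ) (m : Me) (q : ℕ) : Option ℚ :=
  grG X.c G p (pm X.c.t p m q) q

/-- **game label below the tie** -/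
noncomputable abbrev gD (X : Ctx N γ p0 P₀) (G : ℕ → GLb) (p : ℕ) (m : Me) (q : ℕ) : Option ℚ :=
  grG X.c G p (pm X.c.t p (tuM p m) q) q

/-- own permissive label at the stage below the tie -/
noncomputable abbrev ownD (X : Ctx N γ p0 P₀) (e : UV) (p : ℕ) (m : Me) (q : ℕ) : Option ℚ :=
  LabD33.lab0P e X.c.γ (X.c.r q) (LL X p m q).prod

lemma LL_N {q : ℕ} (h : ex p q = TYJ47.cnt p m.1) : LL X p m q = p :: ms X.c p q := by
  unfold LL; rw [if_pos h]

lemma LL_P {q : ℕ} (h : ex p q ≠ TYJ47.cnt p m.1) : LL X p m q = ms X.c p q := by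
  unfold LL; rw [if_neg h]

lemma gU_eq (hT : TH X) (ht : TieP X p m j x) : gU X G p m j.1.1 = ghiG X.c G p j.1.1 := by
  show grG X.c G p (pm X.c.t p m j.1.1) j.1.1 = _
  rw [ht.hi]
  exact grG_hi (hT.lam _)

lemma gD_N (ht : TieP X p m j x) (h : pm X.c.t p (tuM p m) j.1.1 = (X.c.t.mt j.1.1).filter (p ≤ ·)) :
    gD X G p m j.1.1 = glowG X.c G p j.1.1 := by
  show grG X.c G p (pm X.c.t p (tuM p m) j.1.1) j.1.1 = _
  rw [h]
  exact grG_lo ht.pr

/-- **the three cases of a piece of a tie** -/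
theorem ki_tie (hT : TH X) (hR : All (Step588.RdOk X) ⟨Skel189.top X.S, 1, 1, 1⟩ X.c.t)
    (hG : (G j.1.1).OK X.c.γ (X.c.r j.1.1))
    (how : (G j.1.1).ow = LabD33.lab0P e X.c.γ (X.c.r j.1.1))
    (ht : TieP X p m j x) (hal : j.1.1 ∈ X.S') :
    Ki (gU X G p m j.1.1) (gD X G p m j.1.1) (ownD X e p m j.1.1) := by
  rcases ht.side with ⟨h1, h2⟩ | ⟨h1, h2, h3⟩
  · refine Ki.stay ?_
    show grG X.c G p (pm X.c.t p (tuM p m) j.1.1) j.1.1 = _
    rw [h1]
  · rw [gU_eq hT ht, gD_N ht h1]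
    have k := ctx_glowG_kind hT hR (G := G) hG hal h2
    have e1 : ownD X e p m j.1.1 = (G j.1.1).ow (p * (ms X.c p j.1.1).prod) := by
      show LabD33.lab0P e X.c.γ (X.c.r j.1.1) (LL X p m j.1.1).prod = _
      rw [LL_N h3, List.prod_cons, how]
    rw [e1]
    cases k with
    | stay h _ => exact Ki.stay h
    | kept κ h h' _ _ => exact Ki.stay (by rw [h, h'])
    | new ρ h h' h'' => exact Ki.new ρ h' h h''
    | dead κ h h' h'' _ _ => exact Ki.dead κ h h' h''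

/-- **a piece which stays with a sparse label**: its label is the sparse label below -/
theorem st_tie (hT : TH X) (hR : All (Step588.RdOk X) ⟨Skel189.top X.S, 1, 1, 1⟩ X.c.t)
    (hG : (G j.1.1).OK X.c.γ (X.c.r j.1.1)) (ht : TieP X p m j x) (hal : j.1.1 ∈ X.S')
    (hs : ∀ κ, gU X G p m j.1.1 = some κ → ¬ dense (X.c.wp.thr p) (LL X p m j.1.1).prod κ)
    (heq : gD X G p m j.1.1 = gU X G p m j.1.1) :
    (G j.1.1).sla (LL X p m j.1.1) = gU X G p m j.1.1 := by
  rcases ht.side with ⟨h1, h2⟩ | ⟨h1, h2, h3⟩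
  · rw [LL_P h2] at hs ⊢
    rw [gU_eq hT ht] at hs ⊢
    unfold ghiG at hs ⊢
    rcases GLb.gl_cases (G j.1.1) (X.c.st p j.1.1) (X.c.wp.thr p) (ms X.c p j.1.1) with
      ⟨κ, k1, k2, k3⟩ | ⟨-, k3⟩
    · exact absurd k2 (hs κ k3)
    · rw [k3]
  · rw [LL_N h3] at hs ⊢
    rw [gD_N ht h1, gU_eq hT ht] at heq
    rw [gU_eq hT ht] at hs ⊢
    have k := ctx_glowG_kind hT hR (G := G) hG hal h2
    cases k with
    | stay _ h => exact h
    | kept κ h _ _ h' => exact absurd (by rw [List.prod_cons]; exact h') (hs κ h)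
    | new ρ h h' _ => exact absurd (heq.symm.trans h') h
    | dead κ h h' _ _ _ =>
      rw [h, h'] at heq
      exact absurd heq (by simp)

/-- positive missing ties -/
lemma Ls_pos (ht : TieP X p m j x) : ∀ s ∈ Ls (pm X.c.t p m j.1.1), 0 < s := by
  intro s hs
  rw [ht.hi] at hs
  have h1 : s ∈ (X.c.t.mt j.1.1).filter (p < ·) := by
    unfold Ls at hs
    exact (Finset.mem_sort _).1 hs
  exact (BldF542.mt_lt X.c.t _ X.tOk j.1.1 s (Finset.mem_filter.1 h1).1).1.pos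

lemma lw_of (how : (G j.1.1).ow = LabD33.lab0P e X.c.γ (X.c.r j.1.1)) :
    LW (G j.1.1) X.c.γ (X.c.r j.1.1) := fun b τ hb h => by
  rw [how] at h
  exact lbW_of_ownP hb h

lemma lbW_gU (how : (G j.1.1).ow = LabD33.lab0P e X.c.γ (X.c.r j.1.1)) (ht : TieP X p m j x)
    {σ : ℚ} (h : gU X G p m j.1.1 = some σ) : LbW X.c.γ (X.c.r j.1.1) σ :=
  lbW_grG (F := G) (lw_of how) (Ls_pos ht) h

/-- **one index: one exact centre on the new circle** -/
theorem relW (h : Pc X p m x j A B a z) (h' : Pc X p m x i A' B' a' z') {σ σ' : ℚ}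
    (hσ : LbW X.c.γ (X.c.r j.1.1) σ) (hσ' : LbW X.c.γ (X.c.r i.1.1) σ') {p₁ p₂ : ℕ}
    (hix : X.c.wp.ix X.c.γ p₁ j.1.1 (some σ) z = X.c.wp.ix X.c.γ p₂ i.1.1 (some σ') z') :
    RR X j i A A' B B' a a' σ σ' :=
  exact_twoW X.fine (Cf.mem_S j) (Cf.mem_S i) (X.sys.pos _ (X.mem_S j))
    (X.sys.pos _ (X.mem_S i)) hσ hσ' h.A0 h.B0 h'.A0 h.w0 h'.w0 h.dv.symm h'.dv.symm
    (h.eT.trans h'.eT.symm) (h.BK.trans (Nat.le_mul_of_pos_right _ h'.A0)) h.hz h'.hz h.zr h'.zr hix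

/-- **the pair lemma of a tie**, labels of small height -/
theorem pairW (h : Pc X p m x j A B a z) (h' : Pc X p m x i A' B' a' z')
    {zo nr ai : ℚ → Prop} {g g' gi gi' o oi si : Option ℚ}
    (hM : Mt (RR X j i A A' B B' a a') zo nr ai o oi si)
    (kj : Ki g g' o) (ki : Ki gi gi' oi)
    (lj : ∀ σ, g = some σ → LbW X.c.γ (X.c.r j.1.1) σ)
    (li : ∀ σ, gi = some σ → LbW X.c.γ (X.c.r i.1.1) σ)
    {p₁ : ℕ} (hix : X.c.wp.ix X.c.γ p₁ j.1.1 g z = X.c.wp.ix X.c.γ p₁ i.1.1 gi z')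
    (hst : gi' = gi → si = gi) (hrk : rk gi gi' ≤ rk g g') :
    X.c.wp.ix X.c.γ p₁ j.1.1 g' z = X.c.wp.ix X.c.γ p₁ i.1.1 gi' z' ∨
      EN zo g g' o ∨ EA nr g g' o ∨
      (g' = none ∧ gi' = none ∧ g ≠ none ∧ gi ≠ none) := by
  by_cases hgg : g' = g
  · have e2 : gi' = gi := by
      by_contra hc
      have := rk_pos hc
      rw [rk_stay hgg] at hrk
      omega
    left
    rw [hgg, e2]
    exact hix
  have hso := WP.isSome_eq X.c.wp hix
  have h0 : SR (RR X j i A A' B B' a a') g gi := by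
    rcases g with _ | σ
    · rcases gi with _ | σ'
      · exact Or.inl ⟨rfl, rfl⟩
      · exact absurd hso (by simp)
    · rcases gi with _ | σ'
      · exact absurd hso (by simp)
      · exact Or.inr ⟨σ, σ', rfl, rfl, relW h h' (lj σ rfl) (li σ' rfl) hix⟩
  rcases mates hM h0 kj ki hst hrk with h1 | h1 | h1
  · rcases h1 with ⟨h2, h3⟩ | ⟨μ, μ', h2, h3, h4⟩
    · right; right; right
      have hg : g ≠ none := fun e => hgg (by rw [h2, e])
      refine ⟨h2, h3, hg, fun e => ?_⟩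
      rw [e] at hso
      rcases g with _ | σ
      · exact hg rfl
      · exact absurd hso (by simp)
    · left
      rw [h2, h3]
      exact h.ix h' h4
  · exact Or.inr (Or.inl h1)
  · exact Or.inr (Or.inr (Or.inl h1))

/-- **event: new own label in its threshold zone** (permissive labels, width `Z`) -/
def ENq (X : Ctx N γ p0 P₀) (G : ℕ → GLb) (e : UV) (Z : ℝ) (p : ℕ) (m : Me) (q : ℕ) : Prop :=
  EN (ZlP e Z X.c.γ (X.c.r q) (LL X p m q).prod) (gU X G p m q) (gD X G p m q) (ownD X e p m q)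

/-- **event: the label is lost** (no own label), with a predicate `nr` on the label -/
def EAq (X : Ctx N γ p0 P₀) (G : ℕ → GLb) (e : UV) (nr : ℚ → Prop) (p : ℕ) (m : Me) (q : ℕ) : Prop :=
  EA nr (gU X G p m q) (gD X G p m q) (ownD X e p m q)

/-- **two comparable pieces of a tie with one index above**, any sleeping criterion; `nr` : what is known
of a label of the payer whose mate keeps the criterion below (`True` is always possible) -/
theorem tie_pairG (hT : TH X) (hR : All (Step588.RdOk X) ⟨Skel189.top X.S, 1, 1, 1⟩ X.c.t)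
    (hGj : (G j.1.1).OK X.c.γ (X.c.r j.1.1)) (hGi : (G i.1.1).OK X.c.γ (X.c.r i.1.1))
    (howj : (G j.1.1).ow = LabD33.lab0P e X.c.γ (X.c.r j.1.1))
    (howi : (G i.1.1).ow = LabD33.lab0P e X.c.γ (X.c.r i.1.1))
    (h : Pc X p m x j A B a z) (h' : Pc X p m x i A' B' a' z')
    (ht : TieP X p m j x) (ht' : TieP X p m i x)
    (hC : Cq X Z A A' B B' j i) (hsm : SmP Z (B * X.c.r j.1.1)) {nr : ℚ → Prop}
    (hnr : ∀ κ κ', RR X j i A A' B B' a a' κ κ' → (G i.1.1).ac B' κ' → nr κ)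
    (hix : ixp X.c p (gU X G p m j.1.1) (pm X.c.t p m j.1.1) m.2 x j =
      ixp X.c p (gU X G p m i.1.1) (pm X.c.t p m i.1.1) m.2 x i)
    (hs : ∀ κ, gU X G p m i.1.1 = some κ → ¬ dense (X.c.wp.thr p) (LL X p m i.1.1).prod κ)
    (hrk : rk (gU X G p m i.1.1) (gD X G p m i.1.1) ≤ rk (gU X G p m j.1.1) (gD X G p m j.1.1)) :
    ixp X.c p (gD X G p m j.1.1) (pm X.c.t p (tuM p m) j.1.1) (m.2 * p) (p * x) j =
        ixp X.c p (gD X G p m i.1.1) (pm X.c.t p (tuM p m) i.1.1) (m.2 * p) (p * x) i ∨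
      ENq X G e Z p m j.1.1 ∨ EAq X G e nr p m j.1.1 ∨
      (gD X G p m j.1.1 = none ∧ gD X G p m i.1.1 = none ∧ gU X G p m j.1.1 ≠ none ∧
        gU X G p m i.1.1 ≠ none) := by
  rw [h.ixu, h'.ixu] at hix
  rw [h.ixl, h'.ixl]
  have hG := h.geo h' hC
  have hL' : 0 < (LL X p m i.1.1).prod := by rw [← h'.eB]; exact h'.B0
  have hM : Mt (RR X j i A A' B B' a a') (ZlP e Z X.c.γ (X.c.r j.1.1) (LL X p m j.1.1).prod) nr
      ((G i.1.1).ac B') (ownD X e p m j.1.1) (ownD X e p m i.1.1)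
      ((G i.1.1).sla (LL X p m i.1.1)) := by
    have h0 := mtP (e := e) hG hsm (L' := LL X p m i.1.1) h'.eB.symm
    rw [← h.eB]
    have ej : ownD X e p m j.1.1 = LabD33.lab0P e X.c.γ (X.c.r j.1.1) B := by
      show LabD33.lab0P e X.c.γ (X.c.r j.1.1) (LL X p m j.1.1).prod = _
      rw [← h.eB]
    have ei : ownD X e p m i.1.1 = LabD33.lab0P e X.c.γ (X.c.r i.1.1) B' := by
      show LabD33.lab0P e X.c.γ (X.c.r i.1.1) (LL X p m i.1.1).prod = _
      rw [← h'.eB]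
    rw [ej, ei]
    refine ⟨h0.inj, h0.rel, h0.mate, fun hr ha => hnr _ _ hr ha, fun {μ} ho => ?_, fun {μ} hsl => ?_⟩
    · refine GLb.sla_of_ow hGi hL' ?_
      rw [howi, ← h'.eB]
      exact ho
    · have := (GLb.sla_some.1 hsl).2
      rwa [← h'.eB] at this
  exact pairW h h' hM (ki_tie hT hR hGj howj ht h.al) (ki_tie hT hR hGi howi ht' h'.al)
    (fun σ hσ => lbW_gU howj ht hσ) (fun σ hσ => lbW_gU howi ht' hσ) hix
    (fun e1 => st_tie hT hR hGi ht' h'.al hs e1) hrk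

/-- **two comparable pieces of a tie with one index above**, the system `gC e` -/
theorem tie_pairP (hT : TH X) (hR : All (Step588.RdOk X) ⟨Skel189.top X.S, 1, 1, 1⟩ X.c.t)
    (h : Pc X p m x j A B a z) (h' : Pc X p m x i A' B' a' z')
    (ht : TieP X p m j x) (ht' : TieP X p m i x)
    (hC : Cq X Z A A' B B' j i) (hsm : SmP Z (B * X.c.r j.1.1))
    (hix : ixp X.c p (gU X (gC e X.c) p m j.1.1) (pm X.c.t p m j.1.1) m.2 x j =
      ixp X.c p (gU X (gC e X.c) p m i.1.1) (pm X.c.t p m i.1.1) m.2 x i)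
    (hs : ∀ κ, gU X (gC e X.c) p m i.1.1 = some κ →
      ¬ dense (X.c.wp.thr p) (LL X p m i.1.1).prod κ)
    (hrk : rk (gU X (gC e X.c) p m i.1.1) (gD X (gC e X.c) p m i.1.1) ≤
      rk (gU X (gC e X.c) p m j.1.1) (gD X (gC e X.c) p m j.1.1)) :
    ixp X.c p (gD X (gC e X.c) p m j.1.1) (pm X.c.t p (tuM p m) j.1.1) (m.2 * p) (p * x) j =
        ixp X.c p (gD X (gC e X.c) p m i.1.1) (pm X.c.t p (tuM p m) i.1.1) (m.2 * p) (p * x) i ∨
      ENq X (gC e X.c) e Z p m j.1.1 ∨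
      EAq X (gC e X.c) e (NrP e Z X.c.γ (X.c.r j.1.1) B) p m j.1.1 ∨
      (gD X (gC e X.c) p m j.1.1 = none ∧ gD X (gC e X.c) p m i.1.1 = none ∧
        gU X (gC e X.c) p m j.1.1 ≠ none ∧ gU X (gC e X.c) p m i.1.1 ≠ none) :=
  tie_pairG hT hR (gC_OK e X.c j.1.1) (gC_OK e X.c i.1.1) rfl rfl h h' ht ht' hC hsm
    (fun κ κ' hr ha => dead_mateP (h.geo h' hC) hsm hr ha) hix hs hrk

end ctx

end Crest.Agent.R4P.EvV33
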