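import Crest.Agent.R4P.EvJ_47
import Crest.Agent.R4P.EvV_33

/-!
R4 (S0004) with powers, helper47 (leaf (f)): **the events of `EvV_33` are the counted events `EvJ47.EIm`**.

`G` = game labels with the own labels `lab0P e` and any weaker criterion (`Wk`), `Zi N (Rad ..)` = width.

* `EIm_of_ENq` (any `Wk`), `EIm_of_EAq` (`G = gC e`); `not_EAq_gS`, `not_none_gS` : sticky labels never die;
* **`tie_pairI`** (`gC e`): one index above, the mate has the smaller rank ==> one index below, or a counted event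
  of the payer, or both lose their label;
* **`tie_pairS`** (`gS e`, sticky for ever): one index above ==> one index below or a counted event.
-/

set_option autoImplicit false
set_option linter.unusedSectionVars false
set_option linter.unusedVariables false
open MeasureTheory Filter Set

namespace Crest.Agent.R4P.EvK47

open Crest.Agent.R4P.Cnt588 Crest.Agent.R4P.Item758 Crest.Agent.R4P.W363
open Crest.Agent.R4P.Data758
open Crest.Agent.R4P.Bld532 (NS All NodeOk Bk)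
open Crest.Agent.R4P.WalkIT579 (tp isL toDT_top toDT_leaf)
open Crest.Agent.R4P.StratN36 (ex)
open Crest.Agent.R4P.Step588 Crest.Agent.R4P.RseSt23
open Crest.Agent.R4P.DTp26 Crest.Agent.R4P.DTm407
open Crest.Agent.R4P.TYI47 Crest.Agent.R4P.TYJ47 Crest.Agent.R4P.TYK47
open Crest.Agent.R4P.TYP9 Crest.Agent.R4P.RsT47
open Crest.Agent.R4P.Walk560 (DT WrN)
open Crest.Agent.R4P.Skel189 Crest.Agent.R4P.Frame758
open Crest.Agent.R4.Soft104 Crest.Agent.R4.Fam464
open Crest.Agent.R4P.StratX36 Crest.Agent.R4P.TopX36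
open Crest.Agent.R4P.TrR343
open Crest.Agent.R4P.StM6 (dense)
open Crest.Agent.R4P.StM246 Crest.Agent.R4P.StE6
open Crest.Agent.R4P.PosP33 Crest.Agent.R4P.StG32 Crest.Agent.R4P.GlP32 Crest.Agent.R4P.FineW33
open Crest.Agent.R4P.StB21 (TH)
open Crest.Agent.R4P.WPex189 (LbW Fine)
open Crest.Agent.R4.HVW560 (cof)
open Crest.Agent.R4P.EvA33 Crest.Agent.R4P.EvU33 Crest.Agent.R4P.EvP33 Crest.Agent.R4P.EvV33
open Crest.Agent.R4P.Bir30.BF (Rad)
open Crest.Agent.R4P.BirP47 Crest.Agent.R4P.AvI32 Crest.Agent.R4P.AvG32 Crest.Agent.R4P.EvJ47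
open Crest.Agent.R4.W363 (lst)

section ctx
variable {N : Skel189.Num} {γ : ℝ} {p0 P₀ : ℕ} {X : Ctx N γ p0 P₀} {e : UV} {G : ℕ → GLb}
  {p : ℕ} {j i : X.c.Lam} {x : ℝ} {m : Me} {A A' B B' : ℕ} {a a' : ℤ} {z z' : ℝ} {Z : ℝ}

/-- **zone event** of a piece of a tie: counted -/
theorem EIm_of_ENq (hT : TH X) (hR : All (Step588.RdOk X) ⟨Skel189.top X.S, 1, 1, 1⟩ X.c.t)
    (hW : Wk e X.c j.1.1 (G j.1.1)) (ht : TieP X p m j x) (hal : j.1.1 ∈ X.S')
    (h : ENq X G e (Zi N (Rad X.c j.1.1 p)) p m j.1.1) : EIm N p0 e X.c j.1.1 p := by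
  rcases ht.side with ⟨h1, h2⟩ | ⟨h1, h2, h3⟩
  · obtain ⟨μ, k1, k2, -, -⟩ := h
    refine absurd ?_ k2
    rw [← k1]
    show grG X.c G p (pm X.c.t p m j.1.1) j.1.1 = grG X.c G p (pm X.c.t p (tuM p m) j.1.1) j.1.1
    rw [h1]
  · refine EIm_of_EN hW X.tOk (hT.lam _) h2 (ctx_thin hT hR hal h2) ?_
    unfold ENq at h
    rw [gU_eq hT ht, gD_N ht h1] at h
    have e1 : LL X p m j.1.1 = p :: ms X.c p j.1.1 := LL_N h3
    unfold ownD at h
    rw [e1] at h
    exact h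

/-- **accuracy event** of a piece of a tie, permissive criterion: counted -/
theorem EIm_of_EAq (hT : TH X) (hR : All (Step588.RdOk X) ⟨Skel189.top X.S, 1, 1, 1⟩ X.c.t)
    (hG : G j.1.1 = gC e X.c j.1.1) (ht : TieP X p m j x) (hal : j.1.1 ∈ X.S')
    (h : EAq X G e (NrP e (Zi N (Rad X.c j.1.1 p)) X.c.γ (X.c.r j.1.1) (LL X p m j.1.1).prod)
      p m j.1.1) : EIm N p0 e X.c j.1.1 p := by
  rcases ht.side with ⟨h1, h2⟩ | ⟨h1, h2, h3⟩
  · obtain ⟨κ, k1, k2, -, -⟩ := h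
    exfalso
    have : gU X G p m j.1.1 = gD X G p m j.1.1 := by
      show grG X.c G p (pm X.c.t p m j.1.1) j.1.1 = grG X.c G p (pm X.c.t p (tuM p m) j.1.1) j.1.1
      rw [h1]
    rw [k1, k2] at this
    exact absurd this (by simp)
  · refine EIm_of_EA hG X.tOk (hT.lam _) h2 (ctx_thin hT hR hal h2) ?_
    unfold EAq at h
    rw [gU_eq hT ht, gD_N ht h1] at h
    have e1 : LL X p m j.1.1 = p :: ms X.c p j.1.1 := LL_N h3
    unfold ownD at h
    rw [e1] at h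
    exact h

/-- **sticky labels do not die at a tie** -/
theorem alive_gS (hT : TH X) (hR : All (Step588.RdOk X) ⟨Skel189.top X.S, 1, 1, 1⟩ X.c.t)
    (hG : G j.1.1 = gS e X.c j.1.1) (ht : TieP X p m j x) (hal : j.1.1 ∈ X.S')
    (h : gU X G p m j.1.1 ≠ none) : gD X G p m j.1.1 ≠ none := by
  rcases ht.side with ⟨h1, h2⟩ | ⟨h1, h2, h3⟩
  · have : gU X G p m j.1.1 = gD X G p m j.1.1 := by
      show grG X.c G p (pm X.c.t p m j.1.1) j.1.1 = grG X.c G p (pm X.c.t p (tuM p m) j.1.1) j.1.1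
      rw [h1]
    rwa [← this]
  · have hok : (G j.1.1).OK X.c.γ (X.c.r j.1.1) := by rw [hG]; exact (Wk.gS e X.c j.1.1).ok
    rw [gU_eq hT ht] at h
    rw [gD_N ht h1]
    have k := ctx_glowG_kind hT hR (G := G) hok hal h2
    rcases k with ⟨k1, -⟩ | ⟨κ, k0, k1, -, -⟩ | ⟨ρ, -, k1, -⟩ | ⟨κ, -, -, -, -, k2⟩
    · rwa [k1]
    · rw [k1]; simp
    · rw [k1]; simp
    · rw [hG] at k2
      exact absurd trivial k2

/-- sticky labels have no accuracy events -/
theorem not_EAq_gS (hT : TH X) (hR : All (Step588.RdOk X) ⟨Skel189.top X.S, 1, 1, 1⟩ X.c.t)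
    (hG : G j.1.1 = gS e X.c j.1.1) (ht : TieP X p m j x) (hal : j.1.1 ∈ X.S') {nr : ℚ → Prop} :
    ¬ EAq X G e nr p m j.1.1 := by
  rintro ⟨κ, k1, k2, -, -⟩
  exact alive_gS hT hR hG ht hal (by rw [k1]; simp) k2

/-- **the pair lemma of a tie, permissive criterion, with counted events** -/
theorem tie_pairI (hT : TH X) (hR : All (Step588.RdOk X) ⟨Skel189.top X.S, 1, 1, 1⟩ X.c.t)
    (h : Pc X p m x j A B a z) (h' : Pc X p m x i A' B' a' z')
    (ht : TieP X p m j x) (ht' : TieP X p m i x)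
    (hC : Cq X (Zi N (Rad X.c j.1.1 p)) A A' B B' j i)
    (hsm : SmP (Zi N (Rad X.c j.1.1 p)) (B * X.c.r j.1.1))
    (hix : ixp X.c p (gU X (gC e X.c) p m j.1.1) (pm X.c.t p m j.1.1) m.2 x j =
      ixp X.c p (gU X (gC e X.c) p m i.1.1) (pm X.c.t p m i.1.1) m.2 x i)
    (hs : ∀ κ, gU X (gC e X.c) p m i.1.1 = some κ →
      ¬ dense (X.c.wp.thr p) (LL X p m i.1.1).prod κ)
    (hrk : rk (gU X (gC e X.c) p m i.1.1) (gD X (gC e X.c) p m i.1.1) ≤
      rk (gU X (gC e X.c) p m j.1.1) (gD X (gC e X.c) p m j.1.1)) :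
    ixp X.c p (gD X (gC e X.c) p m j.1.1) (pm X.c.t p (tuM p m) j.1.1) (m.2 * p) (p * x) j =
        ixp X.c p (gD X (gC e X.c) p m i.1.1) (pm X.c.t p (tuM p m) i.1.1) (m.2 * p) (p * x) i ∨
      EIm N p0 e X.c j.1.1 p ∨
      (gD X (gC e X.c) p m j.1.1 = none ∧ gD X (gC e X.c) p m i.1.1 = none ∧
        gU X (gC e X.c) p m j.1.1 ≠ none ∧ gU X (gC e X.c) p m i.1.1 ≠ none) := by
  rcases tie_pairP hT hR h h' ht ht' hC hsm hix hs hrk with k | k | k | k
  · exact Or.inl k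
  · exact Or.inr (Or.inl (EIm_of_ENq hT hR (Wk.gC e X.c _) ht h.al k))
  · refine Or.inr (Or.inl (EIm_of_EAq (G := gC e X.c) hT hR rfl ht h.al ?_))
    rw [← h.eB]
    exact k
  · exact Or.inr (Or.inr k)

/-- **the pair lemma of a tie, sticky labels**: one index below or a counted event -/
theorem tie_pairS (hT : TH X) (hR : All (Step588.RdOk X) ⟨Skel189.top X.S, 1, 1, 1⟩ X.c.t)
    (h : Pc X p m x j A B a z) (h' : Pc X p m x i A' B' a' z')
    (ht : TieP X p m j x) (ht' : TieP X p m i x)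
    (hC : Cq X (Zi N (Rad X.c j.1.1 p)) A A' B B' j i)
    (hsm : SmP (Zi N (Rad X.c j.1.1 p)) (B * X.c.r j.1.1))
    (hix : ixp X.c p (gU X (gS e X.c) p m j.1.1) (pm X.c.t p m j.1.1) m.2 x j =
      ixp X.c p (gU X (gS e X.c) p m i.1.1) (pm X.c.t p m i.1.1) m.2 x i)
    (hs : ∀ κ, gU X (gS e X.c) p m i.1.1 = some κ →
      ¬ dense (X.c.wp.thr p) (LL X p m i.1.1).prod κ)
    (hrk : rk (gU X (gS e X.c) p m i.1.1) (gD X (gS e X.c) p m i.1.1) ≤
      rk (gU X (gS e X.c) p m j.1.1) (gD X (gS e X.c) p m j.1.1)) :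
    ixp X.c p (gD X (gS e X.c) p m j.1.1) (pm X.c.t p (tuM p m) j.1.1) (m.2 * p) (p * x) j =
        ixp X.c p (gD X (gS e X.c) p m i.1.1) (pm X.c.t p (tuM p m) i.1.1) (m.2 * p) (p * x) i ∨
      EIm N p0 e X.c j.1.1 p := by
  have hj := Wk.gS e X.c j.1.1
  have hi := Wk.gS e X.c i.1.1
  rcases tie_pairG (G := gS e X.c) (nr := fun _ => True) hT hR hj.ok hi.ok (funext hj.ow)
    (funext hi.ow) h h' ht ht' hC hsm (fun _ _ _ _ => trivial) hix hs hrk with k | k | k | k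
  · exact Or.inl k
  · exact Or.inr (EIm_of_ENq hT hR hj ht h.al k)
  · exact absurd k (not_EAq_gS hT hR rfl ht h.al)
  · exact absurd k.1 (alive_gS hT hR rfl ht h.al k.2.2.1)

end ctx

end Crest.Agent.R4P.EvK47
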