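import Crest.Agent.R4P.StMc_46
import Crest.Agent.R4P.TYR_9
import Crest.Agent.R4P.EvC_47

/-!
R4 (S0004) with powers, helper47: **the kinds of the changes of the REAL state** (no game label, no sticky
label), for every rule whose label is the real state (with memory at the tie, or below the tie).

Pure level (`s` = a missing tie, `b` = product of the missing ties above, `R' = s b ψ`):
* `Al` : the conditions of a real label, `al_iff`; `acc_node`, `Al.off` : accuracy in node units;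
* `Dth` : death at `s` (denominator: `1 < k^5 R' ≤ s`, accurate; or accuracy: the window), `Brn` : birth at `s`
  (`den (b ρ) = s den (s b ρ)`, `1 < den (b ρ)^5 b ψ`, alive below), `Gap` : the inequalities of a change;
* **`StgK`** : the kinds of a change of the own label at the missing tie `s`: birth, death, change;
  **`stgK`** : exactly these occur.
Item level:
* `tie_real` : own missing tie `p`, from `c.st p q` to `low c p q` : a stage change at `p`, and it is thin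
  below, or a birth out of `none` in the fat stage (anticipated);
* `rest_real` : rest `p`, from `low c p q` to `c.st (p - 1) q` : a crossing `thr p < R ≤ thr (p - 1)` of a kept
  label, and it is the stage change of the LAST missing tie `s` (`≥ p`); `col_real` : the composite step;
* `rs_tie`, `rs_rest` : the same for the real state with memory `TYP9.rs`;
* `PsD` : the static column where a label becomes sparse, `PsD.unique`;
* births (`Bir30.BF`): `thin_birth_real` : a birth at a thin tie is super-tiny and of one rational of the item,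
  `cross_birth_fat` : a birth seen at a crossing or anticipated has radius `> (log s)^(-A)` or is super-tiny,
  dense.
Counting:
* `CrE` : crossing at the rest `p` of a stage whose missing tie has the property `E`; **`CrE_card`** : the
  number of these columns of an item is at most the number of its missing ties with `E`; `CrE_sum`,
  **`CrE_avg`** : the averaged credits `κ J`.
-/

set_option autoImplicit false
set_option linter.unusedSectionVars false
set_option linter.unusedVariables false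
open MeasureTheory Filter Set

namespace Crest.Agent.R4P.RuV47

open Crest.Agent.R4P.Cnt588 Crest.Agent.R4P.Item758 Crest.Agent.R4P.W363
open Crest.Agent.R4P.Data758 Crest.Agent.R4P.OmSt532 Crest.Agent.R4P.OmData532
open Crest.Agent.R4P.LfDat734 Crest.Agent.R4P.WPex189
open Crest.Agent.R4P.Bld532 (NS All NodeOk Bk)
open Crest.Agent.R4P.Step588 (NDt ND1 ctx_NDt uq_lt)
open Crest.Agent.R4P.Skel189 Crest.Agent.R4P.RseSt23 Crest.Agent.R4P.StB21
open Crest.Agent.R4P.Link758 (Bl)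
open Crest.Agent.R4.Soft104 (w)
open Crest.Agent.R4P.StM6 Crest.Agent.R4P.StM246
open Crest.Agent.R4P.Bir30 (BF BirL Aex)
open Crest.Agent.R4P.PruneAcc17 (Bab)
open Crest.Agent.R4P.Bir30.BF (Rad)

/-! ### one stage -/

section pure
variable {γ ψ t t' : ℝ} {b s : ℕ} {κ ρ τ : ℚ} {L M : List ℕ} {g g' : Option ℚ}

/-- accuracy in node units: `D = b |γ - κ|`, `R = b ψ` -/
lemma acc_node (hb : 0 < b) :
    acc γ ψ b κ ↔ ((b : ℝ) * |γ - κ|) ^ 5 ≤ ((b : ℝ) * ψ) ^ 4 := by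
  have h4 : (0 : ℝ) < (b : ℝ) ^ 4 := by positivity
  have e1 : ((b : ℝ) * |γ - κ|) ^ 5 = (b : ℝ) ^ 4 * (b * |γ - κ| ^ 5) := by ring
  have e2 : ((b : ℝ) * ψ) ^ 4 = (b : ℝ) ^ 4 * ψ ^ 4 := by ring
  unfold acc
  rw [e1, e2]
  exact (mul_le_mul_iff_right₀ h4).symm

/-- **the conditions of a real label** `κ` at the stage `b` -/
structure Al (γ ψ : ℝ) (b : ℕ) (κ : ℚ) : Prop where
  pos : 0 < ψ
  rad : (b : ℝ) * ψ ≤ 1 / 10
  den : d5 b κ * (b * ψ) ≤ 1
  acc : acc γ ψ b κ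

lemma al_iff (hb : 0 < b) : lab0 γ ψ b = some κ ↔ Al γ ψ b κ := by
  constructor
  · intro h
    obtain ⟨h1, h2, h3, h4⟩ := own_spec hb h
    exact ⟨h1, h2, h3, h4⟩
  · intro h
    exact own_of hb h.pos h.rad h.den h.acc

/-- a real label is unique -/
lemma Al.unique (hb : 0 < b) (h : Al γ ψ b κ) (h' : Al γ ψ b ρ) : κ = ρ :=
  Option.some.inj (((al_iff hb).2 h).symm.trans ((al_iff hb).2 h'))

lemma Al.R_pos (hb : 0 < b) (h : Al γ ψ b κ) : 0 < (b : ℝ) * ψ := by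
  have h1 := h.pos
  have h2 : (0 : ℝ) < b := by exact_mod_cast hb
  positivity

/-- accuracy in node units -/
lemma Al.off (hb : 0 < b) (h : Al γ ψ b κ) :
    ((b : ℝ) * |γ - κ|) ^ 5 ≤ ((b : ℝ) * ψ) ^ 4 := (acc_node hb).1 h.acc

/-- **death of the label `κ` at the missing tie `s`** (`b` above, `s b` below): by the denominator, or by
accuracy -/
def Dth (γ ψ : ℝ) (s b : ℕ) (κ : ℚ) : Prop :=
  d5 (s * b) κ * ((s * b : ℕ) * ψ) ≤ s ∧
    ((1 < d5 (s * b) κ * ((s * b : ℕ) * ψ) ∧ acc γ ψ (s * b) κ) ∨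
      (b * |γ - κ| ^ 5 ≤ ψ ^ 4 ∧ ψ ^ 4 < s * (b * |γ - κ| ^ 5) ∧ ¬ acc γ ψ (s * b) κ))

/-- **birth of the label `ρ` at the missing tie `s`** -/
structure Brn (γ ψ : ℝ) (s b : ℕ) (ρ : ℚ) : Prop where
  al : Al γ ψ (s * b) ρ
  den : ((b : ℚ) * ρ).den = s * (((s * b : ℕ) : ℚ) * ρ).den
  gt : 1 < d5 b ρ * (b * ψ)

/-- the inequalities of a change `κ → ρ` at the missing tie `s`: by the denominator, or by accuracy -/
def Gap (γ ψ : ℝ) (s b : ℕ) (κ ρ : ℚ) : Prop :=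
  (acc γ ψ (s * b) κ ∧ 1 < d5 (s * b) κ * ((s * b : ℕ) * ψ) ∧ d5 (s * b) ρ < d5 (s * b) κ ∧
      1 ≤ 32 * ((s * b : ℕ) * ψ) ^ 4 * (d5 (s * b) ρ * d5 (s * b) κ) ∧
      1 ≤ 32 * ((s * b : ℕ) * ψ) ^ 3 * d5 (s * b) κ) ∨
    (¬ acc γ ψ (s * b) κ ∧
      1 ≤ 32 * s * ((s * b : ℕ) * ψ) ^ 4 * (d5 (s * b) ρ * d5 (s * b) κ) ∧
      1 ≤ 32 * (s : ℝ) ^ 2 * ((s * b : ℕ) * ψ) ^ 2)

/-- **the kinds of a change of the own label at the missing tie `s`**: `g` = label of the stage `b`,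
`g'` = label of the stage `s b` -/
inductive StgK (γ ψ : ℝ) (s b : ℕ) (g g' : Option ℚ) : Prop
  | birth (ρ : ℚ) : g = none → g' = some ρ → Brn γ ψ s b ρ → StgK γ ψ s b g g'
  | death (κ : ℚ) : g = some κ → g' = none → Al γ ψ b κ → Dth γ ψ s b κ → StgK γ ψ s b g g'
  | change (κ ρ : ℚ) : g = some κ → g' = some ρ → κ ≠ ρ → Al γ ψ b κ → Dth γ ψ s b κ →
      Brn γ ψ s b ρ → Gap γ ψ s b κ ρ → StgK γ ψ s b g g'

/-- the radius grows by the factor `s` -/
lemma R_eq : ((s * b : ℕ) : ℝ) * ψ = s * (b * ψ) := by push_cast; ring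

/-- accuracy of a born label above the tie -/
lemma Brn.acc_up (hs : 0 < s) (h : Brn γ ψ s b ρ) : acc γ ψ b ρ := acc_anti hs h.al.acc

/-- `s` divides the denominator above, `s^5 k'^5 b ψ > 1`, `k'^5 s b ψ ≤ 1` : the radius below is in
`(s^-4 k'^-5, k'^-5]` -/
lemma Brn.win (h : Brn γ ψ s b ρ) :
    d5 b ρ = (s : ℝ) ^ 5 * d5 (s * b) ρ ∧ 1 < (s : ℝ) ^ 4 * (d5 (s * b) ρ * ((s * b : ℕ) * ψ)) ∧
      d5 (s * b) ρ * ((s * b : ℕ) * ψ) ≤ 1 := by
  have e : d5 b ρ = (s : ℝ) ^ 5 * d5 (s * b) ρ := by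
    unfold d5
    rw [h.den]
    push_cast
    ring
  refine ⟨e, ?_, h.al.den⟩
  have h1 := h.gt
  rw [e] at h1
  calc 1 < (s : ℝ) ^ 5 * d5 (s * b) ρ * (b * ψ) := h1
    _ = (s : ℝ) ^ 4 * (d5 (s * b) ρ * ((s * b : ℕ) * ψ)) := by rw [R_eq]; ring

/-- the label of the stage `b` which is not the label of the stage `s b` dies -/
theorem dth_of (hs : 0 < s) (hb : 0 < b) (h10 : ((s * b : ℕ) : ℝ) * ψ ≤ 1 / 10) (h : Al γ ψ b κ)
    (hne : lab0 γ ψ (s * b) ≠ some κ) : Dth γ ψ s b κ := by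
  have hle : d5 (s * b) κ * ((s * b : ℕ) * ψ) ≤ s := by
    have h2 := h.den
    have h3 : d5 (s * b) κ * (b * ψ) ≤ 1 :=
      (mul_le_mul_of_nonneg_right (d5_anti b s κ) (h.R_pos hb).le).trans h2
    calc d5 (s * b) κ * ((s * b : ℕ) * ψ) = s * (d5 (s * b) κ * (b * ψ)) := by rw [R_eq]; ring
      _ ≤ s * 1 := mul_le_mul_of_nonneg_left h3 (Nat.cast_nonneg s)
      _ = s := mul_one _
  refine ⟨hle, ?_⟩
  by_cases ha : acc γ ψ (s * b) κ
  · rcases not_own (Nat.mul_pos hs hb) h.pos h10 hne with h1 | h1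
    · exact Or.inl ⟨h1, ha⟩
    · exact absurd ha h1
  · exact Or.inr ⟨(StM142.acc_win h.acc ha).1, (StM142.acc_win h.acc ha).2, ha⟩

/-- the label of the stage `s b` which is not the label of the stage `b` is born -/
theorem brn_of (hs : s.Prime) (hb : 0 < b) (h : lab0 γ ψ (s * b) = some ρ)
    (hne : lab0 γ ψ b ≠ some ρ) : Brn γ ψ s b ρ :=
  ⟨(al_iff (Nat.mul_pos hs.pos hb)).1 h, StM142.born_den hs hb h hne,
    StM142.born_gt hs.pos hb h hne⟩

/-- **the kinds of a change of the own label at a missing tie** -/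
theorem stgK (hs : s.Prime) (hb : 0 < b) (h10 : ((s * b : ℕ) : ℝ) * ψ ≤ 1 / 10)
    (hne : lab0 γ ψ (s * b) ≠ lab0 γ ψ b) :
    StgK γ ψ s b (lab0 γ ψ b) (lab0 γ ψ (s * b)) := by
  have hsb : 0 < s * b := Nat.mul_pos hs.pos hb
  cases h : lab0 γ ψ b with
  | none =>
    cases h' : lab0 γ ψ (s * b) with
    | none => exact absurd (h'.trans h.symm) hne
    | some ρ =>
      exact StgK.birth ρ rfl rfl (brn_of hs hb h' (by rw [h]; simp))
  | some κ =>
    have hal := (al_iff hb).1 h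
    cases h' : lab0 γ ψ (s * b) with
    | none => exact StgK.death κ rfl rfl hal (dth_of hs.pos hb h10 hal (by rw [h']; simp))
    | some ρ =>
      have hk : κ ≠ ρ := fun e => hne (by rw [h, h', e])
      have hk' : lab0 γ ψ (s * b) ≠ some κ := by
        rw [h']
        exact fun e => hk (Option.some.inj e).symm
      have hbr := brn_of (ρ := ρ) hs hb h' (by rw [h]; exact fun e => hk (Option.some.inj e))
      refine StgK.change κ ρ rfl rfl hk hal (dth_of hs.pos hb h10 hal hk') hbr ?_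
      by_cases ha : acc γ ψ (s * b) κ
      · obtain ⟨k1, k2, k3⟩ := birth_ineq hsb h' hk ha
        refine Or.inl ⟨ha, k3, ?_, k1, k2⟩
        exact lt_of_mul_lt_mul_right (hbr.al.den.trans_lt k3) (hbr.al.R_pos hsb).le
      · refine Or.inr ⟨ha, ?_⟩
        -- the crossing lemma of helper46
        have hc : CrsT ((((s :: [b]).prod : ℕ) : ℝ) * ψ - 1) (((s :: [b]).prod : ℕ) * ψ) γ ψ
            (s :: [b]) κ := by
          refine ⟨by linarith, le_rfl, ⟨s, [b], rfl, ?_⟩, ?_⟩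
          · show lab0 γ ψ ([b] : List ℕ).prod = some κ
            rw [List.prod_singleton]
            exact h
          · show lab0 γ ψ (s :: [b]).prod ≠ some κ
            rw [List.prod_cons, List.prod_singleton]
            exact hk'
        have e0 : (s :: [b]).prod = s * b := by rw [List.prod_cons, List.prod_singleton]
        have hL : 0 < (s :: [b]).prod := by rw [e0]; exact hsb
        have ho : own γ ψ (s :: [b]) = some ρ := by
          show lab0 γ ψ (s :: [b]).prod = some ρ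
          rw [e0]
          exact h'
        obtain ⟨s', M', e, -, k1, k2⟩ := hc.acc_new hL ho
        rw [e0] at k1 k2
        obtain ⟨e1, -⟩ := List.cons.inj e
        rw [← e1] at k1 k2
        exact ⟨k1, k2⟩

/-- list form -/
theorem stgK_list (hs : s.Prime) (hM : 0 < M.prod) (h10 : ((s * M.prod : ℕ) : ℝ) * ψ ≤ 1 / 10)
    (hne : own γ ψ (s :: M) ≠ own γ ψ M) :
    StgK γ ψ s M.prod (own γ ψ M) (own γ ψ (s :: M)) := by
  have e : own γ ψ (s :: M) = lab0 γ ψ (s * M.prod) := by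
    unfold own
    rw [List.prod_cons]
  rw [e] at hne ⊢
  exact stgK hs hM h10 hne

/-- **static column where the label `κ` becomes sparse** (from the threshold `t` to `t'`): `k^5 t ≤ 1 < k^5 t'` -/
def PsD (t t' : ℝ) (b : ℕ) (κ : ℚ) : Prop := dense t b κ ∧ ¬ dense t' b κ

/-- one static column of this kind for a label and a stage -/
theorem PsD.unique {thr : ℕ → ℝ} {n m : ℕ} (h : PsD (thr n) (thr (n - 1)) b κ)
    (k : PsD (thr m) (thr (m - 1)) b κ)
    (hanti : ∀ x y : ℕ, min n m ≤ x → x ≤ y → thr y ≤ thr x) : n = m := by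
  rcases lt_trichotomy n m with h1 | h1 | h1
  · exact absurd (dense_anti h.1 (hanti n (m - 1) (min_le_left _ _) (by omega))) k.2
  · exact h1
  · exact absurd (dense_anti k.1 (hanti m (n - 1) (min_le_right _ _) (by omega))) h.2

/-- a thin piece with a label: the label is dense or sparse by its own radius: `k^5 R ≤ 1`, and sparse
means `thr` is larger than `k^-5` -/
lemma Al.sparse_thr (hb : 0 < b) (h : Al γ ψ b κ) (hd : ¬ dense t b κ) : (b : ℝ) * ψ < t := by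
  unfold dense at hd
  push Not at hd
  exact lt_of_mul_lt_mul_left (h.den.trans_lt hd) (d5_pos b κ).le

end pure

/-! ### an item -/

section cf
variable {c : Cf} {n p p' q s : ℕ} {κ : ℚ}

/-- **own missing tie `p`**: the real state changes only by a stage change at `p`, which is thin below or
a birth out of `none` -/
theorem tie_real (hO : c.t.Ok n) (hl : c.lam p = 0) (hm : p ∈ c.t.mt q)
    (hthin : ((ms c p q).prod : ℝ) * c.r q ≤ c.wp.thr p) (h10 : c.wp.thr p ≤ 1 / 10)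
    (h0 : 0 < c.r q) (hne : low c p q ≠ c.st p q) :
    StgK c.γ (c.r q) p (ms c p q).prod (c.st p q) (low c p q) ∧
      c.st p q = own c.γ (c.r q) (ms c p q) ∧ low c p q = own c.γ (c.r q) (p :: ms c p q) ∧
      (((p * (ms c p q).prod : ℕ) : ℝ) * c.r q ≤ c.wp.thr p ∨
        (c.wp.thr p < ((p * (ms c p q).prod : ℕ) : ℝ) * c.r q ∧ c.st p q = none)) := by
  have hS := low_step hO hl hm hthin
  have hp := hS.sp
  have hst := hS.hst
  have e : low c p q = own c.γ (c.r q) (p :: ms c p q) ∧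
      (((p * (ms c p q).prod : ℕ) : ℝ) * c.r q ≤ c.wp.thr p ∨
        (c.wp.thr p < ((p * (ms c p q).prod : ℕ) : ℝ) * c.r q ∧ c.st p q = none)) := by
    rcases hS.cases with ⟨h1, h2⟩ | ⟨-, h2, -⟩ | ⟨h1, h2, h3 | h3⟩
    · exact ⟨h2, Or.inl h1⟩
    · exact absurd h2 hne
    · exact ⟨h3, Or.inr ⟨h1, h2⟩⟩
    · exact absurd (h3.trans h2.symm) hne
  refine ⟨?_, hst, e.1, e.2⟩
  rw [e.1, hst] at hne ⊢
  rcases e.2 with h1 | ⟨h1, h2⟩
  · exact stgK_list hp hS.pos (h1.trans h10) hne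
  · rw [hst] at h2
    have hsb : 0 < p * (ms c p q).prod := Nat.mul_pos hp.pos hS.pos
    rw [h2] at hne ⊢
    cases h3 : own c.γ (c.r q) (p :: ms c p q) with
    | none => exact absurd h3 hne
    | some ρ =>
      have h4 : lab0 c.γ (c.r q) (p * (ms c p q).prod) = some ρ := by
        simpa [own, List.prod_cons] using h3
      refine StgK.birth ρ rfl rfl (brn_of hp hS.pos h4 ?_)
      intro h5
      have h6 : own c.γ (c.r q) (ms c p q) = some ρ := h5
      rw [h2] at h6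
      exact absurd h6 (by simp)

/-- **rest `p`**: the real state changes only at the crossing of a kept label, and this is the stage change
at the last missing tie `s` of the item -/
theorem rest_real (hO : c.t.Ok n) (hl : c.lam (p - 1) = 0)
    (hthr : c.wp.thr p ≤ c.wp.thr (p - 1)) (hL' : c.wp.thr (p - 1) ≤ c.wpL.thr (c.lv q))
    (hT : TLl c.wp.thr (c.r q) (ms c (p - 1) q)) (h10 : c.wp.thr (p - 1) ≤ 1 / 10)
    (hne : c.st (p - 1) q ≠ low c p q) :
    ∃ s ∈ c.t.mt q, p - 1 < s ∧ ms c (p - 1) q = s :: ms c s q ∧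
      c.wp.thr p < ((s * (ms c s q).prod : ℕ) : ℝ) * c.r q ∧
      ((s * (ms c s q).prod : ℕ) : ℝ) * c.r q ≤ c.wp.thr (p - 1) ∧
      low c p q = own c.γ (c.r q) (ms c s q) ∧ (∃ κ, low c p q = some κ) ∧
      c.st (p - 1) q = own c.γ (c.r q) (s :: ms c s q) ∧
      StgK c.γ (c.r q) s (ms c s q).prod (low c p q) (c.st (p - 1) q) := by
  obtain ⟨κ, hc⟩ := low_next hO hl hthr hL' hT hne
  obtain ⟨s, M, e, hk⟩ := hc.kept
  obtain ⟨h1, h2, h3⟩ := lst_tail e
  have h1' : M = ms c s q := h1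
  rw [h1'] at e hk
  have hf := hc.fat
  have ht := hc.thin
  have hn := hc.ne
  have hpr : ((ms c (p - 1) q).prod : ℝ) = ((s * (ms c s q).prod : ℕ) : ℝ) := by
    rw [e, List.prod_cons]
  rw [hpr] at hf ht
  have hs1 : low c p q = own c.γ (c.r q) (ms c s q) := by
    have h4 := (hc.st (a := bt c (p - 1) q) hT).1
    have h5 : low c p q = some κ := h4
    rw [h5, hk]
  have hs2 : c.st (p - 1) q = own c.γ (c.r q) (s :: ms c s q) := by
    have h4 := (hc.st (a := bt c (p - 1) q) hT).2 (bt c (p - 1) q)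
    rw [Cf_st hl, h4, e]
  have hps : 0 < (ms c s q).prod := ms_pos hO s q
  have hsp := (BldF542.mt_lt c.t n hO q s h2).1
  refine ⟨s, h2, h3, e, hf, ht, hs1, ⟨κ, by rw [hs1, hk]⟩, hs2, ?_⟩
  rw [hs1, hs2] at hne ⊢
  exact stgK_list hsp hps (ht.trans h10) hne

/-- no missing tie at `p`: the rest step from `c.st p q` -/
theorem rest_real' (hO : c.t.Ok n) (hl : c.lam (p - 1) = 0) (hl0 : c.lam p = 0)
    (hnm : p ∉ c.t.mt q)
    (hthr : c.wp.thr p ≤ c.wp.thr (p - 1)) (hL' : c.wp.thr (p - 1) ≤ c.wpL.thr (c.lv q))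
    (hT : TLl c.wp.thr (c.r q) (ms c (p - 1) q)) (h10 : c.wp.thr (p - 1) ≤ 1 / 10)
    (hne : c.st (p - 1) q ≠ c.st p q) :
    ∃ s ∈ c.t.mt q, p - 1 < s ∧ ms c (p - 1) q = s :: ms c s q ∧
      c.wp.thr p < ((s * (ms c s q).prod : ℕ) : ℝ) * c.r q ∧
      ((s * (ms c s q).prod : ℕ) : ℝ) * c.r q ≤ c.wp.thr (p - 1) ∧
      c.st p q = own c.γ (c.r q) (ms c s q) ∧ (∃ κ, c.st p q = some κ) ∧
      c.st (p - 1) q = own c.γ (c.r q) (s :: ms c s q) ∧
      StgK c.γ (c.r q) s (ms c s q).prod (c.st p q) (c.st (p - 1) q) := by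
  have e := low_eq hl0 hnm
  rw [← e] at hne ⊢
  exact rest_real hO hl hthr hL' hT h10 hne

/-- **two columns `p' < p` without a missing tie in `[p', p]`** -/
theorem col_real (hO : c.t.Ok n) (hl : c.lam p = 0) (hl' : c.lam p' = 0) (hp : p' ≤ p)
    (hm : ∀ l ∈ c.t.mt q, p' < l → p < l) (hthr : c.wp.thr p ≤ c.wp.thr p')
    (hL' : c.wp.thr p' ≤ c.wpL.thr (c.lv q)) (hT : TLl c.wp.thr (c.r q) (ms c p q))
    (h10 : c.wp.thr p' ≤ 1 / 10) (hne : c.st p' q ≠ c.st p q) :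
    ∃ s ∈ c.t.mt q, p < s ∧ ms c p q = s :: ms c s q ∧ ms c p' q = ms c p q ∧
      c.wp.thr p < ((s * (ms c s q).prod : ℕ) : ℝ) * c.r q ∧
      ((s * (ms c s q).prod : ℕ) : ℝ) * c.r q ≤ c.wp.thr p' ∧
      c.st p q = own c.γ (c.r q) (ms c s q) ∧ (∃ κ, c.st p q = some κ) ∧
      c.st p' q = own c.γ (c.r q) (s :: ms c s q) ∧
      StgK c.γ (c.r q) s (ms c s q).prod (c.st p q) (c.st p' q) := by
  obtain ⟨κ, hc⟩ := st_next hO hl hl' hp hm hthr hL' hT hne
  have em : ms c p' q = ms c p q := IxRange34.lst_congr hp hm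
  obtain ⟨s, M, e, hk⟩ := hc.kept
  obtain ⟨h1, h2, h3⟩ := lst_tail e
  have h1' : M = ms c s q := h1
  rw [h1'] at e hk
  have hf := hc.fat
  have ht := hc.thin
  have hpr : ((ms c p q).prod : ℝ) = ((s * (ms c s q).prod : ℕ) : ℝ) := by
    rw [e, List.prod_cons]
  rw [hpr] at hf ht
  have hs1 : c.st p q = own c.γ (c.r q) (ms c s q) := by
    have h4 := (hc.st (a := bt c p q) hT).1
    rw [Cf_st hl, h4, hk]
  have hs2 : c.st p' q = own c.γ (c.r q) (s :: ms c s q) := by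
    have h4 := (hc.st (a := bt c p q) hT).2 (bt c p' q)
    rw [Cf_st hl', em, h4, e]
  have hps : 0 < (ms c s q).prod := ms_pos hO s q
  have hsp := (BldF542.mt_lt c.t n hO q s h2).1
  refine ⟨s, h2, h3, e, em, hf, ht, hs1, ⟨κ, by rw [hs1, hk]⟩, hs2, ?_⟩
  rw [hs1, hs2] at hne ⊢
  exact stgK_list hsp hps (ht.trans h10) hne

/-- **the composite step** from `c.st p q` to `c.st (p - 1) q`: a stage change at the own missing tie `p`
(thin below, or a birth), or at the last missing tie by a crossing -/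
theorem step_real (hne : c.st (p - 1) q ≠ c.st p q) :
    low c p q ≠ c.st p q ∨ c.st (p - 1) q ≠ low c p q := by
  by_contra h
  push Not at h
  exact hne (h.2.trans h.1)

/-- **memory form, own missing tie**: the label with the missing tie not processed / processed -/
theorem rs_tie (hO : c.t.Ok n) (hl : c.lam p = 0) (hm : p ∈ c.t.mt q)
    (hthin : ((ms c p q).prod : ℝ) * c.r q ≤ c.wp.thr p) (h10 : c.wp.thr p ≤ 1 / 10)
    (h0 : 0 < c.r q)
    (hne : TYP9.rs c p ((c.t.mt q).filter (p ≤ ·)) q ≠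
      TYP9.rs c p ((c.t.mt q).filter (p < ·)) q) :
    StgK c.γ (c.r q) p (ms c p q).prod (TYP9.rs c p ((c.t.mt q).filter (p < ·)) q)
        (TYP9.rs c p ((c.t.mt q).filter (p ≤ ·)) q) ∧
      (((p * (ms c p q).prod : ℕ) : ℝ) * c.r q ≤ c.wp.thr p ∨
        (c.wp.thr p < ((p * (ms c p q).prod : ℕ) : ℝ) * c.r q ∧
          TYP9.rs c p ((c.t.mt q).filter (p < ·)) q = none)) := by
  have hp := (BldF542.mt_lt c.t n hO q p hm).1
  rw [TYP9.rs_hi hl, TYP9.rs_lo hp.pos] at hne ⊢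
  obtain ⟨h1, -, -, h2⟩ := tie_real hO hl hm hthin h10 h0 hne
  exact ⟨h1, h2⟩

/-- **memory form, rest**: from all missing ties `≥ p` processed (column `p`) to the column `p - 1` -/
theorem rs_rest (hO : c.t.Ok n) (hp : 0 < p) (hl : c.lam (p - 1) = 0)
    (hthr : c.wp.thr p ≤ c.wp.thr (p - 1)) (hL' : c.wp.thr (p - 1) ≤ c.wpL.thr (c.lv q))
    (hT : TLl c.wp.thr (c.r q) (ms c (p - 1) q)) (h10 : c.wp.thr (p - 1) ≤ 1 / 10)
    (hne : TYP9.rs c (p - 1) ((c.t.mt q).filter (p - 1 < ·)) q ≠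
      TYP9.rs c p ((c.t.mt q).filter (p ≤ ·)) q) :
    ∃ s ∈ c.t.mt q, p ≤ s ∧
      c.wp.thr p < ((s * (ms c s q).prod : ℕ) : ℝ) * c.r q ∧
      ((s * (ms c s q).prod : ℕ) : ℝ) * c.r q ≤ c.wp.thr (p - 1) ∧
      (∃ κ, TYP9.rs c p ((c.t.mt q).filter (p ≤ ·)) q = some κ) ∧
      StgK c.γ (c.r q) s (ms c s q).prod (TYP9.rs c p ((c.t.mt q).filter (p ≤ ·)) q)
        (TYP9.rs c (p - 1) ((c.t.mt q).filter (p - 1 < ·)) q) := by
  rw [TYP9.rs_hi hl, TYP9.rs_lo hp] at hne ⊢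
  obtain ⟨s, h1, h2, -, h3, h4, -, h5, -, h6⟩ := rest_real hO hl hthr hL' hT h10 hne
  exact ⟨s, h1, by omega, h3, h4, h5, h6⟩

/-! ### a context -/

/-- the births of the stages of an item -/
lemma ms_Bab (c : Cf) (p q : ℕ) : (ms c p q).prod = Bab c.t q p := lst_prod _ _

/-- the radius below the missing tie `s` -/
lemma Rad_eq (c : Cf) (q s : ℕ) : Rad c q s = ((s * (ms c s q).prod : ℕ) : ℝ) * c.r q := by
  rw [ms_Bab]
  unfold Rad
  push_cast
  ring

variable {N : Skel189.Num} {p0 : ℕ}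

/-- **a birth at a missing tie which is thin below is super-tiny**, and of one rational of the item -/
theorem thin_birth_real (h : BF N c p0 q) : ∃ σ : ℚ, ∀ s ∈ c.t.mt q, ∀ τ : ℚ,
    Brn c.γ (c.r q) s (ms c s q).prod τ → Rad c q s ≤ c.wp.thr s →
      τ = σ ∧ Rad c q s < Real.exp (-((s : ℝ) ^ (1 / 4 : ℝ))) := by
  obtain ⟨σ, hσ⟩ := h.dich
  refine ⟨σ, fun s hs τ hb ht => ?_⟩
  have hpos := Bir30.Bab_pos h.mpos s
  have hs0 := h.mpos s hs
  have hB : BirL c.t c.γ (c.r q) q s τ := by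
    constructor
    · have h1 := (al_iff (Nat.mul_pos hs0 (by rw [ms_Bab]; exact hpos))).2 hb.al
      rwa [ms_Bab] at h1
    · intro h1
      have h2 := (al_iff hpos).1 h1
      have h3 := hb.gt
      rw [ms_Bab] at h3
      exact absurd h2.den (not_le.2 h3)
  rcases hσ s hs τ hB with h1 | h1
  · exact absurd (h.le_A hs ht) (not_le.2 h1)
  · exact h1

/-- **a birth at the missing tie `s` of an item which is fat at a column `n ≤ s`** (anticipated, or seen
at the crossing column): radius `> (log s)^(-A)`, and dense at the birth tie -/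
theorem fat_birth_real (h : BF N c p0 q) {n : ℕ} (hs : s ∈ c.t.mt q) (hn : p0 ≤ n) (hns : n ≤ s)
    (hf : c.wp.thr n ≤ Rad c q s) {τ : ℚ} (hb : Brn c.γ (c.r q) s (ms c s q).prod τ) :
    Real.log s ^ (-(Aex N)) < Rad c q s ∧ dense (c.wp.thr s) (s * (ms c s q).prod) τ := by
  have hpos := Bir30.Bab_pos h.mpos s
  have hs0 := h.mpos s hs
  have h1 := (al_iff (Nat.mul_pos hs0 (by rw [ms_Bab]; exact hpos))).2 hb.al
  rw [ms_Bab] at h1
  have h2 : Real.log s ^ (-(Aex N)) < Rad c q s := by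
    by_contra hc
    have h3 := h.up_fat hs hn hns hf (not_lt.1 hc) h1
    have h4 := (al_iff hpos).1 h3
    have h5 := hb.gt
    rw [ms_Bab] at h5
    exact absurd h4.den (not_le.2 h5)
  refine ⟨h2, ?_⟩
  rw [ms_Bab]
  exact h.fat_dense hs h2 h1

end cf

section ctx
variable {N : Skel189.Num} {γ : ℝ} {p0 P₀ : ℕ} {X : Ctx N γ p0 P₀}

/-- **own missing tie, context** -/
theorem ctx_tie_real (hT : TH X) (hR : All (Step588.RdOk X) ⟨top X.S, 1, 1, 1⟩ X.c.t) {p q : ℕ}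
    (hq : q ∈ X.S') (hm : p ∈ X.c.t.mt q) (h10 : X.c.wp.thr p ≤ 1 / 10)
    (hne : low X.c p q ≠ X.c.st p q) :
    StgK X.c.γ (X.c.r q) p (ms X.c p q).prod (X.c.st p q) (low X.c p q) ∧
      (((p * (ms X.c p q).prod : ℕ) : ℝ) * X.c.r q ≤ X.c.wp.thr p ∨
        (X.c.wp.thr p < ((p * (ms X.c p q).prod : ℕ) : ℝ) * X.c.r q ∧ X.c.st p q = none)) := by
  obtain ⟨h1, -, -, h2⟩ := tie_real X.tOk (hT.lam _) hm (ctx_thin hT hR hq hm) h10 (X.rpos hq) hne
  exact ⟨h1, h2⟩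

/-- **rest, context** -/
theorem ctx_rest_real (hT : TH X) (hR : All (Step588.RdOk X) ⟨top X.S, 1, 1, 1⟩ X.c.t) {p q : ℕ}
    (hq : q ∈ X.S') (hlv : p0 ≤ X.c.lv q) (hp : X.c.lv q < p) (h10 : X.c.wp.thr (p - 1) ≤ 1 / 10)
    (hne : X.c.st (p - 1) q ≠ low X.c p q) :
    ∃ s ∈ X.c.t.mt q, p - 1 < s ∧ ms X.c (p - 1) q = s :: ms X.c s q ∧
      X.c.wp.thr p < ((s * (ms X.c s q).prod : ℕ) : ℝ) * X.c.r q ∧
      ((s * (ms X.c s q).prod : ℕ) : ℝ) * X.c.r q ≤ X.c.wp.thr (p - 1) ∧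
      low X.c p q = own X.c.γ (X.c.r q) (ms X.c s q) ∧ (∃ κ, low X.c p q = some κ) ∧
      X.c.st (p - 1) q = own X.c.γ (X.c.r q) (s :: ms X.c s q) ∧
      StgK X.c.γ (X.c.r q) s (ms X.c s q).prod (low X.c p q) (X.c.st (p - 1) q) :=
  rest_real X.tOk (hT.lam _) (hT.anti _ _ (by omega) (Nat.sub_le p 1))
    (hT.leL _ _ hlv (by omega)) (ctx_TLl hT hR hq _) h10 hne

end ctx

/-! ### counting -/

section count
variable {c : Cf} {p0 q : ℕ} {E : ℕ → ℕ → Prop} {κ : ℝ} {hκ : 0 ≤ κ}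

/-- **crossing at the rest `p`** of the stage of a missing tie with the property `E` -/
def CrE (E : ℕ → ℕ → Prop) (p0 : ℕ) (c : Cf) (q p : ℕ) : Prop :=
  p0 < p ∧ ∃ s ∈ c.t.mt q, p - 1 < s ∧ ms c (p - 1) q = s :: ms c s q ∧ E q s ∧
    c.wp.thr p < ((s * (ms c s q).prod : ℕ) : ℝ) * c.r q ∧
    ((s * (ms c s q).prod : ℕ) : ℝ) * c.r q ≤ c.wp.thr (p - 1)

/-- one crossing column per missing tie -/
theorem CrE_unique (hanti : ∀ l p : ℕ, p0 ≤ l → l ≤ p → c.wp.thr p ≤ c.wp.thr l) {s n m : ℕ}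
    (hn : p0 < n) (hm : p0 < m)
    (h1 : c.wp.thr n < ((s * (ms c s q).prod : ℕ) : ℝ) * c.r q)
    (h2 : ((s * (ms c s q).prod : ℕ) : ℝ) * c.r q ≤ c.wp.thr (n - 1))
    (k1 : c.wp.thr m < ((s * (ms c s q).prod : ℕ) : ℝ) * c.r q)
    (k2 : ((s * (ms c s q).prod : ℕ) : ℝ) * c.r q ≤ c.wp.thr (m - 1)) : n = m := by
  rcases lt_trichotomy n m with h | h | h
  · have := hanti n (m - 1) hn.le (by omega)
    linarith
  · exact h
  · have := hanti m (n - 1) hm.le (by omega)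
    linarith

open Classical in
/-- **booking**: the crossing columns of the stages with `E` are at most as many as the missing ties with
`E` -/
theorem CrE_card (hanti : ∀ l p : ℕ, p0 ≤ l → l ≤ p → c.wp.thr p ≤ c.wp.thr l) (t : Finset ℕ)
    (h : ∀ n ∈ t, CrE E p0 c q n) : t.card ≤ EvC47.cnt c E q := by
  unfold EvC47.cnt
  have h' : ∀ n ∈ t, ∃ s ∈ c.t.mt q, E q s ∧
      c.wp.thr n < ((s * (ms c s q).prod : ℕ) : ℝ) * c.r q ∧
      ((s * (ms c s q).prod : ℕ) : ℝ) * c.r q ≤ c.wp.thr (n - 1) ∧ p0 < n := by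
    intro n hn
    obtain ⟨h0, s, h1, -, -, h3, h4, h5⟩ := h n hn
    exact ⟨s, h1, h3, h4, h5, h0⟩
  choose! f hf using h'
  refine Finset.card_le_card_of_injOn f (fun n hn => ?_) fun n hn m hm e => ?_
  · exact Finset.mem_coe.2 (Finset.mem_filter.2 ⟨(hf n hn).1, (hf n hn).2.1⟩)
  · obtain ⟨-, -, a1, a2, a3⟩ := hf n hn
    obtain ⟨-, -, b1, b2, b3⟩ := hf m hm
    rw [← e] at b1 b2
    exact CrE_unique hanti a3 b3 a1 a2 b1 b2

/-- **the credits of the crossings of an item** -/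
theorem CrE_sum (hanti : ∀ l p : ℕ, p0 ≤ l → l ≤ p → c.wp.thr p ≤ c.wp.thr l) (r : Finset ℕ)
    (j : c.Lam) (z : ℝ) :
    ∑ n ∈ r, (EvC47.EvR c (CrE E p0 c) κ hκ).f n j z ≤ κ * EvC47.cnt c E j.1.1 :=
  EvC47.EvR_card j r (fun t _ ht => CrE_card hanti t ht) z

end count

section avg
open Crest.Agent.R4.Tour104 Crest.Agent.R4.Clos758
open Crest.Agent.R4P.StratN36 (ex)
open Crest.Agent.R4P.Step588 Crest.Agent.R4P.RseSt23
open Crest.Agent.R4P.DTp26 Crest.Agent.R4P.DTm407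
open Crest.Agent.R4P.TYI47 Crest.Agent.R4P.TYJ47 Crest.Agent.R4P.TYK47
open Crest.Agent.R4P.TYP9 Crest.Agent.R4P.RsT47
open Crest.Agent.R4P.Walk560 (DT WrN)
open Crest.Agent.R4P.Frame758
open Crest.Agent.R4.Soft104 Crest.Agent.R4.Fam464
open Crest.Agent.R4P.StratX36 Crest.Agent.R4P.TopX36
open Crest.Agent.R4P.Grp36 Crest.Agent.R4P.Bp407 Crest.Agent.R4P.VR407
open Crest.Agent.R4P.PayR45 (BM PV)
open Crest.Agent.R4P.PVe45 (Cr LB)
open Crest.Agent.R4P.PVd45 (DI)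
open Crest.Agent.R4P.GWa343 (bB)
open Crest.Agent.R4P.GWc343 (bN bt)
open Crest.Agent.R4P.CrZ41 Crest.Agent.R4P.StJ6 Crest.Agent.R4P.CrF47 Crest.Agent.R4P.EvC47
open Crest.Agent.R4P.AsB407
open Crest.Agent.R4P.RXm55 (RXm)
open Crest.Agent.R4P.DTn407

variable {N : Skel189.Num} {γ : ℝ} {p0 P₀ : ℕ} {X : Ctx N γ p0 P₀} {Q : NS → IT → Prop} {C : ℝ}
  {A : Type} [Fintype A] {ω : A → ℝ} {ζ : A → Type} [∀ i, Fintype (ζ i)]
  [∀ i, DecidableEq (ζ i)] {D : ∀ i, TD Me X.c.Lam (LbX X) (ζ i)}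
  {H : ∀ i, TYp (rhoX X) (D i) (InvM X Q C)} {tu : ∀ i, (D i).tu = tuM}
  {hQ : ∀ u τ, Q u τ → NDt X.par (w X.ψ) X.c.t u τ} {hd1 : X.c.d1 * Kc X.S ≤ 1}

/-- **rest events with a counted number per item**: the averaged remaining credit -/
theorem EvR_avg (hω : ∀ i, 0 ≤ ω i) {P : A → ℕ → ℕ → Prop} {K : A → ℕ → ℕ}
    (hP : ∀ i q (t : Finset ℕ), (∀ n ∈ t, P i q n) → t.card ≤ K i q) {κ : ℝ} {hκ : 0 ≤ κ} {J : ℝ}
    (hJ : ∀ q ∈ X.S', ∑ i, ω i * (K i q : ℝ) ≤ J) {p : ℕ}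
    {b : Me × List (DT X.c.Lam (LbX X))} (hb : InvM X Q C p b) {j : X.c.Lam} {x : ℝ}
    (hj : jv b.2 j x ≠ 0) :
    ∑ i, ω i * (crX (H i) (tu i) hQ hd1 (EvR X.c (P i) κ hκ)).ρ p b j x ≤ κ * J := by
  have h1 : ∀ i, (crX (H i) (tu i) hQ hd1 (EvR X.c (P i) κ hκ)).ρ p b j x ≤
      κ * K i j.1.1 := fun i =>
    ((EvR X.c (P i) κ hκ).G_le (rem_le _ _ _) j _).trans
      (EvR_card j _ (fun t _ ht => hP i _ t ht) _)
  refine (Finset.sum_le_sum fun i _ => mul_le_mul_of_nonneg_left (h1 i) (hω i)).trans ?_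
  have e : ∑ i, ω i * (κ * K i j.1.1) = κ * ∑ i, ω i * (K i j.1.1 : ℝ) := by
    rw [Finset.mul_sum]
    exact Finset.sum_congr rfl fun i _ => by ring
  rw [e]
  exact mul_le_mul_of_nonneg_left (hJ _ (alive hQ hb hj)) hκ

/-- **the averaged credits of the crossings**: `κ J` if the averaged number of missing ties with the property
is at most `J` -/
theorem CrE_avg (hT : TH X) (hω : ∀ i, 0 ≤ ω i) {E : A → ℕ → ℕ → Prop} {κ : ℝ} {hκ : 0 ≤ κ}
    {J : ℝ} (hJ : ∀ q ∈ X.S', ∑ i, ω i * (cnt X.c (E i) q : ℝ) ≤ J) {p : ℕ}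
    {b : Me × List (DT X.c.Lam (LbX X))} (hb : InvM X Q C p b) {j : X.c.Lam} {x : ℝ}
    (hj : jv b.2 j x ≠ 0) :
    ∑ i, ω i * (crX (H i) (tu i) hQ hd1 (EvR X.c (CrE (E i) p0 X.c) κ hκ)).ρ p b j x ≤ κ * J :=
  EvR_avg (H := H) (tu := tu) (hQ := hQ) (hd1 := hd1) hω
    (K := fun i q => cnt X.c (E i) q)
    (fun i q t ht => CrE_card hT.anti t ht) hJ hb hj

end avg

end Crest.Agent.R4P.RuV47
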