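import Crest.Agent.R4P.RuL_9
import Crest.Agent.R4P.RuV_47

/-!
R4 (S0004) with powers, T3, helper9: **the lists of events of the rule of the real index** (`RuL_9`).

* `EvS P κ` : static rest events with the price `κ n` of the column; `EvS_f`, `EvS_once`, `EvS_sum`.
* `ls c p q` : last own tie (`≥ p`) of the item at the column `p`.
* `PV` (index change: the real state changes, or `none` at a grid column; unflagged), `PVo` (entrance),
  `PVc P₁` (the real state changes and the last own tie is above `P₁`); lists `VL`, `VoL`, `VcL`.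
* **`vr`, `vo`, `vc`** : the events of `PrL.rL` are in the lists.
* item-wise: **`VoL_once`**, **`VcL_once`** (columns `≤ P₁`), `stc_cases` (own tie or crossing of the last own
  tie), **`stc_card`** : the number of the changes of the real state at the columns `≥ p` is at most twice the
  number of own ties `≥ p`; `PV_card`.
-/

set_option autoImplicit false
set_option linter.unusedSectionVars false
set_option linter.unusedVariables false
open MeasureTheory Filter Set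

namespace Crest.Agent.R4P.EvL9

open Crest.Agent.R4P.Cnt588 Crest.Agent.R4P.Item758 Crest.Agent.R4P.W363
open Crest.Agent.R4P.Data758
open Crest.Agent.R4P.Bld532 (NS All NodeOk Bk)
open Crest.Agent.R4P.WalkIT579 (tp isL)
open Crest.Agent.R4P.StratN36 (ex)
open Crest.Agent.R4P.Step588 Crest.Agent.R4P.RseSt23
open Crest.Agent.R4P.DTp26 Crest.Agent.R4P.DTm407
open Crest.Agent.R4P.TYI47 Crest.Agent.R4P.TYJ47 Crest.Agent.R4P.TYK47
open Crest.Agent.R4P.TYP9 Crest.Agent.R4P.RsT47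
open Crest.Agent.R4P.StM6 Crest.Agent.R4P.StM246 Crest.Agent.R4P.StE6 Crest.Agent.R4P.StF6
open Crest.Agent.R4P.StG6 Crest.Agent.R4P.StJ6
open Crest.Agent.R4P.StB21 (TH LvF)
open Crest.Agent.R4P.RuN9 Crest.Agent.R4P.CrZ41 Crest.Agent.R4P.CrF47
open Crest.Agent.R4P.RuF9 hiding TyR
open Crest.Agent.R4P.Skel189 Crest.Agent.R4P.Frame758
open Crest.Agent.R4.Soft104 Crest.Agent.R4.Fam464
open Crest.Agent.R4P.StratX36 Crest.Agent.R4P.TopX36
open Crest.Agent.R4P.GWa343 Crest.Agent.R4P.GWb343 Crest.Agent.R4P.GWc343 Crest.Agent.R4P.GWf343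
open Crest.Agent.R4P.TrR343
open Crest.Agent.R4P.Walk560 (DT WrN)
open Crest.Agent.R4P.AsC407 Crest.Agent.R4P.RuL9 Crest.Agent.R4P.RuV47

/-! ### static events of the rests -/

section evs
variable {Λ : Type} {P : ℕ → Λ → Prop} {κ : ℕ → ℝ}

/-- **static rest events** with the price `κ n` (cut at `0`) of the column -/
noncomputable def EvS (P : ℕ → Λ → Prop) (κ : ℕ → ℝ) : Evs Λ where
  E := fun _ _ _ => False
  E' := fun n j _ => P n j
  mE := fun _ _ => MeasurableSet.const _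
  mE' := fun _ _ => MeasurableSet.const _
  c := fun _ => 0
  c' := fun n => max 0 (κ n)
  c0 := fun _ => le_rfl
  c0' := fun _ => le_max_left _ _

lemma EvS_f (n : ℕ) (j : Λ) (z : ℝ) : (EvS P κ).f n j z = max 0 (κ n) * ind (P n j) := by
  unfold Evs.f EvS
  simp only [mul_zero, zero_mul, zero_add]

/-- the condition of the lists -/
lemma EvS_of {n : ℕ} {j : Λ} {z a : ℝ} (h : P n j) (ha : a ≤ κ n) :
    a ≤ (EvS P κ).c' n ∧ (EvS P κ).E' n j z := ⟨ha.trans (le_max_right _ _), h⟩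

open Classical in
/-- the sum of the prices of an item -/
lemma EvS_sum (hκ : ∀ n, 0 ≤ κ n) (r : Finset ℕ) (j : Λ) (z : ℝ) :
    ∑ n ∈ r, (EvS P κ).f n j z = ∑ n ∈ r.filter (P · j), κ n := by
  rw [Finset.sum_filter]
  refine Finset.sum_congr rfl fun n _ => ?_
  rw [EvS_f, max_eq_right (hκ n)]
  by_cases h : P n j
  · rw [ind_on h, if_pos h, mul_one]
  · rw [ind_off h, if_neg h, mul_zero]

/-- **once per item**, constant price -/
lemma EvS_once {a : ℝ} (ha : 0 ≤ a) (r : Finset ℕ) {j : Λ}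
    (h : ∀ n ∈ r, ∀ m ∈ r, P n j → P m j → n = m) (z : ℝ) :
    ∑ n ∈ r, (EvS P fun _ => a).f n j z ≤ a := by
  classical
  rw [EvS_sum (fun _ => ha), Finset.sum_const, nsmul_eq_mul]
  have h1 : (r.filter (P · j)).card ≤ 1 := by
    rw [Finset.card_le_one]
    intro n hn m hm
    rw [Finset.mem_filter] at hn hm
    exact h n hn.1 m hm.1 hn.2 hm.2
  have h2 : ((r.filter (P · j)).card : ℝ) ≤ 1 := by exact_mod_cast h1
  nlinarith

end evs

/-! ### the last own tie -/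

section ls
variable {c : Cf} {p q l P₁ : ℕ}

/-- **last own tie** of `q` at the column `p` : the smallest missing tie `≥ p` (`p` if there is none) -/
noncomputable def ls (c : Cf) (p q : ℕ) : ℕ :=
  if h : ((c.t.mt q).filter (p ≤ ·)).Nonempty then ((c.t.mt q).filter (p ≤ ·)).min' h else p

lemma le_ls : p ≤ ls c p q := by
  unfold ls
  split_ifs with h
  · exact (Finset.mem_filter.1 (Finset.min'_mem _ h)).2
  · exact le_rfl

lemma ls_le (hl : l ∈ c.t.mt q) (hp : p ≤ l) : ls c p q ≤ l := by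
  have hm : l ∈ (c.t.mt q).filter (p ≤ ·) := Finset.mem_filter.2 ⟨hl, hp⟩
  unfold ls
  rw [dif_pos ⟨l, hm⟩]
  exact Finset.min'_le _ _ hm

lemma ls_mem (hl : l ∈ c.t.mt q) (hp : p ≤ l) : ls c p q ∈ c.t.mt q := by
  have hm : l ∈ (c.t.mt q).filter (p ≤ ·) := Finset.mem_filter.2 ⟨hl, hp⟩
  unfold ls
  rw [dif_pos ⟨l, hm⟩]
  exact (Finset.mem_filter.1 (Finset.min'_mem _ _)).1

lemma ls_own (h : p ∈ c.t.mt q) : ls c p q = p := le_antisymm (ls_le h le_rfl) le_ls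

/-- the head of the list of the missing ties is the last own tie -/
lemma ls_head {s : ℕ} (hp : 0 < p) (hs : s ∈ c.t.mt q) (h1 : p - 1 < s)
    (h : ms c (p - 1) q = s :: ms c s q) : ls c p q = s := by
  refine le_antisymm (ls_le hs (by omega)) ?_
  have h2 : ls c p q ∈ c.t.mt q := ls_mem hs (by omega)
  have h3 : ls c p q ∈ ms c (p - 1) q :=
    Crest.Agent.R4.W363.mem_lst.2 ⟨h2, by have := le_ls (c := c) (p := p) (q := q); omega⟩
  rw [h] at h3
  rcases List.mem_cons.1 h3 with e | h4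
  · exact e.ge
  · exact (Crest.Agent.R4.W363.mem_lst.1 h4).2.le

/-- two columns below `P₁` with last own ties above `P₁` have one last own tie -/
lemma ls_const {n m : ℕ} (hn : n ≤ P₁) (hm : m ≤ P₁) (h1 : P₁ < ls c n q) (h2 : P₁ < ls c m q)
    (hs : ls c n q ∈ c.t.mt q) (hs' : ls c m q ∈ c.t.mt q) : ls c n q = ls c m q :=
  le_antisymm (ls_le hs' (by omega)) (ls_le hs (by omega))

end ls

/-! ### changes of the real state -/

/-- the real state changes from the column `p` to `p - 1` -/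
def StC (c : Cf) (p q : ℕ) : Prop := c.st (p - 1) q ≠ c.st p q

/-- unlabelled at a grid column -/
def DpC (c : Cf) (p q : ℕ) : Prop :=
  c.st (p - 1) q = none ∧ c.st p q = none ∧ c.wp.dep (p - 1) ≠ c.wp.dep p

section ctx
variable {N : Skel189.Num} {γ : ℝ} {p0 P₀ : ℕ} {X : Ctx N γ p0 P₀} {Q : NS → IT → Prop}
  {C : ℝ} {p q P₁ : ℕ} {b : Me × List (DT X.c.Lam (LbX X))} {i j : X.c.Lam} {x y z : ℝ} {m : Me}
  {F : ℕ → Finset ℕ → Prop}

/-- **a change of the real state**: own tie `p`, or the crossing of the stage of the last own tie -/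
theorem stc_cases (hT : TH X) (hR : All (Step588.RdOk X) ⟨Skel189.top X.S, 1, 1, 1⟩ X.c.t)
    (hq : q ∈ X.S') (hp0 : p0 < p) (hlv : p0 ≤ X.c.lv q) (hlp : X.c.lv q < p) (h : StC X.c p q) :
    p ∈ X.c.t.mt q ∨ CrE (fun _ s => ls X.c p q = s) p0 X.c q p := by
  rcases step_real h with h1 | h1
  · left
    by_contra hm
    exact h1 (low_eq (hT.lam _) hm)
  · right
    obtain ⟨κ, hc⟩ := ctx_low_next hT hR hq hlv hlp h1
    obtain ⟨s, M, e, hk⟩ := hc.kept
    obtain ⟨h2, h3, h4⟩ := lst_tail e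
    have h2' : M = ms X.c s q := h2
    rw [h2'] at e
    have hf := hc.fat
    have ht := hc.thin
    have hpr : ((ms X.c (p - 1) q).prod : ℝ) = ((s * (ms X.c s q).prod : ℕ) : ℝ) := by
      rw [e, List.prod_cons]
    rw [hpr] at hf ht
    exact ⟨hp0, s, h3, h4, e, ls_head (by omega) h3 h4 e, hf, ht⟩

/-- the last own tie of a change is an own tie -/
lemma stc_ls (hT : TH X) (hR : All (Step588.RdOk X) ⟨Skel189.top X.S, 1, 1, 1⟩ X.c.t)
    (hq : q ∈ X.S') (hp0 : p0 < p) (hlv : p0 ≤ X.c.lv q) (hlp : X.c.lv q < p) (h : StC X.c p q) :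
    ls X.c p q ∈ X.c.t.mt q := by
  rcases stc_cases hT hR hq hp0 hlv hlp h with h1 | ⟨-, s, h1, h2, -⟩
  · rw [ls_own h1]; exact h1
  · exact ls_mem h1 (by omega)

/-- **the number of the changes of the real state** at the columns `≥ p` -/
theorem stc_card (hT : TH X) (hR : All (Step588.RdOk X) ⟨Skel189.top X.S, 1, 1, 1⟩ X.c.t)
    (hq : q ∈ X.S') (hlv : p0 ≤ X.c.lv q) (t : Finset ℕ)
    (h : ∀ n ∈ t, p ≤ n ∧ p0 < n ∧ X.c.lv q < n ∧ StC X.c n q) :
    t.card ≤ 2 * ((X.c.t.mt q).filter (p ≤ ·)).card := by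
  classical
  have h1 : (t.filter (· ∈ X.c.t.mt q)).card ≤ ((X.c.t.mt q).filter (p ≤ ·)).card := by
    refine Finset.card_le_card fun n hn => ?_
    obtain ⟨a, b⟩ := Finset.mem_filter.1 hn
    exact Finset.mem_filter.2 ⟨b, (h n a).1⟩
  have h2 : (t.filter (¬ · ∈ X.c.t.mt q)).card ≤ ((X.c.t.mt q).filter (p ≤ ·)).card := by
    refine (CrE_card (q := q) (E := fun _ s => p ≤ s) hT.anti _ fun n hn => ?_).trans (le_of_eq ?_)
    · obtain ⟨a, b⟩ := Finset.mem_filter.1 hn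
      obtain ⟨a1, a2, a3, a4⟩ := h n a
      rcases stc_cases hT hR hq a2 hlv a3 a4 with h3 | ⟨h3, s, h4, h5, h6, h7, h8⟩
      · exact absurd h3 b
      · refine ⟨h3, s, h4, h5, h6, ?_, h8⟩
        show p ≤ s
        omega
    · unfold EvC47.cnt
      congr
  have h3 := Finset.card_filter_add_card_filter_not (s := t) (fun n => n ∈ X.c.t.mt q)
  omega

/-- **below `P₁` the real state changes at most once while the last own tie is above `P₁`** -/
theorem stc_once (hT : TH X) (hR : All (Step588.RdOk X) ⟨Skel189.top X.S, 1, 1, 1⟩ X.c.t)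
    (hq : q ∈ X.S') (hlv : p0 ≤ X.c.lv q) {n m : ℕ}
    (hn : n ≤ P₁ ∧ p0 < n ∧ X.c.lv q < n ∧ StC X.c n q ∧ P₁ < ls X.c n q)
    (hm : m ≤ P₁ ∧ p0 < m ∧ X.c.lv q < m ∧ StC X.c m q ∧ P₁ < ls X.c m q) : n = m := by
  obtain ⟨n1, n2, n3, n4, n5⟩ := hn
  obtain ⟨m1, m2, m3, m4, m5⟩ := hm
  have key := ls_const n1 m1 n5 m5 (stc_ls hT hR hq n2 hlv n3 n4) (stc_ls hT hR hq m2 hlv m3 m4)
  rcases stc_cases hT hR hq n2 hlv n3 n4 with h | ⟨-, s, -, -, -, e, h1, h2⟩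
  · rw [ls_own h] at n5
    omega
  rcases stc_cases hT hR hq m2 hlv m3 m4 with h | ⟨-, s', -, -, -, e', k1, k2⟩
  · rw [ls_own h] at m5
    omega
  have e1 : s' = s := by rw [← e, ← e', key]
  subst e1
  exact CrE_unique hT.anti n2 m2 h1 h2 k1 k2

/-! ### the lists -/

/-- the item is alive and unflagged at the columns `p` and `p - 1` -/
def Unf (F : ℕ → Finset ℕ → Prop) (X : Ctx N γ p0 P₀) (p q : ℕ) : Prop :=
  p0 < p ∧ q ∈ X.S' ∧ p0 ≤ X.c.lv q ∧ X.c.lv q < p ∧ ¬ flg F X.c p q ∧ ¬ flg F X.c (p - 1) q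

/-- **index change** -/
def PV (F : ℕ → Finset ℕ → Prop) (X : Ctx N γ p0 P₀) (p : ℕ) (j : X.c.Lam) : Prop :=
  Unf F X p j.1.1 ∧ (StC X.c p j.1.1 ∨ DpC X.c p j.1.1)

/-- **entrance** -/
def PVo (F : ℕ → Finset ℕ → Prop) (X : Ctx N γ p0 P₀) (p : ℕ) (j : X.c.Lam) : Prop :=
  p0 < p ∧ Ent F X.c p j.1.1

/-- **the real state changes, the last own tie is above `P₁`** -/
def PVc (F : ℕ → Finset ℕ → Prop) (X : Ctx N γ p0 P₀) (P₁ p : ℕ) (j : X.c.Lam) : Prop :=
  Unf F X p j.1.1 ∧ StC X.c p j.1.1 ∧ P₁ < ls X.c p j.1.1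

/-- list of the index changes, price `κ p` -/
noncomputable abbrev VL (F : ℕ → Finset ℕ → Prop) (X : Ctx N γ p0 P₀) (κ : ℕ → ℝ) :
    Evs X.c.Lam := EvS (PV F X) κ

/-- list of the entrances, price `a` -/
noncomputable abbrev VoL (F : ℕ → Finset ℕ → Prop) (X : Ctx N γ p0 P₀) (a : ℝ) :
    Evs X.c.Lam := EvS (PVo F X) fun _ => a

/-- list of the changes of the real state with the last own tie above `P₁`, price `a` -/
noncomputable abbrev VcL (F : ℕ → Finset ℕ → Prop) (X : Ctx N γ p0 P₀) (P₁ : ℕ) (a : ℝ) :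
    Evs X.c.Lam := EvS (PVc F X P₁) fun _ => a

section rl
variable (P : PrL X)

/-- the two alternatives of a piece of the rest which changes its type -/
theorem chg (cf : CtxF X Q) (h : InvM X Q C p b) (hp : p ≠ 0) (hj : jv (bN p b.2) j x ≠ 0)
    {z z' : P.rL.ζ} (h1 : P.rL.D.tp p b.1 x j = some z) (h2 : P.rL.D.tp (p - 1) b.1 x j = some z')
    (hne : z ≠ z') : Unf P.F X p j.1.1 ∧ ixr X (p - 1) b.1 x j ≠ ixr X p b.1 x j ∧
      (StC X.c p j.1.1 ∨ DpC X.c p j.1.1) := by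
  have hE : P.rL.EvR p b.1 x j := ⟨z, h1, fun e => hne (Option.some.inj (e.symm.trans h2))⟩
  obtain ⟨f1, h3⟩ := P.EvR_list cf h hp hj hE
  have f2 : ¬ flg P.F X.c (p - 1) j.1.1 := (P.tp_some.1 h2).1
  have hr := rest_alive cf.hQ cf.hLv h hp hj
  have hU : Unf P.F X p j.1.1 := ⟨hr.lv0.trans_lt hr.lv, hr.al, hr.lv0, hr.lv, f1, f2⟩
  rcases h3 with h3 | ⟨-, h4, h5⟩
  · exact absurd h3.2 f2
  · exact ⟨hU, h4, h5⟩

/-- **vr** -/
theorem vr (cf : CtxF X Q) {κ : ℕ → ℝ} (h : InvM X Q C p b) (hp : p ≠ 0)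
    (hj : jv (bN p b.2) j x ≠ 0) {z z' : P.rL.ζ} (h1 : P.rL.D.tp p b.1 x j = some z)
    (h2 : P.rL.D.tp (p - 1) b.1 x j = some z') (hne : z ≠ z') {a y : ℝ} (ha : a ≤ κ p) :
    a ≤ (VL P.F X κ).c' p ∧ (VL P.F X κ).E' p j y := by
  obtain ⟨k1, -, k2⟩ := chg P cf h hp hj h1 h2 hne
  exact EvS_of ⟨k1, k2⟩ ha

/-- **vo** -/
theorem vo (cf : CtxF X Q) {a : ℝ} (h : InvM X Q C p b) (hp : p ≠ 0)
    (hj : jv (bN p b.2) j x ≠ 0) {z : P.rL.ζ} (h1 : P.rL.D.tp p b.1 x j = some z)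
    (h2 : P.rL.D.tp (p - 1) b.1 x j = none) {y : ℝ} :
    a ≤ (VoL P.F X a).c' p ∧ (VoL P.F X a).E' p j y := by
  have hr := rest_alive cf.hQ cf.hLv h hp hj
  exact EvS_of ⟨hr.lv0.trans_lt hr.lv, (P.tp_some.1 h1).1, P.tp_none.1 h2⟩ le_rfl

/-- **vc** -/
theorem vc (cf : CtxF X Q) {a : ℝ} (h : InvM X Q C p b) (hp : p ≠ 0)
    (hj : jv (bN p b.2) j x ≠ 0) {z z' : P.rL.ζ} (h1 : P.rL.D.tp p b.1 x j = some z)
    (h2 : P.rL.D.tp (p - 1) b.1 x j = some z') (hne : z ≠ z') (hs : StC X.c p j.1.1)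
    (hl : P₁ < ls X.c p j.1.1) {y : ℝ} :
    a ≤ (VcL P.F X P₁ a).c' p ∧ (VcL P.F X P₁ a).E' p j y := by
  obtain ⟨k1, -, -⟩ := chg P cf h hp hj h1 h2 hne
  exact EvS_of ⟨k1, hs, hl⟩ le_rfl

end rl

/-! ### item-wise facts -/

/-- **one entrance per item** -/
theorem VoL_once (hF : FMon F) {a : ℝ} (ha : 0 ≤ a) (r : Finset ℕ) (j : X.c.Lam) (z : ℝ) :
    ∑ n ∈ r, (VoL F X a).f n j z ≤ a :=
  EvS_once ha r (fun n _ m _ h h' => Ent.unique hF h.2 h'.2) z

/-- **one change of the real state with the last own tie above `P₁`** -/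
theorem VcL_once (hT : TH X) (hR : All (Step588.RdOk X) ⟨Skel189.top X.S, 1, 1, 1⟩ X.c.t) {a : ℝ}
    (ha : 0 ≤ a) {r : Finset ℕ} (hr : ∀ n ∈ r, n ≤ P₁) (j : X.c.Lam) (z : ℝ) :
    ∑ n ∈ r, (VcL F X P₁ a).f n j z ≤ a := by
  refine EvS_once ha r (fun n hn m hm h h' => ?_) z
  obtain ⟨⟨a1, a2, a3, a4, -, -⟩, a5, a6⟩ := h
  obtain ⟨⟨b1, b2, b3, b4, -, -⟩, b5, b6⟩ := h'
  exact stc_once hT hR a2 a3 ⟨hr n hn, a1, a4, a5, a6⟩ ⟨hr m hm, b1, b4, b5, b6⟩

open Classical in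
/-- **the number of the index changes** at the columns `≥ p` : twice the own ties `≥ p` and the grid columns -/
theorem PV_card (hT : TH X) (hR : All (Step588.RdOk X) ⟨Skel189.top X.S, 1, 1, 1⟩ X.c.t)
    {j : X.c.Lam} (t : Finset ℕ) (h : ∀ n ∈ t, p ≤ n ∧ PV F X n j) :
    t.card ≤ 2 * ((X.c.t.mt j.1.1).filter (p ≤ ·)).card +
      (t.filter fun n => X.c.wp.dep (n - 1) ≠ X.c.wp.dep n).card := by
  rcases t.eq_empty_or_nonempty with he | ⟨n₀, hn₀⟩
  · rw [he]; simp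
  obtain ⟨-, ⟨-, hq, hlv, -, -, -⟩, -⟩ := h n₀ hn₀
  have h1 : (t.filter fun n => StC X.c n j.1.1).card ≤
      2 * ((X.c.t.mt j.1.1).filter (p ≤ ·)).card := by
    refine stc_card hT hR hq hlv _ fun n hn => ?_
    obtain ⟨a, b⟩ := Finset.mem_filter.1 hn
    obtain ⟨c1, ⟨c2, -, -, c3, -, -⟩, -⟩ := h n a
    exact ⟨c1, c2, c3, b⟩
  have h2 : t ⊆ (t.filter fun n => StC X.c n j.1.1) ∪
      (t.filter fun n => X.c.wp.dep (n - 1) ≠ X.c.wp.dep n) := by
    intro n hn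
    obtain ⟨-, -, k | k⟩ := h n hn
    · exact Finset.mem_union_left _ (Finset.mem_filter.2 ⟨hn, k⟩)
    · exact Finset.mem_union_right _ (Finset.mem_filter.2 ⟨hn, k.2.2⟩)
  have h3 := (Finset.card_le_card h2).trans (Finset.card_union_le _ _)
  omega

end ctx

end Crest.Agent.R4P.EvL9
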