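import Crest.Agent.R4P.ExC_26
import Crest.Agent.R4P.TgtXF_26

/-!
R4 (S0004), POWERS, helper26, [M8], terminal exits, part 4: **the target `TgtL` from [EK]**.

* `IF` : the invariant of the flagged walk; `IF.next`.
* `part_xT` : the part of the exits of a context; `tgtL_of` : `TgtL` from `TgtX` and `TgtEK`;
  `tgtL_fin`.
-/

set_option autoImplicit false
set_option linter.unusedSectionVars false
set_option linter.unusedVariables false

namespace Crest.Agent.R4P.ExL26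

open Crest.Agent.R4.Tour104 Crest.Agent.R4.Tour758 Crest.Agent.R4.Avg758 Crest.Agent.R4.Clos758
open Crest.Agent.R4.ClosL758 Crest.Agent.R4.ClosG758 Crest.Agent.R4.ClosR758
open Crest.Agent.R4.Fam464 Crest.Agent.R4P.Cnt588 Crest.Agent.R4P.Walk560 Crest.Agent.R4.Piece464
open Crest.Agent.R4P.Item758 Crest.Agent.R4P.AvgItem710
open Crest.Agent.R4P.Data758 Crest.Agent.R4P.WalkIT579
open Crest.Agent.R4P.Bld532 (NS All NodeOk Bk Ws_nonneg Ws_mono)
open Crest.Agent.R4P.Res927 Crest.Agent.R4P.GSt927 Crest.Agent.R4P.OSWS245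
open Crest.Agent.R4P.Skel189 (Ctx top Part PartW Ev)
open Crest.Agent.R4P.Frame758 (tM tN tG tD wt)
open Crest.Agent.R4P.ClosP542 (PulG)
open Crest.Agent.R4.Item758 (AdI AdI_univ)
open Crest.Agent.R4P.VWalk36 (crs V toZ)
open Crest.Agent.R4P.Strip29 (Blind NoSplit)
open Crest.Agent.R4.Soft104
open Crest.Agent.R4P.CtxX26 Crest.Agent.R4P.DeadX26 Crest.Agent.R4P.CrossSum29
open Crest.Agent.R4P.StratX36 Crest.Agent.R4P.SkelF29 Crest.Agent.R4P.Dd26
open Crest.Agent.R4P.AsmX26 Crest.Agent.R4P.CrsFacts26 Crest.Agent.R4P.HullCtx26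
open Crest.Agent.R4P.PayV29 Crest.Agent.R4P.PayR26 Crest.Agent.R4P.PayK26 Crest.Agent.R4P.PayA26
open Crest.Agent.R4P.VNum34 Crest.Agent.R4P.VItem34 Crest.Agent.R4P.VCtx29
open Crest.Agent.R4P.StratN36 (ex)
open Crest.Agent.R4P.KindPay36 (CA KOk)
open Crest.Agent.R4P.AccN31 Crest.Agent.R4P.AccAl31 Crest.Agent.R4P.AccRoot31
open Crest.Agent.R4P.Step588 (All_All)
open Crest.Agent.R4P.ParF5
open Crest.Agent.R4P.ExS26 Crest.Agent.R4P.ExQ26 Crest.Agent.R4P.ExK26 Crest.Agent.R4P.TE26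
open Crest.Agent.R4P.TW17 Crest.Agent.R4P.LvN26 Crest.Agent.R4P.ExC26 Crest.Agent.R4P.ExW17
open Crest.Agent.R4P.FinX26 Crest.Agent.R4P.FinT26 Crest.Agent.R4P.FinE26
open Crest.Agent.R4P.Fin5 Crest.Agent.R4P.NumX34 Crest.Agent.R4P.FinAll26
open Crest.Agent.R4P

/-! ### one-sided columns of the flagged walk -/

section walk
variable {Λ κ : Type*} [Fintype Λ] [DecidableEq Λ] [DecidableEq κ] [WRel κ] [Fintype κ]
  {stp : Stp Λ κ} {s : St Λ κ}

/-- the moduli at a two-sided column -/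
lemma two_nd (h : two s) : ¬ s.p ∣ s.M ∧ ¬ s.p ∣ s.M' := by
  obtain ⟨h1, h2, w, r, t₁, t₀, v, B₁, G, w', r', t₁', t₀', v', B₁', G', hv, hv'⟩ := two_cases h
  exact ⟨St.not_isPL_br h1 hv hv', St.not_isPR_br h2 hv hv'⟩

/-- a two-sided column does not change the one-sided columns -/
lemma two_O (h : two s) : ∀ q ∈ nxt0 stp s, q.2.O = s.O ∧ q.2.O' = s.O' := by
  obtain ⟨h1, h2, w, r, t₁, t₀, v, B₁, G, w', r', t₁', t₀', v', B₁', G', hv, hv'⟩ := two_cases h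
  intro q hq
  by_cases hl : s.t.isLeaf ∨ s.t'.isLeaf
  · simp [nxt0, hl] at hq
  by_cases hs : stp s
  · simp [nxt0, hl, hs] at hq
  have e : nxt0 stp s = [((1 - w) * (1 - w'), { s with R := Ro r, t := t₁, t' := t₁' }),
        ((1 - w) * w', { s with R := Ro r, t := t₁, t' := t₀' }),
        (w * (1 - w'), { s with R := Ro r, t := t₀, t' := t₁' }),
        (w * w', { s with R := Ro r, t := t₀, t' := t₀' })] := by
    simp [nxt0, hl, hs, h1, h2, hv, hv']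
  rw [e] at hq
  simp only [List.mem_cons, List.not_mem_nil, or_false] at hq
  rcases hq with rfl | rfl | rfl | rfl <;> exact ⟨rfl, rfl⟩

/-- the top children of a diagonal self state -/
lemma self_top_O {wr : ℕ → Λ → κ} {Ad : TrG Λ κ → Finset Λ → Prop}
    {μ : TrG Λ κ → Finset Λ → ℝ} {ν : TrG Λ κ → ℝ} {n : ℕ} (hd : Diag s) (hj : stp.jt s)
    (h : Walk560.Inv wr Ad μ ν n s) :
    ∀ q ∈ nxF0 stp (Fl.self, s), q.2.1 = Fl.top → q.2.2.O = s.O ∧ q.2.2.O' = s.O' := by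
  intro q hq hf
  by_cases hl : s.t.isLeaf ∨ s.t'.isLeaf
  · have e : nxt0 stp s = [] := by simp [nxt0, hl]
    simp only [nxF0, e, List.map_nil, List.not_mem_nil] at hq
  by_cases hs : stp s
  · have e : nxt0 stp s = [] := by simp [nxt0, hl, hs]
    simp only [nxF0, e, List.map_nil, List.not_mem_nil] at hq
  have hl' := hl
  rw [not_or] at hl'
  have hp := (p_prime h hl'.1 hl'.2).1
  have hd1 : ¬ s.p ∣ 1 := fun hh => hp.one_lt.ne' (Nat.dvd_one.1 hh)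
  have e' : vw s.p s.t' = vw s.p s.t := by rw [hd.t]
  rcases hv : vw s.p s.t with ⟨w, r, t₁, t₀, v, B₁, G⟩ | ⟨r, t₁, t₀⟩ | ⟨Sp, u⟩
  · rw [hv] at e'
    have hPL : ¬ s.isPL := by
      unfold St.isPL
      simp only [hv, e', hd.M]
      exact hd1
    have hPR : ¬ s.isPR := by
      unfold St.isPR
      simp only [hv, e', hd.M']
      exact hd1
    have e : nxt0 stp s = [((1 - w) * (1 - w), { s with R := Ro r, t := t₁, t' := t₁ }),
        ((1 - w) * w, { s with R := Ro r, t := t₁, t' := t₀ }),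
        (w * (1 - w), { s with R := Ro r, t := t₀, t' := t₁ }),
        (w * w, { s with R := Ro r, t := t₀, t' := t₀ })] := by
      simp [nxt0, hl, hs, hPL, hPR, hv, e']
    simp only [nxF0, e, List.mem_cons, List.not_mem_nil, or_false] at hq
    rcases hq with rfl | rfl | rfl | rfl <;> exact ⟨rfl, rfl⟩
  · rw [hv] at e'
    have hPL : ¬ s.isPL := by unfold St.isPL; simp only [hv, e']; exact fun h => h
    have hPR : ¬ s.isPR := by unfold St.isPR; simp only [hv, e']; exact fun h => h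
    have e : nxt0 stp s =
        [(1, { s with t := t₁, t' := t₁ }), (1, { s with t := t₀, t' := t₀ })] := by
      simp [nxt0, hl, hs, hPL, hPR, hv, e', hj]
    simp only [nxF0, e, List.map_cons, List.map_nil, List.mem_cons, List.not_mem_nil,
      or_false] at hq
    rcases hq with rfl | rfl <;> exact ⟨rfl, rfl⟩
  · rw [hv] at e'
    have hPL : ¬ s.isPL := by unfold St.isPL; simp only [hv, e']; exact fun h => h
    have hPR : ¬ s.isPR := by unfold St.isPR; simp only [hv, e']; exact fun h => h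
    have e : nxt0 stp s = [(1, { s with t := u, t' := u })] := by
      simp [nxt0, hl, hs, hPL, hPR, hv, e']
    simp only [nxF0, e, List.map_cons, List.map_nil, List.mem_cons, List.not_mem_nil,
      or_false] at hq
    subst hq
    exact ⟨rfl, rfl⟩

end walk

/-! ### the flagged invariant -/

section ctx
variable {N : Skel189.Num} {γ : ℝ} {p0 P₀ : ℕ} {X : Ctx N γ p0 P₀} {j₀ : X.c.Lam}
  {Q' : NS → IT → Prop}

/-- **the invariant of the flagged walk** -/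
def IF (X : Ctx N γ p0 P₀) (j₀ : X.c.Lam) (Q' : NS → IT → Prop) (u₀ : NS) (f : Fl) (s : X.Sta) :
    Prop :=
  ∃ (x : XSt X.c.Lam (Lb (WL X.c.Lam) X.Y)) (v v' : NS) (σ σ' : IT), x.s = s ∧
    WIX X j₀ Q' (JN X) u₀ x v v' σ σ' ∧ (f = Fl.self → Diag s) ∧ (f = Fl.top → stay s)

/-- the potential -/
noncomputable def PsV (s : X.Sta) : ℝ := V stp2 aX meI (toZ s) s.A s.A'

lemma IF.inv {u₀ : NS} {f : Fl} {s : X.Sta} (h : IF X j₀ Q' u₀ f s) :
    InvE (X.c.D.par X.Y).rho (AdI (X.c.D.par X.Y).it) (X.tm j₀) (X.tn j₀) s := by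
  obtain ⟨x, v, v', σ, σ', rfl, hx, -, -⟩ := h
  exact ⟨_, wix_inv hx⟩

/-- **the potential is a supermartingale** -/
lemma IF.super {u₀ : NS} {f : Fl} {s : X.Sta} (h : IF X j₀ Q' u₀ f s) :
    ((nxt (SXN X j₀) s).map fun q => q.1 * PsV q.2).sum ≤ PsV s := by
  obtain ⟨x, v, v', σ, σ', rfl, hx, -, -⟩ := h
  have hI := wix_inv hx
  have key := VX_cross (stp := SXN X j₀) (fun s h => h) hx.oi hx.hi.mL hx.hi.mR hI
    (IMI194.dvM GInst194.mI)
  have e1 : ((steps (SXN X j₀) (IMI194.dvM GInst194.mI) x).map fun e => e.a * e.a' * VCtx29.VX e.y).sum =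
      ((nxt (SXN X j₀) x.s).map fun q => q.1 * PsV q.2).sum := by
    rw [← steps_proj (SXN X j₀) (IMI194.dvM GInst194.mI) x, List.map_map]
    rfl
  rw [e1] at key
  have e2 : 0 ≤ ((crs (SXN X j₀) x.s).map fun q => V stp2 aX meI (toZ q) q.A q.A').sum := by
    refine List.sum_nonneg fun y hy => ?_
    obtain ⟨z, hz, rfl⟩ := List.mem_map.1 hy
    exact VWalk36.V_nonneg MX_meI aX_nonneg _ _ (VWalk36.ZOk_of_inv (Mrg35.crs_inv hI z hz).1)
  have e3 : VCtx29.VX x = PsV x.s := rfl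
  rw [← e3]
  linarith

/-- **the invariant is preserved** -/
lemma IF.next (hG : PG X.par (w X.ψ)) (hp0 : 1 ≤ p0) {u₀ : NS} {f : Fl} {s : X.Sta}
    (h : IF X j₀ Q' u₀ f s) : ∀ q ∈ nxF (SXN X j₀) (f, s), IF X j₀ Q' u₀ q.2.1 q.2.2 := by
  intro q hq
  obtain ⟨x, v, v', σ, σ', rfl, hx, hS, hT⟩ := h
  have hI := wix_inv hx
  have hn := mem_nxF_nxt hq
  rw [← steps_proj (SXN X j₀) (IMI194.dvM GInst194.mI) x] at hn
  obtain ⟨e, he, hee⟩ := List.mem_map.1 hn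
  have e1 : e.y.s = q.2.2 := congrArg Prod.snd hee
  obtain ⟨⟨w, w', ρ, ρ', kx⟩, -, -⟩ := wix_next hG hp0 (stp := SXN X j₀) (fun s h => h)
    StX_nosplit jn_JN hx e he
  refine ⟨e.y, w, w', ρ, ρ', e1, kx, fun hf => ?_, fun hf => ?_⟩
  · -- self
    cases f with
    | self => exact Diag.next (hS rfl) (SXN_jt' X j₀ _ (hS rfl)) hI q (mem_nxF.1 hq).1 hf
    | top =>
      exfalso
      have hm := (mem_nxF.1 hq).1
      simp only [nxF0] at hm
      have key : ∀ g : X.Sta → Fl, (∀ s, g s ≠ Fl.self) →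
          q ∈ ((nxt0 (SXN X j₀) x.s).map fun q => (q.1, (g q.2, q.2))) → False := by
        intro g hg hq'
        obtain ⟨q', -, rfl⟩ := List.mem_map.1 hq'
        exact hg _ hf
      split_ifs at hm
      · exact key (fun _ => Fl.old) (fun _ h => by cases h) hm
      · exact key (fun _ => Fl.top) (fun _ h => by cases h) hm
      · exact key flS (fun s h => by unfold flS at h; split_ifs at h) hm
    | old =>
      exfalso
      have hm := (mem_nxF.1 hq).1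
      obtain ⟨q', -, rfl⟩ := List.mem_map.1 hm
      cases hf
  · -- top
    cases f with
    | self =>
      have hd := hS rfl
      obtain ⟨k1, k2⟩ := self_top_O hd (SXN_jt' X j₀ _ hd) hI q (mem_nxF.1 hq).1 hf
      have e2 : x.s.O' = ∅ := by
        rw [← hx.hi.mL.eq, hd.M]; simp
      have e3 : x.s.O = ∅ := by
        rw [← hx.hi.mR.eq, hd.M']; simp
      refine Or.inr (Or.inr ?_)
      rw [k1, k2, e2, e3]
      simp
    | top =>
      have hm := (mem_nxF.1 hq).1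
      simp only [nxF0] at hm
      split_ifs at hm with h1 h2
      · obtain ⟨q', -, rfl⟩ := List.mem_map.1 hm
        cases hf
      · obtain ⟨q', hq', rfl⟩ := List.mem_map.1 hm
        obtain ⟨k1, k2⟩ := two_O h2 q' hq'
        have hnl := CopM34.nxt0_live hq'
        have hO : x.s.O ∪ x.s.O' ⊆ {x.s.p} := by
          rcases hT rfl with h3 | h3 | h3
          · exact absurd (Or.inl h3) hnl
          · exact absurd (Or.inr h3) hnl
          · exact h3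
        have hl2 := not_or.1 hnl
        have hp := (p_prime hI hl2.1 hl2.2).1
        obtain ⟨n1, n2⟩ := two_nd h2
        have hO' : x.s.O ∪ x.s.O' = ∅ := by
          rw [Finset.eq_empty_iff_forall_notMem]
          intro l hl
          have h4 := Finset.mem_singleton.1 (hO hl)
          rw [h4] at hl
          rcases Finset.mem_union.1 hl with h5 | h5
          · exact n2 ((hx.hi.mR.mem hp).1 h5)
          · exact n1 ((hx.hi.mL.mem hp).1 h5)
        refine Or.inr (Or.inr ?_)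
        show q'.2.O ∪ q'.2.O' ⊆ {q'.2.p}
        rw [k1, k2, hO']
        exact Finset.empty_subset _
      · obtain ⟨q', hq', rfl⟩ := List.mem_map.1 hm
        have hf' : flS q'.2 = Fl.top := hf
        unfold flS at hf'
        split_ifs at hf' with h3
        exact h3
    | old =>
      exfalso
      have hm := (mem_nxF.1 hq).1
      obtain ⟨q', -, rfl⟩ := List.mem_map.1 hm
      cases hf

lemma PsV_nonneg {u₀ : NS} {f : Fl} {s : X.Sta} (h : IF X j₀ Q' u₀ f s) : 0 ≤ PsV s := by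
  obtain ⟨x, v, v', σ, σ', rfl, hx, -, -⟩ := h
  exact VWalk36.V_nonneg MX_meI aX_nonneg _ _ (VWalk36.ZOk_of_inv (wix_inv hx))

/-- a top state which is not a leaf -/
lemma stay_O {s : X.Sta} (h : stay s) (hl : ¬ (s.t.isLeaf ∨ s.t'.isLeaf)) :
    s.O ∪ s.O' ⊆ {s.p} := by
  rcases h with h | h | h
  · exact absurd (Or.inl h) hl
  · exact absurd (Or.inr h) hl
  · exact h

/-- a top state is not stopped -/
lemma stay_not_stp {s : X.Sta} (h : s.O ∪ s.O' ⊆ {s.p}) : ¬ stpN s := by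
  rintro ⟨⟨⟨l, hl⟩, -⟩, h2⟩
  have h3 := Finset.mem_singleton.1 (h hl)
  rw [h3] at hl
  exact h2 hl

section loc
variable {B₁ C Ce K₁ s₁ s₂ a η : ℝ} {al δ : ℕ → ℕ → ℝ} {e₀ : ℕ → ℝ}
  (hP : PX X j₀ Q' B₁ C Ce K₁ s₁ s₂ a η al δ e₀) (hB1 : 0 ≤ B₁) {K : ℝ} (hK : 0 ≤ K) {B : ℝ}
  (hB : B₁ + 1 + K ≤ B) (hEK : ∀ u τ, Q' u τ → EKn X K u τ)
  (hPB : ∀ u τ, Q' u τ → PBn X.par (w X.ψ) (top X.S) u τ)
include hP hB1 hK hB hEK hPB

open Classical in
/-- **the walk sum of the exits** -/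
theorem WF_xT {u₀ : NS} {z : Fl × X.Sta} (hz : IF X j₀ Q' u₀ z.1 z.2) :
    WF (SXN X j₀) (xT (SXN X j₀) (X.tm j₀) (X.tn j₀) B) z ≤ phE PsV z := by
  have hp1 : 1 ≤ p0 := by have := hP.hp; omega
  refine WF_exitF (wr := (X.c.D.par X.Y).rho) (Ad := AdI (X.c.D.par X.Y).it) (μ := X.tm j₀)
    (ν := X.tn j₀) (Iv := fun f s => IF X j₀ Q' u₀ f s) (fun f s h => h.inv)
    (fun f s h => h.next hP.G hp1) (fun f s h => h.super) (fun s h => ?_) (fun s h => ?_)
    (fun s h hx => ?_) (fun s h hx h2 => ?_) (fun s h hx h2 => ?_) hz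
  · simp only [xT]; exact le_rfl
  · simp only [xT]; exact le_rfl
  · by_cases hl : s.t.isLeaf ∨ s.t'.isLeaf
    · simp only [xT, if_pos hl]
      exact PsV_nonneg h
    · simp only [xT, if_neg hl, if_pos hx]
      obtain ⟨x, v, v', σ, σ', rfl, hw, -, hT⟩ := h
      have hO := stay_O (hT rfl) hl
      have h1 : one x.s := by
        rcases hx with hx | hx
        · exact absurd hx (stay_not_stp hO)
        · exact hx
      obtain ⟨l1, l2⟩ := not_or.1 hl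
      exact exit_one hP hB1 hK hB hEK hPB hw l1 l2 h1 hO
  · simp only [xT, if_neg hx, if_pos h2]
    split_ifs <;> exact le_rfl
  · by_cases hl : s.t.isLeaf ∨ s.t'.isLeaf
    · have e : nxt (SXN X j₀) s = [] := by simp [nxt, nxt0, hl]
      simp only [xT, if_pos hl, e, List.map_nil, List.sum_nil]
      exact le_rfl
    · simp only [xT, if_neg hl, if_neg hx, if_neg h2]
      rw [← nxt_sum]
      refine List.sum_le_sum fun q hq => ?_
      obtain ⟨x, v, v', σ, σ', rfl, hw, -, hT⟩ := h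
      have hq0 := ((wix_inv hw).next (stp := SXN X j₀) q hq).2
      refine mul_le_mul_of_nonneg_left ?_ hq0
      unfold xLS
      split_ifs with hs
      · exact le_rfl
      · have hO := stay_O (hT rfl) hl
        rw [← steps_proj (SXN X j₀) (IMI194.dvM GInst194.mI) x] at hq
        obtain ⟨e, he, rfl⟩ := List.mem_map.1 hq
        exact exit_child hP hB1 hK hB hEK hPB StX_nosplit hw hO he hs

end loc

end ctx

/-- **the part of the exits of a context** -/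
theorem part_xT (N : Skel189.Num) {C Ce K₁ dl s₁ s₂ A : ℝ}
    (hk : KOk C N.C1 N.c2 N.B K₁ dl s₁ s₂ (1/50))
    (hA : 3 * ((N.B + 2) + (CA C N.c2 s₂ + N.C1 + 1) + 4) ≤ A) :
    ∃ p₁ : ℕ, ∀ p0 ≥ p₁, ∀ (γ : ℝ) (P₀ : ℕ), 2 ≤ P₀ → ∀ (X : Ctx N γ p0 P₀) (j₀ : X.c.Lam)
      (Q' : NS → IT → Prop), All Q' ⟨top X.S, 1, 1, 1⟩ X.c.t → ∀ K : ℝ, 0 ≤ K →
      All (EKn X K) ⟨top X.S, 1, 1, 1⟩ X.c.t → ∀ B₁ B : ℝ, max 0 B₁ + 1 + K ≤ B →
      CBX X j₀ Q' B₁ C Ce K₁ s₁ s₂ (alX A γ (1 / (1 - s₂))) → ∀ Hb : NS → IT → Prop,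
      PartT X j₀ Hb (xT (SXN X j₀) (X.tm j₀) (X.tn j₀) B) 48 := by
  have hs2 := hk.s2
  have hs2' := hk.s2'
  have he1 : 1 ≤ 1 / (1 - s₂) := by
    rw [le_div_iff₀ (by linarith)]; linarith
  have he3 : 1 / (1 - s₂) ≤ 3 := by
    rw [div_le_iff₀ (by linarith)]; linarith
  have hCA := CA_nonneg hk.C0 hk.Ch0 hs2 hs2'
  have hB0 : 0 ≤ N.B := by
    have := hk.B0
    have := hk.C0
    have := hk.Cl0
    have := hk.Ch0
    linarith
  have hC1 := hk.Cl0
  have hCC : 0 ≤ CA C N.c2 s₂ + N.C1 + 1 := by linarith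
  obtain ⟨p1, h1⟩ := CtxNF36.par_PG N
  obtain ⟨p2, h2⟩ := ctx_V N
  obtain ⟨p3, -, h3⟩ := kt_ex hk Ce (η := 1/4) (by norm_num)
  obtain ⟨p4, h4⟩ := alX_pow he1
  obtain ⟨p5, h5⟩ := AccN31.dlt_le (CA C N.c2 s₂ + N.C1 + 1) hCC
  obtain ⟨p7, h7⟩ := alX_le (C' := CA C N.c2 s₂ + N.C1) he1 he3 (show (0:ℝ) ≤ 16 by norm_num)
  refine ⟨p1 + p2 + p3 + p4 + p5 + p7 + 1000, fun p0 hp0 γ P₀ hP X j₀ Q' hQ K hK hQK B₁ B hB hF
    Hb => ?_⟩
  have hψ : ∀ q, 0 ≤ w X.ψ q := fun q => by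
    have := X.sys.nonneg q
    unfold w
    positivity
  have hG : PG X.par (w X.ψ) := h1 p0 (by omega) (w X.ψ) hψ
  -- the node facts
  set Q₂ : NS → IT → Prop := fun u τ => (Q' u τ ∧ (0 < u.n →
      V stp2 aX meI ⟨1, 1, (X.c.D.par X.Y).toDT X.c.sp u.B u.A τ,
          (X.c.D.par X.Y).toDT X.c.sp u.B u.A τ⟩ Finset.univ Finset.univ ≤
        48 * (X.tn j₀ (X.g u τ) * X.tn j₀ (X.g u τ))) ∧ u.n ≤ top X.S) ∧ EKn X K u τ ∧
        PBn X.par (w X.ψ) (top X.S) u τ with hQ₂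
  have hnodes : All (NodeOk X.par (w X.ψ)) ⟨top X.S, 1, 1, 1⟩ X.c.t :=
    (CtxNF36.ctx_NF X j₀).mono fun u τ h => h.ok
  have hPBn : All (PBn X.par (w X.ψ) (top X.S)) ⟨top X.S, 1, 1, 1⟩ X.c.t :=
    All_PBn hG.w0 hG.sg0 (show 2 ≤ p0 by omega) X.c.t _ hnodes fun _ h => absurd h (lt_irrefl _)
  have hQ2 : All Q₂ ⟨top X.S, 1, 1, 1⟩ X.c.t :=
    All.mono (fun u τ h => ⟨⟨h.1.1.1, h.1.1.2, h.1.2⟩, h.2.1, h.2.2⟩)
      (((hQ.and (h2 p0 (by omega) γ P₀ hP X j₀)).and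
      (RseNd23.All_lv X.c.t ⟨top X.S, 1, 1, 1⟩ X.tOk le_rfl)).and (hQK.and hPBn))
  have hF1 : CBX X j₀ Q₂ (max 0 B₁) C Ce K₁ s₁ s₂ (alX A γ (1 / (1 - s₂))) :=
    (CBX.anti (fun u τ h => h.1.1) hF).mono hψ (le_max_right _ _)
  have hPX : PX X j₀ Q₂ (max 0 B₁) C Ce K₁ s₁ s₂ (1/50) (1/4) (alX A γ (1 / (1 - s₂)))
      (dlt p0 A (CA C N.c2 s₂ + N.C1 + 1) γ) (ew p0) :=
    { G := hG
      hp := by omega
      kt := fun b hb => h3 b (by omega)
      al1 := fun b hb B B' => h4 p0 (by omega) A γ b B B' hb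
      al0 := fun b B => alX_nonneg _ _ _ _ _
      δ0 := fun b B => dlt_nonneg _ _ _ _ _ _
      δe := fun b B => h5 p0 (by omega) A γ b B
      δal := fun b hb hpb B => by
        have := h7 p0 (by omega) A γ b B hb hpb
        refine le_trans (le_of_eq ?_) this
        rw [Real.rpow_neg_one]
        ring
      K0 := hk.K0
      s1 := by have := hk.s1; linarith
      s2 := by linarith
      s2' := hs2'
      η0 := by norm_num
      η1 := by norm_num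
      cb := hF1
      lv := fun u τ h => h.1.2.2 }
  refine All.mono (fun u τ hq hpu _ => ?_) (All_All _ _ (ctx_QE X j₀ hQ2))
  have hn0 := hq.self.n0
  have hcol : (X.self u τ Finset.univ).p ≤ u.n := by
    have h := ((X.c.D.par X.Y).toDT_Col X.c.sp τ u.n u.B u.A hq.self.ok).top_lt hn0
    exact (max_le h.le h.le)
  have hstart : WIX X j₀ Q₂ (JN X) u (XSt.st u.n (X.self u τ Finset.univ)) u u τ τ :=
    wix_start hq ⟨JC.self (PrN_toDT _ _ _ _ _ _ hq.self.ok), hcol, hcol⟩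
  have hIF : IF X j₀ Q₂ u Fl.self (X.self u τ Finset.univ) :=
    ⟨_, u, u, τ, τ, rfl, hstart, fun _ => Diag.self _ _, fun h => by cases h⟩
  have key := WF_xT hPX (le_max_left _ _) hK hB (fun u τ h => h.2.1) (fun u τ h => h.2.2)
    (z := (Fl.self, X.self u τ Finset.univ)) hIF
  rw [phE_self] at key
  have hV : PsV (X.self u τ Finset.univ) ≤ 48 * (X.tn j₀ (X.g u τ) * X.tn j₀ (X.g u τ)) :=
    hq.self.ext.1.2.1 hn0
  have e : X.mu j₀ u τ Finset.univ = X.tn j₀ (X.g u τ) := rfl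
  have hm : 0 ≤ X.tn j₀ (X.g u τ) := by
    rw [hq.self.mass]
    exact mul_nonneg hq.self.nf.c0.le (Ws_nonneg hψ _)
  rw [e]
  refine key.trans (hV.trans ?_)
  linarith

/-- **the target of the exits** from [X] and [EK] -/
theorem tgtL_of {N : Skel189.Num} {γ : ℝ} (hX : TgtX N γ) (hE : TgtEK N γ) : TgtL N γ := by
  obtain ⟨C, Ce, K₁, s₁, s₂, B₁, A, hk, hA, hX⟩ := hX
  obtain ⟨K, hK, hE⟩ := hE
  obtain ⟨pX, hpX⟩ := part_xT N (Ce := Ce) hk hA
  have hXT : Ev N γ fun p0 P₀ X => ∀ (j₀ : X.c.Lam) (Q' : NS → IT → Prop),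
      All Q' ⟨top X.S, 1, 1, 1⟩ X.c.t → ∀ K : ℝ, 0 ≤ K →
      All (EKn X K) ⟨top X.S, 1, 1, 1⟩ X.c.t → ∀ B₁ B : ℝ, max 0 B₁ + 1 + K ≤ B →
      CBX X j₀ Q' B₁ C Ce K₁ s₁ s₂ (alX A γ (1 / (1 - s₂))) → ∀ Hb : NS → IT → Prop,
      PartT X j₀ Hb (xT (SXN X j₀) (X.tm j₀) (X.tn j₀) B) 48 :=
    Ev_P2 N ⟨pX, fun p0 hp0 P₀ hP X j₀ => hpX p0 hp0 γ P₀ hP X j₀⟩
  refine ⟨max 0 B₁ + 1 + K, 48, by norm_num, ((hXT.and hX).and hE).mono ?_⟩
  rintro p0 P₀ X ⟨⟨h1, h2⟩, h3⟩ hC B hB j₀ Hb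
  obtain ⟨Q', hQ, hQ'⟩ := h2 hC j₀
  exact h1 j₀ Q' hQ K hK (h3 hC) B₁ B hB hQ' Hb

/-- **the target of the exits** for the final numbers -/
theorem tgtL_fin {th : ℝ → ℕ → (ℕ → ℝ) → Finset ℕ → ℕ → ℝ} {Sx : ℝ → ℝ → ℕ → (ℕ → ℝ) → Finset ℕ → Finset ℕ}
    (hE : ForN th Sx TgtEK) : ForN th Sx TgtL := by
  obtain ⟨c1, h1⟩ := TgtXF26.tgtX_fin
  obtain ⟨c2, h2⟩ := hE
  refine ⟨max c1 c2, fun N Ct C₀ γ hN hF hG => ?_⟩
  have red : ∀ c : ℝ, c ≤ max c1 c2 → NumFin N (th Ct) Ct c := fun c hc =>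
    ⟨hc.trans hF.C1, hF.c2, hF.B, hF.A, hF.a', hF.a, hF.Ct, hF.rg⟩
  exact tgtL_of (h1 N (th Ct) Ct C₀ γ _ hN (red _ (le_max_left _ _)))
    (h2 N Ct C₀ γ hN (red _ (le_max_right _ _)) hG)

end Crest.Agent.R4P.ExL26
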