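import Crest.Agent.R4P.DseIndA_21
import Crest.Agent.R4P.DseKid_23
import Crest.Agent.R4P.AddPath_7
import Crest.Agent.R4P.ParT_21
import Crest.Agent.R4P.FinAll_26

/-!
R4 (S0004), powers pass, [W-dseR], helper21: **the target `FinAll26.TgtD`** from the bounds of the children
(`TChK`, helper23) and the cross terms of the far nodes (`TFar`, helper7).

* `kidsP_of_kid` : bounds at all the `Kid`s give `KidsP` at all the nodes;
* `path_down` : the path sums of nonnegative charges decrease below;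
* `ctx_ZA` : path sums and cross terms of the charges `if isL t₁ then zF else zA`;
* `tgtD_of` : `TgtD N γ`.
-/

set_option autoImplicit false
set_option linter.unusedSectionVars false
set_option linter.unusedVariables false

namespace Crest.Agent.R4P.FinD21

open Crest.Agent.R4P.Cnt588 Crest.Agent.R4P.Item758 Crest.Agent.R4P.W363
open Crest.Agent.R4P.Data758 Crest.Agent.R4P.LfDat734
open Crest.Agent.R4P.Bld532 (NS All NodeOk Bk plk)
open Crest.Agent.R4P.Step588 (NDt ND1 ctx_NDt uq_lt All_All)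
open Crest.Agent.R4P.WalkIT579 (tp isL nodeOk_hi top_of_nodeOk)
open Crest.Agent.R4P.Skel189 Crest.Agent.R4P.RseSt23 Crest.Agent.R4P.DseCh23
open Crest.Agent.R4P.RseNd23 Crest.Agent.R4P.DseKid23
open Crest.Agent.R4P.Dse22 (chE LocOk dse_le dse_items)
open Crest.Agent.R4P.DseFin21 Crest.Agent.R4P.LeafIa21 Crest.Agent.R4P.DseInd21
open Crest.Agent.R4P.Frame758 (LeafAll LeafI wt tG tM tN CxOk leafIn_of tM_eq AdL_AdI)
open Crest.Agent.R4.Soft104 (w)
open Crest.Agent.R4.Item758 (IL AdI AdS AdI_all AdI_AdN AdI_univ IL_univ)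
open Crest.Agent.R4.ClosR758 (dseR din_leR LeafIn AdN MassOk)
open Crest.Agent.R4P.ClosP542 (PulG)
open Crest.Agent.R4P.AddPay7 (zA zA_nonneg eZ cr_add path_add)
open Crest.Agent.R4P.ParF5 Crest.Agent.R4P.NumX34 Crest.Agent.R4P.ParT21
open Crest.Agent.R4P.FinAll26 (TgtD NumFin Ev_P2)
open Crest.Agent.R4P.Fin5 (CF)

section ctx
variable {N : Skel189.Num} {γ : ℝ} {p0 P₀ : ℕ} {X : Ctx N γ p0 P₀}

/-! ### the children -/

/-- **bounds at all the children give `KidsP` at all the nodes** -/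
theorem kidsP_of_kid {P : ℕ → NS → IT → Prop}
    (hch : ∀ v V u τ, Kid X v V u τ → P (tp V) u τ) (t : IT) : ∀ u : NS, All (KB X) u t →
      All (KidsP P) u t := by
  induction t with
  | leaf S => intro u _; exact trivial
  | br p Sp t₁ t₀ ih₁ ih₀ =>
    intro u h
    refine ⟨⟨?_, ?_⟩, ih₁ _ h.2.1, ih₀ _ h.2.2⟩
    · exact hch u (.br p Sp t₁ t₀) _ _ (kid_of h.1 (fun hh => hh) h.2.1
        (Finset.subset_union_left) (Or.inl rfl) (Nat.le_succ p))
    · exact hch u (.br p Sp t₁ t₀) _ _ (kid_of h.1 (fun hh => hh) h.2.2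
        (Finset.subset_union_right) (Or.inr rfl) (Nat.le_succ p))
  | add b t₁ t₀ ih₁ ih₀ =>
    intro u h
    refine ⟨⟨?_, ?_⟩, ih₁ _ h.2.1, ih₀ _ h.2.2⟩
    · exact hch u (.add b t₁ t₀) _ _ (kid_of h.1 (fun hh => hh) h.2.1
        (Finset.subset_union_left) (Or.inl rfl) le_rfl)
    · exact hch u (.add b t₁ t₀) _ _ (kid_of h.1 (fun hh => hh) h.2.2
        (Finset.subset_union_right) (Or.inl rfl) le_rfl)
  | up b Sp t ih => intro u h; exact ⟨trivial, ih _ h.2⟩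
  | pl b t ih =>
    intro u h
    refine ⟨?_, ih _ h.2⟩
    exact hch u (.pl b t) _ _ (kid_of h.1 (fun hh => hh) h.2 (Finset.Subset.refl _)
      (Or.inl rfl) le_rfl)
  | far b t₁ t₀ ih₁ ih₀ =>
    intro u h
    refine ⟨⟨?_, ?_⟩, ih₁ _ h.2.1, ih₀ _ h.2.2⟩
    · exact hch u (.far b t₁ t₀) _ _ (kid_of h.1 (fun hh => hh) h.2.1
        (Finset.subset_union_left) (Or.inl rfl) le_rfl)
    · exact hch u (.far b t₁ t₀) _ _ (kid_of h.1 (fun hh => hh) h.2.2
        (Finset.subset_union_right) (Or.inl rfl) le_rfl)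

/-! ### path sums -/

/-- facts of the nodes for the path sums -/
structure PD (X : Ctx N γ p0 P₀) (u : NS) (τ : IT) : Prop where
  nd : NDt X.par (w X.ψ) X.c.t u τ
  c : 0 < u.c

theorem ctx_PD (X : Ctx N γ p0 P₀) : All (PD X) ⟨top X.S, 1, 1, 1⟩ X.c.t :=
  All.mono (fun _ _ h => ⟨h.1, h.2⟩) ((ctx_NDt X).and (ctx_cpos X))

/-- **path sums of nonnegative charges decrease below** -/
theorem path_down {e : NS → IT → X.c.Lam → ℝ}
    (he : ∀ u τ j, PD X u τ → 0 ≤ e u τ j) (t : IT) : ∀ (u : NS), All (PD X) u t →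
    ∀ F : X.c.Lam → ℝ, (∀ j : X.c.Lam, j.1.1 ∈ t.items → chE X.c.D.it e u t j ≤ F j) →
      All (fun u τ => ∀ j : X.c.Lam, j.1.1 ∈ τ.items → chE X.c.D.it e u τ j ≤ F j) u t := by
  induction t with
  | leaf S => intro u _ F hF; exact hF
  | br p Sp t₁ t₀ ih₁ ih₀ =>
    intro u h F hF
    have hd : Disjoint t₁.items t₀.items := h.1.nd.fit.2.2.1
    refine ⟨hF, ih₁ _ h.2.1 F fun j hj => ?_, ih₀ _ h.2.2 F fun j hj => ?_⟩
    · have k := hF j (Finset.mem_union_left _ hj)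
      have k1 := he u (.br p Sp t₁ t₀) j h.1
      have k2 : X.c.D.it j ∉ t₀.items := Finset.disjoint_left.1 hd hj
      simp only [chE] at k
      rw [if_neg k2] at k
      linarith
    · have k := hF j (Finset.mem_union_right _ hj)
      have k1 := he u (.br p Sp t₁ t₀) j h.1
      have k2 : X.c.D.it j ∈ t₀.items := hj
      simp only [chE] at k
      rw [if_pos k2] at k
      linarith
  | add b t₁ t₀ ih₁ ih₀ =>
    intro u h F hF
    have hd : Disjoint t₁.items t₀.items := h.1.nd.fit.1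
    refine ⟨hF, ih₁ _ h.2.1 F fun j hj => ?_, ih₀ _ h.2.2 F fun j hj => ?_⟩
    · have k := hF j (Finset.mem_union_left _ hj)
      have k1 := he u (.add b t₁ t₀) j h.1
      have k2 : X.c.D.it j ∉ t₀.items := Finset.disjoint_left.1 hd hj
      simp only [chE] at k
      rw [if_neg k2] at k
      linarith
    · have k := hF j (Finset.mem_union_right _ hj)
      have k1 := he u (.add b t₁ t₀) j h.1
      have k2 : X.c.D.it j ∈ t₀.items := hj
      simp only [chE] at k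
      rw [if_pos k2] at k
      linarith
  | up b S t ih =>
    intro u h F hF
    exact ⟨hF, ih _ h.2 F fun j hj => hF j hj⟩
  | pl b t ih =>
    intro u h F hF
    refine ⟨hF, ih _ h.2 F fun j hj => ?_⟩
    have k := hF j hj
    have k1 := he u (.pl b t) j h.1
    simp only [chE] at k
    linarith
  | far b t₁ t₀ ih₁ ih₀ =>
    intro u h F hF
    have hd : Disjoint t₁.items t₀.items := h.1.nd.fit.1
    refine ⟨hF, ih₁ _ h.2.1 F fun j hj => ?_, ih₀ _ h.2.2 F fun j hj => ?_⟩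
    · have k := hF j (Finset.mem_union_left _ hj)
      have k1 := he u (.far b t₁ t₀) j h.1
      have k2 : X.c.D.it j ∉ t₀.items := Finset.disjoint_left.1 hd hj
      simp only [chE] at k
      rw [if_neg k2] at k
      linarith
    · have k := hF j (Finset.mem_union_right _ hj)
      have k1 := he u (.far b t₁ t₀) j h.1
      have k2 : X.c.D.it j ∈ t₀.items := hj
      simp only [chE] at k
      rw [if_pos k2] at k
      linarith

/-- path sums of two families of charges: only the nodes which are not `up` nodes count -/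
theorem chE_mono {e e' : NS → IT → X.c.Lam → ℝ} (t : IT) : ∀ (u : NS),
    All (fun u τ => notUp τ → ∀ j, e u τ j ≤ e' u τ j) u t →
    ∀ j : X.c.Lam, chE X.c.D.it e u t j ≤ chE X.c.D.it e' u t j := by
  induction t with
  | leaf S => intro u _ j; exact le_rfl
  | br p Sp t₁ t₀ ih₁ ih₀ =>
    intro u h j
    have k := h.1 trivial j
    have k1 := ih₁ _ h.2.1 j
    have k0 := ih₀ _ h.2.2 j
    simp only [chE]
    split_ifs <;> linarith
  | add b t₁ t₀ ih₁ ih₀ =>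
    intro u h j
    have k := h.1 trivial j
    have k1 := ih₁ _ h.2.1 j
    have k0 := ih₀ _ h.2.2 j
    simp only [chE]
    split_ifs <;> linarith
  | up b S t ih => intro u h j; exact ih _ h.2 j
  | pl b t ih =>
    intro u h j
    have k := h.1 trivial j
    have k1 := ih _ h.2 j
    simp only [chE]
    linarith
  | far b t₁ t₀ ih₁ ih₀ =>
    intro u h j
    have k := h.1 trivial j
    have k1 := ih₁ _ h.2.1 j
    have k0 := ih₀ _ h.2.2 j
    simp only [chE]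
    split_ifs <;> linarith

/-! ### the cross terms -/

open Classical in
/-- **the charges of the cross terms**: add nodes (helper7) and far nodes -/
noncomputable def zT (X : Ctx N γ p0 P₀) (ζF : ℕ → NS → IT → IT → X.c.Lam → ℝ) (b : ℕ) (u : NS)
    (t₁ t₀ : IT) (j : X.c.Lam) : ℝ :=
  if isL t₁ then ζF b u t₁ t₀ j else zA X b u t₁ t₀ j.1.1

/-- the charges of the far nodes as charges of `chE` -/
def eF (X : Ctx N γ p0 P₀) (ζF : ℕ → NS → IT → IT → X.c.Lam → ℝ) : NS → IT → X.c.Lam → ℝ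
  | u, .far b t₁ t₀, j => ζF b u t₁ t₀ j
  | _, _, _ => 0

/-- **the far nodes** : charges `ζF`, nonnegative, `0` for the dead items, path sums `≤ z`, and the cross
terms are paid (`K` : energies of all the admissible populations at all the nodes below) -/
structure FarH (X : Ctx N γ p0 P₀) (K z : ℝ)
    (ζF : ℕ → NS → IT → IT → X.c.Lam → ℝ) : Prop where
  nn : ∀ b u t₁ t₀ j, 0 < u.c → 0 ≤ ζF b u t₁ t₀ j
  dead : ∀ b u t₁ t₀ (j : X.c.Lam), j.1.1 ∉ X.S' → ζF b u t₁ t₀ j = 0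
  path : ∀ j : X.c.Lam, j.1.1 ∈ X.S' → chE X.c.D.it (eF X ζF) ⟨top X.S, 1, 1, 1⟩ X.c.t j ≤ z
  cr : All (fun u τ => ∀ b t₁ t₀, τ = .far b t₁ t₀ →
    ∀ A : Finset X.c.Lam, AdI X.c.D.it (X.g u τ) A → All (KidsR (EKid X K)) u τ →
    CrOk X X.Y A (wt X.c.D) ζF b u t₁ t₀) ⟨top X.S, 1, 1, 1⟩ X.c.t

/-- the first child of a far node is a leaf -/
lemma far_isL {u : NS} {b : ℕ} {t₁ t₀ : IT} (h : NDt X.par (w X.ψ) X.c.t u (.far b t₁ t₀)) :
    isL t₁ := by
  obtain ⟨-, -, -, -, -, ⟨K, h1, -⟩, -⟩ := h.self.node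
  rw [h1]; trivial

/-- the first child of an add node is not a leaf -/
lemma add_not_isL {u : NS} {b : ℕ} {t₁ t₀ : IT} (h : NDt X.par (w X.ψ) X.c.t u (.add b t₁ t₀)) :
    ¬ isL t₁ := by
  obtain ⟨-, -, -, -, -, ⟨j, t', hj, h1, -⟩, -⟩ := h.self.node
  rw [h1]
  cases j with
  | zero => omega
  | succ n => exact fun h => h

/-- **the path sums of the charges of the cross terms**, root -/
lemma zT_root {ζF : ℕ → NS → IT → IT → X.c.Lam → ℝ} (j : X.c.Lam) :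
    chE X.c.D.it (eC X (fun _ _ _ _ => 0) (zT X ζF)) ⟨top X.S, 1, 1, 1⟩ X.c.t j ≤
      chE X.c.D.it (eZ X) ⟨top X.S, 1, 1, 1⟩ X.c.t j +
      chE X.c.D.it (eF X ζF) ⟨top X.S, 1, 1, 1⟩ X.c.t j := by
  have h1 : chE X.c.D.it (eC X (fun _ _ _ _ => 0) (zT X ζF)) ⟨top X.S, 1, 1, 1⟩ X.c.t j ≤
      chE X.c.D.it (fun u t j => eZ X u t j + eF X ζF u t j) ⟨top X.S, 1, 1, 1⟩ X.c.t j := by
    refine chE_mono X.c.t _ (All.mono (fun u τ h hu j => ?_) (ctx_NDt X)) j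
    cases τ with
    | leaf S => simp [eC, eZ, eF]
    | br p Sp t₁ t₀ => simp [eC, eZ, eF]
    | add b t₁ t₀ =>
      have := add_not_isL h
      simp [eC, eZ, eF, zT, this]
    | up b S t => exact absurd hu id
    | pl b t => simp [eC, eZ, eF]
    | far b t₁ t₀ =>
      have := far_isL h
      simp [eC, eZ, eF, zT, this]
  refine h1.trans (le_of_eq ?_)
  exact Crest.Agent.R4P.AddPay7.chE_add _ _ _ _ _

/-- **path sums and cross terms of the charges** -/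
theorem ctx_ZA {ζF : ℕ → NS → IT → IT → X.c.Lam → ℝ} {K z z' : ℝ}
    (hz : 0 ≤ z) (hz' : 0 ≤ z') (hK : 0 ≤ K) (hF : FarH X K z ζF)
    (hpath : ∀ j : X.c.Lam, j.1.1 ∈ X.S' →
      chE X.c.D.it (eZ X) ⟨top X.S, 1, 1, 1⟩ X.c.t j ≤ z')
    (hadd : All (fun u τ => ∀ b t₁ t₀, τ = .add b t₁ t₀ → ∀ A : Finset X.c.Lam, IL X.c.D.it A →
      ED X X.Y A b u t₁ ≤ K * (u.c * ∑ q ∈ al X t₁ A, w X.ψ q) →
      ED X X.Y A b u t₀ ≤ K * (u.c * ∑ q ∈ al X t₀ A, w X.ψ q) →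
      CrOk X X.Y A (wt X.c.D) (fun b u t₁ t₀ j => zA X b u t₁ t₀ j.1.1) b u t₁ t₀)
      ⟨top X.S, 1, 1, 1⟩ X.c.t) :
    All (PathLe X (eC X (fun _ _ _ _ => 0) (zT X ζF)) (z + z')) ⟨top X.S, 1, 1, 1⟩ X.c.t ∧
    All (CrA X K (zT X ζF)) ⟨top X.S, 1, 1, 1⟩ X.c.t := by
  classical
  -- the charges
  have hdz : ∀ b u t₁ t₀ (j : X.c.Lam), j.1.1 ∉ X.S' → zT X ζF b u t₁ t₀ j = 0 := by
    intro b u t₁ t₀ j hj
    unfold zT
    split_ifs
    · exact hF.dead _ _ _ _ _ hj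
    · unfold zA; rw [if_neg hj]
  have hnz : ∀ b u t₁ t₀ (j : X.c.Lam), 0 < u.c → 0 ≤ zT X ζF b u t₁ t₀ j := by
    intro b u t₁ t₀ j hc
    unfold zT
    split_ifs
    · exact hF.nn _ _ _ _ _ hc
    · exact zA_nonneg X b hc _ _ _
  -- nonnegative except `up` nodes: pass to the truncated charges
  set e0 : NS → IT → X.c.Lam → ℝ := fun u τ j =>
    match τ with
    | .add b t₁ t₀ => zT X ζF b u t₁ t₀ j
    | .far b t₁ t₀ => zT X ζF b u t₁ t₀ j
    | _ => 0 with he0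
  have e0nn : ∀ u τ j, PD X u τ → 0 ≤ e0 u τ j := by
    intro u τ j h
    cases τ with
    | add b t₁ t₀ => exact hnz _ _ _ _ _ h.c
    | far b t₁ t₀ => exact hnz _ _ _ _ _ h.c
    | _ => exact le_rfl
  have e0dead : ∀ (j : X.c.Lam), j.1.1 ∉ X.S' → ∀ u τ, e0 u τ j = 0 := by
    intro j hj u τ
    cases τ with
    | add b t₁ t₀ => exact hdz _ _ _ _ _ hj
    | far b t₁ t₀ => exact hdz _ _ _ _ _ hj
    | _ => rfl
  have eqv : ∀ u τ (j : X.c.Lam), notUp τ → eC X (fun _ _ _ _ => 0) (zT X ζF) u τ j = e0 u τ j := by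
    intro u τ j hu
    cases τ with
    | leaf S => rfl
    | br p Sp t₁ t₀ => simp [eC, he0]
    | add b t₁ t₀ => simp [eC, he0]
    | up b S t => exact absurd hu id
    | pl b t => simp [eC, he0]
    | far b t₁ t₀ => simp [eC, he0]
  have allT : ∀ (P : NS → IT → Prop) (hP : ∀ u τ, P u τ) (t : IT) (u : NS), All P u t := by
    intro P hP t
    induction t with
    | leaf S => intro u; exact hP _ _
    | br p Sp t₁ t₀ ih₁ ih₀ => intro u; exact ⟨hP _ _, ih₁ _, ih₀ _⟩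
    | add b t₁ t₀ ih₁ ih₀ => intro u; exact ⟨hP _ _, ih₁ _, ih₀ _⟩
    | up b S t ih => intro u; exact ⟨hP _ _, ih _⟩
    | pl b t ih => intro u; exact ⟨hP _ _, ih _⟩
    | far b t₁ t₀ ih₁ ih₀ => intro u; exact ⟨hP _ _, ih₁ _, ih₀ _⟩
  have eqc : ∀ (t : IT) (u : NS) (j : X.c.Lam),
      chE X.c.D.it (eC X (fun _ _ _ _ => 0) (zT X ζF)) u t j = chE X.c.D.it e0 u t j := by
    intro t u j
    refine le_antisymm ?_ ?_
    · exact chE_mono t u (allT _ (fun u τ hu j => (eqv u τ j hu).le) t u) j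
    · exact chE_mono t u (allT _ (fun u τ hu j => (eqv u τ j hu).ge) t u) j
  refine ⟨?_, ?_⟩
  · have hroot : ∀ j : X.c.Lam, j.1.1 ∈ X.c.t.items →
        chE X.c.D.it e0 ⟨top X.S, 1, 1, 1⟩ X.c.t j ≤ if j.1.1 ∈ X.S' then z + z' else 0 := by
      intro j _
      split_ifs with hq
      · rw [← eqc]
        refine (zT_root j).trans ?_
        have := hF.path j hq
        have := hpath j hq
        linarith
      · exact (ch_dead (fun u τ => e0dead j hq u τ) X.c.t _).le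
    have := path_down e0nn X.c.t _ (ctx_PD X) _ hroot
    refine All.mono (fun u τ h j hj => ?_) this
    rw [eqc]
    exact h j hj
  · refine All.mono (fun u τ hh => ?_) ((hadd.and hF.cr).and ((ctx_NDt X).and (ctx_cpos X)))
    obtain ⟨⟨g1, g2⟩, hn, hc⟩ := hh
    have conv : ∀ {A : Finset X.c.Lam} {ζ : ℕ → NS → IT → IT → X.c.Lam → ℝ} {b : ℕ} {t₁ t₀ : IT},
        (∀ j, ζ b u t₁ t₀ j = zT X ζF b u t₁ t₀ j) →
        CrOk X X.Y A (wt X.c.D) ζ b u t₁ t₀ → CrOk X X.Y A (wt X.c.D) (zT X ζF) b u t₁ t₀ := by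
      intro A ζ b t₁ t₀ he h
      unfold CrOk at h ⊢
      refine h.trans (le_of_eq ?_)
      congr 1
      exact Finset.sum_congr rfl fun j _ => by rw [he j]
    cases τ with
    | leaf S => trivial
    | br p Sp t₁ t₀ => trivial
    | add b t₁ t₀ =>
      intro A hA hE
      have hl := add_not_isL hn
      have k := AdI_AdN X.c.D.it (X.g u (.add b t₁ t₀)) A hA
      have e1 : ED X X.Y A b u t₁ ≤ K * ma X A u t₁ := hE.self.1 A k.2.1
      have e0 : ED X X.Y A b u t₀ ≤ K * ma X A u t₀ := hE.self.2 A k.2.2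
      exact conv (fun j => by unfold zT; rw [if_neg hl]) (g1 b t₁ t₀ rfl A hA.2
        (e1.trans (mul_le_mul_of_nonneg_left (ma_le hc.le A t₁) hK))
        (e0.trans (mul_le_mul_of_nonneg_left (ma_le hc.le A t₀) hK)))
    | up b S t => trivial
    | pl b t => trivial
    | far b t₁ t₀ =>
      intro A hA hE
      have hl := far_isL hn
      exact conv (fun j => by unfold zT; rw [if_pos hl]) (g2 b t₁ t₀ rfl A hA hE)

end ctx

/-! ### the target -/

/-- **the children** (helper23) : `ChOk` at all the children, charges `eD X K κ 1` -/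
def TChK (N : Skel189.Num) (γ K κ : ℝ) : Prop :=
  Ev N γ fun p0 P₀ X => CF X → ∀ A : Finset X.c.Lam, IL X.c.D.it A → ∀ v V u τ, Kid X v V u τ →
    ChOk X X.Y A (wt X.c.D) (eD X K κ 1) (tp V) u τ

/-- **the far nodes** (helper7) : for every `K` -/
def TFar (N : Skel189.Num) (γ : ℝ) : Prop :=
  ∃ z : ℝ, 0 ≤ z ∧ ∀ K : ℝ, 0 ≤ K → Ev N γ fun p0 P₀ X => CF X →
    ∃ ζF : ℕ → NS → IT → IT → X.c.Lam → ℝ, FarH X K z ζF

/-- **the target of [W-dseR]** -/
theorem tgtD_of : ∃ c : ℝ, ∀ (N : Skel189.Num) (Ct C₀ : ℝ)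
    (Sx : ℕ → (ℕ → ℝ) → Finset ℕ → Finset ℕ), NumOK N (thF Ct) Ct C₀ Sx →
    NumFin N (thF Ct) Ct c → ∀ (γ K κ : ℝ), N.B + 2 ≤ K → N.C1 + N.c2 + 2 ≤ κ → κ ≤ K →
      TChK N γ K κ → TFar N γ → TgtD N γ := by
  obtain ⟨c0, CI, hc0, hCI, HI⟩ := leafIa_ctx
  obtain ⟨κ₀, hκ₀, HA⟩ := cr_add
  have hi0 : 0 < 1 / c0 := by positivity
  refine ⟨1 / c0 + 10 * κ₀ + 100, fun N Ct C₀ Sx h hN γ K κ hK hk hkK hCh hFar => ?_⟩
  obtain ⟨z, hz, hFar⟩ := hFar
  have c1 := hN.C1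
  have c2 := hN.c2
  have cB := hN.B
  have cA := hN.A
  have ca' := hN.a'
  have ca := hN.a
  have cCt := hN.Ct
  have hCt : 0 ≤ Ct := h.Ct0
  obtain ⟨p₂, hL⟩ := h.lnum
  set Kc : ℝ := CI + (1 + 12 + (z + 1)) + (1 + 12) with hKc
  have hKc0 : 0 ≤ Kc := by linarith
  -- the leaves
  obtain ⟨q1, H1⟩ := HI N _ _ _ _ p₂ h.c20 (by linarith) (by linarith) le_rfl hL
  -- the add nodes
  have e1 : Crest.Agent.R4.ClsS.eps1 = 1 / 1000 := rfl
  obtain ⟨q2, H2⟩ := HA N Ct (N.a' + 1) Kc hCt hKc0 (by linarith) le_rfl (by linarith)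
    (by rw [ca', ca, cCt, e1]; linarith) (by rw [ca', ca, cCt, c2]; linarith)
  obtain ⟨q3, H3⟩ := path_add N
  obtain ⟨q4, H4⟩ := part_dseF' N hK hk hkK
  obtain ⟨q5, H5⟩ := ctx_KB N
  obtain ⟨q6, H6⟩ := ctx_NF N
  -- smallness of the path sums of the add nodes
  obtain ⟨q7, H7⟩ : ∃ q7 : ℕ, ∀ p0 ≥ q7,
      2 * Real.log p0 ^ (-N.A) + 4 * (p0:ℝ) ^ (-(1/100):ℝ) ≤ 1 := by
    have t1 : Filter.Tendsto (fun p0 : ℕ => 2 * Real.log p0 ^ (-N.A)) Filter.atTop (nhds (2 * 0)) :=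
      (((tendsto_rpow_neg_atTop (by linarith : 0 < N.A)).comp
        (Real.tendsto_log_atTop.comp tendsto_natCast_atTop_atTop))).const_mul 2
    have t2 : Filter.Tendsto (fun p0 : ℕ => 4 * (p0:ℝ) ^ (-(1/100):ℝ)) Filter.atTop (nhds (4 * 0)) :=
      ((tendsto_rpow_neg_atTop (by norm_num : (0:ℝ) < 1/100)).comp
        tendsto_natCast_atTop_atTop).const_mul 4
    have t3 := t1.add t2
    rw [mul_zero, mul_zero, add_zero] at t3
    obtain ⟨q, hq⟩ := Filter.eventually_atTop.1 (t3.eventually (gt_mem_nhds one_pos))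
    exact ⟨q, fun p0 hp => (hq p0 hp).le⟩
  obtain ⟨q8, H8⟩ := h.thlo
  obtain ⟨q9, H9⟩ := hCh
  obtain ⟨q10, H10⟩ := hFar Kc hKc0
  refine ⟨1 + 12 + (z + 1), by linarith,
    q1 + q2 + q3 + q4 + q5 + q6 + q7 + q8 + q9 + q10 + 3, fun p0 hp0 => ?_⟩
  obtain ⟨Q9, H9⟩ := H9 p0 (by omega)
  obtain ⟨Q10, H10⟩ := H10 p0 (by omega)
  refine ⟨Q9 + Q10 + 2, fun P₀ hP X hC j₀ Hb => ?_⟩
  have hP2 : 2 ≤ P₀ := by omega
  have hCh := H9 P₀ (by omega) X hC
  obtain ⟨ζF, hF⟩ := H10 P₀ (by omega) X hC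
  have hRG := ctx_RG h X
  have hthr : ∀ p, p0 < p → Real.log p ^ (-Ct) ≤ X.c.wp.thr p := by
    intro p hp
    rw [NumX34.thr_eq h X]
    exact H8 p0 (by omega) _ _ p hp.le
  have hadd : All (fun u τ => ∀ b t₁ t₀, τ = .add b t₁ t₀ → ∀ A : Finset X.c.Lam,
      IL X.c.D.it A →
      ED X X.Y A b u t₁ ≤ Kc * (u.c * ∑ q ∈ al X t₁ A, w X.ψ q) →
      ED X X.Y A b u t₀ ≤ Kc * (u.c * ∑ q ∈ al X t₀ A, w X.ψ q) →
      CrOk X X.Y A (wt X.c.D) (fun b u t₁ t₀ j => zA X b u t₁ t₀ j.1.1) b u t₁ t₀)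
      ⟨top X.S, 1, 1, 1⟩ X.c.t := by
    refine All.mono (fun u τ hn b t₁ t₀ e A hA h1 h0 => ?_) (H6 p0 (by omega) γ P₀ hP2 X)
    subst e
    exact H2 p0 (by omega) γ P₀ hP2 X hC.rse hC.d1 hthr X.Y u b t₁ t₀ hn A hA h1 h0
  obtain ⟨hZ1, hZ2⟩ := ctx_ZA hz zero_le_one hKc0 hF
    (fun j hj => (H3 p0 (by omega) γ P₀ hP2 X hC.rse j hj).trans (H7 p0 (by omega))) hadd
  exact H4 p0 (by omega) γ P₀ X hRG CI 1 (z + 1) zero_le_one (by linarith) (by linarith)
    (H1 p0 (by omega) γ P₀ hP2 X) (zT X ζF) hZ1 hZ2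
    (fun A hA => kidsP_of_kid (hCh A hA) X.c.t _ (H5 p0 (by omega) γ P₀ hP2 X)) j₀ Hb

end Crest.Agent.R4P.FinD21
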