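import Crest.Agent.R4P.FarCr_7
import Crest.Agent.R4P.FinD_21

/-!
R4 (S0004), POWERS, module dseR (D3), helper7: **the far nodes**.

* `NE_of` : the energies of the children of the base of a near child from `EKid` at the nodes below;
* `path_far` : the charges of the far nodes along a path;
* `tfar` : `FinD21.TFar N γ`.
-/

set_option autoImplicit false
set_option linter.unusedSectionVars false
set_option linter.unusedVariables false

open MeasureTheory Filter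

namespace Crest.Agent.R4P.FarPay7

open Crest.Agent.R4P.Cnt588 Crest.Agent.R4P.Item758 Crest.Agent.R4P.W363
open Crest.Agent.R4P.Data758 Crest.Agent.R4P.OmSt532 Crest.Agent.R4P.OmData532
open Crest.Agent.R4P.LfDat734 Crest.Agent.R4P.WPex189
open Crest.Agent.R4P.Bld532
open Crest.Agent.R4P.Step588 (NDt ND1 ctx_NDt uq_lt)
open Crest.Agent.R4P.WalkIT579 (tp isL nodeOk_hi top_of_nodeOk)
open Crest.Agent.R4P.Skel189 Crest.Agent.R4P.RseSt23 Crest.Agent.R4P.RseNd23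
open Crest.Agent.R4.Soft104 (w)
open Crest.Agent.R4P.AvgItem710
open Crest.Agent.R4.ClosL758 Crest.Agent.R4.ClosR758 Crest.Agent.R4.Tour104 Crest.Agent.R4.Fam464
open Crest.Agent.R4.Tour758 Crest.Agent.R4.Avg758
open Crest.Agent.R4P.AddNode7 Crest.Agent.R4P.FarLift7 Crest.Agent.R4P.DseCh23
open Crest.Agent.R4P.DseInd21 (ED EKid KidsR ma ma_le)
open Crest.Agent.R4P.FarNear7 Crest.Agent.R4P.FarNode7
open Crest.Agent.R4.Item758 (IL AdI AdS AdI_AdN)
open Crest.Agent.R4P.Dse22 (chE)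
open Crest.Agent.R4P.FinD21 (FarH TFar)
open Crest.Agent.R4P.ParF5 Crest.Agent.R4P.ParT21
open Crest.Agent.R4P.Fin5 (CF)
open Crest.Agent.R4

section ctx
variable {N : Skel189.Num} {γ : ℝ} {p0 P₀ : ℕ} {X : Ctx N γ p0 P₀}

/-- `A ∩ sp p` is admissible below the level `p` -/
lemma AdI_sp {t : IT} {u : NS} {p : ℕ} (hn : u.n = p) (hO : t.Ok p) {A : Finset X.c.Lam}
    (hA : AdI X.c.D.it (X.g u t) A) : AdI X.c.D.it (X.g u t) (A ∩ X.c.sp p) := by
  have hs : AdS (X.g u t) (X.c.sp p) :=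
    (X.c.D.par X.Y).AdS_sp (X.ok.spok.spOk X.Y) t p u.B u.A hO le_rfl
  exact ⟨hA.1.inter hs, hA.2.inter (X.c.IL_sp p)⟩

/-- **the energies of the children of the base of a near child** -/
theorem NE_of {K : ℝ} (hK : 0 ≤ K) : ∀ (t : IT) (u : NS) (b : ℕ), b.Prime →
    CrossSum29.NearI t → u.n = b + 1 → NDt X.par (w X.ψ) X.c.t u t → 0 ≤ u.c →
    EKid X K b u t → All (KidsR (EKid X K)) u t → ∀ A : Finset X.c.Lam,
    AdI X.c.D.it (X.g u t) A → NE X X.Y A K u t := by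
  intro t
  induction t with
  | leaf S => intro u b _ _ _ _ _ _ _ A _; trivial
  | br p Sp t₁ t₀ ih₁ ih₀ =>
    intro u b hb _ hn h hc hE hall A hA
    have hO := h.self.node
    have hok : (IT.br p Sp t₁ t₀).Ok u.n := h.self.ok
    have k := AdI_AdN X.c.D.it (X.g u (.br p Sp t₁ t₀)) A hA
    have hp2 : (2:ℝ) ≤ p := by exact_mod_cast hO.1.two_le
    have h1p : 0 < 1 - 1 / (p:ℝ) := by
      have : 1 / (p:ℝ) ≤ 1 / 2 := one_div_le_one_div_of_le (by norm_num) hp2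
      linarith
    have hc1 : 0 ≤ u.c / (1 - 1 / (p:ℝ)) := by positivity
    have hc0 : 0 ≤ u.c * p := by positivity
    refine ⟨?_, ?_⟩
    · have e1 := hall.self.1 (A ∩ X.c.sp p)
        (AdI_sp (u := ⟨p, u.c / (1 - 1 / (p : ℝ)), u.A * p, u.B⟩) rfl hok.2.2.2.2.1 k.2.1)
      exact e1.trans (mul_le_mul_of_nonneg_left (ma_le (u := ⟨p, u.c / (1 - 1 / (p : ℝ)), u.A * p, u.B⟩) hc1 _ _) hK)
    · have e0 := hall.self.2 A k.2.2
      exact e0.trans (mul_le_mul_of_nonneg_left (ma_le (u := ⟨p, u.c * p, u.A, u.B * p⟩) hc0 _ _) hK)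
  | add p t₁ t₀ ih₁ ih₀ => intro u b _ hI; exact absurd hI (fun h => h)
  | up p Sp t ih =>
    intro u b hb _ hn h hc hE hall A hA
    have hO := h.self.node
    have hok : (IT.up p Sp t).Ok u.n := h.self.ok
    have e : p = b := col_eq (n := u.n) hb (by omega) (by rw [hn]; exact max_succ b) hO.1 hO.2.1
      hO.2.2.2.1
    subst e
    have hA' : AdI X.c.D.it (X.g u (.up p Sp t)) (A ∩ X.c.sp p) :=
      AdI_sp (u := ⟨p, u.c, u.A, u.B⟩) (t := t) rfl hok.2.2.2 hA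
    have e1 := hE (A ∩ X.c.sp p) hA'
    have e2 := ma_le (X := X) hc (A ∩ X.c.sp p) (.up p Sp t)
    exact e1.trans (mul_le_mul_of_nonneg_left e2 hK)
  | pl p t ih =>
    intro u b hb hI hn h hc hE hall A hA
    have hO := h.self.node
    have k := AdI_AdN X.c.D.it (X.g u (.pl p t)) A hA
    exact ih ⟨p + 1, u.c, u.A * p, u.B⟩ p hO.1 hI rfl (NDt_pl h) hc hall.self hall.2 A k.2.1
  | far p t₁ t₀ ih₁ ih₀ => intro u b _ hI; exact absurd hI (fun h => h)

/-! ### path sums -/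

open Classical in
/-- charge of a column in the potential -/
noncomputable def Gc (X : Ctx N γ p0 P₀) (κ : ℝ) (q b : ℕ) : ℝ :=
  (if b ∈ X.c.t.mt q ∨ b ∈ X.c.t.uq q then Real.log b ^ (-κ) else 0) + Real.log b ^ (-κ) / b

lemma Gc_nonneg (X : Ctx N γ p0 P₀) (κ : ℝ) (q b : ℕ) : 0 ≤ Gc X κ q b := by
  unfold Gc
  have := Real.log_natCast_nonneg b
  split_ifs <;> positivity

open Classical in
/-- the potential -/
noncomputable def Pz (X : Ctx N γ p0 P₀) (κ : ℝ) (q n : ℕ) : ℝ :=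
  ∑ b ∈ (Finset.range n).filter (fun b => b.Prime ∧ p0 < b), Gc X κ q b

lemma Pz_nonneg (X : Ctx N γ p0 P₀) (κ : ℝ) (q n : ℕ) : 0 ≤ Pz X κ q n :=
  Finset.sum_nonneg fun b _ => Gc_nonneg X κ q b

lemma Pz_mono (X : Ctx N γ p0 P₀) (κ : ℝ) (q : ℕ) {n n' : ℕ} (h : n ≤ n') :
    Pz X κ q n ≤ Pz X κ q n' := by
  unfold Pz
  refine Finset.sum_le_sum_of_subset_of_nonneg (fun b hb => ?_) fun b _ _ => Gc_nonneg X κ q b
  rw [Finset.mem_filter, Finset.mem_range] at hb ⊢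
  exact ⟨lt_of_lt_of_le hb.1 h, hb.2⟩

lemma Pz_step (X : Ctx N γ p0 P₀) (κ : ℝ) (q : ℕ) {b : ℕ} (hb : b.Prime) (hbp : p0 < b) :
    Gc X κ q b + Pz X κ q b ≤ Pz X κ q (b + 1) := by
  classical
  unfold Pz
  have e : (Finset.range (b + 1)).filter (fun b => b.Prime ∧ p0 < b) =
      insert b ((Finset.range b).filter (fun b => b.Prime ∧ p0 < b)) := by
    ext x
    rw [Finset.mem_insert, Finset.mem_filter, Finset.mem_filter, Finset.mem_range,
      Finset.mem_range]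
    constructor
    · rintro ⟨h1, h2⟩
      rcases Nat.lt_succ_iff_lt_or_eq.1 h1 with h3 | h3
      · exact Or.inr ⟨h3, h2⟩
      · exact Or.inl h3
    · rintro (rfl | ⟨h1, h2⟩)
      · exact ⟨Nat.lt_succ_self _, hb, hbp⟩
      · exact ⟨Nat.lt_succ_of_lt h1, h2⟩
  rw [e, Finset.sum_insert (by simp)]

/-- the charges of the far nodes -/
noncomputable def ζF (X : Ctx N γ p0 P₀) (κ : ℝ) : ℕ → NS → IT → IT → X.c.Lam → ℝ :=
  fun b _ _ t₀ j => zF X κ b t₀ j.1.1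

lemma zF_le (X : Ctx N γ p0 P₀) {κ : ℝ} (hκ : 0 ≤ κ) {b : ℕ} (hb : 3 ≤ b) (t₀ : IT) (q : ℕ) :
    zF X κ b t₀ q ≤ 1 := by
  have hl1 : 1 ≤ Real.log (b:ℝ) := Bld532.one_le_log_nat hb
  have hb1 : (1:ℝ) ≤ b := by exact_mod_cast (by omega : 1 ≤ b)
  have h1 : Real.log (b:ℝ) ^ (-κ) ≤ 1 := Real.rpow_le_one_of_one_le_of_nonpos hl1 (by linarith)
  have h0 : 0 ≤ Real.log (b:ℝ) ^ (-κ) := Real.rpow_nonneg (by linarith) _
  have h2 : Real.log (b:ℝ) ^ (-κ) / b ≤ 1 := (div_le_self h0 hb1).trans h1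
  unfold zF
  split_ifs <;> linarith

lemma zF_Gc (X : Ctx N γ p0 P₀) {κ : ℝ} {b : ℕ} {t₀ : IT} {q : ℕ} (hq : q ∈ t₀.items)
    (hl : ¬ lfB t₀) : zF X κ b t₀ q ≤ Gc X κ q b := by
  classical
  have := Real.log_natCast_nonneg b
  have h0 : 0 ≤ Real.log (b:ℝ) ^ (-κ) := Real.rpow_nonneg this _
  have h1 : 0 ≤ Real.log (b:ℝ) ^ (-κ) / b := by positivity
  unfold zF Gc
  by_cases hs : spc X b t₀ q
  · have h2 : b ∈ X.c.t.mt q ∨ b ∈ X.c.t.uq q := by
      rcases hs with h | h | h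
      · exact Or.inl h
      · exact Or.inr h
      · exact absurd h hl
    rw [if_pos h2]
    split_ifs with h3 h4
    · exact absurd hs h4.2
    · linarith
    · linarith
  · have h2 : ¬ (b ∈ X.c.t.mt q ∨ b ∈ X.c.t.uq q) := by
      rintro (h | h)
      · exact hs (Or.inl h)
      · exact hs (Or.inr (Or.inl h))
    rw [if_neg h2, if_pos (⟨hq, hs⟩ : q ∈ t₀.items ∧ ¬ spc X b t₀ q)]
    split_ifs
    · linarith
    · linarith

/-- no charges below a base leaf -/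
lemma chE_lfB {κ : ℝ} (j : X.c.Lam) : ∀ (t : IT) (u : NS), lfB t →
    chE X.c.D.it (FinD21.eF X (ζF X κ)) u t j = 0 := by
  intro t
  induction t with
  | leaf S => intro u _; rfl
  | br p Sp t₁ t₀ ih₁ ih₀ => intro u h; exact absurd h (fun h => h)
  | add b t₁ t₀ ih₁ ih₀ => intro u h; exact absurd h (fun h => h)
  | up b Sp t ih => intro u h; exact absurd h (fun h => h)
  | pl p t ih =>
    intro u h
    have h' : lfB t := h
    simp only [chE, FinD21.eF, zero_add]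
    exact ih _ h'
  | far b t₁ t₀ ih₁ ih₀ => intro u h; exact absurd h (fun h => h)

/-- **the charges of the far nodes along a path** -/
theorem path_far {κ : ℝ} (hκ : 0 ≤ κ) (hp0 : 3 ≤ p0) (j : X.c.Lam) : ∀ (t : IT) (u : NS),
    All (fun u τ => NodeOk X.par (w X.ψ) u τ) u t → CrossSum29.FarI t →
    chE X.c.D.it (FinD21.eF X (ζF X κ)) u t j ≤ 1 + Pz X κ j.1.1 u.n ∧
    (CrossSum29.NearI t → ∀ b : ℕ, b.Prime → u.n = b + 1 →
      chE X.c.D.it (FinD21.eF X (ζF X κ)) u t j ≤ 1 + Pz X κ j.1.1 b) := by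
  intro t
  induction t with
  | leaf S =>
    intro u _ _
    refine ⟨?_, fun _ b _ _ => ?_⟩
    · have := Pz_nonneg X κ j.1.1 u.n
      simp only [chE]; linarith
    · have := Pz_nonneg X κ j.1.1 b
      simp only [chE]; linarith
  | br p Sp t₁ t₀ ih₁ ih₀ =>
    intro u h hF
    have hO := h.1
    have h1 := (ih₁ _ h.2.1 hF.1).1
    have h0 := (ih₀ _ h.2.2 hF.2).1
    have key : ∀ m : ℕ, p ≤ m → chE X.c.D.it (FinD21.eF X (ζF X κ)) u (.br p Sp t₁ t₀) j ≤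
        1 + Pz X κ j.1.1 m := by
      intro m hm
      have hmm := Pz_mono X κ j.1.1 hm
      simp only [chE, FinD21.eF, zero_add]
      split_ifs
      · exact h0.trans (by linarith)
      · exact h1.trans (by linarith)
    refine ⟨key _ hO.2.1.le, fun _ b hb hn => ?_⟩
    have e : p = b := col_eq (n := u.n) hb (by omega) (by rw [hn]; exact max_succ b) hO.1 hO.2.1
      hO.2.2.2.1
    exact key b e.le
  | add p t₁ t₀ ih₁ ih₀ =>
    intro u h hF
    have hO := h.1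
    have h1 := (ih₁ _ h.2.1 hF.2.1).1
    have h0 := (ih₀ _ h.2.2 hF.2.2).1
    refine ⟨?_, fun hI => absurd hI (fun h => h)⟩
    have hmm := Pz_mono X κ j.1.1 (n := p + 1) (n' := u.n) hO.2.1
    simp only [chE, FinD21.eF, zero_add]
    split_ifs
    · exact h0.trans (by linarith)
    · exact h1.trans (by linarith)
  | up p Sp t ih =>
    intro u h hF
    have hO := h.1
    have h1 := (ih _ h.2 hF).1
    have key : ∀ m : ℕ, p ≤ m → chE X.c.D.it (FinD21.eF X (ζF X κ)) u (.up p Sp t) j ≤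
        1 + Pz X κ j.1.1 m := by
      intro m hm
      have hmm := Pz_mono X κ j.1.1 hm
      simp only [chE]
      exact h1.trans (by linarith)
    refine ⟨key _ hO.2.1.le, fun _ b hb hn => ?_⟩
    have e : p = b := col_eq (n := u.n) hb (by omega) (by rw [hn]; exact max_succ b) hO.1 hO.2.1
      hO.2.2.2.1
    exact key b e.le
  | pl p t ih =>
    intro u h hF
    have hO := h.1
    have h1 := ih _ h.2 hF
    refine ⟨?_, fun hI b hb hn => ?_⟩
    · have hmm := Pz_mono X κ j.1.1 (n := p + 1) (n' := u.n) hO.2.1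
      simp only [chE, FinD21.eF, zero_add]
      exact h1.1.trans (by linarith)
    · have e : p = b := col_eq (n := u.n) hb (by omega) (by rw [hn]; exact max_succ b) hO.1 hO.2.1
        hO.2.2.2.1
      simp only [chE, FinD21.eF, zero_add]
      exact h1.2 hI b hb (by show p + 1 = b + 1; rw [e])
  | far b t₁ t₀ ih₁ ih₀ =>
    intro u h hF
    refine ⟨?_, fun hI => absurd hI (fun h => h)⟩
    have hO := h.1
    have hbp := hO.1
    have hbn := hO.2.1
    have hp0b : p0 < b := hO.2.2.1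
    obtain ⟨⟨S, rfl⟩, hN, hF0⟩ := hF
    have hmm := Pz_mono X κ j.1.1 (n := b + 1) (n' := u.n) hbn
    have hPn := Pz_nonneg X κ j.1.1 u.n
    have hle := zF_le X hκ (b := b) (by omega) t₀ j.1.1
    simp only [chE, FinD21.eF, ζF]
    by_cases hj : X.c.D.it j ∈ t₀.items
    · rw [if_pos hj]
      by_cases hl : lfB t₀
      · have e := chE_lfB (X := X) (κ := κ) j t₀ ⟨b + 1, u.c, u.A, u.B⟩ hl
        rw [e, add_zero]
        linarith
      · have h1 := (ih₀ _ h.2.2 hF0).2 hN b hbp rfl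
        have h2 := zF_Gc X (κ := κ) (b := b) (t₀ := t₀) (q := j.1.1) hj hl
        have h3 := Pz_step X κ j.1.1 hbp hp0b
        linarith
    · rw [if_neg hj]
      linarith

end ctx

/-- the potential is bounded -/
theorem Pz_le (N : Skel189.Num) : ∃ p₁ : ℕ, ∀ p0 ≥ p₁, ∀ (γ : ℝ) (P₀ : ℕ) (X : Ctx N γ p0 P₀),
    ∀ q ∈ X.S', ∀ n : ℕ, Pz X (N.B + 2) q n ≤ 1 := by
  classical
  obtain ⟨p1, h1⟩ := RseN630.ctx_path N (N.B + 2) (ε := 1 / 3) le_rfl (by norm_num)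
  refine ⟨p1 + 3, fun p0 hp0 γ P₀ X q hq n => ?_⟩
  obtain ⟨c1, c2, c3, -⟩ := h1 p0 (by omega) γ P₀ X
  have g1 := c1 q hq
  have g2 := c2 q hq
  have g3 := c3 ((Finset.range n).filter fun b => b.Prime ∧ p0 < b) (fun b hb =>
    (Finset.mem_filter.1 hb).2)
  have hnn : ∀ b : ℕ, 0 ≤ Real.log (b:ℝ) ^ (-(N.B + 2)) := fun b =>
    Real.rpow_nonneg (Real.log_natCast_nonneg b) _
  have e : ∀ b ∈ (Finset.range n).filter (fun b => b.Prime ∧ p0 < b), Gc X (N.B + 2) q b ≤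
      ((if b ∈ X.c.t.mt q then Real.log b ^ (-(N.B + 2)) else 0) +
      (if b ∈ X.c.t.uq q then Real.log b ^ (-(N.B + 2)) else 0)) +
      (Real.log b ^ (-(N.B + 2)) / b + 1 / (b:ℝ) ^ 2) := by
    intro b _
    have hn : (0:ℝ) ≤ 1 / (b:ℝ) ^ 2 := by positivity
    have h0 := hnn b
    unfold Gc
    by_cases hm : b ∈ X.c.t.mt q <;> by_cases hu : b ∈ X.c.t.uq q <;>
      simp only [hm, hu, if_true, if_false, or_true, true_or, or_self] <;> linarith
  unfold Pz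
  refine (Finset.sum_le_sum e).trans ?_
  rw [Finset.sum_add_distrib, Finset.sum_add_distrib, ← Finset.sum_filter, ← Finset.sum_filter]
  have s1 : ∑ b ∈ ((Finset.range n).filter fun b => b.Prime ∧ p0 < b).filter
      (fun b => b ∈ X.c.t.mt q), Real.log b ^ (-(N.B + 2)) ≤
      ∑ b ∈ X.c.t.mt q, Real.log b ^ (-(N.B + 2)) :=
    Finset.sum_le_sum_of_subset_of_nonneg (fun b hb => (Finset.mem_filter.1 hb).2)
      fun b _ _ => hnn b
  have s2 : ∑ b ∈ ((Finset.range n).filter fun b => b.Prime ∧ p0 < b).filter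
      (fun b => b ∈ X.c.t.uq q), Real.log b ^ (-(N.B + 2)) ≤
      ∑ b ∈ X.c.t.uq q, Real.log b ^ (-(N.B + 2)) :=
    Finset.sum_le_sum_of_subset_of_nonneg (fun b hb => (Finset.mem_filter.1 hb).2)
      fun b _ _ => hnn b
  linarith

/-- **the far nodes** -/
theorem tfar {N : Skel189.Num} {th : ℕ → (ℕ → ℝ) → Finset ℕ → ℕ → ℝ} {Ct C₀ : ℝ}
    {Sx : ℕ → (ℕ → ℝ) → Finset ℕ → Finset ℕ} (h : NumOK N th Ct C₀ Sx) (γ : ℝ) : TFar N γ := by
  obtain ⟨κ₀, hκ₀, HC⟩ := cr_far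
  have hB := N.hB
  have hC1 := N.hC1
  have hc2 := N.hc2
  have hκ : 0 ≤ N.B + 2 := by linarith
  have hCt : 0 ≤ Ct := h.Ct0
  refine ⟨2, by norm_num, fun K hK => ?_⟩
  obtain ⟨q1, H1⟩ := HC N Ct K (N.B + 2) hCt hK hκ
  obtain ⟨q2, H2⟩ := Pz_le N
  obtain ⟨q3, H3⟩ := ctx_NF N
  obtain ⟨q4, H4⟩ := h.thlo
  refine ⟨q1 + q2 + q3 + q4 + 3, fun p0 hp0 => ⟨2, fun P₀ hP X hC => ⟨ζF X (N.B + 2), ?_⟩⟩⟩
  have hthr : ∀ p, p0 < p → Real.log p ^ (-Ct) ≤ X.c.wp.thr p := by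
    intro p hp
    rw [NumX34.thr_eq h X]
    exact H4 p0 (by omega) _ _ p hp.le
  refine
    { nn := fun b u t₁ t₀ j _ => zF_nonneg X _ b t₀ j.1.1
      dead := fun b u t₁ t₀ j hj => by
        show zF X _ b t₀ j.1.1 = 0
        unfold zF
        rw [if_neg hj]
      path := fun j hj => ?_
      cr := ?_ }
  · have h1 := (path_far (X := X) hκ (by omega) j X.c.t ⟨top X.S, 1, 1, 1⟩ X.nodes
      (CrossSum29.ctx_FarI X ⟨top X.S, 1, 1, 1⟩).self).1
    have h2 := H2 p0 (by omega) γ P₀ X j.1.1 hj (top X.S)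
    have h3 : Pz X (N.B + 2) j.1.1 (⟨top X.S, 1, 1, 1⟩ : NS).n =
      Pz X (N.B + 2) j.1.1 (top X.S) := rfl
    linarith
  · refine All.mono (fun u τ hh b t₁ t₀ e A hA hall => ?_)
      ((H3 p0 (by omega) γ P₀ hP X).and (CrossSum29.ctx_FarI X ⟨top X.S, 1, 1, 1⟩))
    obtain ⟨hN, hI⟩ := hh
    subst e
    have k := AdI_AdN X.c.D.it (X.g u (.far b t₁ t₀)) A hA
    have hc := hN.c0
    have n0 := NDt_far₀ hN.nd
    have e1 : ED X X.Y A b u t₁ ≤ K * ma X A u t₁ := hall.self.1 A k.2.1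
    have e0 : ED X X.Y A b u t₀ ≤ K * ma X A u t₀ := hall.self.2 A k.2.2
    refine H1 p0 (by omega) γ P₀ hP X hC.rse hC.d1 hthr X.Y u b t₁ t₀ hN hI.2.1 A hA.2
      (e1.trans (mul_le_mul_of_nonneg_left (ma_le hc.le A t₁) hK))
      (e0.trans (mul_le_mul_of_nonneg_left (ma_le hc.le A t₀) hK)) ?_
    exact NE_of hK t₀ ⟨b + 1, u.c, u.A, u.B⟩ b hN.nd.self.node.1 hI.2.1 rfl n0 hc.le
      hall.self.2 hall.2.2 A k.2.2

end Crest.Agent.R4P.FarPay7
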