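import Crest.Agent.R4P.FlF_845
import Crest.Agent.R4P.NodeG_33
import Crest.Agent.R4P.TYI_47

/-!
R4 (S0004) with powers, T3, helper845: **walk sums of member terms by node values** (Lemma F, part 2).

* `Val tu R v ψ` : a value `v` of the nodes which does not grow on the way down and pays `ψ` at the rests;
* **`Lw_val`** : the walk sum of one bundle whose trees are the nodes `G` is at most `Σ_G v`.
-/

set_option autoImplicit false
set_option linter.unusedSectionVars false
set_option linter.unusedVariables false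
open MeasureTheory Filter Set

namespace Crest.Agent.R4P.FlG845

open Crest.Agent.R4.Tour104 Crest.Agent.R4.Clos758
open Crest.Agent.R4P.GMer27 Crest.Agent.R4P.GCol27 Crest.Agent.R4P.RSys343 Crest.Agent.R4P.TrR343
open Crest.Agent.R4P.GWa343 Crest.Agent.R4P.GWb343 Crest.Agent.R4P.GWc343 Crest.Agent.R4P.GWf343
open Crest.Agent.R4P.Cnt588 Crest.Agent.R4P.Item758 Crest.Agent.R4P.Grp36
open Crest.Agent.R4P.Bld532 (NS All NodeOk Bk)
open Crest.Agent.R4P.WalkIT579 (tp isL toDT_top toDT_leaf)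
open Crest.Agent.R4P.Walk560 (DT)
open Crest.Agent.R4P.NodeG33 (rsT rs_toDT)
open Crest.Agent.R4P.PayR45
open Crest.Agent.R4P.GSK55
open Crest.Agent.R4P.TYI47
open Crest.Agent.R4P.FlF845
open Crest.Agent.R4P.LogL51 (isLf)
open Crest.Agent.R4.ClosR758 (WRel)

section val
variable {Λ κ : Type} [Fintype Λ] [DecidableEq Λ] [Fintype κ] [DecidableEq κ] [WRel κ] {μ : Type}
  {D : Par Λ κ} {sp : ℕ → Finset Λ} {tu : ℕ → μ → μ} {R : ℕ → μ → NS → IT → Prop}
  {v ψ : ℕ → NS → IT → ℝ}

/-- **a value of the nodes** -/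
structure Val (tu : ℕ → μ → μ) (R : ℕ → μ → NS → IT → Prop) (v ψ : ℕ → NS → IT → ℝ) : Prop where
  nn : ∀ {p m s τ}, R p m s τ → 0 ≤ v p s τ
  add : ∀ {p m s t₁ t₀}, R p m s (.add p t₁ t₀) →
    v p ⟨p + 1, s.c, s.A, s.B⟩ t₁ + v p ⟨p + 1, s.c, s.A, s.B⟩ t₀ ≤ v p s (.add p t₁ t₀)
  far : ∀ {p m s t₁ t₀}, R p m s (.far p t₁ t₀) →
    v p ⟨p + 1, s.c, s.A, s.B⟩ t₁ + v p ⟨p + 1, s.c, s.A, s.B⟩ t₀ ≤ v p s (.far p t₁ t₀)
  up : ∀ {p m s Sp t}, R p m s (.up p Sp t) → v p ⟨p, s.c, s.A, s.B⟩ t ≤ v p s (.up p Sp t)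
  br : ∀ {p m s Sp t₁ t₀}, R p m s (.br p Sp t₁ t₀) →
    (1 - 1 / (p : ℝ)) * v p ⟨p, s.c / (1 - 1 / (p : ℝ)), s.A * p, s.B⟩ t₁ +
      1 / (p : ℝ) * v p ⟨p, s.c * p, s.A, s.B * p⟩ t₀ ≤ v p s (.br p Sp t₁ t₀)
  pl : ∀ {p m s t}, R p m s (.pl p t) → v p ⟨p + 1, s.c, s.A * p, s.B⟩ t ≤ v p s (.pl p t)
  down : ∀ {p m s τ}, p ≠ 0 → R p m s τ → tp τ < p → ¬ isL τ → ψ p s τ + v (p - 1) s τ ≤ v p s τ

/-- the tree of a node -/
noncomputable def im (D : Par Λ κ) (sp : ℕ → Finset Λ) (z : NS × IT) : DT Λ κ :=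
  D.toDT sp z.1.B z.1.A z.2

/-- total value of a list of nodes -/
noncomputable def sv (v : ℕ → NS → IT → ℝ) (p : ℕ) (G : List (NS × IT)) : ℝ :=
  (G.map fun z => v p z.1 z.2).sum

@[simp] lemma sv_nil (p : ℕ) : sv v p [] = 0 := rfl
lemma sv_cons (p : ℕ) (z : NS × IT) (G : List (NS × IT)) :
    sv v p (z :: G) = v p z.1 z.2 + sv v p G := by simp [sv]
lemma sv_append (p : ℕ) (G H : List (NS × IT)) : sv v p (G ++ H) = sv v p G + sv v p H := by
  simp [sv]

/-- the nodes of a list are related -/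
def Ra (R : ℕ → μ → NS → IT → Prop) (p : ℕ) (m : μ) (G : List (NS × IT)) : Prop :=
  ∀ z ∈ G, R p m z.1 z.2

lemma Ra.nil {p : ℕ} {m : μ} : Ra R p m [] := fun z hz => absurd hz (by simp)

lemma Ra.append {p : ℕ} {m : μ} {G H : List (NS × IT)} (h : Ra R p m G) (h' : Ra R p m H) :
    Ra R p m (G ++ H) := fun z hz => by
  rcases List.mem_append.1 hz with hz | hz
  · exact h z hz
  · exact h' z hz

lemma Ra.filter {p : ℕ} {m : μ} {G : List (NS × IT)} (h : Ra R p m G) (f : NS × IT → Bool) :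
    Ra R p m (G.filter f) := fun z hz => h z (List.mem_filter.1 hz).1

lemma sv_nonneg (hv : Val tu R v ψ) {p : ℕ} {m : μ} {G : List (NS × IT)} (h : Ra R p m G) :
    0 ≤ sv v p G := List.sum_nonneg fun x hx => by
  obtain ⟨z, hz, rfl⟩ := List.mem_map.1 hx
  exact hv.nn (h z hz)

/-- resolving -/
lemma rs_val (H : Car tu R) (hv : Val tu R v ψ) {p : ℕ} {m : μ} (τ : IT) : ∀ s : NS, R p m s τ →
    Ra R p m (rsT p s τ) ∧ sv v p (rsT p s τ) ≤ v p s τ := by
  have base : ∀ (s : NS) (τ : IT), R p m s τ → Ra R p m [(s, τ)] ∧ sv v p [(s, τ)] ≤ v p s τ := by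
    intro s τ h
    refine ⟨fun z hz => ?_, ?_⟩
    · rw [List.mem_singleton.1 hz]; exact h
    · rw [sv_cons, sv_nil, add_zero]
  induction τ with
  | leaf S => intro s h; exact base s _ h
  | br q Sp t₁ t₀ ih₁ ih₀ => intro s h; exact base s _ h
  | pl q t ih => intro s h; exact base s _ h
  | add q t₁ t₀ ih₁ ih₀ =>
    intro s h
    unfold rsT
    by_cases hq : q = p
    · subst hq
      rw [if_pos rfl]
      obtain ⟨a1, a0⟩ := H.add h
      obtain ⟨b1, c1⟩ := ih₁ _ a1
      obtain ⟨b0, c0⟩ := ih₀ _ a0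
      refine ⟨b1.append b0, ?_⟩
      rw [sv_append]
      exact (add_le_add c1 c0).trans (hv.add h)
    · rw [if_neg hq]; exact base s _ h
  | far q t₁ t₀ ih₁ ih₀ =>
    intro s h
    unfold rsT
    by_cases hq : q = p
    · subst hq
      rw [if_pos rfl]
      obtain ⟨a1, a0⟩ := H.far h
      obtain ⟨b1, c1⟩ := ih₁ _ a1
      obtain ⟨b0, c0⟩ := ih₀ _ a0
      refine ⟨b1.append b0, ?_⟩
      rw [sv_append]
      exact (add_le_add c1 c0).trans (hv.far h)
    · rw [if_neg hq]; exact base s _ h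
  | up q Sp t ih =>
    intro s h
    unfold rsT
    by_cases hq : q = p
    · subst hq
      rw [if_pos rfl]
      obtain ⟨b, c⟩ := ih _ (H.up h)
      exact ⟨b, c.trans (hv.up h)⟩
    · rw [if_neg hq]; exact base s _ h

/-- the resolved nodes -/
def rsL (p : ℕ) (G : List (NS × IT)) : List (NS × IT) := G.flatMap fun z => rsT p z.1 z.2

lemma rsL_im (p : ℕ) (G : List (NS × IT)) :
    (G.map (im D sp)).flatMap (rs p) = (rsL p G).map (im D sp) := by
  induction G with
  | nil => rfl
  | cons z G ih =>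
    have e : rs p (im D sp z) = (rsT p z.1 z.2).map (im D sp) := rs_toDT D sp p z.2 z.1
    show rs p (im D sp z) ++ (G.map (im D sp)).flatMap (rs p) =
      (rsT p z.1 z.2 ++ rsL p G).map (im D sp)
    rw [ih, e, List.map_append]

lemma rsL_val (H : Car tu R) (hv : Val tu R v ψ) {p : ℕ} {m : μ} {G : List (NS × IT)}
    (h : Ra R p m G) : Ra R p m (rsL p G) ∧ sv v p (rsL p G) ≤ sv v p G := by
  induction G with
  | nil => exact ⟨Ra.nil, le_rfl⟩
  | cons z G ih =>
    obtain ⟨a1, a2⟩ := rs_val H hv z.2 z.1 (h z (by simp))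
    obtain ⟨b1, b2⟩ := ih fun y hy => h y (List.mem_cons_of_mem _ hy)
    have e : rsL p (z :: G) = rsT p z.1 z.2 ++ rsL p G := rfl
    rw [e]
    refine ⟨a1.append b1, ?_⟩
    rw [sv_append, sv_cons]
    exact add_le_add a2 b2

lemma filter_im (f : DT Λ κ → Bool) (G : List (NS × IT)) :
    (G.map (im D sp)).filter f = (G.filter fun z => f (im D sp z)).map (im D sp) := by
  rw [List.filter_map]
  rfl

/-- the sum over two parts of a list -/
lemma sv_split (hv : Val tu R v ψ) {p : ℕ} {m : μ} {G : List (NS × IT)} (h : Ra R p m G)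
    (f g : NS × IT → Bool) :
    sv v p (G.filter f) + sv v p ((G.filter fun z => !f z).filter g) ≤ sv v p G := by
  induction G with
  | nil => simp
  | cons z G ih =>
    have ih' := ih fun y hy => h y (List.mem_cons_of_mem _ hy)
    have h0 := hv.nn (h z (by simp))
    by_cases hf : f z = true
    · rw [List.filter_cons_of_pos hf, List.filter_cons_of_neg (by simp [hf]), sv_cons, sv_cons]
      linarith
    · rw [List.filter_cons_of_neg hf, List.filter_cons_of_pos (by simpa using hf), sv_cons]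
      by_cases hg : g z = true
      · rw [List.filter_cons_of_pos hg, sv_cons]
        linarith
      · rw [List.filter_cons_of_neg hg]
        linarith

/-- the node of the P child -/
noncomputable def nP : NS × IT → NS × IT
  | (s, .br q _ t₁ _) => (⟨q, s.c / (1 - 1 / (q : ℝ)), s.A * q, s.B⟩, t₁)
  | (s, .pl q t) => (⟨q + 1, s.c, s.A * q, s.B⟩, t)
  | z => z

/-- the node of the N child -/
noncomputable def nN : NS × IT → NS × IT
  | (s, .br q _ _ t₀) => (⟨q, s.c * q, s.A, s.B * q⟩, t₀)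
  | (s, .pl q t) => (⟨q + 1, s.c, s.A * q, s.B⟩, t)
  | z => z

/-- a tie or pull of the column -/
lemma isB_node {p : ℕ} {z : NS × IT} (h : isB p (im D sp z) = true) :
    (∃ s Sp t₁ t₀, z = (s, .br p Sp t₁ t₀)) ∨ ∃ s t, z = (s, .pl p t) := by
  obtain ⟨s, τ⟩ := z
  cases τ with
  | leaf S => exact absurd h (by simp [im, Par.toDT, isB])
  | add q t₁ t₀ => exact absurd h (by simp [im, Par.toDT, isB])
  | far q t₁ t₀ => exact absurd h (by simp [im, Par.toDT, isB])
  | up q Sp t₁ => exact absurd h (by simp [im, Par.toDT, isB])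
  | br q Sp t₁ t₀ =>
    have hq : q = p := by
      have h' : decide (q = p) = true := h
      exact of_decide_eq_true h'
    subst hq
    exact Or.inl ⟨s, Sp, t₁, t₀, rfl⟩
  | pl q t₁ =>
    have hq : q = p := by
      have h' : decide (q = p) = true := h
      exact of_decide_eq_true h'
    subst hq
    exact Or.inr ⟨s, t₁, rfl⟩

/-- **the children** -/
lemma ch_val (H : Car tu R) (hv : Val tu R v ψ) {p : ℕ} (hp : p ≠ 0) {m : μ}
    {G : List (NS × IT)} (h : Ra R p m G) (hb : ∀ z ∈ G, isB p (im D sp z) = true) :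
    ((G.map (im D sp)).map chP = (G.map nP).map (im D sp) ∧ Ra R p (tu p m) (G.map nP)) ∧
    ((G.map (im D sp)).map chN = (G.map nN).map (im D sp) ∧ Ra R p (tu p m) (G.map nN)) ∧
    (1 - 1 / (p : ℝ)) * sv v p (G.map nP) + 1 / (p : ℝ) * sv v p (G.map nN) ≤ sv v p G := by
  induction G with
  | nil =>
    refine ⟨⟨rfl, Ra.nil⟩, ⟨rfl, Ra.nil⟩, ?_⟩
    simp
  | cons z G ih =>
    obtain ⟨⟨a1, a2⟩, ⟨b1, b2⟩, c⟩ := ih (fun y hy => h y (List.mem_cons_of_mem _ hy))
      fun y hy => hb y (List.mem_cons_of_mem _ hy)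
    have hz := h z (by simp)
    have key : (chP (im D sp z) = im D sp (nP z) ∧ R p (tu p m) (nP z).1 (nP z).2) ∧
        (chN (im D sp z) = im D sp (nN z) ∧ R p (tu p m) (nN z).1 (nN z).2) ∧
        (1 - 1 / (p : ℝ)) * v p (nP z).1 (nP z).2 + 1 / (p : ℝ) * v p (nN z).1 (nN z).2 ≤
          v p z.1 z.2 := by
      rcases isB_node (hb z (by simp)) with ⟨s, Sp, t₁, t₀, rfl⟩ | ⟨s, t, rfl⟩
      · obtain ⟨h1, h0⟩ := H.br hz
        refine ⟨⟨rfl, h1⟩, ⟨?_, h0⟩, hv.br hz⟩
        have hp' : (p : ℝ) ≠ 0 := by exact_mod_cast hp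
        have hw : (1 / (p : ℝ)) ≠ 0 := one_div_ne_zero hp'
        show (if 1 / (p : ℝ) = 0 then _ else _) = _
        rw [if_neg hw]
        rfl
      · have h1 := H.pl hz
        refine ⟨⟨rfl, h1⟩, ⟨?_, h1⟩, ?_⟩
        · show (if (0 : ℝ) = 0 then _ else _) = _
          rw [if_pos rfl]
          rfl
        · have h2 := hv.pl hz
          have e : (1 - 1 / (p : ℝ)) * v p ⟨p + 1, s.c, s.A * p, s.B⟩ t +
              1 / (p : ℝ) * v p ⟨p + 1, s.c, s.A * p, s.B⟩ t = v p ⟨p + 1, s.c, s.A * p, s.B⟩ t := by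
            ring
          show (1 - 1 / (p : ℝ)) * v p ⟨p + 1, s.c, s.A * p, s.B⟩ t +
              1 / (p : ℝ) * v p ⟨p + 1, s.c, s.A * p, s.B⟩ t ≤ _
          rw [e]
          exact h2
    obtain ⟨⟨k1, k2⟩, ⟨k3, k4⟩, k5⟩ := key
    refine ⟨⟨?_, ?_⟩, ⟨?_, ?_⟩, ?_⟩
    · rw [List.map_cons, List.map_cons, List.map_cons, List.map_cons, a1, k1]
    · intro y hy
      rcases List.mem_cons.1 hy with rfl | hy
      · exact k2
      · exact a2 y hy
    · rw [List.map_cons, List.map_cons, List.map_cons, List.map_cons, b1, k3]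
    · intro y hy
      rcases List.mem_cons.1 hy with rfl | hy
      · exact k4
      · exact b2 y hy
    · rw [List.map_cons, List.map_cons, sv_cons, sv_cons, sv_cons]
      linarith

/-- the bundle maps are those of the typed bundles -/
structure BTm (tu : ℕ → μ → μ) (M : BM (μ × List (DT Λ κ))) : Prop where
  P : ∀ p b, M.cP p b = (tu p b.1, (GWa343.bB p b.2).map chP)
  N : ∀ p b, M.cN p b = (tu p b.1, (GWa343.bB p b.2).map chN)
  R : ∀ p b, M.rN p b = (b.1, GWc343.bN p b.2)

variable {M : BM (μ × List (DT Λ κ))} {φ : ℕ → μ × List (DT Λ κ) → ℝ} {F : DT Λ κ → Prop}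

/-- **the walk sum of a bundle of nodes** -/
theorem Lw_val (hM : BTm tu M) (H : Car tu R) (hv : Val tu R v ψ)
    (h0 : ∀ {p m L}, p ≠ 0 → GWc343.bN p L = [] → φ p (m, L) ≤ 0)
    (h1 : ∀ {p m L s τ}, p ≠ 0 → R p m s τ → tp τ < p → ¬ isL τ →
      GWc343.bN p L = [D.toDT sp s.B s.A τ] → φ p (m, L) ≤ ψ p s τ) :
    ∀ (n p : ℕ) (m : μ) (G : List (NS × IT)), Ra R p m G → BI F p (G.map (im D sp)) →
      Lw M φ n p (m, G.map (im D sp)) ≤ sv v p G := by
  intro n
  induction n with
  | zero => intro p m G hG hB; exact sv_nonneg hv hG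
  | succ n ih =>
    intro p m G hG hB
    show (if p = 0 then (0 : ℝ) else _) ≤ _
    by_cases hp : p = 0
    · rw [if_pos hp]; exact sv_nonneg hv hG
    rw [if_neg hp]
    obtain ⟨r1, r2⟩ := rsL_val H hv hG
    set G' := rsL p G with hG'
    have eF : (G.map (im D sp)).flatMap (rs p) = G'.map (im D sp) := rsL_im p G
    set GB := G'.filter fun z => isB p (im D sp z) with hGB
    set GN := (G'.filter fun z => !isB p (im D sp z)).filter fun z => !isLf (im D sp z) with hGN
    have eB : GWa343.bB p (G.map (im D sp)) = GB.map (im D sp) := by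
      unfold GWa343.bB
      rw [eF, filter_im]
    have eN : GWc343.bN p (G.map (im D sp)) = GN.map (im D sp) := by
      unfold GWc343.bN GWa343.bR
      rw [eF, filter_im, filter_im]
    have hs := sv_split hv r1 (fun z => isB p (im D sp z)) fun z => !isLf (im D sp z)
    have hs' : sv v p GB + sv v p GN ≤ sv v p G := hs.trans r2
    have rB : Ra R p m GB := r1.filter _
    have rN : Ra R p m GN := (r1.filter _).filter _
    have hbB : ∀ z ∈ GB, isB p (im D sp z) = true := fun z hz => (List.mem_filter.1 hz).2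
    obtain ⟨⟨c1, c2⟩, ⟨c3, c4⟩, c5⟩ := ch_val (D := D) (sp := sp) H hv hp rB hbB
    -- the C-steps
    have hC : (if 2 ≤ p then (1 - 1 / (p : ℝ)) * Lw M φ n p (M.cP p (m, G.map (im D sp))) +
        1 / (p : ℝ) * Lw M φ n p (M.cN p (m, G.map (im D sp)))
        else Lw M φ n p (M.cP p (m, G.map (im D sp)))) ≤ sv v p GB := by
      have eP : M.cP p (m, G.map (im D sp)) = (tu p m, (GB.map nP).map (im D sp)) := by
        rw [hM.P]
        show (tu p m, (GWa343.bB p (G.map (im D sp))).map chP) = _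
        rw [eB, c1]
      have eN' : M.cN p (m, G.map (im D sp)) = (tu p m, (GB.map nN).map (im D sp)) := by
        rw [hM.N]
        show (tu p m, (GWa343.bB p (G.map (im D sp))).map chN) = _
        rw [eB, c3]
      have bP : BI F p ((GB.map nP).map (im D sp)) := by
        rw [← c1, ← eB]; exact hB.toP
      have bN' : BI F p ((GB.map nN).map (im D sp)) := by
        rw [← c3, ← eB]; exact hB.toN
      have iP := ih p (tu p m) (GB.map nP) c2 bP
      have iN := ih p (tu p m) (GB.map nN) c4 bN'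
      rw [eP, eN']
      split_ifs with h2
      · have h2' : (2 : ℝ) ≤ p := by exact_mod_cast h2
        have w0 : (0 : ℝ) ≤ 1 / (p : ℝ) := by positivity
        have w1 : (0 : ℝ) ≤ 1 - 1 / (p : ℝ) := by
          rw [sub_nonneg, div_le_one (by linarith)]; linarith
        have k1 := mul_le_mul_of_nonneg_left iP w1
        have k2 := mul_le_mul_of_nonneg_left iN w0
        linarith
      · have e1 : p = 1 := by omega
        subst e1
        have e2 : GB.map (im D sp) = [] := by rw [← eB]; exact hB.no1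
        have e3 : GB = [] := List.map_eq_nil_iff.1 e2
        rw [e3] at iP ⊢
        exact iP
    -- the rest
    have hlen : GN.length ≤ 1 := by
      have := hB.len
      rw [eN, List.length_map] at this
      exact this
    have hR : φ p (m, G.map (im D sp)) + Lw M φ n (p - 1) (M.rN p (m, G.map (im D sp))) ≤
        sv v p GN := by
      have eR : M.rN p (m, G.map (im D sp)) = (m, GN.map (im D sp)) := by
        rw [hM.R]
        show (m, GWc343.bN p (G.map (im D sp))) = _
        rw [eN]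
      have bR : BI F (p - 1) (GN.map (im D sp)) := by
        rw [← eN]; exact hB.toR hp
      rw [eR]
      match GN, hlen with
      | [], _ =>
        have e1 : GWc343.bN p (G.map (im D sp)) = [] := eN
        have k1 := h0 (m := m) hp e1
        have k2 := ih (p - 1) m [] Ra.nil bR
        rw [sv_nil] at k2 ⊢
        linarith
      | [z], _ =>
        have hz : R p m z.1 z.2 := rN z (by simp)
        have e1 : GWc343.bN p (G.map (im D sp)) = [D.toDT sp z.1.B z.1.A z.2] := eN
        have hmem : D.toDT sp z.1.B z.1.A z.2 ∈ GWc343.bN p (G.map (im D sp)) := by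
          rw [e1]; simp
        have g1 := hB.bN.col _ hmem
        have g2 := zero_of_bN hmem
        have g3 := g1.top_le
        have g4 : tp z.2 < p := by
          have e2 := toDT_top D sp z.1.B z.1.A z.2
          have h4 : (D.toDT sp z.1.B z.1.A z.2).top < p := lt_of_le_of_ne g3 g2.2.1
          rwa [e2] at h4
        have g5 : ¬ isL z.2 := fun hl => g2.2.2 ((toDT_leaf D sp z.1.B z.1.A z.2).2 hl)
        have k1 := h1 hp hz g4 g5 e1
        have k3 := H.down hp hz g4 g5
        have k2 := ih (p - 1) m [z] (fun y hy => by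
          rw [List.mem_singleton.1 hy]; exact k3) bR
        have k4 := hv.down hp hz g4 g5
        rw [sv_cons, sv_nil, add_zero] at k2 ⊢
        linarith
      | a :: b :: l, hl => simp at hl
    linarith

end val

end Crest.Agent.R4P.FlG845
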