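import Crest.Agent.R4P.FlI_845

/-!
R4 (S0004) with powers, T3, helper845: **Lemma F with flags which may appear at static columns.**

* `FMonP F` : prefix-hereditary flags (= `StJ6.FMon`: only `M' ∩ (p, ∞) = M` is asked; the flag may
  look at the ORDER of the missing ties, e.g. bad pairs (thin zone stage, later fat stage));
* `phW`, `enU_leW` : the content which leaves the game at a rest, any bound `w2` of the weight of the newly
  flagged members;
* **`Kw_U_leA`** : Lemma F at a node, abstract states `S`, abstract weights `β` (flagged) and `w2` (newly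
  flagged), abstract payments `A`, `E`;
* **`ctx_UJ`** : in a context, flags which appear at missing ties or at the static columns `n` with
  `w2 n ≤ 1/n + (log n)^2 σ n`, `Σ σ ≤ 1/log p0`; `sp_sum` : `σ` of the columns `2^(2^i)`.
-/

set_option autoImplicit false
set_option linter.unusedSectionVars false
set_option linter.unusedVariables false
open MeasureTheory Filter Set

namespace Crest.Agent.R4P.FlJ845

open Crest.Agent.R4.Tour104 Crest.Agent.R4.Tour758 Crest.Agent.R4.Avg758 Crest.Agent.R4.Clos758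
open Crest.Agent.R4.ClosL758 Crest.Agent.R4.ClosG758 Crest.Agent.R4.ClosR758
open Crest.Agent.R4P.ClosR442 Crest.Agent.R4P.Grp36
open Crest.Agent.R4P.Xfer36 Crest.Agent.R4P.TopC36 Crest.Agent.R4P.PN36
open Crest.Agent.R4P.GMer27 Crest.Agent.R4P.GCol27 Crest.Agent.R4P.GWa343 Crest.Agent.R4P.GWb343
open Crest.Agent.R4P.GWc343 Crest.Agent.R4P.GWd343 Crest.Agent.R4P.GWf343 Crest.Agent.R4P.TrR343
open Crest.Agent.R4P.GWg343 (FX ctx_BI)
open Crest.Agent.R4P.RSys343 Crest.Agent.R4P.RXs343 Crest.Agent.R4P.RXm55 Crest.Agent.R4P.RXm55.RXm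
open Crest.Agent.R4P.MSm25
open Crest.Agent.R4P.MSd343 Crest.Agent.R4P.VR407 Crest.Agent.R4P.Bp407 Crest.Agent.R4P.DTm407
open Crest.Agent.R4P.DTn407 Crest.Agent.R4P.DTo407
open Crest.Agent.R4P.DTp26
open Crest.Agent.R4P.Cnt588 Crest.Agent.R4P.Item758
open Crest.Agent.R4P.Bld532 (NS All NodeOk Bk Ws_nonneg)
open Crest.Agent.R4P.WalkIT579 (tp isL toDT_top toDT_leaf)
open Crest.Agent.R4P.Walk560 (DT WrN)
open Crest.Agent.R4P.Step588 Crest.Agent.R4P.RseSt23
open Crest.Agent.R4P.TYI47 Crest.Agent.R4P.TYJ47 Crest.Agent.R4P.TYK47 Crest.Agent.R4P.TYP9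
open Crest.Agent.R4P.RsT47
open Crest.Agent.R4P.GSK55
open Crest.Agent.R4P.PayR45
open Crest.Agent.R4P.MSi343 (su su_add)
open Crest.Agent.R4P.Skel189 Crest.Agent.R4P.Frame758 Crest.Agent.R4P.Data758
open Crest.Agent.R4.Soft104 Crest.Agent.R4.Fam464
open Crest.Agent.R4P.StratX36 Crest.Agent.R4P.TopX36
open Crest.Agent.R4P.AsmX26 (QE ctx_QE)
open Crest.Agent.R4P.SkelF29 (BootF)
open Crest.Agent.R4P.Strip29 (AdF)
open Crest.Agent.R4P.CtxNF36 (par_PG)
open Crest.Agent.R4P.StE6 (Mhi)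
open Crest.Agent.R4P.StJ6 (FMon flg)
open Crest.Agent.R4P.OmW11 Crest.Agent.R4P.OmX11
open Crest.Agent.R4P.AsB407 Crest.Agent.R4P.AsC407
open Crest.Agent.R4P.FlF845 Crest.Agent.R4P.FlG845 Crest.Agent.R4P.FlH845

/-! ### prefix-hereditary flags -/

/-- **prefix-hereditary flags** -/
def FMonP (F : ℕ → Finset ℕ → Prop) : Prop :=
  ∀ {p : ℕ} {M M' : Finset ℕ}, M'.filter (p < ·) = M → F p M → F (p - 1) M'

theorem FMonP.of {F : ℕ → Finset ℕ → Prop} (h : FMon F) : FMonP F := fun e hf => h e hf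

theorem FMonP.to {F : ℕ → Finset ℕ → Prop} (h : FMonP F) : FMon F := fun e hf => h e hf

theorem FMonP.or {F G : ℕ → Finset ℕ → Prop} (h : FMonP F) (h' : FMonP G) :
    FMonP fun p M => F p M ∨ G p M := fun e hf => hf.imp (h e) (h' e)

lemma Mhi_dn (c : Cf) (p q : ℕ) : (Mhi c (p - 1) q).filter (p < ·) = Mhi c p q := by
  ext r
  simp only [Mhi, Finset.mem_filter]
  constructor
  · rintro ⟨⟨h8, -⟩, h9⟩
    exact ⟨h8, h9⟩
  · rintro ⟨h8, h9⟩
    exact ⟨⟨h8, by omega⟩, h9⟩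

lemma flg_dnP {F : ℕ → Finset ℕ → Prop} (hF : FMonP F) {c : Cf} {p q : ℕ} (h : flg F c p q) :
    flg F c (p - 1) q := hF (Mhi_dn c p q) h

/-! ### the content which leaves: general weights -/

section tel
variable {β δ : Type} [Fintype δ] {R : RXm β δ} {U : RBm R} {p : ℕ} {s : Gs β}

/-- the member form of the price of the content which leaves, weight `w2` of the newly flagged members -/
noncomputable def phW (U : RBm R) (β' w2 : ℝ) (p : ℕ) (b : β) : ℝ :=
  Real.sqrt β' * (w2 * I (fun x => uF U p b x ^ 2) + I (fun x => uE U p b x ^ 2))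

/-- the same, nothing at the columns `≤ p0 + 1` -/
noncomputable def phA (U : RBm R) (p0 : ℕ) (β' w2 : ℕ → ℝ) (p : ℕ) (b : β) : ℝ :=
  if p ≤ p0 + 1 then 0 else phW U (β' p) (w2 p) p b

/-- **the price of the content which leaves** -/
theorem enU_leW (hs : R.gok p s) (hp : p ≠ 0) {β' w2 : ℝ} (hβ : 0 < β') (hw0 : 0 < w2)
    (hE : ∀ j x, U.uN p (s.L j) x ≤ uF U p (s.L j) x)
    (hw : ∀ x, wt s (uF U p) x ≤ β') (hw2 : ∀ x, wt s (uE U p) x ≤ w2) :
    enU U p s ≤ GMer27.M s.c fun j => phW U β' w2 p (s.L j) := by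
  have hp0 : 0 < p := Nat.pos_of_ne_zero hp
  have tc := hs.1
  have pF : ∀ j, PB (uF U p (s.L j)) := fun j => U.pu (R.okR (hs.2 j) hp)
  have pN : ∀ j, PB (U.uN p (s.L j)) := fun j => U.puN (hs.2 j) hp
  have pE : ∀ j, PB (uE U p (s.L j)) := fun j => ModeS16.PB_sub (pF j) (pN j) (hE j)
  have sF : PB (su s (uF U p)) := PB_su tc pF
  have sN : PB (su s (U.uN p)) := PB_su tc pN
  have sE : PB (su s (uE U p)) := PB_su tc pE
  have qF : PB (su s fun b x => uF U p b x ^ 2) := PB_su tc fun j => PBsq (pF j)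
  have qE : PB (su s fun b x => uE U p b x ^ 2) := PB_su tc fun j => PBsq (pE j)
  have hr : 0 < Real.sqrt β' := Real.sqrt_pos.2 hβ
  have hrr : Real.sqrt β' * Real.sqrt β' = β' := Real.mul_self_sqrt hβ.le
  have e1 : enU U p s = I (fun x => su s (uF U p) x ^ 2) - I fun x => su s (U.uN p) x ^ 2 := rfl
  have e2 : (GMer27.M s.c fun j => phW U β' w2 p (s.L j)) =
      I fun x => Real.sqrt β' * (w2 * su s (fun b x => uF U p b x ^ 2) x +
        su s (fun b x => uE U p b x ^ 2) x) := by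
    have a1 := I_su (s := s) tc.c0 (f := fun b x => uF U p b x ^ 2) fun j => PBsq (pF j)
    have a2 := I_su (s := s) tc.c0 (f := fun b x => uE U p b x ^ 2) fun j => PBsq (pE j)
    rw [I_smul, I_add ((qF.smul hw0.le).integrableOn) qE.integrableOn,
      I_smul]
    rw [show I (fun x => su s (fun b x => uF U p b x ^ 2) x) =
      GMer27.M s.c fun j => I (fun x => uF U p (s.L j) x ^ 2) from a1,
      show I (fun x => su s (fun b x => uE U p b x ^ 2) x) =
      GMer27.M s.c fun j => I (fun x => uE U p (s.L j) x ^ 2) from a2]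
    unfold phW
    rw [← M_smul, ← M_add, ← M_smul]
  rw [e1, e2, ← I_sub (PBsq sF).integrableOn (PBsq sN).integrableOn]
  refine I_mono (ModeS16.PB_sub (PBsq sF) (PBsq sN) fun x => ?_).integrableOn
    (((qF.smul hw0.le).add qE).smul hr.le).integrableOn fun x => ?_
  · exact pow_le_pow_left₀ (sN.nonneg x) (M_mono tc.c0 fun j => hE j x) 2
  · have f0 := sF.nonneg x
    have n0 := sN.nonneg x
    have g0 := sE.nonneg x
    have k1 := su_sq_le tc.c0 (uF U p) x
    have k2 := su_sq_le tc.c0 (uE U p) x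
    have q1 := qF.nonneg x
    have q2 := qE.nonneg x
    have k3 := k1.trans (mul_le_mul_of_nonneg_right (hw x) q1)
    have k4 := k2.trans (mul_le_mul_of_nonneg_right (hw2 x) q2)
    have e3 : su s (uE U p) x = su s (uF U p) x - su s (U.uN p) x := by
      unfold su
      rw [← M_sub]
      rfl
    set F := su s (uF U p) x
    set A := su s (U.uN p) x
    set E := su s (uE U p) x
    set SF := su s (fun b x => uF U p b x ^ 2) x
    set SE := su s (fun b x => uE U p b x ^ 2) x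
    set r := Real.sqrt β'
    have hA : A = F - E := by rw [e3]; ring
    -- `F² - A² ≤ 2 F E ≤ (w2/r) F² + (r/w2) E²`
    have k5 : 2 * F * E ≤ w2 / r * F ^ 2 + r / w2 * E ^ 2 := by
      have : 0 ≤ w2 / r * (F - r / w2 * E) ^ 2 := by positivity
      have e4 : w2 / r * (F - r / w2 * E) ^ 2 = w2 / r * F ^ 2 - 2 * F * E +
        r / w2 * E ^ 2 := by
        field_simp
        ring
      linarith
    have k6 : w2 / r * F ^ 2 ≤ r * (w2 * SF) := by
      have := mul_le_mul_of_nonneg_left k3 (show (0:ℝ) ≤ w2 / r by positivity)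
      refine this.trans (le_of_eq ?_)
      rw [← hrr]
      field_simp
    have k7 : r / w2 * E ^ 2 ≤ r * SE := by
      have := mul_le_mul_of_nonneg_left k4 (show (0:ℝ) ≤ r / w2 by positivity)
      refine this.trans (le_of_eq ?_)
      field_simp
    have k8 : F ^ 2 - A ^ 2 ≤ 2 * F * E := by
      rw [hA]
      nlinarith [sq_nonneg E]
    show F ^ 2 - A ^ 2 ≤ r * (w2 * SF + SE)
    have e5 : r * (w2 * SF + SE) = r * (w2 * SF) + r * SE := by ring
    rw [e5]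
    linarith

end tel

/-! ### the nodes -/

section nodes
variable {N : Skel189.Num} {γ : ℝ} {p0 P₀ : ℕ} {X : Ctx N γ p0 P₀} {Q : NS → IT → Prop} {C : ℝ}
  {ζ : Type} [Fintype ζ] [DecidableEq ζ] {D : TD Me X.c.Lam (LbX X) ζ} {F : ℕ → Finset ℕ → Prop}
  {j₀ : X.c.Lam} {Kb : ℝ} {B0 : ℕ}

lemma fl_monP (hF : FMonP F) {p : ℕ} {s : NS} (h : fl F p s) : fl F (p - 1) s := by
  refine hF (M := s.B.primeFactors.filter (p < ·)) ?_ h
  ext q
  simp only [Finset.mem_filter]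
  constructor
  · rintro ⟨⟨h1, -⟩, h2⟩
    exact ⟨h1, h2⟩
  · rintro ⟨h1, h2⟩
    exact ⟨⟨h1, by omega⟩, h2⟩

open Classical in
/-- the payment of a node at the rest -/
noncomputable def psW (X : Ctx N γ p0 P₀) (F : ℕ → Finset ℕ → Prop) (β w2 : ℕ → ℝ) (p : ℕ) (s : NS)
    (τ : IT) : ℝ :=
  if fl F (p - 1) s then Real.sqrt (β p) * ((w2 p + if fl F p s then 0 else 1) *
    I (fun x => tt Finset.univ (X.g s τ) x ^ 2)) else 0

/-- **the value** -/
theorem valW (hψ : ∀ q, 0 ≤ w X.ψ q) (hQ : ∀ u τ, Q u τ → NDt X.par (w X.ψ) X.c.t u τ)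
    {P : ℕ} (hF : FMonP F)
    (hst : ∀ {p : ℕ} {M : Finset ℕ}, p0 < p → (∀ q ∈ M, P < q) → ¬ F p M)
    (hB0 : ∀ q ∈ B0.primeFactors, P < q) (hK : 0 ≤ Kb)
    {β w2 A : ℕ → ℝ} {E : ℝ} (hw0 : ∀ p, p0 + 1 < p → 0 ≤ w2 p) (hA0 : ∀ p, 0 ≤ A p)
    (hA : ∀ p, A (p - 1) ≤ A p) (hE : 0 ≤ E)
    (h1 : ∀ p, p0 + 1 < p → Real.sqrt (β p) * w2 p * (Kb * (1 + Real.log p ^ N.c2)) ≤
      A p - A (p - 1))
    (h2 : ∀ p, p0 + 1 < p → Real.sqrt (β p) * (Kb * (1 + Real.log p ^ N.c2)) ≤ E) :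
    Val tuM (RC X Q j₀ Kb B0) (vl X F A E) (psW X F β w2) := by
  have hdis : ∀ {A k : ℕ} {S T U : Finset ℕ}, T = Bld532.dv A k S → U = Bld532.nd A k S →
      T ∪ U = S → Ws (w X.ψ) S = Ws (w X.ψ) T + Ws (w X.ψ) U := by
    intro A k S T U h1 h2 h3
    unfold Ws
    rw [← h3, Finset.sum_union]
    rw [h1, h2]
    exact Finset.disjoint_left.2 fun q hq hq' => (Bld532.mem_nd.1 hq').2 (Bld532.mem_dv.1 hq).2
  have hc : ∀ {p m s τ}, RC X Q j₀ Kb B0 p m s τ → 0 ≤ s.c := fun h => h.qe.self.nf.c0.le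
  have hm : ∀ {p m s τ}, RC X Q j₀ Kb B0 p m s τ → 0 ≤ s.c * Ws (w X.ψ) τ.items := fun h =>
    mul_nonneg (hc h) (Ws_nonneg hψ _)
  have hcoef : ∀ p s, 0 ≤ cf F A E p s := by
    intro p s
    have := hA0 p
    by_cases h : fl F p s
    · rw [cf_fl h]; linarith
    · rw [cf_not h]; linarith
  refine ⟨fun h => mul_nonneg (hcoef _ _) (hm h), ?_, ?_, ?_, ?_, ?_, ?_⟩
  · -- add
    intro p m s t₁ t₀ h
    have hn := h.qe.self.nd.self.node
    obtain ⟨hp, g1, g2, g3, g4, ⟨j, t', hj, g5, g6, g7, g8⟩, g9⟩ := hn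
    have e := hdis g6 g7 rfl
    have e1 : (IT.add p t₁ t₀).items = t₁.items ∪ t₀.items := rfl
    unfold vl
    rw [e1, e]
    refine le_of_eq ?_
    have e2 : cf F A E p ⟨p + 1, s.c, s.A, s.B⟩ = cf F A E p s := rfl
    rw [e2]
    show cf F A E p s * (s.c * Ws (w X.ψ) t₁.items) + cf F A E p s * (s.c * Ws (w X.ψ) t₀.items) = _
    ring
  · -- far
    intro p m s t₁ t₀ h
    have hn := h.qe.self.nd.self.node
    obtain ⟨hp, g1, g2, g3, g4, ⟨K, g5, g6, g7⟩, g9⟩ := hn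
    have e : Ws (w X.ψ) (t₁.items ∪ t₀.items) = Ws (w X.ψ) t₁.items + Ws (w X.ψ) t₀.items := by
      have e1 : t₁.items = Bld532.farS p s.A K (t₁.items ∪ t₀.items) := by
        conv_lhs => rw [g5]
        rfl
      unfold Ws
      rw [Finset.sum_union]
      rw [e1, g6]
      refine Finset.disjoint_left.2 fun r hr hr' => ?_
      have a1 := (Bld532.mem_farS.1 hr).2
      have a2 := (Bld532.mem_nearS.1 hr').2
      tauto
    have e1 : (IT.far p t₁ t₀).items = t₁.items ∪ t₀.items := rfl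
    unfold vl
    rw [e1, e]
    refine le_of_eq ?_
    have e2 : cf F A E p ⟨p + 1, s.c, s.A, s.B⟩ = cf F A E p s := rfl
    rw [e2]
    show cf F A E p s * (s.c * Ws (w X.ψ) t₁.items) + cf F A E p s * (s.c * Ws (w X.ψ) t₀.items) = _
    ring
  · -- up
    intro p m s Sp t h
    exact le_rfl
  · -- br
    intro p m s Sp t₁ t₀ h
    have hnd := h.qe.self.nd
    have hn := hnd.self.node
    obtain ⟨hp, g1, g2, g3, g4, g5, g6, g7⟩ := hn
    have hq2 : (2 : ℝ) ≤ p := by exact_mod_cast hp.two_le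
    have hq0 : (0 : ℝ) < p := by linarith
    have hq1 : 0 < 1 - 1 / (p : ℝ) := by
      rw [sub_pos, div_lt_one hq0]; linarith
    have e := hdis g5 g6 rfl
    have e1 : (IT.br p Sp t₁ t₀).items = t₁.items ∪ t₀.items := rfl
    have hB : s.B ≠ 0 := hnd.bk.sfB.ne_zero
    unfold vl
    rw [e1, e]
    have e2 : cf F A E p ⟨p, s.c * p, s.A, s.B * p⟩ = cf F A E p s := cf_congr (fl_N hp hB)
    have e3 : cf F A E p ⟨p, s.c / (1 - 1 / (p : ℝ)), s.A * p, s.B⟩ = cf F A E p s := rfl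
    rw [e2, e3]
    refine le_of_eq ?_
    set κ : ℝ := cf F A E p s
    show (1 - 1 / (p : ℝ)) * (κ * (s.c / (1 - 1 / (p : ℝ)) * Ws (w X.ψ) t₁.items)) +
      1 / (p : ℝ) * (κ * (s.c * p * Ws (w X.ψ) t₀.items)) = _
    have hne := hq1.ne'
    have k1 : (1 - 1 / (p : ℝ)) * (κ * (s.c / (1 - 1 / (p : ℝ)) * Ws (w X.ψ) t₁.items)) =
        κ * (s.c * Ws (w X.ψ) t₁.items) := by
      generalize 1 - 1 / (p : ℝ) = v at hne ⊢
      field_simp
    have k0 : 1 / (p : ℝ) * (κ * (s.c * p * Ws (w X.ψ) t₀.items)) =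
        κ * (s.c * Ws (w X.ψ) t₀.items) := by
      field_simp
    rw [k1, k0]
    ring
  · -- pl
    intro p m s t h
    exact le_rfl
  · -- rest
    intro p m s τ hp h ht hl
    have hnd := h.qe.self.nd
    have g1 := p0_lt hnd.self.node hl
    have hp1 : p0 + 1 < p := by omega
    have g2 := hi_le hnd.self.node hl
    have hμ := hm h
    set μ : ℝ := s.c * Ws (w X.ψ) τ.items with hμd
    have g3 : μ ≤ Real.log p ^ N.c2 := by
      refine g2.trans (Real.rpow_le_rpow (Real.log_natCast_nonneg _) ?_ N.hc2)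
      have h5 : (0 : ℝ) < tp τ := by exact_mod_cast (show 0 < tp τ by omega)
      exact Real.log_le_log h5 (by exact_mod_cast ht.le)
    unfold psW vl
    rw [← hμd]
    by_cases hf : fl F (p - 1) s
    · rw [if_pos hf, cf_fl hf]
      have hen : En X j₀ Kb s τ := by
        rcases h.en with e | e
        · exact e.self
        · exfalso
          refine hst (p := p - 1) (by omega) (fun q hq => ?_) hf
          rw [e.2] at hq
          exact hB0 q (Finset.mem_filter.1 hq).1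
      have e1 : I (fun x => tt Finset.univ (X.g s τ) x ^ 2) ≤ Kb * (μ + μ * μ) := by
        have k := hen Finset.univ (Or.inr rfl)
        have hmass : X.tn j₀ (X.g s τ) = μ := h.qe.self.mass
        have e2 : X.tm j₀ (X.g s τ) Finset.univ = μ := hmass
        rw [e2, hmass, add_zero] at k
        exact k
      have e2 : Kb * (μ + μ * μ) ≤ Kb * (1 + Real.log p ^ N.c2) * μ := by
        have : μ + μ * μ ≤ (1 + Real.log p ^ N.c2) * μ := by nlinarith
        have := mul_le_mul_of_nonneg_left this hK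
        linarith
      have e3 := e1.trans e2
      set J : ℝ := I (fun x => tt Finset.univ (X.g s τ) x ^ 2)
      set K' : ℝ := Kb * (1 + Real.log p ^ N.c2)
      have r0 := Real.sqrt_nonneg (β p)
      have p0' : (0 : ℝ) ≤ w2 p := hw0 p hp1
      have q1 : Real.sqrt (β p) * w2 p * J ≤ (A p - A (p - 1)) * μ := by
        have k1 := mul_le_mul_of_nonneg_left e3 (mul_nonneg r0 p0')
        have k2 := mul_le_mul_of_nonneg_right (h1 p hp1) hμ
        linarith
      have q2 : Real.sqrt (β p) * J ≤ E * μ := by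
        have k1 := mul_le_mul_of_nonneg_left e3 r0
        have k2 := mul_le_mul_of_nonneg_right (h2 p hp1) hμ
        linarith
      by_cases hg : fl F p s
      · rw [if_pos hg, cf_fl hg]
        linarith
      · rw [if_neg hg, cf_not hg]
        linarith
    · have hg : ¬ fl F p s := fun hg => hf (fl_monP hF hg)
      rw [if_neg hf, cf_not hf, cf_not hg, zero_add]
      exact mul_le_mul_of_nonneg_right (by linarith [hA p]) hμ

end nodes

/-! ### group states -/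

section states
variable {N : Skel189.Num} {γ : ℝ} {p0 P₀ : ℕ} {X : Ctx N γ p0 P₀} {Q : NS → IT → Prop} {C : ℝ}
  {ζ : Type} [Fintype ζ] [DecidableEq ζ] {D : TD Me X.c.Lam (LbX X) ζ} {F : ℕ → Finset ℕ → Prop}
  {H : TYp (rhoX X) D (InvM X Q C)} {P p : ℕ} {b : Me × List (DT X.c.Lam (LbX X))}
  {s : Gs (Me × List (DT X.c.Lam (LbX X)))}

/-- the content outside the game grows at the rest -/
lemma uN_le_uFP (hF : FMonP F) (hD : ∀ p m x j, D.tp p m x j = none ↔ flg F X.c p j.1.1)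
    (hb : InvM X Q C p b) (x : ℝ) : (rb H).uN p b x ≤ uF (rb H) p b x := by
  rw [uF_eq, uN_eq, bcp_eq, bcp_eq]
  unfold hz
  rw [Finset.sum_filter, Finset.sum_filter]
  refine Finset.sum_le_sum fun j _ => ?_
  have h0 := (PB_jv ((H.pb hb).bN p).self j).nonneg x
  by_cases h1 : D.tp p b.1 x j = none
  · rw [if_pos h1, if_pos ((hD _ _ _ _).2 (flg_dnP hF ((hD _ _ _ _).1 h1)))]
  · rw [if_neg h1]
    split_ifs
    · exact h0
    · exact le_rfl

/-- pieces which leave the game at the rest -/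
lemma uE_memP (hF : FMonP F) (hD : ∀ p m x j, D.tp p m x j = none ↔ flg F X.c p j.1.1) {x : ℝ}
    (h : uE (rb H) p b x ≠ 0) : ∃ j, jv (bN p b.2) j x ≠ 0 ∧ flg F X.c (p - 1) j.1.1 ∧
      ¬ flg F X.c p j.1.1 := by
  classical
  by_contra hn
  push Not at hn
  refine h ?_
  unfold uE
  rw [uF_eq, uN_eq, bcp_eq, bcp_eq, sub_eq_zero]
  unfold hz
  rw [Finset.sum_filter, Finset.sum_filter]
  refine Finset.sum_congr rfl fun j _ => ?_
  by_cases hj : jv (bN p b.2) j x = 0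
  · rw [hj]; split_ifs <;> rfl
  · have e : D.tp (p - 1) b.1 x j = none ↔ D.tp p b.1 x j = none := by
      rw [hD, hD]
      exact ⟨fun h1 => hn j hj h1, fun h1 => flg_dnP hF h1⟩
    by_cases h1 : D.tp p b.1 x j = none
    · rw [if_pos h1, if_pos (e.2 h1)]
    · rw [if_neg h1, if_neg fun h2 => h1 (e.1 h2)]

/-- the weight of the members of a set -/
noncomputable def wE {β : Type} (s : Gs β) (E : s.J → Prop) : ℝ :=
  @Finset.sum _ _ _ Finset.univ fun k => @ite ℝ (E k) (Classical.propDecidable _) (s.c k) 0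

/-- **the content which leaves the game at a rest**, abstract states and weights -/
theorem enU_leA {S : ℕ → Gs (Me × List (DT X.c.Lam (LbX X))) → Prop} {β w2 : ℕ → ℝ}
    (hβ : ∀ p, p0 + 1 < p → 0 < β p) (hw0 : ∀ p, p0 + 1 < p → 0 < w2 p)
    (hW : ∀ {p : ℕ} {s : Gs (Me × List (DT X.c.Lam (LbX X)))}, p0 + 1 < p → S p s → okG H p s →
      ∀ E : s.J → Prop, (∀ k, E k → ∃ (j : X.c.Lam) (x : ℝ),
        jv (bN p (s.L k).2) j x ≠ 0 ∧ flg F X.c (p - 1) j.1.1) → wE s E ≤ β p)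
    (hW2 : ∀ {p : ℕ} {s : Gs (Me × List (DT X.c.Lam (LbX X)))}, p0 + 1 < p → S p s → okG H p s →
      ∀ E : s.J → Prop, (∀ k, E k → ∃ (j : X.c.Lam) (x : ℝ),
        jv (bN p (s.L k).2) j x ≠ 0 ∧ flg F X.c (p - 1) j.1.1 ∧ ¬ flg F X.c p j.1.1) →
        wE s E ≤ w2 p)
    (hF : FMonP F) (hD : ∀ p m x j, D.tp p m x j = none ↔ flg F X.c p j.1.1)
    (hQ : ∀ u τ, Q u τ → NDt X.par (w X.ψ) X.c.t u τ)
    (hs : okG H p s) (hS : S p s) (hp : p ≠ 0) :
    enU (rb H) p s ≤ GMer27.M s.c fun j => phA (rb H) p0 β w2 p (s.L j) := by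
  classical
  have c0 := hs.1.1.c0
  have hI : ∀ k, InvM X Q C p (s.L k) := hs.1.2
  by_cases h1 : p ≤ p0 + 1
  · -- nothing is left
    have hN : ∀ k, GWc343.bN p (s.L k).2 = [] := fun k => bN_nil hQ (hI k) h1
    have z1 : ∀ k x, uF (rb H) p (s.L k) x = 0 := fun k x => by
      rw [uF_eq, hN k, bcp_nil']
    have z2 : ∀ k x, (rb H).uN p (s.L k) x = 0 := fun k x => by
      rw [uN_eq, hN k, bcp_nil']
    have e1 : enU (rb H) p s = 0 := by
      unfold enU
      have a1 : (fun x => su ((rxm H).N p s) ((rb H).u (p - 1)) x ^ 2) = fun _ => 0 := by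
        funext x
        have : su ((rxm H).N p s) ((rb H).u (p - 1)) x = 0 := by
          unfold su GMer27.M
          refine Finset.sum_eq_zero fun k _ => ?_
          have e2 := z1 k x
          show s.c k * uF (rb H) p (s.L k) x = 0
          rw [e2, mul_zero]
        rw [this]; norm_num
      have a2 : (fun x => su s ((rb H).uN p) x ^ 2) = fun _ => 0 := by
        funext x
        have : su s ((rb H).uN p) x = 0 := by
          unfold su GMer27.M
          exact Finset.sum_eq_zero fun k _ => by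
            show s.c k * (rb H).uN p (s.L k) x = 0
            rw [z2 k x, mul_zero]
        rw [this]; norm_num
      rw [a1, a2]
      simp [I]
    rw [e1]
    unfold phA
    simp only [if_pos h1]
    unfold GMer27.M
    simp
  · have hp1 : p0 + 1 < p := by omega
    unfold phA
    simp only [if_neg h1]
    refine enU_leW (U := rb H) hs.1 hp (hβ p hp1) (hw0 p hp1)
      (fun k x => uN_le_uFP hF hD (hI k) x) (fun x => ?_) fun x => ?_
    · have k1 := hW hp1 hS hs (fun k => uF (rb H) p (s.L k) x ≠ 0) (fun k hk => by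
          obtain ⟨j, h2, h3⟩ := uF_mem hD hk
          exact ⟨j, x, h2, h3⟩)
      rw [wt_eq]
      exact k1
    · have k1 := hW2 hp1 hS hs (fun k => uE (rb H) p (s.L k) x ≠ 0) fun k hk => by
          obtain ⟨j, h2, h3, h4⟩ := uE_memP hF hD hk
          exact ⟨j, x, h2, h3, h4⟩
      rw [wt_eq]
      exact k1

/-- the member form is the payment of the node -/
lemma phW_node (hF : FMonP F) (hD : ∀ p m x j, D.tp p m x j = none ↔ flg F X.c p j.1.1)
    (hQ : ∀ u τ, Q u τ → NDt X.par (w X.ψ) X.c.t u τ) {β w2 : ℕ → ℝ} {m : Me}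
    {L : List (DT X.c.Lam (LbX X))} {v : NS} {σ : IT} (hp : p ≠ 0) (h : RtX X Q p m v σ)
    (ht : tp σ < p) (hl : ¬ isL σ) (hL : GWc343.bN p L = [(X.c.D.par X.Y).toDT X.c.sp v.B v.A σ]) :
    phW (rb H) (β p) (w2 p) p (m, L) ≤ psW X F β w2 p v σ := by
  have eF : uF (rb H) p (m, L) = fun x =>
      @ite ℝ (fl F (p - 1) v) (Classical.propDecidable _) (tt Finset.univ (X.g v σ) x) 0 := by
    funext x
    show bcp (D.tp (p - 1) m) (bN p L) none x = _
    rw [hL]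
    exact out_node hD hQ ((carX hQ).down hp h ht hl) x
  have eN : (rb H).uN p (m, L) = fun x =>
      @ite ℝ (fl F p v) (Classical.propDecidable _) (tt Finset.univ (X.g v σ) x) 0 := by
    funext x
    show bcp (D.tp p m) (bN p L) none x = _
    rw [hL]
    exact out_node hD hQ h x
  have eE : uE (rb H) p (m, L) = fun x => uF (rb H) p (m, L) x - (rb H).uN p (m, L) x := rfl
  unfold phW psW
  rw [eE, eF, eN]
  refine le_of_eq ?_
  by_cases hf : fl F (p - 1) v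
  · by_cases hg : fl F p v
    · simp only [if_pos hf, if_pos hg, sub_self]
      rw [I0]
      ring
    · simp only [if_pos hf, if_neg hg, sub_zero]
      ring
  · have hg : ¬ fl F p v := fun hg => hf (fl_monP hF hg)
    simp only [if_neg hf, if_neg hg, sub_self]
    rw [I0]
    ring

/-- **Lemma F at a node**, abstract states, weights and payments -/
theorem Kw_U_leA {u : NS} {τ : IT} {S : ℕ → Gs (Me × List (DT X.c.Lam (LbX X))) → Prop}
    {β w2 : ℕ → ℝ} (hβ : ∀ p, p0 + 1 < p → 0 < β p) (hw0 : ∀ p, p0 + 1 < p → 0 < w2 p)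
    (sC : ∀ {p s}, S p s → p ≠ 0 → S p ((bm (rxm H)).C p s))
    (sN : ∀ {p s}, S p s → p ≠ 0 → S (p - 1) ((bm (rxm H)).N p s))
    (s1 : S (tp τ) (one (b₀ X u τ)))
    (hW : ∀ {p : ℕ} {s : Gs (Me × List (DT X.c.Lam (LbX X)))}, p0 + 1 < p → S p s → okG H p s →
      ∀ E : s.J → Prop, (∀ k, E k → ∃ (j : X.c.Lam) (x : ℝ),
        jv (bN p (s.L k).2) j x ≠ 0 ∧ flg F X.c (p - 1) j.1.1) → wE s E ≤ β p)
    (hW2 : ∀ {p : ℕ} {s : Gs (Me × List (DT X.c.Lam (LbX X)))}, p0 + 1 < p → S p s → okG H p s →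
      ∀ E : s.J → Prop, (∀ k, E k → ∃ (j : X.c.Lam) (x : ℝ),
        jv (bN p (s.L k).2) j x ≠ 0 ∧ flg F X.c (p - 1) j.1.1 ∧ ¬ flg F X.c p j.1.1) →
        wE s E ≤ w2 p)
    (hF : FMonP F) (hst : ∀ {p : ℕ} {M : Finset ℕ}, p0 < p → (∀ q ∈ M, tp τ < q) → ¬ F p M)
    (hD : ∀ p m x j, D.tp p m x j = none ↔ flg F X.c p j.1.1) (htu : D.tu = tuM)
    (hQ : ∀ u τ, Q u τ → NDt X.par (w X.ψ) X.c.t u τ) (hψ : ∀ q, 0 ≤ w X.ψ q)
    (hR : RtX X Q (tp τ) (mS u τ) u τ) (hl : ¬ isL τ)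
    (hB : InvM X Q C (X.self u τ Finset.univ).p (b₀ X u τ)) {j₀ : X.c.Lam} {Kb : ℝ} (hK : 0 ≤ Kb)
    (hqe : All (QE X j₀ fun _ _ => True) u τ) (hboot : BootF X j₀ (fun _ _ => 0) Kb u τ)
    {A : ℕ → ℝ} {E : ℝ} (hA0 : ∀ p, 0 ≤ A p) (hA : ∀ p, A (p - 1) ≤ A p) (hE : 0 ≤ E)
    (h1 : ∀ p, p0 + 1 < p → Real.sqrt (β p) * w2 p *
      (Kb * (1 + Real.log p ^ N.c2)) ≤ A p - A (p - 1))
    (h2 : ∀ p, p0 + 1 < p → Real.sqrt (β p) *
      (Kb * (1 + Real.log p ^ N.c2)) ≤ E) (n : ℕ) :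
    Kw (bm (rxm H)) (cU (rb H)) n (X.self u τ Finset.univ).p (one (b₀ X u τ)) ≤
      GS SecO55.SOn n (X.self u τ Finset.univ).p [((1 : ℝ), (X.self u τ Finset.univ).t)] +
        vl X F A E (X.self u τ Finset.univ).p u τ := by
  classical
  rw [self_p X u τ] at hB ⊢
  have hok : okG H (tp τ) (one (b₀ X u τ)) ∧ S (tp τ) (one (b₀ X u τ)) := ⟨okG.one hB, s1⟩
  have p0P : p0 < tp τ := p0_lt (hQ _ _ hR.1.rm.all.self).self.node hl
  have kC : ∀ {p s}, (okG H p s ∧ S p s) → p ≠ 0 →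
      (okG H p ((bm (rxm H)).C p s) ∧ S p ((bm (rxm H)).C p s)) := fun h hp =>
    ⟨h.1.C hp, sC h.2 hp⟩
  have kN : ∀ {p s}, (okG H p s ∧ S p s) → p ≠ 0 →
      (okG H (p - 1) ((bm (rxm H)).N p s) ∧ S (p - 1) ((bm (rxm H)).N p s)) :=
    fun h hp => ⟨h.1.N hp, sN h.2 hp⟩
  have hst' : ∀ (j : (one (b₀ X u τ)).J) (x : ℝ), (rb H).u (tp τ) ((one (b₀ X u τ)).L j) x = 0 := by
    intro j x
    show bcp (D.tp (tp τ) (mS u τ)) [(X.c.D.par X.Y).toDT X.c.sp u.B u.A τ] none x = 0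
    rw [out_node hD hQ hR x, if_neg]
    exact hst p0P fun q hq => (Finset.mem_filter.1 hq).2
  have t1 := out_tel0 (U := rb H) (ok := fun p s => okG H p s ∧ S p s)
    (fun h => h.1.gok) (fun h hp => kC h hp) (fun h hp => kN h hp) n (tp τ) (one (b₀ X u τ)) hok hst'
  -- second order
  have t2 : Kw (bm (rxm H)) (soU (rb H)) n (tp τ) (one (b₀ X u τ)) ≤
      GS SecO55.SOn n (tp τ) [((1 : ℝ), (X.self u τ Finset.univ).t)] := by
    have a1 : Kw (bm (rxm H)) (soU (rb H)) n (tp τ) (one (b₀ X u τ)) ≤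
        Kw (bm (rxm H)) (fun p s => 1 / 8 * JnF5.so (rb H) p s) n (tp τ) (one (b₀ X u τ)) :=
      Kw_mono (ok := fun p s => okG H p s ∧ S p s) (fun h hp => kC h hp)
        (fun h hp => kN h hp) (fun h hp => soU_le h.1.gok hp) n (tp τ) _ hok
    rw [GSK55.Kw_smul] at a1
    have a2 := Kw_so H (prX H) n (tp τ) (one (b₀ X u τ)) hok.1.1
    have e1 : (stp Prod.snd (one (b₀ X u τ))).g = [((1 : ℝ), (X.self u τ Finset.univ).t)] :=
      GSK55.one_g rfl
    rw [e1] at a2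
    linarith
  -- the content which leaves
  have t3 : Kw (bm (rxm H)) (enU (rb H)) n (tp τ) (one (b₀ X u τ)) ≤ vl X F A E (tp τ) u τ := by
    have a1 : Kw (bm (rxm H)) (enU (rb H)) n (tp τ) (one (b₀ X u τ)) ≤
        Kw (bm (rxm H)) (fun p s => GMer27.M s.c fun j => phA (rb H) p0 β w2 p (s.L j)) n (tp τ)
          (one (b₀ X u τ)) :=
      Kw_mono (ok := fun p s => okG H p s ∧ S p s) (fun h hp => kC h hp)
        (fun h hp => kN h hp) (fun h hp => enU_leA hβ hw0 hW hW2 hF hD hQ h.1 h.2 hp) n (tp τ) _ hok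
    rw [Kw_lin] at a1
    have e1 : (GMer27.M (one (b₀ X u τ)).c fun j => Lw (bm (rxm H)) (phA (rb H) p0 β w2) n (tp τ)
        ((one (b₀ X u τ)).L j)) =
        Lw (bm (rxm H)) (phA (rb H) p0 β w2) n (tp τ) (b₀ X u τ) := by
      show ∑ _j : Unit, (1 : ℝ) * Lw (bm (rxm H)) (phA (rb H) p0 β w2) n (tp τ) (b₀ X u τ) = _
      simp
    rw [e1] at a1
    refine a1.trans ?_
    have hval := valW (X := X) (Q := Q) (j₀ := j₀) (Kb := Kb) (B0 := u.B) hψ hQ hF hst
      (fun q hq => prime_gt hQ hR hl (Nat.prime_of_mem_primeFactors hq)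
        (Nat.dvd_of_mem_primeFactors hq)) hK
      (β := β) (w2 := w2) (fun p hp => (hw0 p hp).le) hA0 hA hE h1 h2
    have key := Lw_val (D := X.c.D.par X.Y) (sp := X.c.sp) (F := FV (rhoX X) fun _ => True)
      (φ := phA (rb H) p0 β w2)
      (btmX (H := H) htu) (carRC hQ) hval
      (fun {p m L} hp hL => by
        have eF : uF (rb H) p (m, L) = fun _ => 0 := by
          funext x
          show bcp (D.tp (p - 1) m) (bN p L) none x = 0
          rw [hL]
          exact bcp_nil' _ x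
        have eN : (rb H).uN p (m, L) = fun _ => 0 := by
          funext x
          show bcp (D.tp p m) (bN p L) none x = 0
          rw [hL]
          exact bcp_nil' _ x
        have eE : uE (rb H) p (m, L) = fun x => uF (rb H) p (m, L) x - (rb H).uN p (m, L) x := rfl
        unfold phA
        split_ifs
        · exact le_rfl
        · unfold phW
          rw [eE, eF, eN]
          simp only [sub_self]
          rw [I0]
          simp)
      (fun {p m L v σ} hp h ht hl' hL => by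
        unfold phA
        split_ifs with h5
        · unfold psW
          have hp1 : p0 < tp σ := p0_lt h.qe.self.nd.self.node hl'
          omega
        · exact phW_node hF hD hQ hp h.rt ht hl' hL)
      n (tp τ) (mS u τ) [(u, τ)] (fun z hz => by
        rw [List.mem_singleton.1 hz]
        exact ⟨hR, hqe, Or.inr ⟨bel_im τ u hboot, rfl⟩⟩) hB.bi
    rw [sv_cons, sv_nil, add_zero] at key
    exact key
  linarith

/-! ### the standard states -/

/-- **absolute weights of the flags** (columns `> p0`, walks from the column `P`) -/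
def WtF (X : Ctx N γ p0 P₀) (Q : NS → IT → Prop) (C : ℝ) (F : ℕ → Finset ℕ → Prop) (P : ℕ)
    (e : ℝ) : Prop :=
  ∀ {p : ℕ} {s : Gs (Me × List (DT X.c.Lam (LbX X)))}, p0 < p → St X Q C P p s →
    (∀ k, 0 ≤ s.c k) → ∀ E : s.J → Prop, (∀ k, E k → ∃ (j : X.c.Lam) (x : ℝ),
      jv (s.L k).2 j x ≠ 0 ∧ flg F X.c p j.1.1) → wE s E ≤ Real.log p ^ (-e)

lemma wE_mono {β' : Type} {s : Gs β'} (c0 : ∀ k, 0 ≤ s.c k) {E E' : s.J → Prop}
    (h : ∀ k, E k → E' k) : wE s E ≤ wE s E' := by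
  classical
  unfold wE
  refine Finset.sum_le_sum fun k _ => ?_
  by_cases hk : E k
  · rw [if_pos hk, if_pos (h k hk)]
  · rw [if_neg hk]
    split_ifs
    · exact c0 k
    · exact le_rfl

lemma wE_or {β' : Type} {s : Gs β'} (c0 : ∀ k, 0 ≤ s.c k) {E E' : s.J → Prop} :
    wE s (fun k => E k ∨ E' k) ≤ wE s E + wE s E' := by
  classical
  unfold wE
  rw [← Finset.sum_add_distrib]
  refine Finset.sum_le_sum fun k _ => ?_
  have := c0 k
  by_cases h1 : E k
  · rw [if_pos (Or.inl h1), if_pos h1]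
    split_ifs <;> linarith
  · rw [if_neg h1]
    by_cases h2 : E' k
    · rw [if_pos (Or.inr h2), if_pos h2]; linarith
    · rw [if_neg (not_or.2 ⟨h1, h2⟩), if_neg h2]; linarith

/-- helper11's flags have small weights -/
theorem WtF.om {a δ e : ℝ} (ha : 0 < a) (h2a : 2 * a < δ) (he : e * a < δ) : ∃ n₀ : ℕ,
    ∀ {N : Skel189.Num} {γ : ℝ} {p0 P₀ : ℕ} {X : Ctx N γ p0 P₀} {Q : NS → IT → Prop} {C : ℝ},
      n₀ ≤ p0 → (∀ u τ, Q u τ → NDt X.par (w X.ψ) X.c.t u τ) → ∀ P : ℕ,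
      WtF X Q C (fun n M => Om a δ n P M) P e := by
  obtain ⟨n₀, h16, hom⟩ := St.om_le ha h2a he
  refine ⟨n₀, fun {N γ p0 P₀ X Q C} hn hQ P p s hp hS c0 E hE => ?_⟩
  classical
  refine le_trans ?_ (hom hQ (by omega : n₀ ≤ p) hS c0)
  unfold wE
  refine Finset.sum_le_sum fun k _ => ?_
  by_cases hk : E k
  · obtain ⟨j, x, h2, i, h5, h6⟩ := hE k hk
    rw [if_pos hk, if_pos]
    refine ⟨j, x, h2, i, h5, h6.trans ?_⟩
    have h7 : Mhi X.c p j.1.1 ⊆ pm X.c.t p (s.L k).1 j.1.1 := by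
      rw [← StJ6.pm_hi (s.L k).1]
      exact Finset.filter_subset _ _
    exact_mod_cast Finset.card_le_card (Finset.inter_subset_inter_left h7)
  · rw [if_neg hk]
    split_ifs
    · exact c0 k
    · exact le_rfl

/-- two families of flags -/
theorem WtF.or {F G : ℕ → Finset ℕ → Prop} {P : ℕ} {e e' : ℝ} (h : WtF X Q C F P e)
    (h' : WtF X Q C G P e) (he : Real.log 2 ≤ (e - e') * Real.log (Real.log (p0 + 1 : ℕ)))
    (hee : e' ≤ e) (h3 : 3 ≤ p0 + 1) : WtF X Q C (fun p M => F p M ∨ G p M) P e' := by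
  classical
  intro p s hp hS c0 E hE
  have k1 := h hp hS c0 (fun k => ∃ (j : X.c.Lam) (x : ℝ), jv (s.L k).2 j x ≠ 0 ∧
    flg F X.c p j.1.1) fun k hk => hk
  have k2 := h' hp hS c0 (fun k => ∃ (j : X.c.Lam) (x : ℝ), jv (s.L k).2 j x ≠ 0 ∧
    flg G X.c p j.1.1) fun k hk => hk
  have k3 : wE s E ≤ wE s (fun k => (∃ (j : X.c.Lam) (x : ℝ), jv (s.L k).2 j x ≠ 0 ∧
      flg F X.c p j.1.1) ∨ ∃ (j : X.c.Lam) (x : ℝ), jv (s.L k).2 j x ≠ 0 ∧
      flg G X.c p j.1.1) := by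
    refine wE_mono c0 fun k hk => ?_
    obtain ⟨j, x, h2, h4⟩ := hE k hk
    rcases h4 with h4 | h4
    · exact Or.inl ⟨j, x, h2, h4⟩
    · exact Or.inr ⟨j, x, h2, h4⟩
  have k4 := k3.trans (wE_or c0)
  have q3 : (3 : ℝ) ≤ ((p0 + 1 : ℕ) : ℝ) := by exact_mod_cast h3
  have hl1 : 1 < Real.log ((p0 + 1 : ℕ) : ℝ) := by
    rw [Real.lt_log_iff_exp_lt (by linarith)]
    linarith [Real.exp_one_lt_d9]
  have hlp : Real.log ((p0 + 1 : ℕ) : ℝ) ≤ Real.log p :=
    Real.log_le_log (by linarith) (by exact_mod_cast hp)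
  have hp0' : 0 < Real.log (p : ℝ) := by linarith
  have k5 : 2 * Real.log (p : ℝ) ^ (-e) ≤ Real.log p ^ (-e') := by
    have e1 : Real.log (p : ℝ) ^ (-e') = Real.log p ^ (e - e') * Real.log p ^ (-e) := by
      rw [← Real.rpow_add hp0']; congr 1; ring
    rw [e1]
    refine mul_le_mul_of_nonneg_right ?_ (Real.rpow_nonneg hp0'.le _)
    have h5 : (2 : ℝ) = Real.exp (Real.log 2) := (Real.exp_log (by norm_num)).symm
    rw [h5, Real.rpow_def_of_pos hp0']
    refine Real.exp_le_exp.2 (he.trans ?_)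
    rw [mul_comm]
    refine mul_le_mul_of_nonneg_right ?_ (by linarith)
    exact Real.log_le_log (by linarith) hlp
  linarith

/-- **weights of the flags along the walk from the node `(u, τ)`** : `S` = any property of the group states
which is carried by the walk -/
def WtS (X : Ctx N γ p0 P₀) (Q : NS → IT → Prop) (C : ℝ) (F : ℕ → Finset ℕ → Prop) (u : NS) (τ : IT)
    (e : ℝ) : Prop :=
  ∃ S : ℕ → Gs (Me × List (DT X.c.Lam (LbX X))) → Prop,
    (∀ {M : BM (Me × List (DT X.c.Lam (LbX X)))}, BT X M → ∀ {p s}, St X Q C (tp τ) p s → S p s →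
      p ≠ 0 → S p (M.C p s)) ∧
    (∀ {M : BM (Me × List (DT X.c.Lam (LbX X)))}, BT X M → ∀ {p s}, St X Q C (tp τ) p s → S p s →
      p ≠ 0 → S (p - 1) (M.N p s)) ∧
    S (tp τ) (one (b₀ X u τ)) ∧
    ∀ {p : ℕ} {s : Gs (Me × List (DT X.c.Lam (LbX X)))}, p0 < p → St X Q C (tp τ) p s → S p s →
      (∀ k, 0 ≤ s.c k) → (∀ k, (s.L k).2.length ≤ 1) → ∀ E : s.J → Prop,
      (∀ k, E k → ∃ (j : X.c.Lam) (x : ℝ), jv (s.L k).2 j x ≠ 0 ∧ flg F X.c p j.1.1) →
      wE s E ≤ Real.log p ^ (-e)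

theorem WtF.wtS {u : NS} {τ : IT} {e : ℝ} (h : WtF X Q C F (tp τ) e) : WtS X Q C F u τ e :=
  ⟨fun _ _ => True, fun _ _ _ _ _ _ => trivial, fun _ _ _ _ _ _ => trivial, trivial,
    fun hp hS _ c0 _ E hE => h hp hS c0 E hE⟩

/-- **flags of a game which starts at the column `P`**, which may appear at the static columns `Sc` -/
structure FOj (F : ℕ → Finset ℕ → Prop) (Sc : ℕ → Prop) (P p0 : ℕ) : Prop where
  mon : FMonP F
  /-- nobody is flagged at the start -/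
  start : ∀ {p : ℕ} {M : Finset ℕ}, p0 < p → (∀ q ∈ M, P < q) → ¬ F p M
  /-- flags appear only at missing ties or at static columns -/
  ent : ∀ {p : ℕ} {M : Finset ℕ}, p0 + 1 < p → (∀ q ∈ M, p ≤ q) → F (p - 1) M →
    ¬ F p (M.filter (p < ·)) → p ∈ M ∨ Sc p

/-- flags of `FlH_845` -/
theorem FOj.of {a δ : ℝ} {F : ℕ → Finset ℕ → Prop} {P p0 : ℕ} (h : FOk a δ F P p0) :
    FOj F (fun _ => False) P p0 :=
  ⟨FMonP.of h.mon, h.start, fun h1 h2 h3 h4 => Or.inl (h.ent h1 h2 h3 h4).1⟩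

theorem FOj.or {F G : ℕ → Finset ℕ → Prop} {Sc : ℕ → Prop} {P p0 : ℕ} (h : FOj F Sc P p0)
    (h' : FOj G Sc P p0) : FOj (fun p M => F p M ∨ G p M) Sc P p0 where
  mon := FMonP.or h.mon h'.mon
  start := fun h1 h2 h3 => h3.elim (h.start h1 h2) (h'.start h1 h2)
  ent := fun h1 h2 h3 h4 => by
    rcases h3 with h3 | h3
    · exact h.ent h1 h2 h3 fun h5 => h4 (Or.inl h5)
    · exact h'.ent h1 h2 h3 fun h5 => h4 (Or.inr h5)

theorem FOj.mono {F : ℕ → Finset ℕ → Prop} {Sc Sc' : ℕ → Prop} {P p0 : ℕ} (h : FOj F Sc P p0)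
    (hS : ∀ p, Sc p → Sc' p) : FOj F Sc' P p0 :=
  ⟨h.mon, h.start, fun h1 h2 h3 h4 => (h.ent h1 h2 h3 h4).imp id (hS _)⟩

open Classical in
/-- the weights of the newly flagged members -/
noncomputable def w2S (Sc : ℕ → Prop) (e : ℝ) (p : ℕ) : ℝ :=
  1 / (p : ℝ) + if Sc p then Real.log (p - 1 : ℕ) ^ (-e) else 0

/-- newly flagged members of a standard state -/
theorem w2_le {Sc : ℕ → Prop} {e : ℝ} (hF : FOj F Sc P p0)
    (hM : BT X (bm (rxm H))) (hQ : ∀ u τ, Q u τ → NDt X.par (w X.ψ) X.c.t u τ)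
    (hp : p0 + 1 < p) (hS : St X Q C P p s) (c0 : ∀ k, 0 ≤ s.c k)
    (E : s.J → Prop)
    (hW : (∀ k, E k → ∃ (j : X.c.Lam) (x : ℝ), jv (((bm (rxm H)).N p s).L k).2 j x ≠ 0 ∧
      flg F X.c (p - 1) j.1.1) → wE s E ≤ Real.log (p - 1 : ℕ) ^ (-e)) (hE : ∀ k, E k → ∃ (j : X.c.Lam) (x : ℝ),
      jv (bN p (s.L k).2) j x ≠ 0 ∧ flg F X.c (p - 1) j.1.1 ∧ ¬ flg F X.c p j.1.1) :
    wE s E ≤ w2S Sc e p := by
  classical
  have hS' := St.toN hQ hM (show p ≠ 0 by omega) hS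
  by_cases hc : Sc p
  · have k1 := hW (fun k hk => by
        obtain ⟨j, x, h2, h3, h4⟩ := hE k hk
        refine ⟨j, x, ?_, h3⟩
        have e1 : ((bm (rxm H)).N p s).L k = (bm (rxm H)).rN p (s.L k) := rfl
        rw [e1, hM.R]
        exact h2)
    unfold w2S
    rw [if_pos hc]
    have : (0 : ℝ) ≤ 1 / (p : ℝ) := by positivity
    linarith
  · obtain ⟨T, h, hWt, hG⟩ := hS'
    have k1 := last_le hWt c0 (show 1 ≤ p by omega) E fun k hk => by
      obtain ⟨j, x, h2, h3, h4⟩ := hE k hk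
      have e0 : (Mhi X.c (p - 1) j.1.1).filter (p < ·) = Mhi X.c p j.1.1 := Mhi_dn X.c p j.1.1
      have h5 := (hF.ent (M := Mhi X.c (p - 1) j.1.1) hp (fun q hq => by
        have := (Finset.mem_filter.1 hq).2
        omega) h3 (fun h7 => h4 (by rw [e0] at h7; exact h7))).resolve_right hc
      have hpP : p ≤ P := by
        by_contra hPp
        refine hF.start (p := p - 1) (by omega) (fun q hq => ?_) h3
        have := (Finset.mem_filter.1 hq).2
        omega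
      have h2' : jv (((bm (rxm H)).N p s).L k).2 j x ≠ 0 := by
        have e1 : ((bm (rxm H)).N p s).L k = (bm (rxm H)).rN p (s.L k) := rfl
        rw [e1, hM.R]
        exact h2
      obtain ⟨u, τ, h8, h9, -, h10⟩ := (hG k).1.node hQ (j := j) (x := x) h2'
      have h11 : p ∈ pm X.c.t (p - 1) (((bm (rxm H)).N p s).L k).1 j.1.1 := by
        rw [← StJ6.pm_hi (((bm (rxm H)).N p s).L k).1] at h5
        exact (Finset.mem_filter.1 h5).1
      have h12 : p ∈ u.B.primeFactors := by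
        rw [← h10]
        exact h11
      exact h9 p (Nat.prime_of_mem_primeFactors h12) (Nat.dvd_of_mem_primeFactors h12) hpP
    have e2 : (∑ k, @ite ℝ (E k) (Classical.propDecidable _) (s.c k) 0) = wE s E := rfl
    unfold w2S
    rw [if_neg hc, add_zero]
    exact k1

end states

/-! ### contexts -/

open Classical in
/-- **static columns are sparse** -/
def SpC (Sc : ℕ → Prop) (p0 : ℕ) : Prop :=
  ∀ p : ℕ, ∑ n ∈ (Finset.Ioc (p0 + 1) p).filter Sc, 1 / Real.log (n : ℝ) ^ 2 ≤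
    1 / Real.log (p0 + 1 : ℕ)

lemma SpC.none (p0 : ℕ) : SpC (fun _ => False) p0 := by
  intro p
  rw [Finset.filter_false, Finset.sum_empty]
  have : 0 ≤ Real.log ((p0 + 1 : ℕ) : ℝ) := Real.log_natCast_nonneg _
  positivity

/-- the rate of the payments at a static column -/
lemma log_le_one {e : ℝ} (he : 0 ≤ e) {p : ℕ} (hp : 4 ≤ p) : Real.log (p - 1 : ℕ) ^ (-e) ≤ 1 := by
  refine Real.rpow_le_one_of_one_le_of_nonpos ?_ (by linarith)
  exact Bld532.one_le_log_nat (by omega)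

/-- **LEMMA F IN A CONTEXT, flags which may appear at static columns** -/
theorem ctx_UJ (N : Skel189.Num) (M : ℝ) (hM : 0 ≤ M) {e : ℝ}
    (heM : 2 * (M + N.c2 + 2) ≤ e) {ε : ℝ} (hε : 0 < ε) : ∃ p₁ : ℕ,
    ∀ p0 ≥ p₁, ∀ (γ : ℝ) (P₀ : ℕ) (X : Ctx N γ p0 P₀) (j₀ : X.c.Lam) (Kb : ℝ), 0 ≤ Kb →
      Kb ≤ M * Real.log p0 ^ M → ∀ Sc : ℕ → Prop, SpC Sc p0 →
      All (fun u τ => BootF X j₀ (fun _ _ => 0) Kb u τ →
        ∀ {Q : NS → IT → Prop} {C : ℝ} {ζ : Type} [Fintype ζ] [DecidableEq ζ]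
          {D : TD Me X.c.Lam (LbX X) ζ} (H : TYp (rhoX X) D (InvM X Q C))
          {F : ℕ → Finset ℕ → Prop}, (∀ u τ, Q u τ → NDt X.par (w X.ψ) X.c.t u τ) → All Q u τ →
          InvM X Q C (X.self u τ Finset.univ).p (b₀ X u τ) → FOj F Sc (tp τ) p0 →
          WtS X Q C F u τ e →
          (∀ p m x j, D.tp p m x j = none ↔ flg F X.c p j.1.1) → D.tu = tuM → ∀ n,
          Kw (bm (rxm H)) (cU (rb H)) n (X.self u τ Finset.univ).p (one (b₀ X u τ)) ≤
            ε * X.mu j₀ u τ Finset.univ)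
        ⟨top X.S, 1, 1, 1⟩ X.c.t := by
  classical
  have hc0 : 0 ≤ N.c2 := N.hc2
  have he0 : 0 ≤ e := by linarith
  obtain ⟨p1, h1⟩ := SecO55.ctx_SOn N M hM (show 0 < ε / 2 by linarith)
  obtain ⟨p2, hp2⟩ : ∃ p2 : ℕ, ∀ p0 ≥ p2, 2 ^ (e / 2 + 1) * M * (3 / Real.log (p0 + 1 : ℕ)) ≤
      ε / 2 := by
    have h := (Real.tendsto_log_atTop.comp (tendsto_natCast_atTop_atTop (R := ℝ))).comp
      (tendsto_add_atTop_nat 1)
    obtain ⟨p2, h3⟩ := Filter.eventually_atTop.1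
      (h.eventually_ge_atTop (2 ^ (e / 2 + 1) * M * 6 / ε + 1))
    refine ⟨p2, fun p0 hp0 => ?_⟩
    have h4 : 2 ^ (e / 2 + 1) * M * 6 / ε + 1 ≤ Real.log ((p0 + 1 : ℕ) : ℝ) := h3 p0 hp0
    have h5 : (0 : ℝ) ≤ 2 ^ (e / 2 + 1) * M := by positivity
    have h6 : 0 ≤ 2 ^ (e / 2 + 1) * M * 6 / ε := by positivity
    have h7 : 0 < Real.log ((p0 + 1 : ℕ) : ℝ) := by linarith
    rw [← mul_div_assoc, div_le_iff₀ h7]
    have h8 : 2 ^ (e / 2 + 1) * M * 6 / ε ≤ Real.log ((p0 + 1 : ℕ) : ℝ) := by linarith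
    rw [div_le_iff₀ hε] at h8
    linarith
  refine ⟨p1 + p2 + 16, fun p0 hp0 γ P₀ X j₀ Kb hK0 hK Sc hSc => ?_⟩
  have hψ : ∀ q, 0 ≤ w X.ψ q := fun q => by
    have := X.sys.nonneg q
    unfold w
    positivity
  have hQE := ctx_QE X j₀ (Q' := fun _ _ => True) (All.mono (fun _ _ _ => trivial) (ctx_NDt X))
  refine All.mono (fun u τ hh hb => ?_) ((All_All _ _ hQE).and
    (h1 p0 (by omega) γ P₀ X j₀ Kb hK0 hK))
  intro Q C ζ _ _ D H F hQ hall hB hF hWS hD htu n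
  obtain ⟨SS, sC, sN, s1, hWt⟩ := hWS
  obtain ⟨hqe, hso⟩ := hh
  have hmu : X.mu j₀ u τ Finset.univ = u.c * Ws (w X.ψ) τ.items := hqe.self.mass
  have hmu0 : 0 ≤ X.mu j₀ u τ Finset.univ := by
    rw [hmu]; exact mul_nonneg hqe.self.nf.c0.le (Ws_nonneg hψ _)
  by_cases hl : isL τ
  · have e1 : (X.self u τ Finset.univ).p = 0 := by rw [self_p X u τ, tp_leaf hl]
    rw [e1]
    cases n with
    | zero =>
      show (0 : ℝ) ≤ _
      positivity
    | succ n =>
      rw [Kw_z]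
      positivity
  have hR : RtX X Q (tp τ) (mS u τ) u τ :=
    ⟨TYP9.Rt.start hQ X.tOk hall, (tp_lt_n hQ hall hl).le.trans hqe.self.lv⟩
  -- the rates
  set c₀ : ℝ := 2 ^ (e / 2 + 1) * M with hc₀
  have hc₀0 : 0 ≤ c₀ := by positivity
  set B : ℝ := Real.log ((p0 + 1 : ℕ) : ℝ) with hBd
  have hB1 : 1 ≤ B := Bld532.one_le_log_nat (by omega)
  have hB0 : 0 < B := by linarith
  set S : ℕ → ℝ := fun p => ∑ n ∈ (Finset.Ioc (p0 + 1) p).filter Sc, 1 / Real.log (n : ℝ) ^ 2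
    with hS
  have hS0 : ∀ p, 0 ≤ S p := fun p => Finset.sum_nonneg fun n _ => by positivity
  have hSm : ∀ p, S (p - 1) ≤ S p := fun p => by
    refine Finset.sum_le_sum_of_subset_of_nonneg ?_ fun n _ _ => by positivity
    exact Finset.filter_subset_filter _ (Finset.Ioc_subset_Ioc_right (Nat.sub_le _ _))
  have hSB : ∀ p, S p ≤ 1 / B := fun p => hSc p
  have hS1 : ∀ p, p0 + 1 < p → S p - S (p - 1) = if Sc p then 1 / Real.log (p : ℝ) ^ 2 else 0 := by
    intro p hp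
    have e1 : Finset.Ioc (p0 + 1) p = insert p (Finset.Ioc (p0 + 1) (p - 1)) := by
      ext q
      simp only [Finset.mem_Ioc, Finset.mem_insert]
      omega
    have e2 : p ∉ (Finset.Ioc (p0 + 1) (p - 1)).filter Sc := by
      simp only [Finset.mem_filter, Finset.mem_Ioc, not_and]
      omega
    have e3 : S p = ∑ n ∈ (insert p (Finset.Ioc (p0 + 1) (p - 1))).filter Sc,
      1 / Real.log (n : ℝ) ^ 2 := by rw [← e1]
    rw [e3, Finset.filter_insert]
    split_ifs with h5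
    · rw [Finset.sum_insert e2]
      simp only [hS]
      ring
    · simp only [hS]
      ring
  set A : ℕ → ℝ := fun p => c₀ * (1 / B - 1 / Real.log ((max p (p0 + 1) : ℕ) : ℝ)) + c₀ * S p
    with hA
  have hlm : ∀ p : ℕ, B ≤ Real.log ((max p (p0 + 1) : ℕ) : ℝ) := fun p =>
    Real.log_le_log (by exact_mod_cast Nat.succ_pos p0) (by exact_mod_cast le_max_right _ _)
  have hA0 : ∀ p, 0 ≤ A p := fun p => by
    refine add_nonneg (mul_nonneg hc₀0 (sub_nonneg.2 ?_)) (mul_nonneg hc₀0 (hS0 p))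
    exact one_div_le_one_div_of_le hB0 (hlm p)
  have hAm : ∀ p, A (p - 1) ≤ A p := fun p => by
    refine add_le_add (mul_le_mul_of_nonneg_left (sub_le_sub_left ?_ _) hc₀0)
      (mul_le_mul_of_nonneg_left (hSm p) hc₀0)
    have h3 := hlm (p - 1)
    have h4 : (0 : ℝ) < ((max (p - 1) (p0 + 1) : ℕ) : ℝ) := by
      exact_mod_cast lt_of_lt_of_le (Nat.succ_pos p0) (le_max_right _ _)
    refine one_div_le_one_div_of_le (by linarith) (Real.log_le_log h4 ?_)
    exact_mod_cast max_le_max (Nat.sub_le _ _) le_rfl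
  have hnum : ∀ p, p0 + 1 < p → Real.sqrt (Real.log (p - 1 : ℕ) ^ (-e)) *
      (Kb * (1 + Real.log p ^ N.c2)) ≤ c₀ * (1 / Real.log p ^ 2) := fun p hp =>
    nums hc0 hM heM (by omega) hp hK0 hK
  have hlpos : ∀ p, p0 + 1 < p → 0 < Real.log (p - 1 : ℕ) := fun p hp =>
    Real.log_pos (by exact_mod_cast (show 1 < p - 1 by omega))
  have hrest : ∀ {p : ℕ} {s : Gs (Me × List (DT X.c.Lam (LbX X)))}, p0 + 1 < p →
      (St X Q C (tp τ) p s ∧ SS p s) → okG H p s → ∀ E : s.J → Prop,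
      (∀ k, E k → ∃ (j : X.c.Lam) (x : ℝ), jv (((bm (rxm H)).N p s).L k).2 j x ≠ 0 ∧
        flg F X.c (p - 1) j.1.1) → wE s E ≤ Real.log (p - 1 : ℕ) ^ (-e) := by
    intro p s hp hs hg E hE
    have hM := btX (H := H) htu
    refine hWt (p := p - 1) (s := (bm (rxm H)).N p s) (by omega)
      (St.toN hQ hM (show p ≠ 0 by omega) hs.1) (sN hM hs.1 hs.2 (by omega)) hg.1.1.c0
      (fun k => ?_) E hE
    have e1 : (((bm (rxm H)).N p s).L k).2 = GWc343.bN p (s.L k).2 := by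
      show ((bm (rxm H)).rN p (s.L k)).2 = _
      rw [hM.R]
    rw [e1]
    exact (hg.1.2 k).bi.len
  have key := Kw_U_leA (H := H) (X := X) (u := u) (τ := τ)
    (S := fun p s => St X Q C (tp τ) p s ∧ SS p s)
    (β := fun p => Real.log (p - 1 : ℕ) ^ (-e)) (w2 := w2S Sc e)
    (fun p hp => Real.rpow_pos_of_pos (hlpos p hp) _)
    (fun p hp => by
      unfold w2S
      have h5 : (0 : ℝ) < p := by exact_mod_cast (show 0 < p by omega)
      have h6 : 0 ≤ Real.log (p - 1 : ℕ) ^ (-e) := Real.rpow_nonneg (hlpos p hp).le _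
      have h7 : (0 : ℝ) < 1 / p := by positivity
      split_ifs <;> linarith)
    (fun h hp => ⟨St.toC hQ (btX htu) hp h.1, sC (btX htu) h.1 h.2 hp⟩)
    (fun h hp => ⟨St.toN hQ (btX htu) hp h.1, sN (btX htu) h.1 h.2 hp⟩)
    ⟨St.one hR hQ hl (by rw [self_p X u τ] at hB; exact hB), s1⟩
    (fun {p s} hp hs hg E hE => hrest hp hs hg E hE)
    (fun {p s} hp hs hg E hE => w2_le hF (btX (H := H) htu) hQ hp hs.1 hg.1.1.c0 E
      (hrest hp hs hg E) hE)
    hF.mon hF.start hD htu hQ hψ hR hl hB hK0 hqe hb (A := A)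
    (E := c₀ * (1 / B ^ 2)) hA0 hAm (by positivity)
    (fun p hp => by
      have k1 := hnum p hp
      have k2 := tele (p := p) (by omega)
      have m1 : max p (p0 + 1) = p := max_eq_left (by omega)
      have m2 : max (p - 1) (p0 + 1) = p - 1 := max_eq_left (by omega)
      have e1 : A p - A (p - 1) = c₀ * (1 / Real.log (p - 1 : ℕ) - 1 / Real.log p) +
          c₀ * (S p - S (p - 1)) := by
        simp only [hA, m1, m2]
        ring
      rw [e1, hS1 p hp]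
      have k3 := mul_le_mul_of_nonneg_left k2 hc₀0
      have k4 := mul_le_mul_of_nonneg_right k1 (show (0 : ℝ) ≤ 1 / (p : ℝ) by positivity)
      have k5 : Real.sqrt (Real.log (p - 1 : ℕ) ^ (-e)) * (1 / (p : ℝ)) *
            (Kb * (1 + Real.log p ^ N.c2)) ≤
          c₀ * (1 / Real.log (p - 1 : ℕ) - 1 / Real.log p) := by
        calc Real.sqrt (Real.log (p - 1 : ℕ) ^ (-e)) * (1 / (p : ℝ)) *
            (Kb * (1 + Real.log p ^ N.c2)) = Real.sqrt (Real.log (p - 1 : ℕ) ^ (-e)) *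
            (Kb * (1 + Real.log p ^ N.c2)) * (1 / (p : ℝ)) := by ring
          _ ≤ c₀ * (1 / Real.log p ^ 2) * (1 / (p : ℝ)) := k4
          _ = c₀ * (1 / (p : ℝ) * (1 / Real.log p ^ 2)) := by ring
          _ ≤ _ := k3
      have k6 : 0 ≤ Real.sqrt (Real.log (p - 1 : ℕ) ^ (-e)) * (Kb * (1 + Real.log p ^ N.c2)) := by
        have : 0 ≤ Real.log (p : ℝ) ^ N.c2 := Real.rpow_nonneg (Real.log_natCast_nonneg _) _
        positivity
      unfold w2S
      by_cases h5 : Sc p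
      · rw [if_pos h5, if_pos h5]
        have k7 : Real.log (p - 1 : ℕ) ^ (-e) ≤ 1 := log_le_one he0 (by omega)
        have k8 : Real.sqrt (Real.log (p - 1 : ℕ) ^ (-e)) * Real.log (p - 1 : ℕ) ^ (-e) *
            (Kb * (1 + Real.log p ^ N.c2)) ≤ c₀ * (1 / Real.log p ^ 2) := by
          refine le_trans ?_ k1
          have := mul_le_mul_of_nonneg_left k7 k6
          calc _ = Real.sqrt (Real.log (p - 1 : ℕ) ^ (-e)) * (Kb * (1 + Real.log p ^ N.c2)) *
              Real.log (p - 1 : ℕ) ^ (-e) := by ring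
            _ ≤ _ := this
            _ = _ := by ring
        calc _ = Real.sqrt (Real.log (p - 1 : ℕ) ^ (-e)) * (1 / (p : ℝ)) *
            (Kb * (1 + Real.log p ^ N.c2)) +
            Real.sqrt (Real.log (p - 1 : ℕ) ^ (-e)) * Real.log (p - 1 : ℕ) ^ (-e) *
            (Kb * (1 + Real.log p ^ N.c2)) := by ring
          _ ≤ _ := add_le_add k5 k8
      · rw [if_neg h5, if_neg h5, add_zero, mul_zero, add_zero]
        exact k5)
    (fun p hp => by
      refine (hnum p hp).trans (mul_le_mul_of_nonneg_left ?_ hc₀0)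
      refine one_div_le_one_div_of_le (by positivity) (pow_le_pow_left₀ hB0.le ?_ 2)
      exact Real.log_le_log (by exact_mod_cast Nat.succ_pos p0)
        (by exact_mod_cast (show p0 + 1 ≤ p by omega))) n
  refine key.trans ?_
  have k1 := hso hb n (X.self u τ Finset.univ).p
  have k2 : vl X F A (c₀ * (1 / B ^ 2)) (X.self u τ Finset.univ).p u τ ≤
      ε / 2 * X.mu j₀ u τ Finset.univ := by
    rw [hmu]
    unfold vl
    rw [hmu] at hmu0
    refine mul_le_mul_of_nonneg_right ?_ hmu0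
    have hAP : ∀ p, A p ≤ c₀ * (1 / B) + c₀ * (1 / B) := fun p => by
      refine add_le_add (mul_le_mul_of_nonneg_left (sub_le_self _ ?_) hc₀0)
        (mul_le_mul_of_nonneg_left (hSB p) hc₀0)
      have := hlm p
      have : 0 < Real.log ((max p (p0 + 1) : ℕ) : ℝ) := by linarith
      positivity
    have hE' : c₀ * (1 / B ^ 2) ≤ c₀ * (1 / B) := by
      refine mul_le_mul_of_nonneg_left (one_div_le_one_div_of_le hB0 ?_) hc₀0
      nlinarith
    have hE0 : 0 ≤ c₀ * (1 / B ^ 2) := by positivity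
    have h5 := hp2 p0 (by omega)
    have h6 : c₀ * (3 / B) = c₀ * (1 / B) + c₀ * (1 / B) + c₀ * (1 / B) := by ring
    have h7 : c₀ * (1 / B) + c₀ * (1 / B) + c₀ * (1 / B) ≤ ε / 2 := by
      rw [← h6]; exact h5
    have h8 : 0 ≤ c₀ * (1 / B) := by positivity
    by_cases hf : fl F (X.self u τ Finset.univ).p u
    · rw [cf_fl hf]
      have := hAP (X.self u τ Finset.univ).p
      linarith
    · rw [cf_not hf]
      have := hAP (X.self u τ Finset.univ).p
      linarith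
  linarith

/-! ### the fields of the games -/

/-- **Lemma F for one game** -/
theorem ctx_vUJ (N : Skel189.Num) (M : ℝ) (hM : 0 ≤ M) {e : ℝ} (hec : 4 * N.c2 + 6 ≤ e) {ε : ℝ}
    (hε : 0 < ε) : ∃ p₁ : ℕ,
    ∀ p0 ≥ p₁, ∀ (γ : ℝ) (P₀ : ℕ) (X : Ctx N γ p0 P₀) (j₀ : X.c.Lam) (Kb : ℝ), 0 ≤ Kb →
      Kb ≤ M * Real.log p0 ^ N.c2 → ∀ Sc : ℕ → Prop, SpC Sc p0 →
      All (fun u τ => BootF X j₀ (fun _ _ => 0) Kb u τ →
        ∀ {Q : NS → IT → Prop} {C : ℝ} {n : ℕ} (G : Gm X Q C n)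
          {F : ℕ → Finset ℕ → Prop}, (∀ u τ, Q u τ → NDt X.par (w X.ψ) X.c.t u τ) → All Q u τ →
          InvM X Q C (X.self u τ Finset.univ).p (b₀ X u τ) → FOj F Sc (tp τ) p0 →
          WtS X Q C F u τ e →
          (∀ p m x j, G.D.tp p m x j = none ↔ flg F X.c p j.1.1) → ∀ k,
          G.vU u τ k ≤ ε * X.mu j₀ u τ Finset.univ)
        ⟨top X.S, 1, 1, 1⟩ X.c.t := by
  have hc := N.hc2
  obtain ⟨p1, h1⟩ := FlI845.Kb_le hc hM
  obtain ⟨p2, h2⟩ := ctx_UJ N (N.c2 + 1) (by linarith) (by linarith : 2 * (N.c2 + 1 + N.c2 + 2) ≤ e) hε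
  refine ⟨p1 + p2, fun p0 hp0 γ P₀ X j₀ Kb k0 k1 Sc hSc => ?_⟩
  refine All.mono (fun u τ hh hb Q C n G F hQ hall hB hF hWt hD k => ?_)
    (h2 p0 (by omega) γ P₀ X j₀ Kb k0 (h1 p0 (by omega) Kb k1) Sc hSc)
  exact hh hb G.H hQ hall hB hF hWt hD G.tu k

/-- **Lemma F for the games of a rule with flags** (`AsC407.GDat`) -/
theorem ctx_vUGJ (N : Skel189.Num) (M : ℝ) (hM : 0 ≤ M) {e : ℝ} (hec : 4 * N.c2 + 6 ≤ e) {ε : ℝ}
    (hε : 0 < ε) : ∃ p₁ : ℕ,
    ∀ p0 ≥ p₁, ∀ (γ : ℝ) (P₀ : ℕ) (X : Ctx N γ p0 P₀) (j₀ : X.c.Lam) (Kb : ℝ), 0 ≤ Kb →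
      Kb ≤ M * Real.log p0 ^ N.c2 → ∀ Sc : ℕ → Prop, SpC Sc p0 →
      All (fun u τ => BootF X j₀ (fun _ _ => 0) Kb u τ →
        ∀ {Q : NS → IT → Prop} {C : ℝ} {n : ℕ} {cf : CtxF X Q} (G : GDat X Q C n cf), All Q u τ →
          InvM X Q C (X.self u τ Finset.univ).p (b₀ X u τ) → FOj G.r.F Sc (tp τ) p0 →
          WtS X Q C G.r.F u τ e → ∀ k,
          G.gm.vU u τ k ≤ ε * X.mu j₀ u τ Finset.univ)
        ⟨top X.S, 1, 1, 1⟩ X.c.t := by
  obtain ⟨p1, h1⟩ := ctx_vUJ N M hM hec hε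
  refine ⟨p1, fun p0 hp0 γ P₀ X j₀ Kb k0 k1 Sc hSc => ?_⟩
  refine All.mono (fun u τ hh hb Q C n cf G hall hB hF hWt k => ?_)
    (h1 p0 hp0 γ P₀ X j₀ Kb k0 k1 Sc hSc)
  exact hh hb G.gm cf.hQ hall hB hF hWt (fun p m x j => StJ6.tpF_none) k

/-! ### a grid of static columns -/

/-- the grid `2^(2^i)` -/
def Gd (p : ℕ) : Prop := ∃ i : ℕ, p = 2 ^ 2 ^ i

lemma pp_inj {i j : ℕ} (h : 2 ^ 2 ^ i = 2 ^ 2 ^ j) : i = j :=
  Nat.pow_right_injective le_rfl (Nat.pow_right_injective le_rfl h)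

/-- **the grid is sparse** -/
theorem SpC.grid {p0 : ℕ} (h : 16 ≤ p0) : SpC Gd p0 := by
  classical
  intro p
  have hl2 : 0 < Real.log 2 := Real.log_pos (by norm_num)
  set B : ℝ := Real.log ((p0 + 1 : ℕ) : ℝ) with hB
  have hB2 : 2 ≤ B := by
    have h1 : (16 : ℝ) ≤ ((p0 + 1 : ℕ) : ℝ) := by exact_mod_cast (show 16 ≤ p0 + 1 by omega)
    have h2 := Real.log_le_log (by norm_num) h1
    have h3 : Real.log (16 : ℝ) = 4 * Real.log 2 := by
      rw [show (16 : ℝ) = 2 ^ 4 by norm_num, Real.log_pow]; norm_num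
    have h4 := Real.log_two_gt_d9
    rw [h3] at h2
    linarith
  have hB0 : 0 < B := by linarith
  set G := (Finset.Ioc (p0 + 1) p).filter Gd with hG
  -- the exponents
  have hex : ∀ n ∈ G, ∃ i : ℕ, n = 2 ^ 2 ^ i := fun n hn => (Finset.mem_filter.1 hn).2
  choose! ix hix using hex
  have hinj : Set.InjOn ix (G : Set ℕ) := by
    intro a ha b hb hab
    rw [hix a ha, hix b hb, hab]
  have hval : ∀ n ∈ G, Real.log (n : ℝ) = 2 ^ ix n * Real.log 2 := by
    intro n hn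
    conv_lhs => rw [hix n hn]
    push_cast
    rw [Real.log_pow]
    push_cast
    ring
  have hge : ∀ n ∈ G, B < 2 ^ ix n * Real.log 2 := by
    intro n hn
    rw [← hval n hn]
    have h1 := (Finset.mem_Ioc.1 (Finset.mem_filter.1 hn).1).1
    exact Real.log_lt_log (by exact_mod_cast Nat.succ_pos p0) (by exact_mod_cast h1)
  rcases G.eq_empty_or_nonempty with he | hne
  · rw [he, Finset.sum_empty]
    positivity
  -- the least exponent
  obtain ⟨i0, hi0⟩ : ∃ i0, i0 ∈ G.image ix ∧ ∀ i ∈ G.image ix, i0 ≤ i :=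
    ⟨(G.image ix).min' (hne.image _), Finset.min'_mem _ _, fun i hi => Finset.min'_le _ _ hi⟩
  obtain ⟨hm, hmin⟩ := hi0
  obtain ⟨n0, hn0, hn0'⟩ := Finset.mem_image.1 hm
  have hb0 : B < 2 ^ i0 * Real.log 2 := by rw [← hn0']; exact hge n0 hn0
  have e1 : ∑ n ∈ G, 1 / Real.log (n : ℝ) ^ 2 =
      ∑ i ∈ G.image ix, 1 / (2 ^ i * Real.log 2) ^ 2 := by
    rw [Finset.sum_image hinj]
    refine Finset.sum_congr rfl fun n hn => ?_
    rw [hval n hn]
  rw [e1]
  have e2 : ∑ i ∈ G.image ix, 1 / (2 ^ i * Real.log 2) ^ 2 ≤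
      ∑ i ∈ G.image ix, 1 / B ^ 2 * (1 / 4) ^ (i - i0) := by
    refine Finset.sum_le_sum fun i hi => ?_
    have h1 := hmin i hi
    have h2 : (2 : ℝ) ^ i = 2 ^ (i - i0) * 2 ^ i0 := by
      rw [← pow_add]; congr 1; omega
    have h3 : B * 2 ^ (i - i0) ≤ 2 ^ i * Real.log 2 := by
      rw [h2]
      have := mul_le_mul_of_nonneg_left hb0.le (show (0 : ℝ) ≤ 2 ^ (i - i0) by positivity)
      linarith
    have h4 : (B * 2 ^ (i - i0)) ^ 2 ≤ (2 ^ i * Real.log 2) ^ 2 :=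
      pow_le_pow_left₀ (by positivity) h3 2
    have h5 : 1 / (2 ^ i * Real.log 2) ^ 2 ≤ 1 / (B * 2 ^ (i - i0)) ^ 2 :=
      one_div_le_one_div_of_le (by positivity) h4
    refine h5.trans (le_of_eq ?_)
    rw [mul_pow, ← pow_mul, show (2 : ℝ) ^ ((i - i0) * 2) = 4 ^ (i - i0) by
      rw [mul_comm, pow_mul]; norm_num, one_div_pow]
    field_simp
  refine e2.trans ?_
  rw [← Finset.mul_sum]
  have e3 : ∑ i ∈ G.image ix, (1 / 4 : ℝ) ^ (i - i0) ≤ 4 / 3 := by
    have h1 : ∑ i ∈ G.image ix, (1 / 4 : ℝ) ^ (i - i0) =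
        ∑ k ∈ (G.image ix).image (fun i => i - i0), (1 / 4 : ℝ) ^ k := by
      symm
      refine Finset.sum_image fun a ha b hb hab => ?_
      have h2 := hmin a ha
      have h3 := hmin b hb
      have h4 : a - i0 = b - i0 := hab
      omega
    rw [h1]
    have h2 := (summable_geometric_of_lt_one (show (0 : ℝ) ≤ 1 / 4 by norm_num)
      (by norm_num)).sum_le_tsum ((G.image ix).image (fun i => i - i0))
      fun i _ => by positivity
    rw [tsum_geometric_of_lt_one (by norm_num) (by norm_num)] at h2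
    refine h2.trans (by norm_num)
  have e4 : 1 / B ^ 2 * (4 / 3) ≤ 1 / B := by
    rw [div_mul_eq_mul_div, one_mul, div_le_div_iff₀ (by positivity) hB0]
    nlinarith
  exact (mul_le_mul_of_nonneg_left e3 (by positivity)).trans e4

/-- **flags on a grid** : the set of missing ties with `𝓑 i` is flagged at the columns `p < 2^(2^i)` -/
def gF (𝓑 : ℕ → Finset ℕ → Prop) (p : ℕ) (M : Finset ℕ) : Prop := ∃ i : ℕ, p < 2 ^ 2 ^ i ∧ 𝓑 i M

/-- prefix-hereditary sets : once bad, always bad -/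
def Her (𝓑 : ℕ → Finset ℕ → Prop) : Prop :=
  ∀ {i p : ℕ} {M M' : Finset ℕ}, M'.filter (p < ·) = M → 𝓑 i M → 𝓑 i M'

theorem gF_ok {𝓑 : ℕ → Finset ℕ → Prop} (h : Her 𝓑) {P p0 : ℕ}
    (h0 : ∀ {i : ℕ} {M : Finset ℕ}, p0 + 1 < 2 ^ 2 ^ i → (∀ q ∈ M, P < q) → ¬ 𝓑 i M) :
    FOj (gF 𝓑) Gd P p0 where
  mon := fun e ⟨i, h1, h2⟩ => ⟨i, by omega, h e h2⟩
  start := fun {p M} h1 h2 ⟨i, h3, h4⟩ => h0 (by omega) h2 h4
  ent := fun {p M} h1 h2 ⟨i, h3, h4⟩ h5 => by
    by_cases h6 : p ∈ M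
    · exact Or.inl h6
    · right
      by_contra h7
      have h8 : p ≠ 2 ^ 2 ^ i := fun h8 => h7 ⟨i, h8⟩
      refine h5 ⟨i, by omega, ?_⟩
      have e : M.filter (p < ·) = M := by
        rw [Finset.filter_eq_self]
        intro q hq
        have := h2 q hq
        have h9 : q ≠ p := fun h9 => h6 (h9 ▸ hq)
        omega
      rw [e]
      exact h4

end Crest.Agent.R4P.FlJ845
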