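import Crest.Agent.R4P.FlJ_845

/-!
R4 (S0004) with powers, T3, helper845: **weights of the flags from a superharmonic function.**

The missing set of a node is a predictable thinning of the N set of the walk (pulls, absent columns: the tree
chooses). `SupH φ n P` : `φ (p - 1) M ≤ φ p M`, and for primes `p`
`φ (p - 1) M + (1/p) (φ (p - 1) (insert p M) - φ (p - 1) M) ≤ φ p M`   (`n < p ≤ P`, `M ⊆ (p, ∞)`).

* `Pt` : group states whose potential is `≤ Φ`; `Pt.toC`, `Pt.toR`, `Pt.one` : carried by the walk;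
* `Pt.wt` : members with `1 ≤ φ n (missing set)` have weight `≤ Φ`;
* **`wtS_of_pot`** : `FlJ845.WtS` from one potential per column.
-/

set_option autoImplicit false
set_option linter.unusedSectionVars false
set_option linter.unusedVariables false
open MeasureTheory Filter Set

namespace Crest.Agent.R4P.FlP845

open Crest.Agent.R4.Tour104 Crest.Agent.R4.Tour758 Crest.Agent.R4.Avg758 Crest.Agent.R4.Clos758
open Crest.Agent.R4.ClosL758 Crest.Agent.R4.ClosG758 Crest.Agent.R4.ClosR758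
open Crest.Agent.R4P.ClosR442 Crest.Agent.R4P.Grp36
open Crest.Agent.R4P.Xfer36 Crest.Agent.R4P.TopC36 Crest.Agent.R4P.PN36
open Crest.Agent.R4P.GMer27 Crest.Agent.R4P.GCol27 Crest.Agent.R4P.GWa343 Crest.Agent.R4P.GWb343
open Crest.Agent.R4P.GWc343 Crest.Agent.R4P.GWd343 Crest.Agent.R4P.GWf343 Crest.Agent.R4P.TrR343
open Crest.Agent.R4P.GWg343 (FX ctx_BI)
open Crest.Agent.R4P.RSys343 Crest.Agent.R4P.RXs343 Crest.Agent.R4P.RXm55 Crest.Agent.R4P.RXm55.RXm
open Crest.Agent.R4P.MSm25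
open Crest.Agent.R4P.MSd343 Crest.Agent.R4P.VR407 Crest.Agent.R4P.Bp407 Crest.Agent.R4P.DTm407
open Crest.Agent.R4P.DTn407 Crest.Agent.R4P.DTo407
open Crest.Agent.R4P.DTp26
open Crest.Agent.R4P.Cnt588 Crest.Agent.R4P.Item758
open Crest.Agent.R4P.Bld532 (NS All NodeOk Bk Ws_nonneg)
open Crest.Agent.R4P.WalkIT579 (tp isL toDT_top toDT_leaf)
open Crest.Agent.R4P.Walk560 (DT WrN)
open Crest.Agent.R4P.Step588 Crest.Agent.R4P.RseSt23
open Crest.Agent.R4P.TYI47 Crest.Agent.R4P.TYJ47 Crest.Agent.R4P.TYK47 Crest.Agent.R4P.TYP9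
open Crest.Agent.R4P.RsT47
open Crest.Agent.R4P.GSK55
open Crest.Agent.R4P.PayR45
open Crest.Agent.R4P.MSi343 (su su_add)
open Crest.Agent.R4P.Skel189 Crest.Agent.R4P.Frame758 Crest.Agent.R4P.Data758
open Crest.Agent.R4.Soft104 Crest.Agent.R4.Fam464
open Crest.Agent.R4P.StratX36 Crest.Agent.R4P.TopX36
open Crest.Agent.R4P.AsmX26 (QE ctx_QE)
open Crest.Agent.R4P.SkelF29 (BootF)
open Crest.Agent.R4P.Strip29 (AdF)
open Crest.Agent.R4P.CtxNF36 (par_PG)
open Crest.Agent.R4P.StE6 (Mhi)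
open Crest.Agent.R4P.StJ6 (FMon flg)
open Crest.Agent.R4P.OmW11 Crest.Agent.R4P.OmX11
open Crest.Agent.R4P.AsB407 Crest.Agent.R4P.AsC407
open Crest.Agent.R4P.FlF845 Crest.Agent.R4P.FlG845 Crest.Agent.R4P.FlH845
open Crest.Agent.R4P.FlJ845

/-! ### superharmonic functions -/

/-- **superharmonic functions of the missing sets** at the columns `n < p ≤ P` -/
structure SupH (φ : ℕ → Finset ℕ → ℝ) (n P : ℕ) : Prop where
  nn : ∀ p M, 0 ≤ φ p M
  dn : ∀ {p : ℕ} {M : Finset ℕ}, n < p → p ≤ P → (∀ q ∈ M, p < q) → φ (p - 1) M ≤ φ p M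
  tie : ∀ {p : ℕ} {M : Finset ℕ}, n < p → p ≤ P → p.Prime → (∀ q ∈ M, p < q) →
    φ (p - 1) M + 1 / (p : ℝ) * (φ (p - 1) (insert p M) - φ (p - 1) M) ≤ φ p M

/-- sum of two -/
theorem SupH.add {φ φ' : ℕ → Finset ℕ → ℝ} {n P : ℕ} (h : SupH φ n P) (h' : SupH φ' n P) :
    SupH (fun p M => φ p M + φ' p M) n P where
  nn := fun p M => add_nonneg (h.nn p M) (h'.nn p M)
  dn := fun h1 h2 h3 => add_le_add (h.dn h1 h2 h3) (h'.dn h1 h2 h3)
  tie := fun h1 h2 hp h3 => by
    have := h.tie h1 h2 hp h3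
    have := h'.tie h1 h2 hp h3
    linarith

section pot
variable {N : Skel189.Num} {γ : ℝ} {p0 P₀ : ℕ} {X : Ctx N γ p0 P₀} {Q : NS → IT → Prop} {C : ℝ}
  {φ : ℕ → Finset ℕ → ℝ} {Φ : ℝ} {n P p : ℕ} {s : Gs (Me × List (DT X.c.Lam (LbX X)))}

/-- nodes with a given missing set -/
def Rp (X : Ctx N γ p0 P₀) (Q : NS → IT → Prop) (M0 : Finset ℕ) (Nk : Prop) (p : ℕ) (m : Me)
    (u : NS) (τ : IT) : Prop :=
  RtX X Q p m u τ ∧ (τ.items.Nonempty → u.B.primeFactors.filter (p < ·) = M0 ∧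
    (p ∈ u.B.primeFactors → Nk))

lemma Rp.ad (hQ : ∀ u τ, Q u τ → NDt X.par (w X.ψ) X.c.t u τ) {M0 : Finset ℕ} {Nk : Prop} {p : ℕ}
    {m : Me} : OmX11.Ad p (Rp X Q M0 Nk p m) where
  add := fun {s t₁ t₀} h => ⟨⟨((carX hQ).add h.1).1, fun hn => h.2 (by
      obtain ⟨q, hq⟩ := hn
      exact ⟨q, by
        show q ∈ t₁.items ∪ t₀.items
        exact Finset.mem_union_left _ hq⟩)⟩,
    ⟨((carX hQ).add h.1).2, fun hn => h.2 (by
      obtain ⟨q, hq⟩ := hn
      exact ⟨q, by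
        show q ∈ t₁.items ∪ t₀.items
        exact Finset.mem_union_right _ hq⟩)⟩⟩
  far := fun {s t₁ t₀} h => ⟨⟨((carX hQ).far h.1).1, fun hn => h.2 (by
      obtain ⟨q, hq⟩ := hn
      exact ⟨q, by
        show q ∈ t₁.items ∪ t₀.items
        exact Finset.mem_union_left _ hq⟩)⟩,
    ⟨((carX hQ).far h.1).2, fun hn => h.2 (by
      obtain ⟨q, hq⟩ := hn
      exact ⟨q, by
        show q ∈ t₁.items ∪ t₀.items
        exact Finset.mem_union_right _ hq⟩)⟩⟩
  up := fun h => ⟨(carX hQ).up h.1, h.2⟩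

/-- the primes of a node with items are at or above the column -/
lemma prime_ge (hQ : ∀ u τ, Q u τ → NDt X.par (w X.ψ) X.c.t u τ) {p : ℕ} {m : Me} {u : NS} {τ : IT}
    (h : RtX X Q p m u τ) (hn : τ.items.Nonempty) : ∀ l ∈ u.B.primeFactors, p ≤ l := by
  obtain ⟨q, hq⟩ := hn
  intro l hl
  rw [h.1.rm.pf hQ X.tOk hq] at hl
  unfold prm at hl
  rcases (Finset.mem_filter.1 hl).2 with h1 | h1
  · exact h1.le
  · exact h1.1.ge

lemma wE_eq {β' : Type} (s : Gs β') (E : s.J → Prop) [DecidablePred E] :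
    wE s E = ∑ k, if E k then s.c k else 0 := by
  unfold wE
  exact Finset.sum_congr rfl fun k _ => by congr

/-- **group states with potential `≤ Φ`** -/
def Pt (X : Ctx N γ p0 P₀) (Q : NS → IT → Prop) (φ : ℕ → Finset ℕ → ℝ) (Φ : ℝ) (p : ℕ)
    (s : Gs (Me × List (DT X.c.Lam (LbX X)))) : Prop :=
  ∃ (A : Type) (_ : Fintype A) (c0 : A → ℝ) (M0 : A → Finset ℕ) (an : s.J → A) (Nk : s.J → Prop),
    (∀ k, 0 ≤ s.c k) ∧ (∀ a, 0 ≤ c0 a) ∧ (∀ a, ∀ q ∈ M0 a, p < q) ∧
    (∀ a, wE s (fun k => an k = a) ≤ c0 a) ∧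
    (∀ a, wE s (fun k => an k = a ∧ Nk k) ≤ c0 a * (1 / (p : ℝ))) ∧
    (∀ k, OmX11.mR (X.c.D.par X.Y) X.c.sp (Rp X Q (M0 (an k)) (Nk k) p (s.L k).1) (s.L k).2) ∧
    ∑ a, c0 a * φ p (M0 a) ≤ Φ

/-- the start -/
theorem Pt.one {u : NS} {τ : IT} (h : RtX X Q (tp τ) (mS u τ) u τ)
    (hQ : ∀ u τ, Q u τ → NDt X.par (w X.ψ) X.c.t u τ) (hl : ¬ isL τ)
    (hΦ : φ (tp τ) u.B.primeFactors ≤ Φ) :
    Pt X Q φ Φ (tp τ) (one (b₀ X u τ)) := by
  classical
  have hg : ∀ q ∈ u.B.primeFactors, tp τ < q := fun q hq =>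
    prime_gt hQ h hl (Nat.prime_of_mem_primeFactors hq) (Nat.dvd_of_mem_primeFactors hq)
  refine ⟨Unit, inferInstance, fun _ => 1, fun _ => u.B.primeFactors, fun _ => (), fun _ => False,
    fun k => ?_, fun _ => zero_le_one, fun _ => hg, fun a => ?_, fun a => ?_, fun k => ?_, ?_⟩
  · show (0 : ℝ) ≤ 1
    exact zero_le_one
  · rw [wE_eq]
    refine (Finset.sum_le_sum fun k _ => ?_).trans (le_of_eq (?_ : ∑ _k : Unit, (1 : ℝ) = 1))
    · split_ifs
      · exact le_rfl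
      · exact zero_le_one
    · simp
  · rw [wE_eq]
    refine le_trans (le_of_eq (Finset.sum_eq_zero fun k _ => if_neg fun h => h.2)) ?_
    positivity
  · intro t ht
    have ht' : t = (X.c.D.par X.Y).toDT X.c.sp u.B u.A τ := List.mem_singleton.1 ht
    refine ⟨u, τ, ⟨h, fun _ => ⟨?_, fun hp => absurd (hg _ hp) (lt_irrefl _)⟩⟩, ht'⟩
    rw [Finset.filter_eq_self]
    exact hg
  · show ∑ _a : Unit, (1 : ℝ) * φ (tp τ) u.B.primeFactors ≤ Φ
    simpa using hΦ

/-- the C-step -/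
theorem Pt.toC (hQ : ∀ u τ, Q u τ → NDt X.par (w X.ψ) X.c.t u τ)
    {M : BM (Me × List (DT X.c.Lam (LbX X)))} (hM : BT X M) (h2 : 2 ≤ p)
    (h : Pt X Q φ Φ p s) : Pt X Q φ Φ p (M.C p s) := by
  classical
  obtain ⟨A, fA, c0, M0, an, Nk, hc, hc0, hM0, hs1, hs2, hL, hΦ⟩ := h
  have hp : p ≠ 0 := by omega
  have h2' : (2 : ℝ) ≤ p := by exact_mod_cast h2
  have w0 : (0 : ℝ) ≤ 1 / (p : ℝ) := by positivity
  have w1 : (0 : ℝ) ≤ 1 - 1 / (p : ℝ) := by
    rw [sub_nonneg, div_le_one (by linarith)]; linarith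
  rw [BC_pos M h2]
  refine ⟨A, fA, c0, M0, fun x => an x.1, fun x => x.2 = false, ?_, hc0, hM0, ?_, ?_, ?_, hΦ⟩
  · rintro ⟨k, b⟩
    show 0 ≤ s.c k * (if b then 1 - 1 / (p : ℝ) else 1 - (1 - 1 / (p : ℝ)))
    refine mul_nonneg (hc k) ?_
    split_ifs
    · exact w1
    · linarith
  · intro a
    rw [wE_eq]
    have hs1a := hs1 a
    rw [wE_eq] at hs1a
    refine le_trans ?_ hs1a
    show ∑ x : s.J × Bool, (if an x.1 = a then
      s.c x.1 * (if x.2 then 1 - 1 / (p : ℝ) else 1 - (1 - 1 / (p : ℝ))) else 0) ≤ _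
    rw [Fintype.sum_prod_type]
    refine le_of_eq (Finset.sum_congr rfl fun k _ => ?_)
    rw [Fintype.sum_bool]
    dsimp only
    by_cases hk : an k = a
    · simp only [hk, if_true]
      simp
      ring
    · simp only [if_neg hk]
      simp
  · intro a
    rw [wE_eq]
    have hs1a := hs1 a
    rw [wE_eq] at hs1a
    refine le_trans (le_of_eq ?_) (mul_le_mul_of_nonneg_right hs1a w0)
    show ∑ x : s.J × Bool, (if an x.1 = a ∧ x.2 = false then
      s.c x.1 * (if x.2 then 1 - 1 / (p : ℝ) else 1 - (1 - 1 / (p : ℝ))) else 0) = _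
    rw [Fintype.sum_prod_type]
    rw [Finset.sum_mul]
    refine Finset.sum_congr rfl fun k _ => ?_
    rw [Fintype.sum_bool]
    dsimp only
    by_cases hk : an k = a
    · simp [hk]
    · simp [hk]
  · rintro ⟨k, b⟩
    have hk := hL k
    cases b with
    | true =>
      show OmX11.mR _ _ (Rp X Q (M0 (an k)) (true = false) p (M.cP p (s.L k)).1) (M.cP p (s.L k)).2
      rw [hM.P]
      refine mR.toP (Rp.ad hQ) hk ?_ ?_
      · intro v Sp t₁ t₀ hv
        refine ⟨((carX hQ).br hv.1).1, fun hn => ⟨(hv.2 ?_).1, fun hq => ?_⟩⟩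
        · obtain ⟨q, hq⟩ := hn
          exact ⟨q, by
            show q ∈ t₁.items ∪ t₀.items
            exact Finset.mem_union_left _ hq⟩
        · exact absurd (prime_gt hQ hv.1 (fun h => h) (Nat.prime_of_mem_primeFactors hq)
            (Nat.dvd_of_mem_primeFactors hq)) (lt_irrefl p)
      · intro v t hv
        refine ⟨(carX hQ).pl hv.1, fun hn => ⟨(hv.2 hn).1, fun hq => ?_⟩⟩
        exact absurd (prime_gt hQ hv.1 (fun h => h) (Nat.prime_of_mem_primeFactors hq)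
            (Nat.dvd_of_mem_primeFactors hq)) (lt_irrefl p)
    | false =>
      show OmX11.mR _ _ (Rp X Q (M0 (an k)) (false = false) p (M.cN p (s.L k)).1)
        (M.cN p (s.L k)).2
      rw [hM.N]
      refine mR.toN (Rp.ad hQ) hp hk ?_ ?_
      · intro v Sp t₁ t₀ hv
        refine ⟨((carX hQ).br hv.1).2, fun hn => ⟨?_, fun _ => rfl⟩⟩
        have h5 : (IT.br p Sp t₁ t₀).items.Nonempty := by
          obtain ⟨q, hq⟩ := hn
          exact ⟨q, by
            show q ∈ t₁.items ∪ t₀.items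
            exact Finset.mem_union_right _ hq⟩
        have h6 := (hv.2 h5).1
        have hpp : p.Prime := prime_of_br (hQ _ _ hv.1.1.rm.all.self).self.node
        have hB : v.B ≠ 0 := (hQ _ _ hv.1.1.rm.all.self).bk.sfB.ne_zero
        show (v.B * p).primeFactors.filter (p < ·) = _
        rw [Nat.primeFactors_mul hB hpp.ne_zero, Finset.filter_union, hpp.primeFactors, h6]
        have e2 : ({p} : Finset ℕ).filter (p < ·) = ∅ := by
          rw [Finset.filter_eq_empty_iff]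
          intro q hq
          rw [Finset.mem_singleton.1 hq]
          exact lt_irrefl p
        rw [e2, Finset.union_empty]
      · intro v t hv
        refine ⟨(carX hQ).pl hv.1, fun hn => ⟨(hv.2 hn).1, fun hq => rfl⟩⟩

/-- the missing set below a rest -/
lemma rest_set (hQ : ∀ u τ, Q u τ → NDt X.par (w X.ψ) X.c.t u τ) (hp : p ≠ 0)
    {b : Me × List (DT X.c.Lam (LbX X))} (hb : InvM X Q C p b) {M0 : Finset ℕ} {Nk : Prop}
    (h : OmX11.mR (X.c.D.par X.Y) X.c.sp (Rp X Q M0 Nk p b.1) b.2) :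
    ∃ M' : Finset ℕ, (M' = M0 ∨ (M' = insert p M0 ∧ p.Prime ∧ Nk)) ∧
      OmX11.mR (X.c.D.par X.Y) X.c.sp (Rp X Q M' False (p - 1) b.1) (GWc343.bN p b.2) := by
  have hlen := hb.bi.len
  have hmR := mR.bN (Rp.ad hQ) h
  -- one tree
  have key : ∀ t ∈ GWc343.bN p b.2, ∃ M' : Finset ℕ,
      (M' = M0 ∨ (M' = insert p M0 ∧ p.Prime ∧ Nk)) ∧
      ∃ u τ, Rp X Q M' False (p - 1) b.1 u τ ∧ t = (X.c.D.par X.Y).toDT X.c.sp u.B u.A τ := by
    intro t ht
    obtain ⟨v, τ, hs, e⟩ := hmR t ht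
    have h1 := hb.bi.bN.col t ht
    have h2 := zero_of_bN ht
    have h3 := h1.top_le
    subst e
    have hdn : RtX X Q (p - 1) b.1 v τ := by
      refine (carX hQ).down hp hs.1 ?_ ?_
      · have e1 := toDT_top (X.c.D.par X.Y) X.c.sp v.B v.A τ
        have h4 : ((X.c.D.par X.Y).toDT X.c.sp v.B v.A τ).top < p := lt_of_le_of_ne h3 h2.2.1
        rwa [e1] at h4
      · intro hl
        exact h2.2.2 ((toDT_leaf (X.c.D.par X.Y) X.c.sp v.B v.A τ).2 hl)
    by_cases hn : τ.items.Nonempty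
    · have hge := prime_ge hQ hs.1 hn
      have hno : p - 1 ∉ v.B.primeFactors := fun h5 => by
        have := hge _ h5
        omega
      have hall : v.B.primeFactors.filter (p - 1 < ·) = v.B.primeFactors := by
        rw [Finset.filter_eq_self]
        intro q hq
        have := hge q hq
        omega
      obtain ⟨h6, h7⟩ := hs.2 hn
      by_cases hpB : p ∈ v.B.primeFactors
      · refine ⟨insert p M0, Or.inr ⟨rfl, Nat.prime_of_mem_primeFactors hpB, h7 hpB⟩, v, τ,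
          ⟨hdn, fun _ => ⟨?_, fun h8 => hno h8⟩⟩, rfl⟩
        rw [hall, ← h6]
        ext q
        simp only [Finset.mem_insert, Finset.mem_filter]
        constructor
        · intro hq
          rcases (hge q hq).eq_or_lt with h8 | h8
          · exact Or.inl h8.symm
          · exact Or.inr ⟨hq, h8⟩
        · rintro (rfl | ⟨hq, -⟩)
          · exact hpB
          · exact hq
      · refine ⟨M0, Or.inl rfl, v, τ, ⟨hdn, fun _ => ⟨?_, fun h8 => hno h8⟩⟩, rfl⟩
        rw [hall, ← h6]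
        ext q
        simp only [Finset.mem_filter]
        constructor
        · intro hq
          refine ⟨hq, lt_of_le_of_ne (hge q hq) ?_⟩
          rintro rfl
          exact hpB hq
        · exact fun hq => hq.1
    · exact ⟨M0, Or.inl rfl, v, τ, ⟨hdn, fun h8 => absurd h8 hn⟩, rfl⟩
  match hL : GWc343.bN p b.2, hlen with
  | [], _ => exact ⟨M0, Or.inl rfl, fun t ht => absurd ht (by simp)⟩
  | [t], _ =>
    obtain ⟨M', h1, h2⟩ := key t (by rw [hL]; simp)
    refine ⟨M', h1, fun t' ht' => ?_⟩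
    rw [List.mem_singleton.1 ht']
    exact h2
  | a :: b :: l, hl => simp at hl

/-- the rest -/
theorem Pt.toR (hφ : SupH φ n P) (hn : n < p) (hpP : p ≤ P)
    (hQ : ∀ u τ, Q u τ → NDt X.par (w X.ψ) X.c.t u τ)
    {M : BM (Me × List (DT X.c.Lam (LbX X)))} (hM : BT X M) (hI : ∀ k, InvM X Q C p (s.L k))
    (h : Pt X Q φ Φ p s) : Pt X Q φ Φ (p - 1) (M.N p s) := by
  classical
  obtain ⟨A, fA, c0, M0, an, Nk, hc, hc0, hM0, hs1, hs2, hL, hΦ⟩ := h
  have hp : p ≠ 0 := by omega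
  choose M' hM' hR' using fun k => rest_set hQ hp (hI k) (hL k)
  refine ⟨s.J, s.fJ, s.c, M', id, fun _ => False, hc, hc, fun k q hq => ?_, fun a => ?_,
    fun a => ?_, fun k => ?_, ?_⟩
  · rcases hM' k with h1 | ⟨h1, -, -⟩
    · rw [h1] at hq
      have := hM0 _ q hq
      omega
    · rw [h1] at hq
      rcases Finset.mem_insert.1 hq with rfl | hq
      · omega
      · have := hM0 _ q hq
        omega
  · rw [wE_eq]
    show ∑ k : s.J, (if k = a then s.c k else 0) ≤ s.c a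
    simp
  · rw [wE_eq]
    refine le_trans (le_of_eq (Finset.sum_eq_zero fun k _ => if_neg fun h => h.2)) ?_
    exact mul_nonneg (hc a) (by positivity)
  · show OmX11.mR _ _ (Rp X Q (M' k) False (p - 1) (M.rN p (s.L k)).1) (M.rN p (s.L k)).2
    rw [hM.R]
    exact hR' k
  · refine le_trans ?_ hΦ
    set δ : A → ℝ := fun a => φ (p - 1) (insert p (M0 a)) - φ (p - 1) (M0 a) with hδ
    set Bk : s.J → Prop := fun k => M' k = insert p (M0 (an k)) ∧ p.Prime ∧ Nk k with hBk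
    -- one member
    have e1 : ∀ k, s.c k * φ (p - 1) (M' k) ≤
        s.c k * φ (p - 1) (M0 (an k)) + (if Bk k then s.c k * δ (an k) else 0) := by
      intro k
      by_cases hb : Bk k
      · rw [if_pos hb, hb.1]
        refine le_of_eq ?_
        simp only [hδ]
        ring
      · rw [if_neg hb, add_zero]
        rcases hM' k with h1 | h1
        · rw [h1]
        · exact absurd h1 hb
    have e2 : ∀ f : s.J → ℝ, ∑ k, f k = ∑ a, ∑ k, (if an k = a then f k else 0) := by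
      intro f
      rw [Finset.sum_comm]
      refine Finset.sum_congr rfl fun k _ => ?_
      simp
    show ∑ k : s.J, s.c k * φ (p - 1) (M' k) ≤ _
    refine (Finset.sum_le_sum fun k _ => e1 k).trans ?_
    rw [e2]
    refine Finset.sum_le_sum fun a _ => ?_
    set Ca := ∑ k, (if an k = a then s.c k else 0) with hCa
    set Wa := ∑ k, (if an k = a ∧ Bk k then s.c k else 0) with hWa
    have hC0 : 0 ≤ Ca := Finset.sum_nonneg fun k _ => by
      split_ifs
      · exact hc k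
      · exact le_rfl
    have hW0 : 0 ≤ Wa := Finset.sum_nonneg fun k _ => by
      split_ifs
      · exact hc k
      · exact le_rfl
    have hCa1 : Ca ≤ c0 a := by
      have := hs1 a
      rwa [wE_eq] at this
    have hW1 : Wa ≤ c0 a * (1 / (p : ℝ)) := by
      have hs2a := hs2 a
      rw [wE_eq] at hs2a
      refine le_trans (Finset.sum_le_sum fun k _ => ?_) hs2a
      by_cases h1 : an k = a ∧ Bk k
      · rw [if_pos h1, if_pos ⟨h1.1, h1.2.2.2⟩]
      · rw [if_neg h1]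
        split_ifs
        · exact hc k
        · exact le_rfl
    have e3 : ∑ k, (if an k = a then s.c k * φ (p - 1) (M0 (an k)) +
        (if Bk k then s.c k * δ (an k) else 0) else 0) =
        Ca * φ (p - 1) (M0 a) + Wa * δ a := by
      rw [hCa, hWa, Finset.sum_mul, Finset.sum_mul, ← Finset.sum_add_distrib]
      refine Finset.sum_congr rfl fun k _ => ?_
      by_cases h1 : an k = a
      · by_cases h2 : Bk k
        · rw [if_pos h1, if_pos h2, if_pos h1, if_pos ⟨h1, h2⟩, h1]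
        · rw [if_pos h1, if_neg h2, if_pos h1, if_neg fun h3 => h2 h3.2, h1]
          ring
      · rw [if_neg h1, if_neg h1, if_neg fun h3 => h1 h3.1]
        ring
    rw [e3]
    have f1 := hφ.nn (p - 1) (M0 a)
    have f2 := hφ.dn hn hpP (hM0 a)
    have g1 : Ca * φ (p - 1) (M0 a) ≤ c0 a * φ (p - 1) (M0 a) :=
      mul_le_mul_of_nonneg_right hCa1 f1
    by_cases hpp : p.Prime
    · rcases le_total (δ a) 0 with h5 | h5
      · have : Wa * δ a ≤ 0 := mul_nonpos_of_nonneg_of_nonpos hW0 h5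
        have := mul_le_mul_of_nonneg_left f2 (hc0 a)
        linarith
      · have h6 := mul_le_mul_of_nonneg_right hW1 h5
        have h7 := mul_le_mul_of_nonneg_left (hφ.tie hn hpP hpp (hM0 a)) (hc0 a)
        have e4 : c0 a * (φ (p - 1) (M0 a) +
          1 / (p : ℝ) * (φ (p - 1) (insert p (M0 a)) - φ (p - 1) (M0 a))) =
          c0 a * φ (p - 1) (M0 a) + c0 a * (1 / (p : ℝ)) * δ a := by
          simp only [hδ]
          ring
        linarith
    · have h5 : Wa = 0 := by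
        rw [hWa]
        refine Finset.sum_eq_zero fun k _ => ?_
        rw [if_neg fun h3 => hpp h3.2.2.1]
      rw [h5, zero_mul, add_zero]
      have := mul_le_mul_of_nonneg_left f2 (hc0 a)
      linarith

/-- **the weight** -/
theorem Pt.wt (hQ : ∀ u τ, Q u τ → NDt X.par (w X.ψ) X.c.t u τ) {F : ℕ → Finset ℕ → Prop}
    (h0 : ∀ M, 0 ≤ φ p M) (hF : ∀ M, F p M → 1 ≤ φ p M) (h : Pt X Q φ Φ p s) (E : s.J → Prop)
    (hE : ∀ k, E k → ∃ (j : X.c.Lam) (x : ℝ), jv (s.L k).2 j x ≠ 0 ∧ flg F X.c p j.1.1) :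
    wE s E ≤ Φ := by
  classical
  obtain ⟨A, fA, c0, M0, an, Nk, hc, hc0, hM0, hs1, hs2, hL, hΦ⟩ := h
  have e0 : ∀ k, E k → 1 ≤ φ p (M0 (an k)) := by
    intro k hk
    obtain ⟨j, x, hj, hf⟩ := hE k hk
    obtain ⟨t, ht, h1⟩ := jv_mem hj
    obtain ⟨u, τ, hs, e⟩ := hL k t ht
    subst e
    have h2 := (ctx_supp (hQ _ _ hs.1.1.rm.all.self) h1).1
    have h3 := (hs.2 ⟨_, h2⟩).1
    have h4 : u.B.primeFactors = pm X.c.t p (s.L k).1 j.1.1 := hs.1.1.rm.pf hQ X.tOk h2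
    have h5 : Mhi X.c p j.1.1 = M0 (an k) := by
      rw [← StJ6.pm_hi (s.L k).1, ← h4]
      exact h3
    refine hF _ ?_
    rw [← h5]
    exact hf
  refine le_trans ?_ hΦ
  have e2 : wE s E = ∑ a, ∑ k, (if an k = a ∧ E k then s.c k else 0) := by
    rw [wE_eq, Finset.sum_comm]
    refine Finset.sum_congr rfl fun k _ => ?_
    by_cases hk : E k
    · simp [hk]
    · simp [hk]
  rw [e2]
  refine Finset.sum_le_sum fun a _ => ?_
  have hs1a := hs1 a
  rw [wE_eq] at hs1a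
  by_cases ha : 1 ≤ φ p (M0 a)
  · refine le_trans (Finset.sum_le_sum fun k _ => ?_)
      (hs1a.trans (le_mul_of_one_le_right (hc0 a) ha))
    by_cases h1 : an k = a
    · by_cases h2 : E k
      · rw [if_pos ⟨h1, h2⟩, if_pos h1]
      · rw [if_neg fun h3 => h2 h3.2, if_pos h1]
        exact hc k
    · rw [if_neg fun h3 => h1 h3.1, if_neg h1]
  · have e3 : ∑ k, (if an k = a ∧ E k then s.c k else 0) = 0 := by
      refine Finset.sum_eq_zero fun k _ => ?_
      rw [if_neg]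
      rintro ⟨h1, h2⟩
      exact ha (h1 ▸ e0 k h2)
    rw [e3]
    exact mul_nonneg (hc0 a) (h0 _)

/-- **weights of the flags from potentials** -/
theorem wtS_of_pot (hp0 : 1 ≤ p0) (hQ : ∀ u τ, Q u τ → NDt X.par (w X.ψ) X.c.t u τ)
    {F : ℕ → Finset ℕ → Prop} {u : NS} {τ : IT} {e : ℝ} (hR : RtX X Q (tp τ) (mS u τ) u τ)
    {φ : ℕ → ℕ → Finset ℕ → ℝ} (hφ : ∀ n, p0 < n → n ≤ tp τ → SupH (φ n) n (tp τ))
    (hF : ∀ n M, p0 < n → n ≤ tp τ → F n M → 1 ≤ φ n n M)
    (hst : ∀ n M, p0 < n → n ≤ tp τ → (∀ q ∈ M, tp τ < q) →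
      φ n (tp τ) M ≤ Real.log n ^ (-e)) : WtS X Q C F u τ e := by
  refine ⟨fun p s => p ≤ tp τ ∧ ∀ n, p0 < n → n ≤ p → Pt X Q (φ n) (Real.log n ^ (-e)) p s,
    ?_, ?_, ?_, ?_⟩
  · intro M hM p s hS h hp
    refine ⟨h.1, fun n h1 h2 => (h.2 n h1 h2).toC hQ hM (by omega)⟩
  · intro M hM p s hS h hp
    refine ⟨by omega, fun n h1 h2 => ?_⟩
    obtain ⟨T, hh, hW, hG⟩ := hS
    exact (h.2 n h1 (by omega)).toR (hφ n h1 (by omega)) (by omega) h.1 hQ hM fun k => (hG k).2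
  · refine ⟨le_rfl, fun n h1 h2 => ?_⟩
    have hl : ¬ isL τ := fun hl => by
      have := tp_leaf hl
      omega
    refine Pt.one hR hQ hl (hst n _ h1 h2 fun q hq => ?_)
    exact prime_gt hQ hR hl (Nat.prime_of_mem_primeFactors hq) (Nat.dvd_of_mem_primeFactors hq)
  · intro p s hp hS h c0 hlen E hE
    exact (h.2 p hp le_rfl).wt hQ (fun M => (hφ p hp h.1).nn p M) (fun M hM => hF p M hp h.1 hM) E hE

end pot

end Crest.Agent.R4P.FlP845
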