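import Crest.Agent.R4P.RtN_37

/-!
R4 (S0004), dual potential, helper8: **FAR LABELLED PAIRS OF TWO NODES**, labels of two circles.

Items `i` of a node `s` and `j` of a node `s'` with labels `ρ i`, `ρ' j` (of two centres `θ`, `θ'`), one
exact centre, one side late, one large label, one cofactor `≥ Kc`. The denominators of the labels of one
centre lie in distinct dyadic blocks, and exactness makes a cofactor `≥` the ratio of the two
denominators; so the sum over the labels of the partners of the rates of `XmR37.node_labM` is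
`≤ CN (Kc^(-1/2) + E^(-1/128))`.

* `lac_inj4` : the dyadic block of the denominator determines the label (accuracy `den^(-4)`);
* `sum_rt` : the sum of the rates over the labels of one centre;
* **`far_labR`** : relation form (`I (qe R ..)`), **`far_lab`** : kernel form (`bil K ..`).
-/

set_option autoImplicit false
set_option linter.unusedSectionVars false
set_option linter.unusedVariables false

open MeasureTheory Filter

namespace Crest.Agent.R4P.FmL8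

open Crest.Agent.R4.Tour104 Crest.Agent.R4.Tour758 Crest.Agent.R4.Avg758 Crest.Agent.R4.Clos758
open Crest.Agent.R4.ClosL758 Crest.Agent.R4.ClosG758 Crest.Agent.R4.ClosR758
open Crest.Agent.R4.HVW560
open Crest.Agent.R4.Fam464 Crest.Agent.R4.Piece464
open Crest.Agent.R4P.Cnt588 Crest.Agent.R4P.Item758 Crest.Agent.R4P.AvgItem710
open Crest.Agent.R4P.Walk560 Crest.Agent.R4P.NodeG33
open Crest.Agent.R4P.Data758 Crest.Agent.R4P.Skel189
open Crest.Agent.R4P.Bld532 (NS All NodeOk)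
open Crest.Agent.R4P.WalkIT579 (tp isL nodeOk_hi)
open Crest.Agent.R4P.Step588 (NDt CT CT_pos)
open Crest.Agent.R4.Soft104 (w)
open Crest.Agent.R4P.SameIx30 Crest.Agent.R4P.GPair33
open Crest.Agent.R4P.ShR18 (Co)
open Crest.Agent.R4P.SpM18 Crest.Agent.R4P.XmE18 Crest.Agent.R4P.XmM18 Crest.Agent.R4P.XmG18
open Crest.Agent.R4P.XmN37 Crest.Agent.R4P.XmO37 Crest.Agent.R4P.XmQ37
open Crest.Agent.R4P.RtE28 (KK KK_one)
open Crest.Agent.R4P.GcdV37 (La Lb)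
open Crest.Agent.R4P.E3V479 (qe)
open Crest.Agent.R4P.DTp26 (MP)
open Crest.Agent.R4P.JnE5 (Ker bil)
open Crest.Agent.R4P.PrH45 (RN FB)
open Crest.Agent.R4P.PrK45
open Crest.Agent.R4P.RseNd23 (NF)
open Crest.Agent.R4P.RtS28 (Mn Mn_nonneg)
open Crest.Agent.R4P.XmR37 (node_labM)
open Crest.Agent.R4P.RtL28 (rl mp_rl bil_qe NL ctx_NL MI_lm MI_tot r1 r2 nN nP mass_nd)
open Crest.Agent.R4P

/-! ### The labels of one centre -/

/-- two different rationals -/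
lemma one_le_dist {ρ ρ' : ℚ} (h : ρ ≠ ρ') : 1 ≤ |(ρ:ℝ) - ρ'| * ((ρ.den:ℝ) * ρ'.den) := by
  have h1 : (ρ:ℝ) * ρ.den = ρ.num := by exact_mod_cast Rat.mul_den_eq_num ρ
  have h2 : (ρ':ℝ) * ρ'.den = ρ'.num := by exact_mod_cast Rat.mul_den_eq_num ρ'
  have e : ((ρ:ℝ) - ρ') * (ρ.den * ρ'.den) = ((ρ.num * ρ'.den - ρ'.num * ρ.den : ℤ) : ℝ) := by
    push_cast
    linear_combination (ρ'.den:ℝ) * h1 - (ρ.den:ℝ) * h2
  have d1 : (0:ℝ) < ρ.den := by exact_mod_cast ρ.pos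
  have d2 : (0:ℝ) < ρ'.den := by exact_mod_cast ρ'.pos
  have hz : (ρ.num * ρ'.den - ρ'.num * ρ.den : ℤ) ≠ 0 := by
    intro h0
    rw [h0, Int.cast_zero] at e
    rcases mul_eq_zero.1 e with h3 | h3
    · exact h (by exact_mod_cast (sub_eq_zero.1 h3))
    · exact absurd h3 (mul_pos d1 d2).ne'
  have e2 : |(ρ:ℝ) - ρ'| * ((ρ.den:ℝ) * ρ'.den) = |((ρ:ℝ) - ρ') * (ρ.den * ρ'.den)| := by
    rw [abs_mul, abs_of_pos (mul_pos d1 d2)]
  rw [e2, e, ← Int.cast_abs]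
  exact_mod_cast Int.one_le_abs hz

/-- an accurate label of the centre `θ` -/
def LabS (θ : ℝ) (ρ : ℚ) : Prop := |θ - ρ| * (ρ.den:ℝ) ^ 4 ≤ 1 ∧ |θ - ρ| ≤ 1 / 6

/-- the dyadic block of the denominator determines the label -/
lemma lac_inj4 {S : Finset ℚ} {θ : ℝ} (hS : ∀ ρ ∈ S, LabS θ ρ) :
    Set.InjOn (fun ρ : ℚ => Nat.log 2 ρ.den) (S : Set ℚ) := by
  have key : ∀ a ∈ S, ∀ b ∈ S, Nat.log 2 a.den = Nat.log 2 b.den → a.den ≤ b.den → a = b := by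
    intro a ha b hb he hle
    by_contra hne
    have h3 := one_le_dist hne
    have ha0 : (1:ℝ) ≤ a.den := by exact_mod_cast a.pos
    have hb0 : (1:ℝ) ≤ b.den := by exact_mod_cast b.pos
    have hab : (a.den:ℝ) ≤ b.den := by exact_mod_cast hle
    have tri : |(a:ℝ) - b| ≤ |θ - a| + |θ - b| := by
      have := abs_sub_le (a:ℝ) θ b
      rwa [abs_sub_comm (a:ℝ) θ] at this
    have hb2 : b.den < 2 * a.den := by
      have k1 : b.den < 2 ^ (Nat.log 2 b.den + 1) := Nat.lt_pow_succ_log_self (by norm_num) _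
      have k2 : 2 ^ (Nat.log 2 a.den) ≤ a.den := Nat.pow_log_le_self 2 a.pos.ne'
      rw [← he, pow_succ] at k1
      omega
    have hb2' : (b.den:ℝ) ≤ 2 * a.den := by exact_mod_cast hb2.le
    rcases Nat.eq_or_lt_of_le (show 1 ≤ a.den from a.pos) with h4 | h4
    · have hb1 : b.den = 1 := by have := b.pos; omega
      rw [← h4, hb1] at h3
      have := (hS a ha).2
      have := (hS b hb).2
      norm_num at h3
      linarith
    · have ha2 : (2:ℝ) ≤ a.den := by exact_mod_cast h4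
      have q1 : |θ - a| * ((a.den:ℝ) * b.den) ≤ 2 / (a.den:ℝ) ^ 2 := by
        have k1 : |θ - a| ≤ 1 / (a.den:ℝ) ^ 4 := by
          rw [le_div_iff₀ (by positivity)]
          exact (hS a ha).1
        have k2 : |θ - a| * ((a.den:ℝ) * b.den) ≤ 1 / (a.den:ℝ) ^ 4 * ((a.den:ℝ) * (2 * a.den)) :=
          mul_le_mul k1 (mul_le_mul_of_nonneg_left hb2' (by positivity)) (by positivity)
            (by positivity)
        refine k2.trans (le_of_eq ?_)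
        field_simp
      have q2 : |θ - b| * ((a.den:ℝ) * b.den) ≤ 1 / (a.den:ℝ) ^ 2 := by
        have k1 : |θ - b| ≤ 1 / (b.den:ℝ) ^ 4 := by
          rw [le_div_iff₀ (by positivity)]
          exact (hS b hb).1
        have k2 : |θ - b| * ((a.den:ℝ) * b.den) ≤ 1 / (b.den:ℝ) ^ 4 * ((b.den:ℝ) * b.den) :=
          mul_le_mul k1 (mul_le_mul_of_nonneg_right hab (by positivity)) (by positivity)
            (by positivity)
        have k3 : 1 / (b.den:ℝ) ^ 4 * ((b.den:ℝ) * b.den) = 1 / (b.den:ℝ) ^ 2 := by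
          field_simp
        rw [k3] at k2
        exact k2.trans (one_div_le_one_div_of_le (by positivity)
          (pow_le_pow_left₀ (by linarith) hab 2))
      have q3 : |(a:ℝ) - b| * ((a.den:ℝ) * b.den) ≤ 3 / (a.den:ℝ) ^ 2 := by
        have k1 : |(a:ℝ) - b| * ((a.den:ℝ) * b.den) ≤
            (|θ - a| + |θ - b|) * ((a.den:ℝ) * b.den) :=
          mul_le_mul_of_nonneg_right tri (by positivity)
        have k2 : (3:ℝ) / (a.den:ℝ) ^ 2 = 2 / (a.den:ℝ) ^ 2 + 1 / (a.den:ℝ) ^ 2 := by ring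
        rw [k2]
        nlinarith
      have q5 : (3:ℝ) / (a.den:ℝ) ^ 2 ≤ 3 / 2 ^ 2 :=
        div_le_div_of_nonneg_left (by norm_num) (by norm_num) (pow_le_pow_left₀ (by norm_num) ha2 2)
      norm_num at q5
      linarith
  intro a ha b hb he
  rcases le_total a.den b.den with h | h
  · exact key a ha b hb he h
  · exact (key b hb a ha he.symm h).symm

/-- geometric sums along an injective index -/
lemma geo_inj {S : Finset ℚ} {g : ℚ → ℕ} (hg : Set.InjOn g (S : Set ℚ)) {c : ℝ} (h0 : 0 ≤ c)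
    (h1 : c < 1) : ∑ ρ ∈ S, c ^ g ρ ≤ 1 / (1 - c) := by
  classical
  have h4 : ∑ ρ ∈ S, c ^ g ρ = ∑ i ∈ S.image g, c ^ i := by
    rw [Finset.sum_image hg]
  rw [h4]
  have hs := summable_geometric_of_lt_one h0 h1
  refine (hs.sum_le_tsum _ fun i _ => pow_nonneg h0 i).trans (le_of_eq ?_)
  rw [tsum_geometric_of_lt_one h0 h1, one_div]

/-- the ratio of the layers of the lateness rate -/
noncomputable def g128 : ℝ := (2:ℝ) ^ (-(1/128):ℝ)

/-- the ratio of the layers of the cofactor rate -/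
noncomputable def g2 : ℝ := (2:ℝ) ^ (-(1/2):ℝ)

lemma g128_pos : 0 < g128 := Real.rpow_pos_of_pos (by norm_num) _
lemma g128_lt : g128 < 1 := Real.rpow_lt_one_of_one_lt_of_neg (by norm_num) (by norm_num)
lemma g2_pos : 0 < g2 := Real.rpow_pos_of_pos (by norm_num) _
lemma g2_lt : g2 < 1 := Real.rpow_lt_one_of_one_lt_of_neg (by norm_num) (by norm_num)

/-- the constant of the sums over labels -/
noncomputable def CN : ℝ := 4 * (1 / (1 - g2)) + 1 / (1 - g128) + 1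

lemma one_le_CN : 1 ≤ CN := by
  have h1 := g128_lt
  have h2 := g2_lt
  have a1 : 0 < 1 / (1 - g2) := div_pos one_pos (by linarith)
  have a2 : 0 < 1 / (1 - g128) := div_pos one_pos (by linarith)
  unfold CN
  linarith

/-- one sided geometric bound -/
lemma sum_den {S : Finset ℚ} {θ : ℝ} (hS : ∀ ρ ∈ S, LabS θ ρ) :
    ∑ ρ ∈ S, (ρ.den:ℝ) ^ (-(1/128):ℝ) ≤ 1 / (1 - g128) := by
  have h3 : ∑ ρ ∈ S, (ρ.den:ℝ) ^ (-(1/128):ℝ) ≤ ∑ ρ ∈ S, g128 ^ (Nat.log 2 ρ.den) := by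
    refine Finset.sum_le_sum fun ρ _ => ?_
    have k1 : (2:ℝ) ^ (Nat.log 2 ρ.den) ≤ ρ.den := by
      exact_mod_cast Nat.pow_log_le_self 2 ρ.pos.ne'
    have k2 : (ρ.den:ℝ) ^ (-(1/128):ℝ) ≤ ((2:ℝ) ^ (Nat.log 2 ρ.den)) ^ (-(1/128):ℝ) :=
      Real.rpow_le_rpow_of_nonpos (by positivity) k1 (by norm_num)
    refine k2.trans (le_of_eq ?_)
    unfold g128
    rw [← Real.rpow_natCast, ← Real.rpow_mul (by norm_num), ← Real.rpow_natCast,
      ← Real.rpow_mul (by norm_num)]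
    congr 1
    ring
  exact h3.trans (geo_inj (lac_inj4 hS) g128_pos.le g128_lt)

/-- ratio of two denominators -/
noncomputable def rat (r r' : ℚ) : ℝ := max ((r.den:ℝ) / r'.den) ((r'.den:ℝ) / r.den)

lemma rat_symm (r r' : ℚ) : rat r r' = rat r' r := max_comm _ _

lemma one_le_rat (r r' : ℚ) : 1 ≤ rat r r' := by
  have h1 : (0:ℝ) < r.den := by exact_mod_cast r.pos
  have h2 : (0:ℝ) < r'.den := by exact_mod_cast r'.pos
  rcases le_total (r.den:ℝ) r'.den with h | h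
  · exact le_max_of_le_right ((one_le_div h1).2 h)
  · exact le_max_of_le_left ((one_le_div h2).2 h)

/-- the blocks bound the ratio from below -/
lemma rat_block {r r' : ℚ} {n : ℕ}
    (h : Nat.log 2 r.den + n = Nat.log 2 r'.den ∨ Nat.log 2 r'.den + n = Nat.log 2 r.den) :
    rat r r' ^ (-(1/2):ℝ) ≤ 2 * g2 ^ n := by
  have h1 : (0:ℝ) < r.den := by exact_mod_cast r.pos
  have h2 : (0:ℝ) < r'.den := by exact_mod_cast r'.pos
  have key : ∀ a b : ℚ, Nat.log 2 a.den + n = Nat.log 2 b.den → (2:ℝ) ^ n / 2 ≤ (b.den:ℝ) / a.den := by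
    intro a b hab
    have ha : (0:ℝ) < a.den := by exact_mod_cast a.pos
    have k1 : (2:ℝ) ^ (Nat.log 2 b.den) ≤ b.den := by
      exact_mod_cast Nat.pow_log_le_self 2 b.pos.ne'
    have k2 : (a.den:ℝ) ≤ 2 ^ (Nat.log 2 a.den + 1) := by
      exact_mod_cast (Nat.lt_pow_succ_log_self (by norm_num) _).le
    rw [le_div_iff₀ ha]
    refine le_trans ?_ k1
    rw [← hab]
    have : (2:ℝ) ^ n / 2 * a.den ≤ (2:ℝ) ^ n / 2 * 2 ^ (Nat.log 2 a.den + 1) :=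
      mul_le_mul_of_nonneg_left k2 (by positivity)
    refine this.trans (le_of_eq ?_)
    rw [pow_succ, pow_add]
    ring
  have k3 : (2:ℝ) ^ n / 2 ≤ rat r r' := by
    rcases h with h | h
    · exact (key r r' h).trans (le_max_right _ _)
    · exact (key r' r h).trans (le_max_left _ _)
  have k4 : rat r r' ^ (-(1/2):ℝ) ≤ ((2:ℝ) ^ n / 2) ^ (-(1/2):ℝ) :=
    Real.rpow_le_rpow_of_nonpos (by positivity) k3 (by norm_num)
  have k5 : ((2:ℝ) ^ n / 2) ^ (-(1/2):ℝ) = g2 ^ n * (2:ℝ) ^ (1/2:ℝ) := by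
    rw [Real.div_rpow (by positivity) (by norm_num), div_eq_mul_inv,
      ← Real.rpow_neg (by norm_num), neg_neg]
    congr 1
    unfold g2
    rw [← Real.rpow_natCast, ← Real.rpow_mul (by norm_num), ← Real.rpow_natCast,
      ← Real.rpow_mul (by norm_num)]
    congr 1
    ring
  have k6 : (2:ℝ) ^ (1/2:ℝ) ≤ 2 := by
    have : (2:ℝ) ^ (1/2:ℝ) ≤ (2:ℝ) ^ (1:ℝ) :=
      Real.rpow_le_rpow_of_exponent_le (by norm_num) (by norm_num)
    rwa [Real.rpow_one] at this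
  have k7 : 0 ≤ g2 ^ n := pow_nonneg g2_pos.le n
  rw [k5] at k4
  nlinarith

/-- **sum of the ratios** : two sided geometric -/
lemma sum_rat {S : Finset ℚ} {θ : ℝ} (hS : ∀ ρ ∈ S, LabS θ ρ) (r : ℚ) :
    ∑ ρ ∈ S, rat r ρ ^ (-(1/2):ℝ) ≤ 4 * (1 / (1 - g2)) := by
  classical
  have hi := lac_inj4 hS
  set m := Nat.log 2 r.den with hm
  rw [← Finset.sum_filter_add_sum_filter_not S (fun ρ => Nat.log 2 ρ.den ≤ m)]
  have a1 : ∑ ρ ∈ S.filter (fun ρ => Nat.log 2 ρ.den ≤ m), rat r ρ ^ (-(1/2):ℝ) ≤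
      2 * (1 / (1 - g2)) := by
    have hg : Set.InjOn (fun ρ : ℚ => m - Nat.log 2 ρ.den)
        ((S.filter (fun ρ => Nat.log 2 ρ.den ≤ m) : Finset ℚ) : Set ℚ) := by
      intro a ha b hb he
      obtain ⟨ha1, ha2⟩ := Finset.mem_filter.1 (Finset.mem_coe.1 ha)
      obtain ⟨hb1, hb2⟩ := Finset.mem_filter.1 (Finset.mem_coe.1 hb)
      refine hi (Finset.mem_coe.2 ha1) (Finset.mem_coe.2 hb1) ?_
      simp only at he ⊢
      omega
    have := geo_inj hg g2_pos.le g2_lt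
    calc ∑ ρ ∈ S.filter (fun ρ => Nat.log 2 ρ.den ≤ m), rat r ρ ^ (-(1/2):ℝ)
        ≤ ∑ ρ ∈ S.filter (fun ρ => Nat.log 2 ρ.den ≤ m), 2 * g2 ^ (m - Nat.log 2 ρ.den) := by
          refine Finset.sum_le_sum fun ρ hρ => ?_
          obtain ⟨-, h2⟩ := Finset.mem_filter.1 hρ
          exact rat_block (Or.inr (by omega))
      _ = 2 * ∑ ρ ∈ S.filter (fun ρ => Nat.log 2 ρ.den ≤ m), g2 ^ (m - Nat.log 2 ρ.den) := by
          rw [Finset.mul_sum]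
      _ ≤ _ := mul_le_mul_of_nonneg_left this (by norm_num)
  have a2 : ∑ ρ ∈ S.filter (fun ρ => ¬ Nat.log 2 ρ.den ≤ m), rat r ρ ^ (-(1/2):ℝ) ≤
      2 * (1 / (1 - g2)) := by
    have hg : Set.InjOn (fun ρ : ℚ => Nat.log 2 ρ.den - m)
        ((S.filter (fun ρ => ¬ Nat.log 2 ρ.den ≤ m) : Finset ℚ) : Set ℚ) := by
      intro a ha b hb he
      obtain ⟨ha1, ha2⟩ := Finset.mem_filter.1 (Finset.mem_coe.1 ha)
      obtain ⟨hb1, hb2⟩ := Finset.mem_filter.1 (Finset.mem_coe.1 hb)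
      refine hi (Finset.mem_coe.2 ha1) (Finset.mem_coe.2 hb1) ?_
      simp only at he ⊢
      omega
    have := geo_inj hg g2_pos.le g2_lt
    calc ∑ ρ ∈ S.filter (fun ρ => ¬ Nat.log 2 ρ.den ≤ m), rat r ρ ^ (-(1/2):ℝ)
        ≤ ∑ ρ ∈ S.filter (fun ρ => ¬ Nat.log 2 ρ.den ≤ m), 2 * g2 ^ (Nat.log 2 ρ.den - m) := by
          refine Finset.sum_le_sum fun ρ hρ => ?_
          obtain ⟨-, h2⟩ := Finset.mem_filter.1 hρ
          exact rat_block (Or.inl (by omega))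
      _ = 2 * ∑ ρ ∈ S.filter (fun ρ => ¬ Nat.log 2 ρ.den ≤ m), g2 ^ (Nat.log 2 ρ.den - m) := by
          rw [Finset.mul_sum]
      _ ≤ _ := mul_le_mul_of_nonneg_left this (by norm_num)
  linarith

/-- the cofactor forced by the two labels -/
noncomputable def Zf (Kc : ℝ) (r r' : ℚ) : ℝ := max Kc (rat r r')

lemma Zf_symm (Kc : ℝ) (r r' : ℚ) : Zf Kc r r' = Zf Kc r' r := by
  unfold Zf
  rw [rat_symm]

lemma Zf_pos (Kc : ℝ) (r r' : ℚ) : 0 < Zf Kc r r' :=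
  lt_of_lt_of_le one_pos ((one_le_rat r r').trans (le_max_right _ _))

lemma KK_symm (r r' : ℚ) : KK r r' = KK r' r := max_comm _ _

lemma rt_symm {Kc : ℝ} (r r' : ℚ) : GcdV37.rt (Zf Kc) r r' = GcdV37.rt (Zf Kc) r' r := by
  unfold GcdV37.rt
  rw [Zf_symm, KK_symm]

/-- the rate of one pair -/
lemma rt_le {Kc E : ℝ} (hKc : 1 ≤ Kc) (hE : 1 ≤ E) {r r' : ℚ} (h : E ≤ KK r r') :
    GcdV37.rt (Zf Kc) r r' ≤ Kc ^ (-(1/2):ℝ) * rat r r' ^ (-(1/2):ℝ) +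
      E ^ (-(1/128):ℝ) * (r'.den:ℝ) ^ (-(1/128):ℝ) := by
  have h1 := one_le_rat r r'
  have d1 : (1:ℝ) ≤ r'.den := by exact_mod_cast r'.pos
  have a1 : Kc ^ (1/2:ℝ) * rat r r' ^ (1/2:ℝ) ≤ Zf Kc r r' := by
    have z0 : 0 ≤ Zf Kc r r' := (Zf_pos Kc r r').le
    have e : Zf Kc r r' = Zf Kc r r' ^ (1/2:ℝ) * Zf Kc r r' ^ (1/2:ℝ) := by
      rw [← Real.rpow_add (Zf_pos Kc r r')]
      norm_num
    rw [e]
    exact mul_le_mul (Real.rpow_le_rpow (by linarith) (le_max_left _ _) (by norm_num))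
      (Real.rpow_le_rpow (by linarith) (le_max_right _ _) (by norm_num)) (by positivity)
      (Real.rpow_nonneg z0 _)
  have a2 : 1 / Zf Kc r r' ≤ Kc ^ (-(1/2):ℝ) * rat r r' ^ (-(1/2):ℝ) := by
    refine (one_div_le_one_div_of_le (by positivity) a1).trans (le_of_eq ?_)
    rw [Real.rpow_neg (by linarith), Real.rpow_neg (by linarith), one_div, mul_inv]
  have a3 : KK r r' ^ (-(1/64):ℝ) ≤ E ^ (-(1/128):ℝ) * (r'.den:ℝ) ^ (-(1/128):ℝ) := by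
    have k0 : 0 < KK r r' := by linarith
    have e : KK r r' ^ (-(1/64):ℝ) = KK r r' ^ (-(1/128):ℝ) * KK r r' ^ (-(1/128):ℝ) := by
      rw [← Real.rpow_add k0]
      norm_num
    rw [e]
    exact mul_le_mul (Real.rpow_le_rpow_of_nonpos (by linarith) h (by norm_num))
      (Real.rpow_le_rpow_of_nonpos (by linarith) (le_max_right _ _) (by norm_num)) (by positivity)
      (by positivity)
  exact add_le_add a2 a3

/-- **the sum of the rates over the labels of one centre**, one more label allowed -/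
lemma sum_rt {Kc E : ℝ} (hKc : 1 ≤ Kc) (hE : 1 ≤ E) {S Λ : Finset ℚ} {θ : ℝ} {r : ℚ}
    (hΛ : Λ.card ≤ 1) (hS : ∀ ρ ∈ S, LabS θ ρ ∨ ρ ∈ Λ) (hK : ∀ ρ ∈ S, E ≤ KK r ρ) :
    ∑ ρ ∈ S, GcdV37.rt (Zf Kc) r ρ ≤ CN * (Kc ^ (-(1/2):ℝ) + E ^ (-(1/128):ℝ)) := by
  classical
  have K0 : 0 ≤ Kc ^ (-(1/2):ℝ) := Real.rpow_nonneg (by linarith) _
  have E0 : 0 ≤ E ^ (-(1/128):ℝ) := Real.rpow_nonneg (by linarith) _
  rw [← Finset.sum_filter_add_sum_filter_not S (fun ρ => LabS θ ρ)]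
  have a1 : ∑ ρ ∈ S.filter (fun ρ => LabS θ ρ), GcdV37.rt (Zf Kc) r ρ ≤
      Kc ^ (-(1/2):ℝ) * (4 * (1 / (1 - g2))) + E ^ (-(1/128):ℝ) * (1 / (1 - g128)) := by
    have hf : ∀ ρ ∈ S.filter (fun ρ => LabS θ ρ), LabS θ ρ := fun ρ hρ => (Finset.mem_filter.1 hρ).2
    calc ∑ ρ ∈ S.filter (fun ρ => LabS θ ρ), GcdV37.rt (Zf Kc) r ρ
        ≤ ∑ ρ ∈ S.filter (fun ρ => LabS θ ρ), (Kc ^ (-(1/2):ℝ) * rat r ρ ^ (-(1/2):ℝ) +
            E ^ (-(1/128):ℝ) * (ρ.den:ℝ) ^ (-(1/128):ℝ)) :=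
          Finset.sum_le_sum fun ρ hρ => rt_le hKc hE (hK ρ (Finset.mem_filter.1 hρ).1)
      _ = Kc ^ (-(1/2):ℝ) * ∑ ρ ∈ S.filter (fun ρ => LabS θ ρ), rat r ρ ^ (-(1/2):ℝ) +
            E ^ (-(1/128):ℝ) * ∑ ρ ∈ S.filter (fun ρ => LabS θ ρ), (ρ.den:ℝ) ^ (-(1/128):ℝ) := by
          rw [Finset.sum_add_distrib, Finset.mul_sum, Finset.mul_sum]
      _ ≤ _ := add_le_add (mul_le_mul_of_nonneg_left (sum_rat hf r) K0)
          (mul_le_mul_of_nonneg_left (sum_den hf) E0)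
  have a2 : ∑ ρ ∈ S.filter (fun ρ => ¬ LabS θ ρ), GcdV37.rt (Zf Kc) r ρ ≤
      Kc ^ (-(1/2):ℝ) + E ^ (-(1/128):ℝ) := by
    have hsub : S.filter (fun ρ => ¬ LabS θ ρ) ⊆ Λ := by
      intro ρ hρ
      obtain ⟨h1, h2⟩ := Finset.mem_filter.1 hρ
      exact (hS ρ h1).resolve_left h2
    have hc : ((S.filter (fun ρ => ¬ LabS θ ρ)).card : ℝ) ≤ 1 := by
      exact_mod_cast (Finset.card_le_card hsub).trans hΛ
    have hb : ∀ ρ ∈ S.filter (fun ρ => ¬ LabS θ ρ), GcdV37.rt (Zf Kc) r ρ ≤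
        Kc ^ (-(1/2):ℝ) + E ^ (-(1/128):ℝ) := by
      intro ρ hρ
      have k1 := rt_le hKc hE (hK ρ (Finset.mem_filter.1 hρ).1)
      have d1 : (1:ℝ) ≤ ρ.den := by exact_mod_cast ρ.pos
      have k2 : rat r ρ ^ (-(1/2):ℝ) ≤ 1 :=
        Real.rpow_le_one_of_one_le_of_nonpos (one_le_rat r ρ) (by norm_num)
      have k3 : (ρ.den:ℝ) ^ (-(1/128):ℝ) ≤ 1 :=
        Real.rpow_le_one_of_one_le_of_nonpos d1 (by norm_num)
      have k4 := mul_le_mul_of_nonneg_left k2 K0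
      have k5 := mul_le_mul_of_nonneg_left k3 E0
      linarith
    have := Finset.sum_le_card_nsmul _ _ _ hb
    rw [nsmul_eq_mul] at this
    refine this.trans ?_
    have : 0 ≤ Kc ^ (-(1/2):ℝ) + E ^ (-(1/128):ℝ) := by linarith
    nlinarith
  have b1 : 0 < 1 / (1 - g2) := div_pos one_pos (by have := g2_lt; linarith)
  have b2 : 0 < 1 / (1 - g128) := div_pos one_pos (by have := g128_lt; linarith)
  have b3 := mul_nonneg K0 b2.le
  have b4 := mul_nonneg E0 b1.le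
  unfold CN
  nlinarith

/-! ### Two nodes -/

variable {N : Skel189.Num} {γ : ℝ} {p0 P₀ : ℕ} {X : Ctx N γ p0 P₀}

/-- **hypotheses on the pairs of a relation** : exact centres, accurate labels of the two circles (at
most one more label on every side), one side late, one large label, one cofactor `≥ Kc` -/
structure FM (X : Ctx N γ p0 P₀) (s s' : NS) (t t' : IT) (R : ℝ → X.c.Lam → X.c.Lam → Prop)
    (ρ ρ' : ℕ → ℚ) (θ θ' : ℝ) (Λ Λ' : Finset ℚ) (A Kc E : ℝ) : Prop where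
  ex : ExP X s s' t t' R ρ ρ'
  far : ∀ e ∈ prs X s s' t t' R, Kc ≤ D1 s s' e ∨ Kc ≤ D2 s s' e
  dn : ∀ e ∈ prs X s s' t t' R, E ≤ KK (ρ e.1) (ρ' e.2)
  lt : ∀ e ∈ prs X s s' t t' R, 1 ≤ KK (ρ e.1) (ρ' e.2) ^ A * RB X s e.1 ∨
    1 ≤ KK (ρ e.1) (ρ' e.2) ^ A * RB X s' e.2
  lab : ∀ e ∈ prs X s s' t t' R, LabS θ (ρ e.1) ∨ ρ e.1 ∈ Λ
  lab' : ∀ e ∈ prs X s s' t t' R, LabS θ' (ρ' e.2) ∨ ρ' e.2 ∈ Λ'

section pair

variable {s s' : NS} {t t' : IT} {R : ℝ → X.c.Lam → X.c.Lam → Prop} {ρ ρ' : ℕ → ℚ} {θ θ' : ℝ}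
  {Λ Λ' : Finset ℚ} {A Kc E : ℝ}

/-- the ratio of the labels is at most a cofactor -/
lemma rat_cof (h : QX X s t) (h' : QX X s' t') (hE : ExP X s s' t t' R ρ ρ') {e : ℕ × ℕ}
    (he : e ∈ prs X s s' t t' R) :
    rat (ρ e.1) (ρ' e.2) ≤ max (D1 s s' e : ℝ) (D2 s s' e : ℝ) := by
  have hc := hE.co h h' he
  have hd : (((D2 s s' e : ℕ) : ℚ) * ρ e.1).den = (((D1 s s' e : ℕ) : ℚ) * ρ' e.2).den :=
    RtE28.Co.den_eq hc
  have gen : ∀ (n : ℕ) (r : ℚ), 0 < n → r.den ∣ n * ((n : ℚ) * r).den ∧ ((n : ℚ) * r).den ∣ r.den := by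
    intro n r hn
    constructor
    · have e1 : r = ((n:ℚ) * r) / n := by
        have : (n:ℚ) ≠ 0 := by exact_mod_cast hn.ne'
        field_simp
      have e2 : r = Rat.divInt (((n:ℚ) * r).num) (n * ((n:ℚ) * r).den : ℕ) := by
        rw [Rat.divInt_eq_div]
        push_cast
        conv_lhs => rw [e1, ← Rat.num_div_den ((n:ℚ) * r)]
        rw [div_div]
        congr 1
        ring
      have := Rat.den_dvd (((n:ℚ) * r).num) (n * ((n:ℚ) * r).den : ℕ)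
      rw [← e2] at this
      exact_mod_cast this
    · have e2 : (n : ℚ) * r = Rat.divInt (n * r.num) (r.den : ℕ) := by
        rw [Rat.divInt_eq_div]
        push_cast
        conv_lhs => rw [← Rat.num_div_den r]
        rw [mul_div_assoc]
      have := Rat.den_dvd (n * r.num) (r.den : ℕ)
      rw [← e2] at this
      exact_mod_cast this
  obtain ⟨h1, h2, -⟩ := mem_prs.1 he
  have w0 : 0 < e.1 / s.A := Nat.pos_of_ne_zero (h.div_ne h1)
  have w0' : 0 < e.2 / s'.A := Nat.pos_of_ne_zero (h'.div_ne h2)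
  have hD1 : 0 < D1 s s' e := Nat.pos_of_ne_zero fun h0 => by
    have := Crest.Agent.R4.AvgItem710.mul_cof (w := e.1 / s.A) (w' := e.2 / s'.A)
    unfold XmE18.D1 at h0
    rw [h0] at this
    omega
  have hD2 : 0 < D2 s s' e := Nat.pos_of_ne_zero fun h0 => by
    have := Crest.Agent.R4.AvgItem710.mul_cof' (w := e.1 / s.A) (w' := e.2 / s'.A)
    unfold XmE18.D2 at h0
    rw [h0] at this
    omega
  have a1 : (ρ e.1).den ≤ D2 s s' e * (ρ' e.2).den := by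
    have k1 := (gen _ (ρ e.1) hD2).1
    rw [hd] at k1
    have k2 := (gen _ (ρ' e.2) hD1).2
    exact Nat.le_of_dvd (Nat.mul_pos hD2 (ρ' e.2).pos) (k1.trans (Nat.mul_dvd_mul_left _ k2))
  have a2 : (ρ' e.2).den ≤ D1 s s' e * (ρ e.1).den := by
    have k1 := (gen _ (ρ' e.2) hD1).1
    rw [← hd] at k1
    have k2 := (gen _ (ρ e.1) hD2).2
    exact Nat.le_of_dvd (Nat.mul_pos hD1 (ρ e.1).pos) (k1.trans (Nat.mul_dvd_mul_left _ k2))
  have d1 : (0:ℝ) < (ρ e.1).den := by exact_mod_cast (ρ e.1).pos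
  have d2 : (0:ℝ) < (ρ' e.2).den := by exact_mod_cast (ρ' e.2).pos
  refine max_le ?_ ?_
  · refine le_max_of_le_right ?_
    rw [div_le_iff₀ d2]
    exact_mod_cast a1
  · refine le_max_of_le_left ?_
    rw [div_le_iff₀ d1]
    exact_mod_cast a2

lemma FM.z (h : QX X s t) (h' : QX X s' t') (H : FM X s s' t t' R ρ ρ' θ θ' Λ Λ' A Kc E)
    {e : ℕ × ℕ} (he : e ∈ prs X s s' t t' R) : 0 < Zf Kc (ρ e.1) (ρ' e.2) ∧
      (Zf Kc (ρ e.1) (ρ' e.2) ≤ D1 s s' e ∨ Zf Kc (ρ e.1) (ρ' e.2) ≤ D2 s s' e) := by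
  refine ⟨Zf_pos _ _ _, ?_⟩
  rw [← le_max_iff]
  refine max_le ?_ (rat_cof h h' H.ex he)
  rw [le_max_iff]
  exact H.far e he

lemma FM.r1 (hKc : 1 ≤ Kc) (hE : 1 ≤ E) (hΛ : Λ'.card ≤ 1)
    (H : FM X s s' t t' R ρ ρ' θ θ' Λ Λ' A Kc E) (q : ℕ) :
    ∑ r ∈ La ρ' (prs X s s' t t' R) q, GcdV37.rt (Zf Kc) (ρ q) r ≤
      CN * (Kc ^ (-(1/2):ℝ) + E ^ (-(1/128):ℝ)) := by
  refine sum_rt hKc hE hΛ (θ := θ') (fun r hr => ?_) fun r hr => ?_
  · obtain ⟨e, he, e1, e2⟩ := mem_La.1 hr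
    rw [← e2]
    exact H.lab' e he
  · obtain ⟨e, he, e1, e2⟩ := mem_La.1 hr
    rw [← e2, ← e1]
    exact H.dn e he

lemma FM.r2 (hKc : 1 ≤ Kc) (hE : 1 ≤ E) (hΛ : Λ.card ≤ 1)
    (H : FM X s s' t t' R ρ ρ' θ θ' Λ Λ' A Kc E) (q : ℕ) :
    ∑ r ∈ Lb ρ (prs X s s' t t' R) q, GcdV37.rt (Zf Kc) r (ρ' q) ≤
      CN * (Kc ^ (-(1/2):ℝ) + E ^ (-(1/128):ℝ)) := by
  refine (le_of_eq (Finset.sum_congr rfl fun r _ => rt_symm r (ρ' q))).trans ?_
  refine sum_rt hKc hE hΛ (θ := θ) (fun r hr => ?_) fun r hr => ?_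
  · obtain ⟨e, he, e1, e2⟩ := mem_Lb.1 hr
    rw [← e2]
    exact H.lab e he
  · obtain ⟨e, he, e1, e2⟩ := mem_Lb.1 hr
    rw [← e2, ← e1, KK_symm]
    exact H.dn e he

end pair

/-- **FAR LABELLED PAIRS OF TWO NODES**, relation form -/
theorem far_labR {A : ℝ} (hA : 0 ≤ A) : ∃ Ce : ℝ, 1 ≤ Ce ∧ ∃ C : ℝ, 1 ≤ C ∧
    ∀ (N : Skel189.Num), ∃ p₁ : ℕ, ∀ p0 ≥ p₁, ∀ (γ : ℝ) (P₀ : ℕ)
    (X : Ctx N γ p0 P₀) (s s' : NS) (t t' : IT) (P : ℕ) (R : ℝ → X.c.Lam → X.c.Lam → Prop)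
    (ρ ρ' : ℕ → ℚ) (θ θ' : ℝ) (Λ Λ' : Finset ℚ) (Kc E M : ℝ), 0 ≤ M →
    NL X s t → NL X s' t' → p0 ≤ P → (∀ r : ℕ, r.Prime → r < s.n → r ≤ P) →
    (∀ r : ℕ, r.Prime → r < s'.n → r ≤ P) → (∀ j i, MP fun y => R y j i) →
    FM X s s' t t' R ρ ρ' θ θ' Λ Λ' A Kc E → 1 ≤ Kc → (3 + Real.log P) ^ Ce ≤ E →
    (3 + Real.log P) ^ (M + 4 * CT + 1) ≤ E →
    4 * Mn X s t ≤ (3 + Real.log P) ^ M → 4 * Mn X s' t' ≤ (3 + Real.log P) ^ M →
    Λ.card ≤ 1 → Λ'.card ≤ 1 →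
    I (qe R (vN X (.inl (s, t))) (vN X (.inl (s', t')))) ≤
      C * (1 + Real.log P) * (Kc ^ (-(1/2):ℝ) + E ^ (-(1/128):ℝ)) *
        (∑ j, I (vN X (.inl (s, t)) j) + ∑ j, I (vN X (.inl (s', t')) j)) := by
  classical
  obtain ⟨Ce, hCe, C, hC, h0⟩ := node_labM hA
  have hCN := one_le_CN
  refine ⟨Ce, hCe, C * CN, by nlinarith, fun N => ?_⟩
  obtain ⟨p1, h1⟩ := h0 N
  refine ⟨p1, fun p0 hp0 γ P₀ X s s' t t' P R ρ ρ' θ θ' Λ Λ' Kc E M hM h h' hP hl hl' mR H hKc hE hEM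
    m1 m2 hΛ hΛ' => ?_⟩
  have hlP : 0 ≤ Real.log (P : ℝ) := Real.log_natCast_nonneg P
  have hw1 : 1 ≤ 3 + Real.log (P : ℝ) := by linarith
  have hE1 : 1 ≤ E := (Real.one_le_rpow hw1 (by linarith)).trans hE
  have key := h1 p0 hp0 γ P₀ X s s' t t' P ρ ρ' (Zf Kc) R M h.mn h'.mn hP hl hl' mR H.ex hM
    (fun e he => H.z h.mn.nd h'.mn.nd he) (fun e he => hE.trans (H.dn e he))
    (fun e he => hEM.trans (H.dn e he)) H.lt ((MI_tot h _).trans m1) ((MI_tot h' _).trans m2)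
  set ε := CN * (Kc ^ (-(1/2):ℝ) + E ^ (-(1/128):ℝ)) with hε
  have hε0 : 0 ≤ ε := by
    have := Real.rpow_nonneg (by linarith : (0:ℝ) ≤ Kc) (-(1/2))
    have := Real.rpow_nonneg (by linarith : (0:ℝ) ≤ E) (-(1/128))
    positivity
  have sub : ∀ (u : NS) (τ : IT) (hu : NL X u τ) (F : Finset ℕ), ∑ q ∈ F, MI X u τ q ≤
      ∑ j, I (vN X (.inl (u, τ)) j) := by
    intro u τ hu F
    have k := MI_lm hu (F := F) (c := fun _ => 1) (ε := fun _ => 1) (fun _ => by norm_num)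
      fun _ _ => le_rfl
    simp only [one_mul] at k
    refine k.trans (le_of_eq ?_)
    unfold lm
    exact Finset.sum_congr rfl fun j _ => by rw [one_mul]; rfl
  have b1 : ∑ q ∈ (prs X s s' t t' R).image Prod.fst,
      (∑ r ∈ La ρ' (prs X s s' t t' R) q, GcdV37.rt (Zf Kc) (ρ q) r) * MI X s t q ≤
      ε * ∑ j, I (vN X (.inl (s, t)) j) := by
    refine (Finset.sum_le_sum fun q _ => mul_le_mul_of_nonneg_right (H.r1 hKc hE1 hΛ' q)
      (MI_nonneg h.mn.nd q)).trans ?_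
    rw [← Finset.mul_sum]
    exact mul_le_mul_of_nonneg_left (sub s t h _) hε0
  have b2 : ∑ q ∈ (prs X s s' t t' R).image Prod.snd,
      (∑ r ∈ Lb ρ (prs X s s' t t' R) q, GcdV37.rt (Zf Kc) r (ρ' q)) * MI X s' t' q ≤
      ε * ∑ j, I (vN X (.inl (s', t')) j) := by
    refine (Finset.sum_le_sum fun q _ => mul_le_mul_of_nonneg_right (H.r2 hKc hE1 hΛ q)
      (MI_nonneg h'.mn.nd q)).trans ?_
    rw [← Finset.mul_sum]
    exact mul_le_mul_of_nonneg_left (sub s' t' h' _) hε0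
  refine key.trans ?_
  have k3 := mul_le_mul_of_nonneg_left (add_le_add b1 b2)
    (by positivity : 0 ≤ C * (1 + Real.log (P:ℝ)))
  refine k3.trans (le_of_eq ?_)
  rw [hε]
  ring

/-- **FAR LABELLED PAIRS OF TWO NODES**, kernel form -/
theorem far_lab {A : ℝ} (hA : 0 ≤ A) : ∃ Ce : ℝ, 1 ≤ Ce ∧ ∃ C : ℝ, 1 ≤ C ∧
    ∀ (N : Skel189.Num), ∃ p₁ : ℕ, ∀ p0 ≥ p₁, ∀ (γ : ℝ) (P₀ : ℕ)
    (X : Ctx N γ p0 P₀) (s s' : NS) (t t' : IT) (P : ℕ) (K : X.c.Lam → X.c.Lam → ℝ) (W : ℝ)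
    (ρ ρ' : ℕ → ℚ) (θ θ' : ℝ) (Λ Λ' : Finset ℚ) (Kc E M : ℝ), 0 ≤ M →
    NL X s t → NL X s' t' → p0 ≤ P → (∀ r : ℕ, r.Prime → r < s.n → r ≤ P) →
    (∀ r : ℕ, r.Prime → r < s'.n → r ≤ P) → 0 ≤ W → (∀ j i, K j i ≤ W) →
    FM X s s' t t' (rl K) ρ ρ' θ θ' Λ Λ' A Kc E → 1 ≤ Kc → (3 + Real.log P) ^ Ce ≤ E →
    (3 + Real.log P) ^ (M + 4 * CT + 1) ≤ E →
    4 * Mn X s t ≤ (3 + Real.log P) ^ M → 4 * Mn X s' t' ≤ (3 + Real.log P) ^ M →
    Λ.card ≤ 1 → Λ'.card ≤ 1 →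
    bil K (vx X s t) (vx X s' t') ≤
      W * (C * (1 + Real.log P) * (Kc ^ (-(1/2):ℝ) + E ^ (-(1/128):ℝ))) *
        (lm X (fun _ => 1) s t + lm X (fun _ => 1) s' t') := by
  classical
  obtain ⟨Ce, hCe, C, hC, h0⟩ := far_labR hA
  refine ⟨Ce, hCe, C, hC, fun N => ?_⟩
  obtain ⟨p1, h1⟩ := h0 N
  refine ⟨p1, fun p0 hp0 γ P₀ X s s' t t' P K W ρ ρ' θ θ' Λ Λ' Kc E M hM h h' hP hl hl' hW hK H hKc
    hE hEM m1 m2 hΛ hΛ' => ?_⟩
  have key := h1 p0 hp0 γ P₀ X s s' t t' P (rl K) ρ ρ' θ θ' Λ Λ' Kc E M hM h h' hP hl hl'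
    (mp_rl K) H hKc hE hEM m1 m2 hΛ hΛ'
  have k1 := bil_qe hK (fun j => pb_vx h.rg j) (fun j => pb_vx h'.rg j)
  have e : ∀ (u : NS) (τ : IT), ∑ j, I (vN X (.inl (u, τ)) j) = lm X (fun _ => 1) u τ := by
    intro u τ
    unfold lm
    exact Finset.sum_congr rfl fun j _ => by rw [one_mul]; rfl
  rw [e, e] at key
  refine k1.trans ((mul_le_mul_of_nonneg_left key hW).trans (le_of_eq ?_))
  ring

end Crest.Agent.R4P.FmL8
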