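import Crest.Agent.R4P.Mism_16
import Crest.Agent.R4P.MvP_25

/-!
R4 (S0004) with powers, T3, helper53: **class changes of the dual potential** (helper35's 16860, all tests).

`PD A b c h = A M[h^(3/2)] - b Σ_j Σ_j' c_j c_j' min (h_j, h_j')^(3/2)` (closed form; `b = 2/3`,
`A = 16/3` (`+ 56` with the energy `TT`)), `2 b ≤ A`.

* `th_pair` : the pair inequality for any number of types;
* `PD_mono`, `PD_lip`, **`PD_split`** (F4, `n` types: price = different members, product weights),
  **`PD_merge`** (F3, `n` types: price = in-member coexistence);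
* **`class_change`** : truncated families, low types `a`, high types `b`, contents `f a b`.
* forms with a parameter `θ` and energies which do not depend on the scale.
-/

set_option autoImplicit false
set_option linter.unusedVariables false
set_option linter.unusedSectionVars false

namespace Crest.Agent.R4P.GMe53

open Finset Crest.Agent.R4P.GMer27 Crest.Agent.R4P.MisR16 Crest.Agent.R4P.Mism16
open Crest.Agent.R4P.ModeP940 (SS)
open Crest.Agent.R4P.MvP25 (ml ml_nonneg min_sum_le)

/-! ### scalars -/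

lemma th_min_le {x y : ℝ} (hx : 0 ≤ x) (hy : 0 ≤ y) : th (min x y) ≤ th x :=
  th_mono (le_min hx hy) (min_le_left _ _)

lemma th_min_le' {x y : ℝ} (hx : 0 ≤ x) (hy : 0 ≤ y) : th (min x y) ≤ th y :=
  th_mono (le_min hx hy) (min_le_right _ _)

section pair
variable {κ : Type*} [Fintype κ]

/-- one half of the pair inequality -/
lemma th_pair1 {x y : κ → ℝ} (hx : ∀ b, 0 ≤ x b) (hy : ∀ b, 0 ≤ y b)
    (h : ∑ b, x b ≤ ∑ b, y b) :
    ∑ b, th (x b) + ∑ b, th (y b) ≤ ∑ b, ∑ b', th (min (x b) (y b')) + th (∑ b, y b) := by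
  classical
  have nn : ∀ b b', 0 ≤ th (min (x b) (y b')) := fun b b' => th_nonneg (le_min (hx b) (hy b'))
  have sx := th_sum Finset.univ x fun b _ => hx b
  have sy := th_sum Finset.univ y fun b _ => hy b
  have mxy := th_mono (Finset.sum_nonneg fun b (_ : b ∈ Finset.univ) => hx b) h
  rcases isEmpty_or_nonempty κ with he | he
  · simp [th_zero]
  obtain ⟨b1, -, h1⟩ := Finset.exists_max_image Finset.univ y
    (Finset.univ_nonempty (α := κ))
  by_cases hc : ∀ b, x b ≤ y b1
  · have e1 : ∑ b, th (x b) ≤ ∑ b, ∑ b', th (min (x b) (y b')) := by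
      refine Finset.sum_le_sum fun b _ => ?_
      have := Finset.single_le_sum (f := fun b' => th (min (x b) (y b')))
        (fun b' _ => nn b b') (Finset.mem_univ b1)
      refine le_trans (le_of_eq ?_) this
      show th (x b) = th (min (x b) (y b1))
      rw [min_eq_left (hc b)]
    linarith
  · push Not at hc
    obtain ⟨b0, h0⟩ := hc
    have e1 : ∑ b', th (y b') ≤ ∑ b, ∑ b', th (min (x b) (y b')) := by
      have := Finset.single_le_sum (f := fun b => ∑ b', th (min (x b) (y b')))
        (fun b _ => Finset.sum_nonneg fun b' _ => nn b b') (Finset.mem_univ b0)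
      refine le_trans (le_of_eq ?_) this
      refine Finset.sum_congr rfl fun b' _ => ?_
      rw [min_eq_right ((h1 b' (Finset.mem_univ _)).trans h0.le)]
    linarith

/-- **the pair inequality** -/
theorem th_pair {x y : κ → ℝ} (hx : ∀ b, 0 ≤ x b) (hy : ∀ b, 0 ≤ y b) :
    th (min (∑ b, x b) (∑ b, y b)) + ∑ b, th (x b) + ∑ b, th (y b) ≤
      ∑ b, ∑ b', th (min (x b) (y b')) + th (∑ b, x b) + th (∑ b, y b) := by
  rcases le_total (∑ b, x b) (∑ b, y b) with h | h
  · rw [min_eq_left h]
    linarith [th_pair1 hx hy h]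
  · rw [min_eq_right h]
    have h1 := th_pair1 hy hx h
    have e : ∑ b, ∑ b', th (min (y b) (x b')) = ∑ b, ∑ b', th (min (x b) (y b')) := by
      rw [Finset.sum_comm]
      exact Finset.sum_congr rfl fun b _ => Finset.sum_congr rfl fun b' _ => by rw [min_comm]
    rw [e] at h1
    linarith

/-- minima are superadditive -/
lemma th_min_super {x y : κ → ℝ} (hx : ∀ b, 0 ≤ x b) (hy : ∀ b, 0 ≤ y b) :
    ∑ b, th (min (x b) (y b)) ≤ th (min (∑ b, x b) (∑ b, y b)) := by
  refine (th_sum Finset.univ (fun b => min (x b) (y b)) fun b _ => le_min (hx b) (hy b)).trans ?_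
  exact th_mono (Finset.sum_nonneg fun b _ => le_min (hx b) (hy b))
    (le_min (Finset.sum_le_sum fun b _ => min_le_left _ _)
      (Finset.sum_le_sum fun b _ => min_le_right _ _))

end pair

/-! ### the potential of one class -/

section pot
variable {J : Type*} [Fintype J] {c : J → ℝ} {A b : ℝ}

/-- pairs of members of two contents -/
noncomputable def S (c : J → ℝ) (f g : J → ℝ) : ℝ :=
  ∑ j, ∑ j', c j * c j' * th (min (f j) (g j'))

open Classical in
/-- pairs of different members of two contents -/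
noncomputable def So (c : J → ℝ) (f g : J → ℝ) : ℝ :=
  ∑ j, ∑ j', if j = j' then 0 else c j * c j' * th (min (f j) (g j'))

/-- **the dual potential of one class** -/
noncomputable def PD (A b : ℝ) (c : J → ℝ) (h : J → ℝ) : ℝ :=
  A * M c (fun j => th (h j)) - b * S c h h

lemma S_nonneg (c0 : ∀ j, 0 ≤ c j) {f g : J → ℝ} (hf : ∀ j, 0 ≤ f j) (hg : ∀ j, 0 ≤ g j) :
    0 ≤ S c f g :=
  Finset.sum_nonneg fun j _ => Finset.sum_nonneg fun j' _ =>
    mul_nonneg (mul_nonneg (c0 j) (c0 j')) (th_nonneg (le_min (hf j) (hg j')))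

lemma So_nonneg (c0 : ∀ j, 0 ≤ c j) {f g : J → ℝ} (hf : ∀ j, 0 ≤ f j) (hg : ∀ j, 0 ≤ g j) :
    0 ≤ So c f g :=
  Finset.sum_nonneg fun j _ => Finset.sum_nonneg fun j' _ => by
    split_ifs
    · exact le_rfl
    · exact mul_nonneg (mul_nonneg (c0 j) (c0 j')) (th_nonneg (le_min (hf j) (hg j')))

lemma So_le_S (c0 : ∀ j, 0 ≤ c j) {f g : J → ℝ} (hf : ∀ j, 0 ≤ f j) (hg : ∀ j, 0 ≤ g j) :
    So c f g ≤ S c f g :=
  Finset.sum_le_sum fun j _ => Finset.sum_le_sum fun j' _ => by
    have := mul_nonneg (mul_nonneg (c0 j) (c0 j')) (th_nonneg (le_min (hf j) (hg j')))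
    split_ifs
    · exact this
    · exact le_rfl

lemma So_mono (c0 : ∀ j, 0 ≤ c j) {f g f' g' : J → ℝ} (hf : ∀ j, 0 ≤ f j) (hg : ∀ j, 0 ≤ g j)
    (h1 : ∀ j, f j ≤ f' j) (h2 : ∀ j, g j ≤ g' j) : So c f g ≤ So c f' g' :=
  Finset.sum_le_sum fun j _ => Finset.sum_le_sum fun j' _ => by
    split_ifs
    · exact le_rfl
    · exact mul_le_mul_of_nonneg_left
        (th_mono (le_min (hf j) (hg j')) (min_le_min (h1 j) (h2 j')))
        (mul_nonneg (c0 j) (c0 j'))

lemma S_mono (c0 : ∀ j, 0 ≤ c j) {f g f' g' : J → ℝ} (hf : ∀ j, 0 ≤ f j) (hg : ∀ j, 0 ≤ g j)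
    (h1 : ∀ j, f j ≤ f' j) (h2 : ∀ j, g j ≤ g' j) : S c f g ≤ S c f' g' :=
  Finset.sum_le_sum fun j _ => Finset.sum_le_sum fun j' _ =>
    mul_le_mul_of_nonneg_left
        (th_mono (le_min (hf j) (hg j')) (min_le_min (h1 j) (h2 j')))
        (mul_nonneg (c0 j) (c0 j'))

/-- the double sum of the first coordinate -/
lemma dsum (c1 : ∑ j, c j ≤ 1) (c0 : ∀ j, 0 ≤ c j) {a : J → ℝ} (ha : ∀ j, 0 ≤ a j) :
    ∑ j, ∑ j', c j * c j' * (a j + a j') ≤ 2 * M c a := by
  have e1 : ∑ j, ∑ j', c j * c j' * (a j + a j') = 2 * (M c a * ∑ j, c j) := by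
    have e : ∀ j j', c j * c j' * (a j + a j') = (c j * a j) * c j' + c j * (c j' * a j') :=
      fun j j' => by ring
    simp only [e, Finset.sum_add_distrib, ← Finset.mul_sum, ← Finset.sum_mul]
    unfold M
    ring
  rw [e1]
  have := mul_le_mul_of_nonneg_left c1 (M_nonneg c0 ha)
  linarith

/-- **monotone** -/
lemma PD_mono (c0 : ∀ j, 0 ≤ c j) (c1 : ∑ j, c j ≤ 1) (hb : 0 ≤ b) (hA : 2 * b ≤ A)
    {f g : J → ℝ} (hf : ∀ j, 0 ≤ f j) (h : ∀ j, f j ≤ g j) : PD A b c f ≤ PD A b c g := by
  have hg : ∀ j, 0 ≤ g j := fun j => (hf j).trans (h j)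
  set a : J → ℝ := fun j => th (g j) - th (f j) with ha
  have a0 : ∀ j, 0 ≤ a j := fun j => sub_nonneg.2 (th_mono (hf j) (h j))
  have k1 : S c g g - S c f f ≤ 2 * M c a := by
    refine le_trans ?_ (dsum c1 c0 a0)
    unfold S
    rw [← Finset.sum_sub_distrib]
    refine Finset.sum_le_sum fun j _ => ?_
    rw [← Finset.sum_sub_distrib]
    refine Finset.sum_le_sum fun j' _ => ?_
    rw [← mul_sub]
    refine mul_le_mul_of_nonneg_left ?_ (mul_nonneg (c0 j) (c0 j'))
    have b1 := a0 j
    have b2 := a0 j'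
    rcases le_total (f j) (f j') with h1 | h1
    · rw [min_eq_left h1]
      have := th_min_le (hg j) (hg j')
      simp only [ha] at b1 b2 ⊢
      linarith
    · rw [min_eq_right h1]
      have := th_min_le' (hg j) (hg j')
      simp only [ha] at b1 b2 ⊢
      linarith
  have k2 : M c a = M c (fun j => th (g j)) - M c (fun j => th (f j)) := M_sub _ _
  have k3 := M_nonneg c0 a0
  unfold PD
  nlinarith

lemma PD_zero : PD A b c (fun _ => 0) = 0 := by
  unfold PD S
  simp [th_zero, M]

lemma PD_nonneg (c0 : ∀ j, 0 ≤ c j) (c1 : ∑ j, c j ≤ 1) (hb : 0 ≤ b) (hA : 2 * b ≤ A)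
    {f : J → ℝ} (hf : ∀ j, 0 ≤ f j) : 0 ≤ PD A b c f := by
  have := PD_mono c0 c1 hb hA (f := fun _ => 0) (g := f) (fun _ => le_rfl) hf
  rwa [PD_zero] at this

/-- **own-height Lipschitz bound** -/
lemma PD_lip (c0 : ∀ j, 0 ≤ c j) (hb : 0 ≤ b) (hA : 0 ≤ A)
    {f g : J → ℝ} (hf : ∀ j, 0 ≤ f j) (h : ∀ j, f j ≤ g j) :
    PD A b c g ≤ PD A b c f + A * M c (fun j => th (g j) - th (f j)) := by
  have k1 := mul_le_mul_of_nonneg_left (S_mono c0 hf hf h h) hb
  have k2 : M c (fun j => th (g j) - th (f j)) =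
    M c (fun j => th (g j)) - M c (fun j => th (f j)) := M_sub _ _
  unfold PD
  rw [k2]
  linarith

lemma th_sub_le {x y σ : ℝ} (hx : 0 ≤ x) (h : x ≤ y) (hy : y ≤ σ) :
    th y - th x ≤ 3 / 2 * (Real.sqrt σ * (y - x)) := by
  have h1 := th_own hx (sub_nonneg.2 h)
  have e : x + (y - x) = y := by ring
  rw [e] at h1
  have h2 := Real.sqrt_le_sqrt hy
  have h3 := mul_le_mul_of_nonneg_left h2 (sub_nonneg.2 h)
  linarith

/-- **Lipschitz bound below the height `σ`** -/
lemma PD_lip' (c0 : ∀ j, 0 ≤ c j) (hb : 0 ≤ b) (hA : 0 ≤ A) {σ : ℝ}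
    {f g : J → ℝ} (hf : ∀ j, 0 ≤ f j) (h : ∀ j, f j ≤ g j) (hg : ∀ j, g j ≤ σ) :
    PD A b c g ≤ PD A b c f + 3 / 2 * A * Real.sqrt σ * M c (fun j => g j - f j) := by
  refine (PD_lip c0 hb hA hf h).trans (add_le_add le_rfl ?_)
  have k : M c (fun j => th (g j) - th (f j)) ≤
      M c (fun j => 3 / 2 * Real.sqrt σ * (g j - f j)) := M_mono c0 fun j => by
    have := th_sub_le (hf j) (h j) (hg j)
    linarith
  rw [M_smul] at k
  have := mul_le_mul_of_nonneg_left k hA
  linarith

variable {κ : Type*} [Fintype κ]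

open Classical in
/-- cross energy of a family (different types, different members, product weights) -/
noncomputable def Xo (c : J → ℝ) (f : κ → J → ℝ) : ℝ :=
  ∑ k, ∑ k', if k = k' then 0 else So c (f k) (f k')

lemma Xo_nonneg (c0 : ∀ j, 0 ≤ c j) {f : κ → J → ℝ} (hf : ∀ k j, 0 ≤ f k j) : 0 ≤ Xo c f :=
  Finset.sum_nonneg fun k _ => Finset.sum_nonneg fun k' _ => by
    split_ifs
    · exact le_rfl
    · exact So_nonneg c0 (hf k) (hf k')

lemma Xo_mono (c0 : ∀ j, 0 ≤ c j) {f g : κ → J → ℝ} (hf : ∀ k j, 0 ≤ f k j)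
    (h : ∀ k j, f k j ≤ g k j) : Xo c f ≤ Xo c g :=
  Finset.sum_le_sum fun k _ => Finset.sum_le_sum fun k' _ => by
    split_ifs
    · exact le_rfl
    · exact So_mono c0 (hf k) (hf k') (h k) (h k')

/-- **F4, split of one class into `n` classes** -/
theorem PD_split (c0 : ∀ j, 0 ≤ c j) (c1 : ∑ j, c j ≤ 1) (hb : 0 ≤ b) (hA : 2 * b ≤ A)
    {f : κ → J → ℝ} (hf : ∀ k j, 0 ≤ f k j) :
    ∑ k, PD A b c (f k) ≤ PD A b c (fun j => ∑ k, f k j) + b * Xo c f := by
  classical
  set H : J → ℝ := fun j => ∑ k, f k j with hH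
  set a : J → ℝ := fun j => th (H j) - ∑ k, th (f k j) with ha
  have a0 : ∀ j, 0 ≤ a j := fun j =>
    sub_nonneg.2 (th_sum Finset.univ (fun k => f k j) fun k _ => hf k j)
  have k1 : S c H H - ∑ k, S c (f k) (f k) ≤ 2 * M c a + Xo c f := by
    have e1 : ∑ k, S c (f k) (f k) =
        ∑ j, ∑ j', c j * c j' * ∑ k, th (min (f k j) (f k j')) := by
      unfold S
      rw [Finset.sum_comm]
      refine Finset.sum_congr rfl fun j _ => ?_
      rw [Finset.sum_comm]
      refine Finset.sum_congr rfl fun j' _ => ?_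
      rw [Finset.mul_sum]
    have e2 : Xo c f = ∑ j, ∑ j', (if j = j' then 0 else
        c j * c j' * ∑ k, ∑ k', if k = k' then 0 else th (min (f k j) (f k' j'))) := by
      unfold Xo So
      have s1 : ∀ k k', (if k = k' then 0 else ∑ j, ∑ j', if j = j' then (0:ℝ) else
          c j * c j' * th (min (f k j) (f k' j'))) = ∑ j, ∑ j', if j = j' then (0:ℝ) else
            c j * c j' * (if k = k' then 0 else th (min (f k j) (f k' j'))) := by
        intro k k'
        by_cases h : k = k'
        · simp [h]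
        · simp [h]
      simp only [s1]
      have s2 : ∀ j j', (if j = j' then (0:ℝ) else c j * c j' *
          ∑ k, ∑ k', if k = k' then 0 else th (min (f k j) (f k' j'))) =
          ∑ k, ∑ k', if j = j' then (0:ℝ) else
            c j * c j' * (if k = k' then 0 else th (min (f k j) (f k' j'))) := by
        intro j j'
        by_cases h : j = j'
        · simp [h]
        · simp only [h, if_false, Finset.mul_sum]
      simp only [s2]
      -- swap the sums
      have s3 : ∀ F : κ → κ → J → J → ℝ, ∑ k, ∑ k', ∑ j, ∑ j', F k k' j j' =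
          ∑ j, ∑ j', ∑ k, ∑ k', F k k' j j' := by
        intro F
        calc ∑ k, ∑ k', ∑ j, ∑ j', F k k' j j'
            = ∑ k, ∑ j, ∑ k', ∑ j', F k k' j j' := by
              refine Finset.sum_congr rfl fun k _ => Finset.sum_comm
          _ = ∑ j, ∑ k, ∑ k', ∑ j', F k k' j j' := Finset.sum_comm
          _ = ∑ j, ∑ k, ∑ j', ∑ k', F k k' j j' := by
              refine Finset.sum_congr rfl fun j _ => Finset.sum_congr rfl fun k _ =>
                Finset.sum_comm
          _ = ∑ j, ∑ j', ∑ k, ∑ k', F k k' j j' := by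
              refine Finset.sum_congr rfl fun j _ => Finset.sum_comm
      exact s3 _
    have e3 : 2 * M c a + Xo c f ≥ ∑ j, ∑ j', (c j * c j' * (a j + a j') + if j = j' then 0 else
        c j * c j' * ∑ k, ∑ k', if k = k' then 0 else th (min (f k j) (f k' j'))) := by
      simp only [Finset.sum_add_distrib]
      rw [← e2]
      have := dsum c1 c0 a0
      linarith
    refine le_trans ?_ e3
    rw [e1]
    unfold S
    rw [← Finset.sum_sub_distrib]
    refine Finset.sum_le_sum fun j _ => ?_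
    rw [← Finset.sum_sub_distrib]
    refine Finset.sum_le_sum fun j' _ => ?_
    have cc := mul_nonneg (c0 j) (c0 j')
    by_cases h : j = j'
    · subst h
      rw [if_pos rfl, add_zero, ← mul_sub]
      refine mul_le_mul_of_nonneg_left ?_ cc
      simp only [min_self]
      have := a0 j
      simp only [ha] at this ⊢
      linarith
    · rw [if_neg h, ← mul_sub, ← mul_add]
      refine mul_le_mul_of_nonneg_left ?_ cc
      have p := th_pair (x := fun k => f k j) (y := fun k => f k j') (fun k => hf k j)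
        fun k => hf k j'
      have q : ∑ k, ∑ k', th (min (f k j) (f k' j')) = ∑ k, th (min (f k j) (f k j')) +
          ∑ k, ∑ k', if k = k' then 0 else th (min (f k j) (f k' j')) := by
        rw [← Finset.sum_add_distrib]
        refine Finset.sum_congr rfl fun k _ => ?_
        have : ∀ k', th (min (f k j) (f k' j')) = (if k = k' then th (min (f k j) (f k j')) else 0) +
            (if k = k' then 0 else th (min (f k j) (f k' j'))) := by
          intro k'
          by_cases hk : k = k'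
          · subst hk; simp
          · simp [hk]
        rw [Finset.sum_congr rfl fun k' _ => this k', Finset.sum_add_distrib,
          Finset.sum_ite_eq, if_pos (Finset.mem_univ _)]
      simp only [ha, hH]
      linarith
  have k2 : M c a = M c (fun j => th (H j)) - ∑ k, M c (fun j => th (f k j)) := by
    have e : a = fun j => th (H j) - ∑ k, th (f k j) := rfl
    rw [e, M_sub, M_sum]
  have k3 := M_nonneg c0 a0
  have k4 := mul_le_mul_of_nonneg_left k1 hb
  have e5 : ∑ k, PD A b c (f k) = A * ∑ k, M c (fun j => th (f k j)) -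
      b * ∑ k, S c (f k) (f k) := by
    unfold PD
    rw [Finset.sum_sub_distrib, ← Finset.mul_sum, ← Finset.mul_sum]
  rw [e5]
  unfold PD
  nlinarith

/-- **F3, merge of `n` classes** -/
theorem PD_merge (c0 : ∀ j, 0 ≤ c j) (hb : 0 ≤ b) {f : κ → J → ℝ} (hf : ∀ k j, 0 ≤ f k j) :
    PD A b c (fun j => ∑ k, f k j) ≤ ∑ k, PD A b c (f k) +
      A * M c (fun j => th (∑ k, f k j) - ∑ k, th (f k j)) := by
  have k1 : ∑ k, S c (f k) (f k) ≤ S c (fun j => ∑ k, f k j) (fun j => ∑ k, f k j) := by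
    unfold S
    rw [Finset.sum_comm]
    refine Finset.sum_le_sum fun j _ => ?_
    rw [Finset.sum_comm]
    refine Finset.sum_le_sum fun j' _ => ?_
    rw [← Finset.mul_sum]
    exact mul_le_mul_of_nonneg_left (th_min_super (fun k => hf k j) fun k => hf k j')
      (mul_nonneg (c0 j) (c0 j'))
  have e5 : ∑ k, PD A b c (f k) = A * ∑ k, M c (fun j => th (f k j)) -
      b * ∑ k, S c (f k) (f k) := by
    unfold PD
    rw [Finset.sum_sub_distrib, ← Finset.mul_sum, ← Finset.mul_sum]
  have e6 : M c (fun j => th (∑ k, f k j) - ∑ k, th (f k j)) =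
      M c (fun j => th (∑ k, f k j)) - ∑ k, M c (fun j => th (f k j)) := by
    rw [M_sub, M_sum]
  rw [e5, e6]
  unfold PD
  have := mul_le_mul_of_nonneg_left k1 hb
  linarith

/-! ### one class at a time -/

lemma So_comm (f g : J → ℝ) : So c f g = So c g f := by
  unfold So
  rw [Finset.sum_comm]
  refine Finset.sum_congr rfl fun j _ => Finset.sum_congr rfl fun j' _ => ?_
  by_cases h : j = j'
  · subst h; simp
  · rw [if_neg h, if_neg (Ne.symm h), min_comm, mul_comm (c j') (c j)]

/-- **F4, two classes** -/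
lemma PD_split2 (c0 : ∀ j, 0 ≤ c j) (c1 : ∑ j, c j ≤ 1) (hb : 0 ≤ b) (hA : 2 * b ≤ A)
    {x R : J → ℝ} (hx : ∀ j, 0 ≤ x j) (hR : ∀ j, 0 ≤ R j) :
    PD A b c x + PD A b c R ≤ PD A b c (fun j => R j + x j) + 2 * b * So c x R := by
  classical
  have h := PD_split (κ := Bool) c0 c1 hb hA (f := fun k => if k then x else R) (fun k j => by
    cases k
    · exact hR j
    · exact hx j)
  rw [Fintype.sum_bool] at h
  have e1 : (fun j => ∑ k : Bool, (if k = true then x else R) j) = fun j => R j + x j := by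
    funext j
    rw [Fintype.sum_bool]
    simp only [if_true, Bool.false_eq_true, if_false]
    ring
  have e2 : Xo c (fun k : Bool => if k = true then x else R) = 2 * So c x R := by
    unfold Xo
    rw [Fintype.sum_bool, Fintype.sum_bool, Fintype.sum_bool]
    simp only [if_true, Bool.false_eq_true, if_false, reduceCtorEq]
    rw [So_comm R x]
    ring
  rw [e1, e2] at h
  simp only [if_true, Bool.false_eq_true, if_false] at h
  linarith

/-- in-member coexistence -/
noncomputable def mq (x y : ℝ) : ℝ := min x y * Real.sqrt (x + y)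

lemma mq_mono {x y z : ℝ} (hx : 0 ≤ x) (hy : 0 ≤ y) (h : y ≤ z) : mq x y ≤ mq x z :=
  mul_le_mul (min_le_min le_rfl h) (Real.sqrt_le_sqrt (by linarith)) (Real.sqrt_nonneg _)
    (le_min hx (hy.trans h))

lemma mq_nonneg {x y : ℝ} (hx : 0 ≤ x) (hy : 0 ≤ y) : 0 ≤ mq x y :=
  mul_nonneg (le_min hx hy) (Real.sqrt_nonneg _)

lemma th_merge {x y : ℝ} (hx : 0 ≤ x) (hy : 0 ≤ y) :
    th (x + y) ≤ th x + th y + 3 / 2 * mq y x := by
  unfold mq
  have nx := th_nonneg hx
  have ny := th_nonneg hy
  rcases le_total x y with h | h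
  · rw [min_eq_right h]
    have := th_own hy hx
    rw [add_comm x y]
    linarith
  · rw [min_eq_left h]
    have := th_own hx hy
    rw [add_comm y x]
    linarith

/-- **F3, two classes** -/
lemma PD_merge2 (c0 : ∀ j, 0 ≤ c j) (hb : 0 ≤ b) (hA : 0 ≤ A)
    {x R : J → ℝ} (hx : ∀ j, 0 ≤ x j) (hR : ∀ j, 0 ≤ R j) :
    PD A b c (fun j => R j + x j) ≤ PD A b c R + PD A b c x +
      3 / 2 * A * M c (fun j => mq (x j) (R j)) := by
  classical
  have h := PD_merge (κ := Bool) (A := A) c0 hb (f := fun k => if k then x else R) (fun k j => by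
    cases k
    · exact hR j
    · exact hx j)
  rw [Fintype.sum_bool] at h
  have e1 : (fun j => ∑ k : Bool, (if k = true then x else R) j) = fun j => R j + x j := by
    funext j
    rw [Fintype.sum_bool]
    simp only [if_true, Bool.false_eq_true, if_false]
    ring
  have e3 : M c (fun j => th (∑ k : Bool, (if k = true then x else R) j) -
      ∑ k : Bool, th ((if k = true then x else R) j)) ≤ 3 / 2 * M c (fun j => mq (x j) (R j)) := by
    rw [← M_smul]
    refine M_mono c0 fun j => ?_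
    rw [Fintype.sum_bool, Fintype.sum_bool]
    simp only [if_true, Bool.false_eq_true, if_false]
    have := th_merge (hR j) (hx j)
    have e : x j + R j = R j + x j := add_comm _ _
    rw [e]
    linarith
  rw [e1] at h
  simp only [if_true, Bool.false_eq_true, if_false] at h
  have := mul_le_mul_of_nonneg_left e3 hA
  linarith

section fin
variable {κ : Type*} [DecidableEq κ]

/-- **classes split off one at a time** -/
lemma split_fin (c0 : ∀ j, 0 ≤ c j) (c1 : ∑ j, c j ≤ 1) (hb : 0 ≤ b) (hA : 2 * b ≤ A)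
    {x T : κ → J → ℝ} {R : J → ℝ} (hx : ∀ k j, 0 ≤ x k j) (hR : ∀ j, 0 ≤ R j) (s : Finset κ)
    (hT : ∀ k ∈ s, ∀ j, R j + ∑ l ∈ s.erase k, x l j ≤ T k j) :
    ∑ k ∈ s, PD A b c (x k) + PD A b c R ≤ PD A b c (fun j => R j + ∑ k ∈ s, x k j) +
      2 * b * ∑ k ∈ s, So c (x k) (T k) := by
  induction s using Finset.induction_on with
  | empty => simp
  | insert k s hk ih =>
    have h1 := ih fun l hl j => by
      refine le_trans ?_ (hT l (Finset.mem_insert_of_mem hl) j)
      refine add_le_add le_rfl (Finset.sum_le_sum_of_subset_of_nonneg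
        (Finset.erase_subset_erase _ (Finset.subset_insert _ _)) fun i _ _ => hx i j)
    have Q0 : ∀ j, 0 ≤ R j + ∑ l ∈ s, x l j := fun j =>
      add_nonneg (hR j) (Finset.sum_nonneg fun l _ => hx l j)
    have h2 := PD_split2 c0 c1 hb hA (hx k) Q0
    have h3 : So c (x k) (fun j => R j + ∑ l ∈ s, x l j) ≤ So c (x k) (T k) :=
      So_mono c0 (hx k) Q0 (fun _ => le_rfl) fun j => by
        have := hT k (Finset.mem_insert_self k s) j
        rwa [Finset.erase_insert hk] at this
    have h4 := mul_le_mul_of_nonneg_left h3 (show 0 ≤ 2 * b by linarith)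
    rw [Finset.sum_insert hk, Finset.sum_insert hk]
    have e : (fun j => R j + ∑ l ∈ insert k s, x l j) =
        fun j => R j + ∑ l ∈ s, x l j + x k j := by
      funext j
      rw [Finset.sum_insert hk]
      ring
    rw [e]
    linarith

/-- **classes joined one at a time** -/
lemma merge_fin (c0 : ∀ j, 0 ≤ c j) (hb : 0 ≤ b) (hA : 0 ≤ A)
    {x T : κ → J → ℝ} {R : J → ℝ} (hx : ∀ k j, 0 ≤ x k j) (hR : ∀ j, 0 ≤ R j) (s : Finset κ)
    (hT : ∀ k ∈ s, ∀ j, R j + ∑ l ∈ s.erase k, x l j ≤ T k j) :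
    PD A b c (fun j => R j + ∑ k ∈ s, x k j) ≤ PD A b c R + ∑ k ∈ s, PD A b c (x k) +
      3 / 2 * A * ∑ k ∈ s, M c (fun j => mq (x k j) (T k j)) := by
  induction s using Finset.induction_on with
  | empty => simp
  | insert k s hk ih =>
    have h1 := ih fun l hl j => by
      refine le_trans ?_ (hT l (Finset.mem_insert_of_mem hl) j)
      refine add_le_add le_rfl (Finset.sum_le_sum_of_subset_of_nonneg
        (Finset.erase_subset_erase _ (Finset.subset_insert _ _)) fun i _ _ => hx i j)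
    have Q0 : ∀ j, 0 ≤ R j + ∑ l ∈ s, x l j := fun j =>
      add_nonneg (hR j) (Finset.sum_nonneg fun l _ => hx l j)
    have h2 := PD_merge2 (b := b) c0 hb hA (hx k) Q0
    have h3 : M c (fun j => mq (x k j) (R j + ∑ l ∈ s, x l j)) ≤
        M c (fun j => mq (x k j) (T k j)) := M_mono c0 fun j => by
      refine mq_mono (hx k j) (Q0 j) ?_
      have := hT k (Finset.mem_insert_self k s) j
      rwa [Finset.erase_insert hk] at this
    have h4 := mul_le_mul_of_nonneg_left h3 (show 0 ≤ 3 / 2 * A by linarith)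
    rw [Finset.sum_insert hk, Finset.sum_insert hk]
    have e : (fun j => R j + ∑ l ∈ insert k s, x l j) =
        fun j => R j + ∑ l ∈ s, x l j + x k j := by
      funext j
      rw [Finset.sum_insert hk]
      ring
    rw [e]
    linarith

/-- at most one content -/
lemma PD_single {x : κ → J → ℝ} (s : Finset κ)
    (h : ∀ k ∈ s, ∀ l ∈ s, x k ≠ 0 → x l ≠ 0 → k = l) :
    PD A b c (fun j => ∑ k ∈ s, x k j) = ∑ k ∈ s, PD A b c (x k) := by
  by_cases he : ∃ k ∈ s, x k ≠ 0
  · obtain ⟨k, hk, hk0⟩ := he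
    have hz : ∀ l ∈ s, l ≠ k → x l = 0 := fun l hl hlk => by
      by_contra h0
      exact hlk (h l hl k hk h0 hk0)
    rw [Finset.sum_eq_single_of_mem k hk fun l hl hlk => by
      rw [hz l hl hlk]; exact PD_zero]
    congr 1
    funext j
    exact Finset.sum_eq_single_of_mem k hk fun l hl hlk => by
      rw [hz l hl hlk]; rfl
  · push Not at he
    have e : (fun j => ∑ k ∈ s, x k j) = fun _ => (0:ℝ) := by
      funext j
      exact Finset.sum_eq_zero fun k hk => by rw [he k hk]; rfl
    rw [e, PD_zero]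
    symm
    refine Finset.sum_eq_zero fun k hk => ?_
    rw [he k hk]
    exact PD_zero

end fin

section rows
variable {κ : Type*} [Fintype κ] [DecidableEq κ] {Ev : κ → Prop}

open Classical in
/-- **one class above, several classes below** -/
lemma row_step (c0 : ∀ j, 0 ≤ c j) (hb : 0 ≤ b) (hA : 0 ≤ A) {x : κ → J → ℝ}
    (hx : ∀ k j, 0 ≤ x k j) (h1 : ∀ k l, ¬ Ev k → ¬ Ev l → x k ≠ 0 → x l ≠ 0 → k = l) :
    PD A b c (fun j => ∑ k, x k j) ≤ ∑ k, PD A b c (x k) +
      3 / 2 * A * ∑ k ∈ Finset.univ.filter Ev,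
        M c (fun j => mq (x k j) (∑ l ∈ Finset.univ.erase k, x l j)) := by
  set R : J → ℝ := fun j => ∑ k ∈ Finset.univ.filter (fun k => ¬ Ev k), x k j with hR
  have R0 : ∀ j, 0 ≤ R j := fun j => Finset.sum_nonneg fun k _ => hx k j
  have key := merge_fin (b := b) c0 hb hA (x := x)
    (T := fun k j => ∑ l ∈ Finset.univ.erase k, x l j) (R := R) hx R0
    (Finset.univ.filter Ev) (fun k hk j => by
      have hk' : Ev k := (Finset.mem_filter.1 hk).2
      have hd : Disjoint (Finset.univ.filter (fun k => ¬ Ev k)) ((Finset.univ.filter Ev).erase k) := by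
        rw [Finset.disjoint_left]
        intro a ha hb'
        exact (Finset.mem_filter.1 ha).2 (Finset.mem_filter.1 (Finset.mem_of_mem_erase hb')).2
      show R j + _ ≤ _
      rw [hR]
      show ∑ k ∈ Finset.univ.filter (fun k => ¬ Ev k), x k j + _ ≤ _
      rw [← Finset.sum_union hd]
      refine Finset.sum_le_sum_of_subset_of_nonneg (fun a ha => ?_) fun i _ _ => hx i j
      rw [Finset.mem_erase]
      refine ⟨fun e => ?_, Finset.mem_univ _⟩
      subst e
      rcases Finset.mem_union.1 ha with h | h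
      · exact (Finset.mem_filter.1 h).2 hk'
      · exact Finset.notMem_erase _ _ h)
  have e1 : (fun j => R j + ∑ k ∈ Finset.univ.filter Ev, x k j) = fun j => ∑ k, x k j := by
    funext j
    rw [hR]
    have := Finset.sum_filter_add_sum_filter_not Finset.univ Ev fun k => x k j
    show ∑ k ∈ Finset.univ.filter (fun k => ¬ Ev k), x k j + _ = _
    linarith
  have e2 : PD A b c R = ∑ k ∈ Finset.univ.filter (fun k => ¬ Ev k), PD A b c (x k) :=
    PD_single _ fun k hk l hl => h1 k l (Finset.mem_filter.1 hk).2 (Finset.mem_filter.1 hl).2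
  have e3 := Finset.sum_filter_add_sum_filter_not Finset.univ Ev fun k => PD A b c (x k)
  rw [e1, e2] at key
  linarith

open Classical in
/-- **one class below, several classes above** -/
lemma col_step0 (c0 : ∀ j, 0 ≤ c j) (c1 : ∑ j, c j ≤ 1) (hb : 0 ≤ b) (hA : 2 * b ≤ A)
    {x : κ → J → ℝ}
    (hx : ∀ k j, 0 ≤ x k j) (h1 : ∀ k l, ¬ Ev k → ¬ Ev l → x k ≠ 0 → x l ≠ 0 → k = l) :
    ∑ k, PD A b c (x k) ≤ PD A b c (fun j => ∑ k, x k j) +
      2 * b * ∑ k ∈ Finset.univ.filter Ev,
        So c (x k) (fun j => ∑ l ∈ Finset.univ.erase k, x l j) := by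
  set R : J → ℝ := fun j => ∑ k ∈ Finset.univ.filter (fun k => ¬ Ev k), x k j with hR
  have R0 : ∀ j, 0 ≤ R j := fun j => Finset.sum_nonneg fun k _ => hx k j
  have key := split_fin c0 c1 hb hA (x := x)
    (T := fun k j => ∑ l ∈ Finset.univ.erase k, x l j) (R := R) hx R0
    (Finset.univ.filter Ev) (fun k hk j => by
      have hk' : Ev k := (Finset.mem_filter.1 hk).2
      have hd : Disjoint (Finset.univ.filter (fun k => ¬ Ev k)) ((Finset.univ.filter Ev).erase k) := by
        rw [Finset.disjoint_left]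
        intro a ha hb'
        exact (Finset.mem_filter.1 ha).2 (Finset.mem_filter.1 (Finset.mem_of_mem_erase hb')).2
      show R j + _ ≤ _
      rw [hR]
      show ∑ k ∈ Finset.univ.filter (fun k => ¬ Ev k), x k j + _ ≤ _
      rw [← Finset.sum_union hd]
      refine Finset.sum_le_sum_of_subset_of_nonneg (fun a ha => ?_) fun i _ _ => hx i j
      rw [Finset.mem_erase]
      refine ⟨fun e => ?_, Finset.mem_univ _⟩
      subst e
      rcases Finset.mem_union.1 ha with h | h
      · exact (Finset.mem_filter.1 h).2 hk'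
      · exact Finset.notMem_erase _ _ h)
  have e1 : (fun j => R j + ∑ k ∈ Finset.univ.filter Ev, x k j) = fun j => ∑ k, x k j := by
    funext j
    rw [hR]
    have := Finset.sum_filter_add_sum_filter_not Finset.univ Ev fun k => x k j
    show ∑ k ∈ Finset.univ.filter (fun k => ¬ Ev k), x k j + _ = _
    linarith
  have e2 : PD A b c R = ∑ k ∈ Finset.univ.filter (fun k => ¬ Ev k), PD A b c (x k) :=
    PD_single _ fun k hk l hl => h1 k l (Finset.mem_filter.1 hk).2 (Finset.mem_filter.1 hl).2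
  have e3 := Finset.sum_filter_add_sum_filter_not Finset.univ Ev fun k => PD A b c (x k)
  rw [e1, e2] at key
  linarith

open Classical in
/-- **one class below (truncated), several classes above** -/
lemma col_step (c0 : ∀ j, 0 ≤ c j) (c1 : ∑ j, c j ≤ 1) (hb : 0 ≤ b) (hA : 2 * b ≤ A) {σ : ℝ}
    (hσ : 0 < σ) {x : κ → J → ℝ} (hx : ∀ k j, 0 ≤ x k j) (hs : ∀ k j, x k j ≤ σ)
    (h1 : ∀ k l, ¬ Ev k → ¬ Ev l → x k ≠ 0 → x l ≠ 0 → k = l) :
    ∑ k, PD A b c (x k) ≤ PD A b c (fun j => min (∑ k, x k j) σ) +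
      3 / 2 * A * Real.sqrt σ * M c (fun j => ∑ k, x k j - min (∑ k, x k j) σ) +
      2 * b * ∑ k ∈ Finset.univ.filter Ev,
        So c (x k) (fun j => ∑ l ∈ Finset.univ.erase k, x l j) := by
  -- scaled contents
  set T : J → ℝ := fun j => ∑ k, x k j with hT
  have T0 : ∀ j, 0 ≤ T j := fun j => Finset.sum_nonneg fun k _ => hx k j
  set lam : J → ℝ := fun j => if T j = 0 then 0 else min (T j) σ / T j with hlam
  have l0 : ∀ j, 0 ≤ lam j := fun j => by
    simp only [hlam]
    split_ifs
    · exact le_rfl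
    · exact div_nonneg (le_min (T0 j) hσ.le) (T0 j)
  have l1 : ∀ j, lam j ≤ 1 := fun j => by
    simp only [hlam]
    split_ifs with h
    · exact zero_le_one
    · exact (div_le_one (lt_of_le_of_ne (T0 j) (Ne.symm h))).2 (min_le_left _ _)
  have lT : ∀ j, lam j * T j = min (T j) σ := fun j => by
    simp only [hlam]
    split_ifs with h
    · rw [h, zero_mul, min_eq_left hσ.le]
    · exact div_mul_cancel₀ _ h
  set g : κ → J → ℝ := fun k j => lam j * x k j with hg
  have g0 : ∀ k j, 0 ≤ g k j := fun k j => mul_nonneg (l0 j) (hx k j)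
  have gx : ∀ k j, g k j ≤ x k j := fun k j => by
    have := mul_le_mul_of_nonneg_right (l1 j) (hx k j)
    simpa [hg] using this
  have gs : ∀ j, ∑ k, g k j = min (T j) σ := fun j => by
    rw [← lT j, hg, hT]
    simp only [Finset.mul_sum]
  have h2 := col_step0 (Ev := Ev) c0 c1 hb hA g0 fun k l hk hl a1 a2 => h1 k l hk hl
    (fun e => a1 (funext fun j => by
      show lam j * x k j = 0
      rw [e]; exact mul_zero _))
    (fun e => a2 (funext fun j => by
      show lam j * x l j = 0
      rw [e]; exact mul_zero _))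
  have e1 : (fun j => ∑ k, g k j) = fun j => min (T j) σ := funext gs
  rw [e1] at h2
  have h3 : ∑ k ∈ Finset.univ.filter Ev, So c (g k) (fun j => ∑ l ∈ Finset.univ.erase k, g l j) ≤
      ∑ k ∈ Finset.univ.filter Ev, So c (x k) (fun j => ∑ l ∈ Finset.univ.erase k, x l j) :=
    Finset.sum_le_sum fun k _ => So_mono c0 (g0 k)
      (fun j => Finset.sum_nonneg fun l _ => g0 l j) (gx k)
      fun j => Finset.sum_le_sum fun l _ => gx l j
  have h4 := mul_le_mul_of_nonneg_left h3 (show 0 ≤ 2 * b by linarith)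
  have hA0 : 0 ≤ A := by linarith
  have h5 : ∑ k, PD A b c (x k) ≤ ∑ k, (PD A b c (g k) +
      3 / 2 * A * Real.sqrt σ * M c (fun j => x k j - g k j)) :=
    Finset.sum_le_sum fun k _ => PD_lip' c0 hb hA0 (g0 k) (gx k) (hs k)
  rw [Finset.sum_add_distrib, ← Finset.mul_sum, ← M_sum] at h5
  have e2 : (fun j => ∑ k, (x k j - g k j)) = fun j => T j - min (T j) σ := by
    funext j
    rw [Finset.sum_sub_distrib, gs j]
  rw [e2] at h5
  have e3 : (fun j => ∑ k, x k j - min (∑ k, x k j) σ) = fun j => T j - min (T j) σ := rfl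
  have e4 : (fun j => min (∑ k, x k j) σ) = fun j => min (T j) σ := rfl
  rw [e3, e4]
  linarith

end rows

/-! ### forms with a parameter `θ` -/

/-- in-member coexistence against the product -/
lemma mq_th {x y σ θ : ℝ} (hx : 0 ≤ x) (hy : 0 ≤ y) (hσ : 0 ≤ σ) (hθ : 0 < θ) :
    Real.sqrt σ * mq x y ≤ θ / 2 * (σ * x) + x * y / θ := by
  unfold mq
  have hu : 0 ≤ Real.sqrt σ := Real.sqrt_nonneg _
  have hv : 0 ≤ Real.sqrt (x + y) := Real.sqrt_nonneg _
  have eu : Real.sqrt σ ^ 2 = σ := Real.sq_sqrt hσ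
  have ev : Real.sqrt (x + y) ^ 2 = x + y := Real.sq_sqrt (by linarith)
  set u := Real.sqrt σ
  set v := Real.sqrt (x + y)
  have m0 : 0 ≤ min x y := le_min hx hy
  have mx : min x y ≤ x := min_le_left _ _
  have my : min x y ≤ y := min_le_right _ _
  have k1 : u * v ≤ (θ * σ + (x + y) / θ) / 2 := by
    have h1 : 0 ≤ (θ * u - v) ^ 2 / θ := div_nonneg (sq_nonneg _) hθ.le
    have e1 : (θ * u - v) ^ 2 / θ = θ * u ^ 2 - 2 * (u * v) + v ^ 2 / θ := by
      field_simp
      ring
    rw [e1, eu, ev] at h1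
    linarith
  have k2 : min x y * (x + y) ≤ 2 * (x * y) := by
    have a1 := mul_le_mul_of_nonneg_right my hx
    have a2 := mul_le_mul_of_nonneg_right mx hy
    nlinarith
  have k3 : min x y * (u * v) ≤ min x y * ((θ * σ + (x + y) / θ) / 2) :=
    mul_le_mul_of_nonneg_left k1 m0
  have k4 : min x y * (θ * σ) ≤ x * (θ * σ) :=
    mul_le_mul_of_nonneg_right mx (mul_nonneg hθ.le hσ)
  have k5 : min x y * ((x + y) / θ) ≤ 2 * (x * y) / θ := by
    rw [← mul_div_assoc]
    exact div_le_div_of_nonneg_right k2 hθ.le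
  have e2 : u * (min x y * v) = min x y * (u * v) := by ring
  have e3 : 2 * (x * y) / θ = 2 * (x * y / θ) := by ring
  rw [e2]
  rw [e3] at k5
  nlinarith

/-- cross-member coexistence against the product -/
lemma th_th {x y σ θ : ℝ} (hx : 0 ≤ x) (hy : 0 ≤ y) (hσ : 0 ≤ σ) (hθ : 0 < θ) :
    Real.sqrt σ * th (min x y) ≤ θ / 2 * (σ * x) + x * y / (2 * θ) := by
  unfold th
  have hu : 0 ≤ Real.sqrt σ := Real.sqrt_nonneg _
  have m0 : 0 ≤ min x y := le_min hx hy
  have mx : min x y ≤ x := min_le_left _ _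
  have my : min x y ≤ y := min_le_right _ _
  have hv : 0 ≤ Real.sqrt (min x y) := Real.sqrt_nonneg _
  have eu : Real.sqrt σ ^ 2 = σ := Real.sq_sqrt hσ
  have ev : Real.sqrt (min x y) ^ 2 = min x y := Real.sq_sqrt m0
  have k1 : Real.sqrt σ * Real.sqrt (min x y) ≤ (θ * σ + min x y / θ) / 2 := by
    have h1 : 0 ≤ (θ * Real.sqrt σ - Real.sqrt (min x y)) ^ 2 / θ :=
      div_nonneg (sq_nonneg _) hθ.le
    have e1 : (θ * Real.sqrt σ - Real.sqrt (min x y)) ^ 2 / θ =
        θ * Real.sqrt σ ^ 2 - 2 * (Real.sqrt σ * Real.sqrt (min x y)) +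
          Real.sqrt (min x y) ^ 2 / θ := by
      field_simp
      ring
    rw [e1, eu, ev] at h1
    linarith
  set m := min x y
  have k3 : m * (Real.sqrt σ * Real.sqrt m) ≤ m * ((θ * σ + m / θ) / 2) :=
    mul_le_mul_of_nonneg_left k1 m0
  have k4 : m * (θ * σ) ≤ x * (θ * σ) :=
    mul_le_mul_of_nonneg_right mx (mul_nonneg hθ.le hσ)
  have k5 : m * (m / θ) ≤ x * y / θ := by
    rw [← mul_div_assoc]
    exact div_le_div_of_nonneg_right (mul_le_mul mx my m0 hx) hθ.le
  have e3 : x * y / (2 * θ) = x * y / θ / 2 := by field_simp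
  rw [e3]
  nlinarith

open Classical in
/-- product energy of different members -/
noncomputable def Eo (c : J → ℝ) (f g : J → ℝ) : ℝ :=
  ∑ j, ∑ j', if j = j' then 0 else c j * c j' * (f j * g j')

lemma Eo_mono (c0 : ∀ j, 0 ≤ c j) {f g f' g' : J → ℝ} (hf : ∀ j, 0 ≤ f j) (hg : ∀ j, 0 ≤ g j)
    (h1 : ∀ j, f j ≤ f' j) (h2 : ∀ j, g j ≤ g' j) : Eo c f g ≤ Eo c f' g' :=
  Finset.sum_le_sum fun j _ => Finset.sum_le_sum fun j' _ => by
    split_ifs
    · exact le_rfl
    · exact mul_le_mul_of_nonneg_left (mul_le_mul (h1 j) (h2 j') (hg j')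
        ((hf j).trans (h1 j))) (mul_nonneg (c0 j) (c0 j'))

lemma Eo_nonneg (c0 : ∀ j, 0 ≤ c j) {f g : J → ℝ} (hf : ∀ j, 0 ≤ f j) (hg : ∀ j, 0 ≤ g j) :
    0 ≤ Eo c f g :=
  Finset.sum_nonneg fun j _ => Finset.sum_nonneg fun j' _ => by
    split_ifs
    · exact le_rfl
    · exact mul_nonneg (mul_nonneg (c0 j) (c0 j')) (mul_nonneg (hf j) (hg j'))

/-- **the cross price with a parameter** -/
lemma So_th (c0 : ∀ j, 0 ≤ c j) (c1 : ∑ j, c j ≤ 1) {σ θ : ℝ} (hσ : 0 ≤ σ) (hθ : 0 < θ)
    {x R : J → ℝ} (hx : ∀ j, 0 ≤ x j) (hR : ∀ j, 0 ≤ R j) :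
    Real.sqrt σ * So c x R ≤ θ / 2 * (σ * M c x) + Eo c x R / (2 * θ) := by
  classical
  have k1 : Real.sqrt σ * So c x R ≤ ∑ j, ∑ j', (c j * c j' * (θ / 2 * (σ * x j)) +
      (if j = j' then 0 else c j * c j' * (x j * R j')) / (2 * θ)) := by
    unfold So
    rw [Finset.mul_sum]
    refine Finset.sum_le_sum fun j _ => ?_
    rw [Finset.mul_sum]
    refine Finset.sum_le_sum fun j' _ => ?_
    have cc := mul_nonneg (c0 j) (c0 j')
    have n1 : 0 ≤ c j * c j' * (θ / 2 * (σ * x j)) :=
      mul_nonneg cc (mul_nonneg (by linarith) (mul_nonneg hσ (hx j)))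
    split_ifs with h
    · simpa using n1
    · have h2 := mul_le_mul_of_nonneg_left (th_th (hx j) (hR j') hσ hθ) cc
      have e : c j * c j' * (x j * R j') / (2 * θ) = c j * c j' * (x j * R j' / (2 * θ)) := by
        ring
      rw [e]
      have e2 : Real.sqrt σ * (c j * c j' * th (min (x j) (R j'))) =
        c j * c j' * (Real.sqrt σ * th (min (x j) (R j'))) := by ring
      rw [e2]
      linarith
  refine k1.trans ?_
  simp only [Finset.sum_add_distrib, ← Finset.sum_div]
  refine add_le_add ?_ le_rfl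
  have e1 : ∑ j, ∑ j', c j * c j' * (θ / 2 * (σ * x j)) = θ / 2 * (σ * M c x) * ∑ j, c j := by
    have e0 : ∀ j, ∑ j', c j * c j' * (θ / 2 * (σ * x j)) =
        (θ / 2 * σ * (c j * x j)) * ∑ j', c j' := fun j => by
      rw [Finset.mul_sum]
      exact Finset.sum_congr rfl fun j' _ => by ring
    simp only [e0, ← Finset.sum_mul, ← Finset.mul_sum]
    unfold M
    ring
  rw [e1]
  have n2 : 0 ≤ θ / 2 * (σ * M c x) :=
    mul_nonneg (by linarith) (mul_nonneg hσ (M_nonneg c0 hx))
  have := mul_le_mul_of_nonneg_left c1 n2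
  linarith

/-- sum of the products with the others -/
lemma sum_others {κ : Type*} [Fintype κ] [DecidableEq κ] (u v : κ → ℝ) :
    ∑ k, u k * ∑ l ∈ Finset.univ.erase k, v l = (∑ k, u k) * (∑ k, v k) - ∑ k, u k * v k := by
  have h : ∀ k, ∑ l ∈ Finset.univ.erase k, v l = ∑ l, v l - v k := fun k => by
    have := Finset.add_sum_erase Finset.univ v (Finset.mem_univ k)
    linarith
  simp only [h, mul_sub, Finset.sum_sub_distrib, ← Finset.sum_mul]

end pot

/-! ### the flow -/

section flow
variable {J δ δ' : Type*} [Fintype J] [Fintype δ] [Fintype δ'] [DecidableEq δ] [DecidableEq δ']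
  {c : J → ℝ} {A b σ θ : ℝ} {f : δ → δ' → J → ℝ} {Ev : δ → δ' → Prop}

/-- in-member product energy: flows of one class above -/
noncomputable def Ein (c : J → ℝ) (f : δ → δ' → J → ℝ) : ℝ :=
  M c fun j => ∑ z, ((∑ z', f z z' j) ^ 2 - ∑ z', f z z' j ^ 2)

open Classical in
/-- cross-member product energy: flows into one class below -/
noncomputable def Ecr (c : J → ℝ) (f : δ → δ' → J → ℝ) : ℝ :=
  ∑ j, ∑ j', if j = j' then 0 else c j * c j' *
    ∑ z', ((∑ z, f z z' j) * (∑ z, f z z' j') - ∑ z, f z z' j * f z z' j')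

open Classical in
/-- changing content -/
noncomputable def Mv (c : J → ℝ) (Ev : δ → δ' → Prop) (f : δ → δ' → J → ℝ) : ℝ :=
  M c fun j => ∑ z, ∑ z', if Ev z z' then f z z' j else 0

open Classical in
lemma Mv_eq (Ev : δ → δ' → Prop) (f : δ → δ' → J → ℝ) :
    Mv c Ev f = ∑ z, ∑ z', if Ev z z' then M c (f z z') else 0 := by
  unfold Mv
  rw [M_sum]
  refine Finset.sum_congr rfl fun z _ => ?_
  rw [M_sum]
  refine Finset.sum_congr rfl fun z' _ => ?_
  split_ifs
  · rfl
  · simp [M]

/-- the truncated sum -/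
lemma min_sum_min {κ : Type*} [Fintype κ] {x : κ → ℝ} (hx : ∀ k, 0 ≤ x k) (hσ : 0 ≤ σ) :
    min (∑ k, min (x k) σ) σ = min (∑ k, x k) σ := by
  by_cases h : ∀ k, x k ≤ σ
  · rw [Finset.sum_congr rfl fun k _ => min_eq_left (h k)]
  · push Not at h
    obtain ⟨k, hk⟩ := h
    have h1 : σ ≤ ∑ k, x k :=
      hk.le.trans (Finset.single_le_sum (fun k _ => hx k) (Finset.mem_univ k))
    have h2 : σ ≤ ∑ k, min (x k) σ := by
      have := Finset.single_le_sum (f := fun k => min (x k) σ)
        (fun k _ => le_min (hx k) hσ) (Finset.mem_univ k)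
      refine le_trans (le_of_eq ?_) this
      show σ = min (x k) σ
      rw [min_eq_right hk.le]
    rw [min_eq_right h1, min_eq_right h2]

/-- **the class change of the dual potential** -/
theorem flow (c0 : ∀ j, 0 ≤ c j) (c1 : ∑ j, c j ≤ 1) (hb : 0 ≤ b) (hA : 2 * b ≤ A) (hσ : 0 < σ)
    (hθ : 0 < θ) (hf : ∀ z z' j, 0 ≤ f z z' j)
    (hr : ∀ z k l, ¬ Ev z k → ¬ Ev z l → f z k ≠ 0 → f z l ≠ 0 → k = l)
    (hc : ∀ z' k l, ¬ Ev k z' → ¬ Ev l z' → f k z' ≠ 0 → f l z' ≠ 0 → k = l) :
    Real.sqrt σ * ∑ z, PD A b c (fun j => min (∑ z', f z z' j) σ) ≤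
      Real.sqrt σ * ∑ z', PD A b c (fun j => min (∑ z, f z z' j) σ) +
      3 / 2 * A * (σ * (M c (fun j => ∑ z, ∑ z', min (f z z' j) σ) -
        SS c (fun z' j => min (∑ z, f z z' j) σ))) +
      (3 / 4 * A + b) * (θ * (σ * Mv c Ev f)) +
      (3 / 2 * A * Ein c f + b * Ecr c f) / θ := by
  classical
  have hA0 : 0 ≤ A := by linarith
  set t : δ → δ' → J → ℝ := fun z z' j => min (f z z' j) σ with ht
  have t0 : ∀ z z' j, 0 ≤ t z z' j := fun z z' j => le_min (hf z z' j) hσ.le
  have tf : ∀ z z' j, t z z' j ≤ f z z' j := fun z z' j => min_le_left _ _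
  have ts : ∀ z z' j, t z z' j ≤ σ := fun z z' j => min_le_right _ _
  have tz : ∀ z z', t z z' ≠ 0 → f z z' ≠ 0 := fun z z' h e => h (by
    funext j
    show min (f z z' j) σ = 0
    rw [e]
    exact min_eq_left hσ.le)
  have sq : Real.sqrt σ * Real.sqrt σ = σ := Real.mul_self_sqrt hσ.le
  have s0 : 0 ≤ Real.sqrt σ := Real.sqrt_nonneg _
  -- rows
  have R1 : ∀ z, PD A b c (fun j => min (∑ z', f z z' j) σ) ≤ ∑ z', PD A b c (t z z') +
      3 / 2 * A * ∑ z' ∈ Finset.univ.filter (Ev z),
        M c (fun j => mq (t z z' j) (∑ l ∈ Finset.univ.erase z', t z l j)) := by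
    intro z
    refine le_trans ?_ (row_step (Ev := Ev z) c0 hb hA0 (x := fun z' => t z z')
      (fun z' j => t0 z z' j) fun k l hk hl h1 h2 => hr z k l hk hl (tz z k h1) (tz z l h2))
    refine PD_mono c0 c1 hb hA (fun j => le_min
      (Finset.sum_nonneg fun z' _ => hf z z' j) hσ.le) fun j => ?_
    exact min_sum_le hσ.le fun z' _ => hf z z' j
  -- columns
  have C1 : ∀ z', ∑ z, PD A b c (t z z') ≤ PD A b c (fun j => min (∑ z, f z z' j) σ) +
      3 / 2 * A * Real.sqrt σ * M c (fun j => ∑ z, t z z' j - min (∑ z, f z z' j) σ) +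
      2 * b * ∑ z ∈ Finset.univ.filter (fun z => Ev z z'),
        So c (t z z') (fun j => ∑ l ∈ Finset.univ.erase z, t l z' j) := by
    intro z'
    have h := col_step (Ev := fun z => Ev z z') c0 c1 hb hA hσ (x := fun z => t z z')
      (fun z j => t0 z z' j) (fun z j => ts z z' j)
      fun k l hk hl h1 h2 => hc z' k l hk hl (tz k z' h1) (tz l z' h2)
    have e : (fun j => min (∑ z, t z z' j) σ) = fun j => min (∑ z, f z z' j) σ :=
      funext fun j => min_sum_min (fun z => hf z z' j) hσ.le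
    have e' : (fun j => ∑ z, t z z' j - min (∑ z, t z z' j) σ) =
        fun j => ∑ z, t z z' j - min (∑ z, f z z' j) σ :=
      funext fun j => by rw [min_sum_min (fun z => hf z z' j) hσ.le]
    rw [e, e'] at h
    exact h
  -- sums
  have R2 := Finset.sum_le_sum fun z (_ : z ∈ Finset.univ) => R1 z
  have C2 := Finset.sum_le_sum fun z' (_ : z' ∈ Finset.univ) => C1 z'
  rw [Finset.sum_add_distrib, ← Finset.mul_sum] at R2
  rw [Finset.sum_add_distrib, Finset.sum_add_distrib, ← Finset.mul_sum, ← Finset.mul_sum,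
    Finset.sum_comm] at C2
  -- the truncation term
  have L1 : ∑ z', M c (fun j => ∑ z, t z z' j - min (∑ z, f z z' j) σ) =
      M c (fun j => ∑ z, ∑ z', min (f z z' j) σ) - SS c (fun z' j => min (∑ z, f z z' j) σ) := by
    unfold SS
    rw [← M_sum]
    have e : (fun j => ∑ z', (∑ z, t z z' j - min (∑ z, f z z' j) σ)) =
        fun j => (∑ z, ∑ z', min (f z z' j) σ) - ∑ z', min (∑ z, f z z' j) σ := by
      funext j
      rw [Finset.sum_sub_distrib, Finset.sum_comm]
    rw [e, M_sub]
    congr 1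
    exact M_sum _ _
  rw [L1] at C2
  -- the in-member part
  have I1 : Real.sqrt σ * ∑ z, ∑ z' ∈ Finset.univ.filter (Ev z),
      M c (fun j => mq (t z z' j) (∑ l ∈ Finset.univ.erase z', t z l j)) ≤
      θ / 2 * (σ * Mv c Ev f) + Ein c f / θ := by
    have a1 : ∀ z z', Real.sqrt σ *
        M c (fun j => mq (t z z' j) (∑ l ∈ Finset.univ.erase z', t z l j)) ≤
        θ / 2 * (σ * M c (f z z')) +
          M c (fun j => f z z' j * ∑ l ∈ Finset.univ.erase z', f z l j) / θ := by
      intro z z'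
      have e1 : θ / 2 * (σ * M c (f z z')) +
          M c (fun j => f z z' j * ∑ l ∈ Finset.univ.erase z', f z l j) / θ =
          M c (fun j => θ / 2 * σ * f z z' j +
            1 / θ * (f z z' j * ∑ l ∈ Finset.univ.erase z', f z l j)) := by
        rw [M_add, M_smul, M_smul]
        ring
      rw [e1, ← M_smul]
      refine M_mono c0 fun j => ?_
      have n1 : 0 ≤ ∑ l ∈ Finset.univ.erase z', t z l j :=
        Finset.sum_nonneg fun l _ => t0 z l j
      have n2 : ∑ l ∈ Finset.univ.erase z', t z l j ≤ ∑ l ∈ Finset.univ.erase z', f z l j :=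
        Finset.sum_le_sum fun l _ => tf z l j
      have h1 := mq_th (t0 z z' j) n1 hσ.le hθ
      have h2 : t z z' j * ∑ l ∈ Finset.univ.erase z', t z l j ≤
          f z z' j * ∑ l ∈ Finset.univ.erase z', f z l j :=
        mul_le_mul (tf z z' j) n2 n1 (hf z z' j)
      have h3 := div_le_div_of_nonneg_right h2 hθ.le
      have h4 : θ / 2 * (σ * t z z' j) ≤ θ / 2 * σ * f z z' j := by
        have := mul_le_mul_of_nonneg_left (tf z z' j)
          (show 0 ≤ θ / 2 * σ from mul_nonneg (by linarith) hσ.le)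
        linarith
      have e3 : f z z' j * (∑ l ∈ Finset.univ.erase z', f z l j) / θ =
        1 / θ * (f z z' j * ∑ l ∈ Finset.univ.erase z', f z l j) := by ring
      rw [e3] at h3
      linarith
    have a2 : Real.sqrt σ * ∑ z, ∑ z' ∈ Finset.univ.filter (Ev z),
        M c (fun j => mq (t z z' j) (∑ l ∈ Finset.univ.erase z', t z l j)) ≤
        ∑ z, ∑ z', ((if Ev z z' then θ / 2 * (σ * M c (f z z')) else 0) +
          M c (fun j => f z z' j * ∑ l ∈ Finset.univ.erase z', f z l j) / θ) := by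
      rw [Finset.mul_sum]
      refine Finset.sum_le_sum fun z _ => ?_
      rw [Finset.sum_filter, Finset.mul_sum]
      refine Finset.sum_le_sum fun z' _ => ?_
      have n3 : 0 ≤ M c (fun j => f z z' j * ∑ l ∈ Finset.univ.erase z', f z l j) / θ :=
        div_nonneg (M_nonneg c0 fun j => mul_nonneg (hf z z' j)
          (Finset.sum_nonneg fun l _ => hf z l j)) hθ.le
      split_ifs
      · exact a1 z z'
      · linarith
    refine a2.trans (le_of_eq ?_)
    simp only [Finset.sum_add_distrib]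
    congr 1
    · rw [Mv_eq, Finset.mul_sum, Finset.mul_sum]
      refine Finset.sum_congr rfl fun z _ => ?_
      rw [Finset.mul_sum, Finset.mul_sum]
      refine Finset.sum_congr rfl fun z' _ => ?_
      split_ifs
      · rfl
      · ring
    · simp only [← Finset.sum_div]
      congr 1
      unfold Ein
      rw [M_sum]
      refine Finset.sum_congr rfl fun z _ => ?_
      rw [← M_sum]
      congr 1
      funext j
      have := sum_others (fun z' => f z z' j) fun z' => f z z' j
      rw [this]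
      have e : ∀ z', f z z' j * f z z' j = f z z' j ^ 2 := fun z' => by ring
      simp only [e]
      ring
  -- the cross part
  have X1 : Real.sqrt σ * ∑ z', ∑ z ∈ Finset.univ.filter (fun z => Ev z z'),
      So c (t z z') (fun j => ∑ l ∈ Finset.univ.erase z, t l z' j) ≤
      θ / 2 * (σ * Mv c Ev f) + Ecr c f / (2 * θ) := by
    have a1 : ∀ z z', Real.sqrt σ *
        So c (t z z') (fun j => ∑ l ∈ Finset.univ.erase z, t l z' j) ≤
        θ / 2 * (σ * M c (f z z')) +
          Eo c (f z z') (fun j => ∑ l ∈ Finset.univ.erase z, f l z' j) / (2 * θ) := by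
      intro z z'
      have n1 : ∀ j, 0 ≤ ∑ l ∈ Finset.univ.erase z, t l z' j := fun j =>
        Finset.sum_nonneg fun l _ => t0 l z' j
      have h1 := So_th c0 c1 hσ.le hθ (t0 z z') n1
      have h2 := Eo_mono c0 (t0 z z') n1 (tf z z')
        (fun j => Finset.sum_le_sum fun l _ => tf l z' j)
      have h3 := div_le_div_of_nonneg_right h2 (show 0 ≤ 2 * θ by linarith)
      have h4 : θ / 2 * (σ * M c (t z z')) ≤ θ / 2 * (σ * M c (f z z')) :=
        mul_le_mul_of_nonneg_left (mul_le_mul_of_nonneg_left (M_mono c0 (tf z z')) hσ.le)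
          (by linarith)
      linarith
    have a2 : Real.sqrt σ * ∑ z', ∑ z ∈ Finset.univ.filter (fun z => Ev z z'),
        So c (t z z') (fun j => ∑ l ∈ Finset.univ.erase z, t l z' j) ≤
        ∑ z', ∑ z, ((if Ev z z' then θ / 2 * (σ * M c (f z z')) else 0) +
          Eo c (f z z') (fun j => ∑ l ∈ Finset.univ.erase z, f l z' j) / (2 * θ)) := by
      rw [Finset.mul_sum]
      refine Finset.sum_le_sum fun z' _ => ?_
      rw [Finset.sum_filter, Finset.mul_sum]
      refine Finset.sum_le_sum fun z _ => ?_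
      have n3 : 0 ≤ Eo c (f z z') (fun j => ∑ l ∈ Finset.univ.erase z, f l z' j) / (2 * θ) :=
        div_nonneg (Eo_nonneg c0 (hf z z') fun j => Finset.sum_nonneg fun l _ => hf l z' j)
          (by linarith)
      split_ifs
      · exact a1 z z'
      · linarith
    refine a2.trans (le_of_eq ?_)
    simp only [Finset.sum_add_distrib]
    congr 1
    · rw [Finset.sum_comm, Mv_eq, Finset.mul_sum, Finset.mul_sum]
      refine Finset.sum_congr rfl fun z _ => ?_
      rw [Finset.mul_sum, Finset.mul_sum]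
      refine Finset.sum_congr rfl fun z' _ => ?_
      split_ifs
      · rfl
      · ring
    · simp only [← Finset.sum_div]
      congr 1
      unfold Ecr Eo
      have s3 : ∀ F : δ' → δ → J → J → ℝ, ∑ z', ∑ z, ∑ j, ∑ j', F z' z j j' =
          ∑ j, ∑ j', ∑ z', ∑ z, F z' z j j' := by
        intro F
        calc ∑ z', ∑ z, ∑ j, ∑ j', F z' z j j'
            = ∑ z', ∑ j, ∑ z, ∑ j', F z' z j j' :=
              Finset.sum_congr rfl fun k _ => Finset.sum_comm
          _ = ∑ j, ∑ z', ∑ z, ∑ j', F z' z j j' := Finset.sum_comm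
          _ = ∑ j, ∑ z', ∑ j', ∑ z, F z' z j j' :=
              Finset.sum_congr rfl fun j _ => Finset.sum_congr rfl fun k _ => Finset.sum_comm
          _ = ∑ j, ∑ j', ∑ z', ∑ z, F z' z j j' :=
              Finset.sum_congr rfl fun j _ => Finset.sum_comm
      rw [s3]
      refine Finset.sum_congr rfl fun j _ => Finset.sum_congr rfl fun j' _ => ?_
      by_cases h : j = j'
      · simp [h]
      · simp only [h, if_false]
        rw [Finset.mul_sum]
        refine Finset.sum_congr rfl fun z' _ => ?_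
        rw [← Finset.mul_sum]
        congr 1
        exact sum_others (fun z => f z z' j) fun z => f z z' j'
  -- assembly
  have R3 := mul_le_mul_of_nonneg_left R2 s0
  have C3 := mul_le_mul_of_nonneg_left C2 s0
  have I2 := mul_le_mul_of_nonneg_left I1 (show 0 ≤ 3 / 2 * A by linarith)
  have X2 := mul_le_mul_of_nonneg_left X1 (show 0 ≤ 2 * b by linarith)
  have e1 : (3 / 2 * A * Ein c f + b * Ecr c f) / θ =
      3 / 2 * A * (Ein c f / θ) + 2 * b * (Ecr c f / (2 * θ)) := by
    field_simp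
  have e2 : Real.sqrt σ * (3 / 2 * A * Real.sqrt σ * (M c (fun j => ∑ z, ∑ z', min (f z z' j) σ) -
        SS c (fun z' j => min (∑ z, f z z' j) σ))) =
      3 / 2 * A * (σ * (M c (fun j => ∑ z, ∑ z', min (f z z' j) σ) -
        SS c (fun z' j => min (∑ z, f z z' j) σ))) := by
    set Y := M c (fun j => ∑ z, ∑ z', min (f z z' j) σ) -
        SS c (fun z' j => min (∑ z, f z z' j) σ)
    calc Real.sqrt σ * (3 / 2 * A * Real.sqrt σ * Y) =
        3 / 2 * A * ((Real.sqrt σ * Real.sqrt σ) * Y) := by ring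
      _ = _ := by rw [sq]
  rw [e1]
  rw [mul_add] at R3
  rw [mul_add, mul_add, e2] at C3
  linarith

end flow

end Crest.Agent.R4P.GMe53
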