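import Crest.Agent.R4P.GMe_53

/-!
R4 (S0004) with powers, T3, helper53: **class changes of the dual potential, root form** (407's 17803 (A)).

* **`flow_root`** : as `GMe53.flow`, prices `x √(min σ (others))` of the changing flows `Ev`.
-/

set_option autoImplicit false
set_option linter.unusedVariables false
set_option linter.unusedSectionVars false

namespace Crest.Agent.R4P.GMr53

open Finset Crest.Agent.R4P.GMer27 Crest.Agent.R4P.MisR16 Crest.Agent.R4P.Mism16
open Crest.Agent.R4P.ModeP940 (SS)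
open Crest.Agent.R4P.MvP25 (ml ml_nonneg min_sum_le)
open Crest.Agent.R4P.GMe53

section one
variable {J : Type*} [Fintype J] {c : J → ℝ} {A b σ : ℝ}

lemma sqrt_two_le {x y : ℝ} (hx : 0 ≤ x) (h : y ≤ 2 * x) :
    Real.sqrt y ≤ 3 / 2 * Real.sqrt x := by
  have h1 : Real.sqrt y ≤ Real.sqrt ((3 / 2) ^ 2 * x) := Real.sqrt_le_sqrt (by nlinarith)
  rwa [Real.sqrt_mul (by positivity), Real.sqrt_sq (by norm_num)] at h1

lemma mq_root {x m : ℝ} (hx : 0 ≤ x) (hm : 0 ≤ m) : mq x m ≤ 3 / 2 * (x * Real.sqrt m) := by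
  unfold mq
  rcases le_total x m with h | h
  · rw [min_eq_left h]
    have := mul_le_mul_of_nonneg_left (sqrt_two_le hm (show x + m ≤ 2 * m by linarith)) hx
    linarith
  · rw [min_eq_right h]
    have h1 := mul_le_mul_of_nonneg_left (sqrt_two_le hx (show x + m ≤ 2 * x by linarith)) hm
    have h2 : Real.sqrt m ≤ Real.sqrt x := Real.sqrt_le_sqrt h
    have h3 : Real.sqrt m * Real.sqrt m = m := Real.mul_self_sqrt hm
    have h4 : Real.sqrt x * Real.sqrt x = x := Real.mul_self_sqrt hx
    have h5 : m * Real.sqrt x ≤ x * Real.sqrt m := by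
      have n1 := Real.sqrt_nonneg m
      have n2 := Real.sqrt_nonneg x
      have h6 : Real.sqrt m * Real.sqrt m * Real.sqrt x ≤
          Real.sqrt x * Real.sqrt x * Real.sqrt m := by
        have := mul_le_mul_of_nonneg_left h2 (mul_nonneg n1 n2)
        nlinarith
      rwa [h3, h4] at h6
    linarith

/-- **F3, two classes, truncated** -/
lemma PD_merge_tr (c0 : ∀ j, 0 ≤ c j) (c1 : ∑ j, c j ≤ 1) (hb : 0 ≤ b) (hA : 2 * b ≤ A)
    (hσ : 0 < σ) {x R : J → ℝ} (hx : ∀ j, 0 ≤ x j) (hR : ∀ j, 0 ≤ R j) :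
    PD A b c (fun j => min (R j + x j) σ) ≤ PD A b c (fun j => min (R j) σ) + PD A b c x +
      9 / 4 * A * M c (fun j => x j * Real.sqrt (min σ (R j))) := by
  have hA0 : 0 ≤ A := by linarith
  set m : J → ℝ := fun j => min (R j) σ with hm
  set y : J → ℝ := fun j => min (R j + x j) σ - m j with hy
  have m0 : ∀ j, 0 ≤ m j := fun j => le_min (hR j) hσ.le
  have y0 : ∀ j, 0 ≤ y j := fun j => sub_nonneg.2 (min_le_min (by linarith [hx j]) le_rfl)
  have yx : ∀ j, y j ≤ x j := fun j => by
    show min (R j + x j) σ - min (R j) σ ≤ x j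
    rcases le_total (R j) σ with h | h
    · rw [min_eq_left h]
      have := min_le_left (R j + x j) σ
      linarith
    · rw [min_eq_right h]
      have := min_le_right (R j + x j) σ
      linarith [hx j]
  have h1 := PD_merge2 (b := b) c0 hb hA0 y0 m0
  have e : (fun j => m j + y j) = fun j => min (R j + x j) σ := by
    funext j
    show m j + (min (R j + x j) σ - m j) = _
    ring
  rw [e] at h1
  have h2 := PD_mono c0 c1 hb hA y0 yx
  have h3 : M c (fun j => mq (y j) (m j)) ≤
      3 / 2 * M c (fun j => x j * Real.sqrt (min σ (R j))) := by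
    rw [← M_smul]
    refine M_mono c0 fun j => ?_
    refine (mq_root (y0 j) (m0 j)).trans ?_
    have e2 : Real.sqrt (m j) = Real.sqrt (min σ (R j)) := by
      show Real.sqrt (min (R j) σ) = _
      rw [min_comm]
    rw [e2]
    have := mul_le_mul_of_nonneg_right (yx j) (Real.sqrt_nonneg (min σ (R j)))
    linarith
  have h4 := mul_le_mul_of_nonneg_left h3 (show 0 ≤ 3 / 2 * A by linarith)
  linarith

section fin
variable {κ : Type*} [DecidableEq κ]

/-- **classes joined one at a time, truncated** -/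
lemma merge_fin_tr (c0 : ∀ j, 0 ≤ c j) (c1 : ∑ j, c j ≤ 1) (hb : 0 ≤ b) (hA : 2 * b ≤ A)
    (hσ : 0 < σ) {x T : κ → J → ℝ} {R : J → ℝ} (hx : ∀ k j, 0 ≤ x k j) (hR : ∀ j, 0 ≤ R j)
    (s : Finset κ) (hT : ∀ k ∈ s, ∀ j, R j + ∑ l ∈ s.erase k, x l j ≤ T k j) :
    PD A b c (fun j => min (R j + ∑ k ∈ s, x k j) σ) ≤ PD A b c (fun j => min (R j) σ) +
      ∑ k ∈ s, PD A b c (x k) +
      9 / 4 * A * ∑ k ∈ s, M c (fun j => x k j * Real.sqrt (min σ (T k j))) := by
  have hA0 : 0 ≤ A := by linarith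
  induction s using Finset.induction_on with
  | empty => simp
  | insert k s hk ih =>
    have h1 := ih fun l hl j => by
      refine le_trans ?_ (hT l (Finset.mem_insert_of_mem hl) j)
      refine add_le_add le_rfl (Finset.sum_le_sum_of_subset_of_nonneg
        (Finset.erase_subset_erase _ (Finset.subset_insert _ _)) fun i _ _ => hx i j)
    have Q0 : ∀ j, 0 ≤ R j + ∑ l ∈ s, x l j := fun j =>
      add_nonneg (hR j) (Finset.sum_nonneg fun l _ => hx l j)
    have h2 := PD_merge_tr c0 c1 hb hA hσ (hx k) Q0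
    have h3 : M c (fun j => x k j * Real.sqrt (min σ (R j + ∑ l ∈ s, x l j))) ≤
        M c (fun j => x k j * Real.sqrt (min σ (T k j))) := M_mono c0 fun j => by
      refine mul_le_mul_of_nonneg_left (Real.sqrt_le_sqrt (min_le_min le_rfl ?_)) (hx k j)
      have := hT k (Finset.mem_insert_self k s) j
      rwa [Finset.erase_insert hk] at this
    have h4 := mul_le_mul_of_nonneg_left h3 (show 0 ≤ 9 / 4 * A by linarith)
    rw [Finset.sum_insert hk, Finset.sum_insert hk]
    have e : (fun j => min (R j + ∑ l ∈ insert k s, x l j) σ) =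
        fun j => min (R j + ∑ l ∈ s, x l j + x k j) σ := by
      funext j
      rw [Finset.sum_insert hk]
      congr 1
      ring
    rw [e]
    linarith

end fin

section rows
variable {κ : Type*} [Fintype κ] [DecidableEq κ] {Ev : κ → Prop}

open Classical in
/-- **one class above (truncated), several classes below** -/
lemma row_tr (c0 : ∀ j, 0 ≤ c j) (c1 : ∑ j, c j ≤ 1) (hb : 0 ≤ b) (hA : 2 * b ≤ A) (hσ : 0 < σ)
    {x : κ → J → ℝ}
    (hx : ∀ k j, 0 ≤ x k j) (h1 : ∀ k l, ¬ Ev k → ¬ Ev l → x k ≠ 0 → x l ≠ 0 → k = l) :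
    PD A b c (fun j => min (∑ k, x k j) σ) ≤ ∑ k, PD A b c (x k) +
      9 / 4 * A * ∑ k ∈ Finset.univ.filter Ev,
        M c (fun j => x k j * Real.sqrt (min σ (∑ l ∈ Finset.univ.erase k, x l j))) := by
  set R : J → ℝ := fun j => ∑ k ∈ Finset.univ.filter (fun k => ¬ Ev k), x k j with hR
  have R0 : ∀ j, 0 ≤ R j := fun j => Finset.sum_nonneg fun k _ => hx k j
  have key := merge_fin_tr c0 c1 hb hA hσ (x := x)
    (T := fun k j => ∑ l ∈ Finset.univ.erase k, x l j) (R := R) hx R0
    (Finset.univ.filter Ev) (fun k hk j => by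
      have hk' : Ev k := (Finset.mem_filter.1 hk).2
      have hd : Disjoint (Finset.univ.filter (fun k => ¬ Ev k)) ((Finset.univ.filter Ev).erase k) := by
        rw [Finset.disjoint_left]
        intro a ha hb'
        exact (Finset.mem_filter.1 ha).2 (Finset.mem_filter.1 (Finset.mem_of_mem_erase hb')).2
      show R j + _ ≤ _
      rw [hR]
      show ∑ k ∈ Finset.univ.filter (fun k => ¬ Ev k), x k j + _ ≤ _
      rw [← Finset.sum_union hd]
      refine Finset.sum_le_sum_of_subset_of_nonneg (fun a ha => ?_) fun i _ _ => hx i j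
      rw [Finset.mem_erase]
      refine ⟨fun e => ?_, Finset.mem_univ _⟩
      subst e
      rcases Finset.mem_union.1 ha with h | h
      · exact (Finset.mem_filter.1 h).2 hk'
      · exact Finset.notMem_erase _ _ h)
  have e1 : (fun j => min (R j + ∑ k ∈ Finset.univ.filter Ev, x k j) σ) =
      fun j => min (∑ k, x k j) σ := by
    funext j
    congr 1
    rw [hR]
    have := Finset.sum_filter_add_sum_filter_not Finset.univ Ev fun k => x k j
    show ∑ k ∈ Finset.univ.filter (fun k => ¬ Ev k), x k j + _ = _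
    linarith
  have e2 : PD A b c (fun j => min (R j) σ) ≤
      ∑ k ∈ Finset.univ.filter (fun k => ¬ Ev k), PD A b c (x k) := by
    rw [← PD_single (Finset.univ.filter (fun k => ¬ Ev k)) fun k hk l hl =>
      h1 k l (Finset.mem_filter.1 hk).2 (Finset.mem_filter.1 hl).2]
    exact PD_mono c0 c1 hb hA (fun j => le_min (R0 j) hσ.le) fun j => min_le_left _ _
  have e3 := Finset.sum_filter_add_sum_filter_not Finset.univ Ev fun k => PD A b c (x k)
  rw [e1] at key
  linarith

end rows

end one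

/-! ### the flow -/

section flow
variable {J δ δ' : Type*} [Fintype J] [Fintype δ] [Fintype δ'] [DecidableEq δ] [DecidableEq δ']
  {c : J → ℝ} {A b σ θ : ℝ} {f : δ → δ' → J → ℝ} {Ev : δ → δ' → Prop}

open Classical in
/-- in-member price of the changing flows -/
noncomputable def Rin (σ : ℝ) (c : J → ℝ) (Ev : δ → δ' → Prop) (f : δ → δ' → J → ℝ) : ℝ :=
  M c (fun j => ∑ z, ∑ z', if Ev z z' then
    f z z' j * Real.sqrt (min σ (∑ l ∈ Finset.univ.erase z', f z l j)) else 0)

open Classical in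
/-- cross-member price of the changing flows -/
noncomputable def Rcr (σ : ℝ) (c : J → ℝ) (Ev : δ → δ' → Prop) (f : δ → δ' → J → ℝ) : ℝ :=
  ∑ j, ∑ j', if j = j' then 0 else c j * c j' * ∑ z, ∑ z', if Ev z z' then
    f z z' j * Real.sqrt (min σ (∑ l ∈ Finset.univ.erase z, f l z' j')) else 0

/-- **the class change of the dual potential, root form** -/
theorem flow_root (c0 : ∀ j, 0 ≤ c j) (c1 : ∑ j, c j ≤ 1) (hb : 0 ≤ b) (hA : 2 * b ≤ A)
    (hσ : 0 < σ) (hf : ∀ z z' j, 0 ≤ f z z' j)
    (hr : ∀ z k l, ¬ Ev z k → ¬ Ev z l → f z k ≠ 0 → f z l ≠ 0 → k = l)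
    (hc : ∀ z' k l, ¬ Ev k z' → ¬ Ev l z' → f k z' ≠ 0 → f l z' ≠ 0 → k = l) :
    Real.sqrt σ * ∑ z, PD A b c (fun j => min (∑ z', f z z' j) σ) ≤
      Real.sqrt σ * ∑ z', PD A b c (fun j => min (∑ z, f z z' j) σ) +
      3 / 2 * A * (σ * (M c (fun j => ∑ z, ∑ z', min (f z z' j) σ) -
        SS c (fun z' j => min (∑ z, f z z' j) σ))) +
      Real.sqrt σ * (9 / 4 * A * Rin σ c Ev f + 2 * b * Rcr σ c Ev f) := by
  classical
  have hA0 : 0 ≤ A := by linarith
  set t : δ → δ' → J → ℝ := fun z z' j => min (f z z' j) σ with ht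
  have t0 : ∀ z z' j, 0 ≤ t z z' j := fun z z' j => le_min (hf z z' j) hσ.le
  have tf : ∀ z z' j, t z z' j ≤ f z z' j := fun z z' j => min_le_left _ _
  have ts : ∀ z z' j, t z z' j ≤ σ := fun z z' j => min_le_right _ _
  have tz : ∀ z z', t z z' ≠ 0 → f z z' ≠ 0 := fun z z' h e => h (by
    funext j
    show min (f z z' j) σ = 0
    rw [e]
    exact min_eq_left hσ.le)
  have sq : Real.sqrt σ * Real.sqrt σ = σ := Real.mul_self_sqrt hσ.le
  have s0 : 0 ≤ Real.sqrt σ := Real.sqrt_nonneg _
  -- rows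
  have R1 : ∀ z, PD A b c (fun j => min (∑ z', f z z' j) σ) ≤ ∑ z', PD A b c (t z z') +
      9 / 4 * A * ∑ z' ∈ Finset.univ.filter (Ev z),
        M c (fun j => t z z' j * Real.sqrt (min σ (∑ l ∈ Finset.univ.erase z', t z l j))) := by
    intro z
    have h := row_tr (Ev := Ev z) c0 c1 hb hA hσ (x := fun z' => t z z')
      (fun z' j => t0 z z' j) fun k l hk hl h1 h2 => hr z k l hk hl (tz z k h1) (tz z l h2)
    have e : (fun j => min (∑ z', t z z' j) σ) = fun j => min (∑ z', f z z' j) σ :=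
      funext fun j => min_sum_min (fun z' => hf z z' j) hσ.le
    rw [e] at h
    exact h
  -- columns
  have C1 : ∀ z', ∑ z, PD A b c (t z z') ≤ PD A b c (fun j => min (∑ z, f z z' j) σ) +
      3 / 2 * A * Real.sqrt σ * M c (fun j => ∑ z, t z z' j - min (∑ z, f z z' j) σ) +
      2 * b * ∑ z ∈ Finset.univ.filter (fun z => Ev z z'),
        So c (t z z') (fun j => ∑ l ∈ Finset.univ.erase z, t l z' j) := by
    intro z'
    have h := col_step (Ev := fun z => Ev z z') c0 c1 hb hA hσ (x := fun z => t z z')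
      (fun z j => t0 z z' j) (fun z j => ts z z' j)
      fun k l hk hl h1 h2 => hc z' k l hk hl (tz k z' h1) (tz l z' h2)
    have e : (fun j => min (∑ z, t z z' j) σ) = fun j => min (∑ z, f z z' j) σ :=
      funext fun j => min_sum_min (fun z => hf z z' j) hσ.le
    have e' : (fun j => ∑ z, t z z' j - min (∑ z, t z z' j) σ) =
        fun j => ∑ z, t z z' j - min (∑ z, f z z' j) σ :=
      funext fun j => by rw [min_sum_min (fun z => hf z z' j) hσ.le]
    rw [e, e'] at h
    exact h
  -- sums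
  have R2 := Finset.sum_le_sum fun z (_ : z ∈ Finset.univ) => R1 z
  have C2 := Finset.sum_le_sum fun z' (_ : z' ∈ Finset.univ) => C1 z'
  rw [Finset.sum_add_distrib, ← Finset.mul_sum] at R2
  rw [Finset.sum_add_distrib, Finset.sum_add_distrib, ← Finset.mul_sum, ← Finset.mul_sum,
    Finset.sum_comm] at C2
  -- the truncation term
  have L1 : ∑ z', M c (fun j => ∑ z, t z z' j - min (∑ z, f z z' j) σ) =
      M c (fun j => ∑ z, ∑ z', min (f z z' j) σ) - SS c (fun z' j => min (∑ z, f z z' j) σ) := by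
    unfold SS
    rw [← M_sum]
    have e : (fun j => ∑ z', (∑ z, t z z' j - min (∑ z, f z z' j) σ)) =
        fun j => (∑ z, ∑ z', min (f z z' j) σ) - ∑ z', min (∑ z, f z z' j) σ := by
      funext j
      rw [Finset.sum_sub_distrib, Finset.sum_comm]
    rw [e, M_sub]
    congr 1
    exact M_sum _ _
  rw [L1] at C2
  -- the in-member part
  have I1 : ∑ z, ∑ z' ∈ Finset.univ.filter (Ev z),
      M c (fun j => t z z' j * Real.sqrt (min σ (∑ l ∈ Finset.univ.erase z', t z l j))) ≤
      Rin σ c Ev f := by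
    unfold Rin
    rw [M_sum]
    refine Finset.sum_le_sum fun z _ => ?_
    rw [M_sum, Finset.sum_filter]
    refine Finset.sum_le_sum fun z' _ => ?_
    split_ifs with h
    · refine M_mono c0 fun j => ?_
      refine mul_le_mul (tf z z' j) (Real.sqrt_le_sqrt (min_le_min le_rfl
        (Finset.sum_le_sum fun l _ => tf z l j))) (Real.sqrt_nonneg _) (hf z z' j)
    · simp [M]
  -- the cross part
  have X1 : ∑ z', ∑ z ∈ Finset.univ.filter (fun z => Ev z z'),
      So c (t z z') (fun j => ∑ l ∈ Finset.univ.erase z, t l z' j) ≤ Rcr σ c Ev f := by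
    have a1 : ∀ z z', So c (t z z') (fun j => ∑ l ∈ Finset.univ.erase z, t l z' j) ≤
        ∑ j, ∑ j', if j = j' then 0 else c j * c j' *
          (f z z' j * Real.sqrt (min σ (∑ l ∈ Finset.univ.erase z, f l z' j'))) := by
      intro z z'
      unfold So
      refine Finset.sum_le_sum fun j _ => Finset.sum_le_sum fun j' _ => ?_
      by_cases h : j = j'
      · simp [h]
      · simp only [h, if_false]
        refine mul_le_mul_of_nonneg_left ?_ (mul_nonneg (c0 j) (c0 j'))
        have n1 : 0 ≤ ∑ l ∈ Finset.univ.erase z, t l z' j' :=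
          Finset.sum_nonneg fun l _ => t0 l z' j'
        have n2 : ∑ l ∈ Finset.univ.erase z, t l z' j' ≤ ∑ l ∈ Finset.univ.erase z, f l z' j' :=
          Finset.sum_le_sum fun l _ => tf l z' j'
        unfold th
        refine mul_le_mul ((min_le_left _ _).trans (tf z z' j)) (Real.sqrt_le_sqrt ?_)
          (Real.sqrt_nonneg _) (hf z z' j)
        exact le_min ((min_le_left _ _).trans (ts z z' j)) ((min_le_right _ _).trans n2)
    have a2 : ∑ z', ∑ z ∈ Finset.univ.filter (fun z => Ev z z'),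
        So c (t z z') (fun j => ∑ l ∈ Finset.univ.erase z, t l z' j) ≤
        ∑ z', ∑ z, if Ev z z' then ∑ j, ∑ j', (if j = j' then 0 else c j * c j' *
          (f z z' j * Real.sqrt (min σ (∑ l ∈ Finset.univ.erase z, f l z' j')))) else 0 := by
      refine Finset.sum_le_sum fun z' _ => ?_
      rw [Finset.sum_filter]
      refine Finset.sum_le_sum fun z _ => ?_
      split_ifs
      · exact a1 z z'
      · exact le_rfl
    refine a2.trans (le_of_eq ?_)
    unfold Rcr
    have s1 : ∀ z z', (if Ev z z' then ∑ j, ∑ j', (if j = j' then (0:ℝ) else c j * c j' *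
          (f z z' j * Real.sqrt (min σ (∑ l ∈ Finset.univ.erase z, f l z' j')))) else 0) =
        ∑ j, ∑ j', if j = j' then (0:ℝ) else c j * c j' * (if Ev z z' then
          f z z' j * Real.sqrt (min σ (∑ l ∈ Finset.univ.erase z, f l z' j')) else 0) := by
      intro z z'
      by_cases h : Ev z z'
      · simp only [h, if_true]
      · simp [h]
    simp only [s1]
    have s2 : ∀ j j', (if j = j' then (0:ℝ) else c j * c j' * ∑ z, ∑ z', if Ev z z' then
        f z z' j * Real.sqrt (min σ (∑ l ∈ Finset.univ.erase z, f l z' j')) else 0) =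
        ∑ z, ∑ z', if j = j' then (0:ℝ) else c j * c j' * (if Ev z z' then
          f z z' j * Real.sqrt (min σ (∑ l ∈ Finset.univ.erase z, f l z' j')) else 0) := by
      intro j j'
      by_cases h : j = j'
      · simp [h]
      · simp only [h, if_false, Finset.mul_sum]
    simp only [s2]
    rw [Finset.sum_comm]
    have s3 : ∀ F : δ → δ' → J → J → ℝ, ∑ z, ∑ z', ∑ j, ∑ j', F z z' j j' =
        ∑ j, ∑ j', ∑ z, ∑ z', F z z' j j' := by
      intro F
      calc ∑ z, ∑ z', ∑ j, ∑ j', F z z' j j'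
          = ∑ z, ∑ j, ∑ z', ∑ j', F z z' j j' :=
            Finset.sum_congr rfl fun k _ => Finset.sum_comm
        _ = ∑ j, ∑ z, ∑ z', ∑ j', F z z' j j' := Finset.sum_comm
        _ = ∑ j, ∑ z, ∑ j', ∑ z', F z z' j j' :=
            Finset.sum_congr rfl fun j _ => Finset.sum_congr rfl fun k _ => Finset.sum_comm
        _ = ∑ j, ∑ j', ∑ z, ∑ z', F z z' j j' :=
            Finset.sum_congr rfl fun j _ => Finset.sum_comm
    exact s3 _
  -- assembly
  have R3 := mul_le_mul_of_nonneg_left R2 s0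
  have C3 := mul_le_mul_of_nonneg_left C2 s0
  have I2 := mul_le_mul_of_nonneg_left (mul_le_mul_of_nonneg_left I1
    (show 0 ≤ 9 / 4 * A by linarith)) s0
  have X2 := mul_le_mul_of_nonneg_left (mul_le_mul_of_nonneg_left X1
    (show 0 ≤ 2 * b by linarith)) s0
  have e2 : Real.sqrt σ * (3 / 2 * A * Real.sqrt σ * (M c (fun j => ∑ z, ∑ z', min (f z z' j) σ) -
        SS c (fun z' j => min (∑ z, f z z' j) σ))) =
      3 / 2 * A * (σ * (M c (fun j => ∑ z, ∑ z', min (f z z' j) σ) -
        SS c (fun z' j => min (∑ z, f z z' j) σ))) := by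
    set Y := M c (fun j => ∑ z, ∑ z', min (f z z' j) σ) -
        SS c (fun z' j => min (∑ z, f z z' j) σ)
    calc Real.sqrt σ * (3 / 2 * A * Real.sqrt σ * Y) =
        3 / 2 * A * ((Real.sqrt σ * Real.sqrt σ) * Y) := by ring
      _ = _ := by rw [sq]
  rw [mul_add] at R3
  rw [mul_add, mul_add, e2] at C3
  linarith

end flow

end Crest.Agent.R4P.GMr53
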