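import Mathlib

/-!
# R004: the congruence GCD-sum lemma (helper37)

Part 1: an `L`-linear inequality on `ℤ^P` (tensorization), part 2: path bound for kernels
on a finite set of points of `ℤ^P`, part 3: arithmetic.
-/

set_option autoImplicit false

open Finset

namespace Crest.Agent.R4P.GcdK37

open scoped Classical in
/-- indicator of a proposition. -/
noncomputable def ind (p : Prop) : ℝ := if p then 1 else 0

theorem ind_t {p : Prop} (h : p) : ind p = 1 := by unfold ind; rw [if_pos h]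
theorem ind_f {p : Prop} (h : ¬ p) : ind p = 0 := by unfold ind; rw [if_neg h]
theorem ind_congr {p q : Prop} (h : p ↔ q) : ind p = ind q := by rw [propext h]
theorem ind_nn (p : Prop) : 0 ≤ ind p := by
  by_cases h : p
  · rw [ind_t h]; norm_num
  · rw [ind_f h]
theorem ind_le (p : Prop) : ind p ≤ 1 := by
  by_cases h : p
  · rw [ind_t h]
  · rw [ind_f h]; norm_num
theorem ind_and (p q : Prop) : ind (p ∧ q) = ind p * ind q := by
  by_cases h : p <;> by_cases h' : q <;> simp [ind, h, h']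

section forms

variable (L : ℕ)

/-- the `L`-linear inequality over a finite type, relation `R`, weight `w`. -/
def Hyp (X : Type) [Fintype X] (R : (Fin L → X) → Prop) (w : X → ℝ) : Prop :=
  ∀ f : Fin L → X → ℝ, (∀ t x, 0 ≤ f t x) →
    ∑ n : Fin L → X, ind (R n) * ∏ t, f t (n t) ≤ ∏ t, √(∑ x, f t x ^ 2 * w x)

variable {L}

theorem Hyp.prod {X Y : Type} [Fintype X] [Fintype Y] {R : (Fin L → X) → Prop}
    {R' : (Fin L → Y) → Prop} {w : X → ℝ} {w' : Y → ℝ} (h : Hyp L X R w) (h' : Hyp L Y R' w')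
    (hw' : ∀ y, 0 ≤ w' y) :
    Hyp L (X × Y) (fun n => R (fun t => (n t).1) ∧ R' (fun t => (n t).2))
      (fun z => w z.1 * w' z.2) := by
  intro f hf
  show ∑ n : Fin L → X × Y, ind (R (fun t => (n t).1) ∧ R' (fun t => (n t).2)) * ∏ t, f t (n t)
    ≤ ∏ t, √(∑ x : X × Y, f t x ^ 2 * (w x.1 * w' x.2))
  have h1 : ∑ n : Fin L → X × Y, ind (R (fun t => (n t).1) ∧ R' (fun t => (n t).2)) *
      ∏ t, f t (n t) =
      ∑ a : Fin L → X, ∑ b : Fin L → Y, ind (R a ∧ R' b) * ∏ t, f t (a t, b t) := by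
    rw [← Fintype.sum_prod_type' (f := fun (a : Fin L → X) (b : Fin L → Y) =>
      ind (R a ∧ R' b) * ∏ t, f t (a t, b t))]
    exact Fintype.sum_equiv (Equiv.arrowProdEquivProdArrow (Fin L) (fun _ => X) (fun _ => Y)) _ _
      (fun n => rfl)
  rw [h1]
  have h2 : ∀ a : Fin L → X, ∑ b : Fin L → Y, ind (R a ∧ R' b) * ∏ t, f t (a t, b t) ≤
      ind (R a) * ∏ t, √(∑ y, f t (a t, y) ^ 2 * w' y) := by
    intro a
    have h3 := mul_le_mul_of_nonneg_left (h' (fun t y => f t (a t, y)) (fun t y => hf t _))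
      (ind_nn (R a))
    rw [Finset.mul_sum] at h3
    refine le_trans (le_of_eq ?_) h3
    refine Finset.sum_congr rfl fun b _ => ?_
    rw [ind_and, mul_assoc]
  refine (Finset.sum_le_sum fun a _ => h2 a).trans ?_
  refine (h (fun t x => √(∑ y, f t (x, y) ^ 2 * w' y)) (fun t x => Real.sqrt_nonneg _)).trans ?_
  refine Finset.prod_le_prod (fun t _ => Real.sqrt_nonneg _) (fun t _ => ?_)
  refine Real.sqrt_le_sqrt (le_of_eq ?_)
  rw [Fintype.sum_prod_type]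
  refine Finset.sum_congr rfl fun x _ => ?_
  rw [Real.sq_sqrt (Finset.sum_nonneg fun y _ => mul_nonneg (sq_nonneg _) (hw' y)),
    Finset.sum_mul]
  refine Finset.sum_congr rfl fun y _ => by ring

theorem Hyp.equiv {X Y : Type} [Fintype X] [Fintype Y] (e : X ≃ Y) {R : (Fin L → Y) → Prop}
    {w : Y → ℝ} (h : Hyp L Y R w) : Hyp L X (fun n => R (fun t => e (n t))) (fun x => w (e x)) := by
  intro f hf
  have h1 := h (fun t y => f t (e.symm y)) (fun t y => hf t _)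
  refine le_trans (le_of_eq ?_) (h1.trans (le_of_eq ?_))
  · refine Fintype.sum_equiv (Equiv.arrowCongr (Equiv.refl _) e) _ _ (fun n => ?_)
    simp only [Equiv.arrowCongr, Equiv.coe_fn_mk, Equiv.refl_symm, Function.comp, Equiv.refl_apply, Equiv.symm_apply_apply]
    rfl
  · refine Finset.prod_congr rfl fun t _ => ?_
    congr 1
    exact (Fintype.sum_equiv e _ _ (fun x => by simp)).symm

theorem Hyp.congr {X : Type} [Fintype X] {R R' : (Fin L → X) → Prop} {w w' : X → ℝ}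
    (h : Hyp L X R w) (hR : ∀ n, R' n ↔ R n) (hw : ∀ x, w' x = w x) : Hyp L X R' w' := by
  have e1 : R' = R := funext fun n => propext (hR n)
  have e2 : w' = w := funext hw
  rw [e1, e2]; exact h

theorem Hyp.pi_fin {X : Type} [Fintype X] {R : (Fin L → X) → Prop} {w : X → ℝ}
    (h : Hyp L X R w) (hw : ∀ x, 0 ≤ w x) (r : ℕ) :
    Hyp L (Fin r → X) (fun n => ∀ p, R (fun t => n t p)) (fun x => ∏ p, w (x p)) := by
  induction r with
  | zero =>
    intro f hf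
    show ∑ n : Fin L → Fin 0 → X, ind (∀ p : Fin 0, R (fun t => n t p)) * ∏ t, f t (n t) ≤ _
    rw [Fintype.sum_unique, ind_t (fun p => Fin.elim0 p), one_mul]
    refine Finset.prod_le_prod (fun t _ => hf t _) (fun t _ => ?_)
    rw [Fintype.sum_unique]
    simp only [univ_eq_empty, prod_empty, mul_one]
    rw [Real.sqrt_sq (hf t _)]
    exact le_of_eq (congrArg (f t) (Subsingleton.elim _ _))
  | succ r ih =>
    have h2 := Hyp.equiv (Fin.consEquiv (fun _ : Fin (r + 1) => X)).symm (Hyp.prod h ih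
      (fun y => Finset.prod_nonneg fun p _ => hw _))
    refine h2.congr (fun n => ?_) (fun x => ?_)
    · exact Fin.forall_fin_succ
    · exact Fin.prod_univ_succ (fun p => w (x p))

theorem Hyp.pi {X : Type} [Fintype X] {R : (Fin L → X) → Prop} {w : X → ℝ}
    (h : Hyp L X R w) (hw : ∀ x, 0 ≤ w x) (P : Type) [Fintype P] [DecidableEq P] :
    Hyp L (P → X) (fun n => ∀ p, R (fun t => n t p)) (fun x => ∏ p, w (x p)) := by
  have h2 := Hyp.equiv (Equiv.arrowCongr (Fintype.equivFin P) (Equiv.refl X))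
    (Hyp.pi_fin h hw (Fintype.card P))
  refine h2.congr (fun n => ?_) (fun x => ?_)
  · constructor
    · intro H p
      exact H ((Fintype.equivFin P).symm p)
    · intro H p
      have := H (Fintype.equivFin P p)
      simpa [Equiv.arrowCongr] using this
  · refine (Fintype.prod_equiv (Fintype.equivFin P) _ _ (fun p => ?_))
    simp [Equiv.arrowCongr]

end forms

section one

/-- the box `[-B, B]`. -/
abbrev Bx (B : ℕ) := {n : ℤ // n ∈ Finset.Icc (-(B : ℤ)) B}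

instance (B : ℕ) : Zero (Bx B) := ⟨⟨0, by simp⟩⟩

theorem bx0 (B : ℕ) : ((0 : Bx B) : ℤ) = 0 := rfl

theorem bx0_iff {B : ℕ} (x : Bx B) : (x : ℤ) = 0 ↔ x = 0 := by
  constructor
  · intro h; exact Subtype.ext h
  · intro h; rw [h, bx0]

/-- the weight of one coordinate. -/
noncomputable def w0 (L : ℕ) (n : ℤ) : ℝ := if n = 0 then 1 else 4 ^ (L + 1) * (n : ℝ) ^ 2

theorem w0_nn (L : ℕ) (n : ℤ) : 0 ≤ w0 L n := by
  unfold w0; split_ifs <;> positivity

theorem w0_zero (L : ℕ) : w0 L 0 = 1 := by simp [w0]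

theorem w0_neg (L : ℕ) (n : ℤ) : w0 L (-n) = w0 L n := by
  unfold w0
  by_cases h : n = 0
  · simp [h]
  · rw [if_neg h, if_neg (by simpa using h)]; push_cast; ring

theorem inv_sum (B : ℕ) : ∑ n ∈ Finset.Icc (-(B : ℤ)) B, ((n : ℝ) ^ 2)⁻¹ ≤ 4 - 4 / (2 * B + 1) := by
  induction B with
  | zero => norm_num
  | succ B ih =>
    have e : Finset.Icc (-((B + 1 : ℕ) : ℤ)) ((B + 1 : ℕ) : ℤ) =
        insert (-((B : ℤ) + 1)) (insert ((B : ℤ) + 1) (Finset.Icc (-(B : ℤ)) B)) := by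
      ext n
      simp only [Finset.mem_Icc, Finset.mem_insert]
      push_cast
      omega
    rw [e, Finset.sum_insert, Finset.sum_insert]
    · push_cast
      have h1 : (0 : ℝ) < (B : ℝ) + 1 := by positivity
      have h2 : (((-((B : ℝ) + 1)) ^ 2)⁻¹ : ℝ) = (((B : ℝ) + 1) ^ 2)⁻¹ := by congr 1; ring
      have h3 : (((B : ℝ) + 1) ^ 2)⁻¹ * 2 ≤ 4 / (2 * B + 1) - 4 / (2 * ((B : ℝ) + 1) + 1) := by
        rw [div_sub_div _ _ (by positivity) (by positivity), inv_mul_eq_div,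
          div_le_div_iff₀ (by positivity) (by positivity)]
        nlinarith [Nat.cast_nonneg (α := ℝ) B]
      have h4 : (((-1 + -(B : ℝ)) ^ 2)⁻¹ : ℝ) = (((B : ℝ) + 1) ^ 2)⁻¹ := by congr 1; ring
      rw [h2]
      linarith
    · simp
    · simp only [Finset.mem_insert, Finset.mem_Icc]; omega

theorem two_prod {L : ℕ} {m a β : Fin L → ℝ} (ha : ∀ t, 0 ≤ a t) (ham : ∀ t, a t ≤ m t)
    (hb : ∀ t, 0 ≤ β t) (hbm : ∀ t, β t ≤ m t) {s u : Fin L} (hsu : s ≠ u)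
    (h : a s * a u + β s * β u ≤ m s * m u) : ∏ t, a t + ∏ t, β t ≤ ∏ t, m t := by
  have hu : u ∈ (Finset.univ : Finset (Fin L)).erase s := by simp [hsu.symm]
  rw [← Finset.mul_prod_erase _ a (Finset.mem_univ s), ← Finset.mul_prod_erase _ a hu,
    ← Finset.mul_prod_erase _ β (Finset.mem_univ s), ← Finset.mul_prod_erase _ β hu,
    ← Finset.mul_prod_erase _ m (Finset.mem_univ s), ← Finset.mul_prod_erase _ m hu]
  set T := ((Finset.univ : Finset (Fin L)).erase s).erase u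
  have h1 : ∏ x ∈ T, a x ≤ ∏ x ∈ T, m x := Finset.prod_le_prod (fun t _ => ha t) fun t _ => ham t
  have h2 : ∏ x ∈ T, β x ≤ ∏ x ∈ T, m x := Finset.prod_le_prod (fun t _ => hb t) fun t _ => hbm t
  have h3 : 0 ≤ ∏ x ∈ T, m x := Finset.prod_nonneg fun t _ => (ha t).trans (ham t)
  have h4 : 0 ≤ a s * a u := mul_nonneg (ha _) (ha _)
  have h5 : 0 ≤ β s * β u := mul_nonneg (hb _) (hb _)
  nlinarith [mul_le_mul_of_nonneg_left h1 h4, mul_le_mul_of_nonneg_left h2 h5,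
    mul_le_mul_of_nonneg_right h h3]

theorem cs2 (a b c d : ℝ) : a * c + b * d ≤ √(a ^ 2 + b ^ 2) * √(c ^ 2 + d ^ 2) := by
  rw [← Real.sqrt_mul (by positivity)]
  refine Real.le_sqrt_of_sq_le ?_
  nlinarith [sq_nonneg (a * d - b * c)]

theorem hyp_one (L B : ℕ) : Hyp L (Bx B) (fun n => ∑ t, (n t : ℤ) = 0) (fun x => w0 L x) := by
  intro f hf
  set a : Fin L → ℝ := fun t => f t 0 with ha
  set φ : Fin L → Bool → Bx B → ℝ := fun t c x =>
    bif c then (if x = 0 then 0 else f t x) else (if x = 0 then f t 0 else 0) with hφ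
  set b : Fin L → ℝ := fun t => √(∑ x, (φ t true x) ^ 2 * w0 L x) with hb
  set β : Fin L → Bool → ℝ := fun t c => bif c then b t else a t with hβ
  have ha0 : ∀ t, 0 ≤ a t := fun t => hf t _
  have hb0 : ∀ t, 0 ≤ b t := fun t => Real.sqrt_nonneg _
  have hφ0 : ∀ t c x, 0 ≤ φ t c x := by
    intro t c x
    cases c
    · simp only [hφ, cond_false]; split_ifs
      · exact hf _ _
      · exact le_rfl
    · simp only [hφ, cond_true]; split_ifs
      · exact le_rfl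
      · exact hf _ _
  have hm : ∀ t, √(∑ x, f t x ^ 2 * w0 L x) = √(a t ^ 2 + b t ^ 2) := by
    intro t
    congr 1
    rw [hb, Real.sq_sqrt (Finset.sum_nonneg fun x _ => mul_nonneg (sq_nonneg _) (w0_nn _ _)),
      ← Finset.add_sum_erase _ _ (Finset.mem_univ (0 : Bx B)),
      ← Finset.add_sum_erase _ (fun x => φ t true x ^ 2 * w0 L x) (Finset.mem_univ (0 : Bx B))]
    have e1 : w0 L ((0 : Bx B) : ℤ) = 1 := by rw [bx0, w0_zero]
    have e2 : φ t true 0 = 0 := by simp [hφ]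
    rw [e1, e2, mul_one]
    have e3 : ∑ x ∈ Finset.univ.erase (0 : Bx B), φ t true x ^ 2 * w0 L x =
        ∑ x ∈ Finset.univ.erase (0 : Bx B), f t x ^ 2 * w0 L x := by
      refine Finset.sum_congr rfl fun x hx => ?_
      have : x ≠ 0 := (Finset.mem_erase.1 hx).1
      simp [hφ, this]
    rw [e3]
    simp [ha]
  simp only [hm]
  set m : Fin L → ℝ := fun t => √(a t ^ 2 + b t ^ 2) with hmd
  have ham : ∀ t, a t ≤ m t := fun t => Real.le_sqrt_of_sq_le (by nlinarith [sq_nonneg (b t)])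
  have hbm : ∀ t, b t ≤ m t := fun t => Real.le_sqrt_of_sq_le (by nlinarith [sq_nonneg (a t)])
  have hpow : (1 : ℝ) ≤ 2 ^ L := one_le_pow₀ (by norm_num)
  -- the sums
  have hSf : ∀ t, ∑ x, φ t false x = a t := by
    intro t
    rw [Finset.sum_eq_single (0 : Bx B)]
    · simp [hφ, ha]
    · intro x _ hx; simp [hφ, hx]
    · intro h; exact absurd (Finset.mem_univ _) h
  have hSt : ∀ t, ∑ x, φ t true x ≤ (2 ^ L)⁻¹ * b t := by
    intro t
    have h1 : (∑ x, φ t true x) ^ 2 ≤ (∑ x, φ t true x ^ 2 * w0 L x) *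
        ∑ x : Bx B, (4 ^ (L + 1))⁻¹ * (((x : ℤ) : ℝ) ^ 2)⁻¹ := by
      refine Finset.sum_sq_le_sum_mul_sum_of_sq_le_mul _ (fun x _ => mul_nonneg (sq_nonneg _)
        (w0_nn _ _)) (fun x _ => by positivity) (fun x _ => ?_)
      by_cases hx : x = 0
      · subst hx; simp [hφ]
      · have hx' : (x : ℤ) ≠ 0 := fun h => hx ((bx0_iff x).1 h)
        have hx'' : ((x : ℤ) : ℝ) ≠ 0 := by exact_mod_cast hx'
        have e : w0 L x = 4 ^ (L + 1) * ((x : ℤ) : ℝ) ^ 2 := by rw [w0, if_neg hx']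
        rw [e]
        apply le_of_eq
        field_simp
    have h2 : ∑ x : Bx B, (4 ^ (L + 1) : ℝ)⁻¹ * (((x : ℤ) : ℝ) ^ 2)⁻¹ ≤ (4 ^ L)⁻¹ := by
      rw [← Finset.mul_sum]
      have h3 : ∑ x : Bx B, (((x : ℤ) : ℝ) ^ 2)⁻¹ ≤ 4 := by
        have := inv_sum B
        rw [← Finset.sum_coe_sort (Finset.Icc (-(B : ℤ)) B) (fun n => ((n : ℝ) ^ 2)⁻¹)] at this
        refine this.trans ?_
        have : (0 : ℝ) ≤ 4 / (2 * B + 1) := by positivity
        linarith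
      calc (4 ^ (L + 1) : ℝ)⁻¹ * ∑ x : Bx B, (((x : ℤ) : ℝ) ^ 2)⁻¹ ≤ (4 ^ (L + 1) : ℝ)⁻¹ * 4 :=
            mul_le_mul_of_nonneg_left h3 (by positivity)
        _ = (4 ^ L)⁻¹ := by rw [pow_succ]; field_simp
    have h4 : (∑ x, φ t true x) ^ 2 ≤ ((2 ^ L)⁻¹ * b t) ^ 2 := by
      refine h1.trans ((mul_le_mul_of_nonneg_left h2 (Finset.sum_nonneg fun x _ =>
        mul_nonneg (sq_nonneg _) (w0_nn _ _))).trans (le_of_eq ?_))
      rw [mul_pow, hb, Real.sq_sqrt (Finset.sum_nonneg fun x _ => mul_nonneg (sq_nonneg _)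
        (w0_nn _ _)), inv_pow, ← pow_mul, mul_comm L 2, pow_mul]
      norm_num
      ring
    exact le_of_sq_le_sq h4 (mul_nonneg (by positivity) (hb0 t))
  have hSt' : ∀ t, ∑ x, φ t true x ≤ b t := by
    intro t
    refine (hSt t).trans ?_
    have : (2 ^ L : ℝ)⁻¹ ≤ 1 := inv_le_one_of_one_le₀ hpow
    nlinarith [hb0 t]
  -- expansion
  have hexp : ∀ n : Fin L → Bx B, ∏ t, f t (n t) = ∑ c : Fin L → Bool, ∏ t, φ t (c t) (n t) := by
    intro n
    have h1 : ∀ t, f t (n t) = ∑ c : Bool, φ t c (n t) := by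
      intro t
      rw [Fintype.sum_bool]
      by_cases h : n t = 0 <;> simp [hφ, h]
    rw [Finset.prod_congr rfl fun t _ => h1 t, Finset.prod_univ_sum, Fintype.piFinset_univ]
  have hX : ∏ t, a t ≤ ∏ t, m t := Finset.prod_le_prod (fun t _ => ha0 t) fun t _ => ham t
  have hT : ∀ c : Fin L → Bool, ∑ n : Fin L → Bx B, ind (∑ t, (n t : ℤ) = 0) *
      ∏ t, φ t (c t) (n t) ≤ ∏ t, ∑ x, φ t (c t) x := by
    intro c
    rw [Finset.prod_univ_sum, Fintype.piFinset_univ]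
    refine Finset.sum_le_sum fun n _ => ?_
    exact mul_le_of_le_one_left (Finset.prod_nonneg fun t _ => hφ0 _ _ _) (ind_le _)
  have hc : ∀ c : Fin L → Bool, ∑ n : Fin L → Bx B, ind (∑ t, (n t : ℤ) = 0) *
      ∏ t, φ t (c t) (n t) ≤ (if c = fun _ => false then ∏ t, a t else 0) +
        (2 ^ L)⁻¹ * (∏ t, m t - ∏ t, a t) := by
    intro c
    have hnn : 0 ≤ (2 ^ L : ℝ)⁻¹ * (∏ t, m t - ∏ t, a t) :=
      mul_nonneg (by positivity) (sub_nonneg.2 hX)
    by_cases h0 : c = fun _ => false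
    · rw [if_pos h0]
      refine (hT c).trans ?_
      rw [h0]
      simp only [hSf]
      linarith
    · rw [if_neg h0, zero_add]
      obtain ⟨s, hs⟩ : ∃ s, c s = true := by
        by_contra hne
        push Not at hne
        exact h0 (funext fun t => by simpa using hne t)
      by_cases h2 : ∃ u, u ≠ s ∧ c u = true
      · obtain ⟨u, hus, hu⟩ := h2
        refine (hT c).trans ?_
        have h3 : ∏ t, ∑ x, φ t (c t) x ≤ (2 ^ L)⁻¹ * ∏ t, β t (c t) := by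
          rw [← Finset.mul_prod_erase _ _ (Finset.mem_univ s),
            ← Finset.mul_prod_erase _ (fun t => β t (c t)) (Finset.mem_univ s), ← mul_assoc]
          refine mul_le_mul ?_ ?_ ?_ ?_
          · rw [hs]; exact hSt s
          · refine Finset.prod_le_prod (fun t _ => Finset.sum_nonneg fun x _ => hφ0 _ _ _)
              (fun t _ => ?_)
            cases h5 : c t
            · rw [hSf]; exact le_of_eq (by simp [hβ])
            · exact (hSt' t).trans (le_of_eq (by simp [hβ]))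
          · exact Finset.prod_nonneg fun t _ => Finset.sum_nonneg fun x _ => hφ0 _ _ _
          · rw [hs]
            exact mul_nonneg (by positivity) (by simpa [hβ] using hb0 s)
        have hβ0 : ∀ t, 0 ≤ β t (c t) := by
          intro t
          cases h5 : c t
          · simpa [hβ] using ha0 t
          · simpa [hβ] using hb0 t
        have hβm : ∀ t, β t (c t) ≤ m t := by
          intro t
          cases h5 : c t
          · simpa [hβ] using ham t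
          · simpa [hβ] using hbm t
        have h4 := two_prod (m := m) (a := a) (β := fun t => β t (c t)) ha0 ham hβ0 hβm
          (s := s) (u := u) hus.symm (by
            have e5 : β s (c s) = b s := by rw [hs]; rfl
            have e6 : β u (c u) = b u := by rw [hu]; rfl
            simp only [e5, e6]
            exact cs2 _ _ _ _)
        refine h3.trans (mul_le_mul_of_nonneg_left ?_ (by positivity))
        linarith
      · push Not at h2
        refine le_trans (le_of_eq ?_) hnn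
        refine Finset.sum_eq_zero fun n _ => ?_
        by_cases h3 : ∑ t, (n t : ℤ) = 0
        · by_cases h4 : ∃ t, t ≠ s ∧ n t ≠ 0
          · obtain ⟨t, hts, hnt⟩ := h4
            have : φ t (c t) (n t) = 0 := by
              have h5 : c t = false := by simpa using h2 t hts
              simp [hφ, h5, hnt]
            rw [Finset.prod_eq_zero (Finset.mem_univ t) this, mul_zero]
          · push Not at h4
            have h6 : (n s : ℤ) = 0 := by
              rw [Finset.sum_eq_single s] at h3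
              · exact h3
              · intro t _ ht; rw [h4 t ht, bx0]
              · intro h; exact absurd (Finset.mem_univ _) h
            have : φ s (c s) (n s) = 0 := by simp [hφ, hs, (bx0_iff _).1 h6]
            rw [Finset.prod_eq_zero (Finset.mem_univ s) this, mul_zero]
        · rw [ind_f h3, zero_mul]
  calc ∑ n : Fin L → Bx B, ind (∑ t, (n t : ℤ) = 0) * ∏ t, f t (n t)
      = ∑ c : Fin L → Bool, ∑ n : Fin L → Bx B, ind (∑ t, (n t : ℤ) = 0) *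
          ∏ t, φ t (c t) (n t) := by
        rw [Finset.sum_comm]
        refine Finset.sum_congr rfl fun n _ => ?_
        rw [hexp, Finset.mul_sum]
    _ ≤ ∑ c : Fin L → Bool, ((if c = fun _ => false then ∏ t, a t else 0) +
        (2 ^ L)⁻¹ * (∏ t, m t - ∏ t, a t)) := Finset.sum_le_sum fun c _ => hc c
    _ = ∏ t, m t := by
        rw [Finset.sum_add_distrib, Finset.sum_ite_eq' Finset.univ, if_pos (Finset.mem_univ _),
          Finset.sum_const, Finset.card_univ, Fintype.card_fun, Fintype.card_bool, Fintype.card_fin,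
          nsmul_eq_mul]
        push_cast
        field_simp
        ring

end one

section paths

set_option linter.unusedSectionVars false

variable {P : Type} [Fintype P] [DecidableEq P] (B : ℕ)

/-- inclusion of the box. -/
def up (x : P → Bx B) : P → ℤ := fun p => (x p : ℤ)

theorem up_inj : Function.Injective (up (P := P) B) := by
  intro x y h
  funext p
  exact Subtype.ext (congrFun h p)

/-- path sums of `n` steps in the box. -/
noncomputable def cN (κ : (P → ℤ) → ℝ) : ℕ → (P → ℤ) → ℝ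
  | 0, h => ind (h = 0)
  | n + 1, h => ∑ s : P → Bx B, κ (up B s) * cN κ n (h - up B s)

theorem cN_nn {κ : (P → ℤ) → ℝ} (hκ : ∀ h, 0 ≤ κ h) (n : ℕ) : ∀ h, 0 ≤ cN B κ n h := by
  induction n with
  | zero => intro h; exact ind_nn _
  | succ n ih => intro h; exact Finset.sum_nonneg fun s _ => mul_nonneg (hκ _) (ih _)

theorem cN_eq (κ : (P → ℤ) → ℝ) (n : ℕ) : ∀ h, cN B κ n h =
    ∑ m : Fin n → (P → Bx B), ind (∑ t, up B (m t) = h) * ∏ t, κ (up B (m t)) := by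
  induction n with
  | zero =>
    intro h
    rw [Fintype.sum_unique]
    simp only [univ_eq_empty, sum_empty, prod_empty, mul_one]
    exact ind_congr (eq_comm)
  | succ n ih =>
    intro h
    have e : ∑ m : Fin (n + 1) → (P → Bx B), ind (∑ t, up B (m t) = h) * ∏ t, κ (up B (m t)) =
        ∑ z : (P → Bx B) × (Fin n → (P → Bx B)), ind (up B z.1 + ∑ t, up B (z.2 t) = h) *
          (κ (up B z.1) * ∏ t, κ (up B (z.2 t))) := by
      refine (Fintype.sum_equiv (Fin.consEquiv (fun _ : Fin (n + 1) => (P → Bx B))) _ _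
        (fun z => ?_)).symm
      rw [Fin.sum_univ_succ, Fin.prod_univ_succ]
      rfl
    rw [e, Fintype.sum_prod_type]
    show ∑ s : P → Bx B, κ (up B s) * cN B κ n (h - up B s) = _
    refine Finset.sum_congr rfl fun s _ => ?_
    rw [ih, Finset.mul_sum]
    refine Finset.sum_congr rfl fun m _ => ?_
    have e2 : ind (∑ t, up B (m t) = h - up B s) = ind (up B s + ∑ t, up B (m t) = h) :=
      ind_congr (by rw [eq_sub_iff_add_eq, add_comm])
    rw [e2]; ring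

/-- the weight of a vector. -/
noncomputable def W (L : ℕ) (s : P → ℤ) : ℝ := ∏ p, w0 L (s p)

theorem W_nn (L : ℕ) (s : P → ℤ) : 0 ≤ W L s := Finset.prod_nonneg fun _ _ => w0_nn _ _

theorem cN_zero_le {κ : (P → ℤ) → ℝ} (hκ : ∀ h, 0 ≤ κ h) (L : ℕ) :
    cN B κ L 0 ≤ √(∑ s : P → Bx B, κ (up B s) ^ 2 * W L (up B s)) ^ L := by
  rw [cN_eq]
  have h1 := (Hyp.pi (hyp_one L B) (fun x => w0_nn _ _) P) (fun _ s => κ (up B s))
    (fun _ s => hκ _)
  refine le_trans (le_of_eq ?_) (h1.trans (le_of_eq ?_))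
  · refine Finset.sum_congr rfl fun m _ => ?_
    congr 1
    refine ind_congr ?_
    constructor
    · intro h p
      have := congrFun h p
      rw [Finset.sum_apply] at this
      exact this
    · intro h
      funext p
      rw [Finset.sum_apply]
      exact h p
  · rw [Finset.prod_const, Finset.card_univ, Fintype.card_fin]
    rfl

open Matrix in
theorem pow_entry_le {V : Type} [Fintype V] [DecidableEq V] {κ : (P → ℤ) → ℝ}
    (hκ : ∀ h, 0 ≤ κ h) (hκB : ∀ h, κ h ≠ 0 → ∀ p, h p ∈ Finset.Icc (-(B : ℤ)) B)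
    (K : Matrix V V ℝ) (hK0 : ∀ a b, 0 ≤ K a b) (pos : V → P → ℤ)
    (hK : ∀ a b, K a b ≤ κ (pos a - pos b))
    (hinj : ∀ a b b', K a b ≠ 0 → K a b' ≠ 0 → pos b = pos b' → b = b') (n : ℕ) :
    ∀ a b, (K ^ n) a b ≤ cN B κ n (pos a - pos b) := by
  induction n with
  | zero =>
    intro a b
    rw [pow_zero, Matrix.one_apply]
    split_ifs with h
    · rw [h, sub_self]; exact le_of_eq (ind_t rfl).symm
    · exact ind_nn _
  | succ n ih =>
    intro a b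
    rw [pow_succ', Matrix.mul_apply]
    set S := (Finset.univ : Finset V).filter (fun c => K a c ≠ 0) with hS
    have h1 : ∑ c, K a c * (K ^ n) c b = ∑ c ∈ S, K a c * (K ^ n) c b := by
      symm
      refine Finset.sum_subset (Finset.filter_subset _ _) (fun c _ hc => ?_)
      have : K a c = 0 := by
        by_contra h; exact hc (Finset.mem_filter.2 ⟨Finset.mem_univ _, h⟩)
      rw [this, zero_mul]
    have h2 : ∀ c ∈ S, ∃ s : P → Bx B, up B s = pos a - pos c := by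
      intro c hc
      have h3 : K a c ≠ 0 := (Finset.mem_filter.1 hc).2
      have h4 : κ (pos a - pos c) ≠ 0 := by
        intro h0
        have := hK a c
        rw [h0] at this
        exact h3 (le_antisymm this (hK0 _ _))
      exact ⟨fun p => ⟨(pos a - pos c) p, hκB _ h4 p⟩, rfl⟩
    rw [h1]
    choose! i hi using h2
    have h3 : ∀ c ∈ S, K a c * (K ^ n) c b ≤
        κ (up B (i c)) * cN B κ n (pos a - pos b - up B (i c)) := by
      intro c hc
      rw [hi c hc]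
      have e : pos a - pos b - (pos a - pos c) = pos c - pos b := by abel
      rw [e]
      exact (mul_le_mul_of_nonneg_left (ih c b) (hK0 _ _)).trans
        (mul_le_mul_of_nonneg_right (hK a c) (cN_nn B hκ n _))
    refine (Finset.sum_le_sum h3).trans ?_
    have hinj' : Set.InjOn i S := by
      intro c hc c' hc' h
      have h5 : pos a - pos c = pos a - pos c' := by rw [← hi c hc, ← hi c' hc', h]
      exact hinj a c c' (Finset.mem_filter.1 hc).2 (Finset.mem_filter.1 hc').2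
        (sub_right_injective h5)
    rw [← Finset.sum_image (g := i)
      (f := fun s => κ (up B s) * cN B κ n (pos a - pos b - up B s)) hinj']
    exact Finset.sum_le_sum_of_subset_of_nonneg (Finset.subset_univ _)
      (fun s _ _ => mul_nonneg (hκ _) (cN_nn B hκ n _))

open Matrix in
theorem cs_dot {V : Type} [Fintype V] (x y : V → ℝ) : (x ⬝ᵥ y) ^ 2 ≤ (x ⬝ᵥ x) * (y ⬝ᵥ y) := by
  have := Finset.sum_mul_sq_le_sq_mul_sq Finset.univ x y
  simpa [dotProduct, sq] using this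

open Matrix in
theorem sym_dot {V : Type} [Fintype V] [DecidableEq V] {K : Matrix V V ℝ} (hK : K.IsSymm)
    (x y : V → ℝ) : x ⬝ᵥ (K *ᵥ y) = (K *ᵥ x) ⬝ᵥ y := by
  rw [Matrix.dotProduct_mulVec]
  congr 1
  rw [← Matrix.mulVec_transpose, hK.eq]

open Matrix in
theorem cs_iter {V : Type} [Fintype V] [DecidableEq V] (x : V → ℝ) (a : ℕ) :
    ∀ K : Matrix V V ℝ, K.IsSymm →
      (x ⬝ᵥ (K *ᵥ x)) ^ (2 ^ a) ≤ (x ⬝ᵥ x) ^ (2 ^ a - 1) * (x ⬝ᵥ ((K ^ (2 ^ a)) *ᵥ x)) := by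
  induction a with
  | zero => intro K _; simp
  | succ a ih =>
    intro K hK
    have hxx : 0 ≤ x ⬝ᵥ x := Finset.sum_nonneg fun i _ => mul_self_nonneg _
    have h1 : (x ⬝ᵥ (K *ᵥ x)) ^ 2 ≤ (x ⬝ᵥ x) * (x ⬝ᵥ ((K ^ 2) *ᵥ x)) := by
      refine (cs_dot x (K *ᵥ x)).trans (le_of_eq ?_)
      congr 1
      rw [← sym_dot hK, Matrix.mulVec_mulVec, sq]
    have hK2 : (K ^ 2).IsSymm := by
      rw [Matrix.IsSymm, Matrix.transpose_pow, hK.eq]
    have h2 := ih (K ^ 2) hK2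
    have h3 : (x ⬝ᵥ (K *ᵥ x)) ^ (2 ^ (a + 1)) = ((x ⬝ᵥ (K *ᵥ x)) ^ 2) ^ (2 ^ a) := by
      rw [← pow_mul, pow_succ']
    rw [h3]
    refine (pow_le_pow_left₀ (sq_nonneg _) h1 _).trans ?_
    rw [mul_pow]
    have h4 : (x ⬝ᵥ x) ^ 2 ^ a * (x ⬝ᵥ ((K ^ 2) *ᵥ x)) ^ 2 ^ a ≤
        (x ⬝ᵥ x) ^ 2 ^ a * ((x ⬝ᵥ x) ^ (2 ^ a - 1) * (x ⬝ᵥ (((K ^ 2) ^ (2 ^ a)) *ᵥ x))) :=
      mul_le_mul_of_nonneg_left h2 (pow_nonneg hxx _)
    refine h4.trans (le_of_eq ?_)
    rw [← pow_mul, ← pow_succ', ← mul_assoc, ← pow_add]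
    congr 2
    have : 1 ≤ 2 ^ a := Nat.one_le_two_pow
    rw [pow_succ]; omega

open Matrix in
/-- abstract kernel theorem. -/
theorem kernel_main {V : Type} [Fintype V] [DecidableEq V] {κ : (P → ℤ) → ℝ}
    (hκ : ∀ h, 0 ≤ κ h) (hκB : ∀ h, κ h ≠ 0 → ∀ p, h p ∈ Finset.Icc (-(B : ℤ)) B)
    (K : Matrix V V ℝ) (hs : K.IsSymm) (hK0 : ∀ a b, 0 ≤ K a b) (pos : V → P → ℤ)
    (hK : ∀ a b, K a b ≤ κ (pos a - pos b))
    (hinj : ∀ a b b', K a b ≠ 0 → K a b' ≠ 0 → pos b = pos b' → b = b') (a : ℕ)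
    (T : Finset V) (x y : V → ℝ) (hx : ∀ v, v ∉ T → x v = 0) :
    (x ⬝ᵥ (K *ᵥ y)) ^ (4 * 2 ^ a) ≤ (x ⬝ᵥ x) ^ (2 * 2 ^ a) * (y ⬝ᵥ y) ^ (2 * 2 ^ a) * T.card *
      (∑ s : P → Bx B, κ (up B s) ^ 2 * W (4 * 2 ^ a) (up B s)) ^ (2 * 2 ^ a) := by
  set m := 2 ^ a with hm
  set E := ∑ s : P → Bx B, κ (up B s) ^ 2 * W (4 * m) (up B s) with hE
  have hE0 : 0 ≤ E := Finset.sum_nonneg fun s _ => mul_nonneg (sq_nonneg _) (W_nn _ _)
  have hxx : 0 ≤ x ⬝ᵥ x := Finset.sum_nonneg fun i _ => mul_self_nonneg _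
  have hyy : 0 ≤ y ⬝ᵥ y := Finset.sum_nonneg fun i _ => mul_self_nonneg _
  have hK2 : (K ^ 2).IsSymm := by rw [Matrix.IsSymm, Matrix.transpose_pow, hs.eq]
  have h1 : (x ⬝ᵥ (K *ᵥ y)) ^ 2 ≤ (y ⬝ᵥ y) * (x ⬝ᵥ ((K ^ 2) *ᵥ x)) := by
    rw [sym_dot hs]
    refine (cs_dot (K *ᵥ x) y).trans (le_of_eq ?_)
    rw [mul_comm]
    congr 1
    rw [← sym_dot hs, Matrix.mulVec_mulVec, sq]
  have h2 := cs_iter x a (K ^ 2) hK2
  rw [← hm, ← pow_mul] at h2
  set M := K ^ (2 * m) with hM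
  have hMs : M.IsSymm := by rw [Matrix.IsSymm, hM, Matrix.transpose_pow, hs.eq]
  -- Cauchy-Schwarz on entries
  have h3 : (x ⬝ᵥ (M *ᵥ x)) ^ 2 ≤ (x ⬝ᵥ x) ^ 2 * (T.card * E ^ (2 * m)) := by
    have e1 : x ⬝ᵥ (M *ᵥ x) = ∑ z ∈ T ×ˢ (Finset.univ : Finset V), (x z.1 * x z.2) * M z.1 z.2 := by
      rw [Finset.sum_product]
      have e2 : x ⬝ᵥ (M *ᵥ x) = ∑ v, x v * ∑ u, M v u * x u := rfl
      rw [e2]
      symm
      refine (Finset.sum_subset (Finset.subset_univ T) (fun v _ hv => ?_)).trans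
        (Finset.sum_congr rfl fun v _ => ?_)
      · refine Finset.sum_eq_zero fun u _ => ?_
        simp only [hx v hv, zero_mul]
      · rw [Finset.mul_sum]
        exact Finset.sum_congr rfl fun u _ => by ring
    rw [e1]
    refine (Finset.sum_mul_sq_le_sq_mul_sq _ _ _).trans ?_
    refine mul_le_mul ?_ ?_ (Finset.sum_nonneg fun z _ => sq_nonneg _) (sq_nonneg _)
    · rw [Finset.sum_product]
      have e3 : (x ⬝ᵥ x) ^ 2 = ∑ v, ∑ u, (x v * x u) ^ 2 := by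
        have : x ⬝ᵥ x = ∑ v, x v ^ 2 := Finset.sum_congr rfl fun v _ => by ring
        rw [this, sq, Finset.sum_mul_sum]
        exact Finset.sum_congr rfl fun v _ => Finset.sum_congr rfl fun u _ => by ring
      rw [e3]
      exact Finset.sum_le_sum_of_subset_of_nonneg (Finset.subset_univ _)
        (fun v _ _ => Finset.sum_nonneg fun u _ => sq_nonneg _)
    · rw [Finset.sum_product]
      have e4 : ∀ v, ∑ u, M v u ^ 2 = (K ^ (4 * m)) v v := by
        intro v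
        have e5 : K ^ (4 * m) = M * M := by rw [hM, ← pow_add]; congr 1; ring
        rw [e5, Matrix.mul_apply]
        refine Finset.sum_congr rfl fun u _ => ?_
        have : M u v = M v u := by
          conv_lhs => rw [← hMs.eq]
          rfl
        rw [this, sq]
      have e6 : ∀ v, (K ^ (4 * m)) v v ≤ E ^ (2 * m) := by
        intro v
        refine (pow_entry_le B hκ hκB K hK0 pos hK hinj (4 * m) v v).trans ?_
        rw [sub_self]
        refine (cN_zero_le B hκ (4 * m)).trans (le_of_eq ?_)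
        rw [show 4 * m = 2 * (2 * m) by ring, pow_mul, ← show 4 * m = 2 * (2 * m) by ring,
          Real.sq_sqrt hE0]
      calc ∑ v ∈ T, ∑ u, M v u ^ 2 ≤ ∑ _v ∈ T, E ^ (2 * m) :=
            Finset.sum_le_sum fun v _ => (le_of_eq (e4 v)).trans (e6 v)
        _ = T.card * E ^ (2 * m) := by rw [Finset.sum_const, nsmul_eq_mul]
  have h4 : (x ⬝ᵥ ((K ^ 2) *ᵥ x)) ^ (2 * m) ≤ (x ⬝ᵥ x) ^ (2 * m) * (T.card * E ^ (2 * m)) := by
    have h40 : 0 ≤ x ⬝ᵥ ((K ^ 2) *ᵥ x) := by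
      have e : x ⬝ᵥ ((K ^ 2) *ᵥ x) = (K *ᵥ x) ⬝ᵥ (K *ᵥ x) := by
        rw [← sym_dot hs, Matrix.mulVec_mulVec, sq]
      rw [e]
      exact Finset.sum_nonneg fun i _ => mul_self_nonneg _
    rw [mul_comm 2 m, pow_mul]
    refine (pow_le_pow_left₀ (pow_nonneg h40 _) h2 2).trans ?_
    rw [mul_pow]
    refine (mul_le_mul_of_nonneg_left h3 (sq_nonneg _)).trans (le_of_eq ?_)
    rw [← mul_assoc, mul_comm 2 m]
    congr 1
    rw [← pow_mul, ← pow_add]
    congr 1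
    have : 1 ≤ m := Nat.one_le_two_pow
    omega
  have h5 : (x ⬝ᵥ (K *ᵥ y)) ^ (4 * m) = ((x ⬝ᵥ (K *ᵥ y)) ^ 2) ^ (2 * m) := by
    rw [← pow_mul]; congr 1; ring
  rw [h5]
  refine (pow_le_pow_left₀ (sq_nonneg _) h1 _).trans ?_
  rw [mul_pow]
  refine (mul_le_mul_of_nonneg_left h4 (pow_nonneg hyy _)).trans (le_of_eq ?_)
  ring

end paths

section arith

/-- exponent vector on a finite set of primes. -/
def vec (S : Finset ℕ) (n : ℕ) : S → ℤ := fun p => (n.factorization p : ℤ)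

theorem om_prime (L : ℕ) {ε : ℝ} (hε : 0 < ε) : ∃ C1 : ℝ, 1 ≤ C1 ∧ ∃ P0 : ℕ, ∀ p v : ℕ, p.Prime →
    w0 L v ≤ (if p < P0 then C1 else 1) * ((p ^ v : ℕ) : ℝ) ^ ε := by
  have h2 : (1 : ℝ) < 2 ^ ε := Real.one_lt_rpow (by norm_num) hε
  obtain ⟨C', hC'⟩ := (tendsto_pow_const_div_const_pow_of_one_lt 2 h2).bddAbove_range
  refine ⟨max 1 (4 ^ (L + 1) * C'), le_max_left _ _, ⌈((4 : ℝ) ^ (L + 2)) ^ (1 / ε)⌉₊, ?_⟩
  intro p v hp
  have hp2 : (2 : ℝ) ≤ p := by exact_mod_cast hp.two_le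
  have hpv : (((p ^ v : ℕ) : ℝ)) ^ ε = ((p : ℝ) ^ ε) ^ v := by
    push_cast
    rw [← Real.rpow_natCast, ← Real.rpow_natCast, ← Real.rpow_mul (by positivity),
      ← Real.rpow_mul (by positivity), mul_comm]
  rw [hpv]
  rcases Nat.eq_zero_or_pos v with hv | hv
  · subst hv
    simp only [Nat.cast_zero, pow_zero, mul_one]
    rw [w0_zero]
    split_ifs
    · exact le_max_left _ _
    · exact le_rfl
  · have e : w0 L (v : ℤ) = 4 ^ (L + 1) * (v : ℝ) ^ 2 := by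
      rw [w0, if_neg (by exact_mod_cast hv.ne')]
      push_cast; rfl
    rw [e]
    split_ifs with hlt
    · have h3 : (v : ℝ) ^ 2 ≤ C' * (2 ^ ε) ^ v := by
        have := hC' ⟨v, rfl⟩
        simp only at this
        rwa [div_le_iff₀ (by positivity)] at this
      have h4 : ((2 : ℝ) ^ ε) ^ v ≤ ((p : ℝ) ^ ε) ^ v :=
        pow_le_pow_left₀ (by positivity) (Real.rpow_le_rpow (by norm_num) hp2 hε.le) _
      calc (4 : ℝ) ^ (L + 1) * (v : ℝ) ^ 2 ≤ 4 ^ (L + 1) * (C' * (2 ^ ε) ^ v) :=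
            mul_le_mul_of_nonneg_left h3 (by positivity)
        _ = (4 ^ (L + 1) * C') * (2 ^ ε) ^ v := by ring
        _ ≤ max 1 (4 ^ (L + 1) * C') * (2 ^ ε) ^ v :=
            mul_le_mul_of_nonneg_right (le_max_right _ _) (by positivity)
        _ ≤ max 1 (4 ^ (L + 1) * C') * ((p : ℝ) ^ ε) ^ v :=
            mul_le_mul_of_nonneg_left h4 (by positivity)
    · rw [one_mul]
      have h5 : ((4 : ℝ) ^ (L + 2)) ^ (1 / ε) ≤ p :=
        (Nat.le_ceil _).trans (by exact_mod_cast not_lt.1 hlt)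
      have h6 : (4 : ℝ) ^ (L + 2) ≤ (p : ℝ) ^ ε := by
        have := Real.rpow_le_rpow (by positivity) h5 hε.le
        rwa [← Real.rpow_mul (by positivity), one_div, inv_mul_cancel₀ hε.ne', Real.rpow_one] at this
      have h7 : (v : ℝ) ^ 2 ≤ 4 ^ v := by
        have : v ≤ 2 ^ v := (Nat.lt_two_pow_self).le
        have h8 : (v : ℝ) ≤ 2 ^ v := by exact_mod_cast this
        calc (v : ℝ) ^ 2 ≤ (2 ^ v) ^ 2 := pow_le_pow_left₀ (by positivity) h8 2
          _ = 4 ^ v := by rw [← pow_mul, mul_comm, pow_mul]; norm_num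
      have h9 : (4 : ℝ) ^ (L + 1) ≤ (4 ^ (L + 1)) ^ v := by
        have : (1 : ℝ) ≤ 4 ^ (L + 1) := one_le_pow₀ (by norm_num)
        exact le_self_pow₀ this hv.ne'
      calc (4 : ℝ) ^ (L + 1) * (v : ℝ) ^ 2 ≤ (4 ^ (L + 1)) ^ v * 4 ^ v :=
            mul_le_mul h9 h7 (by positivity) (by positivity)
        _ = ((4 : ℝ) ^ (L + 2)) ^ v := by rw [← mul_pow]; congr 1
        _ ≤ ((p : ℝ) ^ ε) ^ v := pow_le_pow_left₀ (by positivity) h6 _

theorem om_le (L : ℕ) {ε : ℝ} (hε : 0 < ε) : ∃ C : ℝ, 1 ≤ C ∧ ∀ (S : Finset ℕ) (n : ℕ),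
    (∀ p ∈ S, p.Prime) → 0 < n → ∏ p ∈ S, w0 L (n.factorization p) ≤ C * (n : ℝ) ^ ε := by
  obtain ⟨C1, hC1, P0, h⟩ := om_prime L hε
  refine ⟨C1 ^ P0, one_le_pow₀ hC1, ?_⟩
  intro S n hS hn
  have h1 : ∏ p ∈ S, w0 L (n.factorization p) ≤
      ∏ p ∈ S, ((if p < P0 then C1 else 1) * ((p ^ n.factorization p : ℕ) : ℝ) ^ ε) :=
    Finset.prod_le_prod (fun p _ => w0_nn _ _) (fun p hp => h p _ (hS p hp))
  refine h1.trans ?_
  rw [Finset.prod_mul_distrib]
  refine mul_le_mul ?_ ?_ (Finset.prod_nonneg fun p _ => by positivity) (by positivity)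
  · rw [Finset.prod_ite, Finset.prod_const, Finset.prod_const, one_pow, mul_one]
    refine pow_le_pow_right₀ hC1 ?_
    calc (S.filter (fun p => p < P0)).card ≤ (Finset.range P0).card :=
          Finset.card_le_card (fun p hp => Finset.mem_range.2 (Finset.mem_filter.1 hp).2)
      _ = P0 := Finset.card_range _
  · rw [Real.finsetProd_rpow _ _ (fun p _ => by positivity)]
    refine Real.rpow_le_rpow (Finset.prod_nonneg fun p _ => by positivity) ?_ hε.le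
    have h2 : ∏ p ∈ S, p ^ n.factorization p ≤ n := by
      have h3 : ∏ p ∈ S, p ^ n.factorization p ≤ ∏ p ∈ S ∪ n.primeFactors, p ^ n.factorization p := by
        refine Finset.prod_le_prod_of_subset_of_one_le' Finset.subset_union_left ?_
        intro p hp hpS
        have : p.Prime := by
          rcases Finset.mem_union.1 hp with h4 | h4
          · exact absurd h4 hpS
          · exact Nat.prime_of_mem_primeFactors h4
        exact Nat.one_le_pow _ _ this.pos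
      refine h3.trans (le_of_eq ?_)
      have h4 : ∏ p ∈ S ∪ n.primeFactors, p ^ n.factorization p =
          ∏ p ∈ n.primeFactors, p ^ n.factorization p := by
        symm
        refine Finset.prod_subset Finset.subset_union_right (fun p _ hp => ?_)
        have : n.factorization p = 0 := by
          rw [← Nat.support_factorization] at hp
          exact Finsupp.notMem_support_iff.1 hp
        rw [this, pow_zero]
      rw [h4]
      exact Nat.prod_factorization_pow_eq_self hn.ne'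
    exact_mod_cast h2

/-- one of the exponents of two coprime numbers vanishes. -/
theorem cop_fac {a b : ℕ} (hab : a.Coprime b) (ha : 0 < a) (hb : 0 < b) {p : ℕ} (hp : p.Prime) :
    a.factorization p = 0 ∨ b.factorization p = 0 := by
  by_contra hcon
  push Not at hcon
  have h1 : p ∣ a := (hp.dvd_iff_one_le_factorization ha.ne').2 (Nat.one_le_iff_ne_zero.2 hcon.1)
  have h2 : p ∣ b := (hp.dvd_iff_one_le_factorization hb.ne').2 (Nat.one_le_iff_ne_zero.2 hcon.2)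
  exact Nat.Prime.one_lt hp |>.ne' (Nat.eq_one_of_dvd_coprimes hab h1 h2)

theorem W_cop {L : ℕ} {S : Finset ℕ} (hS : ∀ p ∈ S, p.Prime) {a b : ℕ} (hab : a.Coprime b)
    (ha : 0 < a) (hb : 0 < b) : W L (vec S a - vec S b) =
      (∏ p ∈ S, w0 L (a.factorization p)) * ∏ p ∈ S, w0 L (b.factorization p) := by
  rw [← Finset.prod_coe_sort S (fun p => w0 L (a.factorization p)),
    ← Finset.prod_coe_sort S (fun p => w0 L (b.factorization p)), ← Finset.prod_mul_distrib, W]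
  refine Finset.prod_congr rfl fun p _ => ?_
  show w0 L ((a.factorization p : ℤ) - (b.factorization p : ℤ)) = _
  rcases cop_fac hab ha hb (hS p p.2) with h | h
  · rw [h]
    simp only [Nat.cast_zero, zero_sub, w0_zero, one_mul]
    exact w0_neg _ _
  · rw [h]
    simp only [Nat.cast_zero, sub_zero, w0_zero, mul_one]

theorem vec_inj {S : Finset ℕ} {a b : ℕ} (ha : 0 < a) (hb : 0 < b) (haS : a.primeFactors ⊆ S)
    (hbS : b.primeFactors ⊆ S) (h : vec S a = vec S b) : a = b := by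
  refine Nat.eq_of_factorization_eq ha.ne' hb.ne' (fun p => ?_)
  by_cases hp : p ∈ S
  · exact Int.ofNat_inj.1 (congrFun h ⟨p, hp⟩ : (a.factorization p : ℤ) = b.factorization p)
  · have h1 : p ∉ a.primeFactors := fun h => hp (haS h)
    have h2 : p ∉ b.primeFactors := fun h => hp (hbS h)
    rw [← Nat.support_factorization] at h1 h2
    rw [Finsupp.notMem_support_iff.1 h1, Finsupp.notMem_support_iff.1 h2]

theorem phi_inj {S : Finset ℕ} (hS : ∀ p ∈ S, p.Prime) {a b a' b' : ℕ} (hab : a.Coprime b)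
    (ha : 0 < a) (hb : 0 < b) (hab' : a'.Coprime b') (ha' : 0 < a') (hb' : 0 < b')
    (h1 : a.primeFactors ⊆ S) (h2 : b.primeFactors ⊆ S) (h3 : a'.primeFactors ⊆ S)
    (h4 : b'.primeFactors ⊆ S) (h : vec S a - vec S b = vec S a' - vec S b') :
    a = a' ∧ b = b' := by
  have key : ∀ p : S, a.factorization p = a'.factorization p ∧
      b.factorization p = b'.factorization p := by
    intro p
    have e : (a.factorization p : ℤ) - b.factorization p =
      a'.factorization p - b'.factorization p := congrFun h p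
    rcases cop_fac hab ha hb (hS p p.2) with h5 | h5 <;>
      rcases cop_fac hab' ha' hb' (hS p p.2) with h6 | h6 <;> rw [h5, h6] at e ⊢ <;>
      constructor <;> push_cast at e <;> omega
  constructor
  · exact vec_inj ha ha' h1 h3 (funext fun p => Int.ofNat_inj.2 (key p).1)
  · exact vec_inj hb hb' h2 h4 (funext fun p => Int.ofNat_inj.2 (key p).2)

/-- the kernel of a finite set of coprime pairs. -/
noncomputable def kap (S : Finset ℕ) (Q : Finset (ℕ × ℕ)) (g : ℕ × ℕ → ℝ) (h : S → ℤ) : ℝ :=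
  ∑ z ∈ Q, ind (vec S z.1 - vec S z.2 = h) * g z

theorem kap_sq {S : Finset ℕ} {Q : Finset (ℕ × ℕ)} {g : ℕ × ℕ → ℝ}
    (hinj : ∀ z ∈ Q, ∀ z' ∈ Q, vec S z.1 - vec S z.2 = vec S z'.1 - vec S z'.2 → z = z')
    (h : S → ℤ) : kap S Q g h ^ 2 = ∑ z ∈ Q, ind (vec S z.1 - vec S z.2 = h) * g z ^ 2 := by
  unfold kap
  by_cases hex : ∃ z0 ∈ Q, vec S z0.1 - vec S z0.2 = h
  · obtain ⟨z0, hz0, e⟩ := hex
    rw [Finset.sum_eq_single z0, Finset.sum_eq_single z0]
    · rw [ind_t e]; ring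
    · intro z hz hne
      rw [ind_f, zero_mul]
      intro e'
      exact hne (hinj z hz z0 hz0 (e'.trans e.symm))
    · intro h'; exact absurd hz0 h'
    · intro z hz hne
      rw [ind_f, zero_mul]
      intro e'
      exact hne (hinj z hz z0 hz0 (e'.trans e.symm))
    · intro h'; exact absurd hz0 h'
  · push Not at hex
    rw [Finset.sum_eq_zero, Finset.sum_eq_zero]
    · norm_num
    · intro z hz; rw [ind_f (hex z hz), zero_mul]
    · intro z hz; rw [ind_f (hex z hz), zero_mul]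

theorem kap_E {L : ℕ} {B : ℕ} {S : Finset ℕ} {Q : Finset (ℕ × ℕ)} {g : ℕ × ℕ → ℝ}
    (hinj : ∀ z ∈ Q, ∀ z' ∈ Q, vec S z.1 - vec S z.2 = vec S z'.1 - vec S z'.2 → z = z')
    {M : ℝ} (hM : ∀ z ∈ Q, W L (vec S z.1 - vec S z.2) ≤ M) :
    ∑ s : S → Bx B, kap S Q g (up B s) ^ 2 * W L (up B s) ≤ M * ∑ z ∈ Q, g z ^ 2 := by
  calc ∑ s : S → Bx B, kap S Q g (up B s) ^ 2 * W L (up B s)
      = ∑ s : S → Bx B, ∑ z ∈ Q, ind (vec S z.1 - vec S z.2 = up B s) * g z ^ 2 *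
          W L (up B s) := by
        refine Finset.sum_congr rfl fun s _ => ?_
        rw [kap_sq hinj, Finset.sum_mul]
    _ = ∑ z ∈ Q, ∑ s : S → Bx B, ind (vec S z.1 - vec S z.2 = up B s) * g z ^ 2 *
          W L (up B s) := Finset.sum_comm
    _ ≤ ∑ z ∈ Q, M * g z ^ 2 := by
        refine Finset.sum_le_sum fun z hz => ?_
        have hW := hM z hz
        by_cases hex : ∃ s : S → Bx B, vec S z.1 - vec S z.2 = up B s
        · obtain ⟨s0, h0⟩ := hex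
          rw [Finset.sum_eq_single s0]
          · rw [ind_t h0, ← h0, one_mul, mul_comm]
            exact mul_le_mul_of_nonneg_right hW (sq_nonneg _)
          · intro s _ hne
            rw [ind_f, zero_mul, zero_mul]
            intro e
            exact hne (up_inj B (e.symm.trans h0))
          · intro h; exact absurd (Finset.mem_univ _) h
        · push Not at hex
          rw [Finset.sum_eq_zero]
          · exact mul_nonneg ((W_nn _ _).trans hW) (sq_nonneg _)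
          · intro s _
            rw [ind_f (hex s), zero_mul, zero_mul]
    _ = M * ∑ z ∈ Q, g z ^ 2 := by rw [Finset.mul_sum]

/-- the kernel value of a pair of numbers. -/
noncomputable def kv (Q : Finset (ℕ × ℕ)) (g : ℕ × ℕ → ℝ) (i j : ℕ) : ℝ :=
  ∑ z ∈ Q, ind (z = (i / i.gcd j, j / i.gcd j)) * g z

theorem kv_nn {Q : Finset (ℕ × ℕ)} {g : ℕ × ℕ → ℝ} (hg : ∀ z ∈ Q, 0 ≤ g z) (i j : ℕ) :
    0 ≤ kv Q g i j := Finset.sum_nonneg fun z hz => mul_nonneg (ind_nn _) (hg z hz)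

theorem kv_mem {Q : Finset (ℕ × ℕ)} {g : ℕ × ℕ → ℝ} {i j : ℕ}
    (h : (i / i.gcd j, j / i.gcd j) ∈ Q) : kv Q g i j = g (i / i.gcd j, j / i.gcd j) := by
  unfold kv
  rw [Finset.sum_eq_single_of_mem _ h]
  · rw [ind_t rfl, one_mul]
  · intro z _ hne; rw [ind_f hne, zero_mul]

theorem kv_not {Q : Finset (ℕ × ℕ)} {g : ℕ × ℕ → ℝ} {i j : ℕ}
    (h : (i / i.gcd j, j / i.gcd j) ∉ Q) : kv Q g i j = 0 := by
  unfold kv
  refine Finset.sum_eq_zero fun z hz => ?_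
  rw [ind_f, zero_mul]
  rintro rfl
  exact h hz

theorem vec_div {S : Finset ℕ} {i j : ℕ} (hi : 0 < i) (hj : 0 < j) :
    vec S (i / i.gcd j) - vec S (j / i.gcd j) = vec S i - vec S j := by
  funext p
  show ((i / i.gcd j).factorization p : ℤ) - ((j / i.gcd j).factorization p : ℤ) =
    (i.factorization p : ℤ) - (j.factorization p : ℤ)
  have hg : 0 < i.gcd j := Nat.gcd_pos_of_pos_left _ hi
  have h1 : (i / i.gcd j).factorization p + (i.gcd j).factorization p = i.factorization p := by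
    rw [← Finsupp.add_apply, ← Nat.factorization_mul (Nat.div_pos (Nat.le_of_dvd hi
      (Nat.gcd_dvd_left i j)) hg).ne' hg.ne', Nat.div_mul_cancel (Nat.gcd_dvd_left i j)]
  have h2 : (j / i.gcd j).factorization p + (i.gcd j).factorization p = j.factorization p := by
    rw [← Finsupp.add_apply, ← Nat.factorization_mul (Nat.div_pos (Nat.le_of_dvd hj
      (Nat.gcd_dvd_right i j)) hg).ne' hg.ne', Nat.div_mul_cancel (Nat.gcd_dvd_right i j)]
  omega

/-- the bipartite matrix. -/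
noncomputable def bip (Q : Finset (ℕ × ℕ)) (g : ℕ × ℕ → ℝ) (F G : Finset ℕ) :
    Matrix (F ⊕ G) (F ⊕ G) ℝ := fun a b =>
  match a, b with
  | Sum.inl i, Sum.inr j => kv Q g i j
  | Sum.inr j, Sum.inl i => kv Q g i j
  | _, _ => 0

theorem bip_ll {Q : Finset (ℕ × ℕ)} {g : ℕ × ℕ → ℝ} {F G : Finset ℕ} (i j : F) :
    bip Q g F G (Sum.inl i) (Sum.inl j) = 0 := by unfold bip; rfl
theorem bip_rr {Q : Finset (ℕ × ℕ)} {g : ℕ × ℕ → ℝ} {F G : Finset ℕ} (i j : G) :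
    bip Q g F G (Sum.inr i) (Sum.inr j) = 0 := by unfold bip; rfl
theorem bip_lr {Q : Finset (ℕ × ℕ)} {g : ℕ × ℕ → ℝ} {F G : Finset ℕ} (i : F) (j : G) :
    bip Q g F G (Sum.inl i) (Sum.inr j) = kv Q g i j := by unfold bip; rfl
theorem bip_rl {Q : Finset (ℕ × ℕ)} {g : ℕ × ℕ → ℝ} {F G : Finset ℕ} (i : F) (j : G) :
    bip Q g F G (Sum.inr j) (Sum.inl i) = kv Q g i j := by unfold bip; rfl

theorem primeFactors_div {n d : ℕ} (hd : d ∣ n) (hn : 0 < n) :
    (n / d).primeFactors ⊆ n.primeFactors :=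
  Nat.primeFactors_mono (Nat.div_dvd_of_dvd hd) hn.ne'

open Matrix in
/-- **GCD-sum lemma, general kernel.** -/
theorem gcd_kernel (a : ℕ) {ε : ℝ} (hε : 0 < ε) : ∃ C : ℝ, 1 ≤ C ∧ ∀ (Y : ℕ)
    (Q : Finset (ℕ × ℕ)) (g : ℕ × ℕ → ℝ) (F G : Finset ℕ) (x y : ℕ → ℝ),
    (∀ z ∈ Q, 0 < z.1 ∧ 0 < z.2 ∧ z.1.Coprime z.2 ∧ z.1 ≤ Y ∧ z.2 ≤ Y) →
    (∀ z ∈ Q, 0 ≤ g z) → (∀ i ∈ F, 0 < i) → (∀ j ∈ G, 0 < j) →
    (∑ i ∈ F, ∑ j ∈ G, x i * y j * kv Q g i j) ^ (4 * 2 ^ a) ≤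
      (∑ i ∈ F, x i ^ 2) ^ (2 * 2 ^ a) * (∑ j ∈ G, y j ^ 2) ^ (2 * 2 ^ a) * F.card *
        (C * (Y : ℝ) ^ ε * ∑ z ∈ Q, g z ^ 2) ^ (2 * 2 ^ a) := by
  obtain ⟨C0, hC0, hom⟩ := om_le (4 * 2 ^ a) (half_pos hε)
  refine ⟨4 * C0 ^ 2, by nlinarith, ?_⟩
  intro Y Q g F G x y hQ hg hF hG
  -- primes
  set S : Finset ℕ := (F ∪ G).biUnion Nat.primeFactors with hSd
  have hS : ∀ p ∈ S, p.Prime := by
    intro p hp
    obtain ⟨n, _, hn⟩ := Finset.mem_biUnion.1 hp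
    exact Nat.prime_of_mem_primeFactors hn
  have hFS : ∀ i ∈ F, i.primeFactors ⊆ S := fun i hi p hp =>
    Finset.mem_biUnion.2 ⟨i, Finset.mem_union_left _ hi, hp⟩
  have hGS : ∀ j ∈ G, j.primeFactors ⊆ S := fun j hj p hp =>
    Finset.mem_biUnion.2 ⟨j, Finset.mem_union_right _ hj, hp⟩
  set Q' := Q.filter (fun z => z.1.primeFactors ⊆ S ∧ z.2.primeFactors ⊆ S) with hQ'
  have hQQ : ∀ z ∈ Q', z ∈ Q := fun z hz => (Finset.mem_filter.1 hz).1
  have hinj : ∀ z ∈ Q', ∀ z' ∈ Q', vec S z.1 - vec S z.2 = vec S z'.1 - vec S z'.2 → z = z' := by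
    intro z hz z' hz' e
    obtain ⟨h1, h2, h3, _, _⟩ := hQ z (hQQ z hz)
    obtain ⟨h1', h2', h3', _, _⟩ := hQ z' (hQQ z' hz')
    have h4 := (Finset.mem_filter.1 hz).2
    have h4' := (Finset.mem_filter.1 hz').2
    obtain ⟨h5, h6⟩ := phi_inj hS h3 h1 h2 h3' h1' h2' h4.1 h4.2 h4'.1 h4'.2 e
    exact Prod.ext h5 h6
  -- the two kernels
  set Qs := Q'.image Prod.swap with hQs
  set gs : ℕ × ℕ → ℝ := fun z => g z.swap with hgs
  set κ1 := kap S Q' g with hκ1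
  set κ2 := kap S Qs gs with hκ2
  have hκ10 : ∀ h, 0 ≤ κ1 h := fun h => Finset.sum_nonneg fun z hz =>
    mul_nonneg (ind_nn _) (hg z (hQQ z hz))
  have hmemQs : ∀ z ∈ Qs, z.swap ∈ Q' := by
    intro z hz
    obtain ⟨z', hz', rfl⟩ := Finset.mem_image.1 hz
    simpa using hz'
  have hκ20 : ∀ h, 0 ≤ κ2 h := fun h => Finset.sum_nonneg fun z hz =>
    mul_nonneg (ind_nn _) (hg _ (hQQ _ (hmemQs z hz)))
  have hneg : ∀ h, κ2 h = κ1 (-h) := by
    intro h
    show ∑ z ∈ Q'.image Prod.swap, ind (vec S z.1 - vec S z.2 = h) * g z.swap = _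
    rw [Finset.sum_image (fun z _ z' _ e => Prod.swap_injective e)]
    refine Finset.sum_congr rfl fun z _ => ?_
    rw [Prod.swap_swap]
    congr 1
    refine ind_congr ?_
    show vec S z.2 - vec S z.1 = h ↔ _
    constructor
    · intro e; rw [← e]; abel
    · intro e; rw [← neg_eq_iff_eq_neg.2 e]; abel
  set κ : (S → ℤ) → ℝ := fun h => κ1 h + κ2 h with hκd
  have hκ0 : ∀ h, 0 ≤ κ h := fun h => add_nonneg (hκ10 h) (hκ20 h)
  -- the box
  have hfac : ∀ n : ℕ, 0 < n → n ≤ Y → ∀ p, (n.factorization p : ℤ) ≤ Y := by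
    intro n hn hY p
    have := Nat.factorization_lt p hn.ne'
    exact_mod_cast (this.le.trans hY)
  have hκB1 : ∀ h, κ1 h ≠ 0 → ∀ p, h p ∈ Finset.Icc (-(Y : ℤ)) Y := by
    intro h hne p
    obtain ⟨z, hz, hz'⟩ := Finset.exists_ne_zero_of_sum_ne_zero hne
    have e : vec S z.1 - vec S z.2 = h := by
      by_contra hcon
      rw [ind_f hcon, zero_mul] at hz'
      exact hz' rfl
    obtain ⟨h1, h2, _, h4, h5⟩ := hQ z (hQQ z hz)
    have e1 : h p = (z.1.factorization p : ℤ) - (z.2.factorization p : ℤ) := by rw [← e]; rfl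
    have h6 := hfac z.1 h1 h4 p
    have h7 := hfac z.2 h2 h5 p
    rw [Finset.mem_Icc, e1]
    constructor <;> omega
  have hκB : ∀ h, κ h ≠ 0 → ∀ p, h p ∈ Finset.Icc (-(Y : ℤ)) Y := by
    intro h hne p
    by_cases h1 : κ1 h = 0
    · have h2 : κ1 (-h) ≠ 0 := by
        intro h3
        apply hne
        simp only [hκd, h1, hneg, h3, add_zero]
      have h3 := hκB1 (-h) h2 p
      rw [Finset.mem_Icc] at h3 ⊢
      simp only [Pi.neg_apply] at h3
      constructor <;> omega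
    · exact hκB1 h h1 p
  -- energy
  have hWM : ∀ z ∈ Q, W (4 * 2 ^ a) (vec S z.1 - vec S z.2) ≤ C0 ^ 2 * (Y : ℝ) ^ ε := by
    intro z hz
    obtain ⟨h1, h2, h3, h4, h5⟩ := hQ z hz
    rw [W_cop hS h3 h1 h2]
    have hb : ∀ n : ℕ, 0 < n → n ≤ Y → ∏ p ∈ S, w0 (4 * 2 ^ a) (n.factorization p) ≤
        C0 * (Y : ℝ) ^ (ε / 2) := by
      intro n hn hY
      refine (hom S n hS hn).trans (mul_le_mul_of_nonneg_left ?_ (by linarith))
      exact Real.rpow_le_rpow (Nat.cast_nonneg _) (by exact_mod_cast hY) (by linarith)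
    refine (mul_le_mul (hb _ h1 h4) (hb _ h2 h5) (Finset.prod_nonneg fun p _ => w0_nn _ _)
      (mul_nonneg (by linarith) (by positivity))).trans (le_of_eq ?_)
    have hY0 : (0 : ℝ) < Y := by exact_mod_cast lt_of_lt_of_le h1 h4
    have : (Y : ℝ) ^ ε = (Y : ℝ) ^ (ε / 2) * (Y : ℝ) ^ (ε / 2) := by
      rw [← Real.rpow_add hY0]; congr 1; ring
    rw [this]; ring
  have hWneg : ∀ z : ℕ × ℕ, W (4 * 2 ^ a) (vec S z.1 - vec S z.2) =
      W (4 * 2 ^ a) (vec S z.2 - vec S z.1) := by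
    intro z
    refine Finset.prod_congr rfl fun p _ => ?_
    rw [← w0_neg]
    congr 1
    simp
  have hE1 := kap_E (B := Y) (g := g) hinj (fun z hz => hWM z (hQQ z hz))
  have hE2 := kap_E (L := 4 * 2 ^ a) (B := Y) (S := S) (Q := Qs) (g := gs)
    (M := C0 ^ 2 * (Y : ℝ) ^ ε)
    (by
      intro z hz z' hz' e
      have h1 := hinj _ (hmemQs z hz) _ (hmemQs z' hz') (by
        show vec S z.2 - vec S z.1 = vec S z'.2 - vec S z'.1
        rw [← neg_sub, e, neg_sub])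
      exact Prod.swap_injective h1)
    (fun z hz => by
      have h1 := hWM z.swap (hQQ _ (hmemQs z hz))
      rw [Prod.fst_swap, Prod.snd_swap] at h1
      rw [hWneg]
      exact h1)
  have hsum2 : ∑ z ∈ Qs, gs z ^ 2 = ∑ z ∈ Q', g z ^ 2 := by
    rw [hQs, Finset.sum_image (fun z _ z' _ e => Prod.swap_injective e)]
    exact Finset.sum_congr rfl fun z _ => by simp [hgs]
  rw [hsum2] at hE2
  have hsub : ∑ z ∈ Q', g z ^ 2 ≤ ∑ z ∈ Q, g z ^ 2 :=
    Finset.sum_le_sum_of_subset_of_nonneg (Finset.filter_subset _ _) (fun z _ _ => sq_nonneg _)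
  have hE : ∑ s : S → Bx Y, κ (up Y s) ^ 2 * W (4 * 2 ^ a) (up Y s) ≤
      4 * C0 ^ 2 * (Y : ℝ) ^ ε * ∑ z ∈ Q, g z ^ 2 := by
    have h1 : ∑ s : S → Bx Y, κ (up Y s) ^ 2 * W (4 * 2 ^ a) (up Y s) ≤
        2 * ∑ s : S → Bx Y, κ1 (up Y s) ^ 2 * W (4 * 2 ^ a) (up Y s) +
        2 * ∑ s : S → Bx Y, κ2 (up Y s) ^ 2 * W (4 * 2 ^ a) (up Y s) := by
      rw [Finset.mul_sum, Finset.mul_sum, ← Finset.sum_add_distrib]
      refine Finset.sum_le_sum fun s _ => ?_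
      have hW := W_nn (4 * 2 ^ a) (up Y s)
      show (κ1 (up Y s) + κ2 (up Y s)) ^ 2 * _ ≤ _
      nlinarith [mul_nonneg (sq_nonneg (κ1 (up Y s) - κ2 (up Y s))) hW]
    have hCY : 0 ≤ C0 ^ 2 * (Y : ℝ) ^ ε := by positivity
    have h2 := mul_le_mul_of_nonneg_left hsub hCY
    refine h1.trans ?_
    have h3 : ∑ s : S → Bx Y, κ1 (up Y s) ^ 2 * W (4 * 2 ^ a) (up Y s) ≤
      C0 ^ 2 * (Y : ℝ) ^ ε * ∑ z ∈ Q', g z ^ 2 := hE1
    have h4 : ∑ s : S → Bx Y, κ2 (up Y s) ^ 2 * W (4 * 2 ^ a) (up Y s) ≤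
      C0 ^ 2 * (Y : ℝ) ^ ε * ∑ z ∈ Q', g z ^ 2 := hE2
    linarith
  -- the matrix
  set K := bip Q g F G with hK
  set pos : F ⊕ G → S → ℤ := Sum.elim (fun i => vec S i) (fun j => vec S j) with hpos
  have hKs : K.IsSymm := by
    ext a b
    rcases a with i | i <;> rcases b with j | j
    · rw [Matrix.transpose_apply, hK, bip_ll, bip_ll]
    · rw [Matrix.transpose_apply, hK, bip_lr, bip_rl]
    · rw [Matrix.transpose_apply, hK, bip_lr, bip_rl]
    · rw [Matrix.transpose_apply, hK, bip_rr, bip_rr]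
  have hK0 : ∀ a b, 0 ≤ K a b := by
    intro a b
    rcases a with i | i <;> rcases b with j | j
    · rw [hK, bip_ll]
    · rw [hK, bip_lr]; exact kv_nn hg _ _
    · rw [hK, bip_rl]; exact kv_nn hg _ _
    · rw [hK, bip_rr]
  have hkey : ∀ i ∈ F, ∀ j ∈ G, kv Q g i j ≤ κ1 (vec S i - vec S j) := by
    intro i hi j hj
    by_cases hm : (i / i.gcd j, j / i.gcd j) ∈ Q
    · rw [kv_mem hm]
      have hm' : (i / i.gcd j, j / i.gcd j) ∈ Q' := by
        refine Finset.mem_filter.2 ⟨hm, ?_, ?_⟩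
        · exact (primeFactors_div (Nat.gcd_dvd_left i j) (hF i hi)).trans (hFS i hi)
        · exact (primeFactors_div (Nat.gcd_dvd_right i j) (hG j hj)).trans (hGS j hj)
      have h1 := Finset.single_le_sum (f := fun z => ind (vec S z.1 - vec S z.2 =
        vec S i - vec S j) * g z) (fun z hz => mul_nonneg (ind_nn _) (hg z (hQQ z hz))) hm'
      refine le_trans (le_of_eq ?_) h1
      show _ = ind (vec S (i / i.gcd j) - vec S (j / i.gcd j) = vec S i - vec S j) * _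
      rw [ind_t (vec_div (hF i hi) (hG j hj)), one_mul]
    · rw [kv_not hm]; exact hκ10 _
  have hKκ : ∀ a b, K a b ≤ κ (pos a - pos b) := by
    intro a b
    rcases a with i | i <;> rcases b with j | j
    · rw [hK, bip_ll]; exact hκ0 _
    · rw [hK, bip_lr]
      exact (hkey i i.2 j j.2).trans (le_add_of_nonneg_right (hκ20 _))
    · rw [hK, bip_rl]
      refine (hkey j j.2 i i.2).trans ?_
      have h1 : κ1 (vec S j - vec S i) = κ2 (vec S i - vec S j) := by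
        rw [hneg, neg_sub]
      show κ1 (vec S j - vec S i) ≤ κ1 (vec S i - vec S j) + κ2 (vec S i - vec S j)
      rw [h1]
      exact le_add_of_nonneg_left (hκ10 _)
    · rw [hK, bip_rr]; exact hκ0 _
  have hKinj : ∀ a b b', K a b ≠ 0 → K a b' ≠ 0 → pos b = pos b' → b = b' := by
    intro a b b' h1 h2 h3
    rcases a with i | i <;> rcases b with j | j
    · exact absurd (by rw [hK, bip_ll]) h1
    · rcases b' with j' | j'
      · exact absurd (by rw [hK, bip_ll]) h2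
      · exact congrArg Sum.inr
          (Subtype.ext (vec_inj (hG _ j.2) (hG _ j'.2) (hGS _ j.2) (hGS _ j'.2) h3))
    · rcases b' with j' | j'
      · exact congrArg Sum.inl
          (Subtype.ext (vec_inj (hF _ j.2) (hF _ j'.2) (hFS _ j.2) (hFS _ j'.2) h3))
      · exact absurd (by rw [hK, bip_rr]) h2
    · exact absurd (by rw [hK, bip_rr]) h1
  set xx : F ⊕ G → ℝ := Sum.elim (fun i => x i) (fun _ => 0) with hxx
  set yy : F ⊕ G → ℝ := Sum.elim (fun _ => 0) (fun j => y j) with hyy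
  set T : Finset (F ⊕ G) := Finset.univ.image Sum.inl with hT
  have hTc : T.card = F.card := by
    rw [hT, Finset.card_image_of_injective _ Sum.inl_injective, Finset.card_univ,
      Fintype.card_coe]
  have hxT : ∀ v, v ∉ T → xx v = 0 := by
    intro v hv
    rcases v with i | j
    · exact absurd (Finset.mem_image.2 ⟨i, Finset.mem_univ _, rfl⟩) hv
    · rfl
  have hmain := kernel_main Y hκ0 hκB K hKs hK0 pos hKκ hKinj a T xx yy hxT
  have e1 : xx ⬝ᵥ (K *ᵥ yy) = ∑ i ∈ F, ∑ j ∈ G, x i * y j * kv Q g i j := by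
    show ∑ v, xx v * ∑ u, K v u * yy u = _
    rw [Fintype.sum_sum_type]
    have e2 : ∑ v : G, xx (Sum.inr v) * ∑ u, K (Sum.inr v) u * yy u = 0 :=
      Finset.sum_eq_zero fun v _ => by simp [hxx]
    rw [e2, add_zero, ← Finset.sum_coe_sort F]
    refine Finset.sum_congr rfl fun i _ => ?_
    rw [Fintype.sum_sum_type]
    have e3 : ∑ u : F, K (Sum.inl i) (Sum.inl u) * yy (Sum.inl u) = 0 :=
      Finset.sum_eq_zero fun v _ => by simp [hyy]
    rw [e3, zero_add, ← Finset.sum_coe_sort G, Finset.mul_sum]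
    refine Finset.sum_congr rfl fun j _ => ?_
    rw [hK, bip_lr]
    show x i * (kv Q g i j * y j) = _
    ring
  have e4 : xx ⬝ᵥ xx = ∑ i ∈ F, x i ^ 2 := by
    show ∑ v, xx v * xx v = _
    rw [Fintype.sum_sum_type, ← Finset.sum_coe_sort F]
    have : ∑ v : G, xx (Sum.inr v) * xx (Sum.inr v) = 0 :=
      Finset.sum_eq_zero fun v _ => by simp [hxx]
    rw [this, add_zero]
    exact Finset.sum_congr rfl fun i _ => by simp [hxx, sq]
  have e5 : yy ⬝ᵥ yy = ∑ j ∈ G, y j ^ 2 := by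
    show ∑ v, yy v * yy v = _
    rw [Fintype.sum_sum_type, ← Finset.sum_coe_sort G]
    have : ∑ v : F, yy (Sum.inl v) * yy (Sum.inl v) = 0 :=
      Finset.sum_eq_zero fun v _ => by simp [hyy]
    rw [this, zero_add]
    exact Finset.sum_congr rfl fun i _ => by simp [hyy, sq]
  rw [e1, e4, e5, hTc] at hmain
  refine hmain.trans ?_
  refine mul_le_mul_of_nonneg_left ?_ ?_
  · refine pow_le_pow_left₀ (Finset.sum_nonneg fun s _ => mul_nonneg (sq_nonneg _) (W_nn _ _)) ?_ _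
    exact hE
  · exact mul_nonneg (mul_nonneg (pow_nonneg (Finset.sum_nonneg fun i _ => sq_nonneg _) _)
      (pow_nonneg (Finset.sum_nonneg fun i _ => sq_nonneg _) _)) (Nat.cast_nonneg _)

end arith

section cong

/-- coprime pairs `D ≠ D'`, `D ≡ D' mod k`, up to `Y`. -/
def Qc (k Y : ℕ) : Finset (ℕ × ℕ) :=
  ((Finset.Icc 1 Y) ×ˢ (Finset.Icc 1 Y)).filter
    (fun z => z.1.Coprime z.2 ∧ z.1 ≠ z.2 ∧ z.1 ≡ z.2 [MOD k])

theorem mem_Qc {k Y : ℕ} {z : ℕ × ℕ} : z ∈ Qc k Y ↔ (1 ≤ z.1 ∧ z.1 ≤ Y) ∧ (1 ≤ z.2 ∧ z.2 ≤ Y) ∧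
    z.1.Coprime z.2 ∧ z.1 ≠ z.2 ∧ z.1 ≡ z.2 [MOD k] := by
  simp only [Qc, Finset.mem_filter, Finset.mem_product, Finset.mem_Icc, and_assoc]

theorem harm_le {Y : ℕ} : ∑ n ∈ Finset.Icc 1 Y, (1 : ℝ) / n ≤ 1 + Real.log Y := by
  have h := harmonic_le_one_add_log Y
  rw [harmonic_eq_sum_Icc] at h
  push_cast at h
  simpa only [one_div] using h

theorem Qc_sum_lt {k Y : ℕ} (hk : 0 < k) :
    ∑ z ∈ (Qc k Y).filter (fun z => z.1 < z.2), (1 : ℝ) / (z.1 * z.2) ≤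
      (1 + Real.log Y) ^ 2 / k := by
  set T := (Qc k Y).filter (fun z => z.1 < z.2) with hT
  have hk0 : (0 : ℝ) < k := by exact_mod_cast hk
  have h1 : ∑ z ∈ T, (1 : ℝ) / (z.1 * z.2) ≤
      ∑ z ∈ T, (fun w : ℕ × ℕ => (1 : ℝ) / (w.1 * (w.2 * k))) (z.1, (z.2 - z.1) / k) := by
    refine Finset.sum_le_sum fun z hz => ?_
    obtain ⟨h2, h3⟩ := Finset.mem_filter.1 hz
    obtain ⟨⟨h4, h5⟩, ⟨h6, h7⟩, h8, h9, h10⟩ := mem_Qc.1 h2
    have hdvd : k ∣ z.2 - z.1 := (Nat.modEq_iff_dvd' h3.le).1 h10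
    have hq : 0 < (z.2 - z.1) / k := Nat.div_pos (Nat.le_of_dvd (by omega) hdvd) hk
    have hle : (z.2 - z.1) / k * k ≤ z.2 := by
      rw [Nat.div_mul_cancel hdvd]; omega
    have hle' : (((z.2 - z.1) / k : ℕ) : ℝ) * k ≤ z.2 := by exact_mod_cast hle
    have hq' : (0 : ℝ) < (((z.2 - z.1) / k : ℕ) : ℝ) := by exact_mod_cast hq
    have hz1 : (0 : ℝ) < z.1 := by exact_mod_cast h4
    show (1 : ℝ) / (z.1 * z.2) ≤ 1 / (z.1 * ((((z.2 - z.1) / k : ℕ) : ℝ) * k))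
    exact one_div_le_one_div_of_le (by positivity) (mul_le_mul_of_nonneg_left hle' hz1.le)
  refine h1.trans ?_
  have hinj : Set.InjOn (fun z : ℕ × ℕ => (z.1, (z.2 - z.1) / k)) T := by
    intro z hz z' hz' e
    obtain ⟨h2, h3⟩ := Finset.mem_filter.1 hz
    obtain ⟨_, _, _, _, h10⟩ := mem_Qc.1 h2
    obtain ⟨h2', h3'⟩ := Finset.mem_filter.1 hz'
    obtain ⟨_, _, _, _, h10'⟩ := mem_Qc.1 h2'
    have hdvd : k ∣ z.2 - z.1 := (Nat.modEq_iff_dvd' h3.le).1 h10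
    have hdvd' : k ∣ z'.2 - z'.1 := (Nat.modEq_iff_dvd' h3'.le).1 h10'
    obtain ⟨e1, e2⟩ := Prod.mk.inj (e : (z.1, (z.2 - z.1) / k) = (z'.1, (z'.2 - z'.1) / k))
    have e3 : z.2 - z.1 = z'.2 - z'.1 := by
      rw [← Nat.div_mul_cancel hdvd, ← Nat.div_mul_cancel hdvd', e2]
    exact Prod.ext e1 (by omega)
  rw [← Finset.sum_image (f := fun w : ℕ × ℕ => (1 : ℝ) / (w.1 * (w.2 * k))) hinj]
  have hsub : T.image (fun z : ℕ × ℕ => (z.1, (z.2 - z.1) / k)) ⊆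
      (Finset.Icc 1 Y) ×ˢ (Finset.Icc 1 Y) := by
    intro w hw
    obtain ⟨z, hz, rfl⟩ := Finset.mem_image.1 hw
    obtain ⟨h2, h3⟩ := Finset.mem_filter.1 hz
    obtain ⟨⟨h4, h5⟩, ⟨h6, h7⟩, h8, h9, h10⟩ := mem_Qc.1 h2
    have hdvd : k ∣ z.2 - z.1 := (Nat.modEq_iff_dvd' h3.le).1 h10
    have hq : 0 < (z.2 - z.1) / k := Nat.div_pos (Nat.le_of_dvd (by omega) hdvd) hk
    have hq2 : (z.2 - z.1) / k ≤ z.2 - z.1 := Nat.div_le_self _ _
    simp only [Finset.mem_product, Finset.mem_Icc]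
    omega
  refine (Finset.sum_le_sum_of_subset_of_nonneg hsub (fun w _ _ => by positivity)).trans ?_
  rw [Finset.sum_product]
  have e : ∑ x ∈ Finset.Icc 1 Y, ∑ y ∈ Finset.Icc 1 Y, (1 : ℝ) / ((x : ℕ) * ((y : ℕ) * k)) =
      (∑ n ∈ Finset.Icc 1 Y, (1 : ℝ) / n) * (∑ n ∈ Finset.Icc 1 Y, (1 : ℝ) / n) / k := by
    rw [Finset.sum_mul_sum, Finset.sum_div]
    refine Finset.sum_congr rfl fun x _ => ?_
    rw [Finset.sum_div]
    refine Finset.sum_congr rfl fun y _ => ?_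
    rw [div_mul_div_comm, div_div, mul_assoc]; norm_num
  rw [e]
  refine div_le_div_of_nonneg_right ?_ hk0.le
  rw [sq]
  have h0 : (0 : ℝ) ≤ ∑ n ∈ Finset.Icc 1 Y, (1 : ℝ) / n := Finset.sum_nonneg fun n _ => by positivity
  exact mul_le_mul harm_le harm_le h0 (h0.trans harm_le)

theorem Qc_swap {k Y : ℕ} {z : ℕ × ℕ} : z.swap ∈ Qc k Y ↔ z ∈ Qc k Y := by
  rw [mem_Qc, mem_Qc, Prod.fst_swap, Prod.snd_swap]
  constructor
  · rintro ⟨h1, h2, h3, h4, h5⟩; exact ⟨h2, h1, h3.symm, h4.symm, h5.symm⟩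
  · rintro ⟨h1, h2, h3, h4, h5⟩; exact ⟨h2, h1, h3.symm, h4.symm, h5.symm⟩

theorem Qc_sum {k Y : ℕ} (hk : 0 < k) :
    ∑ z ∈ Qc k Y, (1 : ℝ) / (z.1 * z.2) ≤ 2 * (1 + Real.log Y) ^ 2 / k := by
  have h1 := Qc_sum_lt (Y := Y) hk
  have h2 : ∑ z ∈ (Qc k Y).filter (fun z => ¬ z.1 < z.2), (1 : ℝ) / (z.1 * z.2) =
      ∑ z ∈ (Qc k Y).filter (fun z => z.1 < z.2), (1 : ℝ) / (z.1 * z.2) := by
    refine Finset.sum_nbij' Prod.swap Prod.swap ?_ ?_ ?_ ?_ ?_
    · intro z hz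
      obtain ⟨h3, h4⟩ := Finset.mem_filter.1 hz
      have h5 := (mem_Qc.1 h3).2.2.2.1
      refine Finset.mem_filter.2 ⟨Qc_swap.2 h3, ?_⟩
      rw [Prod.fst_swap, Prod.snd_swap]; omega
    · intro z hz
      obtain ⟨h3, h4⟩ := Finset.mem_filter.1 hz
      refine Finset.mem_filter.2 ⟨Qc_swap.2 h3, ?_⟩
      rw [Prod.fst_swap, Prod.snd_swap]; omega
    · intro z _; exact Prod.swap_swap z
    · intro z _; exact Prod.swap_swap z
    · intro z _; rw [Prod.fst_swap, Prod.snd_swap, mul_comm]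
  rw [← Finset.sum_filter_add_sum_filter_not (Qc k Y) (fun z => z.1 < z.2), h2]
  have : 2 * (1 + Real.log Y) ^ 2 / (k : ℝ) = (1 + Real.log Y) ^ 2 / k +
    (1 + Real.log Y) ^ 2 / k := by ring
  rw [this]
  exact add_le_add h1 h1

/-- the kernel `1/√(D D')`. -/
noncomputable def gk (z : ℕ × ℕ) : ℝ := √(1 / ((z.1 : ℝ) * z.2))

theorem log_sq_le {ε : ℝ} (hε : 0 < ε) : ∃ C : ℝ, 1 ≤ C ∧ ∀ Y : ℕ, 1 ≤ Y →
    2 * (1 + Real.log Y) ^ 2 ≤ C * (Y : ℝ) ^ ε := by
  refine ⟨2 * (1 + (ε / 2)⁻¹) ^ 2, ?_, ?_⟩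
  · have : 0 < (ε / 2)⁻¹ := by positivity
    nlinarith
  · intro Y hY
    have hY1 : (1 : ℝ) ≤ Y := by exact_mod_cast hY
    have h1 : Real.log Y ≤ (ε / 2)⁻¹ * (Y : ℝ) ^ (ε / 2) := by
      have := Real.log_le_rpow_div (x := (Y : ℝ)) (ε := ε / 2) (by positivity) (half_pos hε)
      rwa [div_eq_inv_mul] at this
    have h2 : (1 : ℝ) ≤ (Y : ℝ) ^ (ε / 2) := Real.one_le_rpow hY1 (by linarith)
    have h3 : 1 + Real.log Y ≤ (1 + (ε / 2)⁻¹) * (Y : ℝ) ^ (ε / 2) := by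
      rw [add_mul, one_mul]; linarith
    have h4 : 0 ≤ 1 + Real.log Y := by
      have := Real.log_nonneg hY1
      linarith
    have h5 : (Y : ℝ) ^ ε = ((Y : ℝ) ^ (ε / 2)) ^ 2 := by
      rw [← Real.rpow_natCast, ← Real.rpow_mul (by positivity)]; congr 1; push_cast; ring
    rw [h5, mul_assoc, ← mul_pow]
    exact mul_le_mul_of_nonneg_left (pow_le_pow_left₀ h4 h3 2) (by norm_num)

/-- **congruence GCD-sum lemma**, bilinear: `F` is the (small) counted family. -/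
theorem gcd_cong (a : ℕ) {ε : ℝ} (hε : 0 < ε) : ∃ C : ℝ, 1 ≤ C ∧ ∀ (k Y : ℕ)
    (F G : Finset ℕ) (x y : ℕ → ℝ), 0 < k → 1 ≤ Y → (∀ i ∈ F, 0 < i) → (∀ j ∈ G, 0 < j) →
    ∑ i ∈ F, ∑ j ∈ G, x i * y j * kv (Qc k Y) gk i j ≤
      C * (Y : ℝ) ^ ε * (F.card : ℝ) ^ ((1 : ℝ) / (4 * 2 ^ a : ℕ)) / √k *
        (√(∑ i ∈ F, x i ^ 2) * √(∑ j ∈ G, y j ^ 2)) := by
  obtain ⟨C1, hC1, h1⟩ := gcd_kernel a hε
  obtain ⟨C2, hC2, h2⟩ := log_sq_le hε
  refine ⟨√(C1 * C2), ?_, ?_⟩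
  · rw [Real.one_le_sqrt]; nlinarith
  intro k Y F G x y hk hY hF hG
  have hk0 : (0 : ℝ) < k := by exact_mod_cast hk
  have hY0 : (0 : ℝ) < Y := by exact_mod_cast hY
  have h3 := h1 Y (Qc k Y) gk F G x y (fun z hz => by
    obtain ⟨⟨h4, h5⟩, ⟨h6, h7⟩, h8, _, _⟩ := mem_Qc.1 hz
    exact ⟨h4, h6, h8, h5, h7⟩) (fun z _ => Real.sqrt_nonneg _) hF hG
  set m := 4 * 2 ^ a with hm
  have hm0 : m ≠ 0 := by positivity
  have hgk : ∑ z ∈ Qc k Y, gk z ^ 2 ≤ C2 * (Y : ℝ) ^ ε / k := by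
    have e : ∑ z ∈ Qc k Y, gk z ^ 2 = ∑ z ∈ Qc k Y, (1 : ℝ) / (z.1 * z.2) :=
      Finset.sum_congr rfl fun z _ => Real.sq_sqrt (by positivity)
    rw [e]
    exact (Qc_sum hk).trans (div_le_div_of_nonneg_right (h2 Y hY) hk0.le)
  set A := ∑ i ∈ F, x i ^ 2 with hA
  set B := ∑ j ∈ G, y j ^ 2 with hB
  have hA0 : 0 ≤ A := Finset.sum_nonneg fun i _ => sq_nonneg _
  have hB0 : 0 ≤ B := Finset.sum_nonneg fun i _ => sq_nonneg _
  set X := ∑ i ∈ F, ∑ j ∈ G, x i * y j * kv (Qc k Y) gk i j with hX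
  set Z := √(C1 * C2) * (Y : ℝ) ^ ε * (F.card : ℝ) ^ ((1 : ℝ) / (m : ℕ)) / √k * (√A * √B) with hZ
  have hZ0 : 0 ≤ Z := by positivity
  have hpow : X ^ m ≤ Z ^ m := by
    refine h3.trans ?_
    have hm2 : m = 2 * (2 * 2 ^ a) := by rw [hm]; ring
    have e1 : Z ^ m = A ^ (2 * 2 ^ a) * B ^ (2 * 2 ^ a) * F.card *
        (C1 * C2 * ((Y : ℝ) ^ ε) ^ 2 / k) ^ (2 * 2 ^ a) := by
      have e2 : ((F.card : ℝ) ^ ((1 : ℝ) / (m : ℕ))) ^ m = F.card := by
        rw [← Real.rpow_natCast, ← Real.rpow_mul (by positivity), one_div,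
          inv_mul_cancel₀ (by exact_mod_cast hm0), Real.rpow_one]
      have e3 : Z = (√(C1 * C2) * (Y : ℝ) ^ ε / √k * (√A * √B)) *
          (F.card : ℝ) ^ ((1 : ℝ) / (m : ℕ)) := by rw [hZ]; ring
      rw [e3, mul_pow, e2]
      have e4 : (√(C1 * C2) * (Y : ℝ) ^ ε / √k * (√A * √B)) ^ m =
          (A * B * (C1 * C2 * ((Y : ℝ) ^ ε) ^ 2 / k)) ^ (2 * 2 ^ a) := by
        rw [hm2, pow_mul]
        congr 1
        rw [mul_pow, div_pow, mul_pow, mul_pow, Real.sq_sqrt (by positivity), Real.sq_sqrt hk0.le,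
          Real.sq_sqrt hA0, Real.sq_sqrt hB0]
        ring
      rw [e4, mul_pow, mul_pow]
      ring
    rw [e1]
    refine mul_le_mul_of_nonneg_left (pow_le_pow_left₀ ?_ ?_ _) (by positivity)
    · exact mul_nonneg (by positivity) (Finset.sum_nonneg fun z _ => sq_nonneg _)
    · calc C1 * (Y : ℝ) ^ ε * ∑ z ∈ Qc k Y, gk z ^ 2 ≤ C1 * (Y : ℝ) ^ ε * (C2 * (Y : ℝ) ^ ε / k) :=
            mul_le_mul_of_nonneg_left hgk (by positivity)
        _ = C1 * C2 * ((Y : ℝ) ^ ε) ^ 2 / k := by ring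
  exact le_of_pow_le_pow_left₀ hm0 hZ0 hpow

theorem min_le_gk {R R' : ℝ} (hR : 0 ≤ R) (hR' : 0 ≤ R') {D D' : ℕ} :
    min (R / D) (R' / D') ≤ √R * √R' * gk (D, D') := by
  have h1 : √R * √R' * gk (D, D') = √((R / D) * (R' / D')) := by
    rw [gk, ← Real.sqrt_mul hR, ← Real.sqrt_mul (mul_nonneg hR hR')]
    congr 1
    simp only [one_div, mul_inv]
    ring
  rw [h1]
  refine Real.le_sqrt_of_sq_le ?_
  have h2 : 0 ≤ R / D := by positivity
  have h3 : 0 ≤ R' / D' := by positivity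
  have h4 : 0 ≤ min (R / D) (R' / D') := le_min h2 h3
  rw [sq]
  exact mul_le_mul (min_le_left _ _) (min_le_right _ _) h4 h2

/-- overlap form: radii `R` on `F`, `R'` on `G`. -/
theorem gcd_min (a : ℕ) {ε : ℝ} (hε : 0 < ε) : ∃ C : ℝ, 1 ≤ C ∧ ∀ (k Y : ℕ)
    (F G : Finset ℕ) (R R' : ℕ → ℝ), 0 < k → 1 ≤ Y → (∀ i ∈ F, 0 < i) → (∀ j ∈ G, 0 < j) →
    (∀ i ∈ F, 0 ≤ R i) → (∀ j ∈ G, 0 ≤ R' j) →
    ∑ i ∈ F, ∑ j ∈ G, ind ((i / i.gcd j, j / i.gcd j) ∈ Qc k Y) *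
      min (R i / (i / i.gcd j : ℕ)) (R' j / (j / i.gcd j : ℕ)) ≤
      C * (Y : ℝ) ^ ε * (F.card : ℝ) ^ ((1 : ℝ) / (4 * 2 ^ a : ℕ)) / √k *
        (√(∑ i ∈ F, R i) * √(∑ j ∈ G, R' j)) := by
  obtain ⟨C, hC, h⟩ := gcd_cong a hε
  refine ⟨C, hC, ?_⟩
  intro k Y F G R R' hk hY hF hG hR hR'
  have h1 := h k Y F G (fun i => √(R i)) (fun j => √(R' j)) hk hY hF hG
  have e1 : ∑ i ∈ F, √(R i) ^ 2 = ∑ i ∈ F, R i :=
    Finset.sum_congr rfl fun i hi => Real.sq_sqrt (hR i hi)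
  have e2 : ∑ j ∈ G, √(R' j) ^ 2 = ∑ j ∈ G, R' j :=
    Finset.sum_congr rfl fun i hi => Real.sq_sqrt (hR' i hi)
  rw [e1, e2] at h1
  refine le_trans ?_ h1
  refine Finset.sum_le_sum fun i hi => Finset.sum_le_sum fun j hj => ?_
  by_cases hm : (i / i.gcd j, j / i.gcd j) ∈ Qc k Y
  · rw [ind_t hm, one_mul, kv_mem hm]
    exact min_le_gk (hR i hi) (hR' j hj)
  · rw [ind_f hm, zero_mul, kv_not hm, mul_zero]

end cong

section root

/-- root form of `gcd_kernel`. -/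
theorem gcd_root (a : ℕ) {ε : ℝ} (hε : 0 < ε) : ∃ C : ℝ, 1 ≤ C ∧ ∀ (Y : ℕ)
    (Q : Finset (ℕ × ℕ)) (g : ℕ × ℕ → ℝ) (F G : Finset ℕ) (x y : ℕ → ℝ),
    (∀ z ∈ Q, 0 < z.1 ∧ 0 < z.2 ∧ z.1.Coprime z.2 ∧ z.1 ≤ Y ∧ z.2 ≤ Y) →
    (∀ z ∈ Q, 0 ≤ g z) → (∀ i ∈ F, 0 < i) → (∀ j ∈ G, 0 < j) →
    ∑ i ∈ F, ∑ j ∈ G, x i * y j * kv Q g i j ≤
      √(C * (Y : ℝ) ^ ε * ∑ z ∈ Q, g z ^ 2) * (F.card : ℝ) ^ ((1 : ℝ) / (4 * 2 ^ a : ℕ)) *
        (√(∑ i ∈ F, x i ^ 2) * √(∑ j ∈ G, y j ^ 2)) := by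
  obtain ⟨C1, hC1, h1⟩ := gcd_kernel a hε
  refine ⟨C1, hC1, ?_⟩
  intro Y Q g F G x y hQ hg hF hG
  have h3 := h1 Y Q g F G x y hQ hg hF hG
  set m := 4 * 2 ^ a with hm
  have hm0 : m ≠ 0 := by positivity
  set A := ∑ i ∈ F, x i ^ 2 with hA
  set B := ∑ j ∈ G, y j ^ 2 with hB
  set E := C1 * (Y : ℝ) ^ ε * ∑ z ∈ Q, g z ^ 2 with hE
  have hA0 : 0 ≤ A := Finset.sum_nonneg fun i _ => sq_nonneg _
  have hB0 : 0 ≤ B := Finset.sum_nonneg fun i _ => sq_nonneg _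
  have hE0 : 0 ≤ E := mul_nonneg (by positivity) (Finset.sum_nonneg fun z _ => sq_nonneg _)
  set X := ∑ i ∈ F, ∑ j ∈ G, x i * y j * kv Q g i j with hX
  set Z := √E * (F.card : ℝ) ^ ((1 : ℝ) / (m : ℕ)) * (√A * √B) with hZ
  have hZ0 : 0 ≤ Z := by positivity
  have hpow : X ^ m ≤ Z ^ m := by
    refine h3.trans (le_of_eq ?_)
    have hm2 : m = 2 * (2 * 2 ^ a) := by rw [hm]; ring
    have e2 : ((F.card : ℝ) ^ ((1 : ℝ) / (m : ℕ))) ^ m = F.card := by
      rw [← Real.rpow_natCast, ← Real.rpow_mul (by positivity), one_div,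
        inv_mul_cancel₀ (by exact_mod_cast hm0), Real.rpow_one]
    have e3 : Z = (√E * (√A * √B)) * (F.card : ℝ) ^ ((1 : ℝ) / (m : ℕ)) := by rw [hZ]; ring
    have e4 : (√E * (√A * √B)) ^ m = (A * B * E) ^ (2 * 2 ^ a) := by
      rw [hm2, pow_mul]
      congr 1
      rw [mul_pow, mul_pow, Real.sq_sqrt hE0, Real.sq_sqrt hA0, Real.sq_sqrt hB0]
      ring
    have e5 : Z ^ m = (A * B * E) ^ (2 * 2 ^ a) * F.card := by
      rw [e3, mul_pow (√E * (√A * √B)), e2, e4]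
    rw [e5, mul_pow (A * B) E, mul_pow A B]
    ring
  exact le_of_pow_le_pow_left₀ hm0 hZ0 hpow

/-- overlap form for a general relation, indexed families: `D = e i / gcd`, `D' = e' j / gcd`. -/
theorem gcd_min_rel (a : ℕ) {ε : ℝ} (hε : 0 < ε) : ∃ C : ℝ, 1 ≤ C ∧ ∀ (ι κ : Type)
    (Y : ℕ) (Rel : ℕ → ℕ → Prop) (S : ℝ)
    (F : Finset ι) (G : Finset κ) (e : ι → ℕ) (e' : κ → ℕ) (R : ι → ℝ) (R' : κ → ℝ),
    (∀ Q : Finset (ℕ × ℕ), (∀ z ∈ Q, 0 < z.1 ∧ 0 < z.2 ∧ z.1.Coprime z.2 ∧ z.1 ≤ Y ∧ z.2 ≤ Y ∧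
      Rel z.1 z.2) → ∑ z ∈ Q, (1 : ℝ) / (z.1 * z.2) ≤ S) →
    (∀ i ∈ F, 0 < e i) → (∀ j ∈ G, 0 < e' j) → (∀ i ∈ F, ∀ j ∈ F, e i = e j → i = j) →
    (∀ i ∈ G, ∀ j ∈ G, e' i = e' j → i = j) → (∀ i ∈ F, 0 ≤ R i) → (∀ j ∈ G, 0 ≤ R' j) →
    ∑ i ∈ F, ∑ j ∈ G, ind (e i / (e i).gcd (e' j) ≤ Y ∧ e' j / (e i).gcd (e' j) ≤ Y ∧
        Rel (e i / (e i).gcd (e' j)) (e' j / (e i).gcd (e' j))) *
      min (R i / (e i / (e i).gcd (e' j) : ℕ)) (R' j / (e' j / (e i).gcd (e' j) : ℕ)) ≤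
      √(C * (Y : ℝ) ^ ε * S) * (F.card : ℝ) ^ ((1 : ℝ) / (4 * 2 ^ a : ℕ)) *
        (√(∑ i ∈ F, R i) * √(∑ j ∈ G, R' j)) := by
  classical
  obtain ⟨C, hC, h⟩ := gcd_root a hε
  refine ⟨C, hC, ?_⟩
  intro ι κ Y Rel S F G e e' R R' hS hF hG hei hej hR hR'
  set Q : Finset (ℕ × ℕ) := ((Finset.Icc 1 Y) ×ˢ (Finset.Icc 1 Y)).filter
    (fun z => z.1.Coprime z.2 ∧ Rel z.1 z.2) with hQd
  have hQ : ∀ z ∈ Q, 0 < z.1 ∧ 0 < z.2 ∧ z.1.Coprime z.2 ∧ z.1 ≤ Y ∧ z.2 ≤ Y ∧ Rel z.1 z.2 := by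
    intro z hz
    simp only [hQd, Finset.mem_filter, Finset.mem_product, Finset.mem_Icc] at hz
    obtain ⟨⟨⟨h1, h2⟩, h3, h4⟩, h5, h6⟩ := hz
    exact ⟨h1, h3, h5, h2, h4, h6⟩
  have hmem : ∀ i ∈ F, ∀ j ∈ G, (e i / (e i).gcd (e' j) ≤ Y ∧ e' j / (e i).gcd (e' j) ≤ Y ∧
      Rel (e i / (e i).gcd (e' j)) (e' j / (e i).gcd (e' j))) →
      (e i / (e i).gcd (e' j), e' j / (e i).gcd (e' j)) ∈ Q := by
    intro i hi j hj hm
    have hg : 0 < (e i).gcd (e' j) := Nat.gcd_pos_of_pos_left _ (hF i hi)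
    simp only [hQd, Finset.mem_filter, Finset.mem_product, Finset.mem_Icc]
    exact ⟨⟨⟨Nat.div_pos (Nat.le_of_dvd (hF i hi) (Nat.gcd_dvd_left _ _)) hg, hm.1⟩,
      Nat.div_pos (Nat.le_of_dvd (hG j hj) (Nat.gcd_dvd_right _ _)) hg, hm.2.1⟩,
      Nat.coprime_div_gcd_div_gcd hg, hm.2.2⟩
  have hgs : ∑ z ∈ Q, gk z ^ 2 ≤ S := by
    have e1 : ∑ z ∈ Q, gk z ^ 2 = ∑ z ∈ Q, (1 : ℝ) / (z.1 * z.2) :=
      Finset.sum_congr rfl fun z _ => Real.sq_sqrt (by positivity)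
    rw [e1]
    exact hS Q hQ
  -- inverse maps on the images
  set fi : ℕ → ℝ := fun n => ∑ i ∈ F, ind (e i = n) * √(R i) with hfi
  set fj : ℕ → ℝ := fun n => ∑ j ∈ G, ind (e' j = n) * √(R' j) with hfj
  have hfi' : ∀ i ∈ F, fi (e i) = √(R i) := by
    intro i hi
    rw [hfi]
    simp only
    rw [Finset.sum_eq_single_of_mem i hi]
    · rw [ind_t rfl, one_mul]
    · intro j hj hne
      rw [ind_f, zero_mul]
      intro e2; exact hne (hei j hj i hi e2)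
  have hfj' : ∀ j ∈ G, fj (e' j) = √(R' j) := by
    intro i hi
    rw [hfj]
    simp only
    rw [Finset.sum_eq_single_of_mem i hi]
    · rw [ind_t rfl, one_mul]
    · intro j hj hne
      rw [ind_f, zero_mul]
      intro e2; exact hne (hej j hj i hi e2)
  have hFi : Set.InjOn e F := fun i hi j hj h => hei i hi j hj h
  have hGi : Set.InjOn e' G := fun i hi j hj h => hej i hi j hj h
  have h1 := h Y Q gk (F.image e) (G.image e') fi fj
    (fun z hz => ⟨(hQ z hz).1, (hQ z hz).2.1, (hQ z hz).2.2.1, (hQ z hz).2.2.2.1,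
      (hQ z hz).2.2.2.2.1⟩) (fun z _ => Real.sqrt_nonneg _)
    (fun n hn => by obtain ⟨i, hi, rfl⟩ := Finset.mem_image.1 hn; exact hF i hi)
    (fun n hn => by obtain ⟨i, hi, rfl⟩ := Finset.mem_image.1 hn; exact hG i hi)
  rw [Finset.sum_image hFi, Finset.sum_image hFi, Finset.sum_image hGi,
    Finset.card_image_of_injOn hFi] at h1
  have e1 : ∑ i ∈ F, fi (e i) ^ 2 = ∑ i ∈ F, R i :=
    Finset.sum_congr rfl fun i hi => by rw [hfi' i hi, Real.sq_sqrt (hR i hi)]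
  have e2 : ∑ j ∈ G, fj (e' j) ^ 2 = ∑ j ∈ G, R' j :=
    Finset.sum_congr rfl fun i hi => by rw [hfj' i hi, Real.sq_sqrt (hR' i hi)]
  rw [e1, e2] at h1
  have h2 : ∑ i ∈ F, ∑ j ∈ G, ind (e i / (e i).gcd (e' j) ≤ Y ∧ e' j / (e i).gcd (e' j) ≤ Y ∧
        Rel (e i / (e i).gcd (e' j)) (e' j / (e i).gcd (e' j))) *
      min (R i / (e i / (e i).gcd (e' j) : ℕ)) (R' j / (e' j / (e i).gcd (e' j) : ℕ)) ≤
      ∑ i ∈ F, ∑ j ∈ (G.image e'), fi (e i) * fj j * kv Q gk (e i) j := by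
    refine Finset.sum_le_sum fun i hi => ?_
    rw [Finset.sum_image hGi]
    refine Finset.sum_le_sum fun j hj => ?_
    rw [hfi' i hi, hfj' j hj]
    by_cases hm : e i / (e i).gcd (e' j) ≤ Y ∧ e' j / (e i).gcd (e' j) ≤ Y ∧
        Rel (e i / (e i).gcd (e' j)) (e' j / (e i).gcd (e' j))
    · rw [ind_t hm, one_mul, kv_mem (hmem i hi j hj hm)]
      exact min_le_gk (hR i hi) (hR' j hj)
    · rw [ind_f hm, zero_mul]
      exact mul_nonneg (mul_nonneg (Real.sqrt_nonneg _) (Real.sqrt_nonneg _))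
        (kv_nn (fun z _ => Real.sqrt_nonneg _) _ _)
  refine h2.trans (h1.trans ?_)
  refine mul_le_mul_of_nonneg_right (mul_le_mul_of_nonneg_right ?_ (by positivity)) (by positivity)
  exact Real.sqrt_le_sqrt (mul_le_mul_of_nonneg_left hgs (by positivity))

end root

end Crest.Agent.R4P.GcdK37
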