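import Crest.Agent.R4P.GcdK_37

/-!
R4 (S0004) with powers, helper37: **late families** (over `GcdK_37`).

Families `F`, `G` of items with at most `K^A` elements (late items of a class of denominator `≥ K`),
relation `Rel D D'` of the reduced cofactors with `Σ_{Rel, ≤ Y} 1/(D D') ≤ C₀ (1 + log Y)² K^(-b)`:
the overlaps `min (R i / D) (R' j / D')` of all related pairs sum up to `C K^(-b/4) (Σ R + Σ R')`.
* `late_rel`, `late_cong` (`D ≠ D'`, `D ≡ D' mod k`, `b = 1`).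
-/

set_option autoImplicit false

open Finset

namespace Crest.Agent.R4P.NcC37

open Crest.Agent.R4P.GcdK37

/-- `1 + log Y ≤ (1 + 1/ε) Y^ε` -/
theorem one_log_le {ε : ℝ} (hε : 0 < ε) {Y : ℝ} (hY : 1 ≤ Y) :
    1 + Real.log Y ≤ (1 + 1 / ε) * Y ^ ε := by
  have h1 : Real.log Y ≤ Y ^ ε / ε := Real.log_le_rpow_div (by linarith) hε
  have h2 : (1 : ℝ) ≤ Y ^ ε := Real.one_le_rpow hY hε.le
  have : (1 + 1 / ε) * Y ^ ε = Y ^ ε + Y ^ ε / ε := by ring
  rw [this]; linarith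

/-- **late families, general relation** -/
theorem late_rel {A b C₀ : ℝ} (hA : 0 ≤ A) (hb : 0 < b) (hC₀ : 0 ≤ C₀) : ∃ C : ℝ, 1 ≤ C ∧
    ∀ (ι κ : Type) (K : ℝ) (Rel : ℕ → ℕ → Prop) (F : Finset ι) (G : Finset κ) (e : ι → ℕ)
      (e' : κ → ℕ) (R : ι → ℝ) (R' : κ → ℝ), 1 ≤ K →
    (∀ (Y : ℕ) (Q : Finset (ℕ × ℕ)), 1 ≤ Y → (∀ z ∈ Q, 0 < z.1 ∧ 0 < z.2 ∧ z.1.Coprime z.2 ∧
      z.1 ≤ Y ∧ z.2 ≤ Y ∧ Rel z.1 z.2) →
      ∑ z ∈ Q, (1 : ℝ) / (z.1 * z.2) ≤ C₀ * (1 + Real.log Y) ^ 2 * K ^ (-b)) →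
    (F.card : ℝ) ≤ K ^ A → (G.card : ℝ) ≤ K ^ A →
    (∀ i ∈ F, 0 < e i) → (∀ j ∈ G, 0 < e' j) → (∀ i ∈ F, ∀ j ∈ F, e i = e j → i = j) →
    (∀ i ∈ G, ∀ j ∈ G, e' i = e' j → i = j) → (∀ i ∈ F, 0 ≤ R i) → (∀ j ∈ G, 0 ≤ R' j) →
    ∑ i ∈ F, ∑ j ∈ G, ind (Rel (e i / (e i).gcd (e' j)) (e' j / (e i).gcd (e' j))) *
      min (R i / (e i / (e i).gcd (e' j) : ℕ)) (R' j / (e' j / (e i).gcd (e' j) : ℕ)) ≤
      C * K ^ (-(b / 4)) * (∑ i ∈ F, R i + ∑ j ∈ G, R' j) := by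
  -- parameters
  obtain ⟨a, ha⟩ : ∃ a : ℕ, A ≤ b / 16 * (4 * 2 ^ a : ℕ) := by
    obtain ⟨a, ha⟩ := pow_unbounded_of_one_lt (A / (b / 16)) (by norm_num : (1 : ℝ) < 2)
    refine ⟨a, ?_⟩
    have h1 : A < b / 16 * 2 ^ a := by
      rw [div_lt_iff₀ (by positivity)] at ha; linarith
    push_cast
    have h2 : (0 : ℝ) ≤ b / 16 * 2 ^ a := by positivity
    linarith
  set B : ℝ := A + 2 + b with hB
  have hB0 : 0 < B := by positivity
  set ε : ℝ := b / (16 * B) with hε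
  have hε0 : 0 < ε := by positivity
  obtain ⟨C1, hC1, hmain⟩ := gcd_min_rel a hε0
  set C2 : ℝ := √(C1 * C₀ * (1 + 1 / ε) ^ 2) * 2 ^ (B * ε * 2) with hC2
  refine ⟨C2 + 2, by have : 0 ≤ C2 := by positivity
                     linarith, ?_⟩
  intro ι κ K Rel F G e e' R R' hK hS hF hG he he' hei hej hR hR'
  have hK0 : 0 < K := by linarith
  set Y : ℕ := ⌈K ^ (A + 1 + b)⌉₊ with hY
  have hKB : (1 : ℝ) ≤ K ^ (A + 1 + b) := Real.one_le_rpow hK (by positivity)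
  have hY1 : 1 ≤ Y := Nat.one_le_iff_ne_zero.2 (by
    rw [hY]; exact (Nat.ceil_pos.2 (by linarith)).ne')
  have hYle : K ^ (A + 1 + b) ≤ Y := Nat.le_ceil _
  have hYup : (Y : ℝ) ≤ 2 * K ^ (A + 1 + b) := by
    have := (Nat.ceil_lt_add_one (by positivity : 0 ≤ K ^ (A + 1 + b))).le
    rw [← hY] at this
    linarith
  have hY1r : (1 : ℝ) ≤ Y := by exact_mod_cast hY1
  have hY0 : (0 : ℝ) < Y := by linarith
  have h := hmain ι κ Y Rel (C₀ * (1 + Real.log Y) ^ 2 * K ^ (-b)) F G e e' R R'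
    (fun Q hQ => hS Y Q hY1 hQ) he he' hei hej hR hR'
  set SR := ∑ i ∈ F, R i with hSR
  set SR' := ∑ j ∈ G, R' j with hSR'
  have SR0 : 0 ≤ SR := Finset.sum_nonneg hR
  have SR'0 : 0 ≤ SR' := Finset.sum_nonneg hR'
  -- the main part
  have m1 : √(C1 * (Y : ℝ) ^ ε * (C₀ * (1 + Real.log Y) ^ 2 * K ^ (-b))) *
      (F.card : ℝ) ^ ((1 : ℝ) / (4 * 2 ^ a : ℕ)) ≤ C2 * K ^ (-(b / 4)) := by
    have q1 : (F.card : ℝ) ^ ((1 : ℝ) / (4 * 2 ^ a : ℕ)) ≤ K ^ (b / 16) := by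
      have h1 := Real.rpow_le_rpow (Nat.cast_nonneg _) hF
        (by positivity : (0 : ℝ) ≤ (1 : ℝ) / (4 * 2 ^ a : ℕ))
      refine h1.trans ?_
      rw [← Real.rpow_mul hK0.le]
      refine Real.rpow_le_rpow_of_exponent_le hK ?_
      rw [mul_one_div, div_le_iff₀ (by positivity)]
      exact ha
    have q2 : C1 * (Y : ℝ) ^ ε * (C₀ * (1 + Real.log Y) ^ 2 * K ^ (-b)) ≤
        (C1 * C₀ * (1 + 1 / ε) ^ 2) * ((2 ^ (B * ε * 2)) ^ 2 * (K ^ (-(b / 2) + 3 * (b / 16) / 2 )) ^ 2) := by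
      have l1 := one_log_le hε0 hY1r
      have l0 : 0 ≤ 1 + Real.log Y := by
        have := Real.log_nonneg hY1r
        linarith
      have l2 : (1 + Real.log Y) ^ 2 ≤ ((1 + 1 / ε) * (Y : ℝ) ^ ε) ^ 2 := pow_le_pow_left₀ l0 l1 2
      have l3 : C1 * (Y : ℝ) ^ ε * (C₀ * (1 + Real.log Y) ^ 2 * K ^ (-b)) ≤
          (C1 * C₀ * (1 + 1 / ε) ^ 2) * ((Y : ℝ) ^ ε ^ 1 * ((Y : ℝ) ^ ε) ^ 2 * K ^ (-b)) := by
        have : C1 * (Y : ℝ) ^ ε * (C₀ * (1 + Real.log Y) ^ 2 * K ^ (-b)) ≤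
          C1 * (Y : ℝ) ^ ε * (C₀ * ((1 + 1 / ε) * (Y : ℝ) ^ ε) ^ 2 * K ^ (-b)) := by
          refine mul_le_mul_of_nonneg_left ?_ (by positivity)
          exact mul_le_mul_of_nonneg_right (mul_le_mul_of_nonneg_left l2 hC₀) (by positivity)
        refine this.trans (le_of_eq ?_)
        rw [pow_one]; ring
      refine l3.trans ?_
      refine mul_le_mul_of_nonneg_left ?_ (by positivity)
      have l4 : (Y : ℝ) ^ ε ≤ 2 ^ ε * K ^ (b / 16) := by
        have h1 := Real.rpow_le_rpow hY0.le hYup hε0.le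
        rw [Real.mul_rpow (by norm_num) (by positivity), ← Real.rpow_mul hK0.le] at h1
        refine h1.trans (mul_le_mul_of_nonneg_left ?_ (by positivity))
        refine Real.rpow_le_rpow_of_exponent_le hK ?_
        have : (A + 1 + b) * ε ≤ B * ε := mul_le_mul_of_nonneg_right (by rw [hB]; linarith) hε0.le
        refine this.trans (le_of_eq ?_)
        rw [hε]; field_simp
      have l5 : (0 : ℝ) ≤ (Y : ℝ) ^ ε := by positivity
      have l6 : (Y : ℝ) ^ ε ^ 1 * ((Y : ℝ) ^ ε) ^ 2 ≤ (2 ^ ε * K ^ (b / 16)) ^ 3 := by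
        rw [pow_one, ← pow_succ']
        exact pow_le_pow_left₀ l5 l4 3
      have l7 := mul_le_mul_of_nonneg_right l6 (by positivity : (0 : ℝ) ≤ K ^ (-b))
      refine l7.trans ?_
      have e1 : (2 ^ ε * K ^ (b / 16)) ^ 3 * K ^ (-b) =
          (2 : ℝ) ^ (3 * ε) * K ^ (3 * (b / 16) + -b) := by
        rw [mul_pow, ← Real.rpow_natCast, ← Real.rpow_natCast, ← Real.rpow_mul (by norm_num),
          ← Real.rpow_mul hK0.le, mul_assoc, ← Real.rpow_add hK0]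
        congr 2
        · push_cast; ring
        · push_cast; ring
      have e2 : (2 ^ (B * ε * 2)) ^ 2 * (K ^ (-(b / 2) + 3 * (b / 16) / 2)) ^ 2 =
          (2 : ℝ) ^ (B * ε * 4) * K ^ (3 * (b / 16) + -b) := by
        rw [← Real.rpow_natCast, ← Real.rpow_natCast, ← Real.rpow_mul (by norm_num),
          ← Real.rpow_mul hK0.le]
        congr 2
        · push_cast; ring
        · push_cast; ring
      rw [e1, e2]
      refine mul_le_mul_of_nonneg_right ?_ (by positivity)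
      refine Real.rpow_le_rpow_of_exponent_le (by norm_num) ?_
      have hB1 : 1 ≤ B := by rw [hB]; linarith
      nlinarith
    have q3 : √(C1 * (Y : ℝ) ^ ε * (C₀ * (1 + Real.log Y) ^ 2 * K ^ (-b))) ≤
        C2 * K ^ (-(b / 2) + 3 * (b / 16) / 2) := by
      refine (Real.sqrt_le_sqrt q2).trans (le_of_eq ?_)
      rw [← mul_pow, Real.sqrt_mul (by positivity), Real.sqrt_sq (by positivity), hC2]
      ring
    have q4 := mul_le_mul q3 q1 (by positivity) (by positivity)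
    refine q4.trans ?_
    rw [mul_assoc, ← Real.rpow_add hK0]
    refine mul_le_mul_of_nonneg_left ?_ (by positivity)
    refine Real.rpow_le_rpow_of_exponent_le hK ?_
    linarith
  have m2 : √SR * √SR' ≤ SR + SR' := by
    have h1 := Real.sq_sqrt SR0
    have h2 := Real.sq_sqrt SR'0
    nlinarith [sq_nonneg (√SR - √SR'), Real.sqrt_nonneg SR, Real.sqrt_nonneg SR']
  -- splitting near and far pairs
  set D : ι → κ → ℕ := fun i j => e i / (e i).gcd (e' j) with hD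
  set D' : ι → κ → ℕ := fun i j => e' j / (e i).gcd (e' j) with hD'
  have hfar : ∀ i ∈ F, ∀ j ∈ G, ind (Rel (D i j) (D' i j)) * min (R i / (D i j : ℕ)) (R' j / (D' i j : ℕ)) ≤
      ind (D i j ≤ Y ∧ D' i j ≤ Y ∧ Rel (D i j) (D' i j)) * min (R i / (D i j : ℕ)) (R' j / (D' i j : ℕ)) +
        (R i / Y + R' j / Y) := by
    intro i hi j hj
    have hRi := hR i hi
    have hRj := hR' j hj
    have p0 : 0 ≤ min (R i / (D i j : ℕ)) (R' j / (D' i j : ℕ)) := le_min (by positivity) (by positivity)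
    have p1 : 0 ≤ R i / Y := by positivity
    have p2 : 0 ≤ R' j / Y := by positivity
    by_cases hrel : Rel (D i j) (D' i j)
    · by_cases h1 : D i j ≤ Y
      · by_cases h2 : D' i j ≤ Y
        · rw [ind_t hrel, ind_t ⟨h1, h2, hrel⟩]; linarith
        · have h3 : min (R i / (D i j : ℕ)) (R' j / (D' i j : ℕ)) ≤ R' j / Y := by
            refine (min_le_right _ _).trans ?_
            exact div_le_div_of_nonneg_left hRj hY0 (by exact_mod_cast (not_le.1 h2).le)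
          rw [ind_t hrel, ind_f (fun h => h2 h.2.1)]; linarith
      · have h3 : min (R i / (D i j : ℕ)) (R' j / (D' i j : ℕ)) ≤ R i / Y := by
          refine (min_le_left _ _).trans ?_
          exact div_le_div_of_nonneg_left hRi hY0 (by exact_mod_cast (not_le.1 h1).le)
        rw [ind_t hrel, ind_f (fun h => h1 h.1)]; linarith
    · rw [ind_f hrel, ind_f (fun h => hrel h.2.2)]; linarith
  have hsum := Finset.sum_le_sum fun i hi => Finset.sum_le_sum fun j hj => hfar i hi j hj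
  refine hsum.trans ?_
  simp only [Finset.sum_add_distrib]
  have f1 : ∑ i ∈ F, ∑ _j ∈ G, R i / Y = G.card * SR / Y := by
    rw [hSR, Finset.mul_sum, Finset.sum_div]
    refine Finset.sum_congr rfl fun i _ => ?_
    rw [Finset.sum_const, nsmul_eq_mul]; ring
  have f2 : ∑ _i ∈ F, ∑ j ∈ G, R' j / Y = F.card * SR' / Y := by
    rw [Finset.sum_const, nsmul_eq_mul, ← Finset.sum_div]; ring
  have hKA : K ^ A / Y ≤ K ^ (-(b / 4)) := by
    rw [div_le_iff₀ hY0]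
    have h1 : K ^ A ≤ K ^ (-(b / 4)) * K ^ (A + 1 + b) := by
      rw [← Real.rpow_add hK0]
      exact Real.rpow_le_rpow_of_exponent_le hK (by linarith)
    exact h1.trans (mul_le_mul_of_nonneg_left hYle (by positivity))
  have f3 : (G.card : ℝ) * SR / Y ≤ K ^ (-(b / 4)) * SR := by
    have h1 : (G.card : ℝ) * SR / Y = (G.card : ℝ) / Y * SR := by ring
    rw [h1]
    exact mul_le_mul_of_nonneg_right ((div_le_div_of_nonneg_right hG hY0.le).trans hKA) SR0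
  have f4 : (F.card : ℝ) * SR' / Y ≤ K ^ (-(b / 4)) * SR' := by
    have h1 : (F.card : ℝ) * SR' / Y = (F.card : ℝ) / Y * SR' := by ring
    rw [h1]
    exact mul_le_mul_of_nonneg_right ((div_le_div_of_nonneg_right hF hY0.le).trans hKA) SR'0
  rw [f1, f2]
  have g1 : √(C1 * (Y : ℝ) ^ ε * (C₀ * (1 + Real.log Y) ^ 2 * K ^ (-b))) *
      (F.card : ℝ) ^ ((1 : ℝ) / (4 * 2 ^ a : ℕ)) * (√SR * √SR') ≤
      C2 * K ^ (-(b / 4)) * (SR + SR') :=
    mul_le_mul m1 m2 (by positivity) (by positivity)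
  have g2 := h.trans g1
  have g3 : 0 ≤ K ^ (-(b / 4)) * (SR + SR') := by positivity
  have g4 : (C2 + 2) * K ^ (-(b / 4)) * (SR + SR') =
      C2 * K ^ (-(b / 4)) * (SR + SR') + 2 * (K ^ (-(b / 4)) * (SR + SR')) := by ring
  rw [g4]
  have g5 : K ^ (-(b / 4)) * (SR + SR') = K ^ (-(b / 4)) * SR + K ^ (-(b / 4)) * SR' := by ring
  linarith

/-- **late families, congruence modulo the denominator** -/
theorem late_cong {A : ℝ} (hA : 0 ≤ A) : ∃ C : ℝ, 1 ≤ C ∧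
    ∀ (ι κ : Type) (k : ℕ) (F : Finset ι) (G : Finset κ) (e : ι → ℕ)
      (e' : κ → ℕ) (R : ι → ℝ) (R' : κ → ℝ), 0 < k →
    (F.card : ℝ) ≤ (k : ℝ) ^ A → (G.card : ℝ) ≤ (k : ℝ) ^ A →
    (∀ i ∈ F, 0 < e i) → (∀ j ∈ G, 0 < e' j) → (∀ i ∈ F, ∀ j ∈ F, e i = e j → i = j) →
    (∀ i ∈ G, ∀ j ∈ G, e' i = e' j → i = j) → (∀ i ∈ F, 0 ≤ R i) → (∀ j ∈ G, 0 ≤ R' j) →
    ∑ i ∈ F, ∑ j ∈ G, ind (e i / (e i).gcd (e' j) ≠ e' j / (e i).gcd (e' j) ∧
        e i / (e i).gcd (e' j) ≡ e' j / (e i).gcd (e' j) [MOD k]) *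
      min (R i / (e i / (e i).gcd (e' j) : ℕ)) (R' j / (e' j / (e i).gcd (e' j) : ℕ)) ≤
      C * (k : ℝ) ^ (-(1 / 4 : ℝ)) * (∑ i ∈ F, R i + ∑ j ∈ G, R' j) := by
  obtain ⟨C, hC, h⟩ := late_rel (b := 1) (C₀ := 2) hA one_pos (by norm_num)
  refine ⟨C, hC, ?_⟩
  intro ι κ k F G e e' R R' hk hF hG he he' hei hej hR hR'
  exact h ι κ k (fun x y => x ≠ y ∧ x ≡ y [MOD k]) F G e e' R R' (by exact_mod_cast hk)
    (fun Y Q hY hQ => by
      have h1 : Q ⊆ Qc k Y := fun z hz => by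
        obtain ⟨a1, a2, a3, a4, a5, a6, a7⟩ := hQ z hz
        exact mem_Qc.2 ⟨⟨a1, a4⟩, ⟨a2, a5⟩, a3, a6, a7⟩
      have h2 := Finset.sum_le_sum_of_subset_of_nonneg (f := fun z : ℕ × ℕ => (1 : ℝ) / (z.1 * z.2))
        h1 (fun z _ _ => by positivity)
      refine h2.trans ((Qc_sum hk).trans (le_of_eq ?_))
      rw [Real.rpow_neg_one]; ring)
    hF hG he he' hei hej hR hR'

end Crest.Agent.R4P.NcC37
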