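import Crest.Agent.R4P.BTs_18
import Crest.Agent.R4P.Zone_11

/-!
R4 (S0004) with powers, helper18: **shares of products of primes in residue classes** (E3a / H-1 / (N)).

Weights `∏ p ∈ E, w p` of finite sets `E` of primes, `0 ≤ w p ≤ C / p`, all primes in `[Z, P]`;
`Co x y` : the rationals `x, y` differ by an integer.

* `Co.den_dvd`, `Co.mod`, `class_sum` : `n ρ ≡ θ (mod 1)` is one residue class modulo `ρ.den`;
* `uniq` : **primitive pairs `(u, u')`, `u ρ ≡ u' ρ'`, with `u, u' ≤ √(den ρ)` are unique**;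
* `prefix` : every set of primes with product `> X` has a part `D' ∪ {p}`, `∏ D' ≤ X < p ∏ D'`;
* `sum_gt` : `∑_{∏ E ρ ≡ θ, ∏ E > U} ∏ w ≤ K² / U + C K³ W (1 + log P + 2 log k) / k`, `k = ρ.den`,
  `K = (1 + C) ^ (log k / log Z)`, `W = ∏ (1 + w p)`;
* `pair_sum` : all disjoint pairs `(E, E') ≠ (∅, ∅)` with `∏ E ρ ≡ ∏ E' ρ'` : share
  `≤ C / Z + 2 W (K² / √k₁ + ...)`;
* `W_le` : `W ≤ (e^cD log P) ^ C`.
-/

set_option autoImplicit false

namespace Crest.Agent.R4P.ShR18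

open Finset

/-! ### congruence of rationals modulo one -/

/-- `x ≡ y (mod 1)` -/
def Co (x y : ℚ) : Prop := ∃ z : ℤ, x - y = z

lemma Co.refl (x : ℚ) : Co x x := ⟨0, by simp⟩

lemma Co.symm {x y : ℚ} (h : Co x y) : Co y x := by
  obtain ⟨z, hz⟩ := h
  exact ⟨-z, by push_cast; linarith⟩

lemma Co.trans {x y z : ℚ} (h : Co x y) (h' : Co y z) : Co x z := by
  obtain ⟨a, ha⟩ := h
  obtain ⟨b, hb⟩ := h'
  exact ⟨a + b, by push_cast; linarith⟩

lemma Co.mul {x y : ℚ} (h : Co x y) (n : ℕ) : Co (n * x) (n * y) := by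
  obtain ⟨a, ha⟩ := h
  exact ⟨n * a, by push_cast; rw [← ha]; ring⟩

lemma dvd_of_int {ρ : ℚ} {n z : ℤ} (h : (n : ℚ) * ρ = z) : (ρ.den : ℤ) ∣ n := by
  have h1 : (n : ℚ) * ρ.num = z * ρ.den := by
    have h2 := Rat.num_div_den ρ
    have h3 : (ρ.den : ℚ) ≠ 0 := by exact_mod_cast ρ.den_nz
    rw [← h]
    nth_rewrite 2 [← h2]
    field_simp
  have h2 : n * ρ.num = z * ρ.den := by exact_mod_cast h1
  have h3 : (ρ.den : ℤ) ∣ n * ρ.num := ⟨z, by rw [h2]; ring⟩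
  have h4 : IsCoprime (ρ.den : ℤ) ρ.num := by
    rw [Int.isCoprime_iff_gcd_eq_one]
    have := ρ.reduced
    rw [Int.gcd, Int.natAbs_natCast]
    exact (Nat.coprime_comm.1 this)
  exact h4.dvd_of_dvd_mul_right h3

lemma Co.den_dvd {n m : ℕ} {ρ θ : ℚ} (hn : Co (n * ρ) θ) (hm : Co (m * ρ) θ) :
    (ρ.den : ℤ) ∣ (n : ℤ) - m := by
  obtain ⟨a, ha⟩ := hn
  obtain ⟨b, hb⟩ := hm
  refine dvd_of_int (z := a - b) ?_
  push_cast
  linarith

lemma Co.mod {n m : ℕ} {ρ θ : ℚ} (hn : Co (n * ρ) θ) (hm : Co (m * ρ) θ) :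
    n % ρ.den = m % ρ.den := by
  have h := hn.den_dvd hm
  have h1 : (n : ℤ) ≡ m [ZMOD ρ.den] := (Int.modEq_iff_dvd.2 (by
    rw [← neg_sub]; exact (dvd_neg).2 h))
  exact (Int.natCast_modEq_iff.1 h1)

lemma class_sum {ρ θ : ℚ} {P Q : ℝ} (hP : 0 < P) (hPQ : P ≤ Q) {F : Finset ℕ}
    (hF : ∀ n ∈ F, P < n ∧ (n : ℝ) ≤ Q ∧ Co (n * ρ) θ) :
    ∑ n ∈ F, (1 : ℝ) / n ≤ 1 / P + Real.log (Q / P) / ρ.den := by
  rcases F.eq_empty_or_nonempty with h | ⟨a, ha⟩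
  · rw [h, Finset.sum_empty]
    have : 0 ≤ Real.log (Q / P) := Real.log_nonneg (by rw [le_div_iff₀ hP]; linarith)
    positivity
  · exact BTs18.ap_triv (a := a) ρ.pos hP hPQ fun n hn =>
      ⟨(hF n hn).1, (hF n hn).2.1, (hF n hn).2.2.mod (hF a ha).2.2⟩

/-- the denominator of a multiple -/
lemma den_mul (m : ℕ) (ρ : ℚ) (hm : 0 < m) :
    ρ.den ≤ Nat.gcd m ρ.den * ((m : ℚ) * ρ).den := by
  have h1 : (((((m : ℚ) * ρ).den * m : ℕ) : ℤ) : ℚ) * ρ = (((m : ℚ) * ρ).num : ℤ) := by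
    have h2 := Rat.den_mul_eq_num ((m : ℚ) * ρ)
    push_cast
    rw [mul_assoc]
    exact h2
  have h2 : ρ.den ∣ ((m : ℚ) * ρ).den * m := by exact_mod_cast dvd_of_int h1
  have h3 : ρ.den ∣ ((m : ℚ) * ρ).den * Nat.gcd m ρ.den := by
    have h4 : ρ.den ∣ ((m : ℚ) * ρ).den * ρ.den := dvd_mul_left _ _
    have h5 := Nat.dvd_gcd h2 h4
    rwa [Nat.gcd_mul_left] at h5
  have h4 : 0 < ((m : ℚ) * ρ).den * Nat.gcd m ρ.den :=
    Nat.mul_pos (Rat.den_pos _) (Nat.gcd_pos_of_pos_left _ hm)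
  rw [mul_comm]
  exact Nat.le_of_dvd h4 h3

lemma class_sum_mul {ρ θ : ℚ} {m : ℕ} (hm : 0 < m) {P Q : ℝ} (hP : 0 < P) (hPQ : P ≤ Q)
    {F : Finset ℕ} (hF : ∀ n ∈ F, P < n ∧ (n : ℝ) ≤ Q ∧ Co ((n * m : ℕ) * ρ) θ) :
    ∑ n ∈ F, (1 : ℝ) / n ≤ 1 / P + Real.log (Q / P) * Nat.gcd m ρ.den / ρ.den := by
  have hL : 0 ≤ Real.log (Q / P) := Real.log_nonneg (by rw [le_div_iff₀ hP]; linarith)
  have h1 := class_sum (ρ := (m : ℚ) * ρ) (θ := θ) hP hPQ (F := F) fun n hn => by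
    obtain ⟨a, b, c⟩ := hF n hn
    refine ⟨a, b, ?_⟩
    push_cast at c
    rwa [mul_assoc] at c
  have hd : (0 : ℝ) < ρ.den := by exact_mod_cast ρ.pos
  have hd' : (0 : ℝ) < ((m : ℚ) * ρ).den := by exact_mod_cast Rat.den_pos _
  have h2 : (ρ.den : ℝ) ≤ Nat.gcd m ρ.den * ((m : ℚ) * ρ).den := by
    exact_mod_cast den_mul m ρ hm
  have h3 : Real.log (Q / P) / ((m : ℚ) * ρ).den ≤ Real.log (Q / P) * Nat.gcd m ρ.den / ρ.den := by
    rw [div_le_div_iff₀ hd' hd]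
    nlinarith
  linarith

/-- **small primitive pairs are unique** -/
theorem uniq {ρ ρ' : ℚ} {u u' v v' : ℕ} {X : ℝ} (hX : X * X ≤ ρ.den) (hu : (u : ℝ) ≤ X)
    (hu' : (u' : ℝ) ≤ X) (hv : (v : ℝ) ≤ X) (hv' : (v' : ℝ) ≤ X) (hu0 : 0 < u) (hu'0 : 0 < u')
    (hv0 : 0 < v) (hv'0 : 0 < v') (h1 : Co (u * ρ) (u' * ρ')) (h2 : Co (v * ρ) (v' * ρ')) :
    v' * u = u' * v := by
  have h3 : Co ((v' * u : ℕ) * ρ) ((u' * v' : ℕ) * ρ') := by
    have := h1.mul v'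
    push_cast
    convert this using 1 <;> ring
  have h4 : Co ((u' * v : ℕ) * ρ) ((u' * v' : ℕ) * ρ') := by
    have := h2.mul u'
    push_cast
    convert this using 1 <;> ring
  have h5 := h3.den_dvd h4
  have h6 : ((v' * u : ℕ) : ℝ) ≤ ρ.den := by
    push_cast
    refine le_trans ?_ hX
    exact mul_le_mul hv' hu (by positivity) (le_trans (by positivity) hu)
  have h7 : ((u' * v : ℕ) : ℝ) ≤ ρ.den := by
    push_cast
    refine le_trans ?_ hX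
    exact mul_le_mul hu' hv (by positivity) (le_trans (by positivity) hu)
  have h8 : v' * u ≤ ρ.den := by exact_mod_cast h6
  have h9 : u' * v ≤ ρ.den := by exact_mod_cast h7
  have h10 : 0 < v' * u := Nat.mul_pos hv'0 hu0
  have h11 : 0 < u' * v := Nat.mul_pos hu'0 hv0
  have h12 := Int.eq_zero_of_abs_lt_dvd h5 (by
    rw [abs_lt]
    constructor <;> push_cast <;> push_cast at * <;> omega)
  have : ((v' * u : ℕ) : ℤ) = ((u' * v : ℕ) : ℤ) := by linarith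
  exact_mod_cast this

/-! ### sets of primes -/

section sets
variable {S : Finset ℕ} {w : ℕ → ℝ} {C Z : ℝ} {P : ℕ}

lemma prod_pos {E : Finset ℕ} (h : ∀ p ∈ E, p.Prime) : 0 < ∏ p ∈ E, p :=
  Finset.prod_pos fun p hp => (h p hp).pos

lemma prod_inj {E E' : Finset ℕ} (h : ∀ p ∈ E, p.Prime) (h' : ∀ p ∈ E', p.Prime)
    (e : ∏ p ∈ E, p = ∏ p ∈ E', p) : E = E' := by
  rw [← Nat.primeFactors_prod h, ← Nat.primeFactors_prod h', e]

lemma wt_nonneg {E : Finset ℕ} (h : ∀ p ∈ E, 0 ≤ w p) : 0 ≤ ∏ p ∈ E, w p := Finset.prod_nonneg h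

lemma wt_le {E : Finset ℕ} (h : ∀ p ∈ E, 0 ≤ w p ∧ w p ≤ C / p) :
    ∏ p ∈ E, w p ≤ C ^ E.card / ((∏ p ∈ E, p : ℕ) : ℝ) := by
  calc ∏ p ∈ E, w p ≤ ∏ p ∈ E, (C / (p : ℝ)) :=
        Finset.prod_le_prod (fun p hp => (h p hp).1) fun p hp => (h p hp).2
    _ = C ^ E.card / ((∏ p ∈ E, p : ℕ) : ℝ) := by
        rw [Finset.prod_div_distrib, Finset.prod_const]
        push_cast
        rfl

lemma pow_card_le {E : Finset ℕ} (hZ : 0 ≤ Z) (h : ∀ p ∈ E, Z ≤ p) :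
    Z ^ E.card ≤ ((∏ p ∈ E, p : ℕ) : ℝ) := by
  push_cast
  rw [← Finset.prod_const]
  exact Finset.prod_le_prod (fun _ _ => hZ) h

lemma card_le {E : Finset ℕ} {X : ℝ} (hZ : 1 < Z) (h : ∀ p ∈ E, Z ≤ p)
    (hX : ((∏ p ∈ E, p : ℕ) : ℝ) ≤ X) : (E.card : ℝ) ≤ Real.log X / Real.log Z := by
  have hlZ : 0 < Real.log Z := Real.log_pos hZ
  rw [le_div_iff₀ hlZ, ← Real.log_pow]
  exact Real.log_le_log (by positivity) ((pow_card_le (by linarith) h).trans hX)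

lemma cpow_le {E : Finset ℕ} {X : ℝ} (hC : 1 ≤ C) (hZ : 1 < Z) (h : ∀ p ∈ E, Z ≤ p)
    (hX : ((∏ p ∈ E, p : ℕ) : ℝ) ≤ X) : C ^ E.card ≤ C ^ (Real.log X / Real.log Z) := by
  rw [← Real.rpow_natCast]
  exact Real.rpow_le_rpow_of_exponent_le hC (card_le hZ h hX)

/-- **prefix of a product** -/
lemma prefix_ {X : ℝ} (hX : 1 ≤ X) : ∀ {E : Finset ℕ}, X < ((∏ p ∈ E, p : ℕ) : ℝ) →
    ∃ D ⊆ E, ∃ p ∈ E, p ∉ D ∧ ((∏ q ∈ D, q : ℕ) : ℝ) ≤ X ∧
      X < ((∏ q ∈ insert p D, q : ℕ) : ℝ) := by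
  intro E
  induction E using Finset.strongInduction with
  | H E ih =>
    intro h
    rcases E.eq_empty_or_nonempty with he | ⟨p, hp⟩
    · exfalso
      rw [he, Finset.prod_empty] at h
      push_cast at h
      linarith
    · by_cases h1 : ((∏ q ∈ E.erase p, q : ℕ) : ℝ) ≤ X
      · refine ⟨E.erase p, Finset.erase_subset _ _, p, hp, Finset.notMem_erase _ _, h1, ?_⟩
        rwa [Finset.insert_erase hp]
      · obtain ⟨D, hD, q, hq, h2⟩ := ih (E.erase p) (Finset.erase_ssubset hp) (not_le.1 h1)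
        exact ⟨D, hD.trans (Finset.erase_subset _ _), q, Finset.mem_of_mem_erase hq, h2⟩

lemma sum_powerset_le {f : ℕ → ℝ} (S : Finset ℕ) :
    ∑ M ∈ S.powerset, ∏ p ∈ M, f p = ∏ p ∈ S, (1 + f p) := by
  rw [Finset.prod_one_add]

lemma gcd_prod_le (M : Finset ℕ) (k : ℕ) :
    Nat.gcd (∏ p ∈ M, p) k ≤ ∏ p ∈ M, Nat.gcd p k := by
  induction M using Finset.induction_on with
  | empty => simp
  | insert p M hp ih =>
    rw [Finset.prod_insert hp, Finset.prod_insert hp]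
    by_cases hk : k = 0
    · subst hk
      simp
    · refine le_trans (Nat.le_of_dvd ?_ (Nat.gcd_mul_left_dvd_mul_gcd k p (∏ p ∈ M, p))) ?_
      · exact Nat.mul_pos (Nat.gcd_pos_of_pos_right _ (Nat.pos_of_ne_zero hk))
          (Nat.gcd_pos_of_pos_right _ (Nat.pos_of_ne_zero hk))
      · exact Nat.mul_le_mul_left _ ih

end sets

/-! ### one residue class -/

section cls
variable {S : Finset ℕ} {w : ℕ → ℝ} {C Z : ℝ} {P : ℕ}

/-- the setting: weights `w p ≤ C / p` on a set of primes in `[Z, P]` -/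
structure Ws (S : Finset ℕ) (w : ℕ → ℝ) (C Z : ℝ) (P : ℕ) : Prop where
  C1 : 1 ≤ C
  Z1 : 1 < Z
  pr : ∀ p ∈ S, p.Prime
  lo : ∀ p ∈ S, Z ≤ p
  hi : ∀ p ∈ S, p ≤ P
  w0 : ∀ p ∈ S, 0 ≤ w p
  wC : ∀ p ∈ S, w p ≤ C / p

/-- total weight -/
noncomputable def Wt (S : Finset ℕ) (w : ℕ → ℝ) : ℝ := ∏ p ∈ S, (1 + w p)

/-- `(1 + C) ^ (log k / log Z)` -/
noncomputable def Kf (C Z : ℝ) (k : ℕ) : ℝ := (1 + C) ^ (Real.log k / Real.log Z)

lemma Kf_ge (hC : 1 ≤ C) (hZ : 1 < Z) (k : ℕ) : 1 ≤ Kf C Z k :=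
  Real.one_le_rpow (by linarith) (div_nonneg (Real.log_natCast_nonneg k) (Real.log_pos hZ).le)

lemma Kf_mono (hC : 1 ≤ C) (hZ : 1 < Z) {k l : ℕ} (hk : 1 ≤ k) (h : k ≤ l) : Kf C Z k ≤ Kf C Z l := by
  refine Real.rpow_le_rpow_of_exponent_le (by linarith) ?_
  refine div_le_div_of_nonneg_right ?_ (Real.log_pos hZ).le
  exact Real.log_le_log (by exact_mod_cast hk) (by exact_mod_cast h)

lemma Wt_ge (h : ∀ p ∈ S, 0 ≤ w p) : 1 ≤ Wt S w := by
  unfold Wt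
  have : ∏ p ∈ S, (1 : ℝ) ≤ ∏ p ∈ S, (1 + w p) :=
    Finset.prod_le_prod (fun _ _ => zero_le_one) fun p hp => by linarith [h p hp]
  simpa using this

lemma Ws.sub (h : Ws S w C Z P) {T : Finset ℕ} (hT : T ⊆ S) : Ws T w C Z P where
  C1 := h.C1
  Z1 := h.Z1
  pr p hp := h.pr p (hT hp)
  lo p hp := h.lo p (hT hp)
  hi p hp := h.hi p (hT hp)
  w0 p hp := h.w0 p (hT hp)
  wC p hp := h.wC p (hT hp)

/-- `∑_M w(M) gcd(∏ M, k) ≤ W K` -/
lemma gcd_sum (h : Ws S w C Z P) {k : ℕ} (hk : 1 ≤ k) :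
    ∑ M ∈ S.powerset, (∏ p ∈ M, w p) * Nat.gcd (∏ p ∈ M, p) k ≤ Wt S w * Kf C Z k := by
  have h1 : ∀ M ∈ S.powerset, (∏ p ∈ M, w p) * (Nat.gcd (∏ p ∈ M, p) k : ℝ) ≤
      ∏ p ∈ M, (w p * Nat.gcd p k) := by
    intro M hM
    have hM := Finset.mem_powerset.1 hM
    rw [Finset.prod_mul_distrib]
    refine mul_le_mul_of_nonneg_left ?_ (Finset.prod_nonneg fun p hp => h.w0 p (hM hp))
    exact_mod_cast gcd_prod_le M k
  refine (Finset.sum_le_sum h1).trans ?_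
  rw [← Finset.prod_one_add]
  -- split off the divisors of `k`
  have h2 : ∀ p ∈ S, 1 + w p * (Nat.gcd p k : ℝ) ≤
      (1 + w p) * (if p ∣ k then 1 + C else 1) := by
    intro p hp
    have hw := h.w0 p hp
    have hC := h.C1
    split_ifs with hd
    · rw [Nat.gcd_eq_left hd]
      have hp0 : (0 : ℝ) < p := by exact_mod_cast (h.pr p hp).pos
      have h3 : w p * p ≤ C := by
        have := h.wC p hp
        rwa [le_div_iff₀ hp0] at this
      nlinarith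
    · rw [(Nat.Coprime.gcd_eq_one (((h.pr p hp).coprime_iff_not_dvd).2 hd))]
      simp
  refine (Finset.prod_le_prod (fun p hp => by
    have := h.w0 p hp
    positivity) h2).trans ?_
  rw [Finset.prod_mul_distrib]
  refine mul_le_mul_of_nonneg_left ?_ (by
    have := Wt_ge (S := S) (w := w) h.w0
    unfold Wt at this
    linarith)
  rw [Finset.prod_ite, Finset.prod_const_one, mul_one, Finset.prod_const]
  have h3 : ((∏ p ∈ S.filter (fun p => p ∣ k), p : ℕ) : ℝ) ≤ k := by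
    have h4 : ∏ p ∈ S.filter (fun p => p ∣ k), p ∣ k :=
      Finset.prod_primes_dvd k (fun p hp => (h.pr p (Finset.mem_filter.1 hp).1).prime)
        fun p hp => (Finset.mem_filter.1 hp).2
    exact_mod_cast Nat.le_of_dvd hk h4
  exact cpow_le (by linarith [h.C1]) h.Z1 (fun p hp => h.lo p (Finset.mem_filter.1 hp).1) h3

/-- **large products in one residue class** -/
theorem big_sum (h : Ws S w C Z P) (hP : 1 ≤ P) {ρ θ : ℚ} {X : ℝ} (hX : 1 ≤ X)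
    {F : Finset (Finset ℕ)}
    (hF : ∀ E ∈ F, E ⊆ S ∧ X < ((∏ p ∈ E, p : ℕ) : ℝ) ∧ Co ((∏ p ∈ E, p : ℕ) * ρ) θ) :
    ∑ E ∈ F, ∏ p ∈ E, w p ≤
      C * C ^ (Real.log X / Real.log Z) * ((1 / X + Real.log P / ρ.den) * (Wt S w * Kf C Z ρ.den)) := by
  classical
  have hC0 : 0 < C := by linarith [h.C1]
  have hP0 : (1 : ℝ) ≤ P := by exact_mod_cast hP
  have hlP : 0 ≤ Real.log P := Real.log_nonneg hP0
  have hk0 : (0 : ℝ) < ρ.den := by exact_mod_cast ρ.pos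
  have hch : ∀ E : Finset ℕ, ∃ D : Finset ℕ, ∃ p : ℕ, E ∈ F → D ⊆ E ∧ p ∈ E ∧ p ∉ D ∧
      ((∏ q ∈ D, q : ℕ) : ℝ) ≤ X ∧ X < ((∏ q ∈ insert p D, q : ℕ) : ℝ) := by
    intro E
    by_cases hE : E ∈ F
    · obtain ⟨D, hD, p, hp, h1, h2, h3⟩ := prefix_ hX (hF E hE).2.1
      exact ⟨D, p, fun _ => ⟨hD, hp, h1, h2, h3⟩⟩
    · exact ⟨∅, 0, fun h => absurd h hE⟩
  choose D q hDq using hch
  set T : Finset ℕ → Finset ℕ := fun E => insert (q E) (D E) with hT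
  set M : Finset ℕ → Finset ℕ := fun E => E \ T E with hM
  have hTE : ∀ E ∈ F, T E ⊆ E := fun E hE => by
    obtain ⟨h1, h2, -⟩ := hDq E hE
    exact Finset.insert_subset h2 h1
  have hMS : ∀ E ∈ F, M E ∈ S.powerset := fun E hE =>
    Finset.mem_powerset.2 (Finset.sdiff_subset.trans (hF E hE).1)
  set A : ℝ := C * C ^ (Real.log X / Real.log Z) with hA
  have hA0 : 0 < A := by positivity
  -- one set
  have h1 : ∀ E ∈ F, ∏ p ∈ E, w p ≤ A * ((1 / ((∏ p ∈ T E, p : ℕ) : ℝ)) * ∏ p ∈ M E, w p) := by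
    intro E hE
    obtain ⟨a1, a2, a3, a4, a5⟩ := hDq E hE
    have e1 : ∏ p ∈ E, w p = (∏ p ∈ T E, w p) * ∏ p ∈ M E, w p := by
      rw [mul_comm, hM]
      exact (Finset.prod_sdiff (hTE E hE)).symm
    rw [e1, ← mul_assoc]
    refine mul_le_mul_of_nonneg_right ?_ (Finset.prod_nonneg fun p hp =>
      h.w0 p ((hF E hE).1 (Finset.sdiff_subset hp)))
    have h2 : ∀ p ∈ T E, 0 ≤ w p ∧ w p ≤ C / p := fun p hp =>
      ⟨h.w0 p ((hF E hE).1 (hTE E hE hp)), h.wC p ((hF E hE).1 (hTE E hE hp))⟩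
    refine (wt_le h2).trans ?_
    rw [mul_one_div]
    have h3 : (T E).card = (D E).card + 1 := Finset.card_insert_of_notMem a3
    have h4 : C ^ (D E).card ≤ C ^ (Real.log X / Real.log Z) :=
      cpow_le h.C1 h.Z1 (fun p hp => h.lo p ((hF E hE).1 (a1 hp))) a4
    rw [h3, pow_succ, hA]
    refine div_le_div_of_nonneg_right ?_ (Nat.cast_nonneg _)
    rw [mul_comm]
    exact mul_le_mul_of_nonneg_left h4 hC0.le
  refine (Finset.sum_le_sum h1).trans ?_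
  rw [← Finset.mul_sum]
  refine mul_le_mul_of_nonneg_left ?_ hA0.le
  -- fibres
  rw [← Finset.sum_fiberwise_of_maps_to hMS]
  have h2 : ∀ N ∈ S.powerset, ∑ E ∈ F.filter (fun E => M E = N),
      (1 / ((∏ p ∈ T E, p : ℕ) : ℝ)) * ∏ p ∈ M E, w p ≤
      (1 / X + Real.log P / ρ.den) * ((∏ p ∈ N, w p) * Nat.gcd (∏ p ∈ N, p) ρ.den) := by
    intro N hN
    have hNS := Finset.mem_powerset.1 hN
    have hNp : ∀ p ∈ N, p.Prime := fun p hp => h.pr p (hNS hp)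
    have hN0 : 0 ≤ ∏ p ∈ N, w p := Finset.prod_nonneg fun p hp => h.w0 p (hNS hp)
    have e1 : ∑ E ∈ F.filter (fun E => M E = N), (1 / ((∏ p ∈ T E, p : ℕ) : ℝ)) * ∏ p ∈ M E, w p =
        (∑ E ∈ F.filter (fun E => M E = N), 1 / ((∏ p ∈ T E, p : ℕ) : ℝ)) * ∏ p ∈ N, w p := by
      rw [Finset.sum_mul]
      exact Finset.sum_congr rfl fun E hE => by rw [(Finset.mem_filter.1 hE).2]
    rw [e1]
    have hinj : Set.InjOn (fun E : Finset ℕ => ∏ p ∈ T E, p)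
        (F.filter (fun E => M E = N) : Set (Finset ℕ)) := by
      intro E hE E' hE' he
      have hE1 := Finset.mem_filter.1 (Finset.mem_coe.1 hE)
      have hE2 := Finset.mem_filter.1 (Finset.mem_coe.1 hE')
      have h5 : T E = T E' := prod_inj
        (fun p hp => h.pr p ((hF E hE1.1).1 (hTE E hE1.1 hp)))
        (fun p hp => h.pr p ((hF E' hE2.1).1 (hTE E' hE2.1 hp))) he
      rw [← Finset.sdiff_union_of_subset (hTE E hE1.1), ← Finset.sdiff_union_of_subset (hTE E' hE2.1)]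
      show M E ∪ T E = M E' ∪ T E'
      rw [hE1.2, hE2.2, h5]
    have e2 : ∑ E ∈ F.filter (fun E => M E = N), 1 / ((∏ p ∈ T E, p : ℕ) : ℝ) =
        ∑ n ∈ (F.filter (fun E => M E = N)).image (fun E => ∏ p ∈ T E, p), 1 / (n : ℝ) := by
      rw [Finset.sum_image hinj]
    rw [e2]
    have h6 := class_sum_mul (ρ := ρ) (θ := θ) (m := ∏ p ∈ N, p) (prod_pos hNp)
      (P := X) (Q := X * P) (by linarith) (by nlinarith)
      (F := (F.filter (fun E => M E = N)).image (fun E => ∏ p ∈ T E, p)) (by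
        intro n hn
        obtain ⟨E, hE, rfl⟩ := Finset.mem_image.1 hn
        obtain ⟨hE1, hE2⟩ := Finset.mem_filter.1 hE
        obtain ⟨a1, a2, a3, a4, a5⟩ := hDq E hE1
        refine ⟨a5, ?_, ?_⟩
        · show ((∏ p ∈ insert (q E) (D E), p : ℕ) : ℝ) ≤ X * P
          rw [Finset.prod_insert a3, mul_comm]
          push_cast
          have b1 : ((q E : ℕ) : ℝ) ≤ P := by exact_mod_cast h.hi _ ((hF E hE1).1 a2)
          have b2 : (∏ p ∈ D E, (p : ℝ)) ≤ X := by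
            have := a4
            push_cast at this
            exact this
          exact mul_le_mul b2 b1 (Nat.cast_nonneg _) (by linarith)
        · have e3 : (∏ p ∈ T E, p) * ∏ p ∈ N, p = ∏ p ∈ E, p := by
            rw [← hE2, mul_comm]
            exact Finset.prod_sdiff (hTE E hE1)
          rw [e3]
          exact (hF E hE1).2.2)
    have hg : (1 : ℝ) ≤ Nat.gcd (∏ p ∈ N, p) ρ.den := by
      exact_mod_cast Nat.gcd_pos_of_pos_right _ ρ.pos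
    have e4 : X * (P : ℝ) / X = P := by
      field_simp
    rw [e4] at h6
    calc (∑ n ∈ (F.filter (fun E => M E = N)).image (fun E => ∏ p ∈ T E, p), 1 / (n : ℝ)) *
          ∏ p ∈ N, w p
        ≤ (1 / X + Real.log P * Nat.gcd (∏ p ∈ N, p) ρ.den / ρ.den) * ∏ p ∈ N, w p :=
          mul_le_mul_of_nonneg_right h6 hN0
      _ ≤ ((1 / X + Real.log P / ρ.den) * Nat.gcd (∏ p ∈ N, p) ρ.den) * ∏ p ∈ N, w p := by
          refine mul_le_mul_of_nonneg_right ?_ hN0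
          have h7 : 1 / X * 1 ≤ 1 / X * (Nat.gcd (∏ p ∈ N, p) ρ.den : ℝ) :=
            mul_le_mul_of_nonneg_left hg (by positivity)
          have e5 : Real.log P * (Nat.gcd (∏ p ∈ N, p) ρ.den : ℝ) / ρ.den =
              Real.log P / ρ.den * (Nat.gcd (∏ p ∈ N, p) ρ.den : ℝ) := by ring
          rw [e5, add_mul]
          linarith
      _ = _ := by ring
  refine (Finset.sum_le_sum h2).trans ?_
  rw [← Finset.mul_sum]
  exact mul_le_mul_of_nonneg_left (gcd_sum h ρ.pos) (by positivity)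

/-- **products in a window, one residue class** -/
theorem small_sum (h : Ws S w C Z P) {ρ θ : ℚ} {U X : ℝ} (hU : 0 < U) (hUX : U ≤ X)
    {F : Finset (Finset ℕ)}
    (hF : ∀ E ∈ F, E ⊆ S ∧ U < ((∏ p ∈ E, p : ℕ) : ℝ) ∧ ((∏ p ∈ E, p : ℕ) : ℝ) ≤ X ∧
      Co ((∏ p ∈ E, p : ℕ) * ρ) θ) :
    ∑ E ∈ F, ∏ p ∈ E, w p ≤
      C ^ (Real.log X / Real.log Z) * (1 / U + Real.log (X / U) / ρ.den) := by
  classical
  have hC0 : 0 < C := by linarith [h.C1]
  have h1 : ∀ E ∈ F, ∏ p ∈ E, w p ≤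
      C ^ (Real.log X / Real.log Z) * (1 / ((∏ p ∈ E, p : ℕ) : ℝ)) := by
    intro E hE
    obtain ⟨a1, a2, a3, a4⟩ := hF E hE
    refine (wt_le fun p hp => ⟨h.w0 p (a1 hp), h.wC p (a1 hp)⟩).trans ?_
    rw [mul_one_div]
    exact div_le_div_of_nonneg_right (cpow_le h.C1 h.Z1 (fun p hp => h.lo p (a1 hp)) a3)
      (Nat.cast_nonneg _)
  refine (Finset.sum_le_sum h1).trans ?_
  rw [← Finset.mul_sum]
  refine mul_le_mul_of_nonneg_left ?_ (by positivity)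
  have hinj : Set.InjOn (fun E : Finset ℕ => ∏ p ∈ E, p) (F : Set (Finset ℕ)) := by
    intro E hE E' hE' he
    exact prod_inj (fun p hp => h.pr p ((hF E hE).1 hp)) (fun p hp => h.pr p ((hF E' hE').1 hp)) he
  have e2 : ∑ E ∈ F, 1 / ((∏ p ∈ E, p : ℕ) : ℝ) =
      ∑ n ∈ F.image (fun E => ∏ p ∈ E, p), 1 / (n : ℝ) := by
    rw [Finset.sum_image hinj]
  rw [e2]
  refine class_sum hU hUX (ρ := ρ) (θ := θ) fun n hn => ?_
  obtain ⟨E, hE, rfl⟩ := Finset.mem_image.1 hn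
  obtain ⟨a1, a2, a3, a4⟩ := hF E hE
  exact ⟨a2, a3, a4⟩

/-- the bound of `sum_gt` -/
noncomputable def Bd (S : Finset ℕ) (w : ℕ → ℝ) (C Z : ℝ) (P : ℕ) (U : ℝ) (k : ℕ) : ℝ :=
  Kf C Z k ^ 2 / U + C * Kf C Z k ^ 3 * Wt S w * (1 + Real.log P + 2 * Real.log k) / k

/-- **all products `> U` in one residue class** -/
theorem sum_gt (h : Ws S w C Z P) (hP : 1 ≤ P) {ρ θ : ℚ} {U : ℝ} (hU : 1 ≤ U)
    {F : Finset (Finset ℕ)}
    (hF : ∀ E ∈ F, E ⊆ S ∧ U < ((∏ p ∈ E, p : ℕ) : ℝ) ∧ Co ((∏ p ∈ E, p : ℕ) * ρ) θ) :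
    ∑ E ∈ F, ∏ p ∈ E, w p ≤ Bd S w C Z P U ρ.den := by
  classical
  have hC1 := h.C1
  have hC0 : 0 < C := by linarith
  have hk1 : (1 : ℝ) ≤ ρ.den := by exact_mod_cast ρ.pos
  have hk0 : (0 : ℝ) < ρ.den := by linarith
  have hlk : 0 ≤ Real.log ρ.den := Real.log_nonneg hk1
  have hP0 : (1 : ℝ) ≤ P := by exact_mod_cast hP
  have hlP : 0 ≤ Real.log P := Real.log_nonneg hP0
  have hlZ : 0 < Real.log Z := Real.log_pos h.Z1
  have hK := Kf_ge hC1 h.Z1 ρ.den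
  have hW := Wt_ge h.w0
  set k : ℝ := (ρ.den : ℝ) with hk
  set K : ℝ := Kf C Z ρ.den with hKd
  set W : ℝ := Wt S w with hWd
  -- `C ^ (log (k²) / log Z) ≤ K²`
  have hKK : C ^ (Real.log (k ^ 2) / Real.log Z) ≤ K ^ 2 := by
    have e : K ^ 2 = (1 + C) ^ (Real.log (k ^ 2) / Real.log Z) := by
      rw [hKd, Kf, ← Real.rpow_natCast, ← Real.rpow_mul (by linarith), Real.log_pow]
      congr 1
      push_cast
      ring
    rw [e]
    refine Real.rpow_le_rpow hC0.le (by linarith) (div_nonneg ?_ hlZ.le)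
    exact Real.log_nonneg (one_le_pow₀ hk1)
  have hX1 : (1 : ℝ) ≤ k ^ 2 := one_le_pow₀ hk1
  -- big part
  have hbig : ∑ E ∈ F.filter (fun E => k ^ 2 < ((∏ p ∈ E, p : ℕ) : ℝ)), ∏ p ∈ E, w p ≤
      C * K ^ 3 * W * (1 + Real.log P) / k := by
    have h1 := big_sum h hP (ρ := ρ) (θ := θ) hX1
      (F := F.filter (fun E => k ^ 2 < ((∏ p ∈ E, p : ℕ) : ℝ))) (by
        intro E hE
        obtain ⟨h1, h2⟩ := Finset.mem_filter.1 hE
        exact ⟨(hF E h1).1, h2, (hF E h1).2.2⟩)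
    refine h1.trans ?_
    have h2 : 1 / k ^ 2 + Real.log P / k ≤ (1 + Real.log P) / k := by
      have : 1 / k ^ 2 ≤ 1 / k := one_div_le_one_div_of_le hk0 (by nlinarith)
      rw [add_div]
      linarith
    calc C * C ^ (Real.log (k ^ 2) / Real.log Z) * ((1 / k ^ 2 + Real.log P / k) * (W * K))
        ≤ C * K ^ 2 * ((1 + Real.log P) / k * (W * K)) := by
          refine mul_le_mul (mul_le_mul_of_nonneg_left hKK hC0.le)
            (mul_le_mul_of_nonneg_right h2 (by positivity)) (by positivity) (by positivity)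
      _ = _ := by ring
  -- small part
  have hsmall : ∑ E ∈ F.filter (fun E => ¬ k ^ 2 < ((∏ p ∈ E, p : ℕ) : ℝ)), ∏ p ∈ E, w p ≤
      K ^ 2 / U + K ^ 2 * (2 * Real.log k) / k := by
    rcases le_or_gt U (k ^ 2) with hUk | hUk
    · have h1 := small_sum h (ρ := ρ) (θ := θ) (by linarith) hUk
        (F := F.filter (fun E => ¬ k ^ 2 < ((∏ p ∈ E, p : ℕ) : ℝ))) (by
          intro E hE
          obtain ⟨h1, h2⟩ := Finset.mem_filter.1 hE
          exact ⟨(hF E h1).1, (hF E h1).2.1, not_lt.1 h2, (hF E h1).2.2⟩)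
      refine h1.trans ?_
      have h2 : Real.log (k ^ 2 / U) ≤ 2 * Real.log k := by
        rw [Real.log_div (by positivity) (by linarith), Real.log_pow]
        have := Real.log_nonneg hU
        push_cast
        linarith
      have h3 : 0 ≤ Real.log (k ^ 2 / U) := Real.log_nonneg (by
        rw [le_div_iff₀ (by linarith)]; linarith)
      calc C ^ (Real.log (k ^ 2) / Real.log Z) * (1 / U + Real.log (k ^ 2 / U) / k)
          ≤ K ^ 2 * (1 / U + 2 * Real.log k / k) := by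
            refine mul_le_mul hKK ?_ (by positivity) (by positivity)
            have := div_le_div_of_nonneg_right h2 hk0.le
            linarith
        _ = _ := by ring
    · rw [Finset.filter_eq_empty_iff.2, Finset.sum_empty]
      · positivity
      · intro E hE
        rw [not_not]
        exact hUk.trans (hF E hE).2.1
  rw [← Finset.sum_filter_add_sum_filter_not F (fun E => k ^ 2 < ((∏ p ∈ E, p : ℕ) : ℝ))]
  refine (add_le_add hbig hsmall).trans ?_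
  unfold Bd
  rw [← hk, ← hKd, ← hWd]
  have h5 : K ^ 2 * (2 * Real.log k) ≤ C * K ^ 3 * W * (2 * Real.log k) := by
    refine mul_le_mul_of_nonneg_right ?_ (by linarith)
    have e1 : K ^ 2 * 1 ≤ K ^ 2 * K := mul_le_mul_of_nonneg_left hK (by positivity)
    have e2 : K ^ 3 * 1 ≤ K ^ 3 * (C * W) :=
      mul_le_mul_of_nonneg_left (by nlinarith) (by positivity)
    nlinarith
  have h6 := div_le_div_of_nonneg_right h5 hk0.le
  have e6 : C * K ^ 3 * W * (1 + Real.log P + 2 * Real.log k) / k =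
      C * K ^ 3 * W * (1 + Real.log P) / k + C * K ^ 3 * W * (2 * Real.log k) / k := by ring
  rw [e6]
  linarith

/-- the bound with a range of denominators -/
noncomputable def B2 (S : Finset ℕ) (w : ℕ → ℝ) (C Z : ℝ) (P : ℕ) (U : ℝ) (k₁ k₂ : ℕ) : ℝ :=
  Kf C Z k₂ ^ 2 / U + C * Kf C Z k₂ ^ 3 * Wt S w * (1 + Real.log P + 2 * Real.log k₂) / k₁

lemma Bd_le (h : Ws S w C Z P) {U : ℝ} (hU : 0 < U) {k k₁ k₂ : ℕ} (hk : 1 ≤ k₁) (h1 : k₁ ≤ k)
    (h2 : k ≤ k₂) : Bd S w C Z P U k ≤ B2 S w C Z P U k₁ k₂ := by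
  have hC0 : 0 < C := by linarith [h.C1]
  have hK := Kf_ge h.C1 h.Z1 k
  have hKm := Kf_mono (C := C) (Z := Z) h.C1 h.Z1 (hk.trans h1) h2
  have hW := Wt_ge h.w0
  have hl : Real.log k ≤ Real.log k₂ :=
    Real.log_le_log (by exact_mod_cast (hk.trans h1)) (by exact_mod_cast h2)
  have hl0 : 0 ≤ Real.log (k : ℝ) := Real.log_natCast_nonneg k
  have hl2 : 0 ≤ Real.log (k₂ : ℝ) := hl0.trans hl
  have hK2 : 1 ≤ Kf C Z k₂ := hK.trans hKm
  have hlP : 0 ≤ Real.log (P : ℝ) := Real.log_natCast_nonneg P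
  unfold Bd B2
  refine add_le_add (div_le_div_of_nonneg_right ?_ hU.le) ?_
  · exact pow_le_pow_left₀ (by linarith) hKm 2
  · refine div_le_div₀ (by positivity) ?_ (by exact_mod_cast hk) (by exact_mod_cast h1)
    refine mul_le_mul (mul_le_mul_of_nonneg_right (mul_le_mul_of_nonneg_left
      (pow_le_pow_left₀ (by linarith) hKm 3) hC0.le) (by linarith)) (by linarith) (by positivity)
      (by positivity)

lemma B2_nonneg (h : Ws S w C Z P) {U : ℝ} (hU : 0 < U) (k₁ k₂ : ℕ) : 0 ≤ B2 S w C Z P U k₁ k₂ := by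
  have hC0 : 0 < C := by linarith [h.C1]
  have hK := Kf_ge h.C1 h.Z1 k₂
  have hW := Wt_ge h.w0
  have hl0 : 0 ≤ Real.log (k₂ : ℝ) := Real.log_natCast_nonneg k₂
  have hlP : 0 ≤ Real.log (P : ℝ) := Real.log_natCast_nonneg P
  unfold B2
  positivity

/-- **fibres over the second set** -/
lemma fib_sum (h : Ws S w C Z P) (hP : 1 ≤ P) {ρ ρ' : ℚ} {U : ℝ} (hU : 1 ≤ U)
    {G : Finset (Finset ℕ × Finset ℕ)}
    (hG : ∀ e ∈ G, e.1 ⊆ S ∧ e.2 ⊆ S ∧ U < ((∏ p ∈ e.1, p : ℕ) : ℝ) ∧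
      Co ((∏ p ∈ e.1, p : ℕ) * ρ) ((∏ p ∈ e.2, p : ℕ) * ρ')) :
    ∑ e ∈ G, (∏ p ∈ e.1, w p) * ∏ p ∈ e.2, w p ≤ Wt S w * Bd S w C Z P U ρ.den := by
  classical
  rw [← Finset.sum_fiberwise_of_maps_to (s := G) (t := S.powerset) (g := Prod.snd)
    fun e he => Finset.mem_powerset.2 (hG e he).2.1]
  have h1 : ∀ N ∈ S.powerset, ∑ e ∈ G.filter (fun e => e.2 = N),
      (∏ p ∈ e.1, w p) * ∏ p ∈ e.2, w p ≤ (∏ p ∈ N, w p) * Bd S w C Z P U ρ.den := by
    intro N hN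
    have hNS := Finset.mem_powerset.1 hN
    have hN0 : 0 ≤ ∏ p ∈ N, w p := Finset.prod_nonneg fun p hp => h.w0 p (hNS hp)
    have e1 : ∑ e ∈ G.filter (fun e => e.2 = N), (∏ p ∈ e.1, w p) * ∏ p ∈ e.2, w p =
        (∏ p ∈ N, w p) * ∑ e ∈ G.filter (fun e => e.2 = N), ∏ p ∈ e.1, w p := by
      rw [Finset.mul_sum]
      exact Finset.sum_congr rfl fun e he => by rw [(Finset.mem_filter.1 he).2, mul_comm]
    rw [e1]
    refine mul_le_mul_of_nonneg_left ?_ hN0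
    have hinj : Set.InjOn (Prod.fst : Finset ℕ × Finset ℕ → Finset ℕ)
        (G.filter (fun e => e.2 = N) : Set (Finset ℕ × Finset ℕ)) := by
      intro e he e' he' h2
      have h3 := (Finset.mem_filter.1 (Finset.mem_coe.1 he)).2
      have h4 := (Finset.mem_filter.1 (Finset.mem_coe.1 he')).2
      exact Prod.ext h2 (h3.trans h4.symm)
    have e2 : ∑ e ∈ G.filter (fun e => e.2 = N), ∏ p ∈ e.1, w p =
        ∑ E ∈ (G.filter (fun e => e.2 = N)).image Prod.fst, ∏ p ∈ E, w p := by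
      rw [Finset.sum_image hinj]
    rw [e2]
    refine sum_gt h hP (ρ := ρ) (θ := (∏ p ∈ N, p : ℕ) * ρ') hU fun E hE => ?_
    obtain ⟨e, he, rfl⟩ := Finset.mem_image.1 hE
    obtain ⟨he1, he2⟩ := Finset.mem_filter.1 he
    obtain ⟨a1, a2, a3, a4⟩ := hG e he1
    rw [he2] at a4
    exact ⟨a1, a3, a4⟩
  refine (Finset.sum_le_sum h1).trans ?_
  rw [← Finset.sum_mul, sum_powerset_le]
  exact le_refl _

/-- **a fixed set of `m` primes against a residue class** (per piece form) -/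
theorem piece_sum (h : Ws S w C Z P) (hP : 1 ≤ P) {ρ ρ' : ℚ} {U : ℝ} (hU : 1 ≤ U) {T : Finset ℕ}
    {G : Finset (Finset ℕ × Finset ℕ)}
    (hG : ∀ e ∈ G, e.1 ⊆ S ∧ e.2 ⊆ T ∧ U < ((∏ p ∈ e.1, p : ℕ) : ℝ) ∧
      Co ((∏ p ∈ e.1, p : ℕ) * ρ) ((∏ p ∈ e.2, p : ℕ) * ρ')) :
    ∑ e ∈ G, (∏ p ∈ e.1, w p) ≤ 2 ^ T.card * Bd S w C Z P U ρ.den := by
  classical
  rw [← Finset.sum_fiberwise_of_maps_to (s := G) (t := T.powerset) (g := Prod.snd)
    fun e he => Finset.mem_powerset.2 (hG e he).2.1]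
  have h1 : ∀ N ∈ T.powerset, ∑ e ∈ G.filter (fun e => e.2 = N), (∏ p ∈ e.1, w p) ≤
      Bd S w C Z P U ρ.den := by
    intro N hN
    have hinj : Set.InjOn (Prod.fst : Finset ℕ × Finset ℕ → Finset ℕ)
        (G.filter (fun e => e.2 = N) : Set (Finset ℕ × Finset ℕ)) := by
      intro e he e' he' h2
      have h3 := (Finset.mem_filter.1 (Finset.mem_coe.1 he)).2
      have h4 := (Finset.mem_filter.1 (Finset.mem_coe.1 he')).2
      exact Prod.ext h2 (h3.trans h4.symm)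
    have e2 : ∑ e ∈ G.filter (fun e => e.2 = N), ∏ p ∈ e.1, w p =
        ∑ E ∈ (G.filter (fun e => e.2 = N)).image Prod.fst, ∏ p ∈ E, w p := by
      rw [Finset.sum_image hinj]
    rw [e2]
    refine sum_gt h hP (ρ := ρ) (θ := (∏ p ∈ N, p : ℕ) * ρ') hU fun E hE => ?_
    obtain ⟨e, he, rfl⟩ := Finset.mem_image.1 hE
    obtain ⟨he1, he2⟩ := Finset.mem_filter.1 he
    obtain ⟨a1, a2, a3, a4⟩ := hG e he1
    rw [he2] at a4
    exact ⟨a1, a3, a4⟩
  refine (Finset.sum_le_sum h1).trans ?_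
  rw [Finset.sum_const, Finset.card_powerset, nsmul_eq_mul]
  push_cast
  exact le_refl _

/-- one nonempty set of primes -/
lemma wt_one (h : Ws S w C Z P) (hCZ : C ≤ Z) {E : Finset ℕ} (hE : E ⊆ S) (hne : E.Nonempty) :
    ∏ p ∈ E, w p ≤ C / Z := by
  classical
  have hZ0 : 0 < Z := by linarith [h.Z1]
  have hw : ∀ p ∈ E, w p ≤ C / Z := fun p hp =>
    (h.wC p (hE hp)).trans (div_le_div_of_nonneg_left (by linarith [h.C1]) hZ0 (h.lo p (hE hp)))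
  have hw1 : ∀ p ∈ E, w p ≤ 1 := fun p hp => (hw p hp).trans (by rw [div_le_one hZ0]; exact hCZ)
  obtain ⟨p, hp⟩ := hne
  rw [← Finset.mul_prod_erase E w hp]
  calc w p * ∏ q ∈ E.erase p, w q ≤ w p * 1 := by
        refine mul_le_mul_of_nonneg_left ?_ (h.w0 p (hE hp))
        exact Finset.prod_le_one (fun q hq => h.w0 q (hE (Finset.mem_of_mem_erase hq)))
          fun q hq => hw1 q (Finset.mem_of_mem_erase hq)
    _ ≤ C / Z := by rw [mul_one]; exact hw p hp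

/-- **share of the primitive pairs of cofactors** -/
theorem pair_sum (h : Ws S w C Z P) (hP : 1 ≤ P) (hCZ : C ≤ Z) {ρ ρ' : ℚ} {k₁ k₂ : ℕ}
    (hk : 1 ≤ k₁) (h1 : k₁ ≤ ρ.den) (h2 : ρ.den ≤ k₂) (h1' : k₁ ≤ ρ'.den) (h2' : ρ'.den ≤ k₂)
    {G : Finset (Finset ℕ × Finset ℕ)}
    (hG : ∀ e ∈ G, e.1 ⊆ S ∧ e.2 ⊆ S ∧ Disjoint e.1 e.2 ∧ (e.1 ∪ e.2).Nonempty ∧
      Co ((∏ p ∈ e.1, p : ℕ) * ρ) ((∏ p ∈ e.2, p : ℕ) * ρ')) :
    ∑ e ∈ G, (∏ p ∈ e.1, w p) * ∏ p ∈ e.2, w p ≤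
      C / Z + 2 * Wt S w * B2 S w C Z P (Real.sqrt k₁) k₁ k₂ := by
  classical
  have hZ0 : 0 < Z := by linarith [h.Z1]
  have hC0 : 0 < C := by linarith [h.C1]
  have hk1 : (1 : ℝ) ≤ k₁ := by exact_mod_cast hk
  set U : ℝ := Real.sqrt k₁ with hUd
  have hU1 : 1 ≤ U := by rw [hUd]; exact Real.one_le_sqrt.2 hk1
  have hUU : U * U = k₁ := Real.mul_self_sqrt (by linarith)
  have hW := Wt_ge h.w0
  set f : Finset ℕ × Finset ℕ → ℝ := fun e => (∏ p ∈ e.1, w p) * ∏ p ∈ e.2, w p with hf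
  have hf0 : ∀ e ∈ G, 0 ≤ f e := fun e he => mul_nonneg
    (Finset.prod_nonneg fun p hp => h.w0 p ((hG e he).1 hp))
    (Finset.prod_nonneg fun p hp => h.w0 p ((hG e he).2.1 hp))
  set G1 := G.filter (fun e => U < ((∏ p ∈ e.1, p : ℕ) : ℝ)) with hG1
  set G2 := G.filter (fun e => U < ((∏ p ∈ e.2, p : ℕ) : ℝ)) with hG2
  set G0 := G.filter (fun e => ((∏ p ∈ e.1, p : ℕ) : ℝ) ≤ U ∧ ((∏ p ∈ e.2, p : ℕ) : ℝ) ≤ U) with hG0
  have hsub : G ⊆ G0 ∪ (G1 ∪ G2) := by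
    intro e he
    rw [Finset.mem_union, Finset.mem_union]
    rcases lt_or_ge U ((∏ p ∈ e.1, p : ℕ) : ℝ) with a | a
    · exact Or.inr (Or.inl (Finset.mem_filter.2 ⟨he, a⟩))
    · rcases lt_or_ge U ((∏ p ∈ e.2, p : ℕ) : ℝ) with b | b
      · exact Or.inr (Or.inr (Finset.mem_filter.2 ⟨he, b⟩))
      · exact Or.inl (Finset.mem_filter.2 ⟨he, a, b⟩)
  have hle : ∑ e ∈ G, f e ≤ ∑ e ∈ G0, f e + (∑ e ∈ G1, f e + ∑ e ∈ G2, f e) := by
    have s1 : ∀ e ∈ G0 ∪ (G1 ∪ G2), 0 ≤ f e := by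
      intro e he
      refine hf0 e ?_
      rw [Finset.mem_union, Finset.mem_union] at he
      rcases he with he | he | he <;> exact (Finset.mem_filter.1 he).1
    have s2 : ∑ e ∈ G, f e ≤ ∑ e ∈ G0 ∪ (G1 ∪ G2), f e :=
      Finset.sum_le_sum_of_subset_of_nonneg hsub fun e he _ => s1 e he
    have s3 := Finset.sum_union_inter (s₁ := G0) (s₂ := G1 ∪ G2) (f := f)
    have s4 := Finset.sum_union_inter (s₁ := G1) (s₂ := G2) (f := f)
    have s5 : 0 ≤ ∑ e ∈ G0 ∩ (G1 ∪ G2), f e := Finset.sum_nonneg fun e he =>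
      s1 e (Finset.mem_union_left _ (Finset.mem_inter.1 he).1)
    have s6 : 0 ≤ ∑ e ∈ G1 ∩ G2, f e := Finset.sum_nonneg fun e he =>
      s1 e (Finset.mem_union_right _ (Finset.mem_union_left _ (Finset.mem_inter.1 he).1))
    linarith
  -- (A) small primitive pairs
  have hA : ∑ e ∈ G0, f e ≤ C / Z := by
    have hc : G0.card ≤ 1 := by
      rw [Finset.card_le_one]
      intro e he e' he'
      obtain ⟨he0, he1, he2⟩ := Finset.mem_filter.1 he
      obtain ⟨he0', he1', he2'⟩ := Finset.mem_filter.1 he'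
      obtain ⟨a1, a2, a3, a4, a5⟩ := hG e he0
      obtain ⟨b1, b2, b3, b4, b5⟩ := hG e' he0'
      have pp : ∀ {E : Finset ℕ}, E ⊆ S → ∀ p ∈ E, p.Prime := fun hE p hp => h.pr p (hE hp)
      have hq := uniq (ρ := ρ) (ρ' := ρ') (X := U) (by rw [hUU]; exact_mod_cast h1) he1 he2 he1' he2'
        (prod_pos (pp a1)) (prod_pos (pp a2)) (prod_pos (pp b1)) (prod_pos (pp b2)) a5 b5
      have cop : ∀ {E E' : Finset ℕ}, E ⊆ S → E' ⊆ S → Disjoint E E' →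
          Nat.Coprime (∏ p ∈ E, p) (∏ p ∈ E', p) := by
        intro E E' hE hE' hd
        rw [Nat.coprime_prod_left_iff]
        intro p hp
        rw [Nat.coprime_prod_right_iff]
        intro q hq
        exact (Nat.coprime_primes (pp hE p hp) (pp hE' q hq)).2
          (Finset.disjoint_iff_ne.1 hd p hp q hq)
      have c1 := cop a1 a2 a3
      have c2 := cop b1 b2 b3
      -- `u ∣ v`, `v ∣ u`
      have d1 : (∏ p ∈ e.1, p) ∣ ∏ p ∈ e'.1, p := by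
        have : (∏ p ∈ e.1, p) ∣ (∏ p ∈ e.2, p) * ∏ p ∈ e'.1, p := ⟨_, by rw [← hq]; ring⟩
        exact c1.dvd_of_dvd_mul_left this
      have d2 : (∏ p ∈ e'.1, p) ∣ ∏ p ∈ e.1, p := by
        have : (∏ p ∈ e'.1, p) ∣ (∏ p ∈ e'.2, p) * ∏ p ∈ e.1, p := ⟨_, by rw [hq]; ring⟩
        exact c2.dvd_of_dvd_mul_left this
      have e1 : ∏ p ∈ e.1, p = ∏ p ∈ e'.1, p := Nat.dvd_antisymm d1 d2
      have e2 : ∏ p ∈ e.2, p = ∏ p ∈ e'.2, p := by
        have h0 := prod_pos (pp a1)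
        rw [← e1] at hq
        exact (Nat.eq_of_mul_eq_mul_right h0 hq).symm
      exact Prod.ext (prod_inj (pp a1) (pp b1) e1) (prod_inj (pp a2) (pp b2) e2)
    have hb : ∀ e ∈ G0, f e ≤ C / Z := by
      intro e he
      obtain ⟨a1, a2, a3, a4, a5⟩ := hG e (Finset.mem_filter.1 he).1
      have := wt_one h hCZ (Finset.union_subset a1 a2) a4
      rw [Finset.prod_union a3] at this
      exact this
    calc ∑ e ∈ G0, f e ≤ G0.card • (C / Z) := Finset.sum_le_card_nsmul _ _ _ hb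
      _ = G0.card * (C / Z) := by rw [nsmul_eq_mul]
      _ ≤ 1 * (C / Z) := by
          refine mul_le_mul_of_nonneg_right (by exact_mod_cast hc) (by positivity)
      _ = C / Z := one_mul _
  -- (B1)
  have hB1 : ∑ e ∈ G1, f e ≤ Wt S w * B2 S w C Z P U k₁ k₂ := by
    refine (fib_sum h hP (ρ := ρ) (ρ' := ρ') hU1 fun e he => ?_).trans
      (mul_le_mul_of_nonneg_left (Bd_le h (by linarith) hk h1 h2) (by linarith))
    obtain ⟨he0, he1⟩ := Finset.mem_filter.1 he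
    obtain ⟨a1, a2, a3, a4, a5⟩ := hG e he0
    exact ⟨a1, a2, he1, a5⟩
  -- (B2)
  have hB2 : ∑ e ∈ G2, f e ≤ Wt S w * B2 S w C Z P U k₁ k₂ := by
    have e1 : ∑ e ∈ G2, f e = ∑ e ∈ G2.image Prod.swap, (∏ p ∈ e.1, w p) * ∏ p ∈ e.2, w p := by
      rw [Finset.sum_image (fun a _ b _ hab => Prod.swap_injective hab)]
      exact Finset.sum_congr rfl fun e _ => by rw [hf]; simp [mul_comm]
    rw [e1]
    refine (fib_sum h hP (ρ := ρ') (ρ' := ρ) hU1 fun e he => ?_).trans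
      (mul_le_mul_of_nonneg_left (Bd_le h (by linarith) hk h1' h2') (by linarith))
    obtain ⟨e', he', rfl⟩ := Finset.mem_image.1 he
    obtain ⟨he0, he1⟩ := Finset.mem_filter.1 he'
    obtain ⟨a1, a2, a3, a4, a5⟩ := hG e' he0
    exact ⟨a2, a1, he1, a5.symm⟩
  calc ∑ e ∈ G, f e ≤ _ := hle
    _ ≤ C / Z + (Wt S w * B2 S w C Z P U k₁ k₂ + Wt S w * B2 S w C Z P U k₁ k₂) := by linarith
    _ = _ := by ring

/-- **the total weight is a power of `log P`** -/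
lemma W_le (h : Ws S w C Z P) (hP : 2 ≤ P) :
    Wt S w ≤ Real.exp (C * Zone11.cD) * Real.log P ^ C := by
  have hC0 : 0 < C := by linarith [h.C1]
  have hlP : 0 < Real.log P := Real.log_pos (by exact_mod_cast hP)
  have h1 : Wt S w ≤ Real.exp (∑ p ∈ S, w p) := by
    unfold Wt
    rw [Real.exp_sum]
    exact Finset.prod_le_prod (fun p hp => by linarith [h.w0 p hp]) fun p hp => by
      rw [add_comm]; exact Real.add_one_le_exp _
  have h2 : ∑ p ∈ S, w p ≤ C * Zone11.D P := by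
    have h3 : ∑ p ∈ S, w p ≤ ∑ p ∈ S, C * (1 / (p : ℝ)) :=
      Finset.sum_le_sum fun p hp => by rw [mul_one_div]; exact h.wC p hp
    refine h3.trans ?_
    rw [← Finset.mul_sum]
    refine mul_le_mul_of_nonneg_left ?_ hC0.le
    unfold Zone11.D
    refine Finset.sum_le_sum_of_subset_of_nonneg ?_ fun _ _ _ => by positivity
    intro p hp
    exact Finset.mem_filter.2 ⟨Finset.mem_range.2 (by have := h.hi p hp; omega), h.pr p hp⟩
  have h4 := Zone11.D_le hP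
  calc Wt S w ≤ Real.exp (∑ p ∈ S, w p) := h1
    _ ≤ Real.exp (C * Zone11.cD + Real.log (Real.log P) * C) := by
        refine Real.exp_le_exp.2 (h2.trans ?_)
        nlinarith
    _ = _ := by rw [Real.exp_add, Real.rpow_def_of_pos hlP]

end cls

end Crest.Agent.R4P.ShR18
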