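import Crest.Agent.R4P.GcdW_41
import Crest.Agent.R4P.NcC_37
import Crest.Agent.R4.PinE104
import Crest.Agent.R4P.ShR_18

/-!
R4 (S0004) with powers, helper37: **smooth sums in residue classes** (over `GcdW_41`), no truncation,
one family uncounted.

`z`-smooth numbers, `σ = 1/(2 + log z)`, weights `wn κ` of helper944 / helper41.
* `zsum`, `res_sum` : `∑ n^(-1-σ)` over a finite set, over one residue class mod `k`, `n ≥ H`;
* `tw_sum` : Euler product with the factor `n^σ`;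
* `fib_hol` : **a relation `Q` of smooth pairs whose fibres have `∑ y^(-1-σ) ≤ ρ` has
  `∑_Q wn wn ≤ √(ρ (3 + log z)) exp (κ² T (log log z + 6))`** (Cauchy-Schwarz);
* `cong_pairs` (`D ≠ D'`, `D ≡ D' mod k`), `co_pairs` (`x ρ ≡ y ρ' mod 1`, `max > U`), `lin_pairs`
  (`c x ≡ y mod k`, `max ≥ √k`);
* `rel_energy`, `cong_energy`, `co_energy` : overlaps, `card F ≤ K^A`, `G` arbitrary.
-/

set_option autoImplicit false
set_option linter.unusedVariables false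

open Finset

namespace Crest.Agent.R4P.GcdS37

open Crest.Agent.R4.HVW560 Crest.Agent.R4.Smo944 Crest.Agent.R016
open Crest.Agent.R4.ClsS (wn_nonneg mul_wn_sq)
open Crest.Agent.R4.PinE104 (ell_nonneg)
open Crest.Agent.R4P.GcdK37 Crest.Agent.R4P.GcdW41

/-! ### zeta sums -/

theorem zstep {σ : ℝ} (hσ : 0 < σ) {n : ℕ} (hn : 1 ≤ n) :
    ((n + 1 : ℕ) : ℝ) ^ (-(1 + σ)) ≤ 1 / σ * ((n : ℝ) ^ (-σ) - ((n + 1 : ℕ) : ℝ) ^ (-σ)) := by
  have h0 : (0 : ℝ) < n := by exact_mod_cast hn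
  have h1 : (0 : ℝ) < ((n + 1 : ℕ) : ℝ) := by positivity
  set m : ℝ := ((n + 1 : ℕ) : ℝ) with hm
  have hmn : m = n + 1 := by rw [hm]; push_cast; ring
  have e1 : (n : ℝ) ^ (-σ) = m ^ (-σ) * (m / n) ^ σ := by
    rw [Real.div_rpow h1.le h0.le, Real.rpow_neg h0.le, Real.rpow_neg h1.le]
    have : m ^ σ ≠ 0 := (Real.rpow_pos_of_pos h1 _).ne'
    field_simp
  have e2 : 1 + σ / m ≤ (m / n) ^ σ := by
    rw [Real.rpow_def_of_pos (by positivity)]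
    have h2 : 1 / m ≤ Real.log (m / n) := by
      have h3 := Real.one_sub_inv_le_log_of_pos (x := m / n) (by positivity)
      have h4 : 1 - (m / n)⁻¹ = 1 / m := by
        rw [inv_div]; field_simp; rw [hmn]; ring
      rwa [h4] at h3
    have h3 := Real.add_one_le_exp (Real.log (m / n) * σ)
    have h4 : σ / m ≤ Real.log (m / n) * σ := by
      have := mul_le_mul_of_nonneg_right h2 hσ.le
      calc σ / m = 1 / m * σ := by ring
        _ ≤ _ := this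
    linarith
  have e3 : m ^ (-(1 + σ)) = m ^ (-σ) * (1 / m) := by
    rw [show -(1 + σ) = -σ + (-1) by ring, Real.rpow_add h1, Real.rpow_neg_one, one_div]
  rw [e3, e1]
  have h5 : 0 < m ^ (-σ) := Real.rpow_pos_of_pos h1 _
  have h6 : 1 / σ * (m ^ (-σ) * (m / n) ^ σ - m ^ (-σ)) = m ^ (-σ) * (1 / σ * ((m / n) ^ σ - 1)) := by
    ring
  rw [h6]
  refine mul_le_mul_of_nonneg_left ?_ h5.le
  have h7 : 1 / m = 1 / σ * (σ / m) := by field_simp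
  rw [h7]
  exact mul_le_mul_of_nonneg_left (by linarith) (by positivity)

theorem zsum_range {σ : ℝ} (hσ : 0 < σ) (N : ℕ) :
    ∑ n ∈ Finset.range (N + 1), ((n + 1 : ℕ) : ℝ) ^ (-(1 + σ)) ≤
      1 + 1 / σ - 1 / σ * ((N + 1 : ℕ) : ℝ) ^ (-σ) := by
  induction N with
  | zero =>
    rw [zero_add, Finset.sum_range_one]
    norm_num
  | succ N ih =>
    rw [Finset.sum_range_succ]
    have h1 := zstep hσ (n := N + 1) (by omega)
    have : 1 / σ * (((N + 1 : ℕ) : ℝ) ^ (-σ) - ((N + 1 + 1 : ℕ) : ℝ) ^ (-σ)) =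
      1 / σ * ((N + 1 : ℕ) : ℝ) ^ (-σ) - 1 / σ * ((N + 1 + 1 : ℕ) : ℝ) ^ (-σ) := by ring
    linarith

theorem zsum {σ : ℝ} (hσ : 0 < σ) {B : Finset ℕ} (hB : ∀ b ∈ B, 0 < b) :
    ∑ b ∈ B, (b : ℝ) ^ (-(1 + σ)) ≤ 1 + 1 / σ := by
  classical
  obtain ⟨N, hN⟩ : ∃ N : ℕ, ∀ b ∈ B, b ≤ N + 1 :=
    ⟨B.sup id, fun b hb => (Finset.le_sup (f := id) hb).trans (Nat.le_succ _)⟩
  have h1 : B ⊆ (Finset.range (N + 1)).image (· + 1) := by
    intro b hb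
    have h2 := hB b hb
    have h3 := hN b hb
    exact Finset.mem_image.2 ⟨b - 1, Finset.mem_range.2 (by omega), by omega⟩
  refine (Finset.sum_le_sum_of_subset_of_nonneg h1 fun b _ _ => by positivity).trans ?_
  rw [Finset.sum_image (fun a _ b _ h => by simpa using h)]
  refine (zsum_range hσ N).trans ?_
  have : 0 ≤ 1 / σ * ((N + 1 : ℕ) : ℝ) ^ (-σ) := by positivity
  linarith

/-- **one residue class** -/
theorem res_sum {σ : ℝ} (hσ : 0 < σ) {k : ℕ} (hk : 0 < k) {H : ℝ} (hH : 1 ≤ H) {B : Finset ℕ}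
    (hB : ∀ b ∈ B, H ≤ b) (hr : ∀ a ∈ B, ∀ b ∈ B, a % k = b % k) :
    ∑ b ∈ B, (b : ℝ) ^ (-(1 + σ)) ≤ 1 / H + (1 + 1 / σ) / k := by
  classical
  have hk0 : (0 : ℝ) < k := by exact_mod_cast hk
  rcases B.eq_empty_or_nonempty with rfl | hne
  · rw [Finset.sum_empty]; positivity
  obtain ⟨a, ha, hmin⟩ := Finset.exists_min_image B id hne
  have hmin' : ∀ b ∈ B, a ≤ b := hmin
  have ha1 : H ≤ a := hB a ha
  rw [← Finset.add_sum_erase _ _ ha]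
  have h1 : (a : ℝ) ^ (-(1 + σ)) ≤ 1 / H := by
    have ha0 : (1 : ℝ) ≤ a := hH.trans ha1
    calc (a : ℝ) ^ (-(1 + σ)) ≤ (a : ℝ) ^ (-1 : ℝ) :=
          Real.rpow_le_rpow_of_exponent_le ha0 (by linarith)
      _ = 1 / a := by rw [Real.rpow_neg_one, one_div]
      _ ≤ 1 / H := one_div_le_one_div_of_le (by linarith) ha1
  refine add_le_add h1 ?_
  have hlt : ∀ b ∈ B.erase a, a < b := fun b hb =>
    lt_of_le_of_ne (hmin' b (Finset.mem_of_mem_erase hb)) (Finset.ne_of_mem_erase hb).symm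
  have hdv : ∀ b ∈ B.erase a, k ∣ b - a := fun b hb =>
    (Nat.modEq_iff_dvd' (hlt b hb).le).1 (hr a ha b (Finset.mem_of_mem_erase hb))
  have h2 : ∀ b ∈ B.erase a, (b : ℝ) ^ (-(1 + σ)) ≤ 1 / k * (((b - a) / k : ℕ) : ℝ) ^ (-(1 + σ)) := by
    intro b hb
    have hq : 0 < (b - a) / k :=
      Nat.div_pos (Nat.le_of_dvd (by have := hlt b hb; omega) (hdv b hb)) hk
    have hq' : (0 : ℝ) < (((b - a) / k : ℕ) : ℝ) := by exact_mod_cast hq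
    have hle : ((b - a) / k) * k ≤ b := by rw [Nat.div_mul_cancel (hdv b hb)]; omega
    have hle' : (((b - a) / k : ℕ) : ℝ) * k ≤ b := by exact_mod_cast hle
    calc (b : ℝ) ^ (-(1 + σ)) ≤ ((((b - a) / k : ℕ) : ℝ) * k) ^ (-(1 + σ)) :=
          Real.rpow_le_rpow_of_nonpos (by positivity) hle' (by linarith)
      _ = (k : ℝ) ^ (-(1 + σ)) * (((b - a) / k : ℕ) : ℝ) ^ (-(1 + σ)) := by
          rw [Real.mul_rpow hq'.le hk0.le, mul_comm]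
      _ ≤ 1 / k * (((b - a) / k : ℕ) : ℝ) ^ (-(1 + σ)) := by
          refine mul_le_mul_of_nonneg_right ?_ (by positivity)
          calc (k : ℝ) ^ (-(1 + σ)) ≤ (k : ℝ) ^ (-1 : ℝ) :=
                Real.rpow_le_rpow_of_exponent_le (by exact_mod_cast hk) (by linarith)
            _ = 1 / k := by rw [Real.rpow_neg_one, one_div]
  refine (Finset.sum_le_sum h2).trans ?_
  rw [← Finset.mul_sum]
  have hinj : Set.InjOn (fun b => (b - a) / k) (B.erase a : Set ℕ) := by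
    intro b hb b' hb' h
    have h3 := hlt b (Finset.mem_coe.1 hb)
    have h4 := hlt b' (Finset.mem_coe.1 hb')
    have h5 : b - a = b' - a := by
      rw [← Nat.div_mul_cancel (hdv b (Finset.mem_coe.1 hb)),
        ← Nat.div_mul_cancel (hdv b' (Finset.mem_coe.1 hb'))]
      exact congrArg (· * k) h
    omega
  rw [← Finset.sum_image (f := fun n : ℕ => (n : ℝ) ^ (-(1 + σ))) hinj]
  have h6 := zsum hσ (B := (B.erase a).image fun b => (b - a) / k) (by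
    intro n hn
    obtain ⟨b, hb, rfl⟩ := Finset.mem_image.1 hn
    exact Nat.div_pos (Nat.le_of_dvd (by have := hlt b hb; omega) (hdv b hb)) hk)
  calc 1 / (k : ℝ) * ∑ n ∈ (B.erase a).image (fun b => (b - a) / k), (n : ℝ) ^ (-(1 + σ))
      ≤ 1 / k * (1 + 1 / σ) := mul_le_mul_of_nonneg_left h6 (by positivity)
    _ = (1 + 1 / σ) / k := by ring

/-! ### smooth sums with the factor `n^σ` -/

/-- the exponent of `z` -/
noncomputable def sg (z : ℕ) : ℝ := 1 / (2 + Real.log z)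

theorem sg_pos (z : ℕ) : 0 < sg z := by
  unfold sg
  have := Real.log_natCast_nonneg z
  positivity

theorem sg_le (z : ℕ) : sg z ≤ 1 / 2 := by
  unfold sg
  have := Real.log_natCast_nonneg z
  exact one_div_le_one_div_of_le (by norm_num) (by linarith)

theorem one_div_sg (z : ℕ) : 1 / sg z = 2 + Real.log z := by
  unfold sg; rw [one_div_one_div]

theorem pow_sg {z p : ℕ} (hp : 2 ≤ p) (hpz : p ≤ z) : (p : ℝ) ^ sg z ≤ Real.exp 1 := by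
  have hp0 : (0 : ℝ) < p := by positivity
  rw [Real.rpow_def_of_pos hp0]
  refine Real.exp_le_exp.2 ?_
  unfold sg
  have h1 : Real.log p ≤ Real.log z := Real.log_le_log hp0 (by exact_mod_cast hpz)
  have h2 : 0 ≤ Real.log p := Real.log_natCast_nonneg p
  rw [mul_one_div, div_le_one (by linarith)]
  linarith

/-- `e ∑ (j+1)^m 2^(-j/2)` -/
noncomputable def Tm (m : ℕ) : ℝ :=
  Real.exp 1 * ∑' j : ℕ, ((j : ℝ) + 1) ^ m * ((2 : ℝ) ^ (-(1 / 2) : ℝ)) ^ j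

theorem two_half_lt : (2 : ℝ) ^ (-(1 / 2) : ℝ) < 1 :=
  Real.rpow_lt_one_of_one_lt_of_neg (by norm_num) (by norm_num)

theorem Tm_pos (m : ℕ) : 0 < Tm m := by
  unfold Tm
  have h := summable_aux m (r := (2 : ℝ) ^ (-(1 / 2) : ℝ)) (by positivity) two_half_lt
  have h1 : 0 < ∑' j : ℕ, ((j : ℝ) + 1) ^ m * ((2 : ℝ) ^ (-(1 / 2) : ℝ)) ^ j :=
    lt_of_lt_of_le (by simp) (h.le_tsum 0 (fun j _ => by positivity))
  positivity

theorem sum_tw_range {κ : ℝ} (hκ : 0 ≤ κ) (m : ℕ) {z p : ℕ} (hp : 2 ≤ p) (hpz : p ≤ z) (J : ℕ) :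
    ∑ j ∈ range J, wt2 κ m p j * ((p : ℝ) ^ j) ^ sg z ≤ 1 + κ * Tm m / p := by
  have hp0 : (0 : ℝ) < p := by positivity
  have hp2 : (2 : ℝ) ≤ p := by exact_mod_cast hp
  have hS := (Tm_pos m).le
  rcases Nat.eq_zero_or_pos J with rfl | hJ
  · simp; positivity
  obtain ⟨J', rfl⟩ : ∃ J', J = J' + 1 := ⟨J - 1, by omega⟩
  rw [Finset.sum_range_succ']
  have h0 : wt2 κ m p 0 * ((p : ℝ) ^ 0) ^ sg z = 1 := by simp [wt2]
  rw [h0, add_comm]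
  apply add_le_add le_rfl
  have h1 : ∀ j ∈ range J', wt2 κ m p (j + 1) * ((p : ℝ) ^ (j + 1)) ^ sg z ≤
      κ / p * (Real.exp 1 * (((j : ℝ) + 1) ^ m * ((2 : ℝ) ^ (-(1 / 2) : ℝ)) ^ j)) := by
    intro j _
    unfold wt2
    rw [if_neg (Nat.succ_ne_zero j)]
    push_cast
    have h2 : ((p : ℝ) ^ (j + 1))⁻¹ * ((p : ℝ) ^ (j + 1)) ^ sg z ≤
        (p : ℝ)⁻¹ * (Real.exp 1 * ((2 : ℝ) ^ (-(1 / 2) : ℝ)) ^ j) := by
      have e1 : ((p : ℝ) ^ (j + 1)) ^ sg z = (p : ℝ) ^ sg z * ((p : ℝ) ^ sg z) ^ j := by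
        rw [← Real.rpow_natCast, ← Real.rpow_mul hp0.le, mul_comm, Real.rpow_mul hp0.le,
          Real.rpow_natCast, pow_succ, mul_comm]
      have e2 : ((p : ℝ) ^ (j + 1))⁻¹ = (p : ℝ)⁻¹ * ((p : ℝ)⁻¹) ^ j := by
        rw [pow_succ, mul_inv, mul_comm, inv_pow]
      rw [e1, e2]
      have h3 := pow_sg hp hpz
      have h4 : (p : ℝ)⁻¹ * (p : ℝ) ^ sg z ≤ (2 : ℝ) ^ (-(1 / 2) : ℝ) := by
        have e3 : (p : ℝ)⁻¹ * (p : ℝ) ^ sg z = (p : ℝ) ^ (sg z - 1) := by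
          rw [sub_eq_add_neg, Real.rpow_add hp0, Real.rpow_neg_one, mul_comm]
        rw [e3]
        have h5 := sg_le z
        calc (p : ℝ) ^ (sg z - 1) ≤ (p : ℝ) ^ (-(1 / 2) : ℝ) :=
              Real.rpow_le_rpow_of_exponent_le (by linarith) (by linarith)
          _ ≤ (2 : ℝ) ^ (-(1 / 2) : ℝ) :=
              Real.rpow_le_rpow_of_nonpos (by norm_num) hp2 (by norm_num)
      have h6 : 0 ≤ (p : ℝ)⁻¹ * (p : ℝ) ^ sg z := by positivity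
      calc (p : ℝ)⁻¹ * (p : ℝ)⁻¹ ^ j * ((p : ℝ) ^ sg z * ((p : ℝ) ^ sg z) ^ j)
          = (p : ℝ)⁻¹ * ((p : ℝ) ^ sg z * ((p : ℝ)⁻¹ * (p : ℝ) ^ sg z) ^ j) := by
            rw [mul_pow]; ring
        _ ≤ (p : ℝ)⁻¹ * (Real.exp 1 * ((2 : ℝ) ^ (-(1 / 2) : ℝ)) ^ j) := by
            refine mul_le_mul_of_nonneg_left ?_ (by positivity)
            exact mul_le_mul h3 (pow_le_pow_left₀ h6 h4 j) (by positivity) (by positivity)
    calc κ * ((j : ℝ) + 1) ^ m / (p : ℝ) ^ (j + 1) * ((p : ℝ) ^ (j + 1)) ^ sg z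
        = κ * ((j : ℝ) + 1) ^ m * (((p : ℝ) ^ (j + 1))⁻¹ * ((p : ℝ) ^ (j + 1)) ^ sg z) := by
          rw [div_eq_mul_inv]; ring
      _ ≤ κ * ((j : ℝ) + 1) ^ m * ((p : ℝ)⁻¹ * (Real.exp 1 * ((2 : ℝ) ^ (-(1 / 2) : ℝ)) ^ j)) :=
          mul_le_mul_of_nonneg_left h2 (by positivity)
      _ = _ := by ring
  refine (Finset.sum_le_sum h1).trans ?_
  rw [← Finset.mul_sum, ← Finset.mul_sum]
  have h3 : ∑ j ∈ range J', (((j : ℝ) + 1) ^ m * ((2 : ℝ) ^ (-(1 / 2) : ℝ)) ^ j) ≤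
      ∑' j : ℕ, ((j : ℝ) + 1) ^ m * ((2 : ℝ) ^ (-(1 / 2) : ℝ)) ^ j :=
    (summable_aux m (r := (2 : ℝ) ^ (-(1 / 2) : ℝ)) (by positivity) two_half_lt).sum_le_tsum _
      (fun j _ => by positivity)
  calc κ / p * (Real.exp 1 * ∑ j ∈ range J', (((j : ℝ) + 1) ^ m * ((2 : ℝ) ^ (-(1 / 2) : ℝ)) ^ j))
      ≤ κ / p * Tm m := by
        unfold Tm
        exact mul_le_mul_of_nonneg_left (mul_le_mul_of_nonneg_left h3 (Real.exp_pos _).le)
          (by positivity)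
    _ = _ := by ring

/-- **smooth sums with the factor `b^σ`** -/
theorem tw_sum {κ : ℝ} (hκ : 0 ≤ κ) (m : ℕ) {z : ℕ} (hz : 2 ≤ z) {B : Finset ℕ}
    (hB : Smooth z B) :
    ∑ b ∈ B, (b : ℝ) ^ sg z * ∏ p ∈ primesIoc 0 z, wt2 κ m p (b.factorization p)
      ≤ Real.exp (κ * Tm m * (Real.log (Real.log z) + 6)) := by
  classical
  obtain ⟨J, hJ⟩ := exists_J B (primesIoc 0 z)
  have e1 : ∀ b ∈ B, (b : ℝ) ^ sg z * ∏ p ∈ primesIoc 0 z, wt2 κ m p (b.factorization p) =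
      ∏ p ∈ primesIoc 0 z, (wt2 κ m p (b.factorization p) *
        ((p : ℝ) ^ (b.factorization p)) ^ sg z) := by
    intro b hb
    have hb0 := (hB b hb).1
    have h1 : (b : ℝ) = ∏ p ∈ primesIoc 0 z, (p : ℝ) ^ (b.factorization p) := by
      conv_lhs => rw [← Nat.prod_factorization_pow_eq_self hb0.ne']
      rw [Finsupp.prod, Nat.support_factorization]
      push_cast
      apply Finset.prod_subset (hB.pf hb)
      intro p _ hp
      rw [← Nat.support_factorization, Finsupp.notMem_support_iff] at hp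
      rw [hp, pow_zero]
    rw [Finset.prod_mul_distrib, Real.finsetProd_rpow _ _ (fun p _ => by positivity), ← h1]
    ring
  rw [Finset.sum_congr rfl e1]
  refine (sum_prod_le (primesIoc 0 z) (fun p j => wt2 κ m p j * ((p : ℝ) ^ j) ^ sg z)
    (fun p _ j => mul_nonneg (wt2_nonneg hκ m p j) (by positivity)) B J
    (fun b hb => ⟨(hB b hb).1, hB.pf hb, hJ b hb⟩)).trans ?_
  refine le_trans ?_ (prod_exp_inv (mul_nonneg hκ (Tm_pos m).le) hz)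
  apply Finset.prod_le_prod
  · intro p _
    exact Finset.sum_nonneg fun j _ => mul_nonneg (wt2_nonneg hκ m p j) (by positivity)
  · intro p hp
    have hpp := mem_primesIoc.1 hp
    refine (sum_tw_range hκ m hpp.2.two_le hpp.1.2 J).trans ?_
    linarith [Real.add_one_le_exp (κ * Tm m / p)]

theorem tw_wn {κ : ℝ} {z : ℕ} (hz : 2 ≤ z) {B : Finset ℕ} (hB : Smooth z B) :
    ∑ b ∈ B, (b : ℝ) ^ (1 + sg z) * wn κ b ^ 2 ≤
      Real.exp (κ ^ 2 * Tm 12 * (Real.log (Real.log z) + 6)) := by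
  refine le_trans (le_of_eq (Finset.sum_congr rfl fun b hb => ?_)) (tw_sum (sq_nonneg κ) 12 hz hB)
  have hb0 : (0 : ℝ) < b := by exact_mod_cast (hB b hb).1
  rw [← mul_wn_sq hB hb, Real.rpow_add hb0, Real.rpow_one]
  ring

/-- the smooth constant -/
noncomputable def Ez (κ : ℝ) (z : ℕ) : ℝ := Real.exp (κ ^ 2 * Tm 12 * (Real.log (Real.log z) + 6))

theorem Ez_pos (κ : ℝ) (z : ℕ) : 0 < Ez κ z := Real.exp_pos _

/-- **relations with thin fibres** -/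
theorem fib_hol {κ : ℝ} (hκ : 0 ≤ κ) {z : ℕ} (hz : 2 ≤ z) {ρ : ℝ} (hρ : 0 ≤ ρ) (Q : Finset (ℕ × ℕ))
    (hX : Smooth z (Q.image Prod.fst)) (hY : Smooth z (Q.image Prod.snd))
    (hinv : ∀ x, ∑ y ∈ (Q.filter (fun e => e.1 = x)).image Prod.snd, (y : ℝ) ^ (-(1 + sg z)) ≤ ρ) :
    ∑ e ∈ Q, wn κ e.1 * wn κ e.2 ≤ √(ρ * (3 + Real.log z)) * Ez κ z := by
  classical
  set X := Q.image Prod.fst with hXd
  set Y := Q.image Prod.snd with hYd
  set σ := sg z with hσ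
  have hσ0 : 0 < σ := sg_pos z
  have p1 : ∀ e ∈ Q, (0 : ℝ) < e.1 := fun e he => by
    exact_mod_cast (hX e.1 (Finset.mem_image_of_mem _ he)).1
  have p2 : ∀ e ∈ Q, (0 : ℝ) < e.2 := fun e he => by
    exact_mod_cast (hY e.2 (Finset.mem_image_of_mem _ he)).1
  set a : ℕ × ℕ → ℝ := fun e => ((e.1 : ℝ) * e.2) ^ (-((1 + σ) / 2)) with ha
  set b : ℕ × ℕ → ℝ := fun e => ((e.1 : ℝ) * e.2) ^ ((1 + σ) / 2) * (wn κ e.1 * wn κ e.2) with hb
  have hab : ∀ e ∈ Q, wn κ e.1 * wn κ e.2 = a e * b e := by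
    intro e he
    have h1 : (0 : ℝ) < (e.1 : ℝ) * e.2 := mul_pos (p1 e he) (p2 e he)
    simp only [ha, hb]
    rw [← mul_assoc, ← Real.rpow_add h1, neg_add_cancel, Real.rpow_zero, one_mul]
  have hcs := Finset.sum_mul_sq_le_sq_mul_sq Q a b
  have hA : ∑ e ∈ Q, a e ^ 2 ≤ ρ * (3 + Real.log z) := by
    have e1 : ∀ e ∈ Q, a e ^ 2 = (e.1 : ℝ) ^ (-(1 + σ)) * (e.2 : ℝ) ^ (-(1 + σ)) := by
      intro e he
      have h1 : (0 : ℝ) < (e.1 : ℝ) * e.2 := mul_pos (p1 e he) (p2 e he)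
      simp only [ha]
      rw [← Real.rpow_natCast, ← Real.rpow_mul h1.le, Real.mul_rpow (p1 e he).le (p2 e he).le]
      congr 2 <;> (push_cast; ring)
    rw [Finset.sum_congr rfl e1, ← Finset.sum_fiberwise_of_maps_to (s := Q) (t := X)
      (g := Prod.fst) (fun e he => Finset.mem_image_of_mem _ he)]
    have h2 : ∀ x ∈ X, ∑ e ∈ Q.filter (fun e => e.1 = x),
        (e.1 : ℝ) ^ (-(1 + σ)) * (e.2 : ℝ) ^ (-(1 + σ)) ≤ (x : ℝ) ^ (-(1 + σ)) * ρ := by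
      intro x _
      have h3 : ∑ e ∈ Q.filter (fun e => e.1 = x),
          (e.1 : ℝ) ^ (-(1 + σ)) * (e.2 : ℝ) ^ (-(1 + σ)) =
          (x : ℝ) ^ (-(1 + σ)) * ∑ y ∈ (Q.filter (fun e => e.1 = x)).image Prod.snd,
            (y : ℝ) ^ (-(1 + σ)) := by
        rw [Finset.sum_image, Finset.mul_sum]
        · exact Finset.sum_congr rfl fun e he => by rw [(Finset.mem_filter.1 he).2]
        · intro e he e' he' h4
          have h5 := (Finset.mem_filter.1 (Finset.mem_coe.1 he)).2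
          have h6 := (Finset.mem_filter.1 (Finset.mem_coe.1 he')).2
          exact Prod.ext (h5.trans h6.symm) h4
      rw [h3]
      exact mul_le_mul_of_nonneg_left (hinv x) (by positivity)
    refine (Finset.sum_le_sum h2).trans ?_
    rw [← Finset.sum_mul, mul_comm]
    refine mul_le_mul_of_nonneg_left ?_ hρ
    refine (zsum hσ0 fun x hx => (hX x hx).1).trans ?_
    rw [hσ, one_div_sg]; linarith
  have hB : ∑ e ∈ Q, b e ^ 2 ≤ Ez κ z ^ 2 := by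
    set c : ℕ → ℝ := fun n => (n : ℝ) ^ (1 + σ) * wn κ n ^ 2 with hc
    have hc0 : ∀ n, 0 ≤ c n := fun n => by simp only [hc]; positivity
    have e1 : ∀ e ∈ Q, b e ^ 2 = c e.1 * c e.2 := by
      intro e he
      have h1 : (0 : ℝ) < (e.1 : ℝ) * e.2 := mul_pos (p1 e he) (p2 e he)
      simp only [hb, hc]
      rw [mul_pow, ← Real.rpow_natCast, ← Real.rpow_mul h1.le,
        Real.mul_rpow (p1 e he).le (p2 e he).le]
      have : (1 + σ) / 2 * ((2 : ℕ) : ℝ) = 1 + σ := by push_cast; ring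
      rw [this]
      ring
    rw [Finset.sum_congr rfl e1]
    have hsub : Q ⊆ X ×ˢ Y := fun e he => Finset.mem_product.2
      ⟨Finset.mem_image_of_mem _ he, Finset.mem_image_of_mem _ he⟩
    refine (Finset.sum_le_sum_of_subset_of_nonneg hsub fun e _ _ => mul_nonneg (hc0 _) (hc0 _)).trans ?_
    rw [Finset.sum_product]
    have e2 : ∑ x ∈ X, ∑ y ∈ Y, c (x, y).1 * c (x, y).2 = (∑ x ∈ X, c x) * ∑ y ∈ Y, c y := by
      rw [Finset.sum_mul_sum]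
    rw [e2, sq]
    exact mul_le_mul (tw_wn hz hX) (tw_wn hz hY) (Finset.sum_nonneg fun y _ => hc0 y)
      (Ez_pos κ z).le
  rw [Finset.sum_congr rfl hab]
  have h0 : 0 ≤ √(ρ * (3 + Real.log z)) * Ez κ z := mul_nonneg (Real.sqrt_nonneg _) (Ez_pos κ z).le
  have hlz := Real.log_natCast_nonneg z
  refine abs_le_of_sq_le_sq' ?_ h0 |>.2
  rw [mul_pow, Real.sq_sqrt (mul_nonneg hρ (by linarith))]
  exact hcs.trans (mul_le_mul hA hB (Finset.sum_nonneg fun e _ => sq_nonneg _)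
    (mul_nonneg hρ (by linarith)))

theorem smooth_sub {z : ℕ} {B B' : Finset ℕ} (h : Smooth z B') (hs : B ⊆ B') : Smooth z B :=
  fun b hb => h b (hs hb)

theorem swap_wn (κ : ℝ) (Q : Finset (ℕ × ℕ)) :
    ∑ e ∈ Q.image Prod.swap, wn κ e.1 * wn κ e.2 = ∑ e ∈ Q, wn κ e.1 * wn κ e.2 := by
  rw [Finset.sum_image (fun a _ b _ hab => Prod.swap_injective hab)]
  exact Finset.sum_congr rfl fun e _ => by simp [mul_comm]

theorem smooth_swap {z : ℕ} {Q : Finset (ℕ × ℕ)} (hX : Smooth z (Q.image Prod.fst))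
    (hY : Smooth z (Q.image Prod.snd)) : Smooth z ((Q.image Prod.swap).image Prod.fst) ∧
      Smooth z ((Q.image Prod.swap).image Prod.snd) := by
  constructor
  · intro b hb
    obtain ⟨e, he, rfl⟩ := Finset.mem_image.1 hb
    obtain ⟨e', he', rfl⟩ := Finset.mem_image.1 he
    exact hY _ (Finset.mem_image_of_mem _ he')
  · intro b hb
    obtain ⟨e, he, rfl⟩ := Finset.mem_image.1 hb
    obtain ⟨e', he', rfl⟩ := Finset.mem_image.1 he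
    exact hX _ (Finset.mem_image_of_mem _ he')

/-- **half of a relation**: for every `x` the partners `y ≥ U` lie in one residue class mod `k` -/
theorem half_pairs {κ : ℝ} (hκ : 0 ≤ κ) {z : ℕ} (hz : 2 ≤ z) {k : ℕ} (hk : 0 < k) {U : ℝ}
    (hU : 1 ≤ U) (Q : Finset (ℕ × ℕ))
    (hX : Smooth z (Q.image Prod.fst)) (hY : Smooth z (Q.image Prod.snd))
    (hQ : ∀ e ∈ Q, U ≤ e.2) (hr : ∀ e ∈ Q, ∀ e' ∈ Q, e.1 = e'.1 → e.2 % k = e'.2 % k) :
    ∑ e ∈ Q, wn κ e.1 * wn κ e.2 ≤ (3 + Real.log z) * √(1 / U + 1 / k) * Ez κ z := by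
  classical
  have hlz := Real.log_natCast_nonneg z
  have hk0 : (0 : ℝ) < k := by exact_mod_cast hk
  have h1 := fib_hol hκ hz (ρ := (3 + Real.log z) * (1 / U + 1 / k)) (by positivity) Q hX hY (by
    intro x
    refine (res_sum (sg_pos z) hk hU ?_ ?_).trans ?_
    · intro y hy
      obtain ⟨e, he, rfl⟩ := Finset.mem_image.1 hy
      exact hQ e (Finset.mem_filter.1 he).1
    · intro y hy y' hy'
      obtain ⟨e, he, rfl⟩ := Finset.mem_image.1 hy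
      obtain ⟨e', he', rfl⟩ := Finset.mem_image.1 hy'
      obtain ⟨m1, m2⟩ := Finset.mem_filter.1 he
      obtain ⟨n1, n2⟩ := Finset.mem_filter.1 he'
      exact hr e m1 e' n1 (m2.trans n2.symm)
    · rw [one_div_sg]
      have : (3 + Real.log z) * (1 / U + 1 / (k : ℝ)) =
        1 / U + (1 + (2 + Real.log z)) / k + (2 + Real.log z) * (1 / U) := by ring
      rw [this]
      have : 0 ≤ (2 + Real.log z) * (1 / U) := by positivity
      linarith)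
  refine h1.trans (le_of_eq ?_)
  congr 1
  rw [show (3 + Real.log z) * (1 / U + 1 / (k : ℝ)) * (3 + Real.log z) =
    (3 + Real.log z) ^ 2 * (1 / U + 1 / k) by ring, Real.sqrt_mul (by positivity),
    Real.sqrt_sq (by linarith)]

/-- **both halves** -/
theorem two_pairs {κ : ℝ} (hκ : 0 ≤ κ) {z : ℕ} (hz : 2 ≤ z) {k k' : ℕ} (hk : 0 < k) (hk' : 0 < k')
    {U : ℝ} (hU : 1 ≤ U) (hUk : U ≤ k) (hUk' : U ≤ k') (Q : Finset (ℕ × ℕ))
    (hX : Smooth z (Q.image Prod.fst)) (hY : Smooth z (Q.image Prod.snd))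
    (hQ : ∀ e ∈ Q, U ≤ e.1 ∨ U ≤ e.2)
    (hr : ∀ e ∈ Q, ∀ e' ∈ Q, e.1 = e'.1 → e.2 % k = e'.2 % k)
    (hr' : ∀ e ∈ Q, ∀ e' ∈ Q, e.2 = e'.2 → e.1 % k' = e'.1 % k') :
    ∑ e ∈ Q, wn κ e.1 * wn κ e.2 ≤ 4 * (3 + Real.log z) / √U * Ez κ z := by
  classical
  have hlz := Real.log_natCast_nonneg z
  have hE := Ez_pos κ z
  have hnum : ∀ n : ℕ, U ≤ n → 0 < n → (3 + Real.log z) * √(1 / U + 1 / n) * Ez κ z ≤
      2 * (3 + Real.log z) / √U * Ez κ z := by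
    intro n hn hn0
    have hn0' : (0 : ℝ) < n := by exact_mod_cast hn0
    refine mul_le_mul_of_nonneg_right ?_ hE.le
    have h1 : √(1 / U + 1 / n) ≤ 2 / √U := by
      rw [Real.sqrt_le_left (by positivity), div_pow, Real.sq_sqrt (by linarith)]
      have : 1 / (n : ℝ) ≤ 1 / U := one_div_le_one_div_of_le (by linarith) hn
      have h2 : 0 ≤ 1 / U := by positivity
      calc 1 / U + 1 / (n : ℝ) ≤ 1 / U + 1 / U + 2 * (1 / U) := by linarith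
        _ = 2 ^ 2 / U := by ring
    calc (3 + Real.log z) * √(1 / U + 1 / n) ≤ (3 + Real.log z) * (2 / √U) :=
          mul_le_mul_of_nonneg_left h1 (by linarith)
      _ = _ := by ring
  set Q2 := Q.filter (fun e => U ≤ (e.2 : ℝ)) with hQ2
  set Q1 := Q.filter (fun e => ¬ U ≤ (e.2 : ℝ)) with hQ1
  have s2 : Q2 ⊆ Q := Finset.filter_subset _ _
  have s1 : Q1 ⊆ Q := Finset.filter_subset _ _
  have b2 : ∑ e ∈ Q2, wn κ e.1 * wn κ e.2 ≤ 2 * (3 + Real.log z) / √U * Ez κ z := by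
    refine (half_pairs hκ hz hk hU Q2 (smooth_sub hX (Finset.image_subset_image s2))
      (smooth_sub hY (Finset.image_subset_image s2)) (fun e he => (Finset.mem_filter.1 he).2)
      (fun e he e' he' h => hr e (s2 he) e' (s2 he') h)).trans (hnum k hUk hk)
  have b1 : ∑ e ∈ Q1, wn κ e.1 * wn κ e.2 ≤ 2 * (3 + Real.log z) / √U * Ez κ z := by
    rw [← swap_wn]
    obtain ⟨t1, t2⟩ := smooth_swap (smooth_sub hX (Finset.image_subset_image s1))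
      (smooth_sub hY (Finset.image_subset_image s1))
    refine (half_pairs hκ hz hk' hU (Q1.image Prod.swap) t1 t2 ?_ ?_).trans (hnum k' hUk' hk')
    · intro e he
      obtain ⟨e', he', rfl⟩ := Finset.mem_image.1 he
      obtain ⟨m1, m2⟩ := Finset.mem_filter.1 he'
      exact (hQ e' m1).resolve_right m2
    · intro e he f hf h
      obtain ⟨e', he', rfl⟩ := Finset.mem_image.1 he
      obtain ⟨f', hf', rfl⟩ := Finset.mem_image.1 hf
      exact hr' e' (s1 he') f' (s1 hf') h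
  rw [← Finset.sum_filter_add_sum_filter_not Q (fun e => U ≤ (e.2 : ℝ))]
  refine (add_le_add b2 b1).trans (le_of_eq ?_)
  ring

/-! ### relations -/

/-- all the prime factors of both numbers are `≤ z` -/
def Sm2 (z : ℕ) (e : ℕ × ℕ) : Prop := 0 < e.1 ∧ 0 < e.2 ∧ ∀ p : ℕ, p.Prime → p ∣ e.1 * e.2 → p ≤ z

theorem sm_fst {z : ℕ} {Q : Finset (ℕ × ℕ)} (h : ∀ e ∈ Q, Sm2 z e) : Smooth z (Q.image Prod.fst) := by
  intro b hb
  obtain ⟨e, he, rfl⟩ := Finset.mem_image.1 hb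
  exact ⟨(h e he).1, fun p hp hd => (h e he).2.2 p hp (dvd_mul_of_dvd_left hd _)⟩

theorem sm_snd {z : ℕ} {Q : Finset (ℕ × ℕ)} (h : ∀ e ∈ Q, Sm2 z e) : Smooth z (Q.image Prod.snd) := by
  intro b hb
  obtain ⟨e, he, rfl⟩ := Finset.mem_image.1 hb
  exact ⟨(h e he).2.1, fun p hp hd => (h e he).2.2 p hp (dvd_mul_of_dvd_right hd _)⟩

/-- **congruence** `D ≠ D'`, `D ≡ D' mod k` -/
theorem cong_pairs {κ : ℝ} (hκ : 0 ≤ κ) {z : ℕ} (hz : 2 ≤ z) {k : ℕ} (hk : 0 < k)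
    (Q : Finset (ℕ × ℕ)) (hQ : ∀ e ∈ Q, Sm2 z e ∧ e.1 ≠ e.2 ∧ e.1 ≡ e.2 [MOD k]) :
    ∑ e ∈ Q, wn κ e.1 * wn κ e.2 ≤ 4 * (3 + Real.log z) / √k * Ez κ z := by
  have hk1 : (1 : ℝ) ≤ k := by exact_mod_cast hk
  refine two_pairs hκ hz hk hk hk1 le_rfl le_rfl Q (sm_fst fun e he => (hQ e he).1)
    (sm_snd fun e he => (hQ e he).1) ?_ ?_ ?_
  · intro e he
    obtain ⟨h1, h2, h3⟩ := hQ e he
    rcases lt_or_gt_of_ne h2 with h | h
    · right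
      have := Nat.le_of_dvd (by omega) ((Nat.modEq_iff_dvd' h.le).1 h3)
      exact_mod_cast (by omega : k ≤ e.2)
    · left
      have := Nat.le_of_dvd (by omega) ((Nat.modEq_iff_dvd' h.le).1 h3.symm)
      exact_mod_cast (by omega : k ≤ e.1)
  · intro e he e' he' h
    have h1 : e.1 % k = e.2 % k := (hQ e he).2.2
    have h2 : e'.1 % k = e'.2 % k := (hQ e' he').2.2
    rw [← h1, ← h2, h]
  · intro e he e' he' h
    have h1 : e.1 % k = e.2 % k := (hQ e he).2.2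
    have h2 : e'.1 % k = e'.2 % k := (hQ e' he').2.2
    rw [h1, h2, h]

/-- **exact centres** `D2 ρ ≡ D1 ρ' mod 1`, one of the cofactors `≥ U` -/
theorem co_pairs {κ : ℝ} (hκ : 0 ≤ κ) {z : ℕ} (hz : 2 ≤ z) {ρ ρ' : ℚ} {U : ℝ} (hU : 1 ≤ U)
    (hρ : U ≤ ρ.den) (hρ' : U ≤ ρ'.den) (Q : Finset (ℕ × ℕ))
    (hQ : ∀ e ∈ Q, Sm2 z e ∧ (U ≤ e.1 ∨ U ≤ e.2) ∧
      ShR18.Co ((e.2 : ℕ) * ρ) ((e.1 : ℕ) * ρ')) :
    ∑ e ∈ Q, wn κ e.1 * wn κ e.2 ≤ 4 * (3 + Real.log z) / √U * Ez κ z := by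
  refine two_pairs hκ hz ρ.pos ρ'.pos hU hρ hρ' Q (sm_fst fun e he => (hQ e he).1)
    (sm_snd fun e he => (hQ e he).1) (fun e he => (hQ e he).2.1) ?_ ?_
  · intro e he e' he' h
    have h1 := (hQ e he).2.2
    have h2 := (hQ e' he').2.2
    rw [← h] at h2
    exact h1.mod h2
  · intro e he e' he' h
    have h1 := (hQ e he).2.2.symm
    have h2 := (hQ e' he').2.2.symm
    rw [← h] at h2
    exact h1.mod h2

/-- **`c x ≡ y mod k`**, `c` prime to `k`, one of the two numbers `≥ U`, `U ≤ k` -/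
theorem lin_pairs {κ : ℝ} (hκ : 0 ≤ κ) {z : ℕ} (hz : 2 ≤ z) {k c : ℕ} (hk : 0 < k)
    (hc : c.Coprime k) {U : ℝ} (hU : 1 ≤ U) (hUk : U ≤ k) (Q : Finset (ℕ × ℕ))
    (hQ : ∀ e ∈ Q, Sm2 z e ∧ (U ≤ e.1 ∨ U ≤ e.2) ∧ c * e.1 ≡ e.2 [MOD k]) :
    ∑ e ∈ Q, wn κ e.1 * wn κ e.2 ≤ 4 * (3 + Real.log z) / √U * Ez κ z := by
  refine two_pairs hκ hz hk hk hU hUk hUk Q (sm_fst fun e he => (hQ e he).1)
    (sm_snd fun e he => (hQ e he).1) (fun e he => (hQ e he).2.1) ?_ ?_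
  · intro e he e' he' h
    have h1 : (c * e.1) % k = e.2 % k := (hQ e he).2.2
    have h2 : (c * e'.1) % k = e'.2 % k := (hQ e' he').2.2
    rw [← h1, ← h2, h]
  · intro e he e' he' h
    have h1 : c * e.1 ≡ e.2 [MOD k] := (hQ e he).2.2
    have h2 : c * e'.1 ≡ e'.2 [MOD k] := (hQ e' he').2.2
    rw [← h] at h2
    exact Nat.ModEq.cancel_left_of_coprime (by rw [Nat.gcd_comm]; exact hc) (h1.trans h2.symm)

/-! ### energies -/

/-- the reduced cofactors of a pair of numbers -/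
abbrev rd (m n : ℕ) : ℕ × ℕ := (m / m.gcd n, n / m.gcd n)

theorem rd_sm {z m n : ℕ} (hm : 0 < m) (hn : 0 < n) (h1 : ∀ p : ℕ, p.Prime → p ∣ m → p ≤ z)
    (h2 : ∀ p : ℕ, p.Prime → p ∣ n → p ≤ z) : Sm2 z (rd m n) := by
  have hg : 0 < m.gcd n := Nat.gcd_pos_of_pos_left _ hm
  refine ⟨Nat.div_pos (Nat.le_of_dvd hm (Nat.gcd_dvd_left _ _)) hg,
    Nat.div_pos (Nat.le_of_dvd hn (Nat.gcd_dvd_right _ _)) hg, fun p hp hd => ?_⟩
  rcases (Nat.Prime.dvd_mul hp).1 hd with h | h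
  · exact h1 p hp (h.trans (Nat.div_dvd_of_dvd (Nat.gcd_dvd_left _ _)))
  · exact h2 p hp (h.trans (Nat.div_dvd_of_dvd (Nat.gcd_dvd_right _ _)))

/-- **a general relation**: `F` counted, `G` uncounted -/
theorem rel_energy (a : ℕ) {ι κ : Type} {z : ℕ} (Rel : ℕ × ℕ → Prop) {T : ℝ}
    (F : Finset ι) (G : Finset κ) (e : ι → ℕ) (e' : κ → ℕ) (R : ι → ℝ) (R' : κ → ℝ)
    (hT : ∀ Q : Finset (ℕ × ℕ), (∀ t ∈ Q, Sm2 z t ∧ t.1.Coprime t.2 ∧ Rel t) →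
      ∑ t ∈ Q, wn (kp a) t.1 * wn (kp a) t.2 ≤ T)
    (hF : ∀ i ∈ F, 0 < e i) (hG : ∀ j ∈ G, 0 < e' j) (hei : ∀ i ∈ F, ∀ j ∈ F, e i = e j → i = j)
    (hej : ∀ i ∈ G, ∀ j ∈ G, e' i = e' j → i = j) (hR : ∀ i ∈ F, 0 ≤ R i)
    (hR' : ∀ j ∈ G, 0 ≤ R' j) (hs : ∀ i ∈ F, ∀ p : ℕ, p.Prime → p ∣ e i → p ≤ z)
    (hs' : ∀ j ∈ G, ∀ p : ℕ, p.Prime → p ∣ e' j → p ≤ z) :
    ∑ i ∈ F, ∑ j ∈ G, ind (Rel (rd (e i) (e' j))) *
      √(R i / ((rd (e i) (e' j)).1 : ℕ) * (R' j / ((rd (e i) (e' j)).2 : ℕ))) ≤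
      √(4 * T) * (F.card : ℝ) ^ ((1 : ℝ) / (4 * 2 ^ a : ℕ)) *
        (√(∑ i ∈ F, R i) * √(∑ j ∈ G, R' j)) := by
  classical
  set Q : Finset (ℕ × ℕ) := ((F ×ˢ G).image fun x => rd (e x.1) (e' x.2)).filter Rel with hQ
  have hQs : ∀ t ∈ Q, Sm2 z t ∧ t.1.Coprime t.2 ∧ Rel t := by
    intro t ht
    obtain ⟨h1, h2⟩ := Finset.mem_filter.1 ht
    obtain ⟨x, hx, rfl⟩ := Finset.mem_image.1 h1
    obtain ⟨h3, h4⟩ := Finset.mem_product.1 hx
    exact ⟨rd_sm (hF _ h3) (hG _ h4) (hs _ h3) (hs' _ h4),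
      Nat.coprime_div_gcd_div_gcd (Nat.gcd_pos_of_pos_left _ (hF _ h3)), h2⟩
  have h1 := min_relW a Q F G e e' R R'
    (fun t ht => ⟨(hQs t ht).1.1, (hQs t ht).1.2.1, (hQs t ht).2.1⟩) hF hG hei hej hR hR'
  refine le_trans (le_of_eq ?_) (h1.trans ?_)
  · refine Finset.sum_congr rfl fun i hi => Finset.sum_congr rfl fun j hj => ?_
    have : ind (Rel (rd (e i) (e' j))) =
        ind ((e i / (e i).gcd (e' j), e' j / (e i).gcd (e' j)) ∈ Q) := by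
      refine ind_congr ⟨fun h => ?_, fun h => (hQs _ h).2.2⟩
      exact Finset.mem_filter.2 ⟨Finset.mem_image.2 ⟨(i, j), Finset.mem_product.2 ⟨hi, hj⟩, rfl⟩, h⟩
    rw [this]
  · refine mul_le_mul_of_nonneg_right (mul_le_mul_of_nonneg_right ?_ (by positivity)) (by positivity)
    exact Real.sqrt_le_sqrt (mul_le_mul_of_nonneg_left (hT Q hQs) (by norm_num))

/-- **late family against an arbitrary family** -/
theorem late_energy {A : ℝ} (hA : 0 ≤ A) : ∃ C : ℝ, 1 ≤ C ∧ ∀ (ι κ : Type) (z : ℕ) (U : ℝ)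
    (Rel : ℕ × ℕ → Prop) (F : Finset ι) (G : Finset κ) (e : ι → ℕ) (e' : κ → ℕ) (R : ι → ℝ)
    (R' : κ → ℝ), 2 ≤ z → 1 ≤ U → (3 + Real.log z) ^ C ≤ U → (F.card : ℝ) ≤ U ^ A →
    (∀ (K : ℝ) (Q : Finset (ℕ × ℕ)), 0 ≤ K → (∀ t ∈ Q, Sm2 z t ∧ t.1.Coprime t.2 ∧ Rel t) →
      ∑ t ∈ Q, wn K t.1 * wn K t.2 ≤ 4 * (3 + Real.log z) / √U * Ez K z) →
    (∀ i ∈ F, 0 < e i) → (∀ j ∈ G, 0 < e' j) → (∀ i ∈ F, ∀ j ∈ F, e i = e j → i = j) →
    (∀ i ∈ G, ∀ j ∈ G, e' i = e' j → i = j) → (∀ i ∈ F, 0 ≤ R i) → (∀ j ∈ G, 0 ≤ R' j) →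
    (∀ i ∈ F, ∀ p : ℕ, p.Prime → p ∣ e i → p ≤ z) → (∀ j ∈ G, ∀ p : ℕ, p.Prime → p ∣ e' j → p ≤ z) →
    ∑ i ∈ F, ∑ j ∈ G, ind (Rel (rd (e i) (e' j))) *
      √(R i / ((rd (e i) (e' j)).1 : ℕ) * (R' j / ((rd (e i) (e' j)).2 : ℕ))) ≤
      C * U ^ (-(1 / 8) : ℝ) * (√(∑ i ∈ F, R i) * √(∑ j ∈ G, R' j)) := by
  obtain ⟨a, ha⟩ : ∃ a : ℕ, A ≤ 1 / 16 * (4 * 2 ^ a : ℕ) := by
    obtain ⟨a, ha⟩ := pow_unbounded_of_one_lt (A / (1 / 16)) (by norm_num : (1 : ℝ) < 2)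
    refine ⟨a, ?_⟩
    have h1 : A < 1 / 16 * 2 ^ a := by
      rw [div_lt_iff₀ (by positivity)] at ha; linarith
    push_cast
    have h2 : (0 : ℝ) ≤ 1 / 16 * 2 ^ a := by positivity
    linarith
  set c : ℝ := kp a ^ 2 * Tm 12 with hc
  have hc0 : 0 < c := mul_pos (pow_pos (kp_pos a) 2) (Tm_pos 12)
  set C : ℝ := max (4 * Real.exp (3 * c)) (8 * (1 + c)) with hC
  have hC1 : 4 * Real.exp (3 * c) ≤ C := le_max_left _ _
  have hC2 : 8 * (1 + c) ≤ C := le_max_right _ _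
  refine ⟨C, by linarith, ?_⟩
  intro ι κ z U Rel F G e e' R R' hz hU hzU hcard hQ hF hG hei hej hR hR' hs hs'
  have hU0 : 0 < U := by linarith
  have hlz : 0 < Real.log z := Real.log_pos (by exact_mod_cast (by omega : 1 < z))
  have h1 := rel_energy a (z := z) Rel F G e e' R R' (fun Q h => hQ (kp a) Q (kp_pos a).le h)
    hF hG hei hej hR hR' hs hs'
  refine h1.trans ?_
  refine mul_le_mul_of_nonneg_right ?_ (by positivity)
  -- the cardinality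
  have h2 : (F.card : ℝ) ^ ((1 : ℝ) / (4 * 2 ^ a : ℕ)) ≤ U ^ (1 / 16 : ℝ) := by
    have hm0 : (0 : ℝ) < ((4 * 2 ^ a : ℕ) : ℝ) := by positivity
    calc (F.card : ℝ) ^ ((1 : ℝ) / (4 * 2 ^ a : ℕ)) ≤ (U ^ A) ^ ((1 : ℝ) / (4 * 2 ^ a : ℕ)) :=
          Real.rpow_le_rpow (Nat.cast_nonneg _) hcard (by positivity)
      _ = U ^ (A / (4 * 2 ^ a : ℕ)) := by rw [← Real.rpow_mul hU0.le, mul_one_div]
      _ ≤ U ^ (1 / 16 : ℝ) := by
          refine Real.rpow_le_rpow_of_exponent_le hU ?_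
          rw [div_le_iff₀ hm0]; exact ha
  -- the smooth constant
  have h3 : (3 + Real.log z) * Ez (kp a) z ≤ (Real.exp (3 * c) * U ^ (1 / 16 : ℝ)) ^ 2 := by
    set w : ℝ := 3 + Real.log z with hw
    have hw1 : 1 ≤ w := by rw [hw]; linarith
    have hw0 : 0 < w := by linarith
    have e1 : Ez (kp a) z ≤ Real.exp (6 * c) * w ^ c := by
      unfold Ez
      rw [← hc, Real.rpow_def_of_pos hw0, ← Real.exp_add]
      refine Real.exp_le_exp.2 ?_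
      have : Real.log (Real.log z) ≤ Real.log w := Real.log_le_log hlz (by rw [hw]; linarith)
      nlinarith
    have e2 : w ^ (1 + c) ≤ U ^ (1 / 8 : ℝ) := by
      have e3 : (w ^ (8 * (1 + c))) ^ (1 / 8 : ℝ) = w ^ (1 + c) := by
        rw [← Real.rpow_mul hw0.le]; congr 1; ring
      rw [← e3]
      refine Real.rpow_le_rpow (by positivity) ?_ (by norm_num)
      exact (Real.rpow_le_rpow_of_exponent_le hw1 hC2).trans hzU
    calc w * Ez (kp a) z ≤ w * (Real.exp (6 * c) * w ^ c) :=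
          mul_le_mul_of_nonneg_left e1 hw0.le
      _ = Real.exp (6 * c) * w ^ (1 + c) := by
          rw [Real.rpow_add hw0, Real.rpow_one]; ring
      _ ≤ Real.exp (6 * c) * U ^ (1 / 8 : ℝ) := mul_le_mul_of_nonneg_left e2 (Real.exp_pos _).le
      _ = (Real.exp (3 * c) * U ^ (1 / 16 : ℝ)) ^ 2 := by
          rw [mul_pow, ← Real.exp_nat_mul, ← Real.rpow_natCast (U ^ (1 / 16 : ℝ)),
            ← Real.rpow_mul hU0.le]
          congr 2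
          · push_cast; ring
          · norm_num
  have h4 : √(4 * (4 * (3 + Real.log z) / √U * Ez (kp a) z)) ≤
      4 * Real.exp (3 * c) * U ^ (-(3 / 16) : ℝ) := by
    rw [Real.sqrt_le_left (by positivity)]
    have e1 : (1 : ℝ) / √U = U ^ (-(1 / 2) : ℝ) := by
      rw [Real.sqrt_eq_rpow, Real.rpow_neg hU0.le, one_div]
    calc 4 * (4 * (3 + Real.log z) / √U * Ez (kp a) z)
        = 16 * ((3 + Real.log z) * Ez (kp a) z) * (1 / √U) := by ring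
      _ ≤ 16 * (Real.exp (3 * c) * U ^ (1 / 16 : ℝ)) ^ 2 * U ^ (-(1 / 2) : ℝ) := by
          rw [e1]
          exact mul_le_mul_of_nonneg_right (mul_le_mul_of_nonneg_left h3 (by norm_num))
            (by positivity)
      _ = (4 * Real.exp (3 * c) * U ^ (-(3 / 16) : ℝ)) ^ 2 := by
          have e2 : (U ^ (1 / 16 : ℝ)) ^ 2 * U ^ (-(1 / 2) : ℝ) = (U ^ (-(3 / 16) : ℝ)) ^ 2 := by
            rw [← Real.rpow_natCast, ← Real.rpow_natCast, ← Real.rpow_mul hU0.le,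
              ← Real.rpow_mul hU0.le, ← Real.rpow_add hU0]
            congr 1; norm_num
          rw [mul_pow, mul_pow, ← e2]; ring
  calc √(4 * (4 * (3 + Real.log z) / √U * Ez (kp a) z)) * (F.card : ℝ) ^ ((1 : ℝ) / (4 * 2 ^ a : ℕ))
      ≤ 4 * Real.exp (3 * c) * U ^ (-(3 / 16) : ℝ) * U ^ (1 / 16 : ℝ) :=
        mul_le_mul h4 h2 (by positivity) (by positivity)
    _ = 4 * Real.exp (3 * c) * U ^ (-(1 / 8) : ℝ) := by
        rw [mul_assoc, ← Real.rpow_add hU0]; norm_num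
    _ ≤ C * U ^ (-(1 / 8) : ℝ) := mul_le_mul_of_nonneg_right hC1 (by positivity)

/-- **one exact class of denominator `k` in one node**: `D ≠ D'`, `D ≡ D' mod k` -/
theorem cong_energy {A : ℝ} (hA : 0 ≤ A) : ∃ C : ℝ, 1 ≤ C ∧ ∀ (ι κ : Type) (z k : ℕ)
    (F : Finset ι) (G : Finset κ) (e : ι → ℕ) (e' : κ → ℕ) (R : ι → ℝ)
    (R' : κ → ℝ), 2 ≤ z → 0 < k → (3 + Real.log z) ^ C ≤ k → (F.card : ℝ) ≤ (k : ℝ) ^ A →
    (∀ i ∈ F, 0 < e i) → (∀ j ∈ G, 0 < e' j) → (∀ i ∈ F, ∀ j ∈ F, e i = e j → i = j) →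
    (∀ i ∈ G, ∀ j ∈ G, e' i = e' j → i = j) → (∀ i ∈ F, 0 ≤ R i) → (∀ j ∈ G, 0 ≤ R' j) →
    (∀ i ∈ F, ∀ p : ℕ, p.Prime → p ∣ e i → p ≤ z) → (∀ j ∈ G, ∀ p : ℕ, p.Prime → p ∣ e' j → p ≤ z) →
    ∑ i ∈ F, ∑ j ∈ G, ind ((rd (e i) (e' j)).1 ≠ (rd (e i) (e' j)).2 ∧
        (rd (e i) (e' j)).1 ≡ (rd (e i) (e' j)).2 [MOD k]) *
      √(R i / ((rd (e i) (e' j)).1 : ℕ) * (R' j / ((rd (e i) (e' j)).2 : ℕ))) ≤
      C * (k : ℝ) ^ (-(1 / 8) : ℝ) * (√(∑ i ∈ F, R i) * √(∑ j ∈ G, R' j)) := by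
  obtain ⟨C, hC, h⟩ := late_energy hA
  refine ⟨C, hC, ?_⟩
  intro ι κ z k F G e e' R R' hz hk hzk hcard hF hG hei hej hR hR' hs hs'
  exact h ι κ z k (fun t => t.1 ≠ t.2 ∧ t.1 ≡ t.2 [MOD k]) F G e e' R R' hz (by exact_mod_cast hk)
    hzk hcard (fun K Q hK hQ => cong_pairs hK hz hk Q fun t ht => ⟨(hQ t ht).1, (hQ t ht).2.2⟩)
    hF hG hei hej hR hR' hs hs'

/-- **exact centres of two labels `ρ`, `ρ'`** (denominators `≥ U`), one cofactor `≥ U` -/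
theorem co_energy {A : ℝ} (hA : 0 ≤ A) : ∃ C : ℝ, 1 ≤ C ∧ ∀ (ι κ : Type) (z : ℕ) (U : ℝ)
    (ρ ρ' : ℚ) (F : Finset ι) (G : Finset κ) (e : ι → ℕ) (e' : κ → ℕ) (R : ι → ℝ)
    (R' : κ → ℝ), 2 ≤ z → 1 ≤ U → (3 + Real.log z) ^ C ≤ U → (F.card : ℝ) ≤ U ^ A →
    U ≤ ρ.den → U ≤ ρ'.den →
    (∀ i ∈ F, 0 < e i) → (∀ j ∈ G, 0 < e' j) → (∀ i ∈ F, ∀ j ∈ F, e i = e j → i = j) →
    (∀ i ∈ G, ∀ j ∈ G, e' i = e' j → i = j) → (∀ i ∈ F, 0 ≤ R i) → (∀ j ∈ G, 0 ≤ R' j) →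
    (∀ i ∈ F, ∀ p : ℕ, p.Prime → p ∣ e i → p ≤ z) → (∀ j ∈ G, ∀ p : ℕ, p.Prime → p ∣ e' j → p ≤ z) →
    ∑ i ∈ F, ∑ j ∈ G, ind ((U ≤ (rd (e i) (e' j)).1 ∨ U ≤ (rd (e i) (e' j)).2) ∧
        ShR18.Co (((rd (e i) (e' j)).2 : ℕ) * ρ) (((rd (e i) (e' j)).1 : ℕ) * ρ')) *
      √(R i / ((rd (e i) (e' j)).1 : ℕ) * (R' j / ((rd (e i) (e' j)).2 : ℕ))) ≤
      C * U ^ (-(1 / 8) : ℝ) * (√(∑ i ∈ F, R i) * √(∑ j ∈ G, R' j)) := by
  obtain ⟨C, hC, h⟩ := late_energy hA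
  refine ⟨C, hC, ?_⟩
  intro ι κ z U ρ ρ' F G e e' R R' hz hU hzU hcard hρ hρ' hF hG hei hej hR hR' hs hs'
  exact h ι κ z U (fun t => (U ≤ t.1 ∨ U ≤ t.2) ∧ ShR18.Co ((t.2 : ℕ) * ρ) ((t.1 : ℕ) * ρ'))
    F G e e' R R' hz hU hzU hcard
    (fun K Q hK hQ => co_pairs hK hz hU hρ hρ' Q fun t ht => ⟨(hQ t ht).1, (hQ t ht).2.2⟩)
    hF hG hei hej hR hR' hs hs'

end Crest.Agent.R4P.GcdS37
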