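import Crest.Agent.R4P.GcdS_37

/-!
R4 (S0004) with powers, helper37: **energies of a late family against an uncounted family, items with
large (retained) primes** (over `GcdS_37`).

`GcdS37.late_energy` needs `z`-smooth `e`, `e'`. At a node the numbers `q / s.A` have retained primes
above the level. Here : no smoothness.
* `rel_smooth`, `late_smooth` : the pairs with `z`-smooth cofactors;
* **`late_min`** : `min (R / D) (R' / D')`, all the pairs : the cofactor `D' > U^(A+1)` costs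
  `card F / D'`, the cofactor `D` with a prime `> z = U^(2A+6)` is sparse (`htail`), the others are
  `z`-smooth;
* `cong_min`, `co_min` : one node and one class, two labels.
-/

set_option autoImplicit false
set_option linter.unusedVariables false

open Finset

namespace Crest.Agent.R4P.GcdT37

open Crest.Agent.R4.HVW560 Crest.Agent.R4.Smo944 Crest.Agent.R016
open Crest.Agent.R4.ClsS (wn_nonneg mul_wn_sq)
open Crest.Agent.R4.PinE104 (ell_nonneg)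
open Crest.Agent.R4P.GcdK37 Crest.Agent.R4P.GcdW41 Crest.Agent.R4P.GcdS37

/-- **a general relation**, the pairs with `z`-smooth cofactors -/
theorem rel_smooth (a : ℕ) {ι κ : Type} {z : ℕ} (Rel : ℕ × ℕ → Prop) {T : ℝ}
    (F : Finset ι) (G : Finset κ) (e : ι → ℕ) (e' : κ → ℕ) (R : ι → ℝ) (R' : κ → ℝ)
    (hT : ∀ Q : Finset (ℕ × ℕ), (∀ t ∈ Q, Sm2 z t ∧ t.1.Coprime t.2 ∧ Rel t) →
      ∑ t ∈ Q, wn (kp a) t.1 * wn (kp a) t.2 ≤ T)
    (hF : ∀ i ∈ F, 0 < e i) (hG : ∀ j ∈ G, 0 < e' j) (hei : ∀ i ∈ F, ∀ j ∈ F, e i = e j → i = j)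
    (hej : ∀ i ∈ G, ∀ j ∈ G, e' i = e' j → i = j) (hR : ∀ i ∈ F, 0 ≤ R i)
    (hR' : ∀ j ∈ G, 0 ≤ R' j) :
    ∑ i ∈ F, ∑ j ∈ G, ind (Sm2 z (rd (e i) (e' j)) ∧ Rel (rd (e i) (e' j))) *
      √(R i / ((rd (e i) (e' j)).1 : ℕ) * (R' j / ((rd (e i) (e' j)).2 : ℕ))) ≤
      √(4 * T) * (F.card : ℝ) ^ ((1 : ℝ) / (4 * 2 ^ a : ℕ)) *
        (√(∑ i ∈ F, R i) * √(∑ j ∈ G, R' j)) := by
  classical
  set Q : Finset (ℕ × ℕ) := ((F ×ˢ G).image fun x => rd (e x.1) (e' x.2)).filter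
    (fun t => Sm2 z t ∧ Rel t) with hQ
  have hQs : ∀ t ∈ Q, Sm2 z t ∧ t.1.Coprime t.2 ∧ Rel t := by
    intro t ht
    obtain ⟨h1, h2⟩ := Finset.mem_filter.1 ht
    obtain ⟨x, hx, rfl⟩ := Finset.mem_image.1 h1
    obtain ⟨h3, h4⟩ := Finset.mem_product.1 hx
    exact ⟨h2.1, Nat.coprime_div_gcd_div_gcd (Nat.gcd_pos_of_pos_left _ (hF _ h3)), h2.2⟩
  have h1 := min_relW a Q F G e e' R R'
    (fun t ht => ⟨(hQs t ht).1.1, (hQs t ht).1.2.1, (hQs t ht).2.1⟩) hF hG hei hej hR hR'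
  refine le_trans (le_of_eq ?_) (h1.trans ?_)
  · refine Finset.sum_congr rfl fun i hi => Finset.sum_congr rfl fun j hj => ?_
    have : ind (Sm2 z (rd (e i) (e' j)) ∧ Rel (rd (e i) (e' j))) =
        ind ((e i / (e i).gcd (e' j), e' j / (e i).gcd (e' j)) ∈ Q) := by
      refine ind_congr ⟨fun h => ?_, fun h => ⟨(hQs _ h).1, (hQs _ h).2.2⟩⟩
      exact Finset.mem_filter.2 ⟨Finset.mem_image.2 ⟨(i, j), Finset.mem_product.2 ⟨hi, hj⟩, rfl⟩, h⟩
    rw [this]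
  · refine mul_le_mul_of_nonneg_right (mul_le_mul_of_nonneg_right ?_ (by positivity)) (by positivity)
    exact Real.sqrt_le_sqrt (mul_le_mul_of_nonneg_left (hT Q hQs) (by norm_num))

/-- **late family against an arbitrary family**, the pairs with `z`-smooth cofactors -/
theorem late_smooth {A : ℝ} (hA : 0 ≤ A) : ∃ C : ℝ, 1 ≤ C ∧ ∀ (ι κ : Type) (z : ℕ) (U : ℝ)
    (Rel : ℕ × ℕ → Prop) (F : Finset ι) (G : Finset κ) (e : ι → ℕ) (e' : κ → ℕ) (R : ι → ℝ)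
    (R' : κ → ℝ), 2 ≤ z → 1 ≤ U → (3 + Real.log z) ^ C ≤ U → (F.card : ℝ) ≤ U ^ A →
    (∀ (K : ℝ) (Q : Finset (ℕ × ℕ)), 0 ≤ K → (∀ t ∈ Q, Sm2 z t ∧ t.1.Coprime t.2 ∧ Rel t) →
      ∑ t ∈ Q, wn K t.1 * wn K t.2 ≤ 4 * (3 + Real.log z) / √U * Ez K z) →
    (∀ i ∈ F, 0 < e i) → (∀ j ∈ G, 0 < e' j) → (∀ i ∈ F, ∀ j ∈ F, e i = e j → i = j) →
    (∀ i ∈ G, ∀ j ∈ G, e' i = e' j → i = j) → (∀ i ∈ F, 0 ≤ R i) → (∀ j ∈ G, 0 ≤ R' j) →
    ∑ i ∈ F, ∑ j ∈ G, ind (Sm2 z (rd (e i) (e' j)) ∧ Rel (rd (e i) (e' j))) *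
      √(R i / ((rd (e i) (e' j)).1 : ℕ) * (R' j / ((rd (e i) (e' j)).2 : ℕ))) ≤
      C * U ^ (-(1 / 8) : ℝ) * (√(∑ i ∈ F, R i) * √(∑ j ∈ G, R' j)) := by
  obtain ⟨a, ha⟩ : ∃ a : ℕ, A ≤ 1 / 16 * (4 * 2 ^ a : ℕ) := by
    obtain ⟨a, ha⟩ := pow_unbounded_of_one_lt (A / (1 / 16)) (by norm_num : (1 : ℝ) < 2)
    refine ⟨a, ?_⟩
    have h1 : A < 1 / 16 * 2 ^ a := by
      rw [div_lt_iff₀ (by positivity)] at ha; linarith
    push_cast
    have h2 : (0 : ℝ) ≤ 1 / 16 * 2 ^ a := by positivity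
    linarith
  set c : ℝ := kp a ^ 2 * Tm 12 with hc
  have hc0 : 0 < c := mul_pos (pow_pos (kp_pos a) 2) (Tm_pos 12)
  set C : ℝ := max (4 * Real.exp (3 * c)) (8 * (1 + c)) with hC
  have hC1 : 4 * Real.exp (3 * c) ≤ C := le_max_left _ _
  have hC2 : 8 * (1 + c) ≤ C := le_max_right _ _
  refine ⟨C, by linarith, ?_⟩
  intro ι κ z U Rel F G e e' R R' hz hU hzU hcard hQ hF hG hei hej hR hR'
  have hU0 : 0 < U := by linarith
  have hlz : 0 < Real.log z := Real.log_pos (by exact_mod_cast (by omega : 1 < z))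
  have h1 := rel_smooth a (z := z) Rel F G e e' R R' (fun Q h => hQ (kp a) Q (kp_pos a).le h)
    hF hG hei hej hR hR'
  refine h1.trans ?_
  refine mul_le_mul_of_nonneg_right ?_ (by positivity)
  -- the cardinality
  have h2 : (F.card : ℝ) ^ ((1 : ℝ) / (4 * 2 ^ a : ℕ)) ≤ U ^ (1 / 16 : ℝ) := by
    have hm0 : (0 : ℝ) < ((4 * 2 ^ a : ℕ) : ℝ) := by positivity
    calc (F.card : ℝ) ^ ((1 : ℝ) / (4 * 2 ^ a : ℕ)) ≤ (U ^ A) ^ ((1 : ℝ) / (4 * 2 ^ a : ℕ)) :=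
          Real.rpow_le_rpow (Nat.cast_nonneg _) hcard (by positivity)
      _ = U ^ (A / (4 * 2 ^ a : ℕ)) := by rw [← Real.rpow_mul hU0.le, mul_one_div]
      _ ≤ U ^ (1 / 16 : ℝ) := by
          refine Real.rpow_le_rpow_of_exponent_le hU ?_
          rw [div_le_iff₀ hm0]; exact ha
  -- the smooth constant
  have h3 : (3 + Real.log z) * Ez (kp a) z ≤ (Real.exp (3 * c) * U ^ (1 / 16 : ℝ)) ^ 2 := by
    set w : ℝ := 3 + Real.log z with hw
    have hw1 : 1 ≤ w := by rw [hw]; linarith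
    have hw0 : 0 < w := by linarith
    have e1 : Ez (kp a) z ≤ Real.exp (6 * c) * w ^ c := by
      unfold Ez
      rw [← hc, Real.rpow_def_of_pos hw0, ← Real.exp_add]
      refine Real.exp_le_exp.2 ?_
      have : Real.log (Real.log z) ≤ Real.log w := Real.log_le_log hlz (by rw [hw]; linarith)
      nlinarith
    have e2 : w ^ (1 + c) ≤ U ^ (1 / 8 : ℝ) := by
      have e3 : (w ^ (8 * (1 + c))) ^ (1 / 8 : ℝ) = w ^ (1 + c) := by
        rw [← Real.rpow_mul hw0.le]; congr 1; ring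
      rw [← e3]
      refine Real.rpow_le_rpow (by positivity) ?_ (by norm_num)
      exact (Real.rpow_le_rpow_of_exponent_le hw1 hC2).trans hzU
    calc w * Ez (kp a) z ≤ w * (Real.exp (6 * c) * w ^ c) :=
          mul_le_mul_of_nonneg_left e1 hw0.le
      _ = Real.exp (6 * c) * w ^ (1 + c) := by
          rw [Real.rpow_add hw0, Real.rpow_one]; ring
      _ ≤ Real.exp (6 * c) * U ^ (1 / 8 : ℝ) := mul_le_mul_of_nonneg_left e2 (Real.exp_pos _).le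
      _ = (Real.exp (3 * c) * U ^ (1 / 16 : ℝ)) ^ 2 := by
          rw [mul_pow, ← Real.exp_nat_mul, ← Real.rpow_natCast (U ^ (1 / 16 : ℝ)),
            ← Real.rpow_mul hU0.le]
          congr 2
          · push_cast; ring
          · norm_num
  have h4 : √(4 * (4 * (3 + Real.log z) / √U * Ez (kp a) z)) ≤
      4 * Real.exp (3 * c) * U ^ (-(3 / 16) : ℝ) := by
    rw [Real.sqrt_le_left (by positivity)]
    have e1 : (1 : ℝ) / √U = U ^ (-(1 / 2) : ℝ) := by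
      rw [Real.sqrt_eq_rpow, Real.rpow_neg hU0.le, one_div]
    calc 4 * (4 * (3 + Real.log z) / √U * Ez (kp a) z)
        = 16 * ((3 + Real.log z) * Ez (kp a) z) * (1 / √U) := by ring
      _ ≤ 16 * (Real.exp (3 * c) * U ^ (1 / 16 : ℝ)) ^ 2 * U ^ (-(1 / 2) : ℝ) := by
          rw [e1]
          exact mul_le_mul_of_nonneg_right (mul_le_mul_of_nonneg_left h3 (by norm_num))
            (by positivity)
      _ = (4 * Real.exp (3 * c) * U ^ (-(3 / 16) : ℝ)) ^ 2 := by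
          have e2 : (U ^ (1 / 16 : ℝ)) ^ 2 * U ^ (-(1 / 2) : ℝ) = (U ^ (-(3 / 16) : ℝ)) ^ 2 := by
            rw [← Real.rpow_natCast, ← Real.rpow_natCast, ← Real.rpow_mul hU0.le,
              ← Real.rpow_mul hU0.le, ← Real.rpow_add hU0]
            congr 1; norm_num
          rw [mul_pow, mul_pow, ← e2]; ring
  calc √(4 * (4 * (3 + Real.log z) / √U * Ez (kp a) z)) * (F.card : ℝ) ^ ((1 : ℝ) / (4 * 2 ^ a : ℕ))
      ≤ 4 * Real.exp (3 * c) * U ^ (-(3 / 16) : ℝ) * U ^ (1 / 16 : ℝ) :=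
        mul_le_mul h4 h2 (by positivity) (by positivity)
    _ = 4 * Real.exp (3 * c) * U ^ (-(1 / 8) : ℝ) := by
        rw [mul_assoc, ← Real.rpow_add hU0]; norm_num
    _ ≤ C * U ^ (-(1 / 8) : ℝ) := mul_le_mul_of_nonneg_right hC1 (by positivity)

/-! ### the large cofactors -/

/-- for a fixed first item the second item is determined by the reduced pair -/
theorem rd_inj {m n n' : ℕ} (hm : 0 < m) (h : rd m n = rd m n') : n = n' := by
  have hg : 0 < m.gcd n := Nat.gcd_pos_of_pos_left _ hm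
  have hg' : 0 < m.gcd n' := Nat.gcd_pos_of_pos_left _ hm
  have h1 : m / m.gcd n = m / m.gcd n' := congrArg Prod.fst h
  have h2 : n / m.gcd n = n' / m.gcd n' := congrArg Prod.snd h
  have e1 : m.gcd n = m.gcd n' := by
    have a1 := Nat.div_mul_cancel (Nat.gcd_dvd_left m n)
    have a2 := Nat.div_mul_cancel (Nat.gcd_dvd_left m n')
    have hpos : 0 < m / m.gcd n := Nat.div_pos (Nat.le_of_dvd hm (Nat.gcd_dvd_left _ _)) hg
    rw [← h1] at a2
    exact Nat.eq_of_mul_eq_mul_left hpos (a1.trans a2.symm)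
  have a3 := Nat.div_mul_cancel (Nat.gcd_dvd_right m n)
  have a4 := Nat.div_mul_cancel (Nat.gcd_dvd_right m n')
  rw [← a3, ← a4, h2, e1]

open Classical in
/-- one first item, `D' ≤ Y`, `D` in a set `P` : the sum of `1 / D` -/
theorem row_sum {κ : Type} {m : ℕ} (hm : 0 < m) (G : Finset κ) (e' : κ → ℕ)
    (hej : ∀ i ∈ G, ∀ j ∈ G, e' i = e' j → i = j) (hG : ∀ j ∈ G, 0 < e' j) (p : ℕ → Prop) (Y : ℕ) :
    ∑ j ∈ G, ind (p (rd m (e' j)).1 ∧ (rd m (e' j)).2 ≤ Y) * (1 / ((rd m (e' j)).1 : ℝ)) ≤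
      Y * ∑ d ∈ m.divisors.filter (fun d => p d), (1 : ℝ) / d := by
  classical
  have e1 : ∑ j ∈ G, ind (p (rd m (e' j)).1 ∧ (rd m (e' j)).2 ≤ Y) * (1 / ((rd m (e' j)).1 : ℝ)) =
      ∑ j ∈ G.filter (fun j => p (rd m (e' j)).1 ∧ (rd m (e' j)).2 ≤ Y),
        (1 / ((rd m (e' j)).1 : ℝ)) := by
    rw [Finset.sum_filter]
    refine Finset.sum_congr rfl fun j _ => ?_
    by_cases h : p (rd m (e' j)).1 ∧ (rd m (e' j)).2 ≤ Y
    · rw [ind_t h, if_pos h, one_mul]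
    · rw [ind_f h, if_neg h, zero_mul]
  rw [e1]
  have hinj : Set.InjOn (fun j => rd m (e' j))
      ((G.filter (fun j => p (rd m (e' j)).1 ∧ (rd m (e' j)).2 ≤ Y) : Finset κ) : Set κ) := by
    intro i hi j hj h
    exact hej i (Finset.mem_filter.1 (Finset.mem_coe.1 hi)).1 j
      (Finset.mem_filter.1 (Finset.mem_coe.1 hj)).1 (rd_inj hm h)
  rw [← Finset.sum_image (f := fun t : ℕ × ℕ => (1 : ℝ) / (t.1 : ℝ)) hinj]
  calc _ ≤ ∑ t ∈ (m.divisors.filter (fun d => p d)) ×ˢ Finset.Icc 1 Y, (1 : ℝ) / (t.1 : ℝ) := by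
        refine Finset.sum_le_sum_of_subset_of_nonneg (fun t ht => ?_) fun t _ _ => by positivity
        obtain ⟨j, hj, rfl⟩ := Finset.mem_image.1 ht
        obtain ⟨h1, h2, h3⟩ := Finset.mem_filter.1 hj
        have hg : 0 < m.gcd (e' j) := Nat.gcd_pos_of_pos_left _ hm
        refine Finset.mem_product.2 ⟨Finset.mem_filter.2 ⟨Nat.mem_divisors.2
          ⟨Nat.div_dvd_of_dvd (Nat.gcd_dvd_left _ _), hm.ne'⟩, h2⟩, Finset.mem_Icc.2 ⟨?_, h3⟩⟩
        exact Nat.div_pos (Nat.le_of_dvd (hG j h1) (Nat.gcd_dvd_right _ _)) hg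
    _ = _ := by
        rw [Finset.sum_product, Finset.mul_sum]
        refine Finset.sum_congr rfl fun d _ => ?_
        show ∑ _y ∈ Finset.Icc 1 Y, (1 : ℝ) / (d : ℝ) = _
        rw [Finset.sum_const, Nat.card_Icc, nsmul_eq_mul]
        simp

open Classical in
/-- **LATE FAMILY AGAINST AN ARBITRARY FAMILY** (no smoothness) -/
theorem late_min {A : ℝ} (hA : 0 ≤ A) : ∃ Ce : ℝ, 1 ≤ Ce ∧ ∃ C : ℝ, 1 ≤ C ∧ ∀ (ι κ : Type) (P : ℕ)
    (U : ℝ) (Rel : ℕ × ℕ → Prop) (F : Finset ι) (G : Finset κ) (e : ι → ℕ) (e' : κ → ℕ)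
    (R : ι → ℝ) (R' : κ → ℝ), 2 ≤ P → (3 + Real.log P) ^ Ce ≤ U → (F.card : ℝ) ≤ U ^ A →
    (∀ (z : ℕ) (K : ℝ) (Q : Finset (ℕ × ℕ)), 2 ≤ z → 0 ≤ K →
      (∀ t ∈ Q, Sm2 z t ∧ t.1.Coprime t.2 ∧ Rel t) →
      ∑ t ∈ Q, wn K t.1 * wn K t.2 ≤ 4 * (3 + Real.log z) / √U * Ez K z) →
    (∀ i ∈ F, 0 < e i) → (∀ j ∈ G, 0 < e' j) → (∀ i ∈ F, ∀ j ∈ F, e i = e j → i = j) →
    (∀ i ∈ G, ∀ j ∈ G, e' i = e' j → i = j) → (∀ i ∈ F, 0 ≤ R i) → (∀ j ∈ G, 0 ≤ R' j) →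
    (∀ i ∈ F, ∀ z : ℕ, P ≤ z →
      ∑ d ∈ (e i).divisors.filter (fun d => ∃ b : ℕ, b.Prime ∧ z < b ∧ b ∣ d), (1 : ℝ) / d ≤
        U * (z : ℝ) ^ (-(1 / 2) : ℝ)) →
    ∑ i ∈ F, ∑ j ∈ G, ind (Rel (rd (e i) (e' j))) *
      min (R i / ((rd (e i) (e' j)).1 : ℕ)) (R' j / ((rd (e i) (e' j)).2 : ℕ)) ≤
      C * U ^ (-(1 / 8) : ℝ) * (∑ i ∈ F, R i + ∑ j ∈ G, R' j) := by
  obtain ⟨C0, hC0, h0⟩ := late_smooth hA
  -- the exponent
  set N : ℝ := 2 * A + 8 with hN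
  have hN0 : 0 < N := by rw [hN]; linarith
  -- `3 + log P ≤ U^(1/(2 C0)) / 2`, `N log U ≤ U^(1/(2 C0)) ...`
  set b : ℝ := 1 / (2 * C0) with hb
  have hb0 : 0 < b := by rw [hb]; positivity
  set Ce : ℝ := max (2 * C0) (2 * C0 * (Real.log 2 + Real.log (1 + N / b))) + 1 with hCe
  have hCe1 : 2 * C0 ≤ Ce := by rw [hCe]; have := le_max_left (2 * C0) (2 * C0 * (Real.log 2 + Real.log (1 + N / b))); linarith
  have hCe2 : 2 * C0 * (Real.log 2 + Real.log (1 + N / b)) ≤ Ce := by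
    rw [hCe]; have := le_max_right (2 * C0) (2 * C0 * (Real.log 2 + Real.log (1 + N / b))); linarith
  refine ⟨Ce, by linarith, C0 + 2, by linarith, ?_⟩
  intro ι κ P U Rel F G e e' R R' hP hPU hcard hQ hF hG hei hej hR hR' htail
  have hlP : 0 ≤ Real.log P := Real.log_natCast_nonneg P
  have hw1 : 1 ≤ 3 + Real.log P := by linarith
  have hCe0 : 0 < Ce := by linarith
  have hU : 1 ≤ U := (Real.one_le_rpow hw1 hCe0.le).trans hPU
  have hU0 : 0 < U := by linarith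
  have hsR : 0 ≤ ∑ i ∈ F, R i := Finset.sum_nonneg hR
  have hsR' : 0 ≤ ∑ j ∈ G, R' j := Finset.sum_nonneg hR'
  set Y : ℕ := ⌈U ^ (A + 1)⌉₊ with hY
  have hY1 : U ^ (A + 1) ≤ Y := Nat.le_ceil _
  have hUA1 : 1 ≤ U ^ (A + 1) := Real.one_le_rpow hU (by linarith)
  have hY2 : (Y : ℝ) ≤ 2 * U ^ (A + 1) := by
    have := (Nat.ceil_lt_add_one (by linarith : (0:ℝ) ≤ U ^ (A + 1))).le
    linarith
  set z : ℕ := max P (max Y ⌈U ^ (2 * A + 6)⌉₊) with hz
  have hzP : P ≤ z := le_max_left _ _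
  have hzY : Y ≤ z := (le_max_left _ _).trans (le_max_right _ _)
  have hzU : U ^ (2 * A + 6) ≤ z := (Nat.le_ceil _).trans
    (by exact_mod_cast (le_max_right _ _).trans (le_max_right _ _))
  have hz2 : 2 ≤ z := hP.trans hzP
  have hU2 : 2 ≤ U := by
    have h1 : (3 : ℝ) ^ (1 : ℝ) ≤ (3 + Real.log P) ^ Ce :=
      (Real.rpow_le_rpow (by norm_num) (by linarith) (by norm_num)).trans
        (Real.rpow_le_rpow_of_exponent_le hw1 (by linarith))
    rw [Real.rpow_one] at h1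
    linarith
  -- `log z`
  have hlz : Real.log z ≤ Real.log P + N * Real.log U := by
    have hlU : 0 ≤ Real.log U := Real.log_nonneg hU
    have hP0 : (0 : ℝ) < P := by exact_mod_cast (by omega : 0 < P)
    have h1 : (z : ℝ) ≤ P * U ^ N := by
      have hUN : 1 ≤ U ^ N := Real.one_le_rpow hU hN0.le
      have hP1 : (1 : ℝ) ≤ P := by exact_mod_cast (by omega : 1 ≤ P)
      have h2 : (P : ℝ) ≤ P * U ^ N := le_mul_of_one_le_right hP0.le hUN
      have h3 : (Y : ℝ) ≤ P * U ^ N := by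
        have h4 : 2 * U ^ (A + 1) ≤ U ^ N := by
          calc 2 * U ^ (A + 1) ≤ U ^ (1 : ℝ) * U ^ (A + 1) := by
                rw [Real.rpow_one]
                exact mul_le_mul_of_nonneg_right hU2 (by positivity)
            _ = U ^ (1 + (A + 1)) := (Real.rpow_add hU0 _ _).symm
            _ ≤ U ^ N := Real.rpow_le_rpow_of_exponent_le hU (by rw [hN]; linarith)
        have h5 : U ^ N ≤ P * U ^ N := le_mul_of_one_le_left (by positivity) hP1
        linarith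
      have h4 : ((⌈U ^ (2 * A + 6)⌉₊ : ℕ) : ℝ) ≤ P * U ^ N := by
        have h6 : 1 ≤ U ^ (2 * A + 6) := Real.one_le_rpow hU (by linarith)
        have h7 := (Nat.ceil_lt_add_one (by linarith : (0:ℝ) ≤ U ^ (2 * A + 6))).le
        have h8 : 2 * U ^ (2 * A + 6) ≤ U ^ N := by
          calc 2 * U ^ (2 * A + 6) ≤ U ^ (1 : ℝ) * U ^ (2 * A + 6) := by
                rw [Real.rpow_one]
                exact mul_le_mul_of_nonneg_right hU2 (by positivity)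
            _ = U ^ (1 + (2 * A + 6)) := (Real.rpow_add hU0 _ _).symm
            _ ≤ U ^ N := Real.rpow_le_rpow_of_exponent_le hU (by rw [hN]; linarith)
        have h5 : U ^ N ≤ P * U ^ N := le_mul_of_one_le_left (by positivity) hP1
        linarith
      rw [hz]
      push_cast
      exact max_le h2 (max_le h3 h4)
    have hz0 : (0 : ℝ) < z := by exact_mod_cast (by omega : 0 < z)
    calc Real.log z ≤ Real.log (P * U ^ N) := Real.log_le_log hz0 h1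
      _ = Real.log P + N * Real.log U := by
          rw [Real.log_mul hP0.ne' (by positivity), Real.log_rpow hU0]
  -- the smoothness condition
  have hcond : (3 + Real.log z) ^ C0 ≤ U := by
    have hC00 : 0 < C0 := by linarith
    -- `V = U^b`
    have hV1 : 3 + Real.log P ≤ U ^ b := by
      have h1 : (3 + Real.log P) ^ (2 * C0) ≤ U :=
        (Real.rpow_le_rpow_of_exponent_le hw1 hCe1).trans hPU
      calc 3 + Real.log P = ((3 + Real.log P) ^ (2 * C0)) ^ b := by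
            rw [← Real.rpow_mul (by linarith), hb]
            rw [mul_one_div_cancel (by positivity), Real.rpow_one]
        _ ≤ U ^ b := Real.rpow_le_rpow (by positivity) h1 hb0.le
    have hV2 : N * Real.log U ≤ N / b * U ^ b := by
      have h1 := Real.log_le_rpow_div hU0.le hb0
      calc N * Real.log U ≤ N * (U ^ b / b) := mul_le_mul_of_nonneg_left h1 hN0.le
        _ = _ := by ring
    have hV3 : 3 + Real.log z ≤ (1 + N / b) * U ^ b := by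
      calc 3 + Real.log z ≤ (3 + Real.log P) + N * Real.log U := by linarith
        _ ≤ U ^ b + N / b * U ^ b := add_le_add hV1 hV2
        _ = _ := by ring
    have hNb : 0 < N / b := by positivity
    have hlz0 : 0 ≤ Real.log z := Real.log_natCast_nonneg z
    -- `(1 + N/b)^C0 ≤ U^(1/2)`
    have hV4 : (1 + N / b) ^ C0 ≤ U ^ (1 / 2 : ℝ) := by
      have h1 : Real.exp (2 * C0 * (Real.log (1 + N / b))) ≤ U := by
        have h3 : (1 : ℝ) ≤ Real.log (3 + Real.log P) := by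
          have : Real.exp 1 ≤ 3 + Real.log P := by
            have := Real.exp_one_lt_d9; linarith
          rwa [Real.le_log_iff_exp_le (by linarith)]
        have hl2 : 0 ≤ Real.log 2 := Real.log_nonneg (by norm_num)
        calc Real.exp (2 * C0 * (Real.log (1 + N / b))) ≤ Real.exp (Real.log (3 + Real.log P) * Ce) := by
              refine Real.exp_le_exp.2 ?_
              have h4 : 2 * C0 * Real.log (1 + N / b) ≤ Ce := by nlinarith
              calc _ ≤ Ce := h4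
                _ = 1 * Ce := (one_mul _).symm
                _ ≤ _ := mul_le_mul_of_nonneg_right h3 hCe0.le
          _ = (3 + Real.log P) ^ Ce := by rw [Real.rpow_def_of_pos (by linarith)]
          _ ≤ U := hPU
      have h2 : (1 + N / b) ^ (2 * C0) ≤ U := by
        rw [Real.rpow_def_of_pos (by linarith)]
        calc _ = Real.exp (2 * C0 * (Real.log (1 + N / b))) := by congr 1; ring
          _ ≤ U := h1
      calc (1 + N / b) ^ C0 = ((1 + N / b) ^ (2 * C0)) ^ (1 / 2 : ℝ) := by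
            rw [← Real.rpow_mul (by linarith)]; congr 1; ring
        _ ≤ U ^ (1 / 2 : ℝ) := Real.rpow_le_rpow (by positivity) h2 (by norm_num)
    calc (3 + Real.log z) ^ C0 ≤ ((1 + N / b) * U ^ b) ^ C0 :=
          Real.rpow_le_rpow (by linarith) hV3 hC00.le
      _ = (1 + N / b) ^ C0 * U ^ (1 / 2 : ℝ) := by
          rw [Real.mul_rpow (by linarith) (by positivity), ← Real.rpow_mul hU0.le]
          congr 2
          rw [hb]; field_simp
      _ ≤ U ^ (1 / 2 : ℝ) * U ^ (1 / 2 : ℝ) := mul_le_mul_of_nonneg_right hV4 (by positivity)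
      _ = U := by rw [← Real.rpow_add hU0]; norm_num
  -- the three kinds of pairs
  have hsm := h0 ι κ z U Rel F G e e' R R' hz2 hU hcond hcard (fun K Q hK h => hQ z K Q hz2 hK h)
    hF hG hei hej hR hR'
  have hterm : ∀ i ∈ F, ∀ j ∈ G, ind (Rel (rd (e i) (e' j))) *
      min (R i / ((rd (e i) (e' j)).1 : ℕ)) (R' j / ((rd (e i) (e' j)).2 : ℕ)) ≤
      ind (Sm2 z (rd (e i) (e' j)) ∧ Rel (rd (e i) (e' j))) *
        √(R i / ((rd (e i) (e' j)).1 : ℕ) * (R' j / ((rd (e i) (e' j)).2 : ℕ))) +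
      (R' j * (1 / U ^ (A + 1)) + R i * (ind ((∃ b : ℕ, b.Prime ∧ z < b ∧ b ∣ (rd (e i) (e' j)).1) ∧
        (rd (e i) (e' j)).2 ≤ Y) * (1 / ((rd (e i) (e' j)).1 : ℝ)))) := by
    intro i hi j hj
    set t := rd (e i) (e' j) with ht
    have hm := hF i hi
    have hn := hG j hj
    have hg : 0 < (e i).gcd (e' j) := Nat.gcd_pos_of_pos_left _ hm
    have t1 : 0 < t.1 := Nat.div_pos (Nat.le_of_dvd hm (Nat.gcd_dvd_left _ _)) hg
    have t2 : 0 < t.2 := Nat.div_pos (Nat.le_of_dvd hn (Nat.gcd_dvd_right _ _)) hg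
    have t1' : (0 : ℝ) < t.1 := by exact_mod_cast t1
    have t2' : (0 : ℝ) < t.2 := by exact_mod_cast t2
    have ri := hR i hi
    have rj := hR' j hj
    have a1 : 0 ≤ R i / (t.1 : ℝ) := by positivity
    have a2 : 0 ≤ R' j / (t.2 : ℝ) := by positivity
    have a3 : 0 ≤ min (R i / (t.1 : ℝ)) (R' j / (t.2 : ℝ)) := le_min a1 a2
    have a4 : min (R i / (t.1 : ℝ)) (R' j / (t.2 : ℝ)) ≤ √(R i / (t.1 : ℝ) * (R' j / (t.2 : ℝ))) := by
      refine Real.le_sqrt_of_sq_le ?_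
      rw [sq]
      exact mul_le_mul (min_le_left _ _) (min_le_right _ _) a3 a1
    have b1 : 0 ≤ ind (Sm2 z t ∧ Rel t) * √(R i / (t.1 : ℝ) * (R' j / (t.2 : ℝ))) :=
      mul_nonneg (ind_nn _) (Real.sqrt_nonneg _)
    have b2 : 0 ≤ R' j * (1 / U ^ (A + 1)) := by positivity
    have b3 : 0 ≤ R i * (ind ((∃ b : ℕ, b.Prime ∧ z < b ∧ b ∣ t.1) ∧ t.2 ≤ Y) * (1 / (t.1 : ℝ))) :=
      mul_nonneg ri (mul_nonneg (ind_nn _) (by positivity))
    by_cases hr : Rel t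
    · rw [ind_t hr, one_mul]
      by_cases hs : Sm2 z t
      · rw [ind_t (⟨hs, hr⟩ : Sm2 z t ∧ Rel t), one_mul]
        linarith
      · by_cases hy : t.2 ≤ Y
        · have hb : ∃ b : ℕ, b.Prime ∧ z < b ∧ b ∣ t.1 := by
            by_contra hcon
            push Not at hcon
            apply hs
            refine ⟨t1, t2, fun p hp hd => ?_⟩
            rcases (Nat.Prime.dvd_mul hp).1 hd with h | h
            · by_contra hlt
              exact hcon p hp (not_le.1 hlt) h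
            · exact ((Nat.le_of_dvd t2 h).trans hy).trans hzY
          rw [ind_t (⟨hb, hy⟩ : (∃ b : ℕ, b.Prime ∧ z < b ∧ b ∣ t.1) ∧ t.2 ≤ Y), one_mul]
          have : min (R i / (t.1 : ℝ)) (R' j / (t.2 : ℝ)) ≤ R i * (1 / (t.1 : ℝ)) := by
            rw [mul_one_div]; exact min_le_left _ _
          linarith
        · have h1 : U ^ (A + 1) ≤ t.2 := by
            have : (Y : ℝ) ≤ t.2 := by exact_mod_cast (not_le.1 hy).le
            linarith
          have : min (R i / (t.1 : ℝ)) (R' j / (t.2 : ℝ)) ≤ R' j * (1 / U ^ (A + 1)) := by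
            refine (min_le_right _ _).trans ?_
            rw [mul_one_div]
            exact div_le_div_of_nonneg_left rj (by linarith) h1
          linarith
    · rw [ind_f hr, zero_mul]
      linarith
  have hsum := Finset.sum_le_sum fun i hi => Finset.sum_le_sum fun j hj => hterm i hi j hj
  refine hsum.trans ?_
  simp only [Finset.sum_add_distrib]
  -- second part
  have p2 : ∑ i ∈ F, ∑ j ∈ G, R' j * (1 / U ^ (A + 1)) ≤ U ^ (-(1 / 8) : ℝ) * ∑ j ∈ G, R' j := by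
    rw [Finset.sum_const, nsmul_eq_mul, ← Finset.sum_mul]
    have h1 : (F.card : ℝ) * (1 / U ^ (A + 1)) ≤ U ^ (-(1 / 8) : ℝ) := by
      calc (F.card : ℝ) * (1 / U ^ (A + 1)) ≤ U ^ A * (1 / U ^ (A + 1)) :=
            mul_le_mul_of_nonneg_right hcard (by positivity)
        _ = U ^ (-(1 : ℝ)) := by
            rw [one_div, ← Real.rpow_neg hU0.le, ← Real.rpow_add hU0]; congr 1; ring
        _ ≤ U ^ (-(1 / 8) : ℝ) := Real.rpow_le_rpow_of_exponent_le hU (by norm_num)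
    calc (F.card : ℝ) * ((∑ j ∈ G, R' j) * (1 / U ^ (A + 1))) =
          (F.card : ℝ) * (1 / U ^ (A + 1)) * ∑ j ∈ G, R' j := by ring
      _ ≤ _ := mul_le_mul_of_nonneg_right h1 hsR'
  -- third part
  have p3 : ∑ i ∈ F, ∑ j ∈ G, R i * (ind ((∃ b : ℕ, b.Prime ∧ z < b ∧ b ∣ (rd (e i) (e' j)).1) ∧
        (rd (e i) (e' j)).2 ≤ Y) * (1 / ((rd (e i) (e' j)).1 : ℝ))) ≤
      2 * U ^ (-(1 / 8) : ℝ) * ∑ i ∈ F, R i := by
    rw [Finset.mul_sum]
    refine Finset.sum_le_sum fun i hi => ?_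
    rw [← Finset.mul_sum]
    have h1 := row_sum (hF i hi) G e' hej hG (fun d => ∃ b : ℕ, b.Prime ∧ z < b ∧ b ∣ d) Y
    have h2 := htail i hi z hzP
    have hz0 : (0 : ℝ) < z := by exact_mod_cast (by omega : 0 < z)
    have h3 : (z : ℝ) ^ (-(1 / 2) : ℝ) ≤ U ^ (-(A + 3)) := by
      have : U ^ (-(A + 3)) = (U ^ (2 * A + 6)) ^ (-(1 / 2) : ℝ) := by
        rw [← Real.rpow_mul hU0.le]; congr 1; ring
      rw [this]
      exact Real.rpow_le_rpow_of_nonpos (by positivity) hzU (by norm_num)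
    have h4 : (Y : ℝ) * (U * (z : ℝ) ^ (-(1 / 2) : ℝ)) ≤ 2 * U ^ (-(1 / 8) : ℝ) := by
      calc (Y : ℝ) * (U * (z : ℝ) ^ (-(1 / 2) : ℝ)) ≤ (2 * U ^ (A + 1)) * (U * U ^ (-(A + 3))) := by
            gcongr
        _ = 2 * (U ^ (A + 1) * (U ^ (1 : ℝ) * U ^ (-(A + 3)))) := by rw [Real.rpow_one]; ring
        _ = 2 * U ^ (-(1 : ℝ)) := by
            rw [← Real.rpow_add hU0, ← Real.rpow_add hU0]; congr 2; ring
        _ ≤ 2 * U ^ (-(1 / 8) : ℝ) := mul_le_mul_of_nonneg_left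
            (Real.rpow_le_rpow_of_exponent_le hU (by norm_num)) (by norm_num)
    have h5 : ∑ j ∈ G, ind ((∃ b : ℕ, b.Prime ∧ z < b ∧ b ∣ (rd (e i) (e' j)).1) ∧
        (rd (e i) (e' j)).2 ≤ Y) * (1 / ((rd (e i) (e' j)).1 : ℝ)) ≤ 2 * U ^ (-(1 / 8) : ℝ) :=
      (h1.trans (mul_le_mul_of_nonneg_left h2 (Nat.cast_nonneg _))).trans h4
    calc _ ≤ R i * (2 * U ^ (-(1 / 8) : ℝ)) := mul_le_mul_of_nonneg_left h5 (hR i hi)
      _ = _ := by ring
  -- first part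
  have p1 : C0 * U ^ (-(1 / 8) : ℝ) * (√(∑ i ∈ F, R i) * √(∑ j ∈ G, R' j)) ≤
      C0 * U ^ (-(1 / 8) : ℝ) * (∑ i ∈ F, R i + ∑ j ∈ G, R' j) := by
    refine mul_le_mul_of_nonneg_left ?_ (by positivity)
    have h1 := Real.sq_sqrt hsR
    have h2 := Real.sq_sqrt hsR'
    nlinarith [sq_nonneg (√(∑ i ∈ F, R i) - √(∑ j ∈ G, R' j))]
  have hk : 0 < U ^ (-(1 / 8) : ℝ) := Real.rpow_pos_of_pos hU0 _
  calc _ ≤ C0 * U ^ (-(1 / 8) : ℝ) * (∑ i ∈ F, R i + ∑ j ∈ G, R' j) +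
        (U ^ (-(1 / 8) : ℝ) * ∑ j ∈ G, R' j + 2 * U ^ (-(1 / 8) : ℝ) * ∑ i ∈ F, R i) :=
        add_le_add (hsm.trans p1) (add_le_add p2 p3)
    _ ≤ (C0 + 2) * U ^ (-(1 / 8) : ℝ) * (∑ i ∈ F, R i + ∑ j ∈ G, R' j) := by
        have t1 := mul_nonneg hk.le hsR
        have t2 := mul_nonneg hk.le hsR'
        nlinarith

open Classical in
/-- **one class of denominator `k` in one node** : `D ≠ D'`, `D ≡ D' mod k` -/
theorem cong_min {A : ℝ} (hA : 0 ≤ A) : ∃ Ce : ℝ, 1 ≤ Ce ∧ ∃ C : ℝ, 1 ≤ C ∧ ∀ (ι κ : Type)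
    (P k : ℕ) (F : Finset ι) (G : Finset κ) (e : ι → ℕ) (e' : κ → ℕ)
    (R : ι → ℝ) (R' : κ → ℝ), 2 ≤ P → 0 < k → (3 + Real.log P) ^ Ce ≤ k → (F.card : ℝ) ≤ (k : ℝ) ^ A →
    (∀ i ∈ F, 0 < e i) → (∀ j ∈ G, 0 < e' j) → (∀ i ∈ F, ∀ j ∈ F, e i = e j → i = j) →
    (∀ i ∈ G, ∀ j ∈ G, e' i = e' j → i = j) → (∀ i ∈ F, 0 ≤ R i) → (∀ j ∈ G, 0 ≤ R' j) →
    (∀ i ∈ F, ∀ z : ℕ, P ≤ z →
      ∑ d ∈ (e i).divisors.filter (fun d => ∃ b : ℕ, b.Prime ∧ z < b ∧ b ∣ d), (1 : ℝ) / d ≤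
        k * (z : ℝ) ^ (-(1 / 2) : ℝ)) →
    ∑ i ∈ F, ∑ j ∈ G, ind ((rd (e i) (e' j)).1 ≠ (rd (e i) (e' j)).2 ∧
        (rd (e i) (e' j)).1 ≡ (rd (e i) (e' j)).2 [MOD k]) *
      min (R i / ((rd (e i) (e' j)).1 : ℕ)) (R' j / ((rd (e i) (e' j)).2 : ℕ)) ≤
      C * (k : ℝ) ^ (-(1 / 8) : ℝ) * (∑ i ∈ F, R i + ∑ j ∈ G, R' j) := by
  obtain ⟨Ce, hCe, C, hC, h⟩ := late_min hA
  refine ⟨Ce, hCe, C, hC, ?_⟩
  intro ι κ P k F G e e' R R' hP hk hPk hcard hF hG hei hej hR hR' htail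
  exact h ι κ P k (fun t => t.1 ≠ t.2 ∧ t.1 ≡ t.2 [MOD k]) F G e e' R R' hP hPk hcard
    (fun z K Q hz hK hQ => cong_pairs hK hz hk Q fun t ht => ⟨(hQ t ht).1, (hQ t ht).2.2⟩)
    hF hG hei hej hR hR' htail

open Classical in
/-- **labels `ρ`, `ρ'`** (denominators `≥ U`), one cofactor `≥ U` -/
theorem co_min {A : ℝ} (hA : 0 ≤ A) : ∃ Ce : ℝ, 1 ≤ Ce ∧ ∃ C : ℝ, 1 ≤ C ∧ ∀ (ι κ : Type) (P : ℕ)
    (U : ℝ) (ρ ρ' : ℚ) (F : Finset ι) (G : Finset κ) (e : ι → ℕ) (e' : κ → ℕ)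
    (R : ι → ℝ) (R' : κ → ℝ), 2 ≤ P → (3 + Real.log P) ^ Ce ≤ U → (F.card : ℝ) ≤ U ^ A →
    U ≤ ρ.den → U ≤ ρ'.den →
    (∀ i ∈ F, 0 < e i) → (∀ j ∈ G, 0 < e' j) → (∀ i ∈ F, ∀ j ∈ F, e i = e j → i = j) →
    (∀ i ∈ G, ∀ j ∈ G, e' i = e' j → i = j) → (∀ i ∈ F, 0 ≤ R i) → (∀ j ∈ G, 0 ≤ R' j) →
    (∀ i ∈ F, ∀ z : ℕ, P ≤ z →
      ∑ d ∈ (e i).divisors.filter (fun d => ∃ b : ℕ, b.Prime ∧ z < b ∧ b ∣ d), (1 : ℝ) / d ≤
        U * (z : ℝ) ^ (-(1 / 2) : ℝ)) →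
    ∑ i ∈ F, ∑ j ∈ G, ind ((U ≤ (rd (e i) (e' j)).1 ∨ U ≤ (rd (e i) (e' j)).2) ∧
        ShR18.Co (((rd (e i) (e' j)).2 : ℕ) * ρ) (((rd (e i) (e' j)).1 : ℕ) * ρ')) *
      min (R i / ((rd (e i) (e' j)).1 : ℕ)) (R' j / ((rd (e i) (e' j)).2 : ℕ)) ≤
      C * U ^ (-(1 / 8) : ℝ) * (∑ i ∈ F, R i + ∑ j ∈ G, R' j) := by
  obtain ⟨Ce, hCe, C, hC, h⟩ := late_min hA
  refine ⟨Ce, hCe, C, hC, ?_⟩
  intro ι κ P U ρ ρ' F G e e' R R' hP hPU hcard hρ hρ' hF hG hei hej hR hR' htail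
  have hlP : 0 ≤ Real.log P := Real.log_natCast_nonneg P
  have hU : 1 ≤ U := (Real.one_le_rpow (by linarith) (by linarith)).trans hPU
  exact h ι κ P U (fun t => (U ≤ t.1 ∨ U ≤ t.2) ∧ ShR18.Co ((t.2 : ℕ) * ρ) ((t.1 : ℕ) * ρ'))
    F G e e' R R' hP hPU hcard
    (fun z K Q hz hK hQ => co_pairs hK hz hU hρ hρ' Q fun t ht => ⟨(hQ t ht).1, (hQ t ht).2.2⟩)
    hF hG hei hej hR hR' htail

open Classical in
/-- **divisors with a large prime** : the large primes of `m` are in `T` -/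
theorem div_tail {m : ℕ} (hm : 0 < m) {z : ℕ} {T : Finset ℕ}
    (hT : ∀ b : ℕ, b.Prime → z < b → b ∣ m → b ∈ T) {L ε : ℝ}
    (hL : ∑ d ∈ m.divisors, (1 : ℝ) / d ≤ L) (hε : ∑ b ∈ T.filter (fun b => z < b), (1 : ℝ) / b ≤ ε) :
    ∑ d ∈ m.divisors.filter (fun d => ∃ b : ℕ, b.Prime ∧ z < b ∧ b ∣ d), (1 : ℝ) / d ≤ L * ε := by
  have hL0 : 0 ≤ L := le_trans (Finset.sum_nonneg fun d _ => by positivity) hL
  have h1 : ∑ d ∈ m.divisors.filter (fun d => ∃ b : ℕ, b.Prime ∧ z < b ∧ b ∣ d), (1 : ℝ) / d ≤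
      ∑ d ∈ m.divisors, ∑ b ∈ T.filter (fun b => z < b), if b ∣ d then (1 : ℝ) / d else 0 := by
    rw [Finset.sum_filter]
    refine Finset.sum_le_sum fun d hd => ?_
    have hnn : ∀ b ∈ T.filter (fun b => z < b), 0 ≤ (if b ∣ d then (1 : ℝ) / d else 0) := by
      intro b _
      split_ifs <;> positivity
    split_ifs with h
    · obtain ⟨b, hb, hzb, hbd⟩ := h
      have hbT : b ∈ T.filter (fun b => z < b) := Finset.mem_filter.2 ⟨hT b hb hzb
        (hbd.trans (Nat.dvd_of_mem_divisors hd)), hzb⟩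
      calc (1 : ℝ) / d = if b ∣ d then (1 : ℝ) / d else 0 := by rw [if_pos hbd]
        _ ≤ _ := Finset.single_le_sum (f := fun b => if b ∣ d then (1 : ℝ) / (d : ℝ) else 0) hnn hbT
    · exact Finset.sum_nonneg hnn
  refine h1.trans ?_
  rw [Finset.sum_comm]
  have h2 : ∀ b ∈ T.filter (fun b => z < b),
      ∑ d ∈ m.divisors, (if b ∣ d then (1 : ℝ) / d else 0) ≤ L * (1 / b) := by
    intro b hb
    rw [← Finset.sum_filter]
    have hb0 : 0 < b := by have := (Finset.mem_filter.1 hb).2; omega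
    have hb0' : (0 : ℝ) < b := by exact_mod_cast hb0
    have hinj : Set.InjOn (fun d => d / b) ((m.divisors.filter (fun d => b ∣ d) : Finset ℕ) : Set ℕ) := by
      intro x hx y hy h
      have h3 := (Finset.mem_filter.1 (Finset.mem_coe.1 hx)).2
      have h4 := (Finset.mem_filter.1 (Finset.mem_coe.1 hy)).2
      rw [← Nat.div_mul_cancel h3, ← Nat.div_mul_cancel h4]
      exact congrArg (· * b) h
    calc ∑ d ∈ m.divisors.filter (fun d => b ∣ d), (1 : ℝ) / d =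
          ∑ d ∈ m.divisors.filter (fun d => b ∣ d), 1 / (b : ℝ) * (1 / ((d / b : ℕ) : ℝ)) := by
          refine Finset.sum_congr rfl fun d hd => ?_
          have h3 := (Finset.mem_filter.1 hd).2
          have e : (d : ℝ) = (b : ℝ) * ((d / b : ℕ) : ℝ) := by
            exact_mod_cast (Nat.mul_div_cancel' h3).symm
          conv_lhs => rw [e]
          rw [one_div_mul_one_div]
      _ = 1 / (b : ℝ) * ∑ d ∈ (m.divisors.filter (fun d => b ∣ d)).image (fun d => d / b),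
          (1 : ℝ) / d := by
          rw [← Finset.mul_sum, Finset.sum_image (f := fun n : ℕ => (1 : ℝ) / (n : ℝ)) hinj]
      _ ≤ 1 / (b : ℝ) * ∑ d ∈ m.divisors, (1 : ℝ) / d := by
          refine mul_le_mul_of_nonneg_left ?_ (by positivity)
          refine Finset.sum_le_sum_of_subset_of_nonneg (fun d hd => ?_) fun d _ _ => by positivity
          obtain ⟨x, hx, rfl⟩ := Finset.mem_image.1 hd
          obtain ⟨hx1, hx2⟩ := Finset.mem_filter.1 hx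
          exact Nat.mem_divisors.2 ⟨(Nat.div_dvd_of_dvd hx2).trans (Nat.dvd_of_mem_divisors hx1),
            hm.ne'⟩
      _ ≤ 1 / (b : ℝ) * L := mul_le_mul_of_nonneg_left hL (by positivity)
      _ = L * (1 / b) := mul_comm _ _
  refine (Finset.sum_le_sum h2).trans ?_
  rw [← Finset.mul_sum]
  exact mul_le_mul_of_nonneg_left hε hL0

end Crest.Agent.R4P.GcdT37
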