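import Crest.Agent.R4P.GcdU_37
import Crest.Agent.R4P.RtE_28

/-!
R4 (S0004) with powers, helper37: **late pairs, many labels on both sides, one statement** (number level).

* `rat_unique` : two labels `r, r'` allow at most one primitive ratio with entries `< U`, `U² ≤ max den`;
* `one_lab` : two families, one pair of labels: exact centres, one cofactor `≥ Z`, one side late:
  `≤ C (1 / Z + K^(-1/64)) (∑ R + ∑ R')`, `K = KK r r'` the larger denominator (no condition on the ratio of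
  the denominators: `co_pairs` or `diff_pairs`); no smoothness, no counting of the late side's partner;
* `La`, `Lb` : labels of the partners; `rt Z r r' = 1 / Z r r' + K^(-1/64)`; `sum_lab`; **`lab_min`** :
  `≤ C (∑_i (∑_{r ∈ La i} rt Z (ρ i) r) R_i + the same on the other side)`.
-/

set_option autoImplicit false
set_option linter.unusedSectionVars false
set_option linter.unusedVariables false

open MeasureTheory Filter

namespace Crest.Agent.R4P.GcdV37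

open Crest.Agent.R4.HVW560 Crest.Agent.R4.Smo944 Crest.Agent.R016
open Crest.Agent.R4P.ShR18 (Co)
open Crest.Agent.R4P.GcdK37 (ind ind_t ind_f ind_nn ind_le)
open Crest.Agent.R4P.GcdS37 (rd Sm2 Ez Ez_pos co_pairs)
open Crest.Agent.R4P.GcdT37 (rd_inj)
open Crest.Agent.R4P.GcdU37 (Tl late2M)
open Crest.Agent.R4P.AcG41 (Fam)
open Crest.Agent.R4P.RtE28 (KK KK_one diff_pairs)

/-! ### labels of numbers -/

/-- **at most one primitive ratio with small entries** -/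
lemma rat_unique {r r' : ℚ} {U : ℝ} (hU : U * U ≤ KK r r') {z z' : ℕ × ℕ} (hz : z.1.Coprime z.2)
    (hz' : z'.1.Coprime z'.2) (p1 : 0 < z.1) (p2 : 0 < z.2) (p3 : 0 < z'.1) (p4 : 0 < z'.2)
    (h1 : (z.1 : ℝ) < U) (h2 : (z.2 : ℝ) < U) (h3 : (z'.1 : ℝ) < U)
    (h4 : (z'.2 : ℝ) < U) (c : Co ((z.2 : ℕ) * r) ((z.1 : ℕ) * r'))
    (c' : Co ((z'.2 : ℕ) * r) ((z'.1 : ℕ) * r')) : z = z' := by
  have key : z'.1 * z.2 = z.1 * z'.2 := by
    unfold KK at hU
    rcases le_max_iff.1 hU with h | h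
    · exact ShR18.uniq h h2.le h1.le h4.le h3.le p2 p1 p4 p3 c c'
    · have := ShR18.uniq h h1.le h2.le h3.le h4.le p1 p2 p3 p4 c.symm c'.symm
      rw [mul_comm z'.1, mul_comm z.1]; exact this.symm
  have a1 : z.1 ∣ z'.1 := hz.dvd_of_dvd_mul_right (Dvd.intro _ key.symm)
  have a2 : z'.1 ∣ z.1 := hz'.dvd_of_dvd_mul_right (Dvd.intro _ key)
  have a3 : z.1 = z'.1 := Nat.dvd_antisymm a1 a2
  refine Prod.ext a3 ?_
  rw [a3] at key
  exact Nat.eq_of_mul_eq_mul_left p3 key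

section
variable {ι κ : Type}

open Classical in
/-- labels of the partners of `i` -/
noncomputable def La (ρ' : κ → ℚ) (E : Finset (ι × κ)) (i : ι) : Finset ℚ :=
  (E.filter fun x => x.1 = i).image fun x => ρ' x.2

open Classical in
/-- labels of the partners of `j` -/
noncomputable def Lb (ρ : ι → ℚ) (E : Finset (ι × κ)) (j : κ) : Finset ℚ :=
  (E.filter fun x => x.2 = j).image fun x => ρ x.1

/-- rate of a pair of labels -/
noncomputable def rt (Z : ℚ → ℚ → ℝ) (r r' : ℚ) : ℝ := 1 / Z r r' + KK r r' ^ (-(1 / 64) : ℝ)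

open Classical in
/-- **the sum over the pairs of labels** -/
lemma sum_lab {F : Finset ι} {G : Finset κ} {R : ι → ℝ} {R' : κ → ℝ} {ρ : ι → ℚ} {ρ' : κ → ℚ}
    {E : Finset (ι × κ)} (hE : E ⊆ F ×ˢ G) (hR : ∀ i ∈ F, 0 ≤ R i) (hR' : ∀ j ∈ G, 0 ≤ R' j)
    {f : ι × κ → ℝ} {c : ℚ → ℚ → ℝ} (hc : ∀ x ∈ E, 0 ≤ c (ρ x.1) (ρ' x.2))
    (hf : ∀ r r' : ℚ, (∃ x ∈ E, ρ x.1 = r ∧ ρ' x.2 = r') →
      ∑ x ∈ E.filter (fun x => ρ x.1 = r ∧ ρ' x.2 = r'), f x ≤
      c r r' * (∑ i ∈ (E.filter (fun x => ρ x.1 = r ∧ ρ' x.2 = r')).image Prod.fst, R i +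
        ∑ j ∈ (E.filter (fun x => ρ x.1 = r ∧ ρ' x.2 = r')).image Prod.snd, R' j)) :
    ∑ x ∈ E, f x ≤ ∑ i ∈ F, (∑ r ∈ La ρ' E i, c (ρ i) r) * R i +
      ∑ j ∈ G, (∑ r ∈ Lb ρ E j, c r (ρ' j)) * R' j := by
  set lab : ι × κ → ℚ × ℚ := fun x => (ρ x.1, ρ' x.2) with hlab
  set Λ := E.image lab with hΛ
  set El : ℚ × ℚ → Finset (ι × κ) := fun l => E.filter (fun x => ρ x.1 = l.1 ∧ ρ' x.2 = l.2) with hEl
  have e0 : ∀ l, E.filter (fun x => lab x = l) = El l := by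
    intro l
    simp only [hEl, hlab]
    refine Finset.filter_congr fun x _ => ?_
    exact Prod.ext_iff
  have h1 : ∑ x ∈ E, f x ≤ ∑ l ∈ Λ, c l.1 l.2 * (∑ i ∈ (El l).image Prod.fst, R i +
      ∑ j ∈ (El l).image Prod.snd, R' j) := by
    rw [← Finset.sum_fiberwise_of_maps_to (s := E) (t := Λ) (g := lab)
      (fun x hx => Finset.mem_image_of_mem _ hx) f]
    refine Finset.sum_le_sum fun l hl => ?_
    rw [e0]
    obtain ⟨x, hx, rfl⟩ := Finset.mem_image.1 hl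
    exact hf _ _ ⟨x, hx, rfl, rfl⟩
  have hc' : ∀ l ∈ Λ, 0 ≤ c l.1 l.2 := by
    intro l hl
    obtain ⟨x, hx, rfl⟩ := Finset.mem_image.1 hl
    exact hc x hx
  have h2 : ∑ l ∈ Λ, c l.1 l.2 * ∑ i ∈ (El l).image Prod.fst, R i ≤
      ∑ i ∈ F, (∑ r ∈ La ρ' E i, c (ρ i) r) * R i := by
    have a1 : ∀ l ∈ Λ, c l.1 l.2 * ∑ i ∈ (El l).image Prod.fst, R i =
        ∑ i ∈ F, if i ∈ (El l).image Prod.fst then c l.1 l.2 * R i else 0 := by
      intro l hl
      rw [Finset.mul_sum, ← Finset.sum_filter]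
      refine Finset.sum_congr ?_ fun _ _ => rfl
      ext i
      rw [Finset.mem_filter]
      refine ⟨fun h => ⟨?_, h⟩, fun h => h.2⟩
      obtain ⟨x, hx, rfl⟩ := Finset.mem_image.1 h
      exact (Finset.mem_product.1 (hE (Finset.mem_filter.1 hx).1)).1
    rw [Finset.sum_congr rfl a1, Finset.sum_comm]
    refine Finset.sum_le_sum fun i hi => ?_
    rw [← Finset.sum_filter, Finset.sum_mul]
    set Λi := Λ.filter (fun l => i ∈ (El l).image Prod.fst) with hΛi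
    have a2 : ∀ l ∈ Λi, l.1 = ρ i ∧ l.2 ∈ La ρ' E i := by
      intro l hl
      obtain ⟨h3, h4⟩ := Finset.mem_filter.1 hl
      obtain ⟨x, hx, hxi⟩ := Finset.mem_image.1 h4
      obtain ⟨h5, h6, h7⟩ := Finset.mem_filter.1 hx
      refine ⟨by rw [← h6, ← hxi], ?_⟩
      rw [← h7]
      exact Finset.mem_image_of_mem (f := fun x : ι × κ => ρ' x.2) (Finset.mem_filter.2 ⟨h5, hxi⟩)
    have a3 : ∑ l ∈ Λi, c l.1 l.2 * R i = ∑ r ∈ Λi.image Prod.snd, c (ρ i) r * R i := by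
      rw [Finset.sum_image]
      · refine Finset.sum_congr rfl fun l hl => ?_
        rw [(a2 l hl).1]
      · intro l hl l' hl' he
        exact Prod.ext ((a2 l hl).1.trans (a2 l' hl').1.symm) he
    rw [a3]
    refine Finset.sum_le_sum_of_subset_of_nonneg ?_ ?_
    · intro r hr
      obtain ⟨l, hl, rfl⟩ := Finset.mem_image.1 hr
      exact (a2 l hl).2
    · intro r hr _
      obtain ⟨x, hx, rfl⟩ := Finset.mem_image.1 hr
      obtain ⟨h5, h6⟩ := Finset.mem_filter.1 hx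
      have := hc x h5
      rw [h6] at this
      exact mul_nonneg this (hR i hi)
  have h3 : ∑ l ∈ Λ, c l.1 l.2 * ∑ j ∈ (El l).image Prod.snd, R' j ≤
      ∑ j ∈ G, (∑ r ∈ Lb ρ E j, c r (ρ' j)) * R' j := by
    have a1 : ∀ l ∈ Λ, c l.1 l.2 * ∑ i ∈ (El l).image Prod.snd, R' i =
        ∑ i ∈ G, if i ∈ (El l).image Prod.snd then c l.1 l.2 * R' i else 0 := by
      intro l hl
      rw [Finset.mul_sum, ← Finset.sum_filter]
      refine Finset.sum_congr ?_ fun _ _ => rfl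
      ext i
      rw [Finset.mem_filter]
      refine ⟨fun h => ⟨?_, h⟩, fun h => h.2⟩
      obtain ⟨x, hx, rfl⟩ := Finset.mem_image.1 h
      exact (Finset.mem_product.1 (hE (Finset.mem_filter.1 hx).1)).2
    rw [Finset.sum_congr rfl a1, Finset.sum_comm]
    refine Finset.sum_le_sum fun i hi => ?_
    rw [← Finset.sum_filter, Finset.sum_mul]
    set Λi := Λ.filter (fun l => i ∈ (El l).image Prod.snd) with hΛi
    have a2 : ∀ l ∈ Λi, l.2 = ρ' i ∧ l.1 ∈ Lb ρ E i := by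
      intro l hl
      obtain ⟨h3, h4⟩ := Finset.mem_filter.1 hl
      obtain ⟨x, hx, hxi⟩ := Finset.mem_image.1 h4
      obtain ⟨h5, h6, h7⟩ := Finset.mem_filter.1 hx
      refine ⟨by rw [← h7, ← hxi], ?_⟩
      rw [← h6]
      exact Finset.mem_image_of_mem (f := fun x : ι × κ => ρ x.1) (Finset.mem_filter.2 ⟨h5, hxi⟩)
    have a3 : ∑ l ∈ Λi, c l.1 l.2 * R' i = ∑ r ∈ Λi.image Prod.fst, c r (ρ' i) * R' i := by
      rw [Finset.sum_image]
      · refine Finset.sum_congr rfl fun l hl => ?_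
        rw [(a2 l hl).1]
      · intro l hl l' hl' he
        exact Prod.ext he ((a2 l hl).1.trans (a2 l' hl').1.symm)
    rw [a3]
    refine Finset.sum_le_sum_of_subset_of_nonneg ?_ ?_
    · intro r hr
      obtain ⟨l, hl, rfl⟩ := Finset.mem_image.1 hr
      exact (a2 l hl).2
    · intro r hr _
      obtain ⟨x, hx, rfl⟩ := Finset.mem_image.1 hr
      obtain ⟨h5, h6⟩ := Finset.mem_filter.1 hx
      have := hc x h5
      rw [h6] at this
      exact mul_nonneg this (hR' i hi)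
  refine h1.trans ?_
  have e1 : ∑ l ∈ Λ, c l.1 l.2 * (∑ i ∈ (El l).image Prod.fst, R i +
      ∑ j ∈ (El l).image Prod.snd, R' j) = ∑ l ∈ Λ, c l.1 l.2 * ∑ i ∈ (El l).image Prod.fst, R i +
      ∑ l ∈ Λ, c l.1 l.2 * ∑ j ∈ (El l).image Prod.snd, R' j := by
    rw [← Finset.sum_add_distrib]
    exact Finset.sum_congr rfl fun l _ => mul_add _ _ _
  rw [e1]
  exact add_le_add h2 h3

end

section
variable {ι κ : Type}

open Classical in
/-- **one pair of labels** -/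
theorem one_lab {A : ℝ} (hA : 0 ≤ A) : ∃ Ce : ℝ, 1 ≤ Ce ∧ ∃ C : ℝ, 1 ≤ C ∧ ∀ (ι κ : Type) (P : ℕ)
    (F : Finset ι) (G : Finset κ) (e : ι → ℕ) (e' : κ → ℕ) (R : ι → ℝ) (R' : κ → ℝ) (r r' : ℚ) (Z : ℝ)
    (E : Finset (ι × κ)), 2 ≤ P → Fam F G e e' R R' → E ⊆ F ×ˢ G →
    (∀ x ∈ E, Co (((rd (e x.1) (e' x.2)).2 : ℕ) * r) (((rd (e x.1) (e' x.2)).1 : ℕ) * r')) →
    0 < Z → (∀ x ∈ E, Z ≤ (rd (e x.1) (e' x.2)).1 ∨ Z ≤ (rd (e x.1) (e' x.2)).2) →
    (3 + Real.log P) ^ Ce ≤ KK r r' →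
    (∀ x ∈ E, 1 ≤ KK r r' ^ A * R x.1 ∨ 1 ≤ KK r r' ^ A * R' x.2) →
    Tl P ((3 + Real.log P) ^ A) F e → Tl P ((3 + Real.log P) ^ A) G e' →
    ∑ i ∈ F, R i ≤ (3 + Real.log P) ^ A → ∑ j ∈ G, R' j ≤ (3 + Real.log P) ^ A →
    ∑ x ∈ E, min (R x.1 / ((rd (e x.1) (e' x.2)).1 : ℕ)) (R' x.2 / ((rd (e x.1) (e' x.2)).2 : ℕ)) ≤
      C * (1 / Z + KK r r' ^ (-(1 / 64) : ℝ)) *
        (∑ i ∈ E.image Prod.fst, R i + ∑ j ∈ E.image Prod.snd, R' j) := by
  obtain ⟨Ce0, hCe0, C0, hC0, late⟩ := late2M (A := 8 * (A + 1)) (M := 1 / 8) (by positivity) (by norm_num)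
  refine ⟨8 * Ce0 + 8 * A + 1, by linarith, 2 * (C0 + 2) + 1, by linarith, ?_⟩
  intro ι κ P F G e e' R R' r r' Z E hP hf hE hco hZ hZE hK hlate tF tG mF mG
  have hlP : 0 ≤ Real.log (P : ℝ) := Real.log_natCast_nonneg P
  have hw1 : 1 ≤ 3 + Real.log (P : ℝ) := by linarith
  have hw0 : 0 < 3 + Real.log (P : ℝ) := by linarith
  set K := KK r r' with hKd
  have hK1 : 1 ≤ K := KK_one r r'
  have hK0 : 0 < K := by linarith
  set U : ℝ := K ^ (1 / 8 : ℝ) with hU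
  have hU1 : 1 ≤ U := Real.one_le_rpow hK1 (by norm_num)
  have hU0 : 0 < U := by linarith
  have hUK : U * U ≤ K := by
    rw [hU, ← Real.rpow_add hK0]
    calc K ^ (1 / 8 + 1 / 8 : ℝ) ≤ K ^ (1 : ℝ) := Real.rpow_le_rpow_of_exponent_le hK1 (by norm_num)
      _ = K := Real.rpow_one K
  have hUle : ∀ {c : ℝ}, 8 * c ≤ 8 * Ce0 + 8 * A + 1 → (3 + Real.log (P : ℝ)) ^ c ≤ U := by
    intro c hc
    have h2 : ((3 + Real.log (P : ℝ)) ^ (8 * c)) ^ (1 / 8 : ℝ) ≤ U :=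
      Real.rpow_le_rpow (by positivity)
        ((Real.rpow_le_rpow_of_exponent_le hw1 hc).trans hK) (by norm_num)
    rw [← Real.rpow_mul hw0.le] at h2
    have e1 : 8 * c * (1 / 8) = c := by ring
    rwa [e1] at h2
  have hUCe : (3 + Real.log P) ^ Ce0 ≤ U := hUle (by linarith)
  have hUA : (3 + Real.log P) ^ A ≤ U := hUle (by linarith)
  have hKA : (3 + Real.log P) ^ A ≤ K :=
    (Real.rpow_le_rpow_of_exponent_le hw1 (by linarith)).trans hK
  set E1 := E.image Prod.fst with hE1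
  set E2 := E.image Prod.snd with hE2
  have s1 : E1 ⊆ F := by
    intro i hi
    obtain ⟨x, hx, rfl⟩ := Finset.mem_image.1 hi
    exact (Finset.mem_product.1 (hE hx)).1
  have s2 : E2 ⊆ G := by
    intro i hi
    obtain ⟨x, hx, rfl⟩ := Finset.mem_image.1 hi
    exact (Finset.mem_product.1 (hE hx)).2
  have hR : ∀ i ∈ E1, 0 ≤ R i := fun i hi => hf.rF i (s1 hi)
  have hR' : ∀ j ∈ E2, 0 ≤ R' j := fun j hj => hf.rG j (s2 hj)
  set SR := ∑ i ∈ E1, R i with hSR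
  set SR' := ∑ j ∈ E2, R' j with hSR'
  have hSR0 : 0 ≤ SR := Finset.sum_nonneg hR
  have hSR'0 : 0 ≤ SR' := Finset.sum_nonneg hR'
  set t : ι × κ → ℕ × ℕ := fun x => rd (e x.1) (e' x.2) with ht
  set mn : ι × κ → ℝ := fun x => min (R x.1 / ((t x).1 : ℕ)) (R' x.2 / ((t x).2 : ℕ)) with hmn
  have hpos : ∀ x ∈ E, 0 < (t x).1 ∧ 0 < (t x).2 ∧ (t x).1.Coprime (t x).2 := by
    intro x hx
    obtain ⟨a, b⟩ := Finset.mem_product.1 (hE hx)
    have hm := hf.pF _ a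
    have hn := hf.pG _ b
    have hg : 0 < (e x.1).gcd (e' x.2) := Nat.gcd_pos_of_pos_left _ hm
    exact ⟨Nat.div_pos (Nat.le_of_dvd hm (Nat.gcd_dvd_left _ _)) hg,
      Nat.div_pos (Nat.le_of_dvd hn (Nat.gcd_dvd_right _ _)) hg, Nat.coprime_div_gcd_div_gcd hg⟩
  have hRx : ∀ x ∈ E, 0 ≤ R x.1 ∧ 0 ≤ R' x.2 := fun x hx =>
    ⟨hR _ (Finset.mem_image_of_mem _ hx), hR' _ (Finset.mem_image_of_mem _ hx)⟩
  have hmn0 : ∀ x ∈ E, 0 ≤ mn x := fun x hx =>
    le_min (div_nonneg (hRx x hx).1 (Nat.cast_nonneg _)) (div_nonneg (hRx x hx).2 (Nat.cast_nonneg _))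
  -- the small pairs
  set Es := E.filter (fun x => ((t x).1 : ℝ) < U ∧ ((t x).2 : ℝ) < U) with hEs
  have hsm : ∑ x ∈ Es, mn x ≤ 1 / Z * (SR + SR') := by
    have uni : ∀ x ∈ Es, ∀ x' ∈ Es, t x = t x' := by
      intro x hx x' hx'
      obtain ⟨a1, a2, a3⟩ := Finset.mem_filter.1 hx
      obtain ⟨b1, b2, b3⟩ := Finset.mem_filter.1 hx'
      obtain ⟨c1, c2, c3⟩ := hpos x a1
      obtain ⟨d1, d2, d3⟩ := hpos x' b1
      exact rat_unique hUK c3 d3 c1 c2 d1 d2 a2 a3 b2 b3 (hco x a1) (hco x' b1)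
    have inj1 : ∀ x ∈ Es, ∀ x' ∈ Es, x.1 = x'.1 → x = x' := by
      intro x hx x' hx' h
      have a1 := (Finset.mem_filter.1 hx).1
      have b1 := (Finset.mem_filter.1 hx').1
      refine Prod.ext h ?_
      have u := uni x hx x' hx'
      simp only [ht] at u
      rw [← h] at u
      exact hf.iG _ (s2 (Finset.mem_image_of_mem _ a1)) _ (s2 (Finset.mem_image_of_mem _ b1))
        (rd_inj (hf.pF _ (s1 (Finset.mem_image_of_mem _ a1))) u)
    have inj2 : ∀ x ∈ Es, ∀ x' ∈ Es, x.2 = x'.2 → x = x' := by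
      intro x hx x' hx' h
      have a1 := (Finset.mem_filter.1 hx).1
      have b1 := (Finset.mem_filter.1 hx').1
      refine Prod.ext ?_ h
      have u := uni x hx x' hx'
      simp only [ht] at u
      rw [← h] at u
      have u' : rd (e' x.2) (e x.1) = rd (e' x.2) (e x'.1) := by
        rw [GcdU37.rd_swap, GcdU37.rd_swap (e x'.1), u]
      exact hf.iF _ (s1 (Finset.mem_image_of_mem _ a1)) _ (s1 (Finset.mem_image_of_mem _ b1))
        (rd_inj (hf.pG _ (s2 (Finset.mem_image_of_mem _ a1))) u')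
    have b1 : ∑ x ∈ Es, R x.1 ≤ SR := by
      have : ∑ x ∈ Es, R x.1 = ∑ i ∈ Es.image Prod.fst, R i := by
        rw [Finset.sum_image]
        intro x hx x' hx' h
        exact inj1 x hx x' hx' h
      rw [this]
      exact Finset.sum_le_sum_of_subset_of_nonneg
        (Finset.image_subset_image (Finset.filter_subset _ _)) fun i hi _ => hR i hi
    have b2 : ∑ x ∈ Es, R' x.2 ≤ SR' := by
      have : ∑ x ∈ Es, R' x.2 = ∑ i ∈ Es.image Prod.snd, R' i := by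
        rw [Finset.sum_image]
        intro x hx x' hx' h
        exact inj2 x hx x' hx' h
      rw [this]
      exact Finset.sum_le_sum_of_subset_of_nonneg
        (Finset.image_subset_image (Finset.filter_subset _ _)) fun i hi _ => hR' i hi
    have b3 : ∀ x ∈ Es, mn x ≤ 1 / Z * (R x.1 + R' x.2) := by
      intro x hx
      have hxE := (Finset.mem_filter.1 hx).1
      obtain ⟨r1, r2⟩ := hRx x hxE
      obtain ⟨c1, c2, -⟩ := hpos x hxE
      have hZ1 : 0 < 1 / Z := by positivity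
      rcases hZE x hxE with h | h
      · calc mn x ≤ R x.1 / ((t x).1 : ℕ) := min_le_left _ _
          _ ≤ R x.1 / Z := div_le_div_of_nonneg_left r1 hZ h
          _ = 1 / Z * R x.1 := by ring
          _ ≤ _ := mul_le_mul_of_nonneg_left (by linarith) hZ1.le
      · calc mn x ≤ R' x.2 / ((t x).2 : ℕ) := min_le_right _ _
          _ ≤ R' x.2 / Z := div_le_div_of_nonneg_left r2 hZ h
          _ = 1 / Z * R' x.2 := by ring
          _ ≤ _ := mul_le_mul_of_nonneg_left (by linarith) hZ1.le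
    calc ∑ x ∈ Es, mn x ≤ ∑ x ∈ Es, 1 / Z * (R x.1 + R' x.2) := Finset.sum_le_sum b3
      _ = 1 / Z * (∑ x ∈ Es, R x.1 + ∑ x ∈ Es, R' x.2) := by
          rw [← Finset.mul_sum, Finset.sum_add_distrib]
      _ ≤ _ := mul_le_mul_of_nonneg_left (add_le_add b1 b2) (by positivity)
  -- the big pairs
  set Eb := E.filter (fun x => ¬ (((t x).1 : ℝ) < U ∧ ((t x).2 : ℝ) < U)) with hEb
  set Rel : ℕ × ℕ → Prop := fun z => (U ≤ z.1 ∨ U ≤ z.2) ∧ Co ((z.2 : ℕ) * r) ((z.1 : ℕ) * r') with hRel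
  have hrel : ∀ x ∈ Eb, Rel (t x) := by
    intro x hx
    obtain ⟨a1, a2⟩ := Finset.mem_filter.1 hx
    refine ⟨?_, hco x a1⟩
    by_contra hc
    push Not at hc
    exact a2 hc
  have hwn : ∀ (z : ℕ) (K' : ℝ) (Q : Finset (ℕ × ℕ)), 2 ≤ z → 0 ≤ K' →
      (∀ t ∈ Q, Sm2 z t ∧ t.1.Coprime t.2 ∧ Rel t) →
      ∑ t ∈ Q, wn K' t.1 * wn K' t.2 ≤ 4 * (3 + Real.log z) / √U * Ez K' z := by
    intro z K' Q hz hK' hQ
    by_cases hra : U * r.den ≤ r'.den ∨ U * r'.den ≤ r.den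
    · exact diff_pairs hK' hz hU1 hra Q fun t ht => ⟨(hQ t ht).1, (hQ t ht).2.2.2⟩
    · push Not at hra
      have hd1 : (1:ℝ) ≤ r.den := by exact_mod_cast r.pos
      have hd2 : (1:ℝ) ≤ r'.den := by exact_mod_cast r'.pos
      have hboth : U ≤ r.den ∧ U ≤ r'.den := by
        have hKm : K = max (r.den : ℝ) r'.den := rfl
        have hUU := hUK
        rw [hKm] at hUU
        rcases le_max_iff.1 hUU with h | h
        · have h1 : U ≤ r.den := by nlinarith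
          refine ⟨h1, ?_⟩
          by_contra hc
          push Not at hc
          have := hra.2
          nlinarith
        · have h1 : U ≤ r'.den := by nlinarith
          refine ⟨?_, h1⟩
          by_contra hc
          push Not at hc
          have := hra.1
          nlinarith
      exact co_pairs hK' hz hU1 hboth.1 hboth.2 Q fun t ht => ⟨(hQ t ht).1, (hQ t ht).2.2⟩
  have hUe : U ^ (-(1 / 8) : ℝ) = K ^ (-(1 / 64) : ℝ) := by
    rw [hU, ← Real.rpow_mul hK0.le]; congr 1; norm_num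
  have hf' : Fam E1 E2 e e' R R' := ⟨fun i hi => hf.pF i (s1 hi), fun j hj => hf.pG j (s2 hj),
    fun i hi j hj => hf.iF i (s1 hi) j (s1 hj), fun i hi j hj => hf.iG i (s2 hi) j (s2 hj), hR, hR'⟩
  have hcard : ∀ {γ' : Type} (T : Finset γ') (S : γ' → ℝ), (∀ i ∈ T, 1 ≤ K ^ A * S i) →
      ∑ i ∈ T, S i ≤ (3 + Real.log P) ^ A → (T.card : ℝ) ≤ U ^ (8 * (A + 1)) := by
    intro γ' T S h1 h2
    have hUA' : U ^ (8 * (A + 1)) = K ^ (A + 1) := by
      rw [hU, ← Real.rpow_mul hK0.le]; congr 1; ring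
    rw [hUA']
    have c1 : (T.card : ℝ) ≤ K ^ A * ∑ i ∈ T, S i := by
      rw [Finset.mul_sum]
      have : (T.card : ℝ) = ∑ q ∈ T, (1:ℝ) := by simp
      rw [this]
      exact Finset.sum_le_sum h1
    calc (T.card : ℝ) ≤ K ^ A * ∑ i ∈ T, S i := c1
      _ ≤ K ^ A * K := mul_le_mul_of_nonneg_left (h2.trans hKA) (by positivity)
      _ = K ^ (A + 1) := by rw [Real.rpow_add hK0, Real.rpow_one]
  have hsub : ∀ {γ' : Type} {T T' : Finset γ'} {S : γ' → ℝ}, T ⊆ T' → (∀ i ∈ T', 0 ≤ S i) →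
      ∑ i ∈ T', S i ≤ (3 + Real.log P) ^ A → ∑ i ∈ T, S i ≤ (3 + Real.log P) ^ A :=
    fun h1 h2 h3 => (Finset.sum_le_sum_of_subset_of_nonneg h1 fun i hi _ => h2 i hi).trans h3
  -- one family
  have fin : ∀ (F' : Finset ι) (G' : Finset κ), F' ⊆ E1 → G' ⊆ E2 →
      (((F'.card : ℝ) ≤ U ^ (8 * (A + 1)) ∧ Tl P U F' e) ∨
        ((G'.card : ℝ) ≤ U ^ (8 * (A + 1)) ∧ Tl P U G' e')) →
      ∑ i ∈ F', ∑ j ∈ G', ind (Rel (rd (e i) (e' j))) *
        min (R i / ((rd (e i) (e' j)).1 : ℕ)) (R' j / ((rd (e i) (e' j)).2 : ℕ)) ≤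
      (C0 + 2) * K ^ (-(1 / 64) : ℝ) * (SR + SR') := by
    intro F' G' hF' hG' hc
    have k := late ι κ P U Rel F' G' e e' R R' hP hUCe hc hwn
      ⟨fun i hi => hf'.pF i (hF' hi), fun j hj => hf'.pG j (hG' hj),
        fun i hi j hj => hf'.iF i (hF' hi) j (hF' hj), fun i hi j hj => hf'.iG i (hG' hi) j (hG' hj),
        fun i hi => hR i (hF' hi), fun j hj => hR' j (hG' hj)⟩
    rw [hUe] at k
    have a1 : ∑ i ∈ F', R i ≤ SR := Finset.sum_le_sum_of_subset_of_nonneg hF' fun i hi _ => hR i hi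
    have a2 : ∑ j ∈ G', R' j ≤ SR' := Finset.sum_le_sum_of_subset_of_nonneg hG' fun i hi _ => hR' i hi
    have a3 : 0 ≤ ∑ i ∈ F', R i := Finset.sum_nonneg fun i hi => hR i (hF' hi)
    have a4 : 0 ≤ ∑ j ∈ G', R' j := Finset.sum_nonneg fun i hi => hR' i (hG' hi)
    have a5 : √(∑ i ∈ F', R i) * √(∑ j ∈ G', R' j) ≤ SR + SR' := by
      have q1 := Real.sq_sqrt a3
      have q2 := Real.sq_sqrt a4
      nlinarith [sq_nonneg (√(∑ i ∈ F', R i) - √(∑ j ∈ G', R' j))]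
    have hk : 0 < K ^ (-(1 / 64) : ℝ) := Real.rpow_pos_of_pos hK0 _
    refine k.trans ?_
    have b1 : C0 * K ^ (-(1 / 64) : ℝ) * (√(∑ i ∈ F', R i) * √(∑ j ∈ G', R' j)) ≤
        C0 * K ^ (-(1 / 64) : ℝ) * (SR + SR') := mul_le_mul_of_nonneg_left a5 (by positivity)
    have b2 : 2 * K ^ (-(1 / 64) : ℝ) * (∑ i ∈ F', R i + ∑ j ∈ G', R' j) ≤
        2 * K ^ (-(1 / 64) : ℝ) * (SR + SR') := mul_le_mul_of_nonneg_left (add_le_add a1 a2) (by positivity)
    linarith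
  have hbig : ∑ x ∈ Eb, mn x ≤ 2 * ((C0 + 2) * K ^ (-(1 / 64) : ℝ) * (SR + SR')) := by
    set F1 := E1.filter (fun i => 1 ≤ K ^ A * R i) with hF1
    set G1 := E2.filter (fun j => 1 ≤ K ^ A * R' j) with hG1
    set h : ι → κ → ℝ := fun i j => ind (Rel (rd (e i) (e' j))) *
      min (R i / ((rd (e i) (e' j)).1 : ℕ)) (R' j / ((rd (e i) (e' j)).2 : ℕ)) with hh
    have hh0 : ∀ i ∈ E1, ∀ j ∈ E2, 0 ≤ h i j := fun i hi j hj => mul_nonneg (ind_nn _)
      (le_min (div_nonneg (hR i hi) (Nat.cast_nonneg _)) (div_nonneg (hR' j hj) (Nat.cast_nonneg _)))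
    have k1 := fin F1 E2 (Finset.filter_subset _ _) subset_rfl (Or.inl ⟨hcard F1 R
      (fun i hi => (Finset.mem_filter.1 hi).2) (hsub ((Finset.filter_subset _ _).trans s1) hf.rF mF),
      (tF.sub ((Finset.filter_subset _ _).trans s1)).mono hUA⟩)
    have k2 := fin E1 G1 subset_rfl (Finset.filter_subset _ _) (Or.inr ⟨hcard G1 R'
      (fun i hi => (Finset.mem_filter.1 hi).2) (hsub ((Finset.filter_subset _ _).trans s2) hf.rG mG),
      (tG.sub ((Finset.filter_subset _ _).trans s2)).mono hUA⟩)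
    have k3 : ∑ x ∈ Eb, mn x ≤ ∑ i ∈ F1, ∑ j ∈ E2, h i j + ∑ i ∈ E1, ∑ j ∈ G1, h i j := by
      rw [← Finset.sum_product' (f := fun i j => h i j), ← Finset.sum_product' (f := fun i j => h i j)]
      have e1 : ∀ x ∈ Eb, mn x ≤ (if x ∈ F1 ×ˢ E2 then h x.1 x.2 else 0) +
          (if x ∈ E1 ×ˢ G1 then h x.1 x.2 else 0) := by
        intro x hx
        have hxE := (Finset.mem_filter.1 hx).1
        have m1 : x.1 ∈ E1 := Finset.mem_image_of_mem _ hxE
        have m2 : x.2 ∈ E2 := Finset.mem_image_of_mem _ hxE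
        have hv : mn x = h x.1 x.2 := by
          simp only [hh]
          rw [ind_t (hrel x hx), one_mul]
        rw [hv]
        have n0 := hh0 _ m1 _ m2
        rcases hlate x hxE with hl | hl
        · rw [if_pos (Finset.mem_product.2 ⟨Finset.mem_filter.2 ⟨m1, hl⟩, m2⟩)]
          split_ifs <;> linarith
        · rw [if_pos (Finset.mem_product.2 ⟨m1, Finset.mem_filter.2 ⟨m2, hl⟩⟩ : x ∈ E1 ×ˢ G1)]
          split_ifs <;> linarith
      refine (Finset.sum_le_sum e1).trans ?_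
      rw [Finset.sum_add_distrib]
      refine add_le_add ?_ ?_
      · rw [← Finset.sum_filter]
        refine Finset.sum_le_sum_of_subset_of_nonneg (fun x hx => (Finset.mem_filter.1 hx).2) ?_
        intro x hx _
        obtain ⟨a, b⟩ := Finset.mem_product.1 hx
        exact hh0 _ (Finset.filter_subset _ _ a) _ b
      · rw [← Finset.sum_filter]
        refine Finset.sum_le_sum_of_subset_of_nonneg (fun x hx => (Finset.mem_filter.1 hx).2) ?_
        intro x hx _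
        obtain ⟨a, b⟩ := Finset.mem_product.1 hx
        exact hh0 _ a _ (Finset.filter_subset _ _ b)
    linarith
  have hsplit : ∑ x ∈ E, mn x = ∑ x ∈ Es, mn x + ∑ x ∈ Eb, mn x :=
    (Finset.sum_filter_add_sum_filter_not E _ _).symm
  show ∑ x ∈ E, mn x ≤ _
  rw [hsplit]
  have hk : 0 < K ^ (-(1 / 64) : ℝ) := Real.rpow_pos_of_pos hK0 _
  have hz : 0 < 1 / Z := by positivity
  have hs0 : 0 ≤ SR + SR' := add_nonneg hSR0 hSR'0
  have q1 : 0 ≤ 1 / Z * (SR + SR') := mul_nonneg hz.le hs0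
  have q2 : 0 ≤ K ^ (-(1 / 64) : ℝ) * (SR + SR') := mul_nonneg hk.le hs0
  nlinarith

open Classical in
/-- **MANY LABELS** on both sides, rates `rt Z r r'` -/
theorem lab_min {A : ℝ} (hA : 0 ≤ A) : ∃ Ce : ℝ, 1 ≤ Ce ∧ ∃ C : ℝ, 1 ≤ C ∧ ∀ (ι κ : Type) (P : ℕ)
    (F : Finset ι) (G : Finset κ) (e : ι → ℕ) (e' : κ → ℕ) (R : ι → ℝ) (R' : κ → ℝ) (ρ : ι → ℚ)
    (ρ' : κ → ℚ) (Z : ℚ → ℚ → ℝ) (E : Finset (ι × κ)), 2 ≤ P → Fam F G e e' R R' → E ⊆ F ×ˢ G →
    (∀ x ∈ E, Co (((rd (e x.1) (e' x.2)).2 : ℕ) * ρ x.1) (((rd (e x.1) (e' x.2)).1 : ℕ) * ρ' x.2)) →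
    (∀ x ∈ E, 0 < Z (ρ x.1) (ρ' x.2) ∧ (Z (ρ x.1) (ρ' x.2) ≤ (rd (e x.1) (e' x.2)).1 ∨
      Z (ρ x.1) (ρ' x.2) ≤ (rd (e x.1) (e' x.2)).2)) →
    (∀ x ∈ E, (3 + Real.log P) ^ Ce ≤ KK (ρ x.1) (ρ' x.2)) →
    (∀ x ∈ E, 1 ≤ KK (ρ x.1) (ρ' x.2) ^ A * R x.1 ∨ 1 ≤ KK (ρ x.1) (ρ' x.2) ^ A * R' x.2) →
    Tl P ((3 + Real.log P) ^ A) F e → Tl P ((3 + Real.log P) ^ A) G e' →
    ∑ i ∈ F, R i ≤ (3 + Real.log P) ^ A → ∑ j ∈ G, R' j ≤ (3 + Real.log P) ^ A →
    ∑ x ∈ E, min (R x.1 / ((rd (e x.1) (e' x.2)).1 : ℕ)) (R' x.2 / ((rd (e x.1) (e' x.2)).2 : ℕ)) ≤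
      C * (∑ i ∈ F, (∑ r ∈ La ρ' E i, rt Z (ρ i) r) * R i +
        ∑ j ∈ G, (∑ r ∈ Lb ρ E j, rt Z r (ρ' j)) * R' j) := by
  obtain ⟨Ce, hCe, C, hC, one⟩ := one_lab hA
  refine ⟨Ce, hCe, C, hC, ?_⟩
  intro ι κ P F G e e' R R' ρ ρ' Z E hP hf hE hco hZE hK hlate tF tG mF mG
  have key := sum_lab (E := E) (ρ := ρ) (ρ' := ρ') (c := fun r r' => C * rt Z r r') hE hf.rF hf.rG
    (f := fun x => min (R x.1 / ((rd (e x.1) (e' x.2)).1 : ℕ)) (R' x.2 / ((rd (e x.1) (e' x.2)).2 : ℕ)))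
    (fun x hx => by
      have h1 := (hZE x hx).1
      have h2 : 0 < KK (ρ x.1) (ρ' x.2) := by have := KK_one (ρ x.1) (ρ' x.2); linarith
      unfold rt
      positivity)
    (fun r r' hex => by
      obtain ⟨x0, hx0, e1, e2⟩ := hex
      have hm : ∀ x ∈ E.filter (fun x => ρ x.1 = r ∧ ρ' x.2 = r'), x ∈ E ∧ ρ x.1 = r ∧ ρ' x.2 = r' :=
        fun x hx => Finset.mem_filter.1 hx
      refine one ι κ P F G e e' R R' r r' (Z r r') _ hP hf ((Finset.filter_subset _ _).trans hE)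
        (fun x hx => ?_) (by rw [← e1, ← e2]; exact (hZE x0 hx0).1) (fun x hx => ?_)
        (by rw [← e1, ← e2]; exact hK x0 hx0) (fun x hx => ?_) tF tG mF mG
      · obtain ⟨a, b, c⟩ := hm x hx
        have := hco x a
        rwa [b, c] at this
      · obtain ⟨a, b, c⟩ := hm x hx
        have := (hZE x a).2
        rwa [b, c] at this
      · obtain ⟨a, b, c⟩ := hm x hx
        have := hlate x a
        rwa [b, c] at this)
  refine key.trans (le_of_eq ?_)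
  rw [mul_add, Finset.mul_sum, Finset.mul_sum]
  congr 1
  · refine Finset.sum_congr rfl fun i _ => ?_
    rw [← Finset.mul_sum]; ring
  · refine Finset.sum_congr rfl fun i _ => ?_
    rw [← Finset.mul_sum]; ring

end

end Crest.Agent.R4P.GcdV37
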