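import Crest.Agent.R4P.GcdV_37

/-!
R4 (S0004) with powers, H-4, helper37: **labelled gcd sums, separate exponents** for the late side (`A`) and
the masses (`M`).

`GcdV37.lab_min` has one exponent `A` for everything, and its threshold `Ce A` grows exponentially with `A`;
in a context the masses are `≤ (log P)^(B + c2 + 2)`, `B = 4 C1`, so `A` must not contain them. The bound is
homogeneous in the radii, hence

* **`lab_minM`** : thresholds `(3 + log P)^Ce ≤ K` (`Ce` depends on `A` only) and `(3 + log P)^M ≤ K`.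
-/

set_option autoImplicit false
set_option linter.unusedSectionVars false
set_option linter.unusedVariables false

open Finset

namespace Crest.Agent.R4P.GcdW37

open Crest.Agent.R4P.ShR18 (Co)
open Crest.Agent.R4P.GcdS37 (rd)
open Crest.Agent.R4P.GcdU37 (Tl)
open Crest.Agent.R4P.AcG41 (Fam)
open Crest.Agent.R4P.RtE28 (KK KK_one)
open Crest.Agent.R4P.GcdV37 (La rt lab_min)

open Classical in
/-- **MANY LABELS**, exponents `A` (late side, tails) and `M` (masses) -/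
theorem lab_minM {A : ℝ} (hA : 0 ≤ A) : ∃ Ce : ℝ, 1 ≤ Ce ∧ ∃ C : ℝ, 1 ≤ C ∧ ∀ (ι κ : Type) (P : ℕ)
    (F : Finset ι) (G : Finset κ) (e : ι → ℕ) (e' : κ → ℕ) (R : ι → ℝ) (R' : κ → ℝ) (ρ : ι → ℚ)
    (ρ' : κ → ℚ) (Z : ℚ → ℚ → ℝ) (E : Finset (ι × κ)) (M : ℝ), 2 ≤ P → 0 ≤ M → Fam F G e e' R R' →
    E ⊆ F ×ˢ G →
    (∀ x ∈ E, Co (((rd (e x.1) (e' x.2)).2 : ℕ) * ρ x.1) (((rd (e x.1) (e' x.2)).1 : ℕ) * ρ' x.2)) →
    (∀ x ∈ E, 0 < Z (ρ x.1) (ρ' x.2) ∧ (Z (ρ x.1) (ρ' x.2) ≤ (rd (e x.1) (e' x.2)).1 ∨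
      Z (ρ x.1) (ρ' x.2) ≤ (rd (e x.1) (e' x.2)).2)) →
    (∀ x ∈ E, (3 + Real.log P) ^ Ce ≤ KK (ρ x.1) (ρ' x.2)) →
    (∀ x ∈ E, (3 + Real.log P) ^ M ≤ KK (ρ x.1) (ρ' x.2)) →
    (∀ x ∈ E, 1 ≤ KK (ρ x.1) (ρ' x.2) ^ A * R x.1 ∨ 1 ≤ KK (ρ x.1) (ρ' x.2) ^ A * R' x.2) →
    Tl P ((3 + Real.log P) ^ A) F e → Tl P ((3 + Real.log P) ^ A) G e' →
    ∑ i ∈ F, R i ≤ (3 + Real.log P) ^ M → ∑ j ∈ G, R' j ≤ (3 + Real.log P) ^ M →
    ∑ x ∈ E, min (R x.1 / ((rd (e x.1) (e' x.2)).1 : ℕ)) (R' x.2 / ((rd (e x.1) (e' x.2)).2 : ℕ)) ≤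
      C * (∑ i ∈ F, (∑ r ∈ La ρ' E i, rt Z (ρ i) r) * R i +
        ∑ j ∈ G, (∑ r ∈ GcdV37.Lb ρ E j, rt Z r (ρ' j)) * R' j) := by
  obtain ⟨Ce, hCe, C, hC, key⟩ := lab_min (A := A + 1) (by linarith)
  refine ⟨Ce, hCe, C, hC, ?_⟩
  intro ι κ P F G e e' R R' ρ ρ' Z E M hP hM hf hE hco hZ hK hKM hlate tF tG mF mG
  have hlP : 0 ≤ Real.log (P : ℝ) := Real.log_natCast_nonneg P
  have hw1 : 1 ≤ 3 + Real.log (P : ℝ) := by linarith
  have hw0 : 0 < 3 + Real.log (P : ℝ) := by linarith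
  set Y : ℝ := (3 + Real.log (P : ℝ)) ^ M with hY
  have hY0 : 0 < Y := Real.rpow_pos_of_pos hw0 _
  have hY1 : 1 ≤ (3 + Real.log (P : ℝ)) ^ (A + 1) := Real.one_le_rpow hw1 (by linarith)
  have hTT : (3 + Real.log (P : ℝ)) ^ A ≤ (3 + Real.log (P : ℝ)) ^ (A + 1) :=
    Real.rpow_le_rpow_of_exponent_le hw1 (by linarith)
  have hs : ∀ {γ' : Type} (T : Finset γ') (S : γ' → ℝ), ∑ i ∈ T, S i ≤ Y →
      ∑ i ∈ T, S i / Y ≤ (3 + Real.log (P : ℝ)) ^ (A + 1) := by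
    intro γ' T S h
    rw [← Finset.sum_div]
    exact ((div_le_one hY0).2 h).trans hY1
  have hl : ∀ (K S : ℝ), 1 ≤ K → Y ≤ K → 1 ≤ K ^ A * S → 1 ≤ K ^ (A + 1) * (S / Y) := by
    intro K S hK1 hYK h
    have hK0 : 0 < K := by linarith
    rw [Real.rpow_add hK0, Real.rpow_one]
    have e1 : K ^ A * K * (S / Y) = (K ^ A * S) * (K / Y) := by ring
    rw [e1]
    have h2 : 1 ≤ K / Y := (one_le_div hY0).2 hYK
    nlinarith
  have k := key ι κ P F G e e' (fun i => R i / Y) (fun j => R' j / Y) ρ ρ' Z E hP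
    ⟨hf.pF, hf.pG, hf.iF, hf.iG, fun i hi => div_nonneg (hf.rF i hi) hY0.le,
      fun j hj => div_nonneg (hf.rG j hj) hY0.le⟩ hE hco hZ hK
    (fun x hx => (hlate x hx).imp (hl _ _ (KK_one _ _) (hKM x hx)) (hl _ _ (KK_one _ _) (hKM x hx)))
    (tF.mono hTT) (tG.mono hTT) (hs F R mF) (hs G R' mG)
  have e1 : ∑ x ∈ E, min (R x.1 / Y / ((rd (e x.1) (e' x.2)).1 : ℕ))
      (R' x.2 / Y / ((rd (e x.1) (e' x.2)).2 : ℕ)) =
      (∑ x ∈ E, min (R x.1 / ((rd (e x.1) (e' x.2)).1 : ℕ))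
        (R' x.2 / ((rd (e x.1) (e' x.2)).2 : ℕ))) / Y := by
    rw [Finset.sum_div]
    refine Finset.sum_congr rfl fun x _ => ?_
    rw [div_right_comm, div_right_comm (R' x.2)]
    exact (min_div_div_right hY0.le _ _)
  have e2 : ∑ i ∈ F, (∑ r ∈ La ρ' E i, rt Z (ρ i) r) * (R i / Y) +
      ∑ j ∈ G, (∑ r ∈ GcdV37.Lb ρ E j, rt Z r (ρ' j)) * (R' j / Y) =
      (∑ i ∈ F, (∑ r ∈ La ρ' E i, rt Z (ρ i) r) * R i +
        ∑ j ∈ G, (∑ r ∈ GcdV37.Lb ρ E j, rt Z r (ρ' j)) * R' j) / Y := by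
    rw [add_div, Finset.sum_div, Finset.sum_div]
    congr 1
    · exact Finset.sum_congr rfl fun i _ => by rw [mul_div_assoc]
    · exact Finset.sum_congr rfl fun i _ => by rw [mul_div_assoc]
  rw [e1, e2, ← mul_div_assoc] at k
  exact (div_le_div_iff_of_pos_right hY0).1 k

end Crest.Agent.R4P.GcdW37
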