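import Crest.Agent.R4P.GcdK_37
import Crest.Agent.R4.PinE104

/-!
R4 (S0004), powers pass, helper41: **the weighted GCD sum** (over helper37's `GcdK_37`).

* `Wn L n = ∏_{p ∣ n} 4^(L+1) v_p(n)^2`; `gcd_kernelW`, `gcd_rootW` : `GcdK37.gcd_kernel / gcd_root`
  with the individual weights `Wn` (no `Y^ε`, no truncation, cofactors of any size);
* `wn_ge` : `Wn L n / n ≤ wn (4^(L+1)) n` (the weights of helper944 / helper104), so smooth numbers cost
  only a power of `log z` (`Smo944.sum_wn_le`);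
* `min_relW` : overlap form, indexed families, any finite set of types.
-/

set_option autoImplicit false

open Finset

namespace Crest.Agent.R4P.GcdW41

open Crest.Agent.R4P.GcdK37

/-- the weight of a number -/
noncomputable def Wn (L n : ℕ) : ℝ := ∏ p ∈ n.primeFactors, w0 L (n.factorization p)

theorem Wn_nn (L n : ℕ) : 0 ≤ Wn L n := Finset.prod_nonneg fun _ _ => w0_nn _ _

theorem w0_one_le (L : ℕ) (v : ℕ) : 1 ≤ w0 L (v : ℤ) := by
  unfold w0
  split_ifs with h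
  · exact le_rfl
  · have h1 : (1:ℝ) ≤ 4 ^ (L + 1) := one_le_pow₀ (by norm_num)
    have h2 : (1:ℝ) ≤ ((v:ℤ):ℝ) ^ 2 := by
      have h3 : v ≠ 0 := fun h' => h (by exact_mod_cast h')
      have h4 : (1:ℝ) ≤ (v:ℝ) := by exact_mod_cast Nat.one_le_iff_ne_zero.2 h3
      push_cast
      nlinarith
    nlinarith

theorem Wn_eq {L n : ℕ} {S : Finset ℕ} (h : n.primeFactors ⊆ S) :
    ∏ p ∈ S, w0 L (n.factorization p) = Wn L n := by
  unfold Wn
  symm
  refine Finset.prod_subset h fun p _ hp => ?_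
  have : n.factorization p = 0 := by
    rw [← Nat.support_factorization] at hp
    exact Finsupp.notMem_support_iff.1 hp
  rw [this, Nat.cast_zero, w0_zero]

/-- `Wn L n / n` is at most the weight `wn κ n` of helper944, `κ = 4^(L+1)` -/
theorem wn_ge (L : ℕ) {n : ℕ} (hn : 0 < n) :
    Wn L n / n ≤ Crest.Agent.R4.HVW560.wn (4 ^ (L + 1)) n := by
  have h1 : (n:ℝ) = ∏ p ∈ n.primeFactors, (p:ℝ) ^ (n.factorization p) := by
    conv_lhs => rw [← Nat.prod_factorization_pow_eq_self hn.ne']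
    rw [Finsupp.prod, Nat.support_factorization]
    push_cast
    rfl
  unfold Wn Crest.Agent.R4.HVW560.wn Finsupp.prod
  rw [Nat.support_factorization]
  conv_lhs => rw [h1]
  rw [← Finset.prod_div_distrib]
  refine Finset.prod_le_prod (fun p hp => ?_) fun p hp => ?_
  · exact div_nonneg (w0_nn _ _) (by positivity)
  · have hv : n.factorization p ≠ 0 := by
      have : p ∈ n.factorization.support := by rw [Nat.support_factorization]; exact hp
      exact Finsupp.mem_support_iff.1 this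
    have h2 : w0 L (n.factorization p : ℤ) = 4 ^ (L + 1) * ((n.factorization p : ℕ):ℝ) ^ 2 := by
      unfold w0
      rw [if_neg (by exact_mod_cast hv)]
      push_cast
      ring
    rw [h2]
    refine div_le_div_of_nonneg_right ?_ (by positivity)
    refine mul_le_mul_of_nonneg_left ?_ (by positivity)
    have h3 : (1:ℝ) ≤ ((n.factorization p : ℕ):ℝ) := by
      exact_mod_cast Nat.one_le_iff_ne_zero.2 hv
    exact pow_le_pow_right₀ h3 (by norm_num)

theorem kap_EW {L : ℕ} {B : ℕ} {S : Finset ℕ} {Q : Finset (ℕ × ℕ)} {g : ℕ × ℕ → ℝ}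
    (hinj : ∀ z ∈ Q, ∀ z' ∈ Q, vec S z.1 - vec S z.2 = vec S z'.1 - vec S z'.2 → z = z') :
    ∑ s : S → Bx B, kap S Q g (up B s) ^ 2 * W L (up B s) ≤
      ∑ z ∈ Q, g z ^ 2 * W L (vec S z.1 - vec S z.2) := by
  calc ∑ s : S → Bx B, kap S Q g (up B s) ^ 2 * W L (up B s)
      = ∑ s : S → Bx B, ∑ z ∈ Q, ind (vec S z.1 - vec S z.2 = up B s) * g z ^ 2 *
          W L (up B s) := by
        refine Finset.sum_congr rfl fun s _ => ?_
        rw [kap_sq hinj, Finset.sum_mul]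
    _ = ∑ z ∈ Q, ∑ s : S → Bx B, ind (vec S z.1 - vec S z.2 = up B s) * g z ^ 2 *
          W L (up B s) := Finset.sum_comm
    _ ≤ ∑ z ∈ Q, g z ^ 2 * W L (vec S z.1 - vec S z.2) := by
        refine Finset.sum_le_sum fun z hz => ?_
        by_cases hex : ∃ s : S → Bx B, vec S z.1 - vec S z.2 = up B s
        · obtain ⟨s0, h0⟩ := hex
          rw [Finset.sum_eq_single s0]
          · rw [ind_t h0, ← h0, one_mul]
          · intro s _ hne
            rw [ind_f, zero_mul, zero_mul]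
            intro e
            exact hne (up_inj B (e.symm.trans h0))
          · intro h; exact absurd (Finset.mem_univ _) h
        · push Not at hex
          rw [Finset.sum_eq_zero]
          · exact mul_nonneg (sq_nonneg _) (W_nn _ _)
          · intro s _
            rw [ind_f (hex s), zero_mul, zero_mul]

open Matrix in
/-- **GCD-sum lemma, general kernel, individual weights.** -/
theorem gcd_kernelW (a : ℕ) (Q : Finset (ℕ × ℕ)) (g : ℕ × ℕ → ℝ) (F G : Finset ℕ) (x y : ℕ → ℝ)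
    (hQ0 : ∀ z ∈ Q, 0 < z.1 ∧ 0 < z.2 ∧ z.1.Coprime z.2)
    (hg : ∀ z ∈ Q, 0 ≤ g z) (hF : ∀ i ∈ F, 0 < i) (hG : ∀ j ∈ G, 0 < j) :
    (∑ i ∈ F, ∑ j ∈ G, x i * y j * kv Q g i j) ^ (4 * 2 ^ a) ≤
      (∑ i ∈ F, x i ^ 2) ^ (2 * 2 ^ a) * (∑ j ∈ G, y j ^ 2) ^ (2 * 2 ^ a) * F.card *
        (4 * ∑ z ∈ Q, g z ^ 2 * (Wn (4 * 2 ^ a) z.1 * Wn (4 * 2 ^ a) z.2)) ^ (2 * 2 ^ a) := by
  set Y : ℕ := Q.sup (fun z => max z.1 z.2) with hY
  have hQ : ∀ z ∈ Q, 0 < z.1 ∧ 0 < z.2 ∧ z.1.Coprime z.2 ∧ z.1 ≤ Y ∧ z.2 ≤ Y := by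
    intro z hz
    obtain ⟨h1, h2, h3⟩ := hQ0 z hz
    have h4 : max z.1 z.2 ≤ Y := Finset.le_sup (f := fun z : ℕ × ℕ => max z.1 z.2) hz
    exact ⟨h1, h2, h3, (le_max_left _ _).trans h4, (le_max_right _ _).trans h4⟩
  -- primes
  set S : Finset ℕ := (F ∪ G).biUnion Nat.primeFactors with hSd
  have hS : ∀ p ∈ S, p.Prime := by
    intro p hp
    obtain ⟨n, _, hn⟩ := Finset.mem_biUnion.1 hp
    exact Nat.prime_of_mem_primeFactors hn
  have hFS : ∀ i ∈ F, i.primeFactors ⊆ S := fun i hi p hp =>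
    Finset.mem_biUnion.2 ⟨i, Finset.mem_union_left _ hi, hp⟩
  have hGS : ∀ j ∈ G, j.primeFactors ⊆ S := fun j hj p hp =>
    Finset.mem_biUnion.2 ⟨j, Finset.mem_union_right _ hj, hp⟩
  set Q' := Q.filter (fun z => z.1.primeFactors ⊆ S ∧ z.2.primeFactors ⊆ S) with hQ'
  have hQQ : ∀ z ∈ Q', z ∈ Q := fun z hz => (Finset.mem_filter.1 hz).1
  have hinj : ∀ z ∈ Q', ∀ z' ∈ Q', vec S z.1 - vec S z.2 = vec S z'.1 - vec S z'.2 → z = z' := by
    intro z hz z' hz' e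
    obtain ⟨h1, h2, h3, _, _⟩ := hQ z (hQQ z hz)
    obtain ⟨h1', h2', h3', _, _⟩ := hQ z' (hQQ z' hz')
    have h4 := (Finset.mem_filter.1 hz).2
    have h4' := (Finset.mem_filter.1 hz').2
    obtain ⟨h5, h6⟩ := phi_inj hS h3 h1 h2 h3' h1' h2' h4.1 h4.2 h4'.1 h4'.2 e
    exact Prod.ext h5 h6
  -- the two kernels
  set Qs := Q'.image Prod.swap with hQs
  set gs : ℕ × ℕ → ℝ := fun z => g z.swap with hgs
  set κ1 := kap S Q' g with hκ1
  set κ2 := kap S Qs gs with hκ2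
  have hκ10 : ∀ h, 0 ≤ κ1 h := fun h => Finset.sum_nonneg fun z hz =>
    mul_nonneg (ind_nn _) (hg z (hQQ z hz))
  have hmemQs : ∀ z ∈ Qs, z.swap ∈ Q' := by
    intro z hz
    obtain ⟨z', hz', rfl⟩ := Finset.mem_image.1 hz
    simpa using hz'
  have hκ20 : ∀ h, 0 ≤ κ2 h := fun h => Finset.sum_nonneg fun z hz =>
    mul_nonneg (ind_nn _) (hg _ (hQQ _ (hmemQs z hz)))
  have hneg : ∀ h, κ2 h = κ1 (-h) := by
    intro h
    show ∑ z ∈ Q'.image Prod.swap, ind (vec S z.1 - vec S z.2 = h) * g z.swap = _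
    rw [Finset.sum_image (fun z _ z' _ e => Prod.swap_injective e)]
    refine Finset.sum_congr rfl fun z _ => ?_
    rw [Prod.swap_swap]
    congr 1
    refine ind_congr ?_
    show vec S z.2 - vec S z.1 = h ↔ _
    constructor
    · intro e; rw [← e]; abel
    · intro e; rw [← neg_eq_iff_eq_neg.2 e]; abel
  set κ : (S → ℤ) → ℝ := fun h => κ1 h + κ2 h with hκd
  have hκ0 : ∀ h, 0 ≤ κ h := fun h => add_nonneg (hκ10 h) (hκ20 h)
  -- the box
  have hfac : ∀ n : ℕ, 0 < n → n ≤ Y → ∀ p, (n.factorization p : ℤ) ≤ Y := by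
    intro n hn hY p
    have := Nat.factorization_lt p hn.ne'
    exact_mod_cast (this.le.trans hY)
  have hκB1 : ∀ h, κ1 h ≠ 0 → ∀ p, h p ∈ Finset.Icc (-(Y : ℤ)) Y := by
    intro h hne p
    obtain ⟨z, hz, hz'⟩ := Finset.exists_ne_zero_of_sum_ne_zero hne
    have e : vec S z.1 - vec S z.2 = h := by
      by_contra hcon
      rw [ind_f hcon, zero_mul] at hz'
      exact hz' rfl
    obtain ⟨h1, h2, _, h4, h5⟩ := hQ z (hQQ z hz)
    have e1 : h p = (z.1.factorization p : ℤ) - (z.2.factorization p : ℤ) := by rw [← e]; rfl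
    have h6 := hfac z.1 h1 h4 p
    have h7 := hfac z.2 h2 h5 p
    rw [Finset.mem_Icc, e1]
    constructor <;> omega
  have hκB : ∀ h, κ h ≠ 0 → ∀ p, h p ∈ Finset.Icc (-(Y : ℤ)) Y := by
    intro h hne p
    by_cases h1 : κ1 h = 0
    · have h2 : κ1 (-h) ≠ 0 := by
        intro h3
        apply hne
        simp only [hκd, h1, hneg, h3, add_zero]
      have h3 := hκB1 (-h) h2 p
      rw [Finset.mem_Icc] at h3 ⊢
      simp only [Pi.neg_apply] at h3
      constructor <;> omega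
    · exact hκB1 h h1 p
  -- energy
  have hW : ∀ z ∈ Q', W (4 * 2 ^ a) (vec S z.1 - vec S z.2) =
      Wn (4 * 2 ^ a) z.1 * Wn (4 * 2 ^ a) z.2 := by
    intro z hz
    obtain ⟨h1, h2, h3, h4, h5⟩ := hQ z (hQQ z hz)
    obtain ⟨h6, h7⟩ := (Finset.mem_filter.1 hz).2
    rw [W_cop hS h3 h1 h2, Wn_eq h6, Wn_eq h7]
  have hWneg : ∀ z : ℕ × ℕ, W (4 * 2 ^ a) (vec S z.1 - vec S z.2) =
      W (4 * 2 ^ a) (vec S z.2 - vec S z.1) := by
    intro z
    refine Finset.prod_congr rfl fun p _ => ?_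
    rw [← w0_neg]
    congr 1
    simp
  have hE1 := kap_EW (L := 4 * 2 ^ a) (B := Y) (g := g) hinj
  have hE2 := kap_EW (L := 4 * 2 ^ a) (B := Y) (S := S) (Q := Qs) (g := gs)
    (by
      intro z hz z' hz' e
      have h1 := hinj _ (hmemQs z hz) _ (hmemQs z' hz') (by
        show vec S z.2 - vec S z.1 = vec S z'.2 - vec S z'.1
        rw [← neg_sub, e, neg_sub])
      exact Prod.swap_injective h1)
  have hsum1 : ∑ z ∈ Q', g z ^ 2 * W (4 * 2 ^ a) (vec S z.1 - vec S z.2) =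
      ∑ z ∈ Q', g z ^ 2 * (Wn (4 * 2 ^ a) z.1 * Wn (4 * 2 ^ a) z.2) :=
    Finset.sum_congr rfl fun z hz => by rw [hW z hz]
  have hsum2 : ∑ z ∈ Qs, gs z ^ 2 * W (4 * 2 ^ a) (vec S z.1 - vec S z.2) =
      ∑ z ∈ Q', g z ^ 2 * (Wn (4 * 2 ^ a) z.1 * Wn (4 * 2 ^ a) z.2) := by
    rw [hQs, Finset.sum_image (fun z _ z' _ e => Prod.swap_injective e)]
    refine Finset.sum_congr rfl fun z hz => ?_
    simp only [hgs, Prod.swap_swap, Prod.fst_swap, Prod.snd_swap]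
    rw [← hWneg, hW z hz]
  rw [hsum1] at hE1
  rw [hsum2] at hE2
  have hsub : ∑ z ∈ Q', g z ^ 2 * (Wn (4 * 2 ^ a) z.1 * Wn (4 * 2 ^ a) z.2) ≤
      ∑ z ∈ Q, g z ^ 2 * (Wn (4 * 2 ^ a) z.1 * Wn (4 * 2 ^ a) z.2) :=
    Finset.sum_le_sum_of_subset_of_nonneg (Finset.filter_subset _ _) (fun z _ _ =>
      mul_nonneg (sq_nonneg _) (mul_nonneg (Wn_nn _ _) (Wn_nn _ _)))
  have hE : ∑ s : S → Bx Y, κ (up Y s) ^ 2 * W (4 * 2 ^ a) (up Y s) ≤
      4 * ∑ z ∈ Q, g z ^ 2 * (Wn (4 * 2 ^ a) z.1 * Wn (4 * 2 ^ a) z.2) := by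
    have h1 : ∑ s : S → Bx Y, κ (up Y s) ^ 2 * W (4 * 2 ^ a) (up Y s) ≤
        2 * ∑ s : S → Bx Y, κ1 (up Y s) ^ 2 * W (4 * 2 ^ a) (up Y s) +
        2 * ∑ s : S → Bx Y, κ2 (up Y s) ^ 2 * W (4 * 2 ^ a) (up Y s) := by
      rw [Finset.mul_sum, Finset.mul_sum, ← Finset.sum_add_distrib]
      refine Finset.sum_le_sum fun s _ => ?_
      have hW := W_nn (4 * 2 ^ a) (up Y s)
      show (κ1 (up Y s) + κ2 (up Y s)) ^ 2 * _ ≤ _
      nlinarith [mul_nonneg (sq_nonneg (κ1 (up Y s) - κ2 (up Y s))) hW]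
    refine h1.trans ?_
    linarith
  -- the matrix
  set K := bip Q g F G with hK
  set pos : F ⊕ G → S → ℤ := Sum.elim (fun i => vec S i) (fun j => vec S j) with hpos
  have hKs : K.IsSymm := by
    ext a b
    rcases a with i | i <;> rcases b with j | j
    · rw [Matrix.transpose_apply, hK, bip_ll, bip_ll]
    · rw [Matrix.transpose_apply, hK, bip_lr, bip_rl]
    · rw [Matrix.transpose_apply, hK, bip_lr, bip_rl]
    · rw [Matrix.transpose_apply, hK, bip_rr, bip_rr]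
  have hK0 : ∀ a b, 0 ≤ K a b := by
    intro a b
    rcases a with i | i <;> rcases b with j | j
    · rw [hK, bip_ll]
    · rw [hK, bip_lr]; exact kv_nn hg _ _
    · rw [hK, bip_rl]; exact kv_nn hg _ _
    · rw [hK, bip_rr]
  have hkey : ∀ i ∈ F, ∀ j ∈ G, kv Q g i j ≤ κ1 (vec S i - vec S j) := by
    intro i hi j hj
    by_cases hm : (i / i.gcd j, j / i.gcd j) ∈ Q
    · rw [kv_mem hm]
      have hm' : (i / i.gcd j, j / i.gcd j) ∈ Q' := by
        refine Finset.mem_filter.2 ⟨hm, ?_, ?_⟩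
        · exact (primeFactors_div (Nat.gcd_dvd_left i j) (hF i hi)).trans (hFS i hi)
        · exact (primeFactors_div (Nat.gcd_dvd_right i j) (hG j hj)).trans (hGS j hj)
      have h1 := Finset.single_le_sum (f := fun z => ind (vec S z.1 - vec S z.2 =
        vec S i - vec S j) * g z) (fun z hz => mul_nonneg (ind_nn _) (hg z (hQQ z hz))) hm'
      refine le_trans (le_of_eq ?_) h1
      show _ = ind (vec S (i / i.gcd j) - vec S (j / i.gcd j) = vec S i - vec S j) * _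
      rw [ind_t (vec_div (hF i hi) (hG j hj)), one_mul]
    · rw [kv_not hm]; exact hκ10 _
  have hKκ : ∀ a b, K a b ≤ κ (pos a - pos b) := by
    intro a b
    rcases a with i | i <;> rcases b with j | j
    · rw [hK, bip_ll]; exact hκ0 _
    · rw [hK, bip_lr]
      exact (hkey i i.2 j j.2).trans (le_add_of_nonneg_right (hκ20 _))
    · rw [hK, bip_rl]
      refine (hkey j j.2 i i.2).trans ?_
      have h1 : κ1 (vec S j - vec S i) = κ2 (vec S i - vec S j) := by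
        rw [hneg, neg_sub]
      show κ1 (vec S j - vec S i) ≤ κ1 (vec S i - vec S j) + κ2 (vec S i - vec S j)
      rw [h1]
      exact le_add_of_nonneg_left (hκ10 _)
    · rw [hK, bip_rr]; exact hκ0 _
  have hKinj : ∀ a b b', K a b ≠ 0 → K a b' ≠ 0 → pos b = pos b' → b = b' := by
    intro a b b' h1 h2 h3
    rcases a with i | i <;> rcases b with j | j
    · exact absurd (by rw [hK, bip_ll]) h1
    · rcases b' with j' | j'
      · exact absurd (by rw [hK, bip_ll]) h2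
      · exact congrArg Sum.inr
          (Subtype.ext (vec_inj (hG _ j.2) (hG _ j'.2) (hGS _ j.2) (hGS _ j'.2) h3))
    · rcases b' with j' | j'
      · exact congrArg Sum.inl
          (Subtype.ext (vec_inj (hF _ j.2) (hF _ j'.2) (hFS _ j.2) (hFS _ j'.2) h3))
      · exact absurd (by rw [hK, bip_rr]) h2
    · exact absurd (by rw [hK, bip_rr]) h1
  set xx : F ⊕ G → ℝ := Sum.elim (fun i => x i) (fun _ => 0) with hxx
  set yy : F ⊕ G → ℝ := Sum.elim (fun _ => 0) (fun j => y j) with hyy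
  set T : Finset (F ⊕ G) := Finset.univ.image Sum.inl with hT
  have hTc : T.card = F.card := by
    rw [hT, Finset.card_image_of_injective _ Sum.inl_injective, Finset.card_univ,
      Fintype.card_coe]
  have hxT : ∀ v, v ∉ T → xx v = 0 := by
    intro v hv
    rcases v with i | j
    · exact absurd (Finset.mem_image.2 ⟨i, Finset.mem_univ _, rfl⟩) hv
    · rfl
  have hmain := kernel_main Y hκ0 hκB K hKs hK0 pos hKκ hKinj a T xx yy hxT
  have e1 : xx ⬝ᵥ (K *ᵥ yy) = ∑ i ∈ F, ∑ j ∈ G, x i * y j * kv Q g i j := by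
    show ∑ v, xx v * ∑ u, K v u * yy u = _
    rw [Fintype.sum_sum_type]
    have e2 : ∑ v : G, xx (Sum.inr v) * ∑ u, K (Sum.inr v) u * yy u = 0 :=
      Finset.sum_eq_zero fun v _ => by simp [hxx]
    rw [e2, add_zero, ← Finset.sum_coe_sort F]
    refine Finset.sum_congr rfl fun i _ => ?_
    rw [Fintype.sum_sum_type]
    have e3 : ∑ u : F, K (Sum.inl i) (Sum.inl u) * yy (Sum.inl u) = 0 :=
      Finset.sum_eq_zero fun v _ => by simp [hyy]
    rw [e3, zero_add, ← Finset.sum_coe_sort G, Finset.mul_sum]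
    refine Finset.sum_congr rfl fun j _ => ?_
    rw [hK, bip_lr]
    show x i * (kv Q g i j * y j) = _
    ring
  have e4 : xx ⬝ᵥ xx = ∑ i ∈ F, x i ^ 2 := by
    show ∑ v, xx v * xx v = _
    rw [Fintype.sum_sum_type, ← Finset.sum_coe_sort F]
    have : ∑ v : G, xx (Sum.inr v) * xx (Sum.inr v) = 0 :=
      Finset.sum_eq_zero fun v _ => by simp [hxx]
    rw [this, add_zero]
    exact Finset.sum_congr rfl fun i _ => by simp [hxx, sq]
  have e5 : yy ⬝ᵥ yy = ∑ j ∈ G, y j ^ 2 := by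
    show ∑ v, yy v * yy v = _
    rw [Fintype.sum_sum_type, ← Finset.sum_coe_sort G]
    have : ∑ v : F, yy (Sum.inl v) * yy (Sum.inl v) = 0 :=
      Finset.sum_eq_zero fun v _ => by simp [hyy]
    rw [this, zero_add]
    exact Finset.sum_congr rfl fun i _ => by simp [hyy, sq]
  rw [e1, e4, e5, hTc] at hmain
  refine hmain.trans ?_
  refine mul_le_mul_of_nonneg_left ?_ ?_
  · refine pow_le_pow_left₀ (Finset.sum_nonneg fun s _ => mul_nonneg (sq_nonneg _) (W_nn _ _)) ?_ _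
    exact hE
  · exact mul_nonneg (mul_nonneg (pow_nonneg (Finset.sum_nonneg fun i _ => sq_nonneg _) _)
      (pow_nonneg (Finset.sum_nonneg fun i _ => sq_nonneg _) _)) (Nat.cast_nonneg _)

/-- root form of `gcd_kernelW`. -/
theorem gcd_rootW (a : ℕ) (Q : Finset (ℕ × ℕ)) (g : ℕ × ℕ → ℝ) (F G : Finset ℕ) (x y : ℕ → ℝ)
    (hQ : ∀ z ∈ Q, 0 < z.1 ∧ 0 < z.2 ∧ z.1.Coprime z.2)
    (hg : ∀ z ∈ Q, 0 ≤ g z) (hF : ∀ i ∈ F, 0 < i) (hG : ∀ j ∈ G, 0 < j) :
    ∑ i ∈ F, ∑ j ∈ G, x i * y j * kv Q g i j ≤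
      √(4 * ∑ z ∈ Q, g z ^ 2 * (Wn (4 * 2 ^ a) z.1 * Wn (4 * 2 ^ a) z.2)) *
        (F.card : ℝ) ^ ((1 : ℝ) / (4 * 2 ^ a : ℕ)) *
        (√(∑ i ∈ F, x i ^ 2) * √(∑ j ∈ G, y j ^ 2)) := by
  have h3 := gcd_kernelW a Q g F G x y hQ hg hF hG
  set m := 4 * 2 ^ a with hm
  have hm0 : m ≠ 0 := by positivity
  set A := ∑ i ∈ F, x i ^ 2 with hA
  set B := ∑ j ∈ G, y j ^ 2 with hB
  set E := 4 * ∑ z ∈ Q, g z ^ 2 * (Wn m z.1 * Wn m z.2) with hE
  have hA0 : 0 ≤ A := Finset.sum_nonneg fun i _ => sq_nonneg _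
  have hB0 : 0 ≤ B := Finset.sum_nonneg fun i _ => sq_nonneg _
  have hE0 : 0 ≤ E := mul_nonneg (by norm_num) (Finset.sum_nonneg fun z _ =>
    mul_nonneg (sq_nonneg _) (mul_nonneg (Wn_nn _ _) (Wn_nn _ _)))
  set X := ∑ i ∈ F, ∑ j ∈ G, x i * y j * kv Q g i j with hX
  set Z := √E * (F.card : ℝ) ^ ((1 : ℝ) / (m : ℕ)) * (√A * √B) with hZ
  have hZ0 : 0 ≤ Z := by positivity
  have hpow : X ^ m ≤ Z ^ m := by
    refine h3.trans (le_of_eq ?_)
    have hm2 : m = 2 * (2 * 2 ^ a) := by rw [hm]; ring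
    have e2 : ((F.card : ℝ) ^ ((1 : ℝ) / (m : ℕ))) ^ m = F.card := by
      rw [← Real.rpow_natCast, ← Real.rpow_mul (by positivity), one_div,
        inv_mul_cancel₀ (by exact_mod_cast hm0), Real.rpow_one]
    have e3 : Z = (√E * (√A * √B)) * (F.card : ℝ) ^ ((1 : ℝ) / (m : ℕ)) := by rw [hZ]; ring
    have e4 : (√E * (√A * √B)) ^ m = (A * B * E) ^ (2 * 2 ^ a) := by
      rw [hm2, pow_mul]
      congr 1
      rw [mul_pow, mul_pow, Real.sq_sqrt hE0, Real.sq_sqrt hA0, Real.sq_sqrt hB0]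
      ring
    have e5 : Z ^ m = (A * B * E) ^ (2 * 2 ^ a) * F.card := by
      rw [e3, mul_pow (√E * (√A * √B)), e2, e4]
    rw [e5, mul_pow (A * B) E, mul_pow A B]
    ring
  exact le_of_pow_le_pow_left₀ hm0 hZ0 hpow

/-- the weight `κ` of the exponent `a` -/
noncomputable def kp (a : ℕ) : ℝ := 4 ^ (4 * 2 ^ a + 1)

theorem kp_pos (a : ℕ) : 0 < kp a := by unfold kp; positivity

/-- overlap form, indexed families, types in a finite set `Q`: `D = e i / gcd`, `D' = e' j / gcd`. -/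
theorem min_relW (a : ℕ) {ι κ : Type} (Q : Finset (ℕ × ℕ))
    (F : Finset ι) (G : Finset κ) (e : ι → ℕ) (e' : κ → ℕ) (R : ι → ℝ) (R' : κ → ℝ)
    (hQ : ∀ z ∈ Q, 0 < z.1 ∧ 0 < z.2 ∧ z.1.Coprime z.2)
    (hF : ∀ i ∈ F, 0 < e i) (hG : ∀ j ∈ G, 0 < e' j) (hei : ∀ i ∈ F, ∀ j ∈ F, e i = e j → i = j)
    (hej : ∀ i ∈ G, ∀ j ∈ G, e' i = e' j → i = j) (hR : ∀ i ∈ F, 0 ≤ R i)
    (hR' : ∀ j ∈ G, 0 ≤ R' j) :
    ∑ i ∈ F, ∑ j ∈ G, ind ((e i / (e i).gcd (e' j), e' j / (e i).gcd (e' j)) ∈ Q) *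
      √(R i / (e i / (e i).gcd (e' j) : ℕ) * (R' j / (e' j / (e i).gcd (e' j) : ℕ))) ≤
      √(4 * ∑ z ∈ Q, Crest.Agent.R4.HVW560.wn (kp a) z.1 * Crest.Agent.R4.HVW560.wn (kp a) z.2) *
        (F.card : ℝ) ^ ((1 : ℝ) / (4 * 2 ^ a : ℕ)) *
        (√(∑ i ∈ F, R i) * √(∑ j ∈ G, R' j)) := by
  classical
  set fi : ℕ → ℝ := fun n => ∑ i ∈ F, ind (e i = n) * √(R i) with hfi
  set fj : ℕ → ℝ := fun n => ∑ j ∈ G, ind (e' j = n) * √(R' j) with hfj
  have hfi' : ∀ i ∈ F, fi (e i) = √(R i) := by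
    intro i hi
    rw [hfi]
    simp only
    rw [Finset.sum_eq_single_of_mem i hi]
    · rw [ind_t rfl, one_mul]
    · intro j hj hne
      rw [ind_f, zero_mul]
      intro e2; exact hne (hei j hj i hi e2)
  have hfj' : ∀ j ∈ G, fj (e' j) = √(R' j) := by
    intro i hi
    rw [hfj]
    simp only
    rw [Finset.sum_eq_single_of_mem i hi]
    · rw [ind_t rfl, one_mul]
    · intro j hj hne
      rw [ind_f, zero_mul]
      intro e2; exact hne (hej j hj i hi e2)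
  have hFi : Set.InjOn e F := fun i hi j hj h => hei i hi j hj h
  have hGi : Set.InjOn e' G := fun i hi j hj h => hej i hi j hj h
  have h1 := gcd_rootW a Q gk (F.image e) (G.image e') fi fj hQ (fun z _ => Real.sqrt_nonneg _)
    (fun n hn => by obtain ⟨i, hi, rfl⟩ := Finset.mem_image.1 hn; exact hF i hi)
    (fun n hn => by obtain ⟨i, hi, rfl⟩ := Finset.mem_image.1 hn; exact hG i hi)
  rw [Finset.sum_image hFi, Finset.sum_image hFi, Finset.sum_image hGi,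
    Finset.card_image_of_injOn hFi] at h1
  have e1 : ∑ i ∈ F, fi (e i) ^ 2 = ∑ i ∈ F, R i :=
    Finset.sum_congr rfl fun i hi => by rw [hfi' i hi, Real.sq_sqrt (hR i hi)]
  have e2 : ∑ j ∈ G, fj (e' j) ^ 2 = ∑ j ∈ G, R' j :=
    Finset.sum_congr rfl fun i hi => by rw [hfj' i hi, Real.sq_sqrt (hR' i hi)]
  rw [e1, e2] at h1
  have h2 : ∑ i ∈ F, ∑ j ∈ G, ind ((e i / (e i).gcd (e' j), e' j / (e i).gcd (e' j)) ∈ Q) *
      √(R i / (e i / (e i).gcd (e' j) : ℕ) * (R' j / (e' j / (e i).gcd (e' j) : ℕ))) =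
      ∑ i ∈ F, ∑ j ∈ (G.image e'), fi (e i) * fj j * kv Q gk (e i) j := by
    refine Finset.sum_congr rfl fun i hi => ?_
    rw [Finset.sum_image hGi]
    refine Finset.sum_congr rfl fun j hj => ?_
    rw [hfi' i hi, hfj' j hj]
    by_cases hm : (e i / (e i).gcd (e' j), e' j / (e i).gcd (e' j)) ∈ Q
    · rw [ind_t hm, one_mul, kv_mem hm, gk, ← Real.sqrt_mul (hR i hi),
        ← Real.sqrt_mul (mul_nonneg (hR i hi) (hR' j hj))]
      congr 1
      simp only [one_div, mul_inv]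
      ring
    · rw [ind_f hm, zero_mul, kv_not hm, mul_zero]
  rw [h2]
  refine h1.trans ?_
  refine mul_le_mul_of_nonneg_right (mul_le_mul_of_nonneg_right ?_ (by positivity)) (by positivity)
  refine Real.sqrt_le_sqrt (mul_le_mul_of_nonneg_left ?_ (by norm_num))
  refine Finset.sum_le_sum fun z hz => ?_
  obtain ⟨z1, z2, -⟩ := hQ z hz
  have w1 := wn_ge (4 * 2 ^ a) z1
  have w2 := wn_ge (4 * 2 ^ a) z2
  have e5 : gk z ^ 2 * (Wn (4 * 2 ^ a) z.1 * Wn (4 * 2 ^ a) z.2) =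
      (Wn (4 * 2 ^ a) z.1 / z.1) * (Wn (4 * 2 ^ a) z.2 / z.2) := by
    rw [gk, Real.sq_sqrt (by positivity)]
    simp only [one_div, mul_inv]
    ring
  rw [e5]
  exact mul_le_mul w1 w2 (div_nonneg (Wn_nn _ _) (Nat.cast_nonneg _))
    (Crest.Agent.R4.ClsS.wn_nonneg (kp_pos a).le _)

end Crest.Agent.R4P.GcdW41
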