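import Crest.Agent.R4P.ParT_21
import Crest.Agent.R4P.IxRange_34

/-!
R4 (S0004), powers, helper21: **the grid columns** (X8 of the dual).

* `RSt p` : `rg (p - 1) ≠ rg p`, the column `p` is the start of a range (`thr`, `dep` are constant in a range);
* `ctx_thr`, `ctx_dep`, `ctx_st` : in a context of `NumOK N (thF Ct)` a rest column `p` where `thr`, `dep` or the
  real state of a piece without own tie `p` changes is a range start;
* `card_RSt`, **`sum_RSt`** : `∑ (log p)^(-s) ≤ C (log p0)^(-s)` over the range starts `p > p0`,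
  **`sum_RSt_le`** : `≤ (log p0)^(-s')` for large `p0`, `s' < s`; `sum_RSt_one` : for `θ p = (1 + log p)^(-s)`;
* **`ctx_hG`** : the number input `hG` of `HvL32.hV_L`.
-/

set_option autoImplicit false
set_option linter.unusedSectionVars false
set_option linter.unusedVariables false

open Filter

namespace Crest.Agent.R4P.GrC21

open Crest.Agent.R4P.Skel189 Crest.Agent.R4P.ParF5 Crest.Agent.R4P.NumX34 Crest.Agent.R4P.ThrG21
open Crest.Agent.R4P.Data758 Crest.Agent.R4P.W363 Crest.Agent.R4P.ParT21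
open Crest.Agent.R4P.IxRange34

/-- **the column `p` is the start of a range** -/
def RSt (p : ℕ) : Prop := rg (p - 1) ≠ rg p

lemma RSt.lt {p : ℕ} (h : RSt p) (hp : 2 ≤ p) : rg (p - 1) < rg p :=
  lt_of_le_of_ne (rg_mono (by omega) (Nat.sub_le p 1)) h

/-- two starts: two ranges -/
lemma RSt.inj {p p' : ℕ} (h : RSt p) (h' : RSt p') (hp : 2 ≤ p) (hp' : 2 ≤ p')
    (e : rg p = rg p') : p = p' := by
  rcases lt_trichotomy p p' with h1 | h1 | h1
  · exfalso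
    have h2 := h'.lt hp'
    have h3 : rg p ≤ rg (p' - 1) := rg_mono (by omega) (by omega)
    omega
  · exact h1
  · exfalso
    have h2 := h.lt hp
    have h3 : rg p' ≤ rg (p - 1) := rg_mono (by omega) (by omega)
    omega

/-! ### sums over the range starts -/

/-- `(log p)^(-s)` on the range `k` -/
lemma log_le_rg {p : ℕ} (hp : 3 ≤ p) {s : ℝ} (hs : 0 ≤ s) :
    Real.log p ^ (-s) ≤ ((2 : ℝ) ^ (-s)) ^ rg p := by
  have h1 := rg_le hp
  have h2 : (0 : ℝ) < (2 : ℝ) ^ rg p := by positivity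
  calc Real.log p ^ (-s) ≤ ((2 : ℝ) ^ rg p) ^ (-s) :=
        Real.rpow_le_rpow_of_nonpos h2 h1 (by linarith)
    _ = ((2 : ℝ) ^ (-s)) ^ rg p := by
        rw [← Real.rpow_natCast 2 (rg p), ← Real.rpow_mul (by norm_num), mul_comm,
          Real.rpow_mul (by norm_num), Real.rpow_natCast]

/-- **the sum over the range starts** -/
theorem sum_RSt {s : ℝ} (hs : 0 < s) : ∃ C : ℝ, 0 ≤ C ∧ ∀ p0 : ℕ, 3 ≤ p0 → ∀ F : Finset ℕ,
    (∀ p ∈ F, p0 < p ∧ RSt p) → ∑ p ∈ F, Real.log p ^ (-s) ≤ C * Real.log p0 ^ (-s) := by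
  set x : ℝ := (2 : ℝ) ^ (-s) with hx
  have x0 : 0 < x := Real.rpow_pos_of_pos (by norm_num) _
  have x1 : x < 1 := Real.rpow_lt_one_of_one_lt_of_neg (by norm_num) (by linarith)
  refine ⟨(1 - x)⁻¹ * 2 ^ s, by
    have : 0 < 1 - x := by linarith
    positivity, fun p0 h0 F hF => ?_⟩
  have hinj : Set.InjOn rg (F : Set ℕ) := fun p hp p' hp' e =>
    (hF p hp).2.inj (hF p' hp').2 (by have := (hF p hp).1; omega)
      (by have := (hF p' hp').1; omega) e
  have h1 : ∑ p ∈ F, Real.log p ^ (-s) ≤ ∑ k ∈ F.image rg, x ^ k := by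
    rw [Finset.sum_image hinj]
    exact Finset.sum_le_sum fun p hp => log_le_rg (by have := (hF p hp).1; omega) hs.le
  have h2 : ∑ k ∈ F.image rg, x ^ k ≤ x ^ rg p0 * (1 - x)⁻¹ := by
    have hsub : ∀ k ∈ F.image rg, rg p0 ≤ k := by
      intro k hk
      obtain ⟨p, hp, rfl⟩ := Finset.mem_image.1 hk
      exact rg_mono (by omega) (hF p hp).1.le
    have e2 : ∑ k ∈ (F.image rg).image (fun k => k - rg p0), x ^ k =
        ∑ k ∈ F.image rg, x ^ (k - rg p0) := by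
      refine Finset.sum_image fun a ha b hb e => ?_
      have h1 := hsub a ha
      have h2 := hsub b hb
      have h3 : a - rg p0 = b - rg p0 := e
      omega
    have e : ∑ k ∈ F.image rg, x ^ k =
        x ^ rg p0 * ∑ k ∈ (F.image rg).image (fun k => k - rg p0), x ^ k := by
      rw [e2, Finset.mul_sum]
      refine Finset.sum_congr rfl fun k hk => ?_
      rw [← pow_add, Nat.add_sub_cancel' (hsub k hk)]
    rw [e]
    refine mul_le_mul_of_nonneg_left ?_ (by positivity)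
    have hsm := summable_geometric_of_lt_one x0.le x1
    calc ∑ k ∈ (F.image rg).image (fun k => k - rg p0), x ^ k ≤ ∑' k : ℕ, x ^ k :=
          hsm.sum_le_tsum _ fun k _ => by positivity
      _ = (1 - x)⁻¹ := tsum_geometric_of_lt_one x0.le x1
  have h3 : x ^ rg p0 ≤ 2 ^ s * Real.log p0 ^ (-s) := by
    have k1 := lt_rg (p := p0)
    have k2 : 0 < Real.log p0 := lt_trans one_pos (one_lt_log h0)
    have k3 : Real.log p0 / 2 ≤ (2 : ℝ) ^ rg p0 := by
      rw [pow_succ] at k1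
      linarith
    calc x ^ rg p0 = ((2 : ℝ) ^ rg p0) ^ (-s) := by
          rw [← Real.rpow_natCast 2 (rg p0), ← Real.rpow_mul (by norm_num), mul_comm (rg p0 : ℝ),
            Real.rpow_mul (by norm_num), Real.rpow_natCast]
      _ ≤ (Real.log p0 / 2) ^ (-s) :=
          Real.rpow_le_rpow_of_nonpos (by positivity) k3 (by linarith)
      _ = 2 ^ s * Real.log p0 ^ (-s) := by
          rw [Real.div_rpow k2.le (by norm_num), Real.rpow_neg (by norm_num : (0 : ℝ) ≤ 2),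
            div_inv_eq_mul, mul_comm]
  have h4 : 0 ≤ (1 - x)⁻¹ := inv_nonneg.2 (by linarith)
  calc ∑ p ∈ F, Real.log p ^ (-s) ≤ x ^ rg p0 * (1 - x)⁻¹ := h1.trans h2
    _ ≤ (2 ^ s * Real.log p0 ^ (-s)) * (1 - x)⁻¹ := mul_le_mul_of_nonneg_right h3 h4
    _ = (1 - x)⁻¹ * 2 ^ s * Real.log p0 ^ (-s) := by ring

/-- **the sum over the range starts is small** -/
theorem sum_RSt_le {s s' : ℝ} (hs' : 0 ≤ s') (hs : s' < s) : ∃ p₁ : ℕ, 3 ≤ p₁ ∧ ∀ p0 ≥ p₁,
    ∀ F : Finset ℕ, (∀ p ∈ F, p0 < p ∧ RSt p) →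
      ∑ p ∈ F, Real.log p ^ (-s) ≤ Real.log p0 ^ (-s') := by
  obtain ⟨C, hC, H⟩ := sum_RSt (s := s) (by linarith)
  have hd : 0 < s - s' := by linarith
  obtain ⟨a, ha⟩ := eventually_atTop.1 (((tendsto_rpow_atTop hd).comp
    (Real.tendsto_log_atTop.comp tendsto_natCast_atTop_atTop)).eventually_ge_atTop C)
  refine ⟨a + 3, by omega, fun p0 h0 F hF => (H p0 (by omega) F hF).trans ?_⟩
  have k2 : 0 < Real.log p0 := lt_trans one_pos (one_lt_log (by omega))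
  have k3 : C ≤ Real.log p0 ^ (s - s') := ha p0 (by omega)
  calc C * Real.log p0 ^ (-s) ≤ Real.log p0 ^ (s - s') * Real.log p0 ^ (-s) :=
        mul_le_mul_of_nonneg_right k3 (Real.rpow_nonneg k2.le _)
    _ = Real.log p0 ^ (-s') := by
        rw [← Real.rpow_add k2]
        congr 1
        ring

/-- the same for `(1 + log p)^(-s)` -/
theorem sum_RSt_one {s s' : ℝ} (hs' : 0 ≤ s') (hs : s' < s) : ∃ p₁ : ℕ, 3 ≤ p₁ ∧ ∀ p0 ≥ p₁,
    ∀ F : Finset ℕ, (∀ p ∈ F, p0 < p ∧ RSt p) →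
      ∑ p ∈ F, (1 + Real.log p) ^ (-s) ≤ Real.log p0 ^ (-s') := by
  obtain ⟨p₁, h3, H⟩ := sum_RSt_le hs' hs
  refine ⟨p₁, h3, fun p0 h0 F hF => (Finset.sum_le_sum fun p hp => ?_).trans (H p0 h0 F hF)⟩
  have h1 := (hF p hp).1
  have k2 : 0 < Real.log p := lt_trans one_pos (one_lt_log (by omega))
  exact Real.rpow_le_rpow_of_nonpos k2 (by linarith) (by linarith)

/-! ### where the index may change -/

section cf
variable {c : Cf} {p q : ℕ}

/-- same thinness at `p` and `p - 1`, no own tie at `p` : the real state does not change -/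
theorem st_stay (h1 : c.wp.thr (p - 1) = c.wp.thr p) (h2 : c.lam (p - 1) = c.lam p)
    (h : p ∉ c.t.mt q) : c.st (p - 1) q = c.st p q :=
  stB_const (Nat.sub_le p 1) h1 h2 fun l hl h3 => by
    have : l ≠ p := fun e => h (e ▸ hl)
    omega

end cf

section ctx
variable {N : Skel189.Num} {Ct C₀ : ℝ} {Sx : ℕ → (ℕ → ℝ) → Finset ℕ → Finset ℕ} {γ : ℝ}
  {p0 P₀ : ℕ} {p q : ℕ}

/-- the thinness changes at the range starts only -/
theorem ctx_thr (h : NumOK N (thF Ct) Ct C₀ Sx) (X : Ctx N γ p0 P₀)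
    (hne : X.c.wp.thr (p - 1) ≠ X.c.wp.thr p) : RSt p := by
  intro e
  refine hne ?_
  rw [thr_eqF h X, thr_eqF h X]
  exact thrG_congr e

/-- the depth changes at the range starts only -/
theorem ctx_dep (h : NumOK N (thF Ct) Ct C₀ Sx) (X : Ctx N γ p0 P₀)
    (hne : X.c.wp.dep (p - 1) ≠ X.c.wp.dep p) : RSt p := by
  intro e
  refine hne ?_
  rw [X.dep, h.dep]
  exact depF_congr e

/-- a column `HvS32.GC` is a range start -/
theorem ctx_gc (h : NumOK N (thF Ct) Ct C₀ Sx) (X : Ctx N γ p0 P₀)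
    (hg : X.c.wp.thr p ≠ X.c.wp.thr (p - 1) ∨ X.c.wp.dep p ≠ X.c.wp.dep (p - 1)) : RSt p :=
  hg.elim (fun h1 => ctx_thr h X h1.symm) fun h1 => ctx_dep h X h1.symm

/-- **the field `hG` of `HvL32.hV_L`** (`GC` unfolded): `∑ (log n)^(-s) ≤ (log p0)^(-s')` over the columns
`GC`, `n > p0` -/
theorem ctx_hG (h : NumOK N (thF Ct) Ct C₀ Sx) {s s' : ℝ} (hs' : 0 ≤ s') (hs : s' < s) :
    ∃ p₁ : ℕ, 3 ≤ p₁ ∧ ∀ p0 ≥ p₁, ∀ (γ : ℝ) (P₀ : ℕ) (X : Ctx N γ p0 P₀) (F : Finset ℕ),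
      (∀ n ∈ F, p0 < n ∧
        (X.c.wp.thr n ≠ X.c.wp.thr (n - 1) ∨ X.c.wp.dep n ≠ X.c.wp.dep (n - 1))) →
      ∑ n ∈ F, Real.log n ^ (-s) ≤ Real.log p0 ^ (-s') := by
  obtain ⟨p₁, h3, H⟩ := sum_RSt_le hs' hs
  exact ⟨p₁, h3, fun p0 h0 γ P₀ X F hF =>
    H p0 h0 F fun p hp => ⟨(hF p hp).1, ctx_gc h X (hF p hp).2⟩⟩

/-- the same with a constant: `∑ (log n)^(-s) ≤ 1` for large `p0` -/
theorem ctx_hG_one (h : NumOK N (thF Ct) Ct C₀ Sx) {s : ℝ} (hs : 0 < s) :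
    ∃ p₁ : ℕ, 3 ≤ p₁ ∧ ∀ p0 ≥ p₁, ∀ (γ : ℝ) (P₀ : ℕ) (X : Ctx N γ p0 P₀) (F : Finset ℕ),
      (∀ n ∈ F, p0 < n ∧
        (X.c.wp.thr n ≠ X.c.wp.thr (n - 1) ∨ X.c.wp.dep n ≠ X.c.wp.dep (n - 1))) →
      ∑ n ∈ F, Real.log n ^ (-s) ≤ 1 := by
  obtain ⟨p₁, h3, H⟩ := ctx_hG h (le_refl (0 : ℝ)) hs
  refine ⟨p₁, h3, fun p0 h0 γ P₀ X F hF => (H p0 h0 γ P₀ X F hF).trans ?_⟩
  rw [neg_zero, Real.rpow_zero]

/-- **the real state of a piece without own tie `p` changes at the range starts only** -/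
theorem ctx_st (h : NumOK N (thF Ct) Ct C₀ Sx) (X : Ctx N γ p0 P₀) (hm : p ∉ X.c.t.mt q)
    (hne : X.c.st (p - 1) q ≠ X.c.st p q) : RSt p := by
  by_contra hc
  refine hne (st_stay ?_ ?_ hm)
  · by_contra h1
    exact hc (ctx_thr h X h1)
  · rw [NumX34.lam0 h X, NumX34.lam0 h X]

end ctx

end Crest.Agent.R4P.GrC21
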