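import Crest.Agent.R4P.TYI_47
import Crest.Agent.R4P.Zone_11

/-!
R4 (S0004) with powers, T3, helper54 (C4): **weights of the members of a group state against words**.

A member of a group state is a bundle; all its trees met at the column `p` have one WORD `W` (list of the
missing ties processed since the start node, most recent first).

* `CarW tu R` : relation `R p m W s τ` (column, memory, word, state, item tree) closed under the steps of
  the walk (`W` becomes `p :: W` at the N child of a tie); `Car.word` : `R ∧ s.B = B₀ * W.prod ∧ ..`.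
* `memW`, `memsW` : members are trees of nodes with the word `W`; `Wds p b WB WN` : `WB` = word of the
  ties and pulls `bB p b.2`, `WN` = word of the rest `bN p b.2`; closed under the steps (`Wds.toP`,
  `Wds.toN`, `Wds.toR`).
* **`OKW p₀ W₀ p s`** : the members have words, and for EVERY set `G` of words
  `Σ_k c_k V G p (WB k) ≤ V G p₀ W₀` (value function of `Zone_11`); closed under `BM.C`, `BM.N`
  (`OKW.C`, `OKW.N`), `OKW.one` (start), **`OKW.flag`** : `Σ_k c_k 1[G (word)] ≤ V G p₀ W₀`.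
-/

set_option autoImplicit false
set_option linter.unusedSectionVars false
set_option linter.unusedVariables false
open MeasureTheory Filter Set

namespace Crest.Agent.R4P.GwW54

open Crest.Agent.R4.Tour104 Crest.Agent.R4.Tour758 Crest.Agent.R4.Avg758 Crest.Agent.R4.Clos758
open Crest.Agent.R4.ClosL758 Crest.Agent.R4.ClosG758 Crest.Agent.R4.ClosR758
open Crest.Agent.R4P.ClosR442 Crest.Agent.R4P.Grp36
open Crest.Agent.R4P.Xfer36 Crest.Agent.R4P.TopC36 Crest.Agent.R4P.PN36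
open Crest.Agent.R4P.GMer27 Crest.Agent.R4P.GCol27 Crest.Agent.R4P.GWa343 Crest.Agent.R4P.GWb343
open Crest.Agent.R4P.GWc343 Crest.Agent.R4P.GWd343 Crest.Agent.R4P.GWf343 Crest.Agent.R4P.TrR343
open Crest.Agent.R4P.MSd343 Crest.Agent.R4P.VR407 Crest.Agent.R4P.Bp407 Crest.Agent.R4P.DTm407
open Crest.Agent.R4P.DTp26 Crest.Agent.R4P.RSys343 Crest.Agent.R4P.PayR45
open Crest.Agent.R4P.Cnt588 Crest.Agent.R4P.Item758
open Crest.Agent.R4P.Bld532 (NS All NodeOk)
open Crest.Agent.R4P.WalkIT579 (tp isL toDT_top toDT_leaf)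
open Crest.Agent.R4P.LogL51 (isLf isLf_iff)
open Crest.Agent.R4P.Walk560 (DT WrN)
open Crest.Agent.R4P.TYI47
open Crest.Agent.R4P.GSK55 (BC_pos BC_neg one)
open Crest.Agent.R4P.Zone11 (V V_nonneg V_le_one V_succ V_mono_col V_flag V_tie)

section nodes
variable {Λ κ : Type} [Fintype Λ] [DecidableEq Λ] [Fintype κ] [DecidableEq κ] {μ : Type}
  {D : Par Λ κ} {sp : ℕ → Finset Λ} {tu : ℕ → μ → μ} {R : ℕ → μ → List ℕ → NS → IT → Prop}

/-- **relation with words, closed under the steps of the walk** -/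
structure CarW (tu : ℕ → μ → μ) (R : ℕ → μ → List ℕ → NS → IT → Prop) : Prop where
  add : ∀ {p m W s t₁ t₀}, R p m W s (.add p t₁ t₀) → R p m W ⟨p + 1, s.c, s.A, s.B⟩ t₁ ∧
    R p m W ⟨p + 1, s.c, s.A, s.B⟩ t₀
  far : ∀ {p m W s t₁ t₀}, R p m W s (.far p t₁ t₀) → R p m W ⟨p + 1, s.c, s.A, s.B⟩ t₁ ∧
    R p m W ⟨p + 1, s.c, s.A, s.B⟩ t₀
  up : ∀ {p m W s Sp t}, R p m W s (.up p Sp t) → R p m W ⟨p, s.c, s.A, s.B⟩ t
  br : ∀ {p m W s Sp t₁ t₀}, R p m W s (.br p Sp t₁ t₀) →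
    R p (tu p m) W ⟨p, s.c / (1 - 1 / (p : ℝ)), s.A * p, s.B⟩ t₁ ∧
    R p (tu p m) (p :: W) ⟨p, s.c * p, s.A, s.B * p⟩ t₀
  pl : ∀ {p m W s t}, R p m W s (.pl p t) → R p (tu p m) W ⟨p + 1, s.c, s.A * p, s.B⟩ t
  down : ∀ {p m W s τ}, p ≠ 0 → R p m W s τ → tp τ < p → ¬ isL τ → R (p - 1) m W s τ

/-- **the word of a closed relation**: `s.B = B₀ * W.prod` -/
theorem Car.word {R : ℕ → μ → NS → IT → Prop} (H : Car tu R) (B₀ : ℕ) :
    CarW tu fun p m W s τ => R p m s τ ∧ s.B = B₀ * W.prod where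
  add := fun h => ⟨⟨(H.add h.1).1, h.2⟩, ⟨(H.add h.1).2, h.2⟩⟩
  far := fun h => ⟨⟨(H.far h.1).1, h.2⟩, ⟨(H.far h.1).2, h.2⟩⟩
  up := fun h => ⟨H.up h.1, h.2⟩
  br := fun {p m W s Sp t₁ t₀} h => ⟨⟨(H.br h.1).1, h.2⟩, ⟨(H.br h.1).2, by
    show s.B * p = B₀ * (p :: W).prod
    rw [h.2, List.prod_cons]; ring⟩⟩
  pl := fun h => ⟨H.pl h.1, h.2⟩
  down := fun hp h h1 h2 => ⟨H.down hp h.1 h1 h2, h.2⟩

/-- the same, the letters are primes `≥ p` -/
theorem Car.wordP {R : ℕ → μ → NS → IT → Prop} (H : Car tu R)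
    (hpr : ∀ {p m s Sp t₁ t₀}, R p m s (.br p Sp t₁ t₀) → p.Prime) (B₀ : ℕ) :
    CarW tu fun p m W s τ => R p m s τ ∧ s.B = B₀ * W.prod ∧ ∀ q ∈ W, q.Prime ∧ p ≤ q where
  add := fun h => ⟨⟨(H.add h.1).1, h.2⟩, ⟨(H.add h.1).2, h.2⟩⟩
  far := fun h => ⟨⟨(H.far h.1).1, h.2⟩, ⟨(H.far h.1).2, h.2⟩⟩
  up := fun h => ⟨H.up h.1, h.2⟩
  br := fun {p m W s Sp t₁ t₀} h => ⟨⟨(H.br h.1).1, h.2⟩, ⟨(H.br h.1).2, by
    show s.B * p = B₀ * (p :: W).prod
    rw [h.2.1, List.prod_cons]; ring, fun q hq => by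
      rcases List.mem_cons.1 hq with rfl | hq
      · exact ⟨hpr h.1, le_rfl⟩
      · exact h.2.2 q hq⟩⟩
  pl := fun h => ⟨H.pl h.1, h.2⟩
  down := fun hp h h1 h2 => ⟨H.down hp h.1 h1 h2, h.2.1, fun q hq =>
    ⟨(h.2.2 q hq).1, (Nat.sub_le _ _).trans (h.2.2 q hq).2⟩⟩

/-- the member is the tree of a node with the word `W` -/
def memW (D : Par Λ κ) (sp : ℕ → Finset Λ) (R : ℕ → μ → List ℕ → NS → IT → Prop) (p : ℕ) (m : μ)
    (W : List ℕ) (t : DT Λ κ) : Prop := ∃ s τ, R p m W s τ ∧ t = D.toDT sp s.B s.A τ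

/-- all the members have the word `W` -/
def memsW (D : Par Λ κ) (sp : ℕ → Finset Λ) (R : ℕ → μ → List ℕ → NS → IT → Prop) (p : ℕ) (m : μ)
    (W : List ℕ) (L : List (DT Λ κ)) : Prop := ∀ t ∈ L, memW D sp R p m W t

lemma memW_rs (H : CarW tu R) {p : ℕ} {m : μ} {W : List ℕ} : ∀ (τ : IT) (s : NS), R p m W s τ →
    ∀ t ∈ rs p (D.toDT sp s.B s.A τ), memW D sp R p m W t := by
  intro τ
  induction τ with
  | leaf S =>
    intro s hs t ht
    have e : t = D.toDT sp s.B s.A (.leaf S) := by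
      have h : t ∈ [D.toDT sp s.B s.A (.leaf S)] := ht
      simpa using h
    exact ⟨s, _, hs, e⟩
  | br q Sp t₁ t₀ ih₁ ih₀ =>
    intro s hs t ht
    have e : t = D.toDT sp s.B s.A (.br q Sp t₁ t₀) := by
      have h : t ∈ [D.toDT sp s.B s.A (.br q Sp t₁ t₀)] := ht
      simpa using h
    exact ⟨s, _, hs, e⟩
  | pl q t₁ ih =>
    intro s hs t ht
    have e : t = D.toDT sp s.B s.A (.pl q t₁) := by
      have h : t ∈ [D.toDT sp s.B s.A (.pl q t₁)] := ht
      simpa using h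
    exact ⟨s, _, hs, e⟩
  | add q t₁ t₀ ih₁ ih₀ =>
    intro s hs t ht
    have ht' : t ∈ (if q = p then rs p (D.toDT sp s.B s.A t₁) ++ rs p (D.toDT sp s.B s.A t₀)
      else [D.toDT sp s.B s.A (.add q t₁ t₀)]) := ht
    split_ifs at ht' with hq
    · subst hq
      obtain ⟨h1, h0⟩ := H.add hs
      rcases List.mem_append.1 ht' with h | h
      · exact ih₁ ⟨q + 1, s.c, s.A, s.B⟩ h1 t h
      · exact ih₀ ⟨q + 1, s.c, s.A, s.B⟩ h0 t h
    · exact ⟨s, _, hs, by simpa using ht'⟩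
  | far q t₁ t₀ ih₁ ih₀ =>
    intro s hs t ht
    have ht' : t ∈ (if q = p then rs p (D.toDT sp s.B s.A t₁) ++ rs p (D.toDT sp s.B s.A t₀)
      else [D.toDT sp s.B s.A (.far q t₁ t₀)]) := ht
    split_ifs at ht' with hq
    · subst hq
      obtain ⟨h1, h0⟩ := H.far hs
      rcases List.mem_append.1 ht' with h | h
      · exact ih₁ ⟨q + 1, s.c, s.A, s.B⟩ h1 t h
      · exact ih₀ ⟨q + 1, s.c, s.A, s.B⟩ h0 t h
    · exact ⟨s, _, hs, by simpa using ht'⟩
  | up q Sp t₁ ih =>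
    intro s hs t ht
    have ht' : t ∈ (if q = p then rs p (D.toDT sp s.B s.A t₁)
      else [D.toDT sp s.B s.A (.up q Sp t₁)]) := ht
    split_ifs at ht' with hq
    · subst hq
      exact ih ⟨q, s.c, s.A, s.B⟩ (H.up hs) t ht'
    · exact ⟨s, _, hs, by simpa using ht'⟩

variable {p : ℕ} {m : μ} {W : List ℕ} {L : List (DT Λ κ)}

lemma memsW.flat (H : CarW tu R) (h : memsW D sp R p m W L) :
    memsW D sp R p m W (L.flatMap (rs p)) := by
  intro t ht
  obtain ⟨u, hu, ht⟩ := List.mem_flatMap.1 ht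
  obtain ⟨s, τ, hs, rfl⟩ := h u hu
  exact memW_rs H τ s hs t ht

lemma memsW.filter (h : memsW D sp R p m W L) (f : DT Λ κ → Bool) :
    memsW D sp R p m W (L.filter f) := fun t ht => h t (List.mem_filter.1 ht).1

lemma memsW.bB (H : CarW tu R) (h : memsW D sp R p m W L) :
    memsW D sp R p m W (GWa343.bB p L) := (h.flat H).filter _

lemma memsW.bN (H : CarW tu R) (h : memsW D sp R p m W L) :
    memsW D sp R p m W (GWc343.bN p L) := ((h.flat H).filter _).filter _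

/-- a node at the column `p` -/
lemma memW.br_or_pl {t : DT Λ κ} (h : memW D sp R p m W t) (hb : isB p t = true) :
    (∃ s Sp t₁ t₀, R p m W s (.br p Sp t₁ t₀) ∧ t = D.toDT sp s.B s.A (.br p Sp t₁ t₀)) ∨
    ∃ s t₁, R p m W s (.pl p t₁) ∧ t = D.toDT sp s.B s.A (.pl p t₁) := by
  obtain ⟨s, τ, hs, rfl⟩ := h
  obtain ⟨w, r, a, b, v, B, G, e⟩ := isB_eq hb
  cases τ with
  | leaf S => exact absurd e (by simp [Par.toDT])
  | add q t₁ t₀ => exact absurd e (by simp [Par.toDT])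
  | far q t₁ t₀ => exact absurd e (by simp [Par.toDT])
  | up q Sp t₁ => exact absurd e (by simp [Par.toDT])
  | br q Sp t₁ t₀ =>
    have hq : q = p := by
      have := congrArg DT.top e
      exact this
    subst hq
    exact Or.inl ⟨s, Sp, t₁, t₀, hs, rfl⟩
  | pl q t₁ =>
    have hq : q = p := by
      have := congrArg DT.top e
      exact this
    subst hq
    exact Or.inr ⟨s, t₁, hs, rfl⟩

/-- the P child keeps the word -/
lemma memW.chP (H : CarW tu R) {t : DT Λ κ} (h : memW D sp R p m W t) (hb : isB p t = true) :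
    memW D sp R p (tu p m) W (GWa343.chP t) := by
  rcases h.br_or_pl hb with ⟨s, Sp, t₁, t₀, hs, rfl⟩ | ⟨s, t₁, hs, rfl⟩
  · exact ⟨_, t₁, (H.br hs).1, rfl⟩
  · exact ⟨_, t₁, H.pl hs, rfl⟩

/-- the N child of a tie gets the prime, the child of a pull keeps the word -/
lemma memW.chN (H : CarW tu R) (hp : p ≠ 0) {t : DT Λ κ} (h : memW D sp R p m W t)
    (hb : isB p t = true) : (wT t ≠ 0 ∧ memW D sp R p (tu p m) (p :: W) (GWa343.chN t)) ∨
      (wT t = 0 ∧ memW D sp R p (tu p m) W (GWa343.chN t)) := by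
  rcases h.br_or_pl hb with ⟨s, Sp, t₁, t₀, hs, rfl⟩ | ⟨s, t₁, hs, rfl⟩
  · have hp' : (p : ℝ) ≠ 0 := by exact_mod_cast hp
    have hw : (1 / (p : ℝ)) ≠ 0 := one_div_ne_zero hp'
    refine Or.inl ⟨hw, _, t₀, (H.br hs).2, ?_⟩
    show (if 1 / (p : ℝ) = 0 then _ else _) = _
    rw [if_neg hw]
  · refine Or.inr ⟨rfl, _, t₁, H.pl hs, ?_⟩
    show (if (0 : ℝ) = 0 then _ else _) = _
    rw [if_pos rfl]

/-- a tree below the column is not resolved at the column -/
lemma rs_low {t s : DT Λ κ} (hc : t.Col p) (hp : 0 < p) (hs : s ∈ rs p t) : s = t := by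
  have h1 := hc.top_lt hp
  cases t with
  | leaf r f => simpa [rs] using hs
  | br q w r t₁ t₀ v B G => simpa [rs] using hs
  | add q r t₁ t₀ =>
    have hq : q ≠ p := fun e => by
      have h2 : q < p := h1
      omega
    unfold rs at hs
    rw [if_neg hq] at hs
    simpa using hs
  | up q Sp t₁ =>
    have hq : q ≠ p := fun e => by
      have h2 : q < p := h1
      omega
    unfold rs at hs
    rw [if_neg hq] at hs
    simpa using hs

/-- the children of a tie are below the column -/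
lemma chN_low {t : DT Λ κ} (hc : t.Col (p + 1)) (hb : isB p t = true) (hw : wT t ≠ 0) :
    (GWa343.chN t).Col p := by
  obtain ⟨w, r, t₁, t₀, v, B, G, rfl⟩ := isB_eq hb
  have e5 : GWa343.chN (DT.br p w r t₁ t₀ v B G) = if w = 0 then t₁ else t₀ := rfl
  have hw' : w ≠ 0 := hw
  rw [e5, if_neg hw']
  exact (hc.2.2.2.2 hw').2

/-! ### words of a bundle -/

/-- **the words of a bundle at the column `p`** : `WB` of the ties and pulls, `WN` of the rest -/
structure Wds (D : Par Λ κ) (sp : ℕ → Finset Λ) (R : ℕ → μ → List ℕ → NS → IT → Prop) (p : ℕ)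
    (b : μ × List (DT Λ κ)) (WB WN : List ℕ) : Prop where
  B : memsW D sp R p b.1 WB (bB p b.2)
  N : memsW D sp R p b.1 WN (bN p b.2)

lemma Wds.start (H : CarW tu R) (h : memsW D sp R p m W L) : Wds D sp R p (m, L) W W :=
  ⟨h.bB H, h.bN H⟩

variable {F : DT Λ κ → Prop} {b : μ × List (DT Λ κ)} {WB WN : List ℕ}

lemma Wds.toP (H : CarW tu R) (h : Wds D sp R p b WB WN) :
    Wds D sp R p (tu p b.1, (bB p b.2).map chP) WB WB := by
  refine Wds.start H ?_
  intro t ht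
  obtain ⟨u, hu, rfl⟩ := List.mem_map.1 ht
  exact (h.B u hu).chP H (isB_of_bB hu)

lemma Wds.toN (H : CarW tu R) (hp : p ≠ 0) (hb : BI F p b.2) (h : Wds D sp R p b WB WN) :
    ∃ WN', (WN' = WB ∨ (WN' = p :: WB ∧ p.Prime)) ∧
      Wds D sp R p (tu p b.1, (bB p b.2).map chN) WB WN' := by
  have hp0 : 0 < p := Nat.pos_of_ne_zero hp
  have key : ∀ t ∈ ((bB p b.2).map chN).flatMap (rs p),
      (memW D sp R p (tu p b.1) (p :: WB) t ∧ p.Prime ∧ t.Col p) ∨
      memW D sp R p (tu p b.1) WB t := by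
    intro t ht
    obtain ⟨u', hu', ht⟩ := List.mem_flatMap.1 ht
    obtain ⟨u, hu, rfl⟩ := List.mem_map.1 hu'
    have hub := isB_of_bB hu
    have hcol := hb.bB.col u hu
    rcases (h.B u hu).chN H hp hub with ⟨hw, h1⟩ | ⟨hw, h1⟩
    · have hl := chN_low hcol hub hw
      have e := rs_low hl hp0 ht
      subst e
      refine Or.inl ⟨h1, ?_, hl⟩
      obtain ⟨w, r, t₁, t₀, v, B, G, e⟩ := isB_eq hub
      rw [e] at hcol
      exact hcol.1
    · obtain ⟨s, τ, hs, e⟩ := h1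
      rw [e] at ht
      exact Or.inr (memW_rs H τ s hs t ht)
  have hB : memsW D sp R p (tu p b.1) WB (bB p ((bB p b.2).map chN)) := by
    intro t ht
    have h1 : t ∈ ((bB p b.2).map chN).flatMap (rs p) := (List.mem_filter.1 ht).1
    rcases key t h1 with ⟨-, -, h2⟩ | h2
    · exfalso
      have h3 := h2.top_lt hp0
      obtain ⟨w, r, t₁, t₀, v, B, G, e⟩ := isB_eq (isB_of_bB ht)
      rw [e] at h3
      exact absurd h3 (lt_irrefl _)
    · exact h2
  have hl := (hb.toN).len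
  rcases hN : bN p ((bB p b.2).map chN) with _ | ⟨t, l⟩
  · exact ⟨WB, Or.inl rfl, hB, by
      show memsW D sp R p (tu p b.1) WB (bN p ((bB p b.2).map chN))
      rw [hN]
      exact fun t ht => absurd ht (by simp)⟩
  · rw [hN] at hl
    have hl0 : l = [] := by
      have : l.length = 0 := by simpa using hl
      exact List.length_eq_zero_iff.1 this
    subst hl0
    have ht : t ∈ bN p ((bB p b.2).map chN) := by rw [hN]; simp
    have h1 : t ∈ ((bB p b.2).map chN).flatMap (rs p) :=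
      (List.mem_filter.1 (List.mem_filter.1 ht).1).1
    rcases key t h1 with ⟨h2, h3, -⟩ | h2
    · refine ⟨p :: WB, Or.inr ⟨rfl, h3⟩, hB, ?_⟩
      show memsW D sp R p (tu p b.1) (p :: WB) (bN p ((bB p b.2).map chN))
      rw [hN]
      intro s hs
      rw [List.mem_singleton.1 hs]
      exact h2
    · refine ⟨WB, Or.inl rfl, hB, ?_⟩
      show memsW D sp R p (tu p b.1) WB (bN p ((bB p b.2).map chN))
      rw [hN]
      intro s hs
      rw [List.mem_singleton.1 hs]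
      exact h2

lemma Wds.toR [WRel κ] (H : CarW tu R) (hp : p ≠ 0) (hb : BI F p b.2) (h : Wds D sp R p b WB WN) :
    Wds D sp R (p - 1) (b.1, bN p b.2) WN WN := by
  refine Wds.start H ?_
  intro t ht
  obtain ⟨s, τ, hs, e⟩ := h.N t ht
  have h1 := hb.bN.col t ht
  have h2 := zero_of_bN ht
  have h3 := h1.top_le
  subst e
  refine ⟨s, τ, H.down hp hs ?_ ?_, rfl⟩
  · have e1 := toDT_top D sp s.B s.A τ
    have h4 : (D.toDT sp s.B s.A τ).top < p := lt_of_le_of_ne h3 h2.2.1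
    rwa [e1] at h4
  · intro hl
    exact h2.2.2 ((toDT_leaf D sp s.B s.A τ).2 hl)

/-! ### words of a group state -/

/-- **the members of the group state have words, and every set of words has weight `≤ V`** -/
def OKW (D : Par Λ κ) (sp : ℕ → Finset Λ) (R : ℕ → μ → List ℕ → NS → IT → Prop) (p₀ : ℕ)
    (W₀ : List ℕ) (p : ℕ) (s : Gs (μ × List (DT Λ κ))) : Prop :=
  ∃ WB WN : s.J → List ℕ, (∀ k, Wds D sp R p (s.L k) (WB k) (WN k)) ∧
    ∀ G : List ℕ → Prop, (∑ k, s.c k * V G p (WB k) ≤ V G p₀ W₀) ∧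
      (∑ k, s.c k * V G (p - 1) (WN k) ≤ V G p₀ W₀)

variable {p₀ : ℕ} {W₀ : List ℕ} {s : Gs (μ × List (DT Λ κ))}

/-- bundle maps of lists of trees -/
structure LM (B : BM (μ × List (DT Λ κ))) (tu : ℕ → μ → μ) (F : DT Λ κ → Prop) : Prop where
  eP : ∀ {p b}, B.ok p b → p ≠ 0 → B.cP p b = (tu p b.1, (bB p b.2).map chP)
  eN : ∀ {p b}, B.ok p b → p ≠ 0 → B.cN p b = (tu p b.1, (bB p b.2).map chN)
  eR : ∀ {p b}, B.ok p b → p ≠ 0 → B.rN p b = (b.1, bN p b.2)
  bi : ∀ {p b}, B.ok p b → BI F p b.2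

/-- start -/
lemma OKW.one (H : CarW tu R) {t : DT Λ κ} (h : memW D sp R p m W t) :
    OKW D sp R p W p (GSK55.one (m, [t])) := by
  refine ⟨fun _ => W, fun _ => W, fun _ => Wds.start H fun s hs => by
    rw [List.mem_singleton.1 hs]; exact h, fun G => ?_⟩
  have e : ∀ x : ℝ, ∑ k, (GSK55.one (m, [t])).c k * x = x := fun x => by
    show ∑ k : Unit, (1 : ℝ) * x = x
    simp
  exact ⟨(e _).le, (e _).le.trans (V_mono_col (Nat.sub_le p 1) W)⟩

/-- **the rest** -/
theorem OKW.N [WRel κ] {B : BM (μ × List (DT Λ κ))} (H : CarW tu R) (hL : LM B tu F) (hp : p ≠ 0)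
    (hs : ∀ k, B.ok p (s.L k)) (c0 : ∀ k, 0 ≤ s.c k) (h : OKW D sp R p₀ W₀ p s) :
    OKW D sp R p₀ W₀ (p - 1) (B.N p s) := by
  obtain ⟨WB, WN, h1, h2⟩ := h
  refine ⟨WN, WN, fun k => ?_, fun G => ⟨(h2 G).2, ?_⟩⟩
  · show Wds D sp R (p - 1) (B.rN p (s.L k)) (WN k) (WN k)
    rw [hL.eR (hs k) hp]
    exact (h1 k).toR H hp (hL.bi (hs k))
  · refine le_trans ?_ (h2 G).2
    show ∑ k, s.c k * _ ≤ ∑ k, s.c k * _
    exact Finset.sum_le_sum fun k _ =>
      mul_le_mul_of_nonneg_left (V_mono_col (Nat.sub_le _ _) _) (c0 k)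

/-- **the children** -/
theorem OKW.C {B : BM (μ × List (DT Λ κ))} (H : CarW tu R) (hL : LM B tu F) (hp : p ≠ 0)
    (hs : ∀ k, B.ok p (s.L k)) (c0 : ∀ k, 0 ≤ s.c k) (h : OKW D sp R p₀ W₀ p s) :
    OKW D sp R p₀ W₀ p (B.C p s) := by
  obtain ⟨WB, WN, h1, h2⟩ := h
  by_cases h22 : 2 ≤ p
  · rw [BC_pos B h22]
    have hN := fun k => (h1 k).toN H hp (hL.bi (hs k))
    choose WN' hN1 hN2 using hN
    refine ⟨fun x => WB x.1, fun x => if x.2 then WB x.1 else WN' x.1, fun x => ?_, fun G => ?_⟩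
    · show Wds D sp R p (if x.2 = true then B.cP p (s.L x.1) else B.cN p (s.L x.1)) _ _
      by_cases hx : x.2 = true
      · simp only [hx, if_true]
        rw [hL.eP (hs x.1) hp]
        exact (h1 x.1).toP H
      · have hx' : x.2 = false := by simpa using hx
        simp only [hx', Bool.false_eq_true, if_false]
        rw [hL.eN (hs x.1) hp]
        exact hN2 x.1
    · have e : ∀ f : s.J × Bool → ℝ, (∑ x : s.J × Bool, cT (1 - 1 / (p : ℝ)) s.c x * f x) =
          ∑ k, s.c k * ((1 - 1 / (p : ℝ)) * f (k, true) + 1 / (p : ℝ) * f (k, false)) := by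
        intro f
        rw [Fintype.sum_prod_type]
        refine Finset.sum_congr rfl fun k _ => ?_
        rw [Fintype.sum_bool]
        unfold cT
        simp only [if_true, Bool.false_eq_true, if_false]
        ring
      have w0 : 0 ≤ 1 / (p : ℝ) := by positivity
      have w1 : 0 ≤ 1 - 1 / (p : ℝ) := by
        have : 1 / (p : ℝ) ≤ 1 := by
          rw [div_le_one (by positivity)]
          exact_mod_cast (by omega : 1 ≤ p)
        linarith
      constructor
      · refine le_trans (le_of_eq ?_) (h2 G).1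
        show (∑ x : s.J × Bool, cT (1 - 1 / (p : ℝ)) s.c x * V G p (WB x.1)) = _
        rw [e fun x => V G p (WB x.1)]
        exact Finset.sum_congr rfl fun k _ => by ring
      · refine le_trans ?_ (h2 G).1
        show (∑ x : s.J × Bool, cT (1 - 1 / (p : ℝ)) s.c x *
          V G (p - 1) (if x.2 then WB x.1 else WN' x.1)) ≤ _
        rw [e fun x => V G (p - 1) (if x.2 then WB x.1 else WN' x.1)]
        refine Finset.sum_le_sum fun k _ => mul_le_mul_of_nonneg_left ?_ (c0 k)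
        simp only [if_true, Bool.false_eq_true, if_false]
        have hm := V_mono_col (F := G) (Nat.sub_le p 1) (WB k)
        rcases hN1 k with h3 | ⟨h3, h4⟩
        · rw [h3]
          have : (1 - 1 / (p : ℝ)) * V G (p - 1) (WB k) + 1 / (p : ℝ) * V G (p - 1) (WB k) =
              V G (p - 1) (WB k) := by ring
          rw [this]
          exact hm
        · rw [h3]
          exact V_tie h4 w0 le_rfl (WB k)
  · have hp1 : p = 1 := by omega
    rw [BC_neg B h22]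
    refine ⟨WB, WB, fun k => ?_, fun G => ⟨(h2 G).1, ?_⟩⟩
    · show Wds D sp R p (B.cP p (s.L k)) (WB k) (WB k)
      rw [hL.eP (hs k) hp]
      exact (h1 k).toP H
    · refine le_trans ?_ (h2 G).1
      show ∑ k, s.c k * _ ≤ ∑ k, s.c k * _
      exact Finset.sum_le_sum fun k _ =>
        mul_le_mul_of_nonneg_left (V_mono_col (Nat.sub_le _ _) _) (c0 k)

open Classical in
/-- **weight of the flagged members** -/
theorem OKW.flag (c0 : ∀ k, 0 ≤ s.c k) (h : OKW D sp R p₀ W₀ p s) :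
    ∃ WB : s.J → List ℕ, (∀ k, memsW D sp R p (s.L k).1 (WB k) (bB p (s.L k).2)) ∧
      ∀ G : List ℕ → Prop, (∑ k, if G (WB k) then s.c k else 0) ≤ V G p₀ W₀ := by
  obtain ⟨WB, WN, h1, h2⟩ := h
  refine ⟨WB, fun k => (h1 k).B, fun G => le_trans ?_ (h2 G).1⟩
  refine Finset.sum_le_sum fun k _ => ?_
  split_ifs with hG
  · rw [V_flag hG, mul_one]
  · exact mul_nonneg (c0 k) (V_nonneg _ _)

open Classical in
/-- weight of the flagged members, by the words of the rest -/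
theorem OKW.flagN (c0 : ∀ k, 0 ≤ s.c k) (h : OKW D sp R p₀ W₀ p s) :
    ∃ WN : s.J → List ℕ, (∀ k, memsW D sp R p (s.L k).1 (WN k) (bN p (s.L k).2)) ∧
      ∀ G : List ℕ → Prop, (∑ k, if G (WN k) then s.c k else 0) ≤ V G p₀ W₀ := by
  obtain ⟨WB, WN, h1, h2⟩ := h
  refine ⟨WN, fun k => (h1 k).N, fun G => le_trans ?_ (h2 G).2⟩
  refine Finset.sum_le_sum fun k _ => ?_
  split_ifs with hG
  · rw [V_flag hG, mul_one]
  · exact mul_nonneg (c0 k) (V_nonneg _ _)

end nodes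

end Crest.Agent.R4P.GwW54
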