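import Crest.Agent.R4P.RuV_47
import Crest.Agent.R4P.AsH_24

/-!
R4 (S0004) with powers, T3, helper32: **linear charges of the index changes of an item** (field `hV`).

* `GC c n` : column where `thr` or `dep` changes;
* **`chg_sum`** : events `P` of the rests `n ≤ P1` of an unflagged item with `n` an own missing tie or `GC`:
  `Σ θ n · 1[P n] ≤ κ Lay a s1 δ 1 + κ G` if `θ n ≤ κ (log n)^(-s1)` and `Σ (log n)^(-s1) ≤ G` over the
  columns `GC`;
* `Ocr` : crossing of the stage of the start `P1`, **`Ocr.unique`** (once per item), **`ocr_of`** : a change of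
  the real state at `p ≤ P1` without a missing tie in `[p, P1]` is such a crossing;
* **`st_gc`** : a change of the real state without own missing tie is at a column `GC`.
-/

set_option autoImplicit false
set_option linter.unusedSectionVars false
set_option linter.unusedVariables false
open MeasureTheory Filter Set

namespace Crest.Agent.R4P.HvS32

open Crest.Agent.R4.Tour104 Crest.Agent.R4.Clos758
open Crest.Agent.R4P.Cnt588 Crest.Agent.R4P.Item758 Crest.Agent.R4P.W363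
open Crest.Agent.R4P.Data758
open Crest.Agent.R4P.Bld532 (NS All NodeOk Bk dv nd)
open Crest.Agent.R4P.StratN36 (ex)
open Crest.Agent.R4P.Step588 Crest.Agent.R4P.RseSt23
open Crest.Agent.R4P.Skel189 Crest.Agent.R4P.Frame758
open Crest.Agent.R4P.OmW11 Crest.Agent.R4P.OmX11
open Crest.Agent.R4P.StB21 (TH bt)
open Crest.Agent.R4P.StJ6 (FMon flg flg_le Ent)
open Crest.Agent.R4P.CrZ41 Crest.Agent.R4P.CrF47 Crest.Agent.R4P.EvC47
open Crest.Agent.R4P.StM6 Crest.Agent.R4P.StM246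
open Crest.Agent.R4P.AsH24 Crest.Agent.R4P.RuV47

/-! ### columns where the numbers change -/

/-- **columns where `thr` or `dep` changes** -/
def GC (c : Cf) (n : ℕ) : Prop := c.wp.thr n ≠ c.wp.thr (n - 1) ∨ c.wp.dep n ≠ c.wp.dep (n - 1)

section item
variable {c : Cf} {n p P P1 p0 q : ℕ} {F : ℕ → Finset ℕ → Prop} {a δ s1 κ G : ℝ}

/-- **the charges of the index changes of an item** -/
theorem chg_sum (hO : c.t.Ok n) (hF : FMon F) (hOm : ∀ n M, Om a δ n P M → F n M) (ha : 0 < a)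
    (hδ : 0 ≤ δ) (hs : 0 < s1) (h16 : 16 ≤ p0) (hP : P1 ≤ P) {θ : ℕ → ℝ}
    (hκ : 0 ≤ κ) (hθ' : ∀ n : ℕ, 16 ≤ n → θ n ≤ κ * Real.log n ^ (-s1))
    (hG : ∀ s : Finset ℕ, (∀ n ∈ s, p0 < n ∧ GC c n) → ∑ n ∈ s, Real.log n ^ (-s1) ≤ G)
    {Pr : ℕ → Prop} (hPr : ∀ n ≤ P1, Pr n → p0 < n ∧ ¬ flg F c n q ∧ (n ∈ c.t.mt q ∨ GC c n)) :
    ∑ m ∈ Finset.range (P1 + 1), θ m * ind (Pr m) ≤ κ * (Lay a s1 δ 1 + G) := by
  classical
  set A := (Finset.range (P1 + 1)).filter fun m => Pr m ∧ m ∈ c.t.mt q with hA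
  set B := (Finset.range (P1 + 1)).filter fun m => Pr m ∧ m ∉ c.t.mt q with hB
  have e : ∑ m ∈ Finset.range (P1 + 1), θ m * ind (Pr m) = ∑ m ∈ A, θ m + ∑ m ∈ B, θ m := by
    rw [hA, hB, Finset.sum_filter, Finset.sum_filter, ← Finset.sum_add_distrib]
    refine Finset.sum_congr rfl fun m _ => ?_
    by_cases h1 : Pr m <;> by_cases h2 : m ∈ c.t.mt q <;> simp [h1, h2, ind_on, ind_off]
  have mA : ∀ m ∈ A, Unf F c q m ∧ m ≤ P ∧ 16 ≤ m := fun m hm => by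
    obtain ⟨h1, h2, h3⟩ := Finset.mem_filter.1 hm
    have h4 := Finset.mem_range.1 h1
    obtain ⟨k1, k2, -⟩ := hPr m (by omega) h2
    exact ⟨⟨h3, k2⟩, by omega, by omega⟩
  have mB : ∀ m ∈ B, p0 < m ∧ GC c m := fun m hm => by
    obtain ⟨h1, h2, h3⟩ := Finset.mem_filter.1 hm
    have h4 := Finset.mem_range.1 h1
    obtain ⟨k1, -, k3⟩ := hPr m (by omega) h2
    exact ⟨k1, k3.resolve_left h3⟩
  have h1 := unf_num hO hF hOm ha hδ hs A mA
  have h2 := hG B mB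
  have h3 : ∑ m ∈ A, θ m ≤ κ * ∑ m ∈ A, Real.log (m : ℝ) ^ (-s1) := by
    rw [Finset.mul_sum]
    exact Finset.sum_le_sum fun m hm => hθ' m (mA m hm).2.2
  have h4 : ∑ m ∈ B, θ m ≤ κ * ∑ m ∈ B, Real.log (m : ℝ) ^ (-s1) := by
    rw [Finset.mul_sum]
    exact Finset.sum_le_sum fun m hm => hθ' m (h16.trans (mB m hm).1.le)
  have h5 := mul_le_mul_of_nonneg_left h1 hκ
  have h6 := mul_le_mul_of_nonneg_left h2 hκ
  rw [e, mul_add]
  linarith

/-- **crossing of the stage of the start** `P1` -/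
def Ocr (P1 p0 : ℕ) (c : Cf) (q n : ℕ) : Prop :=
  p0 < n ∧ c.wp.thr n < ((ms c P1 q).prod : ℝ) * c.r q ∧
    ((ms c P1 q).prod : ℝ) * c.r q ≤ c.wp.thr (n - 1)

/-- **once per item** -/
theorem Ocr.unique (hanti : ∀ l p : ℕ, p0 ≤ l → l ≤ p → c.wp.thr p ≤ c.wp.thr l) {m : ℕ}
    (h : Ocr P1 p0 c q n) (h' : Ocr P1 p0 c q m) : n = m := by
  obtain ⟨a1, a2, a3⟩ := h
  obtain ⟨b1, b2, b3⟩ := h'
  rcases lt_trichotomy n m with h | h | h
  · have := hanti n (m - 1) a1.le (by omega)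
    linarith
  · exact h
  · have := hanti m (n - 1) b1.le (by omega)
    linarith

/-- the credit of the crossings of the stage of the start -/
theorem Ocr_sum (hanti : ∀ l p : ℕ, p0 ≤ l → l ≤ p → c.wp.thr p ≤ c.wp.thr l) (hκ : 0 ≤ κ)
    {Pr : ℕ → Prop} (s : Finset ℕ) (hPr : ∀ n ∈ s, Pr n → Ocr P1 p0 c q n) :
    ∑ m ∈ s, κ * ind (Pr m) ≤ κ := by
  rw [← Finset.mul_sum]
  have h : ∑ m ∈ s, ind (Pr m) ≤ 1 := by
    refine (Finset.sum_le_sum fun m hm => ind_mono (hPr m hm)).trans ?_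
    exact sum_ind_one (P := fun n => Ocr P1 p0 c q n) (fun a b h1 h2 => h1.unique hanti h2) s
  calc κ * ∑ m ∈ s, ind (Pr m) ≤ κ * 1 := mul_le_mul_of_nonneg_left h hκ
    _ = κ := mul_one κ

end item

/-! ### the real state -/

section ctx
variable {N : Skel189.Num} {γ : ℝ} {p0 P₀ : ℕ} {X : Ctx N γ p0 P₀} {p P1 q : ℕ}

/-- **a change of the real state without own missing tie** : the crossing of the stage -/
theorem st_cross (hT : TH X) (hR : All (Step588.RdOk X) ⟨top X.S, 1, 1, 1⟩ X.c.t)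
    (hq : q ∈ X.S') (hlv : p0 ≤ X.c.lv q) (hp : X.c.lv q < p) (h10 : X.c.wp.thr (p - 1) ≤ 1 / 10)
    (hm : p ∉ X.c.t.mt q) (hne : X.c.st (p - 1) q ≠ X.c.st p q) :
    X.c.wp.thr p < ((ms X.c p q).prod : ℝ) * X.c.r q ∧
      ((ms X.c p q).prod : ℝ) * X.c.r q ≤ X.c.wp.thr (p - 1) := by
  have e := low_eq (hT.lam p) hm
  rw [← e] at hne
  obtain ⟨s, h1, h2, h3, h4, h5, -⟩ := ctx_rest_real hT hR hq hlv hp h10 hne
  have e1 : ms X.c (p - 1) q = ms X.c p q := lst_pred hm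
  have e2 : ((ms X.c p q).prod : ℝ) = ((s * (ms X.c s q).prod : ℕ) : ℝ) := by
    rw [← e1, h3, List.prod_cons]
  rw [e2]
  exact ⟨h4, h5⟩

/-- **... is at a column where `thr` changes** -/
theorem st_gc (hT : TH X) (hR : All (Step588.RdOk X) ⟨top X.S, 1, 1, 1⟩ X.c.t)
    (hq : q ∈ X.S') (hlv : p0 ≤ X.c.lv q) (hp : X.c.lv q < p) (h10 : X.c.wp.thr (p - 1) ≤ 1 / 10)
    (hne : X.c.st (p - 1) q ≠ X.c.st p q) : p ∈ X.c.t.mt q ∨ GC X.c p := by
  by_cases hm : p ∈ X.c.t.mt q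
  · exact Or.inl hm
  · obtain ⟨h1, h2⟩ := st_cross hT hR hq hlv hp h10 hm hne
    exact Or.inr (Or.inl (h1.trans_le h2).ne)

/-- **a change of the real state at `p ≤ P1` without a missing tie in `[p, P1]`** -/
theorem ocr_of (hT : TH X) (hR : All (Step588.RdOk X) ⟨top X.S, 1, 1, 1⟩ X.c.t)
    (hq : q ∈ X.S') (hlv : p0 ≤ X.c.lv q) (hp : X.c.lv q < p) (h10 : X.c.wp.thr (p - 1) ≤ 1 / 10)
    (hP : p ≤ P1) (hm : ∀ l ∈ X.c.t.mt q, p ≤ l → P1 < l) (hne : X.c.st (p - 1) q ≠ X.c.st p q) :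
    Ocr P1 p0 X.c q p := by
  have hm0 : p ∉ X.c.t.mt q := fun h => absurd (hm p h le_rfl) (by omega)
  have e : ms X.c p q = ms X.c P1 q := IxRange34.lst_congr hP fun l hl h1 => hm l hl h1.le
  obtain ⟨h1, h2⟩ := st_cross hT hR hq hlv hp h10 hm0 hne
  rw [e] at h1 h2
  exact ⟨by omega, h1, h2⟩

end ctx

end Crest.Agent.R4P.HvS32
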