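import Crest.Agent.R4P.EvL_9
import Crest.Agent.R4P.HvS_32

/-!
R4 (S0004) with powers, T3, helper32: **`hV` for the lists of the rule of the real index** (`EvL_9`).

* `PV_gc` : an index change of an unflagged piece is at an own missing tie or at a column `GC`;
* **`VL_sum`** : the index changes of an item cost at most `κ (Lay a s1 δ 1 + G)`;
* **`hV_L`** : the averaged linear charges of a family, item-wise, at any point.
-/

set_option autoImplicit false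
set_option linter.unusedSectionVars false
set_option linter.unusedVariables false
open MeasureTheory Filter Set

namespace Crest.Agent.R4P.HvL32

open Crest.Agent.R4.Tour104 Crest.Agent.R4.Clos758
open Crest.Agent.R4P.Cnt588 Crest.Agent.R4P.Item758 Crest.Agent.R4P.W363
open Crest.Agent.R4P.Data758
open Crest.Agent.R4P.Bld532 (NS All NodeOk Bk dv nd)
open Crest.Agent.R4P.StratN36 (ex)
open Crest.Agent.R4P.Step588 Crest.Agent.R4P.RseSt23
open Crest.Agent.R4P.Skel189 Crest.Agent.R4P.Frame758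
open Crest.Agent.R4P.OmW11 Crest.Agent.R4P.OmX11
open Crest.Agent.R4P.StB21 (TH bt)
open Crest.Agent.R4P.StJ6 (FMon flg flg_le Ent)
open Crest.Agent.R4P.CrZ41 Crest.Agent.R4P.CrF47
open Crest.Agent.R4P.AsH24 (Lay lay_nonneg)
open Crest.Agent.R4P.RuV47 Crest.Agent.R4P.HvS32 Crest.Agent.R4P.EvL9

variable {N : Skel189.Num} {γ : ℝ} {p0 P₀ : ℕ} {X : Ctx N γ p0 P₀} {F : ℕ → Finset ℕ → Prop}
  {P P1 : ℕ} {a δ s1 K G : ℝ} {κ : ℕ → ℝ}

/-- **an index change of an unflagged piece** -/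
theorem PV_gc (hT : TH X) (hR : All (Step588.RdOk X) ⟨Skel189.top X.S, 1, 1, 1⟩ X.c.t) {n : ℕ}
    {j : X.c.Lam} (h : PV F X n j) :
    p0 < n ∧ ¬ flg F X.c n j.1.1 ∧ (n ∈ X.c.t.mt j.1.1 ∨ GC X.c n) := by
  obtain ⟨⟨h1, h2, h3, h4, h5, -⟩, h6⟩ := h
  refine ⟨h1, h5, ?_⟩
  rcases h6 with h6 | h6
  · rcases stc_cases hT hR h2 h1 h3 h4 h6 with h7 | ⟨-, s, -, -, -, -, k1, k2⟩
    · exact Or.inl h7
    · exact Or.inr (Or.inl (k1.trans_le k2).ne)
  · exact Or.inr (Or.inr fun e => h6.2.2 e.symm)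

/-- **the index changes of an item** -/
theorem VL_sum (hT : TH X) (hR : All (Step588.RdOk X) ⟨Skel189.top X.S, 1, 1, 1⟩ X.c.t)
    (hF : FMon F) (hOm : ∀ n M, Om a δ n P M → F n M) (ha : 0 < a) (hδ : 0 ≤ δ) (hs : 0 < s1)
    (h16 : 16 ≤ p0) (hP : P1 ≤ P) (hK : 0 ≤ K) (hκ : ∀ n : ℕ, 16 ≤ n → κ n ≤ K * Real.log n ^ (-s1))
    (hG : ∀ s : Finset ℕ, (∀ n ∈ s, p0 < n ∧ GC X.c n) → ∑ n ∈ s, Real.log n ^ (-s1) ≤ G)
    (j : X.c.Lam) (z : ℝ) :
    ∑ n ∈ Finset.range (P1 + 1), (VL F X κ).f n j z ≤ K * (Lay a s1 δ 1 + G) := by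
  have h1 := chg_sum (c := X.c) (q := j.1.1) X.tOk hF hOm ha hδ hs h16 hP
    (θ := fun n => max 0 (κ n)) hK (fun n hn => max_le (mul_nonneg hK (Real.rpow_nonneg
      (Real.log_natCast_nonneg n) _)) (hκ n hn)) hG (Pr := fun n => PV F X n j)
    fun n _ hn => PV_gc hT hR hn
  refine (Finset.sum_congr rfl fun n _ => ?_).trans_le h1
  rw [EvS_f]

/-- **field `hV`** : the averaged linear charges -/
theorem hV_L (hT : TH X) (hR : All (Step588.RdOk X) ⟨Skel189.top X.S, 1, 1, 1⟩ X.c.t)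
    {A : Type} [Fintype A] {ω : A → ℝ} (ω0 : ∀ i, 0 ≤ ω i) (ω1 : ∑ i, ω i = 1)
    {F : A → ℕ → Finset ℕ → Prop} (hF : ∀ i, FMon (F i))
    (hOm : ∀ i n M, Om a δ n P M → F i n M) (ha : 0 < a) (hδ : 0 ≤ δ) (hs : 0 < s1)
    (h16 : 16 ≤ p0) (hP : P1 ≤ P) (hK : 0 ≤ K) (hκ : ∀ n : ℕ, 16 ≤ n → κ n ≤ K * Real.log n ^ (-s1))
    (hG : ∀ s : Finset ℕ, (∀ n ∈ s, p0 < n ∧ GC X.c n) → ∑ n ∈ s, Real.log n ^ (-s1) ≤ G)
    {b c : ℝ} (hb : 0 ≤ b) (hc : 0 ≤ c) (j : X.c.Lam) (z : ℝ) :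
    ∑ i, ω i * ∑ n ∈ Finset.range (P1 + 1), ((VL (F i) X κ).f n j z + (VoL (F i) X b).f n j z +
      (VcL (F i) X P1 c).f n j z) ≤ K * (Lay a s1 δ 1 + G) + b + c := by
  have key : ∀ i, ∑ n ∈ Finset.range (P1 + 1), ((VL (F i) X κ).f n j z +
      (VoL (F i) X b).f n j z + (VcL (F i) X P1 c).f n j z) ≤
        K * (Lay a s1 δ 1 + G) + b + c := fun i => by
    rw [Finset.sum_add_distrib, Finset.sum_add_distrib]
    have h1 := VL_sum hT hR (hF i) (hOm i) ha hδ hs h16 hP hK hκ hG j z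
    have h2 := VoL_once (X := X) (hF i) hb (Finset.range (P1 + 1)) j z
    have h3 := VcL_once (F := F i) (P₁ := P1) hT hR hc
      (r := Finset.range (P1 + 1)) (fun n hn => by have := Finset.mem_range.1 hn; omega) j z
    linarith
  calc ∑ i, ω i * ∑ n ∈ Finset.range (P1 + 1), ((VL (F i) X κ).f n j z +
        (VoL (F i) X b).f n j z + (VcL (F i) X P1 c).f n j z)
      ≤ ∑ i, ω i * (K * (Lay a s1 δ 1 + G) + b + c) :=
        Finset.sum_le_sum fun i _ => mul_le_mul_of_nonneg_left (key i) (ω0 i)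
    _ = K * (Lay a s1 δ 1 + G) + b + c := by rw [← Finset.sum_mul, ω1, one_mul]

end Crest.Agent.R4P.HvL32
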