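import Crest.Agent.R4P.AddLB_7
import Crest.Agent.R4P.AddNode2_7
import Crest.Agent.R4P.RseAr_23

/-!
R4 (S0004) with powers, T3, helper5: **labelled pairs with different labels and `b² ≤ Zc`** (copy of
helper7's `AddLB_7` with `b² ≤ Zc` in the place of `b² ∣ cof`), and the arithmetic of two primes which
separate the items of a pair: `Zc ≥ b l`.
-/

set_option autoImplicit false
open Finset

namespace Crest.Agent.R4P.JnL5

open Crest.Agent.R4.HVW560 Crest.Agent.R4.HVWX793 Crest.Agent.R4.LLpair207 Crest.Agent.R4.InX944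
open Crest.Agent.R4.LF363 (Lab)
open Crest.Agent.R4.LL207 (Zc div_gcd_pos dvd_of_exact Zc_ge Zc_symm Zc_pos CL CL_nonneg CX CX_pos
  e1 Bz_le D_ge lac_sum double)
open Crest.Agent.R4P.AddLB7 (schur_prod row6)
open Crest.Agent.R4

/-- **one pair of labels, `d ≤ z₁ z₂`** -/
theorem ll_label_z {V W : Finset ℕ} {R R' : ℕ → ℝ}
    (hV : ∀ v ∈ V, 0 < v ∧ 0 < R v) (hW : ∀ w ∈ W, 0 < w ∧ 0 < R' w)
    {z₁ z₂ d : ℕ} (hz₁ : 0 < z₁) (hz₂ : 0 < z₂) (hd : 0 < d) {K : ℝ} (hK : 0 ≤ K)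
    {F : ℕ × ℕ → ℝ} {E : Finset (ℕ × ℕ)}
    (hE : E ⊆ V ×ˢ W) (hz : ∀ e ∈ E, z₁ ∣ cof e.1 e.2 ∧ z₂ ∣ cof e.2 e.1)
    (hdz : d ≤ z₁ * z₂)
    (hD : ∀ e ∈ E, 1 ≤ 1024 * (Dp R R' e)^4 * ((z₁ * z₂ : ℕ) : ℝ)^10)
    (hF : ∀ e ∈ E, F e ≤ K * ((wt R e.1 * wt R' e.2) / Dp R R' e)) :
    ∑ e ∈ E, F e ≤ (10^5 * CL e1) * (K * ((d:ℝ)^(-(11/40) : ℝ) * ((z₁ * z₂ : ℕ) : ℝ)^(-(1/6) : ℝ))) *
      ((∑ v ∈ V, wt R v) * ∑ w ∈ W, wt R' w)^(1/2+e1) := by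
  have he1 : 0 < e1 := by unfold e1; norm_num
  have he4 : e1 ≤ 1/4 := by unfold e1; norm_num
  set Z : ℝ := ((z₁ * z₂ : ℕ) : ℝ) with hZ
  have hZ1 : 1 ≤ Z := by rw [hZ]; exact_mod_cast Nat.mul_pos hz₁ hz₂
  have hZ0 : 0 < Z := by linarith
  set δ : ℝ := 1/6 * Z^(-(5/2) : ℝ) with hδd
  have hδ : 0 < δ := by positivity
  have hδ4 : δ^4 * Z^10 = 1/1296 := by
    rw [hδd, mul_pow, ← Real.rpow_natCast (Z^(-(5/2):ℝ)) 4, ← Real.rpow_mul hZ0.le,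
      ← Real.rpow_natCast Z 10, mul_assoc, ← Real.rpow_add hZ0]
    norm_num
  have h1 : ∀ e ∈ E, δ < Dp R R' e := by
    intro e he
    by_contra hc
    push Not at hc
    have m := Finset.mem_product.1 (hE he)
    have hD0 : 0 ≤ Dp R R' e := by
      refine le_max_of_le_right (mul_nonneg (by positivity) (hV _ m.1).2.le)
    have h2 := hD e he
    have h3 : (Dp R R' e)^4 ≤ δ^4 := pow_le_pow_left₀ hD0 hc 4
    have h4 : 1024 * (Dp R R' e)^4 * Z^10 ≤ 1024 * (δ^4 * Z^10) := by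
      have : (0:ℝ) ≤ Z^10 := by positivity
      nlinarith [mul_le_mul_of_nonneg_right h3 this]
    rw [hδ4] at h4
    norm_num at h4
    linarith
  have hM : 0 ≤ ((∑ v ∈ V, wt R v) * ∑ w ∈ W, wt R' w)^(1/2+e1) := by
    apply Real.rpow_nonneg
    exact mul_nonneg (Finset.sum_nonneg fun q hq => wt_nonneg (hV q hq).2.le)
      (Finset.sum_nonneg fun q hq => wt_nonneg (hW q hq).2.le)
  set w₁ := z₁ with hw₁
  have hw₁0 : 0 < w₁ := hz₁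
  have key := LLG24.ll_class he1 he4 hV hW hK hδ (z₁ := w₁) (z₂ := z₂) hE hz h1 hF
  refine key.trans ?_
  apply mul_le_mul_of_nonneg_right _ hM
  have hCL := CL_nonneg he1
  set Y : ℝ := ((w₁ * z₂ : ℕ) : ℝ) with hY
  have hd0 : (0:ℝ) < d := by exact_mod_cast hd
  have hYZ : Z ≤ Y := le_rfl
  have hYd : (d:ℝ) ≤ Y := by
    rw [hY]
    exact_mod_cast hdz
  have hY0 : 0 < Y := by linarith
  have d1 : δ^(-(2*e1)) ≤ 6 * Z^(1/200:ℝ) := by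
    have b : δ^(-(2*e1)) = 6^(2*e1) * Z^(1/200:ℝ) := by
      rw [hδd, Real.mul_rpow (by norm_num) (by positivity), ← Real.rpow_mul hZ0.le, one_div,
        Real.inv_rpow (by norm_num), Real.rpow_neg (by norm_num), inv_inv]
      congr 2
      unfold e1; norm_num
    rw [b]
    apply mul_le_mul_of_nonneg_right _ (by positivity)
    calc (6:ℝ)^(2*e1) ≤ 6^(1:ℝ) :=
          Real.rpow_le_rpow_of_exponent_le (by norm_num) (by unfold e1; norm_num)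
      _ = 6 := Real.rpow_one _
  have d2 := Bz_le hw₁0 hz₂
  rw [← hY] at d2
  have d3 : Bz w₁ z₂ e1 * δ^(-(2*e1)) ≤ 10^5 * ((d:ℝ)^(-(11/40):ℝ) * Z^(-(1/6):ℝ)) := by
    have e3 : Y^(-(48/100) : ℝ) = Y^(-(11/40):ℝ) * Y^(-(41/200):ℝ) := by
      rw [← Real.rpow_add hY0]; norm_num
    have e4 : Y^(-(11/40):ℝ) ≤ (d:ℝ)^(-(11/40):ℝ) :=
      Real.rpow_le_rpow_of_nonpos hd0 hYd (by norm_num)
    have e5 : Y^(-(41/200):ℝ) ≤ Z^(-(41/200):ℝ) :=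
      Real.rpow_le_rpow_of_nonpos hZ0 hYZ (by norm_num)
    have e6 : Z^(-(41/200):ℝ) * Z^(1/200:ℝ) ≤ Z^(-(1/6):ℝ) := by
      rw [← Real.rpow_add hZ0]
      exact Real.rpow_le_rpow_of_exponent_le hZ1 (by norm_num)
    calc Bz w₁ z₂ e1 * δ^(-(2*e1)) ≤ (10^4 * Y^(-(48/100) : ℝ)) * (6 * Z^(1/200:ℝ)) :=
          mul_le_mul d2 d1 (by positivity) (by positivity)
      _ = 60000 * (Y^(-(11/40):ℝ) * (Y^(-(41/200):ℝ) * Z^(1/200:ℝ))) := by rw [e3]; ring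
      _ ≤ 60000 * ((d:ℝ)^(-(11/40):ℝ) * (Z^(-(41/200):ℝ) * Z^(1/200:ℝ))) := by
          apply mul_le_mul_of_nonneg_left _ (by norm_num)
          apply mul_le_mul e4 (mul_le_mul_of_nonneg_right e5 (by positivity)) (by positivity)
            (by positivity)
      _ ≤ 10^5 * ((d:ℝ)^(-(11/40):ℝ) * Z^(-(1/6):ℝ)) := by
          apply mul_le_mul (by norm_num) _ (by positivity) (by norm_num)
          exact mul_le_mul_of_nonneg_left e6 (by positivity)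
  calc CL e1 * (K * Bz w₁ z₂ e1 * δ^(-(2*e1))) = (CL e1 * K) * (Bz w₁ z₂ e1 * δ^(-(2*e1))) := by ring
    _ ≤ (CL e1 * K) * (10^5 * ((d:ℝ)^(-(11/40):ℝ) * Z^(-(1/6):ℝ))) :=
        mul_le_mul_of_nonneg_left d3 (by positivity)
    _ = _ := by ring

set_option maxHeartbeats 800000 in
/-- **all the pairs of labels**, `d ≤ Zc` -/
theorem ll_total_z {θ P K : ℝ} (hP : 1 ≤ P) (hK : 0 ≤ K) {V W : Finset ℕ} {R : ℕ → ℝ}
    {lab : ℕ → ℚ} {Λf : Finset ℚ} {d : ℕ} (hd : 0 < d)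
    (hS : ∀ q ∈ V ∪ W, 0 < q ∧ 0 < R q)
    (hlab : ∀ q ∈ V ∪ W, Lab θ (R q) (lab q) ∨ (lab q ∈ Λf ∧ P⁻¹ ≤ R q))
    {E : Finset (ℕ × ℕ)} (hE : E ⊆ V ×ˢ W) {F : ℕ × ℕ → ℝ}
    (hF : ∀ e ∈ E, F e ≤ K * ((wt R e.1 * wt R e.2) / Dp R R e))
    (hex : ∀ e ∈ E, 0 < F e → lab e.1 ≠ lab e.2 ∧ P ≤ (Zc (lab e.1) (lab e.2) : ℝ) ∧
      d ≤ Zc (lab e.1) (lab e.2) ∧
      ∃ n m : ℤ, ((n:ℝ) + lab e.1) * (cof e.2 e.1 : ℕ) = (m + lab e.2) * (cof e.1 e.2 : ℕ)) :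
    ∑ e ∈ E, F e ≤ (10^5 * CL e1) * K * ((d:ℝ)^(-(11/40) : ℝ) * (CX + Λf.card)) *
      ((∑ q ∈ V, wt R q) * ∑ q ∈ W, wt R q)^(1/2+e1) := by
  classical
  have he1 : 0 < e1 := by unfold e1; norm_num
  have hP0 : 0 < P := by linarith
  have hSV : ∀ q ∈ V, 0 < q ∧ 0 < R q := fun q hq => hS q (Finset.mem_union_left _ hq)
  have hSW : ∀ q ∈ W, 0 < q ∧ 0 < R q := fun q hq => hS q (Finset.mem_union_right _ hq)
  have hred : ∑ e ∈ E, F e ≤ ∑ e ∈ E.filter (fun e => 0 < F e), F e := by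
    rw [← Finset.sum_filter_add_sum_filter_not E (fun e => 0 < F e)]
    have : ∑ e ∈ E.filter (fun e => ¬ 0 < F e), F e ≤ 0 :=
      Finset.sum_nonpos fun e he => not_lt.1 (Finset.mem_filter.1 he).2
    linarith
  refine hred.trans ?_
  set E' := E.filter (fun e => 0 < F e) with hE'
  set Λ₁ := V.image lab with hΛ₁
  set Λ₂ := W.image lab with hΛ₂
  have hCL := CL_nonneg he1
  have hmemE : ∀ e ∈ E', e.1 ∈ V ∧ e.2 ∈ W := fun e he =>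
    Finset.mem_product.1 (hE (Finset.mem_filter.1 he).1)
  have hch : ∀ ρ : ℚ, ∃ b : ℝ, ρ ∈ (V ∪ W).image lab → (Lab θ b ρ ∨ ρ ∈ Λf) := by
    intro ρ
    by_cases hρ : ρ ∈ (V ∪ W).image lab
    · obtain ⟨q, hq, rfl⟩ := Finset.mem_image.1 hρ
      exact ⟨R q, fun _ => (hlab q hq).imp id And.left⟩
    · exact ⟨0, fun h => absurd h hρ⟩
  choose b hb using hch
  have hsub1 : Λ₁ ⊆ (V ∪ W).image lab := Finset.image_subset_image Finset.subset_union_left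
  have hsub2 : Λ₂ ⊆ (V ∪ W).image lab := Finset.image_subset_image Finset.subset_union_right
  set c : ℚ → ℚ → ℝ := fun ρ σ => ((Zc ρ σ : ℕ) : ℝ)^(-(1/6) : ℝ) with hc
  have hc0 : ∀ ρ σ, 0 ≤ c ρ σ := fun ρ σ => by rw [hc]; positivity
  have hrow : ∀ ρ ∈ Λ₁, ∑ σ ∈ Λ₂, c ρ σ ≤ CX + Λf.card := fun ρ _ =>
    row6 (θ := θ) (a := b) (fun σ hσ => hb σ (hsub2 hσ)) ρ
  have hcol : ∀ σ ∈ Λ₂, ∑ ρ ∈ Λ₁, c ρ σ ≤ CX + Λf.card := fun σ _ => by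
    have := row6 (θ := θ) (Λ := Λ₁) (Λf := Λf) (a := b) (fun σ hσ => hb σ (hsub1 hσ)) σ
    refine le_trans (le_of_eq ?_) this
    refine Finset.sum_congr rfl fun ρ _ => ?_
    simp only [hc]
    rw [Zc_symm]
  set M : ℚ → ℝ := fun ρ => ∑ q ∈ V.filter (fun q => lab q = ρ), wt R q with hM
  set N : ℚ → ℝ := fun σ => ∑ q ∈ W.filter (fun q => lab q = σ), wt R q with hN
  have hM0 : ∀ ρ, 0 ≤ M ρ := fun ρ => Finset.sum_nonneg fun q hq =>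
    wt_nonneg (hSV q (Finset.mem_filter.1 hq).1).2.le
  have hN0 : ∀ σ, 0 ≤ N σ := fun σ => Finset.sum_nonneg fun q hq =>
    wt_nonneg (hSW q (Finset.mem_filter.1 hq).1).2.le
  have hMs : ∑ ρ ∈ Λ₁, M ρ = ∑ q ∈ V, wt R q :=
    Finset.sum_fiberwise_of_maps_to (fun q hq => Finset.mem_image_of_mem lab hq) _
  have hNs : ∑ σ ∈ Λ₂, N σ = ∑ q ∈ W, wt R q :=
    Finset.sum_fiberwise_of_maps_to (fun q hq => Finset.mem_image_of_mem lab hq) _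
  have e0 : ∑ e ∈ E', F e = ∑ ρ ∈ Λ₁, ∑ σ ∈ Λ₂,
      ∑ e ∈ E'.filter (fun e => lab e.1 = ρ ∧ lab e.2 = σ), F e := by
    have := Finset.sum_fiberwise_of_maps_to (s := E') (t := Λ₁ ×ˢ Λ₂)
      (g := fun e : ℕ × ℕ => (lab e.1, lab e.2)) (fun e he => by
        obtain ⟨a1, a2⟩ := hmemE e he
        exact Finset.mem_product.2 ⟨Finset.mem_image_of_mem _ a1, Finset.mem_image_of_mem _ a2⟩) F
    rw [← this, Finset.sum_product]
    refine Finset.sum_congr rfl fun ρ _ => Finset.sum_congr rfl fun σ _ => ?_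
    refine Finset.sum_congr ?_ fun _ _ => rfl
    ext e
    simp only [Finset.mem_filter, Prod.ext_iff]
  set K₀ : ℝ := (10^5 * CL e1) * K * (d:ℝ)^(-(11/40) : ℝ) with hK₀
  have hK₀0 : 0 ≤ K₀ := by rw [hK₀]; positivity
  have hpair : ∀ ρ ∈ Λ₁, ∀ σ ∈ Λ₂,
      ∑ e ∈ E'.filter (fun e => lab e.1 = ρ ∧ lab e.2 = σ), F e ≤
        K₀ * (c ρ σ * (M ρ * N σ)^(1/2+e1)) := by
    intro ρ _ σ _
    set Eρ := E'.filter (fun e => lab e.1 = ρ ∧ lab e.2 = σ) with hEρ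
    have hmem : ∀ e ∈ Eρ, e ∈ E ∧ 0 < F e ∧ lab e.1 = ρ ∧ lab e.2 = σ := by
      intro e he
      obtain ⟨h1, h2⟩ := Finset.mem_filter.1 he
      obtain ⟨h3, h4⟩ := Finset.mem_filter.1 h1
      exact ⟨h3, h4, h2⟩
    have hnn : 0 ≤ (M ρ * N σ)^(1/2+e1) := Real.rpow_nonneg (mul_nonneg (hM0 ρ) (hN0 σ)) _
    rcases Eρ.eq_empty_or_nonempty with h0 | ⟨e₀, he₀⟩
    · rw [h0, Finset.sum_empty]
      exact mul_nonneg hK₀0 (mul_nonneg (hc0 _ _) hnn)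
    obtain ⟨g1, g2, g3, g4⟩ := hmem e₀ he₀
    have hPZ : P ≤ (Zc ρ σ : ℝ) := by
      have := (hex e₀ g1 g2).2.1
      rwa [g3, g4] at this
    have hZ1 : (1:ℝ) ≤ (Zc ρ σ : ℕ) := by exact_mod_cast Zc_pos ρ σ
    obtain ⟨p1, p2⟩ := div_gcd_pos ρ σ
    have hZe : (σ.den / Nat.gcd ρ.den σ.den) * (ρ.den / Nat.gcd ρ.den σ.den) = Zc ρ σ := by
      unfold Zc; ring
    have key := ll_label_z (V := V.filter (fun q => lab q = ρ)) (W := W.filter (fun q => lab q = σ))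
      (R := R) (R' := R) (fun v hv => hSV v (Finset.mem_filter.1 hv).1)
      (fun v hv => hSW v (Finset.mem_filter.1 hv).1) p2 p1 hd hK (F := F) (E := Eρ)
      (by
        intro e he
        obtain ⟨h1, _, h3, h4⟩ := hmem e he
        have h5 := Finset.mem_product.1 (hE h1)
        exact Finset.mem_product.2 ⟨Finset.mem_filter.2 ⟨h5.1, h3⟩, Finset.mem_filter.2 ⟨h5.2, h4⟩⟩)
      (by
        intro e he
        obtain ⟨h1, h2, h3, h4⟩ := hmem e he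
        obtain ⟨_, _, _, n, m, h5⟩ := hex e h1 h2
        rw [h3, h4] at h5
        exact dvd_of_exact ρ σ h5)
      (by
        have := (hex e₀ g1 g2).2.2.1
        rw [g3, g4] at this
        rw [hZe]; exact this)
      (by
        intro e he
        obtain ⟨h1, h2, h3, h4⟩ := hmem e he
        obtain ⟨hne, _, _⟩ := hex e h1 h2
        have m5 := Finset.mem_product.1 (hE h1)
        have r1 := (hSV _ m5.1).2
        have r2 := (hSW _ m5.2).2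
        have c1 : (1:ℝ) ≤ (cof e.1 e.2 : ℕ) := by exact_mod_cast cof_pos (hSV _ m5.1).1
        have c2 : (1:ℝ) ≤ (cof e.2 e.1 : ℕ) := by exact_mod_cast cof_pos (hSW _ m5.2).1
        have d1 : R e.1 ≤ Dp R R e := by
          refine le_trans ?_ (le_max_right _ _)
          nlinarith
        have d2 : R e.2 ≤ Dp R R e := by
          refine le_trans ?_ (le_max_left _ _)
          nlinarith
        rw [hZe]
        have fat : P⁻¹ ≤ Dp R R e → 1 ≤ 1024 * (Dp R R e)^4 * ((Zc ρ σ : ℕ) : ℝ)^10 := by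
          intro hd
          have hZ0 : (0:ℝ) < (Zc ρ σ : ℕ) := by linarith
          have t1 : 1 ≤ Dp R R e * (Zc ρ σ : ℕ) := by
            calc (1:ℝ) = P⁻¹ * P := (inv_mul_cancel₀ hP0.ne').symm
              _ ≤ Dp R R e * (Zc ρ σ : ℕ) := mul_le_mul hd hPZ hP0.le (by linarith)
          have t2 : 1 ≤ (Dp R R e * (Zc ρ σ : ℕ))^4 := one_le_pow₀ t1
          have t3 : (1:ℝ) ≤ ((Zc ρ σ : ℕ) : ℝ)^6 := one_le_pow₀ hZ1
          calc (1:ℝ) ≤ 1024 * ((Dp R R e * (Zc ρ σ : ℕ))^4 * ((Zc ρ σ : ℕ) : ℝ)^6) := by nlinarith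
            _ = _ := by ring
        rcases hlab _ (Finset.mem_union_left _ m5.1) with hl1 | hl1
        · rcases hlab _ (Finset.mem_union_right _ m5.2) with hl2 | hl2
          · have := D_ge hl1 hl2 hne d1 d2
            rwa [h3, h4] at this
          · exact fat (hl2.2.trans d2)
        · exact fat (hl1.2.trans d1))
      (fun e he => hF e (hmem e he).1)
    rw [hZe] at key
    refine key.trans (le_of_eq ?_)
    rw [hK₀, hc, hM, hN]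
    ring
  rw [e0]
  calc ∑ ρ ∈ Λ₁, ∑ σ ∈ Λ₂, ∑ e ∈ E'.filter (fun e => lab e.1 = ρ ∧ lab e.2 = σ), F e
      ≤ ∑ ρ ∈ Λ₁, ∑ σ ∈ Λ₂, K₀ * (c ρ σ * (M ρ * N σ)^(1/2+e1)) :=
        Finset.sum_le_sum fun ρ hρ => Finset.sum_le_sum fun σ hσ => hpair ρ hρ σ hσ
    _ = K₀ * ∑ ρ ∈ Λ₁, ∑ σ ∈ Λ₂, c ρ σ * (M ρ * N σ)^(1/2+e1) := by
        rw [Finset.mul_sum]
        refine Finset.sum_congr rfl fun ρ _ => ?_
        rw [Finset.mul_sum]
    _ ≤ K₀ * ((CX + Λf.card) * ((∑ q ∈ V, wt R q) * ∑ q ∈ W, wt R q)^(1/2+e1)) := by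
        refine mul_le_mul_of_nonneg_left ?_ hK₀0
        rw [← hMs, ← hNs]
        have hCX := CX_pos
        exact schur_prod hc0 hM0 hN0 (by positivity) he1.le hrow hcol
    _ = _ := by rw [hK₀]; ring


/-- **labelled pairs with different labels, `b² ≤ Zc`** -/
theorem ll_ret (Cl : ℝ) (hCl : 0 ≤ Cl) : ∃ b₁ : ℕ, ∀ b : ℕ, b₁ ≤ b →
    ∀ (θ : ℝ) (V W : Finset ℕ) (E : Finset (ℕ × ℕ)) (R : ℕ → ℝ) (lab : ℕ → ℚ)
      (Λf : Finset ℚ) (F : ℕ × ℕ → ℝ),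
    Λf.card ≤ 1 → E ⊆ V ×ˢ W →
    (∀ q ∈ V ∪ W, 0 < q ∧ 0 < R q) → (∀ q ∈ V ∪ W, R q ≤ Cl * Real.log b * wt R q) →
    (∀ q ∈ V ∪ W, Lab θ (R q) (lab q) ∨ (lab q ∈ Λf ∧ (b:ℝ)⁻¹ ≤ R q)) →
    (∀ e ∈ E, F e ≤ 2 * ((R e.1 * R e.2) / DP R R e)) →
    (∀ e ∈ E, 0 < F e → lab e.1 ≠ lab e.2 ∧ (b:ℝ) ≤ (Zc (lab e.1) (lab e.2) : ℝ) ∧
      b ^ 2 ≤ Zc (lab e.1) (lab e.2) ∧
      ∃ n m : ℤ, ((n:ℝ) + lab e.1) * (cof e.2 e.1 : ℕ) = (m + lab e.2) * (cof e.1 e.2 : ℕ)) →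
    ∑ e ∈ E, F e ≤ (b:ℝ) ^ (-(13/25):ℝ) *
      ((∑ q ∈ V, wt R q) * ∑ q ∈ W, wt R q)^(1/2+e1) := by
  classical
  have hCX := CX_pos
  have he1 : 0 < e1 := by unfold e1; norm_num
  have hLe := CL_nonneg (ε := e1) he1
  obtain ⟨x₁, hx₁⟩ := Filter.eventually_atTop.1
    ((AddLB7.num6 (10^5 * CL e1 * (2 * Cl^2) * (CX + 1)) 2
      (by positivity)).and (Filter.eventually_ge_atTop (Real.exp 1)))
  refine ⟨⌈x₁⌉₊ + 1, fun b hb => ?_⟩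
  intro θ V W E R lab Λf F hΛ hES hS hLS hlab hF hex
  have hbx : x₁ ≤ b := (Nat.le_ceil x₁).trans (by exact_mod_cast (by omega : ⌈x₁⌉₊ ≤ b))
  obtain ⟨n1, n9⟩ := hx₁ b hbx
  have hb0N : 0 < b := by omega
  have hb0 : (0:ℝ) < b := by exact_mod_cast hb0N
  have hb1 : (1:ℝ) ≤ b := by exact_mod_cast hb0N
  set ℓ := Real.log (b:ℝ) with hℓ
  have hℓ1 : 1 ≤ ℓ := by rw [hℓ]; exact (Real.le_log_iff_exp_le hb0).2 n9
  have hℓ0 : 0 < ℓ := by linarith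
  set L := Cl * ℓ with hL
  have hL0 : 0 ≤ L := by positivity
  have hmem : ∀ e ∈ E, e.1 ∈ V ∪ W ∧ e.2 ∈ V ∪ W := fun e he => by
    obtain ⟨a1, a2⟩ := Finset.mem_product.1 (hES he)
    exact ⟨Finset.mem_union_left _ a1, Finset.mem_union_right _ a2⟩
  have k1 := ll_total_z (θ := θ) (P := b) (K := 2 * L^2) (d := b^2) hb1 (by positivity)
    (Nat.pow_pos hb0N) (V := V) (W := W) (R := R) (lab := lab) (Λf := Λf) hS hlab
    (E := E) hES (F := F)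
    (fun e he => by
      have hh := hmem e he
      have hR := (hS _ hh.1).2
      have hR' := (hS _ hh.2).2
      have hD := DP_pos (R := R) (R' := R) (hS _ hh.2).1 hR
      have eD : Dp R R e = DP R R e := by
        unfold Dp DP
        exact max_comm _ _
      rw [eD]
      have hRR : R e.1 * R e.2 ≤ L^2 * (wt R e.1 * wt R e.2) := by
        have f1 := hLS _ hh.1
        have f2 := hLS _ hh.2
        have f5 : 0 ≤ L * wt R e.1 := hR.le.trans f1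
        calc R e.1 * R e.2 ≤ (L * wt R e.1) * (L * wt R e.2) := mul_le_mul f1 f2 hR'.le f5
          _ = _ := by ring
      calc F e ≤ 2 * ((R e.1 * R e.2) / DP R R e) := hF e he
        _ ≤ 2 * ((L^2 * (wt R e.1 * wt R e.2)) / DP R R e) := by gcongr
        _ = 2 * L^2 * (wt R e.1 * wt R e.2 / DP R R e) := by ring)
    hex
  have hΛr : ((Λf.card : ℕ) : ℝ) ≤ 1 := by exact_mod_cast hΛ
  have hMM : 0 ≤ ((∑ q ∈ V, wt R q) * ∑ q ∈ W, wt R q)^(1/2+e1) := by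
    refine Real.rpow_nonneg (mul_nonneg ?_ ?_) _
    · exact Finset.sum_nonneg fun q hq => wt_nonneg (hS q (Finset.mem_union_left _ hq)).2.le
    · exact Finset.sum_nonneg fun q hq => wt_nonneg (hS q (Finset.mem_union_right _ hq)).2.le
  refine k1.trans (mul_le_mul_of_nonneg_right ?_ hMM)
  push_cast
  calc (10^5 * CL e1) * (2 * L^2) * (((b:ℝ)^2)^(-(11/40) : ℝ) * (CX + Λf.card))
      ≤ (10^5 * CL e1) * (2 * L^2) * (((b:ℝ)^2)^(-(11/40) : ℝ) * (CX + 1)) := by gcongr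
    _ = (10^5 * CL e1 * (2 * Cl^2) * (CX + 1)) * ℓ ^ (2:ℝ) * ((b:ℝ)^2)^(-(11/40) : ℝ) := by
        rw [Real.rpow_two, hL]; ring
    _ ≤ _ := n1



/-! ### item coordinates -/

open Crest.Agent.R4P.AddNode7 Crest.Agent.R4P.AvgItem710 Crest.Agent.R4P.RseNd23

/-- **the labelled pairs, `b² ≤ Zc`**, item coordinates -/
theorem ll_ret' (Cl : ℝ) (hCl : 0 ≤ Cl) : ∃ b₁ : ℕ, ∀ b : ℕ, b₁ ≤ b →
    ∀ (A : ℕ) (θ : ℝ) (S₁ S₀ : Finset ℕ) (E : Finset (ℕ × ℕ)) (R : ℕ → ℝ) (lab : ℕ → ℚ)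
      (Λf : Finset ℚ) (F : ℕ × ℕ → ℝ),
    (∀ q ∈ S₁ ∪ S₀, A ∣ q) → Λf.card ≤ 1 → E ⊆ S₁ ×ˢ S₀ →
    (∀ q ∈ S₁ ∪ S₀, 0 < q / A ∧ 0 < R q) → (∀ q ∈ S₁ ∪ S₀, R q ≤ Cl * Real.log b * wA A R q) →
    (∀ q ∈ S₁ ∪ S₀, Lab θ (R q) (lab q) ∨ (lab q ∈ Λf ∧ (b:ℝ)⁻¹ ≤ R q)) →
    (∀ e ∈ E, F e ≤ 2 * ((R e.1 * R e.2) / DA A R e)) →
    (∀ e ∈ E, 0 < F e → lab e.1 ≠ lab e.2 ∧ (b:ℝ) ≤ (LL207.Zc (lab e.1) (lab e.2) : ℝ) ∧
      b ^ 2 ≤ LL207.Zc (lab e.1) (lab e.2) ∧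
      ∃ n m : ℤ, ((n:ℝ) + lab e.1) * (cof (e.2 / A) (e.1 / A) : ℕ) =
        (m + lab e.2) * (cof (e.1 / A) (e.2 / A) : ℕ)) →
    ∑ e ∈ E, F e ≤ (b:ℝ) ^ (-(13/25):ℝ) *
      ((∑ q ∈ S₁, wA A R q) * ∑ q ∈ S₀, wA A R q)^(1/2+LL207.e1) := by
  obtain ⟨b₁, H⟩ := ll_ret Cl hCl
  refine ⟨b₁, fun b hb A θ S₁ S₀ E R lab Λf F hA hΛ hE hT hL hlab hF hex => ?_⟩
  have hA1 : ∀ q ∈ S₁, A ∣ q := fun q hq => hA q (Finset.mem_union_left _ hq)
  have hA0 : ∀ q ∈ S₀, A ∣ q := fun q hq => hA q (Finset.mem_union_right _ hq)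
  have hEE : E ⊆ (S₁ ∪ S₀) ×ˢ (S₁ ∪ S₀) := fun e he => by
    obtain ⟨m1, m2⟩ := Finset.mem_product.1 (hE he)
    exact Finset.mem_product.2 ⟨Finset.mem_union_left _ m1, Finset.mem_union_right _ m2⟩
  have key := H b hb θ (S₁.image (· / A)) (S₀.image (· / A))
    (E.image fun e => (e.1 / A, e.2 / A))
    (fun v => R (A * v)) (fun v => lab (A * v)) Λf (fun e => F (A * e.1, A * e.2)) hΛ
    (sub_tr2 hE)
    (fun v hv => by
      rw [← image_union] at hv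
      obtain ⟨q, hq, rfl⟩ := Finset.mem_image.1 hv
      have h1 := hT q hq
      exact ⟨h1.1, by rw [Nat.mul_div_cancel' (hA q hq)]; exact h1.2⟩)
    (fun v hv => by
      rw [← image_union] at hv
      obtain ⟨q, hq, rfl⟩ := Finset.mem_image.1 hv
      have h1 := hL q hq
      rw [wt_tr A R (hA q hq)]
      exact (R_tr A R (hA q hq)).le.trans h1)
    (fun v hv => by
      rw [← image_union] at hv
      obtain ⟨q, hq, rfl⟩ := Finset.mem_image.1 hv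
      simp only [Nat.mul_div_cancel' (hA q hq)]
      exact hlab q hq)
    (fun x hx => by
      obtain ⟨e, he, rfl⟩ := Finset.mem_image.1 hx
      obtain ⟨a1, a2⟩ := Finset.mem_product.1 (hEE he)
      have d1 := hA _ a1
      have d2 := hA _ a2
      have h1 := hF e he
      rw [DP_eq A R d1 d2]
      simp only [Nat.mul_div_cancel' d1, Nat.mul_div_cancel' d2]
      exact h1)
    (fun x hx h0 => by
      obtain ⟨e, he, rfl⟩ := Finset.mem_image.1 hx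
      obtain ⟨a1, a2⟩ := Finset.mem_product.1 (hEE he)
      have d1 := hA _ a1
      have d2 := hA _ a2
      simp only [Nat.mul_div_cancel' d1, Nat.mul_div_cancel' d2] at h0 ⊢
      exact hex e he h0)
  rw [sum_tr2 hA hEE, sum_wA hA1, sum_wA hA0] at key
  have e1 : ∑ e ∈ E, F e = ∑ e ∈ E, F (A * (e.1 / A), A * (e.2 / A)) := by
    refine Finset.sum_congr rfl fun e he => ?_
    obtain ⟨a1, a2⟩ := Finset.mem_product.1 (hEE he)
    rw [Nat.mul_div_cancel' (hA _ a1), Nat.mul_div_cancel' (hA _ a2)]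
  rw [e1]
  exact key


end Crest.Agent.R4P.JnL5
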