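import Crest.Agent.R4P.JnA_5
import Crest.Agent.R4P.JnL_5

/-!
R4 (S0004) with powers, T3, helper5: **pairs of pieces of one INDEX across an add node** (copy of
helper7's `AddNode_7`, `AddNode2_7`, `AddPay_7` with the relation "one index"). The pairs with equal
retained parts are treated as there; for different retained parts a second prime `l > b` divides a
denominator, so `b² ≤ Zc` and the pairs are paid by `ll_ret'`.

* `PR_add` : an add node is a setting `PR` with `m = 0`;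
* `Zc_two` : two primes;
* `lab_addS` : labelled pairs; `cr_addS` : the cross term is at most `2 zA`.
-/

set_option autoImplicit false
set_option linter.unusedSectionVars false
set_option linter.unusedVariables false

open MeasureTheory Filter

namespace Crest.Agent.R4P.JnB5

open Crest.Agent.R4P.Cnt588 Crest.Agent.R4P.Item758 Crest.Agent.R4P.W363
open Crest.Agent.R4P.Data758 Crest.Agent.R4P.OmSt532 Crest.Agent.R4P.OmData532
open Crest.Agent.R4P.LfDat734 Crest.Agent.R4P.WPex189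
open Crest.Agent.R4P.Bld532 (NS All NodeOk Bk plk dv nd)
open Crest.Agent.R4P.Step588 (NDt ND1 ctx_NDt uq_lt)
open Crest.Agent.R4P.WalkIT579 (tp isL nodeOk_hi top_of_nodeOk)
open Crest.Agent.R4P.Skel189 Crest.Agent.R4P.RseSt23 Crest.Agent.R4P.RseNd23
open Crest.Agent.R4.Soft104 (w)
open Crest.Agent.R4.LF363 (Lab)
open Crest.Agent.R4.HVW560 (cof wt)
open Crest.Agent.R4.AvgItem710 (Dp mul_cof mul_cof' cof_pos cof_coprime exists_of_I_ne)
open Crest.Agent.R4P.AvgItem710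
open Crest.Agent.R4.ClosL758 Crest.Agent.R4.ClosR758 Crest.Agent.R4.Tour104 Crest.Agent.R4.Fam464
open Crest.Agent.R4.Tour758 Crest.Agent.R4.Avg758
open Crest.Agent.R4P.PairR23 (iF_rel_le)
open Crest.Agent.R4.Lift223 (qe cen cen_add cen_den floor_eq_of_window)
open Crest.Agent.R4P.AddNode7 hiding lift_add_core lift_add exact2 F_add PE_add lab_add lab_add2 DU_none F_addU PE_addU unl_add
open Crest.Agent.R4P.FarLift7
open Crest.Agent.R4P.FarNode7 hiding lift_pair F_pair PE_pair F_pairU PE_pairU lab_pair unl_pair exW eA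
open Crest.Agent.R4P.JnA5
open Crest.Agent.R4.ClsS (eps1)
open Crest.Agent.R4

/-! ### arithmetic -/

/-- **two primes** -/
lemma Zc_two {x y b l : ℕ} (hb : b.Prime) (hl : l.Prime) (hbl : b ≠ l) (hbx : b ∣ x)
    (hxy : Nat.Coprime x y) (ρ σ : ℚ) {n m : ℤ} (h : ((n:ℝ) + ρ) * y = (m + σ) * x)
    (hσ : b ∣ σ.den) (hl' : (l ∣ x ∧ l ∣ σ.den) ∨ (l ∣ y ∧ l ∣ ρ.den)) :
    b * l ≤ LL207.Zc ρ σ := by
  have h1 := RseAr23.b_dvd_of_exact hb hbx hxy ρ σ h hσ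
  obtain ⟨p1, p2⟩ := LL207.div_gcd_pos ρ σ
  rcases hl' with ⟨hx, hd⟩ | ⟨hy, hd⟩
  · have h2 := RseAr23.b_dvd_of_exact hl hx hxy ρ σ h hd
    have h3 : b * l ∣ σ.den / Nat.gcd ρ.den σ.den :=
      Nat.Coprime.mul_dvd_of_dvd_of_dvd ((Nat.coprime_primes hb hl).2 hbl) h1 h2
    have h4 := Nat.le_of_dvd p2 h3
    unfold LL207.Zc
    exact h4.trans (Nat.le_mul_of_pos_left _ p1)
  · have h2 := RseAr23.b_dvd_of_exact hl hy hxy.symm σ ρ h.symm hd
    rw [Nat.gcd_comm] at h2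
    have h3 := Nat.le_of_dvd p1 h2
    have h4 := Nat.le_of_dvd p2 h1
    unfold LL207.Zc
    calc b * l = l * b := mul_comm _ _
      _ ≤ _ := Nat.mul_le_mul h3 h4

lemma AV_per {n : ℕ} (hn : 0 < n) {f : ℝ → ℝ} (hf : ∀ x, 0 ≤ f x)
    (hper : ∀ x, f (x + 1 / (n : ℕ)) = f x) : AV n f := by
  intro z
  have hn0 : (n:ℝ) ≠ 0 := by exact_mod_cast hn.ne'
  have h1 : ∀ (i : ℕ), f (z + (i:ℝ) / n) = f z := by
    intro i
    induction i with
    | zero => simp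
    | succ i ih =>
      have e : z + ((i + 1 : ℕ) : ℝ) / n = (z + (i:ℝ) / n) + 1 / (n:ℕ) := by
        push_cast; ring
      rw [e, hper, ih]
  have h2 : Ep n f ((n:ℕ) * z) = f z := by
    unfold Ep
    have h3 : ∀ i ∈ Finset.range n, f (((n:ℕ) * z + (i:ℝ)) / (n:ℕ)) = f z := by
      intro i _
      rw [← h1 i]
      congr 1
      field_simp
    rw [Finset.sum_congr rfl h3, Finset.sum_const, Finset.card_range, nsmul_eq_mul]
    field_simp
  rw [h2]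
  have := hf z
  linarith

section ctx
variable {N : Skel189.Num} {γ : ℝ} {p0 P₀ : ℕ} {X : Ctx N γ p0 P₀} {u : NS} {b : ℕ} {t₁ t₀ : IT}

/-- **an add node is a setting** -/
theorem PR_add (hN : NF X u (.add b t₁ t₀)) (Y : Finset (ℕ × ℕ × Finset ℕ)) (A : Finset X.c.Lam) :
    ∃ k : ℕ, (∀ q ∈ t₁.items, b ^ k ∣ q / u.A) ∧ (∀ q ∈ t₀.items, ¬ b ^ k ∣ q / u.A) ∧
      PR X Y u (.add b t₁ t₀) b k 0 t₁ t₀ A A := by
  have h := hN.nd
  have hl : ¬ isL (IT.add b t₁ t₀) := fun h => h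
  obtain ⟨hbp, -, -, -, -, ⟨k, t', hk, et, e1, e0, -⟩, -⟩ := h.self.node
  have hm1 : ∀ q ∈ t₁.items, b ^ k ∣ q / u.A := fun q hq => by
    rw [e1] at hq
    exact (Bld532.mem_dv.1 hq).2
  have hm0 : ∀ q ∈ t₀.items, ¬ b ^ k ∣ q / u.A := fun q hq => by
    rw [e0] at hq
    exact (Bld532.mem_nd.1 hq).2
  have hd : Disjoint t₁.items t₀.items := h.fit.1
  have hF1 : Fit u.B u.A t₁ := h.fit.2.1
  have hF0 : Fit u.B u.A t₀ := h.fit.2.2
  have hW := node_wts h Y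
  refine ⟨k, hm1, hm0, ?_⟩
  exact
    { nf := hN
      nl := hl
      col := rfl
      s1 := Finset.subset_union_left
      s0 := Finset.subset_union_right
      f1 := hF1
      f0 := hF0
      w1 := hW.add₁ hd
      w0 := hW.add₀
      bp := hbp
      im := hk
      hi := fun j _ hj => hm1 _ hj
      lo := fun j _ hj => hm0 _ hj
      av := fun j _ _ => by
        rw [add_zero]
        refine AV_per (pow_pos hbp.pos _) (fun x =>
          (FT.pb h.B_pos ((X.c.D.par Y).toFT_Adm _ _ _ h.B_pos hF1 (hW.add₁ hd)) (one_dvd _)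
            j).nonneg x) fun x => ?_
        have hW1 := hW.add₁ hd
        subst et
        exact per_plk _ h.B_pos (one_dvd _) hbp.pos k u.A hF1 hW1 j x }


/-- the cross energy of the pairs of one index -/
noncomputable def CrS (X : Ctx N γ p0 P₀) (Y : Finset (ℕ × ℕ × Finset ℕ)) (A : Finset X.c.Lam)
    (b : ℕ) (u : NS) (t₁ t₀ : IT) : ℝ :=
  2 * Q (SX X b) (rv A (Uw X Y u t₁)) (rv A (Uw X Y u t₀))

open Classical in
set_option maxHeartbeats 2000000 in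
/-- **the labelled pairs of one index across an add node** -/
theorem lab_addS (N : Skel189.Num) : ∃ p₁ : ℕ, ∀ p0 ≥ p₁, ∀ (γ : ℝ) (P₀ : ℕ), 2 ≤ P₀ →
    ∀ X : Ctx N γ p0 P₀, RseH X → X.c.d1 * Kc X.S ≤ 1 → ∀ (Y : Finset (ℕ × ℕ × Finset ℕ))
      (u : NS) (b : ℕ) (t₁ t₀ : IT), NF X u (.add b t₁ t₀) → ∀ A : Finset X.c.Lam,
      Q (SL X b) (rv A (Uw X Y u t₁)) (rv A (Uw X Y u t₀)) ≤
        2 * Real.sqrt (eS X Y b u t₁ A * eS X Y b u t₀ A / b) +
        (if BadN X u (.add b t₁ t₀) b then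
          (b:ℝ) ^ (-(1/7):ℝ) * (u.c * ∑ q ∈ alJ X b t₁ t₀ A, w X.ψ q)
        else Real.exp (-((b:ℝ) ^ (1/50:ℝ))) * (u.c * ∑ q ∈ al X (.add b t₁ t₀) A, w X.ψ q)) +
        4 * (2 * Step588.CT * Real.log b) / Real.sqrt b *
          Real.sqrt ((u.c * ∑ q ∈ al X t₁ A, w X.ψ q) * (u.c * ∑ q ∈ al X t₀ A, w X.ψ q)) +
        2 * ((b:ℝ) ^ (-(13/25):ℝ) *
          ((u.c * ∑ q ∈ al X t₁ A, w X.ψ q) * (u.c * ∑ q ∈ al X t₀ A, w X.ψ q))^(1/2+LL207.e1)) := by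
  have hc2 := N.hc2
  have hCT := Step588.CT_pos
  obtain ⟨p1, h1⟩ := alive_facts N
  obtain ⟨p2, h2⟩ := ll_two' (2 * Step588.CT) (by positivity)
  obtain ⟨p3, h3⟩ := ll_bad' (2 * Step588.CT) N.c2 (by positivity) hc2
  obtain ⟨p4, h4⟩ := ll_cross' (2 * Step588.CT) N.c2 (by positivity) hc2
  obtain ⟨p6, h6'⟩ := JnL5.ll_ret' (2 * Step588.CT) (by positivity)
  obtain ⟨p5, h5⟩ := num_p (N.c2 + 2)
  refine ⟨p1 + p2 + p3 + p4 + p5 + p6 + 2, fun p0 hp0 γ P₀ hP X hX hd1 Y u b t₁ t₀ hN A => ?_⟩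
  have hn1 : 0 ≤ u.c * ∑ q ∈ al X t₁ A, w X.ψ q :=
    mul_nonneg hN.c0.le (Finset.sum_nonneg fun q _ => X.hW q)
  have hn0 : 0 ≤ u.c * ∑ q ∈ al X t₀ A, w X.ψ q :=
    mul_nonneg hN.c0.le (Finset.sum_nonneg fun q _ => X.hW q)
  have h := hN.nd
  have hl : ¬ isL (IT.add b t₁ t₀) := fun h => h
  obtain ⟨k1, k2, k3, k4⟩ := nodeOk_hi h.self.node hl
  have k2' : p0 < b := k2
  have hbt : b ≤ top X.S := (le_of_lt k3).trans hN.lvl
  obtain ⟨n1, n2, n3, n4, n5⟩ := h5 b (by omega)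
  have hpR : (0:ℝ) < b := by exact_mod_cast (by omega : 0 < b)
  have hpR1 : (1:ℝ) ≤ b := by exact_mod_cast (by omega : 1 ≤ b)
  have hlam := hX.lam b k2' hbt
  have hthr := hX.thr b k2'
  have hbp : b.Prime := h.self.node.1
  obtain ⟨k, hm1, hm0, hPR⟩ := PR_add hN Y A
  set T : Finset ℕ := al X (.add b t₁ t₀) A with hT
  set T1 : Finset ℕ := al X t₁ A with hT1
  set T0 : Finset ℕ := al X t₀ A with hT0
  have hTu : T = T1 ∪ T0 := by
    rw [hT, hT1, hT0]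
    unfold al
    exact Finset.filter_union _ _ _
  have hTm : ∀ q ∈ T, q ∈ (IT.add b t₁ t₀).items ∧ q ∈ X.S' := fun q hq => by
    rw [hT] at hq
    unfold al at hq
    obtain ⟨a1, a2⟩ := Finset.mem_filter.1 hq
    exact ⟨a1, a2.1⟩
  have hTF : ∀ q ∈ T, AlF X u (.add b t₁ t₀) q := fun q hq =>
    h1 p0 (by omega) γ P₀ hP X u _ hN hl q (hTm q hq).1 (hTm q hq).2
  have hT1T : T1 ⊆ T := by rw [hTu]; exact Finset.subset_union_left
  have hT0T : T0 ⊆ T := by rw [hTu]; exact Finset.subset_union_right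
  -- masses
  have hwA0 : ∀ q ∈ T, 0 ≤ wA u.A (RB X u) q := fun q hq => by
    unfold wA
    have := (hTF q hq).R0.le
    positivity
  have hmass : ∀ T' ⊆ T, ∑ q ∈ T', wA u.A (RB X u) q ≤ u.c * ∑ q ∈ T', w X.ψ q := by
    intro T' hT'
    rw [Finset.mul_sum]
    exact Finset.sum_le_sum fun q hq => (hTF q (hT' hq)).wle
  have hM2 : ∑ q ∈ T, wA u.A (RB X u) q ≤ Real.log b ^ N.c2 := by
    refine (hmass T subset_rfl).trans (le_trans ?_ k1)
    refine mul_le_mul_of_nonneg_left ?_ hN.c0.le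
    unfold Ws
    refine Finset.sum_le_sum_of_subset_of_nonneg (fun q hq => (hTm q hq).1) fun q _ _ => X.hW q
  -- labelled items
  set stt : ℕ → Option ℚ := fun q => stq X b q with hstt
  set TL : Finset ℕ := T.filter fun q => (stt q).isSome = true with hTL
  set S1 : Finset ℕ := T1.filter fun q => (stt q).isSome = true with hS1
  set S0 : Finset ℕ := T0.filter fun q => (stt q).isSome = true with hS0
  have hS10 : S1 ∪ S0 = TL := by
    rw [hS1, hS0, hTL, hTu, Finset.filter_union]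
  have hTLT : TL ⊆ T := Finset.filter_subset _ _
  have hS1T : S1 ⊆ T1 := Finset.filter_subset _ _
  have hS0T : S0 ⊆ T0 := Finset.filter_subset _ _
  -- the pairs
  set P : Finset (X.c.Lam × X.c.Lam) := (SL X b).filter fun x => ¬ ¬ b ∣ (labB X u b x.2.1.1).den
    with hP'
  have hPD : P ⊆ SL X b := Finset.filter_subset _ _
  have hsplit : Q (SL X b) (rv A (Uw X Y u t₁)) (rv A (Uw X Y u t₀)) =
      Q ((SL X b).filter fun x => ¬ b ∣ (labB X u b x.2.1.1).den) (rv A (Uw X Y u t₁))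
        (rv A (Uw X Y u t₀)) + Q P (rv A (Uw X Y u t₁)) (rv A (Uw X Y u t₀)) := by
    unfold Q
    rw [hP']
    exact (Finset.sum_filter_add_sum_filter_not _ _ _).symm
  have hlift := lift_pair hPR hbt hlam hd1
  rw [zero_add, pow_one] at hlift
  set D := X.c.D.par Y with hD
  set F : ℕ × ℕ → ℝ := fun e => D.iF P (rv A (Uw X Y u t₁)) (rv A (Uw X Y u t₀)) e with hF
  set E : Finset (ℕ × ℕ) := D.PE P (rv A (Uw X Y u t₁)) (rv A (Uw X Y u t₀)) with hE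
  have hQE : Q P (rv A (Uw X Y u t₁)) (rv A (Uw X Y u t₀)) = ∑ e ∈ E, F e := D.Q_eq _ _ _
  -- facts of the pairs
  have hit1 : ∀ q ∈ T1, q ∈ t₁.items := fun q hq => by
    rw [hT1] at hq; unfold al at hq
    exact (Finset.mem_filter.1 hq).1
  have hit0 : ∀ q ∈ T0, q ∈ t₀.items := fun q hq => by
    rw [hT0] at hq; unfold al at hq
    exact (Finset.mem_filter.1 hq).1
  have hpos1 : ∀ q ∈ t₁.items, 0 < q / u.A := fun q hq =>
    Nat.pos_of_ne_zero (h.div_ne (Finset.mem_union_left _ hq))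
  have hfact : ∀ e ∈ E, e.1 ∈ S1 ∧ e.2 ∈ S0 ∧
      (ret X.c.t b e.1 = ret X.c.t b e.2 ∨
        b ^ 2 ≤ LL207.Zc (labB X u b e.1) (labB X u b e.2)) ∧
      b ∣ (labB X u b e.2).den ∧ ∃ a a' : ℤ,
        ((a:ℝ) + ((labB X u b e.1 : ℚ) : ℝ)) * (cof (e.2 / u.A) (e.1 / u.A) : ℕ) =
        (a' + ((labB X u b e.2 : ℚ) : ℝ)) * (cof (e.1 / u.A) (e.2 / u.A) : ℕ) := by
    intro e he
    obtain ⟨j, j', hR, hI, e1, e2⟩ := Par.mem_PE.1 he
    obtain ⟨y, y1, y2⟩ := exists_of_I_ne hI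
    have hA : j ∈ A := by
      by_contra hc
      exact y1 (congrFun (rv_of_not_mem (f := Uw X Y u t₁) hc) y)
    have hA' : j' ∈ A := by
      by_contra hc
      exact y2 (congrFun (rv_of_not_mem (f := Uw X Y u t₀) hc) y)
    have z1 := rv_ne y1
    have z2 := rv_ne y2
    obtain ⟨m1, a, o1, l1, l2⟩ := Par.supp _ h.B_pos hPR.f1 hPR.w1 (one_dvd _) z1
    obtain ⟨m0, a', o0, l3, l4⟩ := Par.supp _ h.B_pos hPR.f0 hPR.w0 (one_dvd _) z2
    have m1' : j.1.1 ∈ t₁.items := m1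
    have m0' : j'.1.1 ∈ t₀.items := m0
    have hs1 : j.1.1 ∈ X.S' := by
      by_contra hc
      exact o1 (X.om_zero hc _ _)
    have hs0 : j'.1.1 ∈ X.S' := by
      by_contra hc
      exact o0 (X.om_zero hc _ _)
    obtain ⟨hx1, hx2⟩ := Finset.mem_filter.1 (hPD hR)
    have hden := not_not.1 (Finset.mem_filter.1 hR).2
    have hix := mem_SX.1 hx1
    have hs2 := isSome_pair hlam hix
    obtain ⟨σ, hσ⟩ := Option.isSome_iff_exists.1 hx2
    rw [hx2] at hs2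
    obtain ⟨σ', hσ'⟩ := Option.isSome_iff_exists.1 hs2.symm
    obtain ⟨x1, x2⟩ := exW h hbt hlam (hPD hR) (hPR.s1 m1') (hPR.s0 m0') l1 l2 l3 l4
    have f1 : labB X u b j.1.1 = (u.B : ℚ) * σ := labB_some hσ
    have f2 : labB X u b j'.1.1 = (u.B : ℚ) * σ' := labB_some hσ'
    have g1 : e.1 = j.1.1 := e1.symm
    have g2 : e.2 = j'.1.1 := e2.symm
    rw [g1, g2]
    refine ⟨?_, ?_, ?_, hden, a, a', x2⟩
    · refine Finset.mem_filter.2 ⟨?_, ?_⟩
      · rw [hT1]; unfold al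
        exact Finset.mem_filter.2 ⟨m1', hs1, j, hA, rfl⟩
      · show (stq X b j.1.1).isSome = true
        rw [hσ]; rfl
    · refine Finset.mem_filter.2 ⟨?_, ?_⟩
      · rw [hT0]; unfold al
        exact Finset.mem_filter.2 ⟨m0', hs0, j', hA', rfl⟩
      · have hσ'' : stq X b j'.1.1 = some σ' := hσ'
        show (stq X b j'.1.1).isSome = true
        rw [hσ'']; rfl
    · by_cases hret : ret X.c.t b j.1.1 = ret X.c.t b j'.1.1
      · exact Or.inl hret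
      · right
        have hdj : j.1.1 ∉ t₀.items := Finset.disjoint_left.1 h.fit.1 m1'
        have hmp1 : mp (IT.add b t₁ t₀) j.1.1 = mp t₁ j.1.1 := if_neg hdj
        have hmp0 : mp (IT.add b t₁ t₀) j'.1.1 = mp t₀ j'.1.1 := if_pos m0'
        have o1' : X.c.om j.1.1 (X.c.bp j.1.1 j.1.2)
            (((mp (IT.add b t₁ t₀) j.1.1 : ℕ) : ℤ) * a) ≠ 0 := by
          rw [hmp1]
          have := o1
          rw [one_mul] at this
          exact this
        have o0' : X.c.om j'.1.1 (X.c.bp j'.1.1 j'.1.2)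
            (((mp (IT.add b t₁ t₀) j'.1.1 : ℕ) : ℤ) * a') ≠ 0 := by
          rw [hmp0]
          have := o0
          rw [one_mul] at this
          exact this
        have hcop : Nat.Coprime (cof (j.1.1 / u.A) (j'.1.1 / u.A))
            (cof (j'.1.1 / u.A) (j.1.1 / u.A)) := cof_coprime (hpos1 _ m1')
        have hbd := b_dvd_cof hbp (hm1 _ m1') (hm0 _ m0')
        rw [f1, f2] at x1 x2 ⊢
        rw [f2] at hden
        obtain ⟨l, hlp, hbl, hh⟩ := sep_ret h X.tOk hl (hPR.s1 m1') (hPR.s0 m0') hret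
        have hbl' : b < l := hbl
        have hkey : b * l ≤ LL207.Zc ((u.B : ℚ) * σ) ((u.B : ℚ) * σ') := by
          refine Zc_two hbp hlp hbl'.ne hbd hcop _ _ x2 hden ?_
          rcases hh with ⟨b0, b1, b2⟩ | ⟨b0, b1, b2⟩
          · exact Or.inl ⟨dvd_cof hlp b1 b2,
              alive_den h (hPR.s1 m1') le_rfl hl hσ b0 hbl'.le b1 o1' b2 x1⟩
          · exact Or.inr ⟨dvd_cof hlp b1 b2,
              alive_den h (hPR.s0 m0') le_rfl hl hσ' b0 hbl'.le b1 o0' b2 x1.symm⟩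
        refine le_trans ?_ hkey
        rw [pow_two]
        exact Nat.mul_le_mul_left _ hbl'.le
  have hZ : ∀ e ∈ E, labB X u b e.1 ≠ labB X u b e.2 ∧
      b ≤ LL207.Zc (labB X u b e.1) (labB X u b e.2) ∧ b ≤ cof (e.1 / u.A) (e.2 / u.A) := by
    intro e he
    obtain ⟨f1, f0, -, hden, a, a', hex⟩ := hfact e he
    have g1 := hS1T f1
    have g0 := hS0T f0
    have q1 := hTF _ (hT1T g1)
    have hcop : Nat.Coprime (cof (e.1 / u.A) (e.2 / u.A)) (cof (e.2 / u.A) (e.1 / u.A)) :=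
      cof_coprime q1.pos
    have hbd := b_dvd_cof hbp (hm1 _ (hit1 _ g1)) (hm0 _ (hit0 _ g0))
    have hz := RseAr23.Zc_of_exact hbp hbd hcop (labB X u b e.1) (labB X u b e.2) hex hden
    refine ⟨hz.2, hz.1, Nat.le_of_dvd ?_ hbd⟩
    exact Nat.div_pos (Nat.le_of_dvd q1.pos (Nat.gcd_dvd_left _ _))
      (Nat.gcd_pos_of_pos_left _ q1.pos)
  have hFle : ∀ e ∈ E, F e ≤ 2 * ((RB X u e.1 * RB X u e.2) / DA u.A (RB X u) e) := by
    intro e he
    obtain ⟨f1, f0, -⟩ := hfact e he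
    exact F_pair hPR hbt hlam hPD (hit1 _ (hS1T f1)) (hit0 _ (hS0T f0))
  -- labels
  have hK : ∀ s : ℕ, tp (IT.add b t₁ t₀) < s → Real.log b ^ (N.c2 + 2) ≤ s * X.c.wp.thr s := by
    intro s hs
    have hs' : b < s := hs
    have hsR : (0:ℝ) < s := by
      have : 0 < s := by omega
      exact_mod_cast this
    have hps : (b:ℝ) ≤ s := by exact_mod_cast hs'.le
    have h6 := hX.thr s (k2'.trans hs')
    have h7 : (s:ℝ) ^ (1/2:ℝ) = s * (s:ℝ) ^ (-(1/2:ℝ)) := by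
      conv_rhs => rw [← Real.rpow_one (s:ℝ), ← Real.rpow_mul hsR.le, ← Real.rpow_add hsR]
      norm_num
    calc Real.log b ^ (N.c2 + 2) ≤ (b:ℝ) ^ (1/2:ℝ) := n5
      _ ≤ (s:ℝ) ^ (1/2:ℝ) := Real.rpow_le_rpow hpR.le hps (by norm_num)
      _ = s * (s:ℝ) ^ (-(1/2:ℝ)) := h7
      _ ≤ s * X.c.wp.thr s := mul_le_mul_of_nonneg_left h6 hsR.le
  have hthr0 : 0 < X.c.wp.thr b := (Real.rpow_pos_of_pos hpR _).trans_le hthr
  have hK4 : 32 * (Real.log b ^ (N.c2 + 2)) ^ 4 <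
      (tp (IT.add b t₁ t₀) : ℝ) ^ 2 * X.c.wp.thr (tp (IT.add b t₁ t₀)) ^ 2 := by
    show 32 * (Real.log b ^ (N.c2 + 2)) ^ 4 < (b : ℝ) ^ 2 * X.c.wp.thr b ^ 2
    refine n4.trans_le ?_
    have h7 : ((b:ℝ) ^ (-(1/2:ℝ))) ^ 2 ≤ X.c.wp.thr b ^ 2 :=
      pow_le_pow_left₀ (Real.rpow_nonneg hpR.le _) hthr 2
    have h8 : ((b:ℝ) ^ (-(1/2:ℝ))) ^ 2 = (b:ℝ)⁻¹ := by
      rw [← Real.rpow_natCast, ← Real.rpow_mul hpR.le, ← Real.rpow_neg_one]
      norm_num
    rw [h8] at h7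
    calc (b:ℝ) = (b:ℝ) ^ 2 * (b:ℝ)⁻¹ := by field_simp
      _ ≤ (b:ℝ) ^ 2 * X.c.wp.thr b ^ 2 := mul_le_mul_of_nonneg_left h7 (sq_nonneg _)
  obtain ⟨Λf, hΛ, hlab⟩ := lab_nodeB h X.tOk hl (wp := X.c.wp) (wpL := X.c.wpL) (lam := X.c.lam)
    (lv := X.c.lv) (γ := X.c.γ) (r := X.c.r) hK hthr0 hK4
  have hLAB : ∀ q ∈ TL, Lab (u.B * X.c.γ) (RB X u q) (labB X u b q) ∨
      (labB X u b q ∈ Λf ∧ (b:ℝ)⁻¹ ≤ RB X u q) := by
    intro q hq
    obtain ⟨hq1, hq2⟩ := Finset.mem_filter.1 hq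
    have hf := hTF q hq1
    obtain ⟨σ, hσ⟩ := Option.isSome_iff_exists.1 hq2
    have hσ' : stq X b q = some σ := hσ
    have hR : RB X u q = u.B * X.c.r q := by
      show (u.B:ℝ) * X.c.rr q = _
      rw [hf.rr]
    rw [labB_some hσ', hR]
    rcases hlab q (hTm q hq1).1 hf.hi σ hσ' with h6 | h6
    · exact Or.inl h6
    · refine Or.inr ⟨h6.1, le_trans ?_ h6.2.le⟩
      refine le_trans ?_ hthr
      rw [← Real.rpow_neg_one]
      exact Real.rpow_le_rpow_of_exponent_le hpR1 (by norm_num)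
  have hsubM : ∑ q ∈ TL, wA u.A (RB X u) q ≤ ∑ q ∈ T, wA u.A (RB X u) q :=
    Finset.sum_le_sum_of_subset_of_nonneg hTLT fun q hq _ => hwA0 q hq
  have hES : E ⊆ S1 ×ˢ S0 := fun e he =>
    Finset.mem_product.2 ⟨(hfact e he).1, (hfact e he).2.1⟩
  have hEE : E ⊆ TL ×ˢ TL := fun e he => by
    rw [← hS10]
    exact Finset.mem_product.2 ⟨Finset.mem_union_left _ (hfact e he).1,
      Finset.mem_union_right _ (hfact e he).2.1⟩
  -- masses of the labelled items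
  have i1 : ∑ q ∈ S1, wA u.A (RB X u) q ≤ u.c * ∑ q ∈ T1, w X.ψ q :=
    (Finset.sum_le_sum_of_subset_of_nonneg hS1T fun q hq _ => hwA0 q (hT1T hq)).trans
      (hmass T1 hT1T)
  have i0 : ∑ q ∈ S0, wA u.A (RB X u) q ≤ u.c * ∑ q ∈ T0, w X.ψ q :=
    (Finset.sum_le_sum_of_subset_of_nonneg hS0T fun q hq _ => hwA0 q (hT0T hq)).trans
      (hmass T0 hT0T)
  have j1 : 0 ≤ ∑ q ∈ S1, wA u.A (RB X u) q :=
    Finset.sum_nonneg fun q hq => hwA0 q (hT1T (hS1T hq))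
  have j0 : 0 ≤ ∑ q ∈ S0, wA u.A (RB X u) q :=
    Finset.sum_nonneg fun q hq => hwA0 q (hT0T (hS0T hq))
  have k2'' : (b:ℝ) ^ (-(13/25):ℝ) *
      ((∑ q ∈ S1, wA u.A (RB X u) q) * ∑ q ∈ S0, wA u.A (RB X u) q)^(1/2+LL207.e1) ≤
      (b:ℝ) ^ (-(13/25):ℝ) *
      ((u.c * ∑ q ∈ T1, w X.ψ q) * (u.c * ∑ q ∈ T0, w X.ψ q))^(1/2+LL207.e1) := by
    refine mul_le_mul_of_nonneg_left (Real.rpow_le_rpow (mul_nonneg j1 j0)
      (mul_le_mul i1 i0 j0 (j1.trans i1)) (by unfold LL207.e1; norm_num)) (Real.rpow_nonneg hpR.le _)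
  -- pairs with different retained parts
  set ES : Finset (ℕ × ℕ) := E.filter fun e => ret X.c.t b e.1 = ret X.c.t b e.2 with hES'
  set ER : Finset (ℕ × ℕ) := E.filter fun e => ¬ ret X.c.t b e.1 = ret X.c.t b e.2 with hER
  have hsE : ∑ e ∈ E, F e = ∑ e ∈ ES, F e + ∑ e ∈ ER, F e :=
    (Finset.sum_filter_add_sum_filter_not _ _ _).symm
  have kR := h6' b (by omega) u.A (u.B * X.c.γ) S1 S0 ER (RB X u) (labB X u b) Λf F
    (fun q hq => (hTF q (hTLT (hS10 ▸ hq))).dvd) hΛ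
    ((Finset.filter_subset _ _).trans hES)
    (fun q hq => ⟨(hTF q (hTLT (hS10 ▸ hq))).pos, (hTF q (hTLT (hS10 ▸ hq))).R0⟩)
    (fun q hq => (hTF q (hTLT (hS10 ▸ hq))).lo)
    (fun q hq => hLAB q (hS10 ▸ hq)) (fun e he => hFle e (Finset.mem_filter.1 he).1)
    (fun e he _ => by
      obtain ⟨he', hna⟩ := Finset.mem_filter.1 he
      obtain ⟨z1, z2, z3⟩ := hZ e he'
      obtain ⟨f1, f0, hr, -, hex⟩ := hfact e he'
      exact ⟨z1, by exact_mod_cast z2, hr.resolve_left hna, hex⟩)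
  have kR' := kR.trans k2''
  rw [hsplit, hQE, hsE]
  have hlog : 0 ≤ Real.log (b:ℝ) := by linarith
  have hgoal : ∑ e ∈ ES, F e ≤ (if BadN X u (.add b t₁ t₀) b then
          (b:ℝ) ^ (-(1/7):ℝ) * (u.c * ∑ q ∈ alJ X b t₁ t₀ A, w X.ψ q)
        else Real.exp (-((b:ℝ) ^ (1/50:ℝ))) * (u.c * ∑ q ∈ T, w X.ψ q)) +
        4 * (2 * Step588.CT * Real.log b) / Real.sqrt b *
          Real.sqrt ((u.c * ∑ q ∈ T1, w X.ψ q) * (u.c * ∑ q ∈ T0, w X.ψ q)) +
        (b:ℝ) ^ (-(13/25):ℝ) *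
          ((u.c * ∑ q ∈ T1, w X.ψ q) * (u.c * ∑ q ∈ T0, w X.ψ q))^(1/2+LL207.e1) := by
    split_ifs with hbad
    · -- bad primes: extreme pairs
      set EJ : Finset (ℕ × ℕ) := ES.filter fun e => adj b t₁ t₀ e.1 ∧ adj b t₁ t₀ e.2 with hEJ
      set EN : Finset (ℕ × ℕ) := ES.filter fun e => ¬ (adj b t₁ t₀ e.1 ∧ adj b t₁ t₀ e.2) with hEN
      set TJ : Finset ℕ := TL.filter (adj b t₁ t₀) with hTJ
      have hTJT : TJ ⊆ TL := Finset.filter_subset _ _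
      have hsE' : ∑ e ∈ ES, F e = ∑ e ∈ EJ, F e + ∑ e ∈ EN, F e :=
        (Finset.sum_filter_add_sum_filter_not _ _ _).symm
      have hESE : ∀ e ∈ ES, e ∈ E := fun e he => (Finset.mem_filter.1 he).1
      have hmJ : ∑ q ∈ TJ, wA u.A (RB X u) q ≤ u.c * ∑ q ∈ alJ X b t₁ t₀ A, w X.ψ q := by
        refine (hmass TJ (hTJT.trans hTLT)).trans (mul_le_mul_of_nonneg_left ?_ hN.c0.le)
        refine Finset.sum_le_sum_of_subset_of_nonneg (fun q hq => ?_) fun q _ _ => X.hW q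
        obtain ⟨g1, g2⟩ := Finset.mem_filter.1 hq
        unfold alJ
        exact Finset.mem_filter.2 ⟨hTLT g1, g2⟩
      have kJ := h3 b (by omega) u.A (u.B * X.c.γ) TJ EJ (RB X u) (labB X u b) Λf F
        (fun q hq => (hTF q (hTLT (hTJT hq))).dvd) hΛ
        (fun e he => by
          obtain ⟨g1, g2, g3⟩ := Finset.mem_filter.1 he
          obtain ⟨a1, a2⟩ := Finset.mem_product.1 (hEE (hESE _ g1))
          exact Finset.mem_product.2 ⟨Finset.mem_filter.2 ⟨a1, g2⟩, Finset.mem_filter.2 ⟨a2, g3⟩⟩)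
        (fun q hq => ⟨(hTF q (hTLT (hTJT hq))).pos, (hTF q (hTLT (hTJT hq))).R0⟩)
        (fun q hq => (hTF q (hTLT (hTJT hq))).lo)
        ((Finset.sum_le_sum_of_subset_of_nonneg hTJT fun q hq _ => hwA0 q (hTLT hq)).trans
          (hsubM.trans hM2))
        (fun q hq => hLAB q (hTJT hq)) (fun e he => hFle e (hESE _ (Finset.mem_filter.1 he).1))
        (fun e he _ => by
          have he' := hESE _ (Finset.mem_filter.1 he).1
          obtain ⟨z1, z2, z3⟩ := hZ e he'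
          obtain ⟨-, -, -, -, hex⟩ := hfact e he'
          exact ⟨z1, by exact_mod_cast z2, hex⟩)
      have kN := h2 b (by omega) u.A (u.B * X.c.γ) S1 S0 EN (RB X u) (labB X u b) Λf F
        (fun q hq => (hTF q (hTLT (hS10 ▸ hq))).dvd) hΛ
        (((Finset.filter_subset _ _).trans (Finset.filter_subset _ _)).trans hES)
        (fun q hq => ⟨(hTF q (hTLT (hS10 ▸ hq))).pos, (hTF q (hTLT (hS10 ▸ hq))).R0⟩)
        (fun q hq => (hTF q (hTLT (hS10 ▸ hq))).lo)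
        (fun q hq => hLAB q (hS10 ▸ hq))
        (fun e he => hFle e (hESE _ (Finset.mem_filter.1 he).1))
        (fun e he _ => by
          obtain ⟨he0, hna⟩ := Finset.mem_filter.1 he
          have he' := hESE _ he0
          obtain ⟨z1, z2, z3⟩ := hZ e he'
          obtain ⟨f1, f0, -, -, hex⟩ := hfact e he'
          refine ⟨z1, by exact_mod_cast z2, ?_, hex⟩
          exact sq_dvd_of_not_adj hbp h.fit.1
            (fun q hq => ⟨h.bk.dvd q hq, Nat.pos_of_ne_zero (h.div_ne hq)⟩)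
            hm1 hm0 (hit1 _ (hS1T f1)) (hit0 _ (hS0T f0)) hna)
      rw [hsE']
      have k1' := mul_le_mul_of_nonneg_left hmJ (Real.rpow_nonneg hpR.le (-(1/7):ℝ))
      have k3' : 0 ≤ 4 * (2 * Step588.CT * Real.log b) / Real.sqrt b *
          Real.sqrt ((u.c * ∑ q ∈ T1, w X.ψ q) * (u.c * ∑ q ∈ T0, w X.ψ q)) := by positivity
      have k4' := kJ.trans k1'
      have k5' := kN.trans k2''
      linarith
    · have hESS : ES ⊆ S1 ×ˢ S0 := (Finset.filter_subset _ _).trans hES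
      have hbig : ∀ e ∈ E, Real.exp ((b:ℝ) ^ (1/20:ℝ)) < ((labB X u b e.2).den : ℝ) := by
        intro e he
        obtain ⟨f1, f0, -, hden, -⟩ := hfact e he
        obtain ⟨g0, g0'⟩ := Finset.mem_filter.1 f0
        obtain ⟨σ, hσ⟩ := Option.isSome_iff_exists.1 g0'
        have hσ' : stq X b e.2 = some σ := hσ
        by_contra hc
        push Not at hc
        apply hbad
        refine ⟨e.2, (hTm _ (hT0T g0)).1, (hTm _ (hT0T g0)).2, σ, hσ', ?_, ?_⟩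
        · rw [← labB_some (u := u) hσ']; exact hden
        · rw [← labB_some (u := u) hσ']; exact hc
      have key := h4 b (by omega) u.A (u.B * X.c.γ) S1 S0 ES (RB X u) (labB X u b) Λf F
        (fun q hq => (hTF q (hTLT (hS10 ▸ hq))).dvd) hΛ hESS
        (fun q hq => ⟨(hTF q (hTLT (hS10 ▸ hq))).pos, (hTF q (hTLT (hS10 ▸ hq))).R0⟩)
        (fun q hq => (hTF q (hTLT (hS10 ▸ hq))).lo) (by rw [hS10]; exact hsubM.trans hM2)
        (fun q hq => hLAB q (hS10 ▸ hq)) (fun e he => hFle e (Finset.mem_filter.1 he).1)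
        (fun e he l hlp hld => by
          obtain ⟨he', hret⟩ := Finset.mem_filter.1 he
          obtain ⟨f1, f0, -, -⟩ := hfact e he'
          have g1 := (hTm _ (hT1T (hS1T f1))).1
          have g0 := (hTm _ (hT0T (hS0T f0))).1
          rcases hld with hld | hld
          · exact smooth_ret h X.tOk hl g1 g0 hret hlp hld
          · exact smooth_ret h X.tOk hl g0 g1 hret.symm hlp hld)
        (fun e he _ => by
          have he' := (Finset.mem_filter.1 he).1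
          obtain ⟨z1, z2, z3⟩ := hZ e he'
          obtain ⟨-, -, -, -, hex⟩ := hfact e he'
          exact ⟨z1, z3, Or.inr (hbig e he'), hex⟩)
      have s1 : Real.exp (-((b:ℝ) ^ (1/50:ℝ))) * ∑ q ∈ S1 ∪ S0, wA u.A (RB X u) q ≤
          Real.exp (-((b:ℝ) ^ (1/50:ℝ))) * (u.c * ∑ q ∈ T, w X.ψ q) := by
        refine mul_le_mul_of_nonneg_left ?_ (Real.exp_pos _).le
        rw [hS10]
        exact hsubM.trans (hmass T subset_rfl)
      have s2 : 4 * (2 * Step588.CT * Real.log b) / Real.sqrt b *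
          Real.sqrt ((∑ q ∈ S1, wA u.A (RB X u) q) * ∑ q ∈ S0, wA u.A (RB X u) q) ≤
          4 * (2 * Step588.CT * Real.log b) / Real.sqrt b *
          Real.sqrt ((u.c * ∑ q ∈ T1, w X.ψ q) * (u.c * ∑ q ∈ T0, w X.ψ q)) := by
        refine mul_le_mul_of_nonneg_left (Real.sqrt_le_sqrt ?_) (by positivity)
        exact mul_le_mul i1 i0 j0 (j1.trans i1)
      have k6 : 0 ≤ (b:ℝ) ^ (-(13/25):ℝ) *
          ((u.c * ∑ q ∈ T1, w X.ψ q) * (u.c * ∑ q ∈ T0, w X.ψ q))^(1/2+LL207.e1) := by positivity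
      linarith
  have hlift' : Q ((SL X b).filter fun x => ¬ b ∣ (labB X u b x.2.1.1).den)
      (rv A (Uw X Y u t₁)) (rv A (Uw X Y u t₀)) ≤
      2 * Real.sqrt (eS X Y b u t₁ A * eS X Y b u t₀ A / b) := hlift
  linarith


open Crest.Agent.R4P.AddPay7 (zA zA_nonneg zB zB_nonneg sepC sepC_nonneg mass_alF)
open Crest.Agent.R4P.DseInd21 (ED)
open Crest.Agent.R4.Item758 (IL AdS AdI)
open Crest.Agent.R4P.PruneSep532

open Classical in
set_option maxHeartbeats 1000000 in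
/-- **the cross term of an add node is paid by `2 zA`**, pairs of one index -/
theorem cr_addS : ∃ κ₀ : ℝ, 0 ≤ κ₀ ∧ ∀ (N : Skel189.Num) (Ct A₀ K : ℝ), 0 ≤ Ct → 0 ≤ K → 0 ≤ N.a' →
    N.a' + 1 ≤ A₀ → N.a' + 3 ≤ N.a →
    (κ₀ + (Ct + A₀) / 500) + N.a' * (1/2+eps1) + 1 ≤ N.a * (1/2-eps1) →
    (κ₀ + (Ct + A₀) / 500) + N.c2 + 1 ≤ N.a →
    ∃ p₁ : ℕ, ∀ p0 ≥ p₁, ∀ (γ : ℝ) (P₀ : ℕ), 2 ≤ P₀ →
    ∀ X : Ctx N γ p0 P₀, RseH X → X.c.d1 * Kc X.S ≤ 1 →
    (∀ p, p0 < p → Real.log p ^ (-Ct) ≤ X.c.wp.thr p) →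
    ∀ (Y : Finset (ℕ × ℕ × Finset ℕ)) (u : NS) (b : ℕ) (t₁ t₀ : IT), NF X u (.add b t₁ t₀) →
    ∀ A : Finset X.c.Lam, IL X.c.D.it A →
      eS X Y b u t₁ A ≤ K * (u.c * ∑ q ∈ al X t₁ A, w X.ψ q) →
      eS X Y b u t₀ A ≤ K * (u.c * ∑ q ∈ al X t₀ A, w X.ψ q) →
      CrS X Y A b u t₁ t₀ ≤ u.c * ∑ j ∈ A.filter (fun j => X.c.D.it j ∈ (IT.add b t₁ t₀).items),
        Frame758.wt X.c.D j * (2 * zA X b u t₁ t₀ j.1.1) := by
  obtain ⟨κ₀, hκ₀, HU⟩ := unl_pair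
  refine ⟨κ₀, hκ₀, fun N Ct A₀ K hCt hK ha' h2 h1 h3 h4 => ?_⟩
  have hCT := Step588.CT_pos
  have hA₀ : 0 ≤ A₀ := by linarith
  obtain ⟨p1, k1⟩ := lab_addS N
  obtain ⟨p2, k2⟩ := HU N Ct A₀ hCt hA₀
  obtain ⟨x₀, hx₀, k3⟩ := AddPayN7.pay_real (K := K) (CTT := 2 * Step588.CT) (A₀ := A₀)
    (C3 := κ₀ + (Ct + A₀) / 500) (a := N.a) (a' := N.a') (c2 := N.c2) hK (by positivity)
    (by positivity) h1 h2 h3 h4
  obtain ⟨x₁, k4⟩ := Filter.eventually_atTop.1 (AddPayN7.exp_real N.a' N.B N.C1)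
  refine ⟨p1 + p2 + ⌈Real.exp x₀⌉₊ + ⌈x₁⌉₊ + 2, ?_⟩
  intro p0 hp0 γ P₀ hP X hX hd1 hthr Y u b t₁ t₀ hN A hA hE1 hE0
  have h := hN.nd
  have hl : ¬ isL (IT.add b t₁ t₀) := fun h => h
  obtain ⟨m1, m2, m3, m4⟩ := nodeOk_hi h.self.node hl
  have m2' : p0 < b := m2
  obtain ⟨hbp, -, -, -, -, -, hlo, hhi, hs0, hs1⟩ := h.self.node
  have hbR : (0:ℝ) < b := by exact_mod_cast (by omega : 0 < b)
  have hb1 : (1:ℝ) ≤ b := by exact_mod_cast (by omega : 1 ≤ b)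
  have hc0 := hN.c0
  have hbx : x₀ ≤ Real.log b := by
    rw [Real.le_log_iff_exp_le hbR]
    exact (Nat.le_ceil _).trans (by exact_mod_cast (by omega : ⌈Real.exp x₀⌉₊ ≤ b))
  have hl1 : 1 ≤ Real.log (b:ℝ) := hx₀.trans hbx
  have hl0 : 0 < Real.log (b:ℝ) := by linarith
  obtain ⟨k, hm1, hm0, hPR⟩ := PR_add hN Y A
  have hlab := k1 p0 (by omega) γ P₀ hP X hX hd1 Y u b t₁ t₀ hN A
  have hunl := k2 p0 (by omega) γ P₀ hP X hX hthr Y u _ b k 0 t₁ t₀ A A hPR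
  rw [zero_add, pow_one, pow_one] at hunl
  have hexp := k4 b ((Nat.le_ceil _).trans (by exact_mod_cast (by omega : ⌈x₁⌉₊ ≤ b)))
  -- masses
  have hdj : Disjoint t₁.items t₀.items := h.fit.1
  set M₁ := u.c * ∑ q ∈ al X t₁ A, w X.ψ q with hM₁
  set M₀ := u.c * ∑ q ∈ al X t₀ A, w X.ψ q with hM₀
  set ν₁ := u.c * Ws (w X.ψ) t₁.items with hν₁
  set ν₀ := u.c * Ws (w X.ψ) t₀.items with hν₀
  have hal : ∀ t : IT, al X t A ⊆ t.items := fun t => Finset.filter_subset _ _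
  have hM₁0 : 0 ≤ M₁ := mul_nonneg hc0.le (Finset.sum_nonneg fun q _ => X.hW q)
  have hM₀0 : 0 ≤ M₀ := mul_nonneg hc0.le (Finset.sum_nonneg fun q _ => X.hW q)
  have hM₁ν : M₁ ≤ ν₁ := mul_le_mul_of_nonneg_left
    (Finset.sum_le_sum_of_subset_of_nonneg (hal t₁) fun q _ _ => X.hW q) hc0.le
  have hM₀ν : M₀ ≤ ν₀ := mul_le_mul_of_nonneg_left
    (Finset.sum_le_sum_of_subset_of_nonneg (hal t₀) fun q _ _ => X.hW q) hc0.le
  have hWu : Ws (w X.ψ) (t₁.items ∪ t₀.items) = Ws (w X.ψ) t₁.items + Ws (w X.ψ) t₀.items := by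
    unfold Ws; exact Finset.sum_union hdj
  have hW1 : 0 ≤ Ws (w X.ψ) t₁.items := Ws_nonneg33 X.hW _
  have hW0 : 0 ≤ Ws (w X.ψ) t₀.items := Ws_nonneg33 X.hW _
  have hν₁2 : ν₁ ≤ Real.log b ^ N.c2 := by
    have h5 : u.c * Ws (w X.ψ) (t₁.items ∪ t₀.items) ≤ Real.log b ^ N.c2 := hhi
    rw [hWu] at h5
    refine le_trans (mul_le_mul_of_nonneg_left ?_ hc0.le) h5
    linarith
  have hpay := k3 (Real.log b) hbx b M₁ M₀ ν₁ ν₀ hb1 hM₁0 hM₁ν hM₀0 hM₀ν hν₁2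
  -- the SEP charges
  set P := M₁ * (Real.log b ^ N.a / (b * ν₁) + Real.log b ^ (-N.a') * ν₀) +
    M₀ * (Real.log b ^ N.a / (b * ν₀) + Real.log b ^ (-N.a') * ν₁) with hPd
  have e1 : sepC X b u.c t₁.items t₀.items =
      Real.log b ^ N.a / (b * ν₁) + Real.log b ^ (-N.a') * ν₀ := rfl
  have e0 : sepC X b u.c t₀.items t₁.items =
      Real.log b ^ N.a / (b * ν₀) + Real.log b ^ (-N.a') * ν₁ := rfl
  -- energies
  have hsq : Real.sqrt (eS X Y b u t₁ A * eS X Y b u t₀ A / b) ≤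
      K * Real.sqrt (M₁ * M₀ / b) := by
    have hE1' : eS X Y b u t₁ A ≤ K * M₁ := hE1
    have hE0' : eS X Y b u t₀ A ≤ K * M₀ := hE0
    have e5 : K * Real.sqrt (M₁ * M₀ / b) = Real.sqrt (K ^ 2 * (M₁ * M₀ / b)) := by
      rw [Real.sqrt_mul (sq_nonneg _), Real.sqrt_sq hK]
    rw [e5]
    refine Real.sqrt_le_sqrt ?_
    have pg : ∀ j, PB (rv A (Uw X Y u t₀) j) := fun j => by
      have hF0 : Fit u.B u.A t₀ := h.fit.2.2
      exact PB_rv (fun j => FT.pb h.B_pos ((X.c.D.par Y).toFT_Adm _ _ _ h.B_pos hF0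
        (node_wts h Y).add₀) (one_dvd _) j) A j
    have hq0 : 0 ≤ eS X Y b u t₀ A := by
      unfold eS
      rw [← I_qe pg]
      exact Tour104.I_nonneg fun z => Lift223.qe_nonneg (fun i _ => (pg i).nonneg z) _
    calc eS X Y b u t₁ A * eS X Y b u t₀ A / b
        ≤ (K * M₁) * (K * M₀) / b := by
          refine div_le_div_of_nonneg_right ?_ hbR.le
          exact mul_le_mul hE1' hE0' hq0 (mul_nonneg hK hM₁0)
      _ = K ^ 2 * (M₁ * M₀ / b) := by ring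
  have he : LL207.e1 = eps1 := by unfold LL207.e1; rfl
  rw [he] at hlab
  have hunl' : Q (SU X b) (rv A (Uw X Y u t₁)) (rv A (Uw X Y u t₀)) ≤
        Real.log b ^ (-A₀) * (M₁ * M₀) +
        Real.log b ^ (κ₀ + (Ct + A₀) / 500) * ((b:ℝ)^(-(1/2-eps1)) *
          (M₁ * M₀)^(1/2+eps1)) +
        Real.log b ^ (κ₀ + (Ct + A₀) / 500) / (b:ℝ) * M₁ := hunl
  -- the bound of the cross term
  have hbnd : CrS X Y A b u t₁ t₀ ≤ P + 2 * (if BadN X u (.add b t₁ t₀) b then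
        (b:ℝ) ^ (-(1/7):ℝ) * (u.c * ∑ q ∈ alJ X b t₁ t₀ A, w X.ψ q)
      else Real.exp (-((b:ℝ) ^ (1/50:ℝ))) * (u.c * ∑ q ∈ al X (.add b t₁ t₀) A, w X.ψ q)) := by
    have e6 : CrS X Y A b u t₁ t₀ = 2 * (Q (SL X b) (rv A (Uw X Y u t₁)) (rv A (Uw X Y u t₀)) +
        Q (SU X b) (rv A (Uw X Y u t₁)) (rv A (Uw X Y u t₀))) := by
      rw [← Q_SL_SU]; rfl
    rw [e6]
    have r1 : 0 ≤ K * Real.sqrt (M₁ * M₀ / b) := by positivity
    have r2 : 0 ≤ 4 * (2 * Step588.CT * Real.log b) / Real.sqrt b * Real.sqrt (M₁ * M₀) := by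
      positivity
    have r3 : 0 ≤ (b:ℝ) ^ (-(13/25):ℝ) * (M₁ * M₀) ^ (1/2+eps1) := by positivity
    have r4 : 0 ≤ Real.log b ^ (-A₀) * (M₁ * M₀) := by positivity
    have r5 : 0 ≤ Real.log b ^ (κ₀ + (Ct + A₀) / 500) * ((b:ℝ)^(-(1/2-eps1)) *
          (M₁ * M₀)^(1/2+eps1)) := by positivity
    have r6 : 0 ≤ Real.log b ^ (κ₀ + (Ct + A₀) / 500) / (b:ℝ) * M₁ := by positivity
    linarith
  have hPs : P = u.c * ∑ q ∈ al X t₁ A, w X.ψ q * sepC X b u.c t₁.items t₀.items +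
      u.c * ∑ q ∈ al X t₀ A, w X.ψ q * sepC X b u.c t₀.items t₁.items := by
    rw [← Finset.sum_mul, ← Finset.sum_mul, e1, e0, hPd, hM₁, hM₀]
    ring
  -- the charges of the alive items
  have halu : al X (.add b t₁ t₀) A = al X t₁ A ∪ al X t₀ A := by
    unfold al; exact Finset.filter_union _ _ _
  have hdal : Disjoint (al X t₁ A) (al X t₀ A) :=
    Finset.disjoint_of_subset_left (hal t₁) (Finset.disjoint_of_subset_right (hal t₀) hdj)
  have hzsum : u.c * ∑ q ∈ al X (.add b t₁ t₀) A, w X.ψ q * zA X b u t₁ t₀ q =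
      P + u.c * ∑ q ∈ al X (.add b t₁ t₀) A, w X.ψ q * zB X b u t₁ t₀ q := by
    have hS' : ∀ t : IT, ∀ q ∈ al X t A, q ∈ X.S' := fun t q hq => by
      unfold al at hq; exact (Finset.mem_filter.1 hq).2.1
    have f1 : ∀ q ∈ al X t₁ A, w X.ψ q * zA X b u t₁ t₀ q =
        w X.ψ q * sepC X b u.c t₁.items t₀.items + w X.ψ q * zB X b u t₁ t₀ q := fun q hq => by
      have g1 : q ∉ t₀.items := Finset.disjoint_left.1 hdj (hal t₁ hq)
      unfold zA
      rw [if_pos (hS' t₁ q hq), if_neg g1, mul_add]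
    have f0 : ∀ q ∈ al X t₀ A, w X.ψ q * zA X b u t₁ t₀ q =
        w X.ψ q * sepC X b u.c t₀.items t₁.items + w X.ψ q * zB X b u t₁ t₀ q := fun q hq => by
      unfold zA
      rw [if_pos (hS' t₀ q hq), if_pos (hal t₀ hq), mul_add]
    rw [halu, Finset.sum_union hdal, Finset.sum_union hdal, Finset.sum_congr rfl f1,
      Finset.sum_congr rfl f0, Finset.sum_add_distrib, Finset.sum_add_distrib, hPs]
    ring
  have hmain : CrS X Y A b u t₁ t₀ ≤
      2 * (u.c * ∑ q ∈ al X (.add b t₁ t₀) A, w X.ψ q * zA X b u t₁ t₀ q) := by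
    rw [hzsum]
    have hP0 : 0 ≤ P := by
      rw [hPs]
      refine add_nonneg ?_ ?_
      · exact mul_nonneg hc0.le (Finset.sum_nonneg fun q _ =>
          mul_nonneg (X.hW q) (sepC_nonneg X hc0 _ _))
      · exact mul_nonneg hc0.le (Finset.sum_nonneg fun q _ =>
          mul_nonneg (X.hW q) (sepC_nonneg X hc0 _ _))
    have hzB0 : 0 ≤ u.c * ∑ q ∈ al X (.add b t₁ t₀) A, w X.ψ q * zB X b u t₁ t₀ q :=
      mul_nonneg hc0.le (Finset.sum_nonneg fun q _ => mul_nonneg (X.hW q) (zB_nonneg _ _ _ _ _ _))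
    refine hbnd.trans ?_
    split_ifs with hbad
    · have h7 : 2 * ((b:ℝ) ^ (-(1/7):ℝ) * (u.c * ∑ q ∈ alJ X b t₁ t₀ A, w X.ψ q)) ≤
          u.c * ∑ q ∈ al X (.add b t₁ t₀) A, w X.ψ q * zB X b u t₁ t₀ q := by
        have h8 : ∑ q ∈ al X (.add b t₁ t₀) A, w X.ψ q * zB X b u t₁ t₀ q =
            ∑ q ∈ alJ X b t₁ t₀ A, w X.ψ q * (2 * (b:ℝ) ^ (-(1/7):ℝ)) := by
          unfold alJ
          rw [Finset.sum_filter]
          refine Finset.sum_congr rfl fun q _ => ?_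
          unfold zB
          by_cases hq : adj b t₁ t₀ q
          · rw [if_pos ⟨hbad, hq⟩, if_pos hq]
          · rw [if_neg (fun hh => hq hh.2), if_neg hq, mul_zero]
        rw [h8, ← Finset.sum_mul]
        refine le_of_eq ?_
        ring
      linarith
    · -- exp term
      have hsg : (X.par.sg b : ℝ) = Real.log b ^ N.B / b := rfl
      have hlo' : Real.log b ^ (-N.C1) ≤ u.c * Ws (w X.ψ) (t₁.items ∪ t₀.items) := hlo
      have hg : ∀ ν : ℝ, ∀ V : ℝ, X.par.sg b * Ws (w X.ψ) (t₁.items ∪ t₀.items) < V → ν = u.c * V →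
          Real.log b ^ N.B / b * Real.log b ^ (-N.C1) ≤ ν := by
        intro ν V hV hν
        rw [hν]
        have h9 : Real.log b ^ N.B / b * (u.c * Ws (w X.ψ) (t₁.items ∪ t₀.items)) ≤ u.c * V := by
          have := mul_le_mul_of_nonneg_left hV.le hc0.le
          rw [hsg] at this
          linarith
        refine le_trans (mul_le_mul_of_nonneg_left hlo' ?_) h9
        positivity
      have g0 := hg ν₀ _ hs0 rfl
      have g1 := hg ν₁ _ hs1 rfl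
      have hr : 0 ≤ Real.log b ^ (-N.a') := Real.rpow_nonneg hl0.le _
      have s1 : 2 * Real.exp (-((b:ℝ) ^ (1/50:ℝ))) ≤ 1/2 * (Real.log b ^ (-N.a') * ν₀) :=
        hexp.trans (mul_le_mul_of_nonneg_left (mul_le_mul_of_nonneg_left g0 hr) (by norm_num))
      have s0 : 2 * Real.exp (-((b:ℝ) ^ (1/50:ℝ))) ≤ 1/2 * (Real.log b ^ (-N.a') * ν₁) :=
        hexp.trans (mul_le_mul_of_nonneg_left (mul_le_mul_of_nonneg_left g1 hr) (by norm_num))
      have hMM : u.c * ∑ q ∈ al X (.add b t₁ t₀) A, w X.ψ q = M₁ + M₀ := by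
        rw [halu, Finset.sum_union hdal, mul_add]
      rw [hMM]
      have v1 : 0 ≤ M₁ * (Real.log b ^ N.a / (b * ν₁)) := by
        have : 0 ≤ ν₁ := hM₁0.trans hM₁ν
        positivity
      have v0 : 0 ≤ M₀ * (Real.log b ^ N.a / (b * ν₀)) := by
        have : 0 ≤ ν₀ := hM₀0.trans hM₀ν
        positivity
      have w1 := mul_le_mul_of_nonneg_left s1 hM₁0
      have w0 := mul_le_mul_of_nonneg_left s0 hM₀0
      have hPe : P = M₁ * (Real.log b ^ N.a / (b * ν₁)) + M₁ * (Real.log b ^ (-N.a') * ν₀) +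
          (M₀ * (Real.log b ^ N.a / (b * ν₀)) + M₀ * (Real.log b ^ (-N.a') * ν₁)) := by
        rw [hPd]; ring
      linarith
  refine hmain.trans ?_
  have key := mass_alF (X := X) (u := u) (τ := .add b t₁ t₀) hc0.le hA (f := zA X b u t₁ t₀)
    (fun q => zA_nonneg X b hc0 t₁ t₀ q)
  have e8 : u.c * ∑ j ∈ A.filter (fun j => X.c.D.it j ∈ (IT.add b t₁ t₀).items),
        Frame758.wt X.c.D j * (2 * zA X b u t₁ t₀ j.1.1) =
      2 * (u.c * ∑ j ∈ A.filter (fun j => X.c.D.it j ∈ (IT.add b t₁ t₀).items),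
        Frame758.wt X.c.D j * zA X b u t₁ t₀ j.1.1) := by
    rw [Finset.mul_sum, Finset.mul_sum, Finset.mul_sum]
    exact Finset.sum_congr rfl fun j _ => by ring
  rw [e8]
  exact mul_le_mul_of_nonneg_left key (by norm_num)

end ctx

end Crest.Agent.R4P.JnB5
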