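import Crest.Agent.R4P.JnB_5
import Crest.Agent.R4P.FarCr_7

/-!
R4 (S0004) with powers, T3, helper5: **pairs of pieces of one INDEX across a far node** (copy of
helper7's `FarSp_7`, `FarPay_7`, `FarCr_7` with the relation "one index").
-/

set_option autoImplicit false
set_option linter.unusedSectionVars false
set_option linter.unusedVariables false

open MeasureTheory Filter

namespace Crest.Agent.R4P.JnC5

open Crest.Agent.R4P.Cnt588 Crest.Agent.R4P.Item758 Crest.Agent.R4P.W363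
open Crest.Agent.R4P.Data758 Crest.Agent.R4P.OmSt532 Crest.Agent.R4P.OmData532
open Crest.Agent.R4P.LfDat734 Crest.Agent.R4P.WPex189
open Crest.Agent.R4P.Bld532
open Crest.Agent.R4P.Step588 (NDt ND1 ctx_NDt uq_lt)
open Crest.Agent.R4P.WalkIT579 (tp isL nodeOk_hi top_of_nodeOk)
open Crest.Agent.R4P.Skel189 Crest.Agent.R4P.RseSt23 Crest.Agent.R4P.RseNd23
open Crest.Agent.R4.Soft104 (w)
open Crest.Agent.R4P.AvgItem710
open Crest.Agent.R4.ClosL758 Crest.Agent.R4.ClosR758 Crest.Agent.R4.Tour104 Crest.Agent.R4.Fam464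
open Crest.Agent.R4.Tour758 Crest.Agent.R4.Avg758
open Crest.Agent.R4P.AddNode7 hiding lift_add_core lift_add exact2 F_add PE_add lab_add lab_add2 DU_none F_addU PE_addU unl_add
open Crest.Agent.R4P.FarLift7 Crest.Agent.R4P.DseCh23
open Crest.Agent.R4P.FarNear7
open Crest.Agent.R4P.FarNode7 hiding lift_pair F_pair PE_pair F_pairU PE_pairU lab_pair unl_pair exW eA NE NE_plk eA_mono eA_nonneg eA_zero near_sp
open Crest.Agent.R4P.FarPay7 (Q_Dr_symm Q_split_r Q_split_l Q_empty_r zF zF_nonneg sg_small)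
open Crest.Agent.R4P.JnA5 Crest.Agent.R4P.JnB5
open Crest.Agent.R4.Item758 (IL)
open Crest.Agent.R4.ClsS (eps1)
open Crest.Agent.R4

section ctx
variable {N : Skel189.Num} {γ : ℝ} {p0 P₀ : ℕ}

/-- energy of a population in a subtree, pairs of one index (arguments in the order of `ED`) -/
noncomputable abbrev ESd (X : Ctx N γ p0 P₀) (Y : Finset (ℕ × ℕ × Finset ℕ)) (A : Finset X.c.Lam)
    (b : ℕ) (u : NS) (t : IT) : ℝ := eS X Y b u t A

/-- **energies of the children of the base of a near child** -/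
def NE (X : Ctx N γ p0 P₀) (Y : Finset (ℕ × ℕ × Finset ℕ)) (A : Finset X.c.Lam) (K : ℝ) :
    NS → IT → Prop
  | u, .br p _ t₁ t₀ =>
      ESd X Y (A ∩ X.c.sp p) p ⟨p, u.c / (1 - 1 / (p : ℝ)), u.A * p, u.B⟩ t₁ ≤
        K * (u.c / (1 - 1 / (p : ℝ)) * ∑ q ∈ al X t₁ (A ∩ X.c.sp p), w X.ψ q) ∧
      ESd X Y A p ⟨p, u.c * p, u.A, u.B * p⟩ t₀ ≤ K * (u.c * p * ∑ q ∈ al X t₀ A, w X.ψ q)
  | u, .up p _ t => ESd X Y (A ∩ X.c.sp p) p ⟨p, u.c, u.A, u.B⟩ t ≤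
        K * (u.c * ∑ q ∈ al X t (A ∩ X.c.sp p), w X.ψ q)
  | u, .pl p t => NE X Y A K ⟨p + 1, u.c, u.A * p, u.B⟩ t
  | _, _ => True

variable {X : Ctx N γ p0 P₀} {u : NS} {b : ℕ} {t₁ t₀ : IT}

lemma NE_plk {Y : Finset (ℕ × ℕ × Finset ℕ)} {A : Finset X.c.Lam} {K : ℝ} {p : ℕ} {t : IT} :
    ∀ (i : ℕ) (u : NS), u.n = p + 1 → NE X Y A K u (plk p i t) →
      NE X Y A K ⟨p + 1, u.c, u.A * p ^ i, u.B⟩ t := by
  intro i
  induction i with
  | zero =>
    intro u hn h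
    rw [pow_zero, mul_one, ← hn]
    exact h
  | succ i ih =>
    intro u hn h
    have h' : NE X Y A K ⟨p + 1, u.c, u.A * p, u.B⟩ (plk p i t) := h
    have := ih ⟨p + 1, u.c, u.A * p, u.B⟩ rfl h'
    have e : u.A * p ^ (i + 1) = u.A * p * p ^ i := by ring
    rw [e]
    exact this

/-- energies are monotone in the population -/
lemma eS_mono {t : IT} (h : NDt X.par (w X.ψ) X.c.t u t) (Y : Finset (ℕ × ℕ × Finset ℕ)) (b : ℕ)
    {A A' : Finset X.c.Lam} (hA : ∀ j ∈ A', j.1.1 ∈ t.items → j ∈ A) :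
    eS X Y b u t A' ≤ eS X Y b u t A := by
  have pu := PB_Uw h Y
  refine Q_mono (fun j => PB_rv pu A' j) (fun j => PB_rv pu A' j) (fun j => PB_rv pu A j)
    (fun j => PB_rv pu A j) ?_ ?_ <;>
  · intro j x
    rw [rv_apply, rv_apply]
    by_cases hj : j ∈ A'
    · rw [if_pos hj]
      by_cases hj' : j.1.1 ∈ t.items
      · rw [if_pos (hA j hj hj')]
      · rw [Uw_zero Y hj']
        split_ifs <;> exact le_rfl
    · rw [if_neg hj]
      split_ifs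
      · exact (pu j).nonneg x
      · exact le_rfl

lemma eS_nonneg {t : IT} (h : NDt X.par (w X.ψ) X.c.t u t) (Y : Finset (ℕ × ℕ × Finset ℕ)) (b : ℕ)
    (A : Finset X.c.Lam) : 0 ≤ eS X Y b u t A := by
  have pu := PB_Uw h Y
  unfold eS Q
  exact Finset.sum_nonneg fun e _ => Tour104.I_nonneg fun x =>
    mul_nonneg ((PB_rv pu A _).nonneg x) ((PB_rv pu A _).nonneg x)

/-- energies of empty populations -/
lemma eS_zero {t : IT} (h : NDt X.par (w X.ψ) X.c.t u t) (Y : Finset (ℕ × ℕ × Finset ℕ)) (b : ℕ)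
    {A : Finset X.c.Lam} (hA : ∀ j ∈ A, j.1.1 ∉ t.items) : eS X Y b u t A = 0 := by
  refine le_antisymm ?_ (eS_nonneg h Y b A)
  refine (eS_mono h Y b (A := ∅) fun j hj hj' => absurd hj' (hA j hj)).trans (le_of_eq ?_)
  unfold eS Q
  refine Finset.sum_eq_zero fun e _ => ?_
  rw [rv_of_not_mem (Finset.notMem_empty _)]
  simp [I]

open Classical in
set_option maxHeartbeats 1000000 in
/-- **energies and masses of the atypical items of a near child** -/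
theorem near_sp (hb : b.Prime) (hc : 0 < u.c) (hA0 : 0 < u.A) {i K : ℕ} {t : IT} (hB : NB b t)
    (ht : NDt X.par (w X.ψ) X.c.t ⟨b + 1, u.c, u.A * b ^ i, u.B⟩ t) (hK : KT i K t)
    (h0 : NDt X.par (w X.ψ) X.c.t ⟨b + 1, u.c, u.A, u.B⟩ (plk b i t))
    (hnear : ∀ q ∈ (plk b i t).items, ¬ b ^ (K + 2) ∣ q / u.A)
    (Y : Finset (ℕ × ℕ × Finset ℕ)) (A : Finset X.c.Lam) {C : ℝ} (hC : 0 ≤ C)
    (hE0 : eS X Y b u (plk b i t) A ≤ C * mA X u (plk b i t) A)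
    (hNE : NE X Y A C ⟨b + 1, u.c, u.A * b ^ i, u.B⟩ t) :
    eS X Y b u (plk b i t) (A.filter fun j => ¬ b ^ K ∣ j.1.1 / u.A) ≤
        2 * C * Msp X u b (plk b i t) A ∧
      eS X Y b u (plk b i t) (A.filter fun j => b ^ (K + 1) ∣ j.1.1 / u.A) ≤
        2 * C * Msp X u b (plk b i t) A ∧
      mA X u (plk b i t) (A.filter fun j => ¬ b ^ K ∣ j.1.1 / u.A) ≤ Msp X u b (plk b i t) A ∧
      mA X u (plk b i t) (A.filter fun j => b ^ (K + 1) ∣ j.1.1 / u.A) ≤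
        Msp X u b (plk b i t) A := by
  have hit : (plk b i t).items = t.items := plk_items i
  have hbi : 0 < b ^ i := pow_pos hb.pos i
  have hbR : (0:ℝ) < b := by exact_mod_cast hb.pos
  have hb2 : (2:ℝ) ≤ b := by exact_mod_cast hb.two_le
  have h0' : NDt X.par (w X.ψ) X.c.t ⟨b + 1, u.c, u.A, u.B⟩ (plk b i t) := h0
  have hMsp0 : 0 ≤ Msp X u b (plk b i t) A :=
    mul_nonneg hc.le (Finset.sum_nonneg fun q _ => X.hW q)
  have hdiv : ∀ q ∈ t.items, b ^ i ∣ q / u.A ∧ q / (u.A * b ^ i) = q / u.A / b ^ i := fun q hq =>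
    dvd_of_plk (S := ∅) ht hq ((Dvd.intro _ rfl).trans (ht.bk.dvd q hq)) hA0
  have hup : ∀ q ∈ t.items, ∀ m : ℕ, (b ^ m ∣ q / (u.A * b ^ i) ↔ b ^ (i + m) ∣ q / u.A) := by
    intro q hq m
    obtain ⟨d1, d2⟩ := hdiv q hq
    rw [d2]
    obtain ⟨c, hc⟩ := d1
    rw [hc, Nat.mul_div_cancel_left _ hbi, pow_add, Nat.mul_dvd_mul_iff_left hbi]
  -- monotonicity of energies on the near child (state `u`)
  have hmono : ∀ {A₁ A₂ : Finset X.c.Lam}, (∀ j ∈ A₁, j.1.1 ∈ (plk b i t).items → j ∈ A₂) →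
      eS X Y b u (plk b i t) A₁ ≤ eS X Y b u (plk b i t) A₂ := fun {A₁ A₂} h =>
    eS_mono (u := ⟨b + 1, u.c, u.A, u.B⟩) h0' Y b h
  -- masses
  have hmass : ∀ {A₁ : Finset X.c.Lam}, A₁ ⊆ A → (∀ j ∈ A₁, j.1.1 ∈ t.items → spc X b (plk b i t) j.1.1) →
      mA X u (plk b i t) A₁ ≤ Msp X u b (plk b i t) A := by
    intro A₁ hA₁ hsp
    refine mA_le hc.le fun q hq => ?_
    obtain ⟨a1, a2, j, hj, rfl⟩ := mem_al.1 hq
    refine mem_Sps.2 ⟨mem_al.2 ⟨a1, a2, j, hA₁ hj, rfl⟩, hsp j hj ?_⟩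
    rw [← hit]; exact a1
  cases hB with
  | leaf S =>
    have hsp : ∀ q, spc X b (plk b i (.leaf S)) q := fun q =>
      Or.inr (Or.inr ((lfB_plk i).2 trivial))
    have e : mA X u (plk b i (.leaf S)) A ≤ Msp X u b (plk b i (.leaf S)) A :=
      hmass subset_rfl fun j _ _ => hsp _
    have key : ∀ {A₁ : Finset X.c.Lam}, A₁ ⊆ A → eS X Y b u (plk b i (.leaf S)) A₁ ≤
        2 * C * Msp X u b (plk b i (.leaf S)) A := by
      intro A₁ hA₁
      refine (hmono fun j hj _ => hA₁ hj).trans (hE0.trans ?_)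
      have := mul_le_mul_of_nonneg_left e hC
      nlinarith [mul_nonneg hC hMsp0]
    exact ⟨key (Finset.filter_subset _ _), key (Finset.filter_subset _ _),
      hmass (Finset.filter_subset _ _) fun j _ _ => hsp _,
      hmass (Finset.filter_subset _ _) fun j _ _ => hsp _⟩
  | br Sp s₁ s₀ =>
    have hK' : K = i + 1 := hK
    subst hK'
    obtain ⟨-, -, -, -, -, f1, f0, fS, -⟩ := ht.self.node
    have f1' : s₁.items = dv (u.A * b ^ i) b (s₁.items ∪ s₀.items) := f1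
    have f0' : s₀.items = nd (u.A * b ^ i) b (s₁.items ∪ s₀.items) := f0
    have fS' : Sp = dv (u.A * b ^ i) (b ^ 2) (s₁.items ∪ s₀.items) := fS
    have hdj : Disjoint s₁.items s₀.items := ht.fit.2.2.1
    have hm0 : ∀ q ∈ (IT.br b Sp s₁ s₀).items, ¬ b ^ (i + 1) ∣ q / u.A → q ∈ s₀.items := by
      intro q hq hn
      rw [f0', mem_nd]
      refine ⟨hq, fun hd => hn ?_⟩
      exact (hup q hq 1).1 (by rwa [pow_one])
    have hm1 : ∀ q ∈ s₁.items, b ^ (i + 1) ∣ q / u.A := by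
      intro q hq
      have hq' : q ∈ (IT.br b Sp s₁ s₀).items := Finset.mem_union_left _ hq
      rw [f1', mem_dv] at hq
      exact (hup q hq' 1).1 (by rw [pow_one]; exact hq.2)
    have hmS : ∀ q ∈ (IT.br b Sp s₁ s₀).items, b ^ (i + 1 + 1) ∣ q / u.A → q ∈ Sp := by
      intro q hq hd
      rw [fS', mem_dv]
      exact ⟨hq, (hup q hq 2).2 hd⟩
    have hSps1 : Sp ⊆ s₁.items := by
      intro q hq
      rw [fS', mem_dv] at hq
      rw [f1', mem_dv]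
      exact ⟨hq.1, (dvd_pow_self b two_ne_zero).trans hq.2⟩
    -- missing / retained
    have hmt : ∀ q ∈ s₀.items, b ∈ X.c.t.mt q := by
      intro q hq
      refine mt_up ht (Finset.mem_union_right _ hq) ?_
      show b ∈ (if q ∈ s₀.items then insert b (s₀.mt q) else s₁.mt q)
      rw [if_pos hq]
      exact Finset.mem_insert_self _ _
    have huq : ∀ q ∈ Sp, b ∈ X.c.t.uq q := by
      intro q hq
      have hq1 := hSps1 hq
      have hq0 : q ∉ s₀.items := Finset.disjoint_left.1 hdj hq1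
      refine (ht.self.lo q (Finset.mem_union_left _ hq1) b (Nat.lt_succ_self b)).2 ?_
      show b ∈ (if q ∈ s₀.items then s₀.uq q else if q ∈ Sp then insert b (s₁.uq q) else s₁.uq q)
      rw [if_neg hq0, if_pos hq]
      exact Finset.mem_insert_self _ _
    obtain ⟨n1, n0⟩ := hNE
    refine ⟨?_, ?_, ?_, ?_⟩
    · -- missing items
      have k1 := E_miss (X := X) (u := u) hb ht Y A (A.filter fun j => ¬ b ^ (i + 1) ∣ j.1.1 / u.A)
        (Finset.filter_subset _ _)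
        (fun j hj hj1 => (Finset.mem_filter.1 hj).2 (hm1 _ hj1)) (SX X b)
      refine le_trans k1 ?_
      have k2 : Q (SX X b) (rv A (Uw X Y ⟨b, u.c * b, u.A * b ^ i, u.B * b⟩ s₀))
          (rv A (Uw X Y ⟨b, u.c * b, u.A * b ^ i, u.B * b⟩ s₀)) ≤
          C * (u.c * b * ∑ q ∈ al X s₀ A, w X.ψ q) := n0
      have k3 : u.c * ∑ q ∈ al X s₀ A, w X.ψ q ≤ Msp X u b (plk b i (.br b Sp s₁ s₀)) A := by
        refine mul_le_mul_of_nonneg_left (Finset.sum_le_sum_of_subset_of_nonneg (fun q hq => ?_)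
          fun q _ _ => X.hW q) hc.le
        obtain ⟨a1, a2⟩ := mem_al.1 hq
        refine mem_Sps.2 ⟨mem_al.2 ⟨?_, a2⟩, Or.inl (hmt q a1)⟩
        rw [hit]; exact Finset.mem_union_right _ a1
      have k4 : C * (u.c * b * ∑ q ∈ al X s₀ A, w X.ψ q) / b =
          C * (u.c * ∑ q ∈ al X s₀ A, w X.ψ q) := by field_simp
      have k5 := div_le_div_of_nonneg_right k2 hbR.le
      rw [k4] at k5
      have k6 := mul_le_mul_of_nonneg_left k3 hC
      have k7 := mul_nonneg hC hMsp0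
      linarith
    · -- retained items
      have k0 : eS X Y b u (plk b i (.br b Sp s₁ s₀))
            (A.filter fun j => b ^ (i + 1 + 1) ∣ j.1.1 / u.A) ≤
          eS X Y b u (plk b i (.br b Sp s₁ s₀)) (A.filter fun j => j.1.1 ∈ Sp) :=
        hmono fun j hj hj' => by
          obtain ⟨a1, a2⟩ := Finset.mem_filter.1 hj
          exact Finset.mem_filter.2 ⟨a1, hmS _ (by rw [← hit]; exact hj') a2⟩
      have k1 := E_ret_br (X := X) (u := u) hb ht Y (A ∩ X.c.sp b) (A.filter fun j => j.1.1 ∈ Sp)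
        (fun j hj => by
          obtain ⟨a1, a2⟩ := Finset.mem_filter.1 hj
          refine Finset.mem_inter.2 ⟨a1, ?_⟩
          unfold Cf.sp
          exact Finset.mem_filter.2 ⟨Finset.mem_univ _, huq _ a2⟩)
        (fun j hj => Finset.disjoint_left.1 hdj (hSps1 (Finset.mem_filter.1 hj).2))
        (SX X b)
      have k2 : Q (SX X b)
          (rv (A ∩ X.c.sp b) (Uw X Y ⟨b, u.c / (1 - 1 / (b : ℝ)), u.A * b ^ i * b, u.B⟩ s₁))
          (rv (A ∩ X.c.sp b) (Uw X Y ⟨b, u.c / (1 - 1 / (b : ℝ)), u.A * b ^ i * b, u.B⟩ s₁)) ≤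
          C * (u.c / (1 - 1 / (b : ℝ)) * ∑ q ∈ al X s₁ (A ∩ X.c.sp b), w X.ψ q) := n1
      refine (k0.trans k1).trans (k2.trans ?_)
      have k3 : ∑ q ∈ al X s₁ (A ∩ X.c.sp b), w X.ψ q ≤
          ∑ q ∈ Sps X b (plk b i (.br b Sp s₁ s₀)) A, w X.ψ q := by
        refine Finset.sum_le_sum_of_subset_of_nonneg (fun q hq => ?_) fun q _ _ => X.hW q
        obtain ⟨a1, a2, j, hj, rfl⟩ := mem_al.1 hq
        obtain ⟨j1, j2⟩ := Finset.mem_inter.1 hj
        refine mem_Sps.2 ⟨mem_al.2 ⟨?_, a2, j, j1, rfl⟩, Or.inr (Or.inl ?_)⟩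
        · rw [hit]; exact Finset.mem_union_left _ a1
        · unfold Cf.sp at j2
          exact (Finset.mem_filter.1 j2).2
      have hinv : 1 / (1 - 1 / (b:ℝ)) ≤ 2 := by
        have h1 : 1 / (b:ℝ) ≤ 1 / 2 := one_div_le_one_div_of_le (by norm_num) hb2
        have h2 : (1:ℝ)/2 ≤ 1 - 1 / (b:ℝ) := by linarith
        calc 1 / (1 - 1 / (b:ℝ)) ≤ 1 / (1/2) := one_div_le_one_div_of_le (by norm_num) h2
          _ = 2 := by norm_num
      have hs1 : 0 ≤ ∑ q ∈ al X s₁ (A ∩ X.c.sp b), w X.ψ q := Finset.sum_nonneg fun q _ => X.hW q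
      have e : u.c / (1 - 1 / (b : ℝ)) = u.c * (1 / (1 - 1 / (b:ℝ))) := by ring
      have k4 : u.c / (1 - 1 / (b : ℝ)) * ∑ q ∈ al X s₁ (A ∩ X.c.sp b), w X.ψ q ≤
          2 * Msp X u b (plk b i (.br b Sp s₁ s₀)) A := by
        rw [e]
        unfold Msp
        calc u.c * (1 / (1 - 1 / (b:ℝ))) * ∑ q ∈ al X s₁ (A ∩ X.c.sp b), w X.ψ q
            ≤ u.c * 2 * ∑ q ∈ al X s₁ (A ∩ X.c.sp b), w X.ψ q :=
              mul_le_mul_of_nonneg_right (mul_le_mul_of_nonneg_left hinv hc.le) hs1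
          _ ≤ u.c * 2 * ∑ q ∈ Sps X b (plk b i (.br b Sp s₁ s₀)) A, w X.ψ q :=
              mul_le_mul_of_nonneg_left k3 (by positivity)
          _ = _ := by ring
      calc C * (u.c / (1 - 1 / (b : ℝ)) * ∑ q ∈ al X s₁ (A ∩ X.c.sp b), w X.ψ q)
          ≤ C * (2 * Msp X u b (plk b i (.br b Sp s₁ s₀)) A) := mul_le_mul_of_nonneg_left k4 hC
        _ = _ := by ring
    · refine hmass (Finset.filter_subset _ _) fun j hj hj' => Or.inl (hmt _ (hm0 _ hj' ?_))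
      exact (Finset.mem_filter.1 hj).2
    · refine hmass (Finset.filter_subset _ _) fun j hj hj' => Or.inr (Or.inl (huq _ (hmS _ hj' ?_)))
      exact (Finset.mem_filter.1 hj).2
  | up Sp s =>
    have hK' : K = i := hK
    subst hK'
    obtain ⟨-, -, -, -, -, fS, -⟩ := ht.self.node
    have fS' : Sp = dv (u.A * b ^ K) b s.items := fS
    have hmS : ∀ q ∈ s.items, b ^ (K + 1) ∣ q / u.A → q ∈ Sp := by
      intro q hq hd
      rw [fS', mem_dv]
      have := (hup q hq 1).2 hd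
      rw [pow_one] at this
      exact ⟨hq, this⟩
    have hSps1 : Sp ⊆ s.items := by
      intro q hq
      rw [fS', mem_dv] at hq
      exact hq.1
    have huq : ∀ q ∈ Sp, b ∈ X.c.t.uq q := by
      intro q hq
      refine (ht.self.lo q (hSps1 hq) b (Nat.lt_succ_self b)).2 ?_
      show b ∈ (if q ∈ Sp then insert b (s.uq q) else s.uq q)
      rw [if_pos hq]
      exact Finset.mem_insert_self _ _
    have hno : ∀ j ∈ A.filter fun j => ¬ b ^ K ∣ j.1.1 / u.A, j.1.1 ∉ (plk b K (.up b Sp s)).items := by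
      intro j hj hj'
      rw [hit] at hj'
      exact (Finset.mem_filter.1 hj).2 (hdiv _ hj').1
    have n1 := hNE
    refine ⟨?_, ?_, ?_, ?_⟩
    · have : eS X Y b u (plk b K (.up b Sp s)) (A.filter fun j => ¬ b ^ K ∣ j.1.1 / u.A) = 0 :=
        eS_zero (u := ⟨b + 1, u.c, u.A, u.B⟩) h0' Y b hno
      rw [this]
      positivity
    · have k0 : eS X Y b u (plk b K (.up b Sp s))
            (A.filter fun j => b ^ (K + 1) ∣ j.1.1 / u.A) ≤
          eS X Y b u (plk b K (.up b Sp s)) (A.filter fun j => j.1.1 ∈ Sp) :=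
        hmono fun j hj hj' => by
          obtain ⟨a1, a2⟩ := Finset.mem_filter.1 hj
          exact Finset.mem_filter.2 ⟨a1, hmS _ (by rw [hit] at hj'; exact hj') a2⟩
      have k1 := E_ret_up (X := X) (u := u) hb ht Y (A ∩ X.c.sp b) (A.filter fun j => j.1.1 ∈ Sp)
        (fun j hj => by
          obtain ⟨a1, a2⟩ := Finset.mem_filter.1 hj
          refine Finset.mem_inter.2 ⟨a1, ?_⟩
          unfold Cf.sp
          exact Finset.mem_filter.2 ⟨Finset.mem_univ _, huq _ a2⟩)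
        (SX X b)
      have k2 : Q (SX X b)
          (rv (A ∩ X.c.sp b) (Uw X Y ⟨b, u.c, u.A * b ^ K, u.B⟩ s))
          (rv (A ∩ X.c.sp b) (Uw X Y ⟨b, u.c, u.A * b ^ K, u.B⟩ s)) ≤
          C * (u.c * ∑ q ∈ al X s (A ∩ X.c.sp b), w X.ψ q) := n1
      refine (k0.trans k1).trans (k2.trans ?_)
      have k3 : u.c * ∑ q ∈ al X s (A ∩ X.c.sp b), w X.ψ q ≤ Msp X u b (plk b K (.up b Sp s)) A := by
        refine mul_le_mul_of_nonneg_left (Finset.sum_le_sum_of_subset_of_nonneg (fun q hq => ?_)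
          fun q _ _ => X.hW q) hc.le
        obtain ⟨a1, a2, j, hj, rfl⟩ := mem_al.1 hq
        obtain ⟨j1, j2⟩ := Finset.mem_inter.1 hj
        refine mem_Sps.2 ⟨mem_al.2 ⟨?_, a2, j, j1, rfl⟩, Or.inr (Or.inl ?_)⟩
        · rw [hit]; exact a1
        · unfold Cf.sp at j2
          exact (Finset.mem_filter.1 j2).2
      have k6 := mul_le_mul_of_nonneg_left k3 hC
      have k7 := mul_nonneg hC hMsp0
      linarith
    · refine hmass (Finset.filter_subset _ _) fun j hj hj' => ?_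
      exact absurd (by rw [hit]; exact hj') (hno j hj)
    · refine hmass (Finset.filter_subset _ _) fun j hj hj' => Or.inr (Or.inl (huq _ (hmS _ hj' ?_)))
      exact (Finset.mem_filter.1 hj).2


/-- **all the pairs of one world** -/
theorem pair_all {X : Ctx N γ p0 P₀} {Y : Finset (ℕ × ℕ × Finset ℕ)} {u : NS} {b m : ℕ} {th tl : IT}
    {Ah Al : Finset X.c.Lam} {L1 L2 U1 : ℝ}
    (hl : Q (SL X b) (rv Ah (Uw X Y u th)) (rv Al (Uw X Y u tl)) ≤ L1 + L2)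
    (hu : Q (SU X b) (rv Ah (Uw X Y u th)) (rv Al (Uw X Y u tl)) ≤ U1) :
    Q (SX X b) (rv Ah (Uw X Y u th)) (rv Al (Uw X Y u tl)) ≤ L1 + L2 + U1 := by
  rw [Q_SL_SU]
  exact add_le_add hl hu

set_option maxHeartbeats 1000000 in
/-- **pairs whose exponents differ by at least one**: charge of both masses -/
theorem pair0 : ∃ κ₀ : ℝ, 0 ≤ κ₀ ∧ ∀ (N : Skel189.Num) (Ct A₀ K κ : ℝ), 0 ≤ Ct → 0 ≤ A₀ →
    0 ≤ K → κ + N.c2 + 1 ≤ A₀ →
    ∃ p₁ : ℕ, ∀ p0 ≥ p₁, ∀ (γ : ℝ) (P₀ : ℕ), 2 ≤ P₀ →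
    ∀ X : Ctx N γ p0 P₀, RseH X → X.c.d1 * Kc X.S ≤ 1 →
    (∀ p, p0 < p → Real.log p ^ (-Ct) ≤ X.c.wp.thr p) →
    ∀ (Y : Finset (ℕ × ℕ × Finset ℕ)) (u : NS) (τ : IT) (b i : ℕ) (th tl : IT)
      (Ah Al : Finset X.c.Lam), PR X Y u τ b i 0 th tl Ah Al → ∀ y₁ y₀ : ℝ,
      y₁ ≤ Real.log b ^ N.c2 → y₀ ≤ Real.log b ^ N.c2 →
      mA X u th Ah ≤ y₁ → mA X u tl Al ≤ y₀ →
      eS X Y b u th Ah ≤ K * y₁ → eS X Y b u tl Al ≤ K * y₀ → 0 ≤ eS X Y b u tl Al →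
      Q (SX X b) (rv Ah (Uw X Y u th)) (rv Al (Uw X Y u tl)) ≤
        Real.log b ^ (-κ) / 16 * (y₁ + y₀) := by
  obtain ⟨κ₀, hκ₀, HU⟩ := unl_pair
  refine ⟨κ₀, hκ₀, fun N Ct A₀ K κ hCt hA₀ hK hA => ?_⟩
  obtain ⟨p1, h1⟩ := lab_pair N
  obtain ⟨p2, h2⟩ := HU N Ct A₀ hCt hA₀
  obtain ⟨x₀, h3⟩ := FarPayN7.pay0 K κ A₀ (κ₀ + (Ct + A₀) / 500) N.c2 hK hA
  refine ⟨p1 + p2 + ⌈x₀⌉₊ + 2, fun p0 hp0 γ P₀ hP X hX hd1 hthr Y u τ b i th tl Ah Al P y₁ y₀
    g1 g0 m1 m0 e1 e0 e0' => ?_⟩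
  have he : LL207.e1 = eps1 := by unfold LL207.e1; rfl
  have he' : eps1 = 1/1000 := rfl
  have hc0 := P.nf.c0.le
  have hb : p0 < b := by
    obtain ⟨-, k2, -⟩ := nodeOk_hi P.nf.nd.self.node P.nl
    rw [← P.col]; exact k2
  have hbR : (0:ℝ) < b := by exact_mod_cast (by omega : 0 < b)
  obtain ⟨hL, h3'⟩ := h3 b ((Nat.le_ceil _).trans (by exact_mod_cast (by omega : ⌈x₀⌉₊ ≤ b)))
  have hM1 := mA_nonneg (X := X) hc0 th Ah
  have hM0 := mA_nonneg (X := X) hc0 tl Al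
  have hy1 : 0 ≤ y₁ := hM1.trans m1
  have hy0 : 0 ≤ y₀ := hM0.trans m0
  have key := h3' y₁ y₀ hy1 hy0 g1 g0
  have hlab := h1 p0 (by omega) γ P₀ hP X hX hd1 Y u τ b i 0 th tl Ah Al P
  have hunl := h2 p0 (by omega) γ P₀ hP X hX hthr Y u τ b i 0 th tl Ah Al P
  rw [if_pos rfl, zero_add, pow_one] at hlab
  rw [zero_add, pow_one, pow_one] at hunl
  have hall := pair_all (m := 0) hlab hunl
  refine hall.trans (le_trans ?_ key)
  have hl0 : 0 ≤ Real.log (b:ℝ) := by linarith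
  have s1 : eS X Y b u th Ah * eS X Y b u tl Al / b ≤ (K * y₁) * (K * y₀) / b :=
    div_le_div_of_nonneg_right (mul_le_mul e1 e0 e0' (mul_nonneg hK hy1)) hbR.le
  have s2 := Real.sqrt_le_sqrt s1
  have s3 : mA X u th Ah * mA X u tl Al ≤ y₁ * y₀ := mul_le_mul m1 m0 hM0 hy1
  have s4 := Real.rpow_le_rpow (mul_nonneg hM1 hM0) s3 (by rw [he']; norm_num : (0:ℝ) ≤ 1/2+eps1)
  refine add_le_add (add_le_add ?_ ?_) (add_le_add (add_le_add ?_ ?_) ?_)
  · exact mul_le_mul_of_nonneg_left s2 (by norm_num)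
  · exact mul_le_mul_of_nonneg_left (add_le_add m1 m0) (by positivity)
  · exact mul_le_mul_of_nonneg_left s3 (by positivity)
  · exact mul_le_mul_of_nonneg_left (mul_le_mul_of_nonneg_left s4 (by positivity)) (by positivity)
  · exact mul_le_mul_of_nonneg_left m1 (by positivity)

set_option maxHeartbeats 1000000 in
/-- **pairs whose exponents differ by at least two**: charge of the far mass `x` and of the near mass
`y` divided by `b` -/
theorem pair1 : ∃ κ₀ : ℝ, 0 ≤ κ₀ ∧ ∀ (N : Skel189.Num) (Ct A₀ K κ : ℝ), 0 ≤ Ct → 0 ≤ A₀ →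
    0 ≤ K → κ + N.c2 + 1 ≤ A₀ →
    ∃ p₁ : ℕ, ∀ p0 ≥ p₁, ∀ (γ : ℝ) (P₀ : ℕ), 2 ≤ P₀ →
    ∀ X : Ctx N γ p0 P₀, RseH X → X.c.d1 * Kc X.S ≤ 1 →
    (∀ p, p0 < p → Real.log p ^ (-Ct) ≤ X.c.wp.thr p) →
    ∀ (Y : Finset (ℕ × ℕ × Finset ℕ)) (u : NS) (τ : IT) (b i : ℕ) (th tl : IT)
      (Ah Al : Finset X.c.Lam), PR X Y u τ b i 1 th tl Ah Al → ∀ x y z₁ z₀ : ℝ,
      (z₁ = x ∧ z₀ = y ∨ z₁ = y ∧ z₀ = x) → 0 ≤ x → 0 ≤ y →
      x ≤ Real.log b ^ N.c2 → y ≤ Real.log b ^ N.c2 →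
      mA X u th Ah ≤ z₁ → mA X u tl Al ≤ z₀ →
      eS X Y b u th Ah ≤ K * z₁ → eS X Y b u tl Al ≤ K * z₀ → 0 ≤ eS X Y b u tl Al →
      Q (SX X b) (rv Ah (Uw X Y u th)) (rv Al (Uw X Y u tl)) ≤
        Real.log b ^ (-κ) / 16 * (x + y / b) := by
  obtain ⟨κ₀, hκ₀, HU⟩ := unl_pair
  refine ⟨κ₀, hκ₀, fun N Ct A₀ K κ hCt hA₀ hK hA => ?_⟩
  obtain ⟨p1, h1⟩ := lab_pair N
  obtain ⟨p2, h2⟩ := HU N Ct A₀ hCt hA₀
  obtain ⟨x₀, h3⟩ := FarPayN7.pay1 K κ A₀ (κ₀ + (Ct + A₀) / 500) N.c2 hK hA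
  refine ⟨p1 + p2 + ⌈x₀⌉₊ + 2, fun p0 hp0 γ P₀ hP X hX hd1 hthr Y u τ b i th tl Ah Al P x y z₁ z₀
    hz hx hy g1 g0 m1 m0 e1 e0 e0' => ?_⟩
  have he : LL207.e1 = eps1 := by unfold LL207.e1; rfl
  have he' : eps1 = 1/1000 := rfl
  have hc0 := P.nf.c0.le
  have hb : p0 < b := by
    obtain ⟨-, k2, -⟩ := nodeOk_hi P.nf.nd.self.node P.nl
    rw [← P.col]; exact k2
  have hbR : (0:ℝ) < b := by exact_mod_cast (by omega : 0 < b)
  obtain ⟨hL, h3'⟩ := h3 b ((Nat.le_ceil _).trans (by exact_mod_cast (by omega : ⌈x₀⌉₊ ≤ b)))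
  have hM1 := mA_nonneg (X := X) hc0 th Ah
  have hM0 := mA_nonneg (X := X) hc0 tl Al
  have hz1 : 0 ≤ z₁ := hM1.trans m1
  have hz0 : 0 ≤ z₀ := hM0.trans m0
  have hzz : z₁ * z₀ = x * y := by
    rcases hz with ⟨rfl, rfl⟩ | ⟨rfl, rfl⟩
    · rfl
    · exact mul_comm _ _
  have hzs : z₁ ≤ x + y := by
    rcases hz with ⟨rfl, rfl⟩ | ⟨rfl, rfl⟩ <;> linarith
  have key := h3' x y z₁ hx hy g1 g0 hzs
  have hlab := h1 p0 (by omega) γ P₀ hP X hX hd1 Y u τ b i 1 th tl Ah Al P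
  have hunl := h2 p0 (by omega) γ P₀ hP X hX hthr Y u τ b i 1 th tl Ah Al P
  rw [if_neg one_ne_zero, he] at hlab
  have e2 : (1:ℕ) + 1 = 2 := rfl
  rw [e2] at hlab hunl
  have hall := pair_all (m := 1) hlab hunl
  refine hall.trans (le_trans ?_ key)
  have hl0 : 0 ≤ Real.log (b:ℝ) := by linarith
  have hKK : (K * z₁) * (K * z₀) = (K * x) * (K * y) := by
    calc (K * z₁) * (K * z₀) = K * K * (z₁ * z₀) := by ring
      _ = _ := by rw [hzz]; ring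
  have s1 : eS X Y b u th Ah * eS X Y b u tl Al / (b:ℝ) ^ 2 ≤ (K * x) * (K * y) / (b:ℝ) ^ 2 := by
    rw [← hKK]
    exact div_le_div_of_nonneg_right (mul_le_mul e1 e0 e0' (mul_nonneg hK hz1)) (by positivity)
  have s2 := Real.sqrt_le_sqrt s1
  have s3 : mA X u th Ah * mA X u tl Al ≤ x * y := by
    rw [← hzz]; exact mul_le_mul m1 m0 hM0 hz1
  have s4 := Real.rpow_le_rpow (mul_nonneg hM1 hM0) s3 (by rw [he']; norm_num : (0:ℝ) ≤ 1/2+eps1)
  refine add_le_add (add_le_add ?_ ?_) (add_le_add (add_le_add ?_ ?_) ?_)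
  · exact mul_le_mul_of_nonneg_left s2 (by norm_num)
  · exact mul_le_mul_of_nonneg_left s4 (by positivity)
  · exact mul_le_mul_of_nonneg_left s3 (by positivity)
  · exact mul_le_mul_of_nonneg_left (mul_le_mul_of_nonneg_left s4 (by positivity)) (by positivity)
  · exact mul_le_mul_of_nonneg_left m1 (by positivity)


open Classical in
set_option maxHeartbeats 2000000 in
/-- **the cross term of a far node is paid by `zF`** -/
theorem cr_farS : ∃ κ₀ : ℝ, 0 ≤ κ₀ ∧ ∀ (N : Skel189.Num) (Ct K κ : ℝ), 0 ≤ Ct → 0 ≤ K → 0 ≤ κ →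
    ∃ p₁ : ℕ, ∀ p0 ≥ p₁, ∀ (γ : ℝ) (P₀ : ℕ), 2 ≤ P₀ →
    ∀ X : Ctx N γ p0 P₀, RseH X → X.c.d1 * Kc X.S ≤ 1 →
    (∀ p, p0 < p → Real.log p ^ (-Ct) ≤ X.c.wp.thr p) →
    ∀ (Y : Finset (ℕ × ℕ × Finset ℕ)) (u : NS) (b : ℕ) (t₁ t₀ : IT), NF X u (.far b t₁ t₀) →
    CrossSum29.NearI t₀ →
    ∀ A : Finset X.c.Lam, IL X.c.D.it A →
      ESd X Y A b u t₁ ≤ K * (u.c * ∑ q ∈ al X t₁ A, w X.ψ q) →
      ESd X Y A b u t₀ ≤ K * (u.c * ∑ q ∈ al X t₀ A, w X.ψ q) →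
      NE X Y A K ⟨b + 1, u.c, u.A, u.B⟩ t₀ →
      CrS X Y A b u t₁ t₀ ≤ u.c * ∑ j ∈ A.filter (fun j => X.c.D.it j ∈ (IT.far b t₁ t₀).items),
        Frame758.wt X.c.D j * zF X κ b t₀ j.1.1 := by
  obtain ⟨κ₁, hκ₁, H0⟩ := pair0
  obtain ⟨κ₂, hκ₂, H1⟩ := pair1
  refine ⟨κ₁, hκ₁, fun N Ct K κ hCt hK hκ => ?_⟩
  have hc2N := N.hc2
  obtain ⟨p1, h0⟩ := H0 N Ct (κ + N.c2 + 1) (2 * K) κ hCt (by linarith) (by linarith) le_rfl
  obtain ⟨p2, h1⟩ := H1 N Ct (κ + N.c2 + 1) K κ hCt (by linarith) hK le_rfl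
  obtain ⟨p3, h3⟩ := sg_small N
  refine ⟨p1 + p2 + p3 + 3, fun p0 hp0 γ P₀ hP X hX hd1 hthr Y u b t₁ t₀ hN hNI A hA hE1 hE0 hNE => ?_⟩
  have h := hN.nd
  have hl : ¬ isL (IT.far b t₁ t₀) := fun h => h
  obtain ⟨m1, m2, m3, m4⟩ := nodeOk_hi h.self.node hl
  have m2' : p0 < b := m2
  have hc0 := hN.c0
  obtain ⟨hbp, hbn, -, -, hbk, ⟨Ke, e1, e0, hd, hd2⟩, hlo, hhi, -⟩ := h.self.node
  have hbR : (0:ℝ) < b := by exact_mod_cast (by omega : 0 < b)
  have hb1 : (1:ℝ) ≤ b := by exact_mod_cast (by omega : 1 ≤ b)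
  have hb3 : (3:ℝ) ≤ b := by exact_mod_cast (by omega : 3 ≤ b)
  have hl1 : 1 ≤ Real.log (b:ℝ) := Bld532.one_le_log_nat (by omega)
  have hl0 : 0 < Real.log (b:ℝ) := by linarith
  have hA0 : 0 < u.A := hbk.Apos
  -- children
  have n1 := NDt_far₁ h
  have n0 := NDt_far₀ h
  obtain ⟨i, t, et, hB, ht⟩ := near_plk hbp t₀ ⟨b + 1, u.c, u.A, u.B⟩ hNI rfl n0
  have hsg : X.par.sg b = Real.log b ^ N.B / b := rfl
  have hsg0 : 0 ≤ X.par.sg b := by rw [hsg]; positivity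
  have hsg1 : 4 * X.par.sg b < 1 := by rw [hsg]; exact h3 b (by omega)
  have hlo0 : 0 < X.par.lo b := by
    show 0 < Real.log b ^ (-N.C1)
    exact Real.rpow_pos_of_pos hl0 _
  have hKT : KT i Ke t := KT_near h hc0 hsg0 hsg1 hlo0 hB et ht e0 hd hd2
  have hfar : ∀ q ∈ t₁.items, b ^ (Ke + 2) ∣ q / u.A ∨ ¬ b ^ (Ke - 1) ∣ q / u.A := by
    intro q hq
    rw [e1] at hq
    exact (mem_farS.1 hq).2
  have hnear : ∀ q ∈ t₀.items, ¬ b ^ (Ke + 2) ∣ q / u.A ∧ b ^ (Ke - 1) ∣ q / u.A := by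
    intro q hq
    rw [e0] at hq
    exact (mem_nearS.1 hq).2
  have hdj : Disjoint t₁.items t₀.items := h.fit.1
  -- masses
  set MF := mA X u t₁ A with hMF
  set MN := mA X u t₀ A with hMN
  set MS := Msp X u b t₀ A with hMS
  have hMF0 : 0 ≤ MF := mA_nonneg hc0.le _ _
  have hMN0 : 0 ≤ MN := mA_nonneg hc0.le _ _
  have hMS0 : 0 ≤ MS := mul_nonneg hc0.le (Finset.sum_nonneg fun q _ => X.hW q)
  have hall : ∀ S : Finset ℕ, S ⊆ t₁.items ∪ t₀.items → u.c * ∑ q ∈ S, w X.ψ q ≤ Real.log b ^ N.c2 := by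
    intro S hS
    have h5 : u.c * Ws (w X.ψ) (t₁.items ∪ t₀.items) ≤ Real.log b ^ N.c2 := hhi
    refine le_trans (mul_le_mul_of_nonneg_left ?_ hc0.le) h5
    exact Finset.sum_le_sum_of_subset_of_nonneg hS fun q _ _ => X.hW q
  have hali : ∀ (t : IT) (A : Finset X.c.Lam), al X t A ⊆ t.items := fun t A => by
    unfold al; exact Finset.filter_subset _ _
  have gF : MF ≤ Real.log b ^ N.c2 := hall _ ((hali _ _).trans Finset.subset_union_left)
  have gN : MN ≤ Real.log b ^ N.c2 := hall _ ((hali _ _).trans Finset.subset_union_right)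
  have hSpsN : Sps X b t₀ A ⊆ al X t₀ A := by unfold Sps; exact Finset.filter_subset _ _
  have gS : MS ≤ Real.log b ^ N.c2 :=
    hall _ ((hSpsN.trans (hali _ _)).trans Finset.subset_union_right)
  -- energies
  have E1 : eS X Y b u t₁ A ≤ K * MF := hE1
  have E0 : eS X Y b u t₀ A ≤ K * MN := hE0
  have mono1 : ∀ {A₁ : Finset X.c.Lam}, A₁ ⊆ A → eS X Y b u t₁ A₁ ≤ eS X Y b u t₁ A := fun {A₁} hs =>
    eS_mono (u := ⟨b + 1, u.c, u.A, u.B⟩) n1 Y b fun j hj _ => hs hj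
  have mono0 : ∀ {A₁ : Finset X.c.Lam}, A₁ ⊆ A → eS X Y b u t₀ A₁ ≤ eS X Y b u t₀ A := fun {A₁} hs =>
    eS_mono (u := ⟨b + 1, u.c, u.A, u.B⟩) n0 Y b fun j hj _ => hs hj
  have nn1 : ∀ A₁ : Finset X.c.Lam, 0 ≤ eS X Y b u t₁ A₁ := fun A₁ =>
    eS_nonneg (u := ⟨b + 1, u.c, u.A, u.B⟩) n1 Y b A₁
  have nn0 : ∀ A₁ : Finset X.c.Lam, 0 ≤ eS X Y b u t₀ A₁ := fun A₁ =>
    eS_nonneg (u := ⟨b + 1, u.c, u.A, u.B⟩) n0 Y b A₁
  have mm : ∀ {t : IT} {A₁ : Finset X.c.Lam}, A₁ ⊆ A → mA X u t A₁ ≤ mA X u t A := by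
    intro t A₁ hs
    refine mA_le hc0.le fun q hq => ?_
    obtain ⟨a1, a2, j, hj, rfl⟩ := mem_al.1 hq
    exact mem_al.2 ⟨a1, a2, j, hs hj, rfl⟩
  have hsp := near_sp (X := X) (u := u) hbp hc0 hA0 hB ht hKT (by rw [← et]; exact n0)
    (fun q hq => (hnear q (by rw [et]; exact hq)).1) Y A hK
    (by rw [← et]; exact E0) (by
      have h5 : NE X Y A K ⟨b + 1, u.c, u.A, u.B⟩ (plk b i t) := by rw [← et]; exact hNE
      exact NE_plk i ⟨b + 1, u.c, u.A, u.B⟩ rfl h5)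
  rw [← et] at hsp
  obtain ⟨s1, s2, s3, s4⟩ := hsp
  -- functions of the near child
  have avN : ∀ k : ℕ, k ≤ Ke → ∀ j : X.c.Lam, j.1.1 ∈ t₀.items → b ^ k ∣ j.1.1 / u.A →
      AV (b ^ k) (Uw X Y u t₀ j) := by
    intro k hk j hj hdv
    rw [et]
    refine AV_near hbp hB hA0 ht ?_ Y ?_ hdv
    · cases hB with
      | leaf S => trivial
      | br Sp s₁ s₀ =>
        have : Ke = i + 1 := hKT
        show k ≤ i + 1
        omega
      | up Sp s =>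
        have : Ke = i := hKT
        show k ≤ i
        omega
    · rw [et, plk_items] at hj; exact hj
  have avF : ∀ k : ℕ, ∀ j : X.c.Lam, j.1.1 ∈ t₁.items → b ^ k ∣ j.1.1 / u.A →
      AV (b ^ k) (Uw X Y u t₁ j) := by
    intro k j hj hdv
    rw [e1] at hj n1 ⊢
    exact AV_leaf (u := ⟨b + 1, u.c, u.A, u.B⟩) n1 hbp (Nat.lt_succ_self b) Y hj hdv
  -- the populations
  set Lo := A.filter fun j => ¬ b ^ (Ke - 1) ∣ j.1.1 / u.A with hLo
  set Hi := A.filter fun j => ¬ ¬ b ^ (Ke - 1) ∣ j.1.1 / u.A with hHi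
  set Hf := A.filter fun j => b ^ (Ke + 2) ∣ j.1.1 / u.A with hHf
  set Am := A.filter fun j => ¬ b ^ Ke ∣ j.1.1 / u.A with hAm
  set Ag := A.filter fun j => ¬ ¬ b ^ Ke ∣ j.1.1 / u.A with hAg
  set Ap := A.filter fun j => b ^ (Ke + 1) ∣ j.1.1 / u.A with hAp
  set Ae := A.filter fun j => ¬ b ^ (Ke + 1) ∣ j.1.1 / u.A with hAe
  have sLo : Lo ⊆ A := Finset.filter_subset _ _
  have sHf : Hf ⊆ A := Finset.filter_subset _ _
  have sAm : Am ⊆ A := Finset.filter_subset _ _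
  have sAg : Ag ⊆ A := Finset.filter_subset _ _
  have sAp : Ap ⊆ A := Finset.filter_subset _ _
  have sAe : Ae ⊆ A := Finset.filter_subset _ _
  set D := SX X b with hD
  set U1 := Uw X Y u t₁ with hU1
  set U0 := Uw X Y u t₀ with hU0
  -- far functions: `Hi` and `Hf` agree
  have hHH : rv Hi U1 = rv Hf U1 := by
    funext j x
    rw [rv_apply, rv_apply]
    by_cases hj : j.1.1 ∈ t₁.items
    · have e5 : j ∈ Hi ↔ j ∈ Hf := by
        rw [hHi, hHf, Finset.mem_filter, Finset.mem_filter]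
        refine and_congr_right fun _ => ?_
        rw [not_not]
        constructor
        · intro h6
          rcases hfar _ hj with h7 | h7
          · exact h7
          · exact absurd h6 h7
        · intro h6
          exact (pow_dvd_pow b (by omega)).trans h6
      simp only [e5]
    · have e5 : U1 j x = 0 := Uw_zero Y hj x
      rw [e5]; simp
  -- splitting
  have hsplit : Q D (rv A U1) (rv A U0) =
      (Q D (rv Am U0) (rv Lo U1) + Q D (rv Ag U0) (rv Lo U1)) +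
      (Q D (rv Hf U1) (rv Ap U0) + Q D (rv Hf U1) (rv Ae U0)) := by
    rw [Q_split_l D U1 (rv A U0) A (fun j => ¬ b ^ (Ke - 1) ∣ j.1.1 / u.A)]
    refine congrArg₂ (· + ·) ?_ ?_
    · rw [Q_split_r D (rv (A.filter fun j => ¬ b ^ (Ke - 1) ∣ j.1.1 / u.A) U1) U0 A
        (fun j => ¬ b ^ Ke ∣ j.1.1 / u.A)]
      exact congrArg₂ (· + ·) (Q_Dr_symm _ _ _) (Q_Dr_symm _ _ _)
    · have e5 : rv (A.filter fun j => ¬ ¬ b ^ (Ke - 1) ∣ j.1.1 / u.A) U1 = rv Hf U1 := hHH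
      rw [e5]
      exact Q_split_r D (rv Hf U1) U0 A (fun j => b ^ (Ke + 1) ∣ j.1.1 / u.A)
  -- settings
  have hF1 : Fit u.B u.A t₁ := h.fit.2.1
  have hF0 : Fit u.B u.A t₀ := h.fit.2.2
  have hW1 : (X.c.D.par Y).Wts u.A t₁ := (node_wts h Y).far₁ hdj
  have hW0 : (X.c.D.par Y).Wts u.A t₀ := (node_wts h Y).far₀
  have su1 : t₁.items ⊆ (IT.far b t₁ t₀).items := Finset.subset_union_left
  have su0 : t₀.items ⊆ (IT.far b t₁ t₀).items := Finset.subset_union_right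
  have h2K : ∀ {x y : ℝ}, 0 ≤ y → x ≤ K * y → x ≤ 2 * K * y := fun {x y} hy hx => by
    have := mul_nonneg hK hy
    linarith
  have LoE : Ke ≤ 1 → ∀ j ∈ Lo, ∀ x, U1 j x = 0 := by
    intro hKe j hj x
    exfalso
    have h5 := (Finset.mem_filter.1 hj).2
    have e5 : Ke - 1 = 0 := by omega
    rw [e5, pow_zero] at h5
    exact h5 (one_dvd _)
  set c := Real.log (b:ℝ) ^ (-κ) / 16 with hc
  have hcp : 0 ≤ c := by rw [hc]; positivity
  -- (1)
  have P1 : Q D (rv Am U0) (rv Lo U1) ≤ c * (MS + MF) := by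
    rcases Nat.lt_or_ge 1 Ke with hKe | hKe
    swap
    · rw [Q_empty_r D (rv Am U0) U1 (LoE hKe)]
      positivity
    have P : PR X Y u (.far b t₁ t₀) b (Ke - 1) 0 t₀ t₁ Am Lo :=
      { nf := hN, nl := hl, col := rfl, s1 := su0, s0 := su1, f1 := hF0, f0 := hF1, w1 := hW0
        w0 := hW1, bp := hbp, im := by omega
        hi := fun j _ hj => (hnear _ hj).2
        lo := fun j hj _ => (Finset.mem_filter.1 hj).2
        av := fun j _ hj => avN (Ke - 1) (by omega) j hj (hnear _ hj).2 }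
    exact h0 p0 (by omega) γ P₀ hP X hX hd1 hthr Y u _ b (Ke - 1) t₀ t₁ Am Lo P MS MF gS gF
      s3 (mm sLo) s1 (h2K hMF0 ((mono1 sLo).trans E1)) (nn1 _)
  -- (2)
  have P2 : Q D (rv Ag U0) (rv Lo U1) ≤ c * (MF + MN / b) := by
    rcases Nat.lt_or_ge 1 Ke with hKe | hKe
    swap
    · rw [Q_empty_r D (rv Ag U0) U1 (LoE hKe)]
      positivity
    have hAgd : ∀ j ∈ Ag, b ^ (Ke - 1 + 1) ∣ j.1.1 / u.A := fun j hj => by
      have h5 := not_not.1 (Finset.mem_filter.1 hj).2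
      have e5 : Ke - 1 + 1 = Ke := by omega
      rw [e5]; exact h5
    have P : PR X Y u (.far b t₁ t₀) b (Ke - 1) 1 t₀ t₁ Ag Lo :=
      { nf := hN, nl := hl, col := rfl, s1 := su0, s0 := su1, f1 := hF0, f0 := hF1, w1 := hW0
        w0 := hW1, bp := hbp, im := by omega
        hi := fun j hj _ => hAgd j hj
        lo := fun j hj _ => (Finset.mem_filter.1 hj).2
        av := fun j hj hj' => avN (Ke - 1 + 1) (by omega) j hj' (hAgd j hj) }
    exact h1 p0 (by omega) γ P₀ hP X hX hd1 hthr Y u _ b (Ke - 1) t₀ t₁ Ag Lo P MF MN MN MF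
      (Or.inr ⟨rfl, rfl⟩) hMF0 hMN0 gF gN (mm sAg) (mm sLo) ((mono0 sAg).trans E0)
      ((mono1 sLo).trans E1) (nn1 _)
  -- (3)
  have P3 : Q D (rv Hf U1) (rv Ae U0) ≤ c * (MF + MN / b) := by
    have P : PR X Y u (.far b t₁ t₀) b (Ke + 1) 1 t₁ t₀ Hf Ae :=
      { nf := hN, nl := hl, col := rfl, s1 := su1, s0 := su0, f1 := hF1, f0 := hF0, w1 := hW1
        w0 := hW0, bp := hbp, im := by omega
        hi := fun j hj _ => (Finset.mem_filter.1 hj).2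
        lo := fun j hj _ => (Finset.mem_filter.1 hj).2
        av := fun j hj hj' => avF (Ke + 1 + 1) j hj' (Finset.mem_filter.1 hj).2 }
    exact h1 p0 (by omega) γ P₀ hP X hX hd1 hthr Y u _ b (Ke + 1) t₁ t₀ Hf Ae P MF MN MF MN
      (Or.inl ⟨rfl, rfl⟩) hMF0 hMN0 gF gN (mm sHf) (mm sAe) ((mono1 sHf).trans E1)
      ((mono0 sAe).trans E0) (nn0 _)
  -- (4)
  have P4 : Q D (rv Hf U1) (rv Ap U0) ≤ c * (MF + MS) := by
    have P : PR X Y u (.far b t₁ t₀) b (Ke + 2) 0 t₁ t₀ Hf Ap :=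
      { nf := hN, nl := hl, col := rfl, s1 := su1, s0 := su0, f1 := hF1, f0 := hF0, w1 := hW1
        w0 := hW0, bp := hbp, im := by omega
        hi := fun j hj _ => (Finset.mem_filter.1 hj).2
        lo := fun j _ hj => (hnear _ hj).1
        av := fun j hj hj' => avF (Ke + 2 + 0) j hj' (Finset.mem_filter.1 hj).2 }
    exact h0 p0 (by omega) γ P₀ hP X hX hd1 hthr Y u _ b (Ke + 2) t₁ t₀ Hf Ap P MF MS gF gS
      (mm sHf) s4 (h2K hMF0 ((mono1 sHf).trans E1)) s2 (nn0 _)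
  -- the charges
  have halu : al X (.far b t₁ t₀) A = al X t₁ A ∪ al X t₀ A := by
    unfold al; exact Finset.filter_union _ _ _
  have hdal : Disjoint (al X t₁ A) (al X t₀ A) :=
    Finset.disjoint_of_subset_left (hali t₁ A) (Finset.disjoint_of_subset_right (hali t₀ A) hdj)
  set ℓ := Real.log (b:ℝ) ^ (-κ) with hℓ
  have hℓ0 : 0 ≤ ℓ := by rw [hℓ]; positivity
  have hc16 : c = ℓ / 16 := rfl
  have hch : ℓ * MF + 1/2 * (ℓ * MS) + 1/2 * (ℓ / b * MN) ≤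
      u.c * ∑ q ∈ al X (.far b t₁ t₀) A, w X.ψ q * zF X κ b t₀ q := by
    have f1 : ∀ q ∈ al X t₁ A, w X.ψ q * zF X κ b t₀ q = w X.ψ q * ℓ := by
      intro q hq
      have g1 : q ∉ t₀.items := Finset.disjoint_left.1 hdj (hali t₁ A hq)
      unfold zF
      rw [if_pos (mem_al.1 hq).2.1, if_neg (fun hh => g1 hh.1)]
    have f0 : ∀ q ∈ al X t₀ A, 1/2 * (ℓ * (if q ∈ Sps X b t₀ A then w X.ψ q else 0)) +
        1/2 * (ℓ / b * w X.ψ q) ≤ w X.ψ q * zF X κ b t₀ q := by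
      intro q hq
      have hw := X.hW q
      have hlb : ℓ / b ≤ ℓ := div_le_self hℓ0 hb1
      have hlb0 : 0 ≤ ℓ / b := by positivity
      by_cases hs : spc X b t₀ q
      · rw [if_pos (mem_Sps.2 ⟨hq, hs⟩)]
        have : zF X κ b t₀ q = ℓ := by
          unfold zF
          rw [if_pos (mem_al.1 hq).2.1, if_neg (fun hh => hh.2 hs)]
        rw [this]
        nlinarith
      · rw [if_neg (fun hh => hs (mem_Sps.1 hh).2)]
        have : zF X κ b t₀ q = ℓ / b := by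
          unfold zF
          rw [if_pos (mem_al.1 hq).2.1, if_pos ⟨hali t₀ A hq, hs⟩]
        rw [this]
        nlinarith
    rw [halu, Finset.sum_union hdal, Finset.sum_congr rfl f1, ← Finset.sum_mul]
    have f2 := Finset.sum_le_sum f0
    rw [Finset.sum_add_distrib, ← Finset.mul_sum, ← Finset.mul_sum, ← Finset.mul_sum,
      ← Finset.mul_sum, ← Finset.sum_filter] at f2
    have f3 : (al X t₀ A).filter (fun q => q ∈ Sps X b t₀ A) = Sps X b t₀ A := by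
      ext q
      rw [Finset.mem_filter]
      exact ⟨fun hh => hh.2, fun hh => ⟨hSpsN hh, hh⟩⟩
    rw [f3] at f2
    have f4 := mul_le_mul_of_nonneg_left f2 hc0.le
    have f5 : ℓ * MF + 1/2 * (ℓ * MS) + 1/2 * (ℓ / b * MN) =
        u.c * ((∑ q ∈ al X t₁ A, w X.ψ q) * ℓ) +
        u.c * (1/2 * (ℓ * ∑ q ∈ Sps X b t₀ A, w X.ψ q) +
          1/2 * (ℓ / b * ∑ q ∈ al X t₀ A, w X.ψ q)) := by
      rw [hMF, hMS, hMN]
      unfold mA Msp
      ring
    rw [f5, mul_add]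
    linarith
  have hcr : CrS X Y A b u t₁ t₀ = 2 * Q D (rv A U1) (rv A U0) := rfl
  have key := AddPay7.mass_alF (X := X) (u := u) (τ := .far b t₁ t₀) hc0.le hA (f := zF X κ b t₀)
    (fun q => zF_nonneg X κ b t₀ q)
  refine le_trans ?_ key
  refine le_trans ?_ hch
  rw [hcr, hsplit]
  have hMNb : 0 ≤ MN / b := by positivity
  have e7 : ℓ / b * MN = ℓ * (MN / b) := by ring
  rw [e7]
  rw [hc16] at P1 P2 P3 P4
  have q1 := mul_nonneg hℓ0 hMF0
  have q2 := mul_nonneg hℓ0 hMS0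
  have q3 := mul_nonneg hℓ0 hMNb
  nlinarith


end ctx

end Crest.Agent.R4P.JnC5
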