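import Crest.Agent.R4P.JnC_5
import Crest.Agent.R4P.JnH_5
import Crest.Agent.R4P.Dse_22

/-!
R4 (S0004) with powers, T3, helper5: **`leU + dC` of the decorated tree of an item tree charged to
items**, general kernel of pieces.

* `CrL` : the local hypothesis (cross energies of the add and far nodes); `LfK` : leaves with the column
  of the parent;
* **`dt_items`** : `leU + dC ≤ Cl * (c Ws) + c Σ_j W_j chE`.
* `KS X p` : kernel "one index at the column `p`"; `bil_KS`, `bil_node`, `CrS_bil`.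
-/

set_option autoImplicit false
set_option linter.unusedSectionVars false
set_option linter.unusedVariables false

open MeasureTheory Filter

namespace Crest.Agent.R4P.JnD5

open Crest.Agent.R4.Tour104 Crest.Agent.R4.Tour758 Crest.Agent.R4.Avg758 Crest.Agent.R4.Clos758
open Crest.Agent.R4.ClosL758 Crest.Agent.R4.ClosG758 Crest.Agent.R4.ClosR758
open Crest.Agent.R4P.Cnt588 Crest.Agent.R4P.Item758 Crest.Agent.R4P.W363
open Crest.Agent.R4P.GWb343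
open Crest.Agent.R4P.Walk560 (DT)
open Crest.Agent.R4P.Bld532 (NS All)
open Crest.Agent.R4P.JnE5 Crest.Agent.R4P.JnH5
open Crest.Agent.R4P.Dse22 (chE sum_children)

section gen
variable {Λ κ : Type} [Fintype Λ] [DecidableEq Λ] [Fintype κ] [DecidableEq κ]

/-- a property of the leaves: column of the parent, state, items -/
def LfK (P : ℕ → NS → Finset ℕ → Prop) : ℕ → NS → IT → Prop
  | q, s, .leaf S => P q s S
  | _, s, .br p _ t₁ t₀ => LfK P p ⟨p, s.c / (1 - 1 / (p : ℝ)), s.A * p, s.B⟩ t₁ ∧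
      LfK P p ⟨p, s.c * p, s.A, s.B * p⟩ t₀
  | _, s, .add b t₁ t₀ => LfK P b ⟨b + 1, s.c, s.A, s.B⟩ t₁ ∧ LfK P b ⟨b + 1, s.c, s.A, s.B⟩ t₀
  | _, s, .up b _ t => LfK P b ⟨b, s.c, s.A, s.B⟩ t
  | _, s, .pl b t => LfK P b ⟨b + 1, s.c, s.A * b, s.B⟩ t
  | _, s, .far b t₁ t₀ => LfK P b ⟨b + 1, s.c, s.A, s.B⟩ t₁ ∧ LfK P b ⟨b + 1, s.c, s.A, s.B⟩ t₀

/-- **the local hypothesis** -/
def CrL (D : Item758.Par Λ κ) (sp : ℕ → Finset Λ) (K : ℕ → Λ → Λ → ℝ) (W : Λ → ℝ)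
    (e : NS → IT → Λ → ℝ) : NS → IT → Prop
  | s, .add b t₁ t₀ => 2 * bil (K b) (GWb343.cf (idk b) (D.toDT sp s.B s.A t₁))
      (GWb343.cf (idk b) (D.toDT sp s.B s.A t₀)) ≤
      s.c * ∑ j ∈ Finset.univ.filter (fun j => D.it j ∈ t₁.items ∪ t₀.items),
        W j * e s (.add b t₁ t₀) j
  | s, .far b t₁ t₀ => 2 * bil (K b) (GWb343.cf (idk b) (D.toDT sp s.B s.A t₁))
      (GWb343.cf (idk b) (D.toDT sp s.B s.A t₀)) ≤
      s.c * ∑ j ∈ Finset.univ.filter (fun j => D.it j ∈ t₁.items ∪ t₀.items),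
        W j * e s (.far b t₁ t₀) j
  | s, .br p Sp t₁ t₀ => 0 ≤
      s.c * ∑ j ∈ Finset.univ.filter (fun j => D.it j ∈ t₁.items ∪ t₀.items),
        W j * e s (.br p Sp t₁ t₀) j
  | s, .pl p t => 0 ≤
      s.c * ∑ j ∈ Finset.univ.filter (fun j => D.it j ∈ t.items), W j * e s (.pl p t) j
  | _, _ => True

/-- the mass of a union -/
lemma Ws_union {w : ℕ → ℝ} {S₁ S₀ : Finset ℕ} (hd : Disjoint S₁ S₀) :
    Ws w (S₁ ∪ S₀) = Ws w S₁ + Ws w S₀ := by
  unfold Ws; exact Finset.sum_union hd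

lemma cfp {p : ℕ} (hp : p.Prime) (c : ℝ) : (1 - 1 / (p : ℝ)) * (c / (1 - 1 / (p : ℝ))) = c := by
  have h2 : (2:ℝ) ≤ p := by exact_mod_cast hp.two_le
  have h1 : 1 / (p:ℝ) ≤ 1 / 2 := one_div_le_one_div_of_le (by norm_num) h2
  have h3 : (1 - 1 / (p:ℝ)) ≠ 0 := by
    have : 0 < 1 - 1 / (p:ℝ) := by linarith
    exact this.ne'
  exact mul_div_cancel₀ c h3

lemma cfm {p : ℕ} (hp : p.Prime) (c : ℝ) : 1 / (p : ℝ) * (c * p) = c := by
  have h2 : (p:ℝ) ≠ 0 := by exact_mod_cast hp.ne_zero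
  field_simp

set_option maxHeartbeats 1000000 in
/-- **`leU + dC` charged to items** -/
theorem dt_items (D : Item758.Par Λ κ) (sp : ℕ → Finset Λ) {K : ℕ → Λ → Λ → ℝ} {W : Λ → ℝ}
    {w : ℕ → ℝ} {e : NS → IT → Λ → ℝ} {Cl : ℝ} (t : IT) : ∀ (q : ℕ) (s : NS), Fit s.B s.A t →
    All (CrL D sp K W e) s t →
    LfK (fun q s S => sf K idk q (D.toDT sp s.B s.A (.leaf S)) ≤ Cl * (s.c * Ws w S)) q s t →
    leU K idk q (D.toDT sp s.B s.A t) + dC K idk (D.toDT sp s.B s.A t) ≤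
      Cl * (s.c * Ws w t.items) +
      s.c * ∑ j ∈ Finset.univ.filter (fun j => D.it j ∈ t.items), W j * chE D.it e s t j := by
  classical
  induction t with
  | leaf S =>
    intro q s hF h hl
    have hl' : sf K idk q (D.toDT sp s.B s.A (.leaf S)) ≤ Cl * (s.c * Ws w S) := hl
    have e1 : ∑ j ∈ Finset.univ.filter (fun j => D.it j ∈ (IT.leaf S).items),
        W j * chE D.it e s (.leaf S) j = 0 := Finset.sum_eq_zero fun j _ => by
      show W j * 0 = 0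
      ring
    rw [e1, mul_zero, add_zero]
    show sf K idk q (D.toDT sp s.B s.A (.leaf S)) + 0 ≤ Cl * (s.c * Ws w S)
    linarith
  | br p Sp t₁ t₀ ih₁ ih₀ =>
    intro q s hF h hl
    obtain ⟨hp, hpb, hd, h1, h0⟩ := hF
    have hloc : 0 ≤ s.c * ∑ j ∈ Finset.univ.filter (fun j => D.it j ∈ t₁.items ∪ t₀.items),
        W j * e s (.br p Sp t₁ t₀) j := h.1
    have i1 := ih₁ p ⟨p, s.c / (1 - 1 / (p : ℝ)), s.A * p, s.B⟩ h1 h.2.1 hl.1
    have i0 := ih₀ p ⟨p, s.c * p, s.A, s.B * p⟩ h0 h.2.2 hl.2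
    have hw1 : 0 ≤ 1 - 1 / (p : ℝ) := by
      have h2 : (2:ℝ) ≤ p := by exact_mod_cast hp.two_le
      have h1 : 1 / (p:ℝ) ≤ 1 / 2 := one_div_le_one_div_of_le (by norm_num) h2
      linarith
    have hw0 : 0 ≤ 1 / (p : ℝ) := by positivity
    have e1 := mul_le_mul_of_nonneg_left i1 hw1
    have e0 := mul_le_mul_of_nonneg_left i0 hw0
    simp only at e1 e0
    have a1 : ∀ Z : ℝ, (1 - 1 / (p:ℝ)) * (s.c / (1 - 1 / (p : ℝ)) * Z) = s.c * Z := fun Z => by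
      rw [← mul_assoc, cfp hp]
    have a0 : ∀ Z : ℝ, 1 / (p:ℝ) * (s.c * p * Z) = s.c * Z := fun Z => by
      rw [← mul_assoc, cfm hp]
    have b1 : ∀ Z : ℝ, (1 - 1 / (p:ℝ)) * (Cl * (s.c / (1 - 1 / (p : ℝ)) * Z)) = Cl * (s.c * Z) :=
      fun Z => by rw [← a1 Z]; ring
    have b0 : ∀ Z : ℝ, 1 / (p:ℝ) * (Cl * (s.c * p * Z)) = Cl * (s.c * Z) := fun Z => by
      rw [← a0 Z]; ring
    rw [mul_add, mul_add, b1, a1] at e1
    rw [mul_add, mul_add, b0, a0] at e0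
    have e3 := Dse22.e_two D (W := W) (A := Finset.univ) hd s.c (fun j => e s (.br p Sp t₁ t₀) j)
      (fun j => chE D.it e ⟨p, s.c / (1 - 1 / (p : ℝ)), s.A * p, s.B⟩ t₁ j)
      (fun j => chE D.it e ⟨p, s.c * p, s.A, s.B * p⟩ t₀ j)
    show ((1 - 1 / (p:ℝ)) * leU K idk p (D.toDT sp s.B (s.A * p) t₁) +
      1 / (p:ℝ) * leU K idk p (D.toDT sp (s.B * p) s.A t₀)) +
      ((1 - 1 / (p:ℝ)) * dC K idk (D.toDT sp s.B (s.A * p) t₁) +
      1 / (p:ℝ) * dC K idk (D.toDT sp (s.B * p) s.A t₀)) ≤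
      Cl * (s.c * Ws w (t₁.items ∪ t₀.items)) +
      s.c * ∑ j ∈ Finset.univ.filter (fun j => D.it j ∈ t₁.items ∪ t₀.items),
      W j * (e s (.br p Sp t₁ t₀) j + if D.it j ∈ t₀.items
        then chE D.it e ⟨p, s.c * p, s.A, s.B * p⟩ t₀ j
        else chE D.it e ⟨p, s.c / (1 - 1 / (p : ℝ)), s.A * p, s.B⟩ t₁ j)
    rw [e3, Ws_union hd]
    linarith
  | add b t₁ t₀ ih₁ ih₀ =>
    intro q s hF h hl
    obtain ⟨hd, h1, h0⟩ := hF
    have hloc : 2 * bil (K b) (GWb343.cf (idk b) (D.toDT sp s.B s.A t₁))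
      (GWb343.cf (idk b) (D.toDT sp s.B s.A t₀)) ≤
      s.c * ∑ j ∈ Finset.univ.filter (fun j => D.it j ∈ t₁.items ∪ t₀.items),
        W j * e s (.add b t₁ t₀) j := h.1
    have i1 := ih₁ b ⟨b + 1, s.c, s.A, s.B⟩ h1 h.2.1 hl.1
    have i0 := ih₀ b ⟨b + 1, s.c, s.A, s.B⟩ h0 h.2.2 hl.2
    simp only at i1 i0
    have e3 := Dse22.e_two D (W := W) (A := Finset.univ) hd s.c (fun j => e s (.add b t₁ t₀) j)
      (fun j => chE D.it e ⟨b + 1, s.c, s.A, s.B⟩ t₁ j)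
      (fun j => chE D.it e ⟨b + 1, s.c, s.A, s.B⟩ t₀ j)
    show (leU K idk b (D.toDT sp s.B s.A t₁) + leU K idk b (D.toDT sp s.B s.A t₀)) +
      (dC K idk (D.toDT sp s.B s.A t₁) + dC K idk (D.toDT sp s.B s.A t₀) +
      2 * bil (K b) (GWb343.cf (idk b) (D.toDT sp s.B s.A t₁))
        (GWb343.cf (idk b) (D.toDT sp s.B s.A t₀))) ≤
      Cl * (s.c * Ws w (t₁.items ∪ t₀.items)) +
      s.c * ∑ j ∈ Finset.univ.filter (fun j => D.it j ∈ t₁.items ∪ t₀.items),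
      W j * (e s (.add b t₁ t₀) j + if D.it j ∈ t₀.items
        then chE D.it e ⟨b + 1, s.c, s.A, s.B⟩ t₀ j
        else chE D.it e ⟨b + 1, s.c, s.A, s.B⟩ t₁ j)
    rw [e3, Ws_union hd]
    linarith
  | up b Sp t ih =>
    intro q s hF h hl
    exact ih b ⟨b, s.c, s.A, s.B⟩ hF h.2 hl
  | pl p t ih =>
    intro q s hF h hl
    obtain ⟨hp, hpb, h1⟩ := hF
    have hloc : 0 ≤ s.c * ∑ j ∈ Finset.univ.filter (fun j => D.it j ∈ t.items),
      W j * e s (.pl p t) j := h.1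
    have i1 := ih p ⟨p + 1, s.c, s.A * p, s.B⟩ h1 h.2 hl
    simp only at i1
    show ((1 - (0:ℝ)) * leU K idk p (D.toDT sp s.B (s.A * p) t) +
      0 * leU K idk p (.leaf (D.rho p) fun _ _ => 0)) +
      ((1 - (0:ℝ)) * dC K idk (D.toDT sp s.B (s.A * p) t) + 0 * dC K idk (.leaf (D.rho p) fun _ _ => 0)) ≤
      Cl * (s.c * Ws w t.items) +
      s.c * ∑ j ∈ Finset.univ.filter (fun j => D.it j ∈ t.items),
      W j * (e s (.pl p t) j + chE D.it e ⟨p + 1, s.c, s.A * p, s.B⟩ t j)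
    have e3 : s.c * ∑ j ∈ Finset.univ.filter (fun j => D.it j ∈ t.items),
        W j * (e s (.pl p t) j + chE D.it e ⟨p + 1, s.c, s.A * p, s.B⟩ t j) =
        s.c * ∑ j ∈ Finset.univ.filter (fun j => D.it j ∈ t.items), W j * e s (.pl p t) j +
        s.c * ∑ j ∈ Finset.univ.filter (fun j => D.it j ∈ t.items),
          W j * chE D.it e ⟨p + 1, s.c, s.A * p, s.B⟩ t j := by
      rw [← mul_add, ← Finset.sum_add_distrib]
      congr 1
      exact Finset.sum_congr rfl fun j _ => by ring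
    rw [e3]
    linarith
  | far b t₁ t₀ ih₁ ih₀ =>
    intro q s hF h hl
    obtain ⟨hd, h1, h0⟩ := hF
    have hloc : 2 * bil (K b) (GWb343.cf (idk b) (D.toDT sp s.B s.A t₁))
      (GWb343.cf (idk b) (D.toDT sp s.B s.A t₀)) ≤
      s.c * ∑ j ∈ Finset.univ.filter (fun j => D.it j ∈ t₁.items ∪ t₀.items),
        W j * e s (.far b t₁ t₀) j := h.1
    have i1 := ih₁ b ⟨b + 1, s.c, s.A, s.B⟩ h1 h.2.1 hl.1
    have i0 := ih₀ b ⟨b + 1, s.c, s.A, s.B⟩ h0 h.2.2 hl.2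
    simp only at i1 i0
    have e3 := Dse22.e_two D (W := W) (A := Finset.univ) hd s.c (fun j => e s (.far b t₁ t₀) j)
      (fun j => chE D.it e ⟨b + 1, s.c, s.A, s.B⟩ t₁ j)
      (fun j => chE D.it e ⟨b + 1, s.c, s.A, s.B⟩ t₀ j)
    show (leU K idk b (D.toDT sp s.B s.A t₁) + leU K idk b (D.toDT sp s.B s.A t₀)) +
      (dC K idk (D.toDT sp s.B s.A t₁) + dC K idk (D.toDT sp s.B s.A t₀) +
      2 * bil (K b) (GWb343.cf (idk b) (D.toDT sp s.B s.A t₁))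
        (GWb343.cf (idk b) (D.toDT sp s.B s.A t₀))) ≤
      Cl * (s.c * Ws w (t₁.items ∪ t₀.items)) +
      s.c * ∑ j ∈ Finset.univ.filter (fun j => D.it j ∈ t₁.items ∪ t₀.items),
      W j * (e s (.far b t₁ t₀) j + if D.it j ∈ t₀.items
        then chE D.it e ⟨b + 1, s.c, s.A, s.B⟩ t₀ j
        else chE D.it e ⟨b + 1, s.c, s.A, s.B⟩ t₁ j)
    rw [e3, Ws_union hd]
    linarith

/-- contents of a node for the identity classes -/
lemma cf_idk (p : ℕ) (t : DT Λ κ) : GWb343.cf (idk p) t = t.g.val := by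
  funext j x
  unfold GWb343.cf sm idk
  simp [Finset.filter_eq']

/-- the energies of a 0/1 kernel -/
lemma bil_rel {δ : Type*} [DecidableEq δ] (f g : Λ → ℝ → ℝ) (r : Λ → δ) :
    bil (fun j j' => if r j = r j' then (1:ℝ) else 0) f g = Q (Dr r) f g := by
  classical
  unfold bil Q Dr
  rw [Finset.sum_filter, ← Finset.univ_product_univ, Finset.sum_product]
  refine Finset.sum_congr rfl fun j _ => Finset.sum_congr rfl fun j' _ => ?_
  by_cases h : r j = r j'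
  · simp only [h, if_true]; ring
  · simp only [h, if_false]; ring

lemma Ker_rel {δ : Type*} [DecidableEq δ] (r : Λ → δ) :
    Ker fun j j' : Λ => if r j = r j' then (1:ℝ) else 0 :=
  ⟨fun c c' => by split_ifs <;> norm_num, fun c c' => by simp [eq_comm]⟩

end gen

end Crest.Agent.R4P.JnD5
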