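import Crest.Agent.R4P.AddUN_7

/-!
R4 (S0004) with powers, T3, helper5: **pairs with a fat item across an add node** (arithmetic), any
relation of the pieces. Same proof as the dyadic part of helper7's `AddUU7.core_z` (no labels, no
overlap relation: the scale `D` of a pair is at least the radius of the fat item).

* `ey_z`, `ey_all` : pairs of scale `1/2^n < D ≤ 2^N`;
* `fat_cross`, **`fat_cross'`** (item coordinates): pairs with one radius `> (log b)^(-Ct)`.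
-/

set_option autoImplicit false
set_option linter.unusedSectionVars false
set_option linter.unusedVariables false

open Finset

namespace Crest.Agent.R4P.JnM5

open Crest.Agent.R4.HVW560 Crest.Agent.R4.HVWX793
open Crest.Agent.R4.ClsS (eps1)
open Crest.Agent.R4.InX944 (DP DP_pos)
open Crest.Agent.R4P.AddUU7
open Crest.Agent.R4

set_option maxHeartbeats 1600000 in
/-- **one class of pairs across an add node**, scale in `(1/2^n, 2^N]` -/
theorem ey_z (K L : ℝ) (n N z : ℕ) (V W : Finset ℕ) (E : Finset (ℕ × ℕ)) (R : ℕ → ℝ)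
    (F : ℕ × ℕ → ℝ) (hz : 0 < z) (hK : 0 ≤ K) (hL : 0 ≤ L)
    (hV : ∀ w ∈ V, 0 < w ∧ 0 < R w) (hW : ∀ w ∈ W, 0 < w ∧ 0 < R w)
    (hLV : ∀ w ∈ V, R w ≤ L * wt R w) (hLW : ∀ w ∈ W, R w ≤ L * wt R w)
    (hτ : ∀ w ∈ W, ((w.totient : ℝ) / w) ≤ 2 * (((z * w).totient : ℝ) / ((z * w : ℕ) : ℝ)))
    (hE : E ⊆ V ×ˢ W) (hTr : Tr z E) (hDn : ∀ e ∈ E, 1 / 2 ^ n < DP R R e)
    (hDN : ∀ e ∈ E, DP R R e ≤ 2 ^ N)
    (hF : ∀ e ∈ E, F e ≤ K * ((R e.1 * R e.2) / DP R R e)) :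
    ∑ e ∈ E, F e ≤ ((n:ℝ) + N) * (K * L^2 * (4 * KH 1 0 eps1 * (2:ℝ)^(2*eps1*n)) *
      ((z:ℝ)^(-(1/2-eps1)) * ((∑ q ∈ V, wt R q) * (∑ r ∈ W, wt R r))^(1/2+eps1))) := by
  classical
  have he1 : eps1 = 1/1000 := rfl
  have hKH := KH_pos 1 0 eps1
  have h2n : (0:ℝ) < (2:ℝ)^n := by positivity
  have hz0 : (0:ℝ) < z := by exact_mod_cast hz
  set D : ℕ × ℕ → ℝ := DP R R with hDdef
  have hDpos : ∀ e ∈ E, 0 < D e := by
    intro e he
    have h := Finset.mem_product.1 (hE he)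
    exact DP_pos (hW _ h.2).1 (hV _ h.1).2
  have hmuV : ∀ q ∈ V, 0 ≤ wt R q := fun q hq => by
    unfold wt; exact mul_nonneg (hV q hq).2.le (by positivity)
  have hmuW : ∀ q ∈ W, 0 ≤ wt R q := fun q hq => by
    unfold wt; exact mul_nonneg (hW q hq).2.le (by positivity)
  set MV := ∑ q ∈ V, wt R q with hMV
  set MW := ∑ q ∈ W, wt R q with hMW
  have hMV0 : 0 ≤ MV := Finset.sum_nonneg hmuV
  have hMW0 : 0 ≤ MW := Finset.sum_nonneg hmuW
  set R2 := Rz z R with hR2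
  set W2 := W.image (fun w => z * w) with hW2
  have injW : Set.InjOn (fun w => z * w) (W : Set ℕ) := fun x _ y _ h =>
    Nat.eq_of_mul_eq_mul_left hz h
  have injE : ∀ E' : Finset (ℕ × ℕ), Set.InjOn (fun e : ℕ × ℕ => (e.1, z * e.2)) (E' : Set (ℕ × ℕ)) := by
    intro E' x _ y _ h
    have h1 := congrArg Prod.fst h
    have h2 := congrArg Prod.snd h
    exact Prod.ext h1 (Nat.eq_of_mul_eq_mul_left hz h2)
  have hM2 : ∑ u ∈ W2, wt R2 u ≤ z * MW := by
    rw [hW2, Finset.sum_image injW, hMW, Finset.mul_sum]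
    exact Finset.sum_le_sum fun w hw => wt_Rz_le hz (hW w hw).1 (hW w hw).2.le
  have hwt2 : ∀ w ∈ W, 0 ≤ wt R2 (z * w) := fun w hw => by
    unfold wt
    rw [hR2, Rz_mul hz]
    have := (hW w hw).2.le
    positivity
  have hM20 : 0 ≤ ∑ u ∈ W2, wt R2 u := by
    rw [hW2, Finset.sum_image injW]
    exact Finset.sum_nonneg fun w hw => hwt2 w hw
  have hMM : (MV * ∑ u ∈ W2, wt R2 u)^(1/2+eps1) ≤
      z * ((z:ℝ)^(-(1/2-eps1)) * (MV * MW)^(1/2+eps1)) := by
    have h1 : MV * ∑ u ∈ W2, wt R2 u ≤ z * (MV * MW) := by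
      calc MV * ∑ u ∈ W2, wt R2 u ≤ MV * (z * MW) := mul_le_mul_of_nonneg_left hM2 hMV0
        _ = _ := by ring
    refine (Real.rpow_le_rpow (mul_nonneg hMV0 hM20) h1 (by rw [he1]; norm_num)).trans ?_
    rw [Real.mul_rpow hz0.le (mul_nonneg hMV0 hMW0), ← mul_assoc]
    refine le_of_eq ?_
    congr 1
    conv_rhs => rw [← Real.rpow_one (z:ℝ)]
    rw [← Real.rpow_mul hz0.le, ← Real.rpow_add hz0]
    congr 1
    ring
  set Y1 := (z:ℝ)^(-(1/2-eps1)) * (MV * MW)^(1/2+eps1) with hY1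
  have hY10 : 0 ≤ Y1 := by positivity
  -- product of the radii
  have hRR : ∀ e ∈ E, R e.1 * R e.2 ≤ L^2 * (wt R e.1 * wt R e.2) := by
    intro e he
    have h := Finset.mem_product.1 (hE he)
    have h1 := hLV _ h.1
    have h2 := hLW _ h.2
    have h3 := (hW _ h.2).2
    have h5 : 0 ≤ L * wt R e.1 := (hV _ h.1).2.le.trans h1
    calc R e.1 * R e.2 ≤ (L * wt R e.1) * (L * wt R e.2) := mul_le_mul h1 h2 h3.le h5
      _ = _ := by ring
  have hFmu : ∀ e ∈ E, F e ≤ K * L^2 * ((wt R e.1 * wt R e.2) / D e) := by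
    intro e he
    calc F e ≤ K * ((R e.1 * R e.2) / D e) := hF e he
      _ ≤ K * ((L^2 * (wt R e.1 * wt R e.2)) / D e) :=
          mul_le_mul_of_nonneg_left (div_le_div_of_nonneg_right (hRR e he) (hDpos e he).le) hK
      _ = K * L^2 * ((wt R e.1 * wt R e.2) / D e) := by ring
  have hw2 : ∀ e ∈ E, wt R e.1 * wt R e.2 ≤ (2 / z) * (wt R e.1 * wt R2 (z * e.2)) := by
    intro e he
    have h := Finset.mem_product.1 (hE he)
    have h1 := wt_Rz_ge hz (hW _ h.2).2.le (hτ _ h.2)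
    have h2 : wt R e.2 ≤ (2 / z) * wt R2 (z * e.2) := by
      rw [div_mul_eq_mul_div, le_div_iff₀ hz0]
      linarith
    calc wt R e.1 * wt R e.2 ≤ wt R e.1 * ((2 / z) * wt R2 (z * e.2)) :=
          mul_le_mul_of_nonneg_left h2 (hmuV _ h.1)
      _ = _ := by ring
  have hKL : 0 ≤ K * L^2 := by positivity
  set g : ℕ × ℕ → ℝ := fun e => K * L^2 * ((2 / z) * (wt R e.1 * wt R2 (z * e.2)) / D e) with hg
  set P : ℕ → ℕ × ℕ → Prop := fun i e => (2:ℝ)^N / 2^i / 2 < D e ∧ D e ≤ (2:ℝ)^N / 2^i with hP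
  have hb : ∀ e ∈ E, F e ≤ g e := by
    intro e heE
    refine (hFmu e heE).trans (mul_le_mul_of_nonneg_left ?_ hKL)
    exact div_le_div_of_nonneg_right (hw2 e heE) (hDpos e heE).le
  have hnn : ∀ e ∈ E, 0 ≤ g e := by
    intro e heE
    have h := Finset.mem_product.1 (hE heE)
    have a1 := hmuV _ h.1
    have a2 := hwt2 _ h.2
    have a3 := (hDpos e heE).le
    rw [hg]
    positivity
  have h1 : ∑ e ∈ E, F e ≤ ∑ i ∈ Finset.range (n + N), ∑ e ∈ E.filter (P i), g e := by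
    calc ∑ e ∈ E, F e ≤ ∑ e ∈ E, g e := Finset.sum_le_sum hb
      _ ≤ ∑ e ∈ E, ∑ i ∈ Finset.range (n + N), if P i e then g e else 0 := by
          refine Finset.sum_le_sum fun e heE => ?_
          obtain ⟨i, hi, hi2⟩ := dyad n N (hDn e heE) (hDN e heE)
          have h3 := Finset.single_le_sum (f := fun i => if P i e then g e else 0)
            (fun i _ => by
              show 0 ≤ if P i e then g e else 0
              split_ifs
              · exact hnn e heE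
              · exact le_rfl) (Finset.mem_range.2 hi)
          have h4 : (if P i e then g e else 0) = g e := if_pos hi2
          calc g e = if P i e then g e else 0 := h4.symm
            _ ≤ _ := h3
      _ = _ := by
          rw [Finset.sum_comm]
          exact Finset.sum_congr rfl fun i _ => (Finset.sum_filter _ _).symm
  refine h1.trans ?_
  have h2 : ∀ i ∈ Finset.range (n + N), ∑ e ∈ E.filter (P i), g e ≤
      K * L^2 * (4 * KH 1 0 eps1 * (2:ℝ)^(2*eps1*n)) * Y1 := by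
    intro i hi
    have hi' := Finset.mem_range.1 hi
    set δ : ℝ := (2:ℝ)^N / 2^i with hδ
    have hδ0 : 0 < δ := by positivity
    set Ei := E.filter (P i) with hEi
    have hEiE : ∀ e ∈ Ei, e ∈ E := fun e he => (Finset.mem_filter.1 he).1
    have hEiD : ∀ e ∈ Ei, δ / 2 < D e ∧ D e ≤ δ := fun e he => (Finset.mem_filter.1 he).2
    have key := hvw2_plain (ε := eps1) (by rw [he1]; norm_num) (by rw [he1]; norm_num)
      (V := V) (W := W2) (E := Ei.image fun e => (e.1, z * e.2)) (ψ := R) (θ := R2) (δ₁ := δ)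
      (δ₂ := δ)
      { hδ₁ := hδ0
        hδ₂ := hδ0
        hV := fun v hv => (hV v hv).1
        hW := fun u hu => by
          obtain ⟨w, hw, rfl⟩ := Finset.mem_image.1 hu
          exact Nat.mul_pos hz (hW w hw).1
        hψ := fun v hv => (hV v hv).2.le
        hθ := fun u hu => by
          obtain ⟨w, hw, rfl⟩ := Finset.mem_image.1 hu
          show 0 ≤ R2 (z * w)
          rw [hR2, Rz_mul hz]
          have := (hW w hw).2.le
          positivity
        hE := fun x hx => by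
          obtain ⟨e, he, rfl⟩ := Finset.mem_image.1 hx
          have h := Finset.mem_product.1 (hE (hEiE e he))
          exact Finset.mem_product.2 ⟨h.1, Finset.mem_image_of_mem _ h.2⟩
        h1 := fun x hx => by
          obtain ⟨e, he, rfl⟩ := Finset.mem_image.1 hx
          have heE := hEiE e he
          show (cof e.1 (z * e.2) : ℝ) * R2 (z * e.2) ≤ δ
          refine le_trans ?_ (hEiD e he).2
          rw [hDdef, ← DP_Rz hz (hTr.c1 e heE) (hTr.c2 e heE)]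
          exact le_max_right _ _
        h2 := fun x hx => by
          obtain ⟨e, he, rfl⟩ := Finset.mem_image.1 hx
          have heE := hEiE e he
          show (cof (z * e.2) e.1 : ℝ) * R e.1 ≤ δ
          refine le_trans ?_ (hEiD e he).2
          rw [hDdef, ← DP_Rz hz (hTr.c1 e heE) (hTr.c2 e heE)]
          exact le_max_left _ _ }
    rw [Finset.sum_image (injE Ei)] at key
    have hg2 : ∑ e ∈ Ei, g e ≤ K * L^2 * ((2 / z) * (2 / δ)) *
        ∑ e ∈ Ei, wt R e.1 * wt R2 (z * e.2) := by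
      rw [Finset.mul_sum]
      refine Finset.sum_le_sum fun e he => ?_
      have heE := hEiE e he
      have h := Finset.mem_product.1 (hE heE)
      have a1 := hmuV _ h.1
      have a2 := hwt2 _ h.2
      have a3 := hDpos e heE
      have a4 := (hEiD e he).1
      have a5 : 1 / D e ≤ 2 / δ := by
        rw [div_le_div_iff₀ a3 hδ0]; linarith
      rw [hg]
      have a6 : 0 ≤ K * L^2 * ((2 / z) * (wt R e.1 * wt R2 (z * e.2))) := by positivity
      calc K * L^2 * ((2 / z) * (wt R e.1 * wt R2 (z * e.2)) / D e)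
          = K * L^2 * ((2 / z) * (wt R e.1 * wt R2 (z * e.2))) * (1 / D e) := by ring
        _ ≤ K * L^2 * ((2 / z) * (wt R e.1 * wt R2 (z * e.2))) * (2 / δ) :=
            mul_le_mul_of_nonneg_left a5 a6
        _ = _ := by ring
    refine hg2.trans ?_
    have hcoef : 0 ≤ K * L^2 * ((2 / z) * (2 / δ)) := by positivity
    refine (mul_le_mul_of_nonneg_left (key.trans (mul_le_mul_of_nonneg_left
      (mul_le_mul_of_nonneg_left hMM (by positivity)) hKH.le)) hcoef).trans ?_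
    -- the power of `δ`
    have hδp : (δ * δ)^(1/2-eps1) = δ * δ^(-(2*eps1)) := by
      rw [← pow_two, ← Real.rpow_natCast, ← Real.rpow_mul hδ0.le]
      conv_rhs => rw [← Real.rpow_one δ, ← Real.rpow_mul hδ0.le, ← Real.rpow_add hδ0]
      congr 1; push_cast; ring
    have hδn : δ^(-(2*eps1)) ≤ (2:ℝ)^(2*eps1*n) := by
      have h3 : (1:ℝ)/2^n ≤ δ := by
        rw [hδ, div_le_div_iff₀ h2n (by positivity), one_mul, ← pow_add]
        exact pow_le_pow_right₀ (by norm_num) (by omega)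
      have h4 : δ^(-(2*eps1)) ≤ (1/(2:ℝ)^n)^(-(2*eps1)) :=
        Real.rpow_le_rpow_of_nonpos (by positivity) h3 (by rw [he1]; norm_num)
      refine h4.trans (le_of_eq ?_)
      rw [one_div, Real.inv_rpow h2n.le, ← Real.rpow_neg h2n.le, neg_neg, ← Real.rpow_natCast,
        ← Real.rpow_mul (by norm_num)]
      congr 1; ring
    rw [hδp]
    have e5 : K * L^2 * ((2 / z) * (2 / δ)) * (KH 1 0 eps1 * (δ * δ^(-(2*eps1)) * (z * Y1))) =
        K * L^2 * (4 * KH 1 0 eps1 * δ^(-(2*eps1))) * Y1 := by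
      field_simp
      ring
    rw [e5]
    refine mul_le_mul_of_nonneg_right (mul_le_mul_of_nonneg_left ?_ hKL) hY10
    exact mul_le_mul_of_nonneg_left hδn (by positivity)
  refine (Finset.sum_le_sum h2).trans (le_of_eq ?_)
  rw [Finset.sum_const, Finset.card_range, nsmul_eq_mul]
  push_cast
  ring

set_option maxHeartbeats 800000 in
/-- **all the classes of pairs across an add node**, scale in `(1/2^n, 2^N]` -/
theorem ey_all (K L : ℝ) (n N b k : ℕ) (V W : Finset ℕ) (E : Finset (ℕ × ℕ)) (R : ℕ → ℝ)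
    (F : ℕ × ℕ → ℝ) (hb : b.Prime) (hb16 : 16 ≤ b) (hK : 0 ≤ K) (hL : 0 ≤ L)
    (hVW : ∀ w ∈ V ∪ W, 0 < w ∧ 0 < R w) (hLVW : ∀ w ∈ V ∪ W, R w ≤ L * wt R w)
    (hVb : ∀ v ∈ V, b ^ k ∣ v) (hWb : ∀ w ∈ W, ¬ b ^ k ∣ w)
    (hE : E ⊆ V ×ˢ W) (hDn : ∀ e ∈ E, 1 / 2 ^ n < DP R R e) (hDN : ∀ e ∈ E, DP R R e ≤ 2 ^ N)
    (hF : ∀ e ∈ E, F e ≤ K * ((R e.1 * R e.2) / DP R R e)) :
    ∑ e ∈ E, F e ≤ 2 * (((n:ℝ) + N) * (K * L^2 * (4 * KH 1 0 eps1 * (2:ℝ)^(2*eps1*n)))) *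
      ((b:ℝ)^(-(1/2-eps1)) * ((∑ q ∈ V, wt R q) * (∑ r ∈ W, wt R r))^(1/2+eps1)) := by
  classical
  have he1 : eps1 = 1/1000 := rfl
  have hKH := KH_pos 1 0 eps1
  have hb0 : (0:ℝ) < b := by exact_mod_cast hb.pos
  have hb16' : (16:ℝ) ≤ b := by exact_mod_cast hb16
  have hmu : ∀ q ∈ V ∪ W, 0 ≤ wt R q := fun q hq => by
    unfold wt; exact mul_nonneg (hVW q hq).2.le (by positivity)
  set MV := ∑ q ∈ V, wt R q with hMV
  set MW := ∑ q ∈ W, wt R q with hMW
  have hMV0 : 0 ≤ MV := Finset.sum_nonneg fun q hq => hmu q (Finset.mem_union_left _ hq)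
  have hMW0 : 0 ≤ MW := Finset.sum_nonneg fun q hq => hmu q (Finset.mem_union_right _ hq)
  set Wj : ℕ → Finset ℕ := fun j => W.filter fun w => w.factorization b = j with hWj
  set Ej : ℕ → Finset (ℕ × ℕ) := fun j => E.filter fun e => e.2.factorization b = j with hEj
  have hWpos : ∀ w ∈ W, 0 < w := fun w hw => (hVW w (Finset.mem_union_right _ hw)).1
  have hlt : ∀ w ∈ W, w.factorization b < k := by
    intro w hw
    by_contra hc
    push Not at hc
    exact hWb w hw ((hb.pow_dvd_iff_le_factorization (hWpos w hw).ne').2 hc)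
  have hsplit : ∑ e ∈ E, F e = ∑ j ∈ Finset.range k, ∑ e ∈ Ej j, F e := by
    rw [hEj]
    refine (Finset.sum_fiberwise_of_maps_to (fun e he => ?_) F).symm
    exact Finset.mem_range.2 (hlt _ (Finset.mem_product.1 (hE he)).2)
  set Cc := ((n:ℝ) + N) * (K * L^2 * (4 * KH 1 0 eps1 * (2:ℝ)^(2*eps1*n))) with hCc
  have hCc0 : 0 ≤ Cc := by positivity
  have hone : ∀ j ∈ Finset.range k, ∑ e ∈ Ej j, F e ≤
      Cc * ((((b ^ (k - j) : ℕ) : ℝ))^(-(1/2-eps1)) * (MV * MW)^(1/2+eps1)) := by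
    intro j hj
    have hjk := Finset.mem_range.1 hj
    have hsubW : Wj j ⊆ W := Finset.filter_subset _ _
    have hWd : ∀ w ∈ Wj j, b ^ j ∣ w ∧ ¬ b ^ (j + 1) ∣ w := by
      intro w hw
      obtain ⟨h1, h2⟩ := Finset.mem_filter.1 hw
      have hw0 := (hWpos w h1).ne'
      constructor
      · exact (hb.pow_dvd_iff_le_factorization hw0).2 h2.ge
      · intro h3
        have := (hb.pow_dvd_iff_le_factorization hw0).1 h3
        omega
    have hEsub : Ej j ⊆ V ×ˢ Wj j := by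
      intro e he
      obtain ⟨h1, h2⟩ := Finset.mem_filter.1 he
      have h := Finset.mem_product.1 (hE h1)
      exact Finset.mem_product.2 ⟨h.1, Finset.mem_filter.2 ⟨h.2, h2⟩⟩
    have hEE : ∀ e ∈ Ej j, e ∈ E := fun e he => (Finset.mem_filter.1 he).1
    have hkj : 0 < k - j := by omega
    have key := ey_z K L n N (b ^ (k - j)) V (Wj j) (Ej j) R F
      (Nat.pow_pos hb.pos) hK hL
      (fun w hw => hVW w (Finset.mem_union_left _ hw))
      (fun w hw => hVW w (Finset.mem_union_right _ (hsubW hw)))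
      (fun w hw => hLVW w (Finset.mem_union_left _ hw))
      (fun w hw => hLVW w (Finset.mem_union_right _ (hsubW hw)))
      (fun w hw => tot_two hb hkj (hWpos w (hsubW hw)))
      hEsub
      ⟨fun e he => by
        have h := Finset.mem_product.1 (hEsub he)
        exact (tr_pow hb hjk (hVb _ h.1) (hWd _ h.2).1 (hWd _ h.2).2
          (hVW _ (Finset.mem_union_left _ h.1)).1).1,
       fun e he => by
        have h := Finset.mem_product.1 (hEsub he)
        exact (tr_pow hb hjk (hVb _ h.1) (hWd _ h.2).1 (hWd _ h.2).2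
          (hVW _ (Finset.mem_union_left _ h.1)).1).2⟩
      (fun e he => hDn e (hEE e he)) (fun e he => hDN e (hEE e he)) (fun e he => hF e (hEE e he))
    refine key.trans ?_
    rw [hCc]
    have h6 : (MV * ∑ r ∈ Wj j, wt R r) ^ (1/2+eps1) ≤ (MV * MW)^(1/2+eps1) := by
      refine Real.rpow_le_rpow (mul_nonneg hMV0 (Finset.sum_nonneg fun q hq =>
        hmu q (Finset.mem_union_right _ (hsubW hq)))) ?_ (by rw [he1]; norm_num)
      refine mul_le_mul_of_nonneg_left ?_ hMV0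
      exact Finset.sum_le_sum_of_subset_of_nonneg hsubW fun q hq _ =>
        hmu q (Finset.mem_union_right _ hq)
    calc ((n:ℝ) + N) * (K * L^2 * (4 * KH 1 0 eps1 * (2:ℝ)^(2*eps1*n)) *
          ((((b ^ (k - j) : ℕ) : ℝ))^(-(1/2-eps1)) * (MV * ∑ r ∈ Wj j, wt R r)^(1/2+eps1)))
        ≤ ((n:ℝ) + N) * (K * L^2 * (4 * KH 1 0 eps1 * (2:ℝ)^(2*eps1*n)) *
          ((((b ^ (k - j) : ℕ) : ℝ))^(-(1/2-eps1)) * (MV * MW)^(1/2+eps1))) := by
          refine mul_le_mul_of_nonneg_left (mul_le_mul_of_nonneg_left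
            (mul_le_mul_of_nonneg_left h6 (by positivity)) (by positivity)) (by positivity)
      _ = _ := by ring
  rw [hsplit]
  refine (Finset.sum_le_sum hone).trans ?_
  rw [← Finset.mul_sum, ← Finset.sum_mul]
  have hg1 := geo_z (b := b) (s := 1/2-eps1) hb.two_le (by
    have h1 : (b:ℝ)^(-(1/2-eps1)) ≤ (16:ℝ)^(-(1/2-eps1)) :=
      Real.rpow_le_rpow_of_nonpos (by norm_num) hb16' (by rw [he1]; norm_num)
    refine h1.trans ?_
    have h2 : (16:ℝ)^(-(1/2-eps1)) ≤ (16:ℝ)^(-(1/4):ℝ) :=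
      Real.rpow_le_rpow_of_exponent_le (by norm_num) (by rw [he1]; norm_num)
    refine h2.trans (le_of_eq ?_)
    rw [show (16:ℝ) = 2 ^ (4:ℝ) by norm_num, ← Real.rpow_mul (by norm_num)]
    norm_num) k
  have hY : 0 ≤ (MV * MW)^(1/2+eps1) := by positivity
  calc Cc * ((∑ j ∈ Finset.range k, (((b ^ (k - j) : ℕ) : ℝ))^(-(1/2-eps1))) * (MV * MW)^(1/2+eps1))
      ≤ Cc * ((2 * (b:ℝ)^(-(1/2-eps1))) * (MV * MW)^(1/2+eps1)) :=
        mul_le_mul_of_nonneg_left (mul_le_mul_of_nonneg_right hg1 hY) hCc0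
    _ = _ := by ring

/-- the scale of a pair is at least the radii -/
lemma max_le_DP {R : ℕ → ℝ} {e : ℕ × ℕ} (h1 : 0 < e.1) (h2 : 0 < e.2) (r1 : 0 ≤ R e.1)
    (r2 : 0 ≤ R e.2) : max (R e.1) (R e.2) ≤ DP R R e := by
  have c1 : (1:ℝ) ≤ (cof e.1 e.2 : ℕ) := by exact_mod_cast cof_pos h1
  have c2 : (1:ℝ) ≤ (cof e.2 e.1 : ℕ) := by exact_mod_cast cof_pos h2
  unfold DP
  refine max_le_max ?_ ?_
  · nlinarith
  · nlinarith

set_option maxHeartbeats 800000 in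
/-- **pairs with a fat item across an add node**: `V` = items divisible by `b^k`, `W` = items not
divisible by `b^k`; one of the radii is `> (log b)^(-Ct)`. -/
theorem fat_cross : ∃ κ₀ : ℝ, 0 ≤ κ₀ ∧ ∀ (Cl Ct A : ℝ), 0 ≤ Cl → 0 ≤ Ct → 0 ≤ A →
    ∃ b₁ : ℕ, ∀ b : ℕ, b₁ ≤ b → b.Prime →
    ∀ (η : ℝ) (k : ℕ) (V W : Finset ℕ) (E : Finset (ℕ × ℕ)) (R : ℕ → ℝ) (F : ℕ × ℕ → ℝ),
    0 ≤ η → η ≤ Real.exp (-(Real.log b ^ (4/5:ℝ))) →
    (∀ w ∈ V ∪ W, 0 < w ∧ 0 < R w) → (∀ w ∈ V ∪ W, R w ≤ Cl * Real.log b * wt R w) →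
    (∀ v ∈ V, b ^ k ∣ v) → (∀ w ∈ W, ¬ b ^ k ∣ w) → E ⊆ V ×ˢ W →
    (∀ e ∈ E, F e ≤ 2 * ((R e.1 * R e.2) / DP R R e) * (2 * (η * DP R R e) + 1)) →
    (∀ e ∈ E, Real.log b ^ (-Ct) < max (R e.1) (R e.2)) →
    ∑ e ∈ E, F e ≤ Real.log b ^ (-A) * ((∑ q ∈ V, wt R q) * ∑ r ∈ W, wt R r) +
      Real.log b ^ (κ₀ + (Ct + A) / 500) * ((b:ℝ)^(-(1/2-eps1)) *
        ((∑ q ∈ V, wt R q) * (∑ r ∈ W, wt R r))^(1/2+eps1)) := by
  classical
  have he1 : eps1 = 1/1000 := rfl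
  have hKH := KH_pos 1 0 eps1
  refine ⟨4 + 3 / 500, by positivity, ?_⟩
  intro Cl Ct A hCl hCt hA
  set A1 := Ct + A + 3 with hA1
  have hA1p : 0 < A1 := by positivity
  set C := 4 * KH 1 0 eps1 with hC
  have hC0 : 0 ≤ C := by positivity
  have hev := (ev_exp A1).and ((Filter.eventually_ge_atTop (2:ℝ)).and
    ((Filter.eventually_ge_atTop (12 * Cl^2 * (4 * C) + 6 * Cl^2 + 1)).and
    (AddLL7.ev_lit (a := 1) (c := Real.log 2 / (2 * A1)) one_pos
      (div_pos (Real.log_pos (by norm_num)) (by positivity)) 1)))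
  obtain ⟨x₀, hx₀⟩ := Filter.eventually_atTop.1 hev
  refine ⟨⌈Real.exp x₀⌉₊ + 16, fun b hb hbp => ?_⟩
  intro η k V W E R F hη hη1 hVW hLVW hVb hWb hE hF hfat
  have hb16 : 16 ≤ b := by omega
  have hb0 : (0:ℝ) < b := by exact_mod_cast (by omega : 0 < b)
  have hbx : Real.exp x₀ ≤ b := (Nat.le_ceil _).trans (by exact_mod_cast (by omega : ⌈Real.exp x₀⌉₊ ≤ b))
  set ℓ := Real.log (b:ℝ) with hℓ
  have hxl : x₀ ≤ ℓ := by rw [hℓ]; exact (Real.le_log_iff_exp_le hb0).2 hbx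
  obtain ⟨m1, m2, m3, m5⟩ := hx₀ ℓ hxl
  rw [Real.rpow_one, Real.rpow_one] at m5
  have hℓ0 : 0 < ℓ := by linarith
  have hℓ1 : 1 ≤ ℓ := by linarith
  have q1 : 0 ≤ 12 * Cl^2 * (4 * C) := by positivity
  have q3 : 0 ≤ 6 * Cl^2 := by positivity
  obtain ⟨n, n1, n2, n3⟩ := scale hℓ1 hA1p.le
  have h2n : (0:ℝ) < (2:ℝ)^n := by positivity
  have hP0 : 0 < ℓ ^ A1 := Real.rpow_pos_of_pos hℓ0 _
  have hP1 : 1 ≤ ℓ ^ A1 := Real.one_le_rpow hℓ1 hA1p.le
  have hinv : 1 / (2:ℝ)^n ≤ ℓ ^ (-A1) := by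
    rw [Real.rpow_neg hℓ0.le, ← one_div]
    exact one_div_le_one_div_of_le hP0 n1
  have hηn : η * (2:ℝ)^n ≤ 1 := by
    calc η * (2:ℝ)^n ≤ Real.exp (-(ℓ ^ (4/5:ℝ))) * Real.exp (ℓ ^ (4/5:ℝ)) :=
          mul_le_mul hη1 (n2.trans m1) h2n.le (Real.exp_pos _).le
      _ = 1 := by rw [← Real.exp_add]; simp
  have hη2 : η ≤ 1 / (2:ℝ)^n := by rw [le_div_iff₀ h2n]; exact hηn
  have hmu : ∀ q ∈ V ∪ W, 0 ≤ wt R q := fun q hq => by
    unfold wt; exact mul_nonneg (hVW q hq).2.le (by positivity)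
  set MV := ∑ q ∈ V, wt R q with hMV
  set MW := ∑ q ∈ W, wt R q with hMW
  have hMV0 : 0 ≤ MV := Finset.sum_nonneg fun q hq => hmu q (Finset.mem_union_left _ hq)
  have hMW0 : 0 ≤ MW := Finset.sum_nonneg fun q hq => hmu q (Finset.mem_union_right _ hq)
  have hDpos : ∀ e ∈ E, 0 < DP R R e := by
    intro e he
    have h := Finset.mem_product.1 (hE he)
    exact DP_pos (hVW _ (Finset.mem_union_right _ h.2)).1 (hVW _ (Finset.mem_union_left _ h.1)).2
  have hDn : ∀ e ∈ E, 1 / 2 ^ n < DP R R e := by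
    intro e he
    have h := Finset.mem_product.1 (hE he)
    obtain ⟨v1, v2⟩ := hVW _ (Finset.mem_union_left _ h.1)
    obtain ⟨w1, w2⟩ := hVW _ (Finset.mem_union_right _ h.2)
    refine (hinv.trans ?_).trans_lt ((hfat e he).trans_le (max_le_DP v1 w1 v2.le w2.le))
    refine Real.rpow_le_rpow_of_exponent_le hℓ1 ?_
    rw [hA1]; linarith
  set L := Cl * ℓ with hL
  have hL0 : 0 ≤ L := by positivity
  -- the split
  set E1 := E.filter fun e => DP R R e ≤ (2:ℝ)^n with hE1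
  set E2 := E.filter fun e => ¬ DP R R e ≤ (2:ℝ)^n with hE2
  have hsplit : ∑ e ∈ E, F e = ∑ e ∈ E1, F e + ∑ e ∈ E2, F e :=
    (Finset.sum_filter_add_sum_filter_not _ _ _).symm
  have hE1E : E1 ⊆ E := Finset.filter_subset _ _
  have key := ey_all 6 L n n b k V W E1 R F hbp hb16 (by norm_num) hL0 hVW
    hLVW hVb hWb (hE1E.trans hE) (fun e he => hDn e (hE1E he))
    (fun e he => (Finset.mem_filter.1 he).2)
    (fun e he => by
      have heE := hE1E he
      have hD := hDpos e heE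
      have hDn := (Finset.mem_filter.1 he).2
      have h := Finset.mem_product.1 (hE heE)
      have hR := (hVW _ (Finset.mem_union_left _ h.1)).2
      have hR' := (hVW _ (Finset.mem_union_right _ h.2)).2
      have h1 : η * DP R R e ≤ 1 := (mul_le_mul_of_nonneg_left hDn hη).trans hηn
      have h2 : 0 ≤ (R e.1 * R e.2) / DP R R e := by positivity
      calc F e ≤ 2 * ((R e.1 * R e.2) / DP R R e) * (2 * (η * DP R R e) + 1) := hF e heE
        _ ≤ 2 * ((R e.1 * R e.2) / DP R R e) * 3 :=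
            mul_le_mul_of_nonneg_left (by linarith) (by positivity)
        _ = _ := by ring)
  -- far pairs
  have hfar : ∑ e ∈ E2, F e ≤ ℓ ^ (-A) * (MV * MW) := by
    have h1 : ∀ e ∈ E2, F e ≤ 6 * (1 / (2:ℝ)^n) * L^2 * (wt R e.1 * wt R e.2) := by
      intro e he
      obtain ⟨heE, hDn⟩ := Finset.mem_filter.1 he
      push Not at hDn
      have hD := hDpos e heE
      have h := Finset.mem_product.1 (hE heE)
      have hR := (hVW _ (Finset.mem_union_left _ h.1)).2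
      have hR' := (hVW _ (Finset.mem_union_right _ h.2)).2
      have l1 := hLVW _ (Finset.mem_union_left _ h.1)
      have l2 := hLVW _ (Finset.mem_union_right _ h.2)
      have h5 : 0 ≤ L * wt R e.1 := hR.le.trans l1
      have h6 : 1 / DP R R e ≤ 1 / (2:ℝ)^n := one_div_le_one_div_of_le h2n hDn.le
      have h7 : R e.1 * R e.2 ≤ L^2 * (wt R e.1 * wt R e.2) := by
        calc R e.1 * R e.2 ≤ (L * wt R e.1) * (L * wt R e.2) := mul_le_mul l1 l2 hR'.le h5
          _ = _ := by ring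
      have h8 : 0 ≤ R e.1 * R e.2 := by positivity
      calc F e ≤ 2 * ((R e.1 * R e.2) / DP R R e) * (2 * (η * DP R R e) + 1) := hF e heE
        _ = (R e.1 * R e.2) * (4 * η + 2 * (1 / DP R R e)) := by field_simp; ring
        _ ≤ (R e.1 * R e.2) * (4 * (1 / (2:ℝ)^n) + 2 * (1 / (2:ℝ)^n)) :=
            mul_le_mul_of_nonneg_left (by linarith) h8
        _ = (R e.1 * R e.2) * (6 * (1 / (2:ℝ)^n)) := by ring
        _ ≤ (L^2 * (wt R e.1 * wt R e.2)) * (6 * (1 / (2:ℝ)^n)) :=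
            mul_le_mul_of_nonneg_right h7 (by positivity)
        _ = _ := by ring
    have h2 : ∑ e ∈ E2, F e ≤ 6 * (1 / (2:ℝ)^n) * L^2 * (MV * MW) := by
      calc ∑ e ∈ E2, F e ≤ ∑ e ∈ E2, 6 * (1 / (2:ℝ)^n) * L^2 * (wt R e.1 * wt R e.2) :=
            Finset.sum_le_sum h1
        _ ≤ ∑ e ∈ V ×ˢ W, 6 * (1 / (2:ℝ)^n) * L^2 * (wt R e.1 * wt R e.2) := by
            refine Finset.sum_le_sum_of_subset_of_nonneg
              ((Finset.filter_subset _ _).trans hE) fun e he _ => ?_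
            have h := Finset.mem_product.1 he
            have a1 := hmu _ (Finset.mem_union_left W h.1)
            have a2 := hmu _ (Finset.mem_union_right V h.2)
            positivity
        _ = _ := by rw [← Finset.mul_sum, Finset.sum_product, Finset.sum_mul_sum]
    refine h2.trans (mul_le_mul_of_nonneg_right ?_ (mul_nonneg hMV0 hMW0))
    -- `6 L² / 2^n ≤ ℓ^(-A)`
    have h3 : ℓ ^ (-A1) ≤ ℓ ^ (-A) * ℓ ^ (-(3:ℝ)) := by
      rw [← Real.rpow_add hℓ0]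
      refine Real.rpow_le_rpow_of_exponent_le hℓ1 ?_
      rw [hA1]
      linarith
    have h4 : ℓ ^ (-(3:ℝ)) = (ℓ^3)⁻¹ := by
      rw [Real.rpow_neg hℓ0.le]; congr 1; exact_mod_cast Real.rpow_natCast ℓ 3
    have h5 : 0 ≤ ℓ ^ (-A) := Real.rpow_nonneg hℓ0.le _
    have h6 : 6 * Cl^2 ≤ ℓ := by linarith
    calc 6 * (1 / (2:ℝ)^n) * L^2 ≤ 6 * (ℓ ^ (-A) * (ℓ^3)⁻¹) * L^2 := by
          apply mul_le_mul_of_nonneg_right _ (sq_nonneg _)
          rw [← h4]
          linarith [hinv.trans h3]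
      _ = ℓ ^ (-A) * ((6 * Cl^2) / ℓ) := by
          rw [hL]; field_simp
      _ ≤ ℓ ^ (-A) * 1 := by
          apply mul_le_mul_of_nonneg_left _ h5
          rw [div_le_one hℓ0]; exact h6
      _ = _ := mul_one _
  -- near pairs
  have hYY : 0 ≤ (b:ℝ)^(-(1/2-eps1)) * (MV * MW)^(1/2+eps1) := by positivity
  set Ce := 4 + 3 / 500 + (Ct + A) / 500 with hCe
  have hCe' : Ce = 2 * eps1 * A1 + 4 := by rw [hCe, hA1, he1]; ring
  have hP2 : 1 ≤ ℓ ^ (2 * eps1 * A1) := Real.one_le_rpow hℓ1 (by rw [he1]; positivity)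
  have hC3 : ℓ ^ Ce = ℓ ^ (2 * eps1 * A1) * ℓ^4 := by
    rw [hCe', Real.rpow_add hℓ0]
    congr 1
    exact_mod_cast Real.rpow_natCast ℓ 4
  have hnℓ : (n:ℝ) ≤ ℓ := by
    have hl2 : 0 < Real.log 2 := Real.log_pos (by norm_num)
    have h1 : A1 * Real.log ℓ / Real.log 2 ≤ ℓ / 2 := by
      rw [div_le_iff₀ hl2]
      calc A1 * Real.log ℓ ≤ A1 * (Real.log 2 / (2 * A1) * ℓ) :=
            mul_le_mul_of_nonneg_left m5 hA1p.le
        _ = _ := by field_simp
    linarith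
  have hc1 : 2 * (((n:ℝ) + n) * (6 * L^2 * (C * (2:ℝ)^(2*eps1*n)))) ≤ ℓ ^ Ce := by
    have h3 : (2:ℝ)^(2*eps1*n) ≤ 2 * ℓ ^ (2 * eps1 * A1) := by
      have h1 : (2:ℝ)^(2*eps1*n) = ((2:ℝ)^n)^(2*eps1) := by
        rw [← Real.rpow_natCast, ← Real.rpow_mul (by norm_num)]
        congr 1; ring
      rw [h1]
      calc ((2:ℝ)^n)^(2*eps1) ≤ (2 * ℓ ^ A1)^(2*eps1) :=
            Real.rpow_le_rpow h2n.le n2 (by rw [he1]; norm_num)
        _ = 2^(2*eps1) * ℓ ^ (2 * eps1 * A1) := by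
            rw [Real.mul_rpow (by norm_num) hP0.le, ← Real.rpow_mul hℓ0.le]
            congr 2; ring
        _ ≤ 2 * ℓ ^ (2 * eps1 * A1) := by
            refine mul_le_mul_of_nonneg_right ?_ (by positivity)
            calc (2:ℝ)^(2*eps1) ≤ 2^(1:ℝ) :=
                  Real.rpow_le_rpow_of_exponent_le (by norm_num) (by rw [he1]; norm_num)
              _ = 2 := Real.rpow_one 2
    have h6 : (n:ℝ) * (2:ℝ)^(2*eps1*n) ≤ ℓ * (2 * ℓ ^ (2 * eps1 * A1)) :=
      mul_le_mul hnℓ h3 (by positivity) hℓ0.le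
    have h8 : 12 * Cl^2 * (4 * C) ≤ ℓ := by linarith
    rw [hC3]
    calc 2 * (((n:ℝ) + n) * (6 * L^2 * (C * (2:ℝ)^(2*eps1*n))))
        = 24 * L^2 * C * ((n:ℝ) * (2:ℝ)^(2*eps1*n)) := by ring
      _ ≤ 24 * L^2 * C * (ℓ * (2 * ℓ ^ (2 * eps1 * A1))) :=
          mul_le_mul_of_nonneg_left h6 (by positivity)
      _ = (12 * Cl^2 * (4 * C)) * (ℓ^3 * ℓ ^ (2 * eps1 * A1)) := by rw [hL]; ring
      _ ≤ ℓ * (ℓ^3 * ℓ ^ (2 * eps1 * A1)) := mul_le_mul_of_nonneg_right h8 (by positivity)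
      _ = _ := by ring
  rw [hsplit]
  have k1 := mul_le_mul_of_nonneg_right hc1 hYY
  linarith

open Crest.Agent.R4P.AddNode7 (sub_tr2 sum_wA)
open Crest.Agent.R4P.RseNd23 (wA DA wt_tr R_tr DP_eq sum_tr2)

/-- **pairs with a fat item across an add node**, item coordinates -/
theorem fat_cross' : ∃ κ₀ : ℝ, 0 ≤ κ₀ ∧ ∀ (Cl Ct A : ℝ), 0 ≤ Cl → 0 ≤ Ct → 0 ≤ A →
    ∃ b₁ : ℕ, ∀ b : ℕ, b₁ ≤ b → b.Prime →
    ∀ (a : ℕ) (η : ℝ) (k : ℕ) (V W : Finset ℕ) (E : Finset (ℕ × ℕ)) (R : ℕ → ℝ)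
      (F : ℕ × ℕ → ℝ),
    (∀ q ∈ V ∪ W, a ∣ q) →
    0 ≤ η → η ≤ Real.exp (-(Real.log b ^ (4/5:ℝ))) →
    (∀ q ∈ V ∪ W, 0 < q / a ∧ 0 < R q) → (∀ q ∈ V ∪ W, R q ≤ Cl * Real.log b * wA a R q) →
    (∀ q ∈ V, b ^ k ∣ q / a) → (∀ q ∈ W, ¬ b ^ k ∣ q / a) → E ⊆ V ×ˢ W →
    (∀ e ∈ E, F e ≤ 2 * ((R e.1 * R e.2) / DA a R e) * (2 * (η * DA a R e) + 1)) →
    (∀ e ∈ E, Real.log b ^ (-Ct) < max (R e.1) (R e.2)) →
    ∑ e ∈ E, F e ≤ Real.log b ^ (-A) * ((∑ q ∈ V, wA a R q) * ∑ r ∈ W, wA a R r) +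
      Real.log b ^ (κ₀ + (Ct + A) / 500) * ((b:ℝ)^(-(1/2-eps1)) *
        ((∑ q ∈ V, wA a R q) * (∑ r ∈ W, wA a R r))^(1/2+eps1)) := by
  obtain ⟨κ₀, hκ₀, HH⟩ := fat_cross
  refine ⟨κ₀, hκ₀, fun Cl Ct A hCl hCt hA => ?_⟩
  obtain ⟨b₁, H⟩ := HH Cl Ct A hCl hCt hA
  refine ⟨b₁, ?_⟩
  intro b hb hbp a η k V W E R F ha hη hη1 hT hL hVb hWb hE hF hfat
  have hAV : ∀ q ∈ V, a ∣ q := fun q hq => ha q (Finset.mem_union_left _ hq)
  have hAW : ∀ q ∈ W, a ∣ q := fun q hq => ha q (Finset.mem_union_right _ hq)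
  have hEE : E ⊆ (V ∪ W) ×ˢ (V ∪ W) := fun e he => by
    obtain ⟨m1, m2⟩ := Finset.mem_product.1 (hE he)
    exact Finset.mem_product.2 ⟨Finset.mem_union_left _ m1, Finset.mem_union_right _ m2⟩
  have key := H b hb hbp η k (V.image (· / a)) (W.image (· / a))
    (E.image fun e => (e.1 / a, e.2 / a))
    (fun v => R (a * v)) (fun e => F (a * e.1, a * e.2)) hη hη1
    (fun v hv => by
      rw [← image_union] at hv
      obtain ⟨q, hq, rfl⟩ := Finset.mem_image.1 hv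
      have h1 := hT q hq
      exact ⟨h1.1, by rw [Nat.mul_div_cancel' (ha q hq)]; exact h1.2⟩)
    (fun v hv => by
      rw [← image_union] at hv
      obtain ⟨q, hq, rfl⟩ := Finset.mem_image.1 hv
      have h1 := hL q hq
      rw [wt_tr a R (ha q hq)]
      exact (R_tr a R (ha q hq)).le.trans h1)
    (fun v hv => by
      obtain ⟨q, hq, rfl⟩ := Finset.mem_image.1 hv
      exact hVb q hq)
    (fun v hv => by
      obtain ⟨q, hq, rfl⟩ := Finset.mem_image.1 hv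
      exact hWb q hq)
    (sub_tr2 hE)
    (fun x hx => by
      obtain ⟨e, he, rfl⟩ := Finset.mem_image.1 hx
      obtain ⟨a1, a2⟩ := Finset.mem_product.1 (hEE he)
      have d1 := ha _ a1
      have d2 := ha _ a2
      have h1 := hF e he
      rw [DP_eq a R d1 d2]
      simp only [Nat.mul_div_cancel' d1, Nat.mul_div_cancel' d2]
      exact h1)
    (fun x hx => by
      obtain ⟨e, he, rfl⟩ := Finset.mem_image.1 hx
      obtain ⟨a1, a2⟩ := Finset.mem_product.1 (hEE he)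
      have d1 := ha _ a1
      have d2 := ha _ a2
      simp only [Nat.mul_div_cancel' d1, Nat.mul_div_cancel' d2]
      exact hfat e he)
  rw [sum_tr2 ha hEE, sum_wA hAV, sum_wA hAW] at key
  have e1 : ∑ e ∈ E, F e = ∑ e ∈ E, F (a * (e.1 / a), a * (e.2 / a)) := by
    refine Finset.sum_congr rfl fun e he => ?_
    obtain ⟨a1, a2⟩ := Finset.mem_product.1 (hEE he)
    rw [Nat.mul_div_cancel' (ha _ a1), Nat.mul_div_cancel' (ha _ a2)]
  rw [e1]
  exact key

end Crest.Agent.R4P.JnM5
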