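import Crest.Agent.R4P.XmO_37

/-!
R4 (S0004) with powers, T3, helper5: **the difference of the centres of two pieces is static**.

Two pieces `j` (node `s`), `i` (node `s'`), teeth `a`, `a'` at a common point: `a W_i - a' W_j` is the same
at ALL the common points (one log cell moves the position by at most `B d1`, `d1 * Kc ≤ 1`); hence for any
offsets `ρ`, `ρ'` (labels of any kind) the centres are equal at one common point iff they are equal at all.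

* `B_mul_le`, `sameDiff`, `ex_all`, `ex_allQ`;
* **`ExO.of_pt`** : static relations, exact centres at ONE common point of every pair.
-/

set_option autoImplicit false
set_option linter.unusedSectionVars false
set_option linter.unusedVariables false

open MeasureTheory Filter

namespace Crest.Agent.R4P.JnN5

open Crest.Agent.R4.Tour104 Crest.Agent.R4.Tour758 Crest.Agent.R4.Avg758 Crest.Agent.R4.Clos758
open Crest.Agent.R4.ClosL758 Crest.Agent.R4.ClosG758 Crest.Agent.R4.ClosR758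
open Crest.Agent.R4.HVW560
open Crest.Agent.R4P.Cnt588 Crest.Agent.R4P.Item758 Crest.Agent.R4P.AvgItem710
open Crest.Agent.R4P.Walk560 Crest.Agent.R4P.NodeG33
open Crest.Agent.R4P.Data758 Crest.Agent.R4P.Skel189
open Crest.Agent.R4P.Bld532 (NS All)
open Crest.Agent.R4P.Step588 (NDt)
open Crest.Agent.R4.Soft104 (w)
open Crest.Agent.R4P.GPair33
open Crest.Agent.R4P.XmO37

variable {N : Skel189.Num} {γ : ℝ} {p0 P₀ : ℕ} {X : Ctx N γ p0 P₀}

/-- sizes of the circles -/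
lemma B_mul_le {s : NS} {t : IT} (h : QX X s t) {q r : ℕ} (hq : q ∈ t.items) (hr : r ∈ X.S)
    (a : ℕ) : 4 * (s.B * (r / a)) ≤ Kc X.S := by
  have e := BldF542.mp_eq_prod X.c.t (top X.S) X.tOk q
  have h1 := BldF542.mt_lt X.c.t (top X.S) X.tOk q
  have h2 : (X.c.t.mt q) ⊆ Finset.Icc 1 (top X.S) := fun s hs =>
    Finset.mem_Icc.2 ⟨(h1 s hs).1.one_lt.le, (h1 s hs).2.le⟩
  have h3 : mp X.c.t q ≤ ∏ i ∈ Finset.Icc 1 (top X.S), i := by
    rw [e]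
    exact Finset.prod_le_prod_of_subset_of_one_le' h2 fun i hi _ => (Finset.mem_Icc.1 hi).1
  rw [h.self.mp _ hq] at h3
  have h4 : 0 < mp t q := by
    rw [BldF542.mp_eq_prod t s.n h.self.ok]
    exact Finset.prod_pos fun l hl => (BldF542.mt_lt t s.n h.self.ok _ l hl).1.pos
  have h5 : s.B ≤ ∏ i ∈ Finset.Icc 1 (top X.S), i := (Nat.le_mul_of_pos_right _ h4).trans h3
  have h6 : r / a ≤ top X.S := by
    refine (Nat.div_le_self r a).trans ?_
    have h7 : r ≤ X.S.sup id := Finset.le_sup (f := id) hr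
    unfold top
    omega
  have h8 : 4 * top X.S ≤ 4 ^ (8 * top X.S ^ 4) := by
    have t0 : 1 ≤ top X.S := by unfold top; omega
    have t1 : top X.S + 1 ≤ 8 * top X.S ^ 4 := by
      have : top X.S ≤ top X.S ^ 4 := Nat.le_self_pow (by norm_num) _
      omega
    calc 4 * top X.S ≤ 4 * 4 ^ top X.S :=
          Nat.mul_le_mul_left _ (Nat.lt_pow_self (by norm_num)).le
      _ = 4 ^ (top X.S + 1) := by ring
      _ ≤ 4 ^ (8 * top X.S ^ 4) := Nat.pow_le_pow_right (by norm_num) t1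
  unfold Kc
  calc 4 * (s.B * (r / a)) ≤ 4 * ((∏ i ∈ Finset.Icc 1 (top X.S), i) * top X.S) :=
        Nat.mul_le_mul_left _ (Nat.mul_le_mul h5 h6)
    _ = (∏ i ∈ Finset.Icc 1 (top X.S), i) * (4 * top X.S) := by ring
    _ ≤ _ := Nat.mul_le_mul_left _ h8

/-- the offset of a piece inside one of its teeth moves by less than `B d1` -/
lemma tth_close {s : NS} {j : X.c.Lam} (hB : 0 < s.B) {y y' : ℝ} {a e : ℤ} (h1 : Tth X s j y a)
    (h2 : Tth X s j y' e) :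
    |(((j.1.1 / s.A : ℕ) : ℝ) * y - s.B * X.c.γ - a) -
      (((j.1.1 / s.A : ℕ) : ℝ) * y' - s.B * X.c.γ - e)| < s.B * X.c.d1 := by
  have hf := X.ok.fine j.1.1 (Cf.mem_S j) (Cf.r_pos j) j.1.2 (Cf.k_lt j)
  have hB0 : (0 : ℝ) < s.B := by exact_mod_cast hB
  have h3 : (s.B : ℝ) * X.c.bp j.1.1 (j.1.2 + 1) - s.B * X.c.bp j.1.1 j.1.2 ≤ s.B * X.c.d1 := by
    rw [← mul_sub]
    exact mul_le_mul_of_nonneg_left hf hB0.le
  obtain ⟨a1, a2⟩ := h1
  obtain ⟨b1, b2⟩ := h2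
  rw [abs_lt]
  constructor <;> linarith

/-- **the difference of the centres is static** -/
theorem sameDiff {s s' : NS} {t t' : IT} (h : QX X s t) (h' : QX X s' t')
    (hd1 : X.c.d1 * Kc X.S ≤ 1) {j i : X.c.Lam} (hj : j.1.1 ∈ t.items) (hi : i.1.1 ∈ t'.items)
    {y y' : ℝ} {a a' e e' : ℤ} (h1 : Tth X s j y a) (h2 : Tth X s' i y a') (h3 : Tth X s j y' e)
    (h4 : Tth X s' i y' e') :
    a * (i.1.1 / s'.A : ℕ) - a' * (j.1.1 / s.A : ℕ) = e * (i.1.1 / s'.A : ℕ) -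
      e' * (j.1.1 / s.A : ℕ) := by
  have hjS : j.1.1 ∈ X.S := X.hS ▸ Cf.mem_S j
  have hiS : i.1.1 ∈ X.S := X.hS ▸ Cf.mem_S i
  have c1 := tth_close h.B_pos h1 h3
  have c2 := tth_close h'.B_pos h2 h4
  have k1 : (4:ℝ) * (s.B * (i.1.1 / s'.A : ℕ)) ≤ Kc X.S := by
    exact_mod_cast B_mul_le h hj hiS s'.A
  have k2 : (4:ℝ) * (s'.B * (j.1.1 / s.A : ℕ)) ≤ Kc X.S := by
    exact_mod_cast B_mul_le h' hi hjS s.A
  have hd0 : 0 < X.c.d1 := by rw [X.d1]; exact N.hd1 p0 X.ψ X.S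
  set W : ℝ := ((j.1.1 / s.A : ℕ) : ℝ) with hW
  set W' : ℝ := ((i.1.1 / s'.A : ℕ) : ℝ) with hW'
  have hW0 : 0 ≤ W := Nat.cast_nonneg _
  have hW0' : 0 ≤ W' := Nat.cast_nonneg _
  set T : ℝ := (W * y - s.B * X.c.γ - a) - (W * y' - s.B * X.c.γ - e) with hT
  set T' : ℝ := (W' * y - s'.B * X.c.γ - a') - (W' * y' - s'.B * X.c.γ - e') with hT'
  have e1 : ((a:ℝ) * W' - a' * W) - (e * W' - e' * W) = T' * W - T * W' := by
    rw [hT, hT']; ring
  have b1 : |T| * W' ≤ 1 / 4 := by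
    calc |T| * W' ≤ (s.B * X.c.d1) * W' := mul_le_mul_of_nonneg_right c1.le hW0'
      _ = X.c.d1 * (4 * (s.B * W')) / 4 := by ring
      _ ≤ X.c.d1 * Kc X.S / 4 := by
          have := mul_le_mul_of_nonneg_left k1 hd0.le
          linarith
      _ ≤ 1 / 4 := by linarith
  have b2 : |T'| * W ≤ 1 / 4 := by
    calc |T'| * W ≤ (s'.B * X.c.d1) * W := mul_le_mul_of_nonneg_right c2.le hW0
      _ = X.c.d1 * (4 * (s'.B * W)) / 4 := by ring
      _ ≤ X.c.d1 * Kc X.S / 4 := by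
          have := mul_le_mul_of_nonneg_left k2 hd0.le
          linarith
      _ ≤ 1 / 4 := by linarith
  have b3 : |((a:ℝ) * W' - a' * W) - (e * W' - e' * W)| < 1 := by
    rw [e1]
    calc |T' * W - T * W'| ≤ |T' * W| + |T * W'| := abs_sub _ _
      _ = |T'| * W + |T| * W' := by rw [abs_mul, abs_mul, abs_of_nonneg hW0, abs_of_nonneg hW0']
      _ < 1 := by linarith
  have b4 : |(a * (i.1.1 / s'.A : ℕ) - a' * (j.1.1 / s.A : ℕ)) - (e * (i.1.1 / s'.A : ℕ) -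
      e' * (j.1.1 / s.A : ℕ))| < (1:ℤ) := by
    have : ((|(a * (i.1.1 / s'.A : ℕ) - a' * (j.1.1 / s.A : ℕ)) - (e * (i.1.1 / s'.A : ℕ) -
      e' * (j.1.1 / s.A : ℕ))| : ℤ) : ℝ) < ((1:ℤ) : ℝ) := by
      push_cast
      exact b3
    exact_mod_cast this
  have b5 := Int.abs_lt_one_iff.1 b4
  omega

/-- **exact at one common point: exact at all the common points** -/
theorem ex_all {s s' : NS} {t t' : IT} (h : QX X s t) (h' : QX X s' t')
    (hd1 : X.c.d1 * Kc X.S ≤ 1) {j i : X.c.Lam} (hj : j.1.1 ∈ t.items) (hi : i.1.1 ∈ t'.items)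
    {y y' : ℝ} {a a' e e' : ℤ} (h1 : Tth X s j y a) (h2 : Tth X s' i y a') (h3 : Tth X s j y' e)
    (h4 : Tth X s' i y' e') {ρ ρ' : ℝ}
    (hx : ((a : ℝ) + ρ) * (i.1.1 / s'.A : ℕ) = (a' + ρ') * (j.1.1 / s.A : ℕ)) :
    ((e : ℝ) + ρ) * (i.1.1 / s'.A : ℕ) = (e' + ρ') * (j.1.1 / s.A : ℕ) := by
  have k := sameDiff h h' hd1 hj hi h1 h2 h3 h4
  generalize i.1.1 / s'.A = V at k hx ⊢
  generalize j.1.1 / s.A = V' at k hx ⊢
  have k' : (a : ℝ) * V - a' * V' = e * V - e' * V' := by exact_mod_cast k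
  linarith

/-- the same with rational offsets -/
theorem ex_allQ {s s' : NS} {t t' : IT} (h : QX X s t) (h' : QX X s' t')
    (hd1 : X.c.d1 * Kc X.S ≤ 1) {j i : X.c.Lam} (hj : j.1.1 ∈ t.items) (hi : i.1.1 ∈ t'.items)
    {y y' : ℝ} {a a' e e' : ℤ} (h1 : Tth X s j y a) (h2 : Tth X s' i y a') (h3 : Tth X s j y' e)
    (h4 : Tth X s' i y' e') {ρ ρ' : ℚ}
    (hx : ((a : ℚ) + ρ) * (i.1.1 / s'.A : ℕ) = (a' + ρ') * (j.1.1 / s.A : ℕ)) :
    ((e : ℚ) + ρ) * (i.1.1 / s'.A : ℕ) = (e' + ρ') * (j.1.1 / s.A : ℕ) := by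
  have k := sameDiff h h' hd1 hj hi h1 h2 h3 h4
  generalize i.1.1 / s'.A = V at k hx ⊢
  generalize j.1.1 / s.A = V' at k hx ⊢
  have k' : (a : ℚ) * V - a' * V' = e * V - e' * V' := by exact_mod_cast k
  linarith

/-- **static relations** : exact centres at one common point of every pair -/
theorem exO_of_pt {s s' : NS} {t t' : IT} (h : QX X s t) (h' : QX X s' t')
    (hd1 : X.c.d1 * Kc X.S ≤ 1) {R : Finset (X.c.Lam × X.c.Lam)} {ρ ρ' : ℕ → ℚ}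
    (H : ∀ x ∈ R, x.1.1.1 ∈ t.items → x.2.1.1 ∈ t'.items → ∃ (y : ℝ) (a a' : ℤ),
      Tth X s x.1 y a ∧ Tth X s' x.2 y a' ∧
      ((a : ℚ) + ρ x.1.1.1) * (x.2.1.1 / s'.A : ℕ) = (a' + ρ' x.2.1.1) * (x.1.1.1 / s.A : ℕ)) :
    ExO X s s' t t' R ρ ρ' := by
  intro x hx i1 i2 y' e e' h3 h4
  obtain ⟨y, a, a', h1, h2, hx⟩ := H x hx i1 i2
  exact ex_allQ h h' hd1 i1 i2 h1 h2 h3 h4 hx

/-- the same, a common point of the pair is only asked if there is one -/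
theorem exO_of_pt' {s s' : NS} {t t' : IT} (h : QX X s t) (h' : QX X s' t')
    (hd1 : X.c.d1 * Kc X.S ≤ 1) {R : Finset (X.c.Lam × X.c.Lam)} {ρ ρ' : ℕ → ℚ}
    (H : ∀ x ∈ R, x.1.1.1 ∈ t.items → x.2.1.1 ∈ t'.items →
      (∃ (y : ℝ) (a a' : ℤ), Tth X s x.1 y a ∧ Tth X s' x.2 y a') → ∃ (y : ℝ) (a a' : ℤ),
      Tth X s x.1 y a ∧ Tth X s' x.2 y a' ∧
      ((a : ℚ) + ρ x.1.1.1) * (x.2.1.1 / s'.A : ℕ) = (a' + ρ' x.2.1.1) * (x.1.1.1 / s.A : ℕ)) :
    ExO X s s' t t' R ρ ρ' := by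
  intro x hx i1 i2 y' e e' h3 h4
  obtain ⟨y, a, a', h1, h2, hx⟩ := H x hx i1 i2 ⟨y', e, e', h3, h4⟩
  exact ex_allQ h h' hd1 i1 i2 h1 h2 h3 h4 hx

end Crest.Agent.R4P.JnN5
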