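import Mathlib.NumberTheory.DiophantineApproximation.Basic
import Mathlib.Data.Nat.Log
import Mathlib.Algebra.Order.Field.GeomSum
import Mathlib.Analysis.SpecificLimits.Basic
import Mathlib.Tactic

/-!
R4 (S0004) with powers, E3b (docs 1952), helper54: **the last-tie lemma**.

* `nd t` : distance to the nearest integer; `Best θ X q` : `q ≤ X` has the smallest `nd (q θ)` (and is the
  first one); `Best.cop`, `Best.dir` (Dirichlet), `Best.step`;
* `bq θ k` : the best denominator `≤ 2 ^ k`, `be θ k = |θ - round (q θ) / q|` its error;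
* `A1_sum` : `∑ 1/n ≤ 60 / N + 30 ε` over all `n ≥ N` with `‖n θ - Θ‖ ≤ ε n be θ (log₂ n)`, `0 < be`;
* `A2_sum` : `∑ 1/n ≤ ∑_k (4 η k + 12 / Q k)` over all `n` with `Q k ≤ bq θ k`, `‖n θ - Θ‖ ≤ η k`,
  `k = log₂ n`.
-/

set_option autoImplicit false

namespace Crest.Agent.R4P.LaT54

open Finset

/-- distance to the nearest integer -/
noncomputable def nd (t : ℝ) : ℝ := |t - round t|

lemma nd_nonneg (t : ℝ) : 0 ≤ nd t := abs_nonneg _

lemma nd_le (t : ℝ) (z : ℤ) : nd t ≤ |t - z| := round_le t z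

/-- `q` is the first best denominator `≤ X` -/
structure Best (θ : ℝ) (X q : ℕ) : Prop where
  pos : 1 ≤ q
  le : q ≤ X
  min : ∀ d, 1 ≤ d → d ≤ X → nd (q * θ) ≤ nd (d * θ)
  first : ∀ d, 1 ≤ d → d < q → nd (q * θ) < nd (d * θ)

lemma exists_best (θ : ℝ) {X : ℕ} (hX : 1 ≤ X) : ∃ q, Best θ X q := by
  classical
  have h0 : ∃ q, (1 ≤ q ∧ q ≤ X) ∧ ∀ d, 1 ≤ d → d ≤ X → nd (q * θ) ≤ nd (d * θ) := by
    obtain ⟨q, hq, h⟩ := Finset.exists_min_image (Finset.Icc 1 X) (fun d : ℕ => nd (d * θ))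
      ⟨1, Finset.mem_Icc.2 ⟨le_rfl, hX⟩⟩
    exact ⟨q, Finset.mem_Icc.1 hq, fun d h1 h2 => h d (Finset.mem_Icc.2 ⟨h1, h2⟩)⟩
  refine ⟨Nat.find h0, (Nat.find_spec h0).1.1, (Nat.find_spec h0).1.2, (Nat.find_spec h0).2,
    fun d h1 h2 => ?_⟩
  by_contra hc
  push Not at hc
  refine Nat.find_min h0 h2 ⟨⟨h1, h2.le.trans (Nat.find_spec h0).1.2⟩, fun e h3 h4 => ?_⟩
  exact hc.trans ((Nat.find_spec h0).2 e h3 h4)

namespace Best
variable {θ : ℝ} {X Y q q' : ℕ}

lemma uniq (h : Best θ X q) (h' : Best θ X q') : q = q' := by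
  rcases lt_trichotomy q q' with h1 | h1 | h1
  · exact absurd (h.min q' h'.pos h'.le) (not_le.2 (h'.first q h.pos h1))
  · exact h1
  · exact absurd (h'.min q h.pos h.le) (not_le.2 (h.first q' h'.pos h1))

/-- a new best denominator is larger than the old range -/
lemma step (h : Best θ X q) (h' : Best θ Y q') (hXY : X ≤ Y) : q' = q ∨ X < q' := by
  by_contra hc
  push Not at hc
  exact hc.1 (uniq (X := X) ⟨h'.pos, hc.2, fun d h1 h2 => h'.min d h1 (h2.trans hXY), h'.first⟩ h)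

/-- Dirichlet -/
lemma dir (h : Best θ X q) : nd (q * θ) ≤ 1 / (X + 1) := by
  obtain ⟨k, h1, h2, h3⟩ := Real.exists_nat_abs_mul_sub_round_le θ
    (show 0 < X from lt_of_lt_of_le h.pos h.le)
  exact (h.min k h1 h2).trans h3

/-- the numerator -/
lemma cop (h : Best θ X q) : IsCoprime (round ((q : ℝ) * θ)) (q : ℤ) := by
  rw [Int.isCoprime_iff_gcd_eq_one]
  by_contra hg
  set a : ℤ := round ((q : ℝ) * θ) with ha
  set g : ℕ := Int.gcd a q with hg'
  have hq0 : 0 < q := h.pos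
  have hg0 : 0 < g := Nat.pos_of_ne_zero fun h0 => by
    have := (Int.gcd_eq_zero_iff.1 h0).2
    omega
  have hg2 : 2 ≤ g := by omega
  obtain ⟨b, hb⟩ : (g : ℤ) ∣ a := Int.gcd_dvd_left ..
  obtain ⟨r, hr⟩ : (g : ℤ) ∣ (q : ℤ) := Int.gcd_dvd_right ..
  have hr0 : 0 < r := by
    by_contra hc
    push Not at hc
    have : (q : ℤ) ≤ 0 := by rw [hr]; exact mul_nonpos_of_nonneg_of_nonpos (by positivity) hc
    omega
  obtain ⟨s, rfl⟩ : ∃ s : ℕ, r = s := ⟨r.toNat, (Int.toNat_of_nonneg hr0.le).symm⟩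
  have hqs : q = g * s := by exact_mod_cast hr
  have hs1 : 1 ≤ s := by exact_mod_cast hr0
  have hsq : s < q := by rw [hqs]; nlinarith
  have hlt := h.first s hs1 hsq
  have h2 : nd ((s : ℝ) * θ) ≤ |(s : ℝ) * θ - b| := nd_le _ _
  have e : (q : ℝ) * θ - a = g * ((s : ℝ) * θ - b) := by
    rw [hb, hqs]; push_cast; ring
  have h3 : nd ((q : ℝ) * θ) = g * |(s : ℝ) * θ - b| := by
    unfold nd
    rw [← ha, e, abs_mul, Nat.abs_cast]
  have hg1 : (1 : ℝ) ≤ g := by exact_mod_cast hg0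
  have h4 : |(s : ℝ) * θ - b| ≤ g * |(s : ℝ) * θ - b| := by
    have := abs_nonneg ((s : ℝ) * θ - b)
    nlinarith
  linarith

end Best

/-! ### the dyadic best denominators -/

/-- the best denominator `≤ 2 ^ k` -/
noncomputable def bq (θ : ℝ) (k : ℕ) : ℕ := (exists_best θ (X := 2 ^ k) Nat.one_le_two_pow).choose

lemma bq_best (θ : ℝ) (k : ℕ) : Best θ (2 ^ k) (bq θ k) :=
  (exists_best θ (X := 2 ^ k) Nat.one_le_two_pow).choose_spec

/-- its error -/
noncomputable def be (θ : ℝ) (k : ℕ) : ℝ := |θ - round ((bq θ k : ℝ) * θ) / (bq θ k : ℝ)|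

lemma be_nonneg (θ : ℝ) (k : ℕ) : 0 ≤ be θ k := abs_nonneg _

lemma bq_pos (θ : ℝ) (k : ℕ) : (0 : ℝ) < bq θ k := by exact_mod_cast (bq_best θ k).pos

lemma bq_mul_be (θ : ℝ) (k : ℕ) : (bq θ k : ℝ) * be θ k = nd (bq θ k * θ) := by
  have h := bq_pos θ k
  unfold be nd
  rw [← abs_of_pos h, ← abs_mul, abs_of_pos h]
  congr 1
  field_simp

lemma be_le (θ : ℝ) (k : ℕ) : (bq θ k : ℝ) * be θ k * 2 ^ k ≤ 1 := by
  rw [bq_mul_be]
  have h := (bq_best θ k).dir
  push_cast at h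
  have h0 : (0 : ℝ) < 2 ^ k := by positivity
  calc nd (bq θ k * θ) * 2 ^ k ≤ 1 / (2 ^ k + 1) * 2 ^ k :=
        mul_le_mul_of_nonneg_right h h0.le
    _ ≤ 1 := by rw [one_div_mul_eq_div, div_le_one (by positivity)]; linarith

lemma bq_le (θ : ℝ) (k : ℕ) : bq θ k ≤ 2 ^ k := (bq_best θ k).le

lemma bq_step (θ : ℝ) {k l : ℕ} (h : k ≤ l) : bq θ l = bq θ k ∨ 2 ^ k < bq θ l :=
  (bq_best θ k).step (bq_best θ l) (Nat.pow_le_pow_right (by norm_num) h)

lemma be_congr {θ : ℝ} {k l : ℕ} (h : bq θ l = bq θ k) : be θ l = be θ k := by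
  unfold be
  rw [h]

/-! ### one residue class in a short interval -/

/-- sum over one residue class modulo `q` in an interval of relative length `3 ε` -/
lemma class_sum {S : Finset ℕ} {N : ℝ} {q : ℕ} {ε : ℝ} (hN : 0 < N) (hq : 0 < q) (hε : 0 ≤ ε)
    (h1 : ∀ n ∈ S, N ≤ n) (h2 : ∀ n ∈ S, ∀ n' ∈ S, (q : ℤ) ∣ (n : ℤ) - n')
    (h3 : ∀ n ∈ S, ∀ n' ∈ S, (n : ℝ) ≤ (1 + 3 * ε) * n') :
    ∑ n ∈ S, (1 : ℝ) / n ≤ 1 / N + 3 * ε / q := by
  classical
  have hq' : (0 : ℝ) < q := by exact_mod_cast hq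
  rcases S.eq_empty_or_nonempty with rfl | hne
  · rw [Finset.sum_empty]; positivity
  obtain ⟨m, hm, hmin⟩ := Finset.exists_min_image S (fun n => n) hne
  have hm0 : 0 < (m : ℝ) := hN.trans_le (h1 m hm)
  -- the number of elements
  have hcard : (S.card : ℝ) ≤ 1 + 3 * ε * m / q := by
    have hinj : S.card ≤ (Finset.range (⌊3 * ε * m / q⌋₊ + 1)).card := by
      refine Finset.card_le_card_of_injOn (fun n => (n - m) / q) (fun n hn => ?_)
        (fun n hn n' hn' e => ?_)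
      · rw [Finset.coe_range, Set.mem_Iio, Nat.lt_succ_iff]
        refine Nat.le_floor ?_
        have hle : m ≤ n := hmin n hn
        have h4 := h3 n hn m hm
        calc (((n - m) / q : ℕ) : ℝ) ≤ ((n - m : ℕ) : ℝ) / q := Nat.cast_div_le
          _ ≤ 3 * ε * m / q := by
              refine div_le_div_of_nonneg_right ?_ hq'.le
              rw [Nat.cast_sub hle]
              linarith
      · have hle : m ≤ n := hmin n hn
        have hle' : m ≤ n' := hmin n' hn'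
        have d1 : q ∣ n - m := by
          have := h2 n hn m hm
          zify [hle]
          exact this
        have d2 : q ∣ n' - m := by
          have := h2 n' hn' m hm
          zify [hle']
          exact this
        have e' : (n - m) / q = (n' - m) / q := e
        have e1 := Nat.div_mul_cancel d1
        have e2 := Nat.div_mul_cancel d2
        rw [e'] at e1
        omega
    rw [Finset.card_range] at hinj
    calc (S.card : ℝ) ≤ ((⌊3 * ε * m / q⌋₊ + 1 : ℕ) : ℝ) := by exact_mod_cast hinj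
      _ ≤ 1 + 3 * ε * m / q := by
          push_cast
          have := Nat.floor_le (show 0 ≤ 3 * ε * m / q by positivity)
          linarith
  calc ∑ n ∈ S, (1 : ℝ) / n ≤ ∑ _n ∈ S, (1 : ℝ) / m := by
        refine Finset.sum_le_sum fun n hn => one_div_le_one_div_of_le hm0 ?_
        exact_mod_cast hmin n hn
    _ = S.card / m := by rw [Finset.sum_const, nsmul_eq_mul]; ring
    _ ≤ (1 + 3 * ε * m / q) / m := div_le_div_of_nonneg_right hcard hm0.le
    _ = 1 / m + 3 * ε / q := by field_simp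
    _ ≤ 1 / N + 3 * ε / q := by
        have := one_div_le_one_div_of_le hN (h1 m hm)
        linarith

/-- the class is determined by the integer `n a - q m` -/
lemma dvd_of_cop {a : ℤ} {q : ℕ} (hc : IsCoprime a (q : ℤ)) {n n' : ℕ} {m m' : ℤ}
    (h : (n : ℤ) * a - q * m = n' * a - q * m') : (q : ℤ) ∣ (n : ℤ) - n' := by
  have h1 : (q : ℤ) ∣ ((n : ℤ) - n') * a := ⟨m - m', by linarith⟩
  exact hc.symm.dvd_of_dvd_mul_right h1

/-- **one denominator**: `θ = a / q + δ`, `δ ≠ 0`, `q n |δ| ≤ 2` -/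
lemma one_den {S : Finset ℕ} {N : ℝ} {q : ℕ} {a : ℤ} {ε θ Θ δ : ℝ} (hN : 0 < N) (hq : 0 < q)
    (hc : IsCoprime a (q : ℤ)) (hε : 0 ≤ ε) (hε1 : ε ≤ 1 / 3) (hθ : θ = a / q + δ) (hδ : δ ≠ 0)
    (h1 : ∀ n ∈ S, N ≤ n) (h2 : ∀ n ∈ S, (q : ℝ) * (n * |δ|) ≤ 2)
    (h3 : ∀ n ∈ S, ∃ m : ℤ, |(n : ℝ) * θ - Θ - m| ≤ ε * (n * |δ|)) :
    ∑ n ∈ S, (1 : ℝ) / n ≤ 8 * (1 / N + 3 * ε / q) := by
  classical
  have hq' : (0 : ℝ) < q := by exact_mod_cast hq
  have hδ' : 0 < |δ| := abs_pos.2 hδ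
  choose! m hm using h3
  -- the integer of the class
  set c : ℕ → ℤ := fun n => (n : ℤ) * a - q * m n - ⌊(q : ℝ) * Θ⌋ with hcdef
  have ec : ∀ n ∈ S, ((n : ℤ) * a - q * m n : ℤ) = q * Θ - q * (n * δ) +
      q * ((n : ℝ) * θ - Θ - m n) := by
    intro n _
    rw [hθ]
    push_cast
    field_simp
    ring
  have hcI : ∀ n ∈ S, c n ∈ Finset.Icc (-3 : ℤ) 4 := by
    intro n hn
    have e := ec n hn
    have b1 : |(q : ℝ) * (n * δ)| ≤ 2 := by
      rw [abs_mul, abs_mul, Nat.abs_cast, Nat.abs_cast]; exact h2 n hn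
    have b2 : |(q : ℝ) * ((n : ℝ) * θ - Θ - m n)| ≤ 2 / 3 := by
      rw [abs_mul, Nat.abs_cast]
      have h4 := mul_le_mul_of_nonneg_left (hm n hn) hq'.le
      have h5 := h2 n hn
      have h6 : 0 ≤ (q : ℝ) * (n * |δ|) := by positivity
      nlinarith
    have f1 := Int.floor_le ((q : ℝ) * Θ)
    have f2 := Int.lt_floor_add_one ((q : ℝ) * Θ)
    have e2 : ((c n : ℤ) : ℝ) = ((n : ℤ) * a - q * m n : ℤ) - (⌊(q : ℝ) * Θ⌋ : ℝ) := by
      show (((n : ℤ) * a - q * m n - ⌊(q : ℝ) * Θ⌋ : ℤ) : ℝ) = _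
      push_cast; ring
    rw [e] at e2
    have a1 := abs_le.1 b1
    have a2 := abs_le.1 b2
    have l1 : (-3 : ℝ) < c n := by rw [e2]; linarith [a1.1, a1.2, a2.1, a2.2]
    have l2 : ((c n : ℤ) : ℝ) < 5 := by rw [e2]; linarith [a1.1, a1.2, a2.1, a2.2]
    have l1' : (-3 : ℤ) < c n := by exact_mod_cast l1
    have l2' : c n < 5 := by exact_mod_cast l2
    rw [Finset.mem_Icc]
    omega
  -- fibres
  have hfib : ∑ n ∈ S, (1 : ℝ) / n = ∑ z ∈ Finset.Icc (-3 : ℤ) 4, ∑ n ∈ S.filter (fun n => c n = z),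
      (1 : ℝ) / n := (Finset.sum_fiberwise_of_maps_to hcI _).symm
  rw [hfib]
  have hone : ∀ z ∈ Finset.Icc (-3 : ℤ) 4, ∑ n ∈ S.filter (fun n => c n = z), (1 : ℝ) / n ≤
      1 / N + 3 * ε / q := by
    intro z _
    refine class_sum hN hq hε (fun n hn => h1 n (Finset.mem_filter.1 hn).1) ?_ ?_
    · intro n hn n' hn'
      have z1 := (Finset.mem_filter.1 hn).2
      have z2 := (Finset.mem_filter.1 hn').2
      have e : c n = c n' := z1.trans z2.symm
      refine dvd_of_cop hc (m := m n) (m' := m n') ?_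
      have e' : (n : ℤ) * a - q * m n - ⌊(q : ℝ) * Θ⌋ = n' * a - q * m n' - ⌊(q : ℝ) * Θ⌋ := e
      linarith
    · intro n hn n' hn'
      have s1 := (Finset.mem_filter.1 hn).1
      have s2 := (Finset.mem_filter.1 hn').1
      have e : c n = c n' := (Finset.mem_filter.1 hn).2.trans (Finset.mem_filter.1 hn').2.symm
      have e' : (((n : ℤ) * a - q * m n : ℤ) : ℝ) = ((n' : ℤ) * a - q * m n' : ℤ) := by
        have : (n : ℤ) * a - q * m n = n' * a - q * m n' := by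
          have e'' : (n : ℤ) * a - q * m n - ⌊(q : ℝ) * Θ⌋ =
            n' * a - q * m n' - ⌊(q : ℝ) * Θ⌋ := e
          linarith
        exact_mod_cast this
      rw [ec n s1, ec n' s2] at e'
      -- `(n - n') δ = err - err'`
      have e3 : ((n : ℝ) - n') * δ = ((n : ℝ) * θ - Θ - m n) - ((n' : ℝ) * θ - Θ - m n') := by
        have : (q : ℝ) * (((n : ℝ) - n') * δ) =
            q * (((n : ℝ) * θ - Θ - m n) - ((n' : ℝ) * θ - Θ - m n')) := by linarith
        exact mul_left_cancel₀ hq'.ne' this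
      have e4 : ((n : ℝ) - n') * |δ| ≤ ε * (n * |δ|) + ε * (n' * |δ|) := by
        calc ((n : ℝ) - n') * |δ| ≤ |((n : ℝ) - n')| * |δ| :=
              mul_le_mul_of_nonneg_right (le_abs_self _) hδ'.le
          _ = |((n : ℝ) - n') * δ| := (abs_mul _ _).symm
          _ ≤ _ := by
              rw [e3]
              exact (abs_sub _ _).trans (add_le_add (hm n s1) (hm n' s2))
      have e5 : (n : ℝ) - n' ≤ ε * n + ε * n' := by
        have : ((n : ℝ) - n') * |δ| ≤ (ε * n + ε * n') * |δ| := by linarith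
        exact le_of_mul_le_mul_right this hδ'
      have n0 : (0 : ℝ) ≤ n' := Nat.cast_nonneg _
      -- `(1 - ε) n ≤ (1 + ε) n'`, `1 + ε ≤ (1 + 3 ε) (1 - ε)`
      have e6 : (1 - ε) * n ≤ (1 + ε) * n' := by linarith
      have e7 : (1 + ε) * (n' : ℝ) ≤ (1 - ε) * ((1 + 3 * ε) * n') := by
        nlinarith [mul_nonneg (mul_nonneg hε n0) (sub_nonneg.2 hε1)]
      exact le_of_mul_le_mul_left (e6.trans e7) (by linarith)
  calc _ ≤ ∑ _z ∈ Finset.Icc (-3 : ℤ) 4, (1 / N + 3 * ε / q) := Finset.sum_le_sum hone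
    _ = 8 * (1 / N + 3 * ε / q) := by
        have h8 : (Finset.Icc (-3 : ℤ) 4).card = 8 := by decide
        rw [Finset.sum_const, nsmul_eq_mul, h8]
        norm_num

/-! ### one dyadic block -/

/-- **one block**: `S ⊂ [X, 2X)`, `q ≤ X`, `q X |δ| ≤ 1`, `‖n θ - Θ‖ ≤ η` -/
lemma one_block {S : Finset ℕ} {X q : ℕ} {a : ℤ} {η θ Θ δ : ℝ} (hq : 0 < q) (hqX : q ≤ X)
    (hc : IsCoprime a (q : ℤ)) (hη : 0 ≤ η) (hθ : θ = a / q + δ)
    (h1 : ∀ n ∈ S, X ≤ n ∧ n < 2 * X) (h2 : (q : ℝ) * |δ| * X ≤ 1)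
    (h3 : ∀ n ∈ S, ∃ m : ℤ, |(n : ℝ) * θ - Θ - m| ≤ η) :
    ∑ n ∈ S, (1 : ℝ) / n ≤ 4 * η + 14 / q := by
  classical
  have hq' : (0 : ℝ) < q := by exact_mod_cast hq
  have hX : 0 < X := lt_of_lt_of_le hq hqX
  have hX' : (0 : ℝ) < X := by exact_mod_cast hX
  choose! m hm using h3
  set c : ℕ → ℤ := fun n => (n : ℤ) * a - q * m n with hcdef
  have ec : ∀ n, ((c n : ℤ) : ℝ) = q * Θ - q * (n * δ) + q * ((n : ℝ) * θ - Θ - m n) := by
    intro n
    show (((n : ℤ) * a - q * m n : ℤ) : ℝ) = _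
    rw [hθ]
    push_cast
    field_simp
    ring
  set L : ℤ := ⌈(q : ℝ) * Θ - (q * η + 2)⌉ with hL
  set K : ℕ := ⌊2 * ((q : ℝ) * η + 2)⌋₊ with hK
  have hcI : ∀ n ∈ S, c n ∈ Finset.Icc L (L + K) := by
    intro n hn
    have b1 : |(q : ℝ) * (n * δ)| ≤ 2 := by
      rw [abs_mul, abs_mul, Nat.abs_cast, Nat.abs_cast]
      have hn2 : (n : ℝ) ≤ 2 * X := by exact_mod_cast (h1 n hn).2.le
      have h0 : 0 ≤ (q : ℝ) * |δ| := by positivity
      nlinarith [mul_le_mul_of_nonneg_left hn2 h0]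
    have b2 : |(q : ℝ) * ((n : ℝ) * θ - Θ - m n)| ≤ q * η := by
      rw [abs_mul, Nat.abs_cast]
      exact mul_le_mul_of_nonneg_left (hm n hn) hq'.le
    have a1 := abs_le.1 b1
    have a2 := abs_le.1 b2
    have e := ec n
    have l1 : (q : ℝ) * Θ - (q * η + 2) ≤ c n := by rw [e]; linarith [a1.1, a1.2, a2.1, a2.2]
    have l2 : ((c n : ℤ) : ℝ) ≤ (q : ℝ) * Θ + (q * η + 2) := by
      rw [e]; linarith [a1.1, a1.2, a2.1, a2.2]
    rw [Finset.mem_Icc]
    refine ⟨Int.ceil_le.2 l1, ?_⟩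
    have l3 : ((c n : ℤ) : ℝ) - L ≤ 2 * ((q : ℝ) * η + 2) := by
      have := Int.le_ceil ((q : ℝ) * Θ - (q * η + 2))
      linarith
    have l4 : c n - L ≤ K := by
      rw [hK]
      have h0 : 0 ≤ 2 * ((q : ℝ) * η + 2) := by positivity
      have h5 : (c n - L : ℤ) ≤ ⌊2 * ((q : ℝ) * η + 2)⌋ := by
        refine Int.le_floor.2 ?_
        push_cast
        exact l3
      rwa [← Int.natCast_floor_eq_floor h0] at h5
    linarith
  have hfib : ∑ n ∈ S, (1 : ℝ) / n = ∑ z ∈ Finset.Icc L (L + K),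
      ∑ n ∈ S.filter (fun n => c n = z), (1 : ℝ) / n :=
    (Finset.sum_fiberwise_of_maps_to hcI _).symm
  rw [hfib]
  have hone : ∀ z ∈ Finset.Icc L (L + K), ∑ n ∈ S.filter (fun n => c n = z), (1 : ℝ) / n ≤
      2 / q := by
    intro z _
    -- the number of elements
    have hcard : ((S.filter (fun n => c n = z)).card : ℝ) ≤ 2 * X / q := by
      have hinj : (S.filter (fun n => c n = z)).card ≤ (Finset.range ((X - 1) / q + 1)).card := by
        rcases (S.filter (fun n => c n = z)).eq_empty_or_nonempty with h0 | hne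
        · rw [h0]; simp
        obtain ⟨n₀, hn₀, hmin⟩ := Finset.exists_min_image _ (fun n => n) hne
        refine Finset.card_le_card_of_injOn (fun n => (n - n₀) / q) (fun n hn => ?_)
          (fun n hn n' hn' e => ?_)
        · rw [Finset.coe_range, Set.mem_Iio, Nat.lt_succ_iff]
          refine Nat.div_le_div_right ?_
          have k1 := h1 n (Finset.mem_filter.1 hn).1
          have k2 := h1 n₀ (Finset.mem_filter.1 hn₀).1
          omega
        · have hle : n₀ ≤ n := hmin n hn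
          have hle' : n₀ ≤ n' := hmin n' hn'
          have dd : ∀ l ∈ S.filter (fun n => c n = z), n₀ ≤ l → q ∣ l - n₀ := by
            intro l hl hle
            have e1 : c l = c n₀ := (Finset.mem_filter.1 hl).2.trans
              (Finset.mem_filter.1 hn₀).2.symm
            have := dvd_of_cop hc (m := m l) (m' := m n₀) e1
            zify [hle]
            exact this
          have e' : (n - n₀) / q = (n' - n₀) / q := e
          have e1 := Nat.div_mul_cancel (dd n hn hle)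
          have e2 := Nat.div_mul_cancel (dd n' hn' hle')
          rw [e'] at e1
          omega
      rw [Finset.card_range] at hinj
      have h5 : (((X - 1) / q + 1 : ℕ) : ℝ) ≤ 2 * X / q := by
        have h6 : (((X - 1) / q : ℕ) : ℝ) ≤ (X : ℝ) / q :=
          (Nat.cast_div_le).trans (div_le_div_of_nonneg_right (by
            exact_mod_cast Nat.sub_le X 1) hq'.le)
        have h7 : (1 : ℝ) ≤ X / q := by
          rw [le_div_iff₀ hq', one_mul]
          exact_mod_cast hqX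
        push_cast
        calc (((X - 1) / q : ℕ) : ℝ) + 1 ≤ X / q + X / q := add_le_add h6 h7
          _ = 2 * X / q := by ring
      exact le_trans (by exact_mod_cast hinj) h5
    calc ∑ n ∈ S.filter (fun n => c n = z), (1 : ℝ) / n
        ≤ ∑ _n ∈ S.filter (fun n => c n = z), (1 : ℝ) / X := by
          refine Finset.sum_le_sum fun n hn => one_div_le_one_div_of_le hX' ?_
          exact_mod_cast (h1 n (Finset.mem_filter.1 hn).1).1
      _ = (S.filter (fun n => c n = z)).card / X := by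
          rw [Finset.sum_const, nsmul_eq_mul]; ring
      _ ≤ (2 * X / q) / X := div_le_div_of_nonneg_right hcard hX'.le
      _ = 2 / q := by field_simp
  calc _ ≤ ∑ _z ∈ Finset.Icc L (L + K), (2 / q : ℝ) := Finset.sum_le_sum hone
    _ = (K + 1) * (2 / q) := by
        rw [Finset.sum_const, nsmul_eq_mul, Int.card_Icc]
        congr 1
        have : (L + K + 1 - L).toNat = K + 1 := by
          have : L + K + 1 - L = ((K + 1 : ℕ) : ℤ) := by push_cast; ring
          rw [this, Int.toNat_natCast]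
        rw [this]
        push_cast
        ring
    _ ≤ (2 * ((q : ℝ) * η + 2) + 1) * (2 / q) := by
        refine mul_le_mul_of_nonneg_right ?_ (by positivity)
        have := Nat.floor_le (show 0 ≤ 2 * ((q : ℝ) * η + 2) by positivity)
        linarith
    _ = 4 * η + 10 / q := by field_simp; ring
    _ ≤ 4 * η + 14 / q := by
        have : 10 / (q : ℝ) ≤ 14 / q := div_le_div_of_nonneg_right (by norm_num) hq'.le
        linarith

/-! ### all blocks -/

lemma geo_le {T : Finset ℕ} {k₀ : ℕ} (h : ∀ k ∈ T, k₀ < k) :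
    ∑ k ∈ T, (1 / 2 : ℝ) ^ k ≤ (1 / 2) ^ k₀ := by
  obtain ⟨M, hM⟩ : ∃ M, ∀ k ∈ T, k < k₀ + 1 + M :=
    ⟨T.sup id + 1, fun k hk => by
      have : k ≤ T.sup id := Finset.le_sup (f := id) hk
      omega⟩
  have hsub : T ⊆ Finset.Ico (k₀ + 1) (k₀ + 1 + M) := fun k hk =>
    Finset.mem_Ico.2 ⟨h k hk, hM k hk⟩
  refine (Finset.sum_le_sum_of_subset_of_nonneg hsub fun _ _ _ => by positivity).trans ?_
  rw [Finset.sum_Ico_eq_sum_range, Nat.add_sub_cancel_left]
  have e : ∀ i ∈ Finset.range M, (1 / 2 : ℝ) ^ (k₀ + 1 + i) =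
      (1 / 2) ^ (k₀ + 1) * (1 / 2) ^ i := fun i _ => pow_add _ _ _
  rw [Finset.sum_congr rfl e, ← Finset.mul_sum]
  have h2 := sum_geometric_two_le M
  calc (1 / 2 : ℝ) ^ (k₀ + 1) * ∑ i ∈ Finset.range M, (1 / 2 : ℝ) ^ i
      ≤ (1 / 2) ^ (k₀ + 1) * 2 := mul_le_mul_of_nonneg_left h2 (by positivity)
    _ = (1 / 2) ^ k₀ := by rw [pow_succ]; ring

/-- **the last-tie lemma, part 1** : `n` is close to `Θ / θ` relative to the error of the best
denominator -/
theorem A1_sum {F : Finset ℕ} {N ε θ Θ : ℝ} (hN : 1 ≤ N) (hε : 0 ≤ ε) (hε1 : ε ≤ 1 / 3)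
    (h1 : ∀ n ∈ F, N ≤ n)
    (h2 : ∀ n ∈ F, 0 < be θ (Nat.log 2 n) ∧
      ∃ m : ℤ, |(n : ℝ) * θ - Θ - m| ≤ ε * (n * be θ (Nat.log 2 n))) :
    ∑ n ∈ F, (1 : ℝ) / n ≤ 56 / N + 24 * ε := by
  classical
  have hN0 : 0 < N := by linarith
  set k₀ : ℕ := Nat.log 2 ⌈N⌉₊ with hk₀
  have hlog : ∀ n ∈ F, k₀ ≤ Nat.log 2 n := fun n hn =>
    Nat.log_mono_right (Nat.ceil_le.2 (h1 n hn))
  have hpk : (1 / 2 : ℝ) ^ k₀ ≤ 2 / N := by
    have h3 : ⌈N⌉₊ < 2 ^ (k₀ + 1) := Nat.lt_pow_succ_log_self (by norm_num) _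
    have h4 : N < 2 ^ (k₀ + 1) := lt_of_le_of_lt (Nat.le_ceil N) (by exact_mod_cast h3)
    rw [one_div, inv_pow, inv_eq_one_div, div_le_div_iff₀ (by positivity) hN0, one_mul]
    rw [pow_succ] at h4
    linarith
  -- the first block of a denominator
  have hex : ∀ k, ∃ l, k₀ ≤ l ∧ bq θ l = bq θ (max k k₀) := fun k => ⟨max k k₀, le_max_right _ _, rfl⟩
  set ν : ℕ → ℕ := fun k => Nat.find (hex k) with hν
  have ν1 : ∀ k, k₀ ≤ ν k := fun k => (Nat.find_spec (hex k)).1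
  have ν2 : ∀ k, k₀ ≤ k → bq θ (ν k) = bq θ k := fun k hk =>
    (Nat.find_spec (hex k)).2.trans (congrArg (bq θ) (max_eq_left hk))
  have ν3 : ∀ k, k₀ ≤ k → ν k ≤ k := fun k hk =>
    Nat.find_min' (hex k) ⟨hk, (congrArg (bq θ) (max_eq_left hk)).symm⟩
  have ν4 : ∀ k, k₀ ≤ k → k₀ < ν k → 2 ^ (ν k - 1) < bq θ (ν k) := fun k hk hlt => by
    have hle : ν k - 1 ≤ ν k := Nat.sub_le _ _
    rcases bq_step θ hle with h3 | h3
    · exfalso
      have h4 : ν k - 1 < ν k := by omega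
      exact Nat.find_min (hex k) h4 ⟨by omega,
        (h3.symm.trans (ν2 k hk)).trans (congrArg (bq θ) (max_eq_left hk)).symm⟩
    · exact h3
  set T : Finset ℕ := F.image fun n => ν (Nat.log 2 n) with hT
  have hfib : ∑ n ∈ F, (1 : ℝ) / n = ∑ l ∈ T, ∑ n ∈ F.filter (fun n => ν (Nat.log 2 n) = l),
      (1 : ℝ) / n :=
    (Finset.sum_fiberwise_of_maps_to (fun n hn => Finset.mem_image_of_mem _ hn) _).symm
  -- one denominator
  have hone : ∀ l ∈ T, ∑ n ∈ F.filter (fun n => ν (Nat.log 2 n) = l), (1 : ℝ) / n ≤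
      8 * (1 / max N (2 ^ l) + 3 * ε / bq θ l) := by
    intro l hl
    obtain ⟨n₀, hn₀, el⟩ := Finset.mem_image.1 hl
    have e0 : bq θ l = bq θ (Nat.log 2 n₀) := by rw [← el]; exact ν2 _ (hlog n₀ hn₀)
    set δ : ℝ := θ - round ((bq θ l : ℝ) * θ) / (bq θ l : ℝ) with hδ
    have hbe : |δ| = be θ l := rfl
    have key : ∀ n ∈ F.filter (fun n => ν (Nat.log 2 n) = l), be θ (Nat.log 2 n) = |δ| := by
      intro n hn
      obtain ⟨hnF, hnl⟩ := Finset.mem_filter.1 hn
      rw [hbe]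
      refine be_congr ?_
      rw [← hnl]
      exact (ν2 _ (hlog n hnF)).symm
    refine one_den (θ := θ) (Θ := Θ) (δ := δ) (a := round ((bq θ l : ℝ) * θ))
      (lt_of_lt_of_le hN0 (le_max_left _ _)) (bq_best θ l).pos (bq_best θ l).cop hε hε1
      (by rw [hδ]; ring) ?_ ?_ ?_ ?_
    · have h3 := (h2 n₀ hn₀).1
      rw [← be_congr e0, ← hbe] at h3
      exact abs_pos.1 h3
    · intro n hn
      obtain ⟨hnF, hnl⟩ := Finset.mem_filter.1 hn
      refine max_le (h1 n hnF) ?_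
      have h3 : l ≤ Nat.log 2 n := by rw [← hnl]; exact ν3 _ (hlog n hnF)
      have hn0 : n ≠ 0 := by
        rintro rfl
        have := h1 0 hnF
        push_cast at this
        linarith
      have h4 : 2 ^ l ≤ n := (Nat.pow_le_pow_right (by norm_num) h3).trans (Nat.pow_log_le_self 2 hn0)
      exact_mod_cast h4
    · intro n hn
      obtain ⟨hnF, hnl⟩ := Finset.mem_filter.1 hn
      have h3 : (n : ℝ) ≤ 2 * 2 ^ Nat.log 2 n := by
        have := Nat.lt_pow_succ_log_self (b := 2) (by norm_num) n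
        rw [pow_succ] at this
        have h4 : (n : ℝ) < 2 ^ Nat.log 2 n * 2 := by exact_mod_cast this
        linarith
      have h4 := be_le θ (Nat.log 2 n)
      have e1 : bq θ (Nat.log 2 n) = bq θ l := by rw [← hnl]; exact (ν2 _ (hlog n hnF)).symm
      rw [e1, key n hn] at h4
      have h0 : 0 ≤ (bq θ l : ℝ) * |δ| := by positivity
      calc (bq θ l : ℝ) * (n * |δ|) = (bq θ l * |δ|) * n := by ring
        _ ≤ (bq θ l * |δ|) * (2 * 2 ^ Nat.log 2 n) := mul_le_mul_of_nonneg_left h3 h0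
        _ = 2 * (bq θ l * |δ| * 2 ^ Nat.log 2 n) := by ring
        _ ≤ 2 * 1 := by linarith
        _ = 2 := by ring
    · intro n hn
      obtain ⟨m, hm⟩ := (h2 n (Finset.mem_filter.1 hn).1).2
      rw [key n hn] at hm
      exact ⟨m, hm⟩
  -- the values
  have hval : ∀ l ∈ T, 8 * (1 / max N (2 ^ l) + 3 * ε / bq θ l) ≤
      (if l = k₀ then 8 / N + 24 * ε else 0) + (if l = k₀ then 0 else 24 * (1 / 2 : ℝ) ^ l) := by
    intro l hl
    have hq := bq_pos θ l
    by_cases e : l = k₀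
    · rw [if_pos e, if_pos e, add_zero]
      have h3 : 1 / max N (2 ^ l) ≤ 1 / N := one_div_le_one_div_of_le hN0 (le_max_left _ _)
      have h4 : 3 * ε / bq θ l ≤ 3 * ε := by
        rw [div_le_iff₀ hq]
        have : (1 : ℝ) ≤ bq θ l := by exact_mod_cast (bq_best θ l).pos
        nlinarith
      calc 8 * (1 / max N (2 ^ l) + 3 * ε / bq θ l) ≤ 8 * (1 / N + 3 * ε) := by linarith
        _ = 8 / N + 24 * ε := by ring
    · rw [if_neg e, if_neg e, zero_add]
      obtain ⟨n₀, hn₀, el⟩ := Finset.mem_image.1 hl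
      have hlk : k₀ < l := by
        have := ν1 (Nat.log 2 n₀)
        rw [el] at this
        omega
      have h5 : 2 ^ (l - 1) < bq θ l := by
        have := ν4 _ (hlog n₀ hn₀) (by rw [el]; exact hlk)
        rwa [el] at this
      have h6 : (2 : ℝ) ^ l / 2 ≤ bq θ l := by
        have h7 : ((2 : ℝ) ^ (l - 1)) ≤ bq θ l := by exact_mod_cast h5.le
        have e8 : (2 : ℝ) ^ l = 2 ^ (l - 1) * 2 := by
          rw [← pow_succ]
          congr 1
          omega
        rw [e8]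
        linarith
      have p0 : (0 : ℝ) < 2 ^ l := by positivity
      have h3 : 1 / max N (2 ^ l) ≤ 1 / 2 ^ l := one_div_le_one_div_of_le p0 (le_max_right _ _)
      have h4 : 3 * ε / bq θ l ≤ 2 / 2 ^ l := by
        calc 3 * ε / bq θ l ≤ 3 * ε / ((2 : ℝ) ^ l / 2) :=
              div_le_div_of_nonneg_left (by positivity) (by positivity) h6
          _ = (6 * ε) / 2 ^ l := by field_simp; ring
          _ ≤ 2 / 2 ^ l := div_le_div_of_nonneg_right (by linarith) p0.le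
      have e9 : (1 / 2 : ℝ) ^ l = 1 / 2 ^ l := by rw [one_div, inv_pow, one_div]
      rw [e9]
      calc 8 * (1 / max N (2 ^ l) + 3 * ε / bq θ l) ≤ 8 * (1 / 2 ^ l + 2 / 2 ^ l) := by linarith
        _ = 24 * (1 / 2 ^ l) := by ring
  rw [hfib]
  calc _ ≤ ∑ l ∈ T, 8 * (1 / max N (2 ^ l) + 3 * ε / bq θ l) := Finset.sum_le_sum hone
    _ ≤ ∑ l ∈ T, ((if l = k₀ then 8 / N + 24 * ε else 0) +
        (if l = k₀ then 0 else 24 * (1 / 2 : ℝ) ^ l)) := Finset.sum_le_sum hval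
    _ = (∑ l ∈ T, if l = k₀ then 8 / N + 24 * ε else 0) +
        ∑ l ∈ T, (if l = k₀ then 0 else 24 * (1 / 2 : ℝ) ^ l) := Finset.sum_add_distrib
    _ ≤ (8 / N + 24 * ε) + 24 * (1 / 2 : ℝ) ^ k₀ := by
        refine add_le_add ?_ ?_
        · rw [Finset.sum_ite_eq']
          split_ifs
          · exact le_rfl
          · positivity
        · have e1 : ∑ l ∈ T, (if l = k₀ then 0 else 24 * (1 / 2 : ℝ) ^ l) =
              24 * ∑ l ∈ T.filter (fun l => ¬ l = k₀), (1 / 2 : ℝ) ^ l := by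
            rw [Finset.mul_sum, Finset.sum_filter]
            refine Finset.sum_congr rfl fun l _ => ?_
            by_cases e : l = k₀ <;> simp [e]
          rw [e1]
          refine mul_le_mul_of_nonneg_left (geo_le fun l hl => ?_) (by norm_num)
          obtain ⟨hl, hne⟩ := Finset.mem_filter.1 hl
          obtain ⟨n₀, hn₀, el⟩ := Finset.mem_image.1 hl
          have := ν1 (Nat.log 2 n₀)
          rw [el] at this
          omega
    _ ≤ (8 / N + 24 * ε) + 24 * (2 / N) := by linarith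
    _ = 56 / N + 24 * ε := by ring

/-- **the last-tie lemma, part 2** : the best denominator is large -/
theorem A2_sum {F T : Finset ℕ} {θ Θ : ℝ} {η Q : ℕ → ℝ} (hη : ∀ k ∈ T, 0 ≤ η k)
    (hQ : ∀ k ∈ T, 0 < Q k) (h0 : ∀ n ∈ F, n ≠ 0) (hT : ∀ n ∈ F, Nat.log 2 n ∈ T)
    (h1 : ∀ n ∈ F, Q (Nat.log 2 n) ≤ bq θ (Nat.log 2 n))
    (h2 : ∀ n ∈ F, ∃ m : ℤ, |(n : ℝ) * θ - Θ - m| ≤ η (Nat.log 2 n)) :
    ∑ n ∈ F, (1 : ℝ) / n ≤ ∑ k ∈ T, (4 * η k + 14 / Q k) := by
  classical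
  have hfib : ∑ n ∈ F, (1 : ℝ) / n = ∑ k ∈ T, ∑ n ∈ F.filter (fun n => Nat.log 2 n = k),
      (1 : ℝ) / n := (Finset.sum_fiberwise_of_maps_to hT _).symm
  rw [hfib]
  refine Finset.sum_le_sum fun k hk => ?_
  rcases (F.filter (fun n => Nat.log 2 n = k)).eq_empty_or_nonempty with he | ⟨n₀, hn₀⟩
  · rw [he, Finset.sum_empty]
    have := hη k hk
    have := hQ k hk
    positivity
  have hq0 : Q k ≤ bq θ k := by
    obtain ⟨h3, h4⟩ := Finset.mem_filter.1 hn₀
    have := h1 n₀ h3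
    rwa [h4] at this
  set δ : ℝ := θ - round ((bq θ k : ℝ) * θ) / (bq θ k : ℝ) with hδ
  have h3 := one_block (S := F.filter (fun n => Nat.log 2 n = k)) (X := 2 ^ k) (θ := θ) (Θ := Θ)
    (δ := δ) (η := η k) (a := round ((bq θ k : ℝ) * θ)) (bq_best θ k).pos (bq_le θ k)
    (bq_best θ k).cop (hη k hk) (by rw [hδ]; ring)
    (fun n hn => by
      obtain ⟨hnF, hnk⟩ := Finset.mem_filter.1 hn
      refine ⟨by rw [← hnk]; exact Nat.pow_log_le_self 2 (h0 n hnF), ?_⟩
      have := Nat.lt_pow_succ_log_self (b := 2) (by norm_num) n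
      rw [hnk, pow_succ] at this
      omega)
    (by
      have := be_le θ k
      push_cast
      exact this)
    (fun n hn => by
      obtain ⟨hnF, hnk⟩ := Finset.mem_filter.1 hn
      obtain ⟨m, hm⟩ := h2 n hnF
      rw [hnk] at hm
      exact ⟨m, hm⟩)
  refine h3.trans ?_
  have h4 : 14 / (bq θ k : ℝ) ≤ 14 / Q k := div_le_div_of_nonneg_left (by norm_num) (hQ k hk) hq0
  linarith

end Crest.Agent.R4P.LaT54
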