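import Crest.Agent.R4P.LocXc_25
import Crest.Agent.R4P.Fin_5

/-!
R4P (S0004), helper25, module D, group [X]: **the facts of a context used by `ctx_cross_X`**, `p0` large.

* `etaL_wpL` ; `ctx_HC` : `HC X Ch` and the node facts `QX X j₀ Ch`; `ctx_RHZ` : `RH` for `QZ X j₀ Q' b`.
-/

set_option autoImplicit false
set_option linter.unusedSectionVars false
set_option linter.unusedVariables false
open Finset

namespace Crest.Agent.R4P.LocX25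

open Crest.Agent.R4P.Skel189 Crest.Agent.R4P.ParF5 Crest.Agent.R4P.IxRange34 Crest.Agent.R4P.NumX34
open Crest.Agent.R4P.ShrW34 Crest.Agent.R4P.ShrG28 Crest.Agent.R4P.Data758
open Crest.Agent.R4P.LfDat734 (etaL etaL_pos)
open Crest.Agent.R4P.Bld532 (NS All NodeOk)
open Crest.Agent.R4P.Cnt588 Crest.Agent.R4P.Item758
open Crest.Agent.R4P.Step588 (CT TagOk)
open Crest.Agent.R4P.CrsFacts26 Crest.Agent.R4P.AsmX26
open Crest.Agent.R4P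

variable {N : Skel189.Num} {th : ℕ → (ℕ → ℝ) → Finset ℕ → ℕ → ℝ} {Ct C₀ : ℝ}
  {Sx : ℕ → (ℕ → ℝ) → Finset ℕ → Finset ℕ}

/-- width of the leaf cells -/
theorem etaL_wpL (h : NumOK N th Ct C₀ Sx) : ∃ p₁ : ℕ, ∀ p0 ≥ p₁, ∀ (γ : ℝ) (P₀ : ℕ)
    (X : Ctx N γ p0 P₀) (m : ℕ), etaL X.c.wpL m ≤ 1 := by
  obtain ⟨p₂, hL⟩ := h.lnum
  refine ⟨p₂ + 3, fun p0 hp0 γ P₀ X m => ?_⟩
  refine (hL.etaL_le (by omega) X.depL m).trans ?_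
  have hB := N.hB
  have hC1 := N.hC1
  have hc2 := N.hc2
  have h1 : 1 ≤ Real.log ((m + p0 : ℕ) : ℝ) := by
    rw [Real.le_log_iff_exp_le (by exact_mod_cast (by omega : 0 < m + p0))]
    have h3 : (3 : ℝ) ≤ ((m + p0 : ℕ) : ℝ) := by exact_mod_cast (by omega : 3 ≤ m + p0)
    linarith [Real.exp_one_lt_d9]
  exact Real.rpow_le_one_of_one_le_of_nonpos h1 (by linarith)

/-- **the facts of a context** -/
theorem ctx_HC (h : NumOK N th Ct C₀ Sx) : ∃ Ch : ℝ, 0 < Ch ∧ ∃ p₁ : ℕ, ∀ p0 ≥ p₁, RgTh th p0 →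
    ∀ (γ : ℝ) (P₀ : ℕ), 2 ≤ P₀ → ∀ X : Ctx N γ p0 P₀, Fin5.CF X →
      HC X Ch ∧ ∀ j₀ : X.c.Lam, All (QX X j₀ Ch) ⟨top X.S, 1, 1, 1⟩ X.c.t := by
  obtain ⟨Ch, hCh, a1, h1⟩ := ctx_QX N
  obtain ⟨a2, h2⟩ := XStop25.ctx_CSt N (c₀ := 1 / 2) (by norm_num) hCh.le
  obtain ⟨a3, h3⟩ := etaL_wpL h
  refine ⟨Ch, hCh, a1 + a2 + a3 + 3, fun p0 hp0 hth γ P₀ hP X hX => ⟨?_, fun j₀ => ?_⟩⟩
  · exact
      { cs := h2 p0 (by omega) γ P₀ X X.Y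
        p03 := by omega
        pp0 := rfl
        lam := fun p => lam0 h X p
        eta := fun p => etaL_le_one h X p
        dep := fun p hp => hdep h X (by omega) hp
        ix := ix h hth X X.Y }
  · exact h1 p0 (by omega) γ P₀ hP X hX.tag hX.d1 hX.dep (fun m => h3 p0 (by omega) γ P₀ X m) j₀

/-- **raw sides for `QZ`** -/
theorem ctx_RHZ (N : Skel189.Num) : ∃ p₁ : ℕ, ∀ p0 ≥ p₁, ∀ (γ : ℝ) (P₀ : ℕ) (X : Ctx N γ p0 P₀)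
    (j₀ : X.c.Lam) (Ch : ℝ) (Q' : NS → IT → Prop), (∀ u τ, Q' u τ → QX X j₀ Ch u τ) → ∀ b : ℕ,
    RawB25.RH (X.c.D.par X.Y) X.c.rr X.S' (QZ X j₀ Q' b) (2 * CT) (1 / 2) p0 := by
  obtain ⟨p1, h1⟩ := RawB25.ctx_RH N (c₀ := 1 / 2) (by norm_num)
  exact ⟨p1, fun p0 hp0 γ P₀ X j₀ Ch Q' hq b => h1 p0 hp0 γ P₀ X X.Y _
    fun u τ hz => ⟨(hq _ _ hz.1.ext).nb, hz.1.nd⟩⟩

end Crest.Agent.R4P.LocX25
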