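import Crest.Agent.R4P.LeafS_27
import Crest.Agent.R4P.LocN_25
import Crest.Agent.R4P.ShrE_28
import Crest.Agent.R4P.CzTot_36

/-!
R4P (S0004), helper25, module D, group [X]: **the bound of a crossing state, no hypothesis left**.

* `BX Ch E` : the constant of the mass term;
* `ctx_X` : `Xs (X.tm j₀) B₁ z ≤ Vz z + Σ_{pairs} TOT`, `p0` large, for all crossing states with coprime
  moduli whose common factor is light.
-/

set_option autoImplicit false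
set_option linter.unusedSectionVars false
set_option linter.unusedVariables false
open Finset hiding dens

namespace Crest.Agent.R4P.LocX25

open Crest.Agent.R4.HVW560
open Crest.Agent.R4.Tour104 Crest.Agent.R4.Tour758 Crest.Agent.R4.Avg758 Crest.Agent.R4.Clos758
open Crest.Agent.R4.ClosL758 Crest.Agent.R4.ClosG758 Crest.Agent.R4.ClosR758
open Crest.Agent.R4.Fam464 Crest.Agent.R4P.Cnt588 Crest.Agent.R4P.Walk560 Crest.Agent.R4P.Item758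
open Crest.Agent.R4P.Bld532 (NS All NodeOk)
open Crest.Agent.R4P.Skel189 (Ctx top Kc)
open Crest.Agent.R4P.ParF5 Crest.Agent.R4P.NumX34
open Crest.Agent.R4P.Data758 Crest.Agent.R4.Piece464
open Crest.Agent.R4P.Step588 (CT CT_pos)
open Crest.Agent.R4P.ShrG28 Crest.Agent.R4P.YI25
open Crest.Agent.R4P.CrsFacts26 Crest.Agent.R4P.AsmX26
open Crest.Agent.R4P.VNum34 (US)
open Crest.Agent.R4P.CopM34 (Cop)
open Crest.Agent.R4P.WmfL25 (KL)
open Crest.Agent.R4.Ovl560 (CM CM_pos)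
open Crest.Agent.R4P.LeafOs30 (CLL)
open Crest.Agent.R4P

variable {N : Skel189.Num} {th : ℕ → (ℕ → ℝ) → Finset ℕ → ℕ → ℝ} {Ct C₀ : ℝ}
  {Sx : ℕ → (ℕ → ℝ) → Finset ℕ → Finset ℕ}

/-- the constant of the local bounds -/
noncomputable def BL (Ch : ℝ) : ℝ := max (2 * (LeafS27.C₀L Ch + 2))
  (max (16 * (Ch ^ 2 + 5)) (4 * (CLL * Real.exp 2 + 2 * (4 * CM ^ 2))))

/-- the constant of the products -/
noncomputable def KHX : ℝ := max (64 * CT ^ 2) KL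

/-- **THE BOUND OF THE CROSSING STATES** -/
theorem ctx_X (h : NumOK N th Ct C₀ Sx) : ∃ Ch : ℝ, 0 < Ch ∧ ∃ B₁ : ℝ, 0 ≤ B₁ ∧
    ∃ p₁ : ℕ, ∀ p0 ≥ p₁, RgTh th p0 → ∀ (γ : ℝ) (P₀ : ℕ), 2 ≤ P₀ → ∀ X : Ctx N γ p0 P₀,
      Fin5.CF X → (∀ j₀ : X.c.Lam, All (QX X j₀ Ch) ⟨top X.S, 1, 1, 1⟩ X.c.t) ∧
      ∀ (j₀ : X.c.Lam) (Q' : NS → IT → Prop), (∀ u τ, Q' u τ → QX X j₀ Ch u τ) →
      ∀ (b : ℕ) (z : X.Sta) (v v' : NS) (σ σ' : IT), CZ X j₀ Q' b z v v' σ σ' →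
      z.R = Ro ((X.c.D.par X.Y).rho b) →
      ∑ l ∈ US z.M z.M' b, 1 / (l : ℝ) ≤ (b : ℝ) ^ (-(1 / 3) : ℝ) → Cop z →
      Xs (X.tm j₀) B₁ z ≤ PayV29.Vz z + ∑ e ∈ Ep (X.c.D.par X.Y) X.S' z σ σ',
        CzTot36.TOT X (QE X j₀ Q') (TX b) 3 2 b z v v' σ σ' e := by
  classical
  obtain ⟨Ch, hCh, a1, h1⟩ := ctx_HC h
  obtain ⟨E, hE0, hE1, hE2⟩ := ctx_EH N (K := KHX) (c := 1 / 4)
    (le_max_of_le_left (by positivity)) (by norm_num)
  obtain ⟨a2, h2⟩ := ctx_RHZ N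
  obtain ⟨a3, h3⟩ := LeafS27.exists_LTB N Ch
  have hB0 : 0 ≤ BL Ch := le_trans (by have := LeafS27.C₀L_one (Ch := Ch); linarith) (le_max_left _ _)
  refine ⟨Ch, hCh, BL Ch + 2 * (4 * E), by positivity, a1 + a2 + a3 + 3,
    fun p0 hp0 hth γ P₀ hP X hX => ?_⟩
  obtain ⟨hH, hr⟩ := h1 p0 (by omega) hth γ P₀ hP X hX
  refine ⟨hr, fun j₀ Q' hq b z v v' σ σ' hz hR hm hc => ?_⟩
  have hLT : LTB X j₀ (QZ X j₀ Q' b) (fun _ => True) b (BL Ch) 2 2 KHX :=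
    h3 p0 (by omega) γ P₀ X j₀ b _ _ hH (QZ_QH hq) hz.bp.two_le _ _ _ _ (le_max_left _ _)
      le_rfl le_rfl (le_max_right _ _)
  have key := ctx_cross_X (T := TX b) (E := E) hH (h2 p0 (by omega) γ P₀ X j₀ Ch Q' hq b) hq
    (RP := fun _ => True) (fun _ => trivial) hLT (by norm_num) (by norm_num) (le_max_left _ _)
    ((le_max_left _ _).trans (le_max_right _ _)) ((le_max_right _ _).trans (le_max_right _ _))
    hE1 (fun q hq' M hM => hE2 X (by omega) q hq' M hM) le_rfl hz hR hm hc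
  refine key.trans (le_of_eq ?_)
  refine congrArg _ (Finset.sum_congr rfl fun e _ => ?_)
  norm_num
  rfl

end Crest.Agent.R4P.LocX25
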