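import Mathlib

/-!
R4 (S0004), dual potential, helper36: **number half of the law of the words** (48's `LwX`, 18951 (3)).

One mate piece is fixed.  `sp p W` : the column `p` is special for the word `W` (letters above `p`) of the
other member and the mate, `G p ≥ 0` the price at the column `p`.

* `src G sp p W = G p` if `sp p W`, `0` otherwise; `prc G sp p W = [p ∈ W] src p (W.erase p)` : the price;
* dyadic blocks `[2^m, 2^(m+1))`; **`TT`** : expected price inside the block, **`RR`** : the lower blocks;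
* hypothesis `BD G sp D` : `∑_(l in block m) (1/l) src l W ≤ D m` for every word `W`;
* **`TT_step`**, **`TT_end`**, `RR_mono`, **`TR_end`** : the four conditions;
* **`TR_le`** : `TT P W + RR P ≤ 2 ∑_(m ≤ log2 P) D m`.
-/

set_option autoImplicit false

namespace Crest.Agent.R4P.LwW36

open Finset

section one
variable {G : ℕ → ℝ} {sp : ℕ → Finset ℕ → Prop} {D : ℕ → ℝ}

open Classical in
/-- the source at the column `p` : the other member takes the letter `p`, `W` its word above `p` -/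
noncomputable def src (G : ℕ → ℝ) (sp : ℕ → Finset ℕ → Prop) (p : ℕ) (W : Finset ℕ) : ℝ :=
  if sp p W then G p else 0

/-- the price at the column `p` as a function of the word (letters `≥ p`) of the other member -/
noncomputable def prc (G : ℕ → ℝ) (sp : ℕ → Finset ℕ → Prop) (p : ℕ) (W : Finset ℕ) : ℝ :=
  if p ∈ W then src G sp p (W.erase p) else 0

lemma src_nonneg (hG : ∀ p, 0 ≤ G p) (p : ℕ) (W : Finset ℕ) : 0 ≤ src G sp p W := by
  unfold src
  split_ifs
  exacts [hG p, le_rfl]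

lemma prc_nonneg (hG : ∀ p, 0 ≤ G p) (p : ℕ) (W : Finset ℕ) : 0 ≤ prc G sp p W := by
  unfold prc
  split_ifs
  exacts [src_nonneg hG _ _, le_rfl]

lemma prc_not {p : ℕ} {W : Finset ℕ} (h : p ∉ W) : prc G sp p W = 0 := by
  unfold prc
  rw [if_neg h]

lemma prc_insert {p : ℕ} {W : Finset ℕ} (h : p ∉ W) : prc G sp p (insert p W) = src G sp p W := by
  unfold prc
  rw [if_pos (Finset.mem_insert_self p W), Finset.erase_insert h]

/-- expected price inside the dyadic block of `p`, columns `≤ p` -/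
noncomputable def TT (G : ℕ → ℝ) (sp : ℕ → Finset ℕ → Prop) : ℕ → Finset ℕ → ℝ
  | 0, _ => 0
  | p + 1, W =>
    (if p + 1 = 2 ^ Nat.log 2 (p + 1) then 0 else TT G sp p W) +
      1 / ((p + 1 : ℕ) : ℝ) * (src G sp (p + 1) W +
        (if p + 1 = 2 ^ Nat.log 2 (p + 1) then 0 else TT G sp p (insert (p + 1) W)))

/-- the lower blocks -/
noncomputable def RR (D : ℕ → ℝ) (p : ℕ) : ℝ := 2 * ∑ m ∈ range (Nat.log 2 p), D m

/-- **bound of the blocks** -/
def BD (G : ℕ → ℝ) (sp : ℕ → Finset ℕ → Prop) (D : ℕ → ℝ) : Prop :=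
  ∀ m : ℕ, ∀ W : Finset ℕ, ∑ l ∈ (Ico (2 ^ m) (2 ^ (m + 1)) : Finset ℕ), 1 / (l : ℝ) * src G sp l W ≤ D m

lemma TT_zero (W : Finset ℕ) : TT G sp 0 W = 0 := rfl

lemma TT_nonneg (hG : ∀ p, 0 ≤ G p) (p : ℕ) : ∀ W : Finset ℕ, 0 ≤ TT G sp p W := by
  induction p with
  | zero => intro W; exact le_rfl
  | succ p ih =>
    intro W
    rw [TT]
    have h1 := src_nonneg (sp := sp) hG (p + 1) W
    split_ifs
    · positivity
    · have := ih W
      have := ih (insert (p + 1) W)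
      positivity

lemma BD.nonneg (h : BD G sp D) (hG : ∀ p, 0 ≤ G p) (m : ℕ) : 0 ≤ D m :=
  (Finset.sum_nonneg fun l _ => mul_nonneg (by positivity) (src_nonneg hG l ∅)).trans (h m ∅)

/-- inside a block -/
lemma TT_in {p : ℕ} (hp : p ≠ 0) (hb : p ≠ 2 ^ Nat.log 2 p) (W : Finset ℕ) :
    TT G sp p W = TT G sp (p - 1) W + 1 / (p : ℝ) * (src G sp p W + TT G sp (p - 1) (insert p W)) := by
  obtain ⟨q, rfl⟩ := Nat.exists_eq_succ_of_ne_zero hp
  rw [TT, if_neg hb, if_neg hb]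
  rfl

/-- at the end of a block -/
lemma TT_bot {p : ℕ} (hp : p ≠ 0) (hb : p = 2 ^ Nat.log 2 p) (W : Finset ℕ) :
    TT G sp p W = 1 / (p : ℝ) * src G sp p W := by
  obtain ⟨q, rfl⟩ := Nat.exists_eq_succ_of_ne_zero hp
  rw [TT, if_pos hb, if_pos hb, zero_add, add_zero]

/-- **(T)** : a column inside a block -/
theorem TT_step {p : ℕ} (hp : p ≠ 0) (hb : p ≠ 2 ^ Nat.log 2 p) {W : Finset ℕ} (hW : p ∉ W) :
    (prc G sp p W + TT G sp (p - 1) W) +
      1 / (p : ℝ) * (prc G sp p (insert p W) + TT G sp (p - 1) (insert p W)) ≤ TT G sp p W := by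
  rw [TT_in hp hb, prc_not hW, prc_insert hW, zero_add]

/-- **end of a block** -/
theorem TT_end {p : ℕ} (hp : p ≠ 0) (hb : p = 2 ^ Nat.log 2 p) {W : Finset ℕ} (hW : p ∉ W) :
    prc G sp p W + 1 / (p : ℝ) * prc G sp p (insert p W) ≤ TT G sp p W := by
  rw [TT_bot hp hb, prc_not hW, prc_insert hW, zero_add]

/-- the bound inside a block -/
theorem TT_le_S (hG : ∀ p, 0 ≤ G p) (h : BD G sp D) (m : ℕ) (k : ℕ) :
    ∀ (_ : 2 ^ m + k < 2 ^ (m + 1)) (W : Finset ℕ), TT G sp (2 ^ m + k) W ≤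
      ∑ l ∈ Ico (2 ^ m) (2 ^ m + k + 1), 1 / (l : ℝ) * src G sp l W +
        D m * (((2 ^ m + k + 1 : ℕ) : ℝ) / ((2 ^ m : ℕ) : ℝ) - 1) := by
  have hD : 0 ≤ D m := h.nonneg hG m
  have h2 : (0 : ℝ) < ((2 ^ m : ℕ) : ℝ) := by positivity
  induction k with
  | zero =>
    intro _ W
    have hlog : Nat.log 2 (2 ^ m) = m := Nat.log_pow (by norm_num) m
    rw [add_zero, TT_bot (by positivity) (by rw [hlog])]
    rw [Finset.sum_Ico_succ_top le_rfl, Finset.Ico_self, Finset.sum_empty, zero_add]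
    have : 0 ≤ D m * (((2 ^ m + 1 : ℕ) : ℝ) / ((2 ^ m : ℕ) : ℝ) - 1) := by
      refine mul_nonneg hD ?_
      rw [sub_nonneg, le_div_iff₀ h2]
      push_cast
      linarith
    linarith
  | succ k ih =>
    intro hk W
    have hk' : 2 ^ m + k < 2 ^ (m + 1) := by omega
    have i1 := ih hk' W
    have i2 := ih hk' (insert (2 ^ m + (k + 1)) W)
    have hlog : Nat.log 2 (2 ^ m + (k + 1)) = m :=
      (Nat.log_eq_iff (Or.inr ⟨by norm_num, by positivity⟩)).2 ⟨by omega, hk⟩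
    have e1 : 2 ^ m + (k + 1) - 1 = 2 ^ m + k := by omega
    rw [TT_in (by positivity) (by rw [hlog]; omega), e1]
    have hs : ∑ l ∈ Ico (2 ^ m) (2 ^ m + k + 1),
        1 / (l : ℝ) * src G sp l (insert (2 ^ m + (k + 1)) W) ≤ D m := by
      refine le_trans (Finset.sum_le_sum_of_subset_of_nonneg ?_ fun l _ _ => ?_) (h m _)
      · intro l hl
        rw [Finset.mem_Ico] at hl ⊢
        omega
      · exact mul_nonneg (by positivity) (src_nonneg hG _ _)
    have hp : (0 : ℝ) < ((2 ^ m + (k + 1) : ℕ) : ℝ) := by positivity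
    have e2 : ∑ l ∈ Ico (2 ^ m) (2 ^ m + (k + 1) + 1), 1 / (l : ℝ) * src G sp l W =
        ∑ l ∈ Ico (2 ^ m) (2 ^ m + k + 1), 1 / (l : ℝ) * src G sp l W +
          1 / ((2 ^ m + (k + 1) : ℕ) : ℝ) * src G sp (2 ^ m + (k + 1)) W := by
      rw [Finset.sum_Ico_succ_top (by omega : 2 ^ m ≤ 2 ^ m + (k + 1))]
      rfl
    rw [e2]
    have i3 : TT G sp (2 ^ m + k) (insert (2 ^ m + (k + 1)) W) ≤
        D m * (((2 ^ m + k + 1 : ℕ) : ℝ) / ((2 ^ m : ℕ) : ℝ)) := by
      refine i2.trans ?_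
      have : D m * (((2 ^ m + k + 1 : ℕ) : ℝ) / ((2 ^ m : ℕ) : ℝ)) =
        D m + D m * (((2 ^ m + k + 1 : ℕ) : ℝ) / ((2 ^ m : ℕ) : ℝ) - 1) := by ring
      rw [this]
      linarith
    have i4 : 1 / ((2 ^ m + (k + 1) : ℕ) : ℝ) *
        TT G sp (2 ^ m + k) (insert (2 ^ m + (k + 1)) W) ≤ D m / ((2 ^ m : ℕ) : ℝ) := by
      refine (mul_le_mul_of_nonneg_left i3 (by positivity)).trans (le_of_eq ?_)
      have e3 : ((2 ^ m + k + 1 : ℕ) : ℝ) = ((2 ^ m + (k + 1) : ℕ) : ℝ) := by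
        congr 1
      rw [e3]
      field_simp
    have e4 : D m * (((2 ^ m + (k + 1) + 1 : ℕ) : ℝ) / ((2 ^ m : ℕ) : ℝ) - 1) =
        D m * (((2 ^ m + k + 1 : ℕ) : ℝ) / ((2 ^ m : ℕ) : ℝ) - 1) + D m / ((2 ^ m : ℕ) : ℝ) := by
      push_cast
      field_simp
      ring
    rw [e4, mul_add]
    linarith

/-- **bound inside a block** -/
theorem TT_le (hG : ∀ p, 0 ≤ G p) (h : BD G sp D) {p : ℕ} (hp : p ≠ 0) (W : Finset ℕ) :
    TT G sp p W ≤ 2 * D (Nat.log 2 p) := by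
  obtain ⟨m, hm⟩ : ∃ m, Nat.log 2 p = m := ⟨_, rfl⟩
  rw [hm]
  have h1 : 2 ^ m ≤ p := by rw [← hm]; exact Nat.pow_log_le_self 2 hp
  have h2 : p < 2 ^ (m + 1) := by rw [← hm]; exact Nat.lt_pow_succ_log_self (by norm_num) p
  obtain ⟨k, rfl⟩ := Nat.exists_eq_add_of_le h1
  have hD : 0 ≤ D m := h.nonneg hG m
  have h3 : (0 : ℝ) < ((2 ^ m : ℕ) : ℝ) := by positivity
  have key := TT_le_S hG h m k h2 W
  have hs : ∑ l ∈ Ico (2 ^ m) (2 ^ m + k + 1), 1 / (l : ℝ) * src G sp l W ≤ D m := by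
    refine le_trans (Finset.sum_le_sum_of_subset_of_nonneg ?_ fun l _ _ => ?_) (h m _)
    · intro l hl
      rw [Finset.mem_Ico] at hl ⊢
      omega
    · exact mul_nonneg (by positivity) (src_nonneg hG _ _)
  have h4 : ((2 ^ m + k + 1 : ℕ) : ℝ) / ((2 ^ m : ℕ) : ℝ) ≤ 2 := by
    rw [div_le_iff₀ h3]
    have : 2 ^ m + k + 1 ≤ 2 * 2 ^ m := by
      rw [pow_succ] at h2
      omega
    exact_mod_cast this
  have h5 : D m * (((2 ^ m + k + 1 : ℕ) : ℝ) / ((2 ^ m : ℕ) : ℝ) - 1) ≤ D m * 1 :=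
    mul_le_mul_of_nonneg_left (by linarith) hD
  linarith

lemma RR_zero : RR D 0 = 0 := by
  unfold RR
  simp

lemma RR_nonneg (hD : ∀ m, 0 ≤ D m) (p : ℕ) : 0 ≤ RR D p :=
  mul_nonneg (by norm_num) (Finset.sum_nonneg fun m _ => hD m)

/-- `R` is monotone -/
theorem RR_mono (hD : ∀ m, 0 ≤ D m) {p q : ℕ} (h : p ≤ q) : RR D p ≤ RR D q := by
  unfold RR
  refine mul_le_mul_of_nonneg_left ?_ (by norm_num)
  refine Finset.sum_le_sum_of_subset_of_nonneg (fun m hm => ?_) fun m _ _ => hD m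
  rw [Finset.mem_range] at hm ⊢
  exact hm.trans_le (Nat.log_mono_right h)

/-- **end of a block** : the next block starts with the full bound -/
theorem TR_end (hG : ∀ p, 0 ≤ G p) (h : BD G sp D) {p : ℕ}
    (hb : p = 2 ^ Nat.log 2 p) (W : Finset ℕ) : TT G sp (p - 1) W + RR D (p - 1) ≤ RR D p := by
  have hD : ∀ m, 0 ≤ D m := h.nonneg hG
  rcases Nat.eq_zero_or_pos (p - 1) with h0 | h0
  · rw [h0, TT_zero, RR_zero, add_zero]
    exact RR_nonneg hD p
  · have h1 := TT_le hG h (p := p - 1) (by omega) W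
    have hlt : Nat.log 2 (p - 1) < Nat.log 2 p := by
      by_contra hcon
      push Not at hcon
      have h5 : 2 ^ Nat.log 2 (p - 1) ≤ p - 1 := Nat.pow_log_le_self 2 (by omega)
      have h6 : 2 ^ Nat.log 2 p ≤ 2 ^ Nat.log 2 (p - 1) := Nat.pow_le_pow_right (by norm_num) hcon
      omega
    unfold RR
    have h2 : ∑ m ∈ range (Nat.log 2 (p - 1)), D m + D (Nat.log 2 (p - 1)) ≤
        ∑ m ∈ range (Nat.log 2 p), D m := by
      rw [← Finset.sum_range_succ]
      refine Finset.sum_le_sum_of_subset_of_nonneg (fun m hm => ?_) fun m _ _ => hD m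
      rw [Finset.mem_range] at hm ⊢
      omega
    linarith

/-- **THE TOTAL** -/
theorem TR_le (hG : ∀ p, 0 ≤ G p) (h : BD G sp D) (P : ℕ) (W : Finset ℕ) :
    TT G sp P W + RR D P ≤ 2 * ∑ m ∈ range (Nat.log 2 P + 1), D m := by
  have hD : ∀ m, 0 ≤ D m := h.nonneg hG
  rcases Nat.eq_zero_or_pos P with h0 | h0
  · rw [h0, TT_zero, RR_zero, add_zero]
    exact mul_nonneg (by norm_num) (Finset.sum_nonneg fun m _ => hD m)
  · have h1 := TT_le hG h (p := P) (by omega) W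
    unfold RR
    rw [Finset.sum_range_succ]
    linarith

/-- **(T) for every word** : the columns `p ∈ W` are allowed too (the price is not counted twice) -/
theorem TT_anti (hG : ∀ p, 0 ≤ G p) {p : ℕ} (hp : p ≠ 0) (hb : p ≠ 2 ^ Nat.log 2 p)
    (W : Finset ℕ) : TT G sp (p - 1) W ≤ TT G sp p W := by
  rw [TT_in hp hb]
  have := src_nonneg (sp := sp) hG p W
  have := TT_nonneg (sp := sp) hG (p - 1) (insert p W)
  have : 0 ≤ 1 / (p : ℝ) * (src G sp p W + TT G sp (p - 1) (insert p W)) := by positivity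
  linarith

end one

end Crest.Agent.R4P.LwW36
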