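import Crest.Agent.R4P.LwG_48

/-!
R4 (S0004) with powers, dual potential, helper48: **law of the words of a group and the walk sum of a
charge which depends on the word of the other member** (abstract part).

* `ct p b j` : the piece `j` has content in the bundle `b` at the column `p`, `wd p b j` its word
  (missing ties `≥ p`), `ms p b j` its mass.  `WS` : the rules of the C-steps and of the rests.
* `Law` : a positive measure on words (`ι, μ, w`); `LA`, `LB` : it dominates the words of the members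
  (without, with the letter `p`); closed under C-steps and rests, no matter how many C-steps.
* **`walk`** : `Kw (price) ≤ ∑_i mass_i * (∑_a μ_a T p (w a) i + R p i)`.
-/

set_option autoImplicit false
set_option linter.unusedSectionVars false
set_option linter.unusedVariables false
open MeasureTheory Filter Set

namespace Crest.Agent.R4P.LwX48

open Crest.Agent.R4P.GMer27 Crest.Agent.R4P.GCol27 Crest.Agent.R4P.RSys343
open Crest.Agent.R4P.PayR45
open Crest.Agent.R4P.GSK55 (Kw Kw_succ Kw_z BC_pos BC_neg)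
open Crest.Agent.R4P.DTn407 (ch ch_on ch_off)

variable {β Λ : Type} [Fintype Λ]

/-- **words of the pieces of the bundles** -/
structure WS (M : BM β) (ct : ℕ → β → Λ → Prop) (wd : ℕ → β → Λ → Finset ℕ)
    (ms : ℕ → β → Λ → ℝ) : Prop where
  okP : ∀ {p b}, M.ok p b → p ≠ 0 → M.ok p (M.cP p b)
  okN : ∀ {p b}, M.ok p b → p ≠ 0 → M.ok p (M.cN p b)
  okR : ∀ {p b}, M.ok p b → p ≠ 0 → M.ok (p - 1) (M.rN p b)
  m0 : ∀ {p b}, M.ok p b → ∀ j, 0 ≤ ms p b j
  P1 : ∀ {p b j}, M.ok p b → p ≠ 0 → ct p (M.cP p b) j →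
    ct p b j ∧ p ∉ wd p b j ∧ wd p (M.cP p b) j = wd p b j
  N1 : ∀ {p b j}, M.ok p b → p ≠ 0 → ct p (M.cN p b) j →
    ct p b j ∧ p ∉ wd p b j ∧
      (wd p (M.cN p b) j = wd p b j ∨ wd p (M.cN p b) j = insert p (wd p b j))
  R1 : ∀ {p b j}, M.ok p b → p ≠ 0 → ct (p - 1) (M.rN p b) j →
    ct p b j ∧ wd (p - 1) (M.rN p b) j = wd p b j
  R2 : ∀ {p b j}, M.ok p b → p ≠ 0 → ct (p - 1) (M.rN p b) j →
    ∀ l ∈ wd (p - 1) (M.rN p b) j, p ≤ l
  R3 : ∀ {p b j j'}, M.ok p b → p ≠ 0 → ct (p - 1) (M.rN p b) j → ct (p - 1) (M.rN p b) j' →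
    wd (p - 1) (M.rN p b) j = wd (p - 1) (M.rN p b) j'
  ms1 : ∀ {p b}, M.ok p b → 2 ≤ p → ∀ i, (1 - 1 / (p : ℝ)) * ms p (M.cP p b) i +
    1 / (p : ℝ) * ms p (M.cN p b) i + ms (p - 1) (M.rN p b) i ≤ ms p b i
  ms2 : ∀ {p b}, M.ok p b → p = 1 → ∀ i, ms p (M.cP p b) i + ms (p - 1) (M.rN p b) i ≤ ms p b i

section law
variable {M : BM β} {ct : ℕ → β → Λ → Prop} {wd : ℕ → β → Λ → Finset ℕ} {ms : ℕ → β → Λ → ℝ}
  {p : ℕ} {s : Gs β}

/-- a positive measure on words -/
structure Law where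
  ι : Type
  fι : Fintype ι
  μ : ι → ℝ
  w : ι → Finset ℕ
  μ0 : ∀ a, 0 ≤ μ a

instance (l : Law) : Fintype l.ι := l.fι

/-- integral -/
noncomputable def Law.ev (l : Law) (F : Finset ℕ → ℝ) : ℝ := ∑ a, l.μ a * F (l.w a)

/-- the law at the next column -/
noncomputable def Law.nx (l : Law) (p : ℕ) : Law where
  ι := l.ι ⊕ l.ι
  fι := inferInstance
  μ := Sum.elim l.μ fun a => 1 / (p : ℝ) * l.μ a
  w := Sum.elim l.w fun a => insert p (l.w a)
  μ0 := by
    rintro (a | a)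
    · exact l.μ0 a
    · exact mul_nonneg (by positivity) (l.μ0 a)

lemma Law.ev_nx (l : Law) (p : ℕ) (F : Finset ℕ → ℝ) :
    (l.nx p).ev F = l.ev F + 1 / (p : ℝ) * l.ev fun W => F (insert p W) := by
  unfold Law.ev
  show ∑ a : l.ι ⊕ l.ι, Sum.elim l.μ (fun a => 1 / (p : ℝ) * l.μ a) a *
    F (Sum.elim l.w (fun a => insert p (l.w a)) a) = _
  rw [Fintype.sum_sum_type, Finset.mul_sum]
  congr 1
  refine Finset.sum_congr rfl fun a _ => ?_
  simp only [Sum.elim_inr]
  ring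

lemma Law.ev_add (l : Law) (F G : Finset ℕ → ℝ) :
    l.ev (fun W => F W + G W) = l.ev F + l.ev G := by
  unfold Law.ev
  rw [← Finset.sum_add_distrib]
  exact Finset.sum_congr rfl fun a _ => by ring

lemma Law.ev_mono (l : Law) {F G : Finset ℕ → ℝ} (h : ∀ a, F (l.w a) ≤ G (l.w a)) :
    l.ev F ≤ l.ev G :=
  Finset.sum_le_sum fun a _ => mul_le_mul_of_nonneg_left (h a) (l.μ0 a)

lemma Law.ev_nonneg (l : Law) {F : Finset ℕ → ℝ} (h : ∀ W, 0 ≤ F W) : 0 ≤ l.ev F :=
  Finset.sum_nonneg fun a _ => mul_nonneg (l.μ0 a) (h _)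

/-- letters above `p` -/
def Law.Up (l : Law) (p : ℕ) : Prop := ∀ a, ∀ r ∈ l.w a, p < r

/-- the words without the letter `p` -/
def LA (ct : ℕ → β → Λ → Prop) (wd : ℕ → β → Λ → Finset ℕ) (l : Law) (p : ℕ) (s : Gs β) : Prop :=
  ∀ (σ : s.J → Λ) (F : Finset ℕ → ℝ), (∀ W, 0 ≤ F W) →
    ∑ k, s.c k * ch (ct p (s.L k) (σ k) ∧ p ∉ wd p (s.L k) (σ k)) (F (wd p (s.L k) (σ k))) ≤ l.ev F

/-- the words with the letter `p` -/
def LB (ct : ℕ → β → Λ → Prop) (wd : ℕ → β → Λ → Finset ℕ) (l : Law) (p : ℕ) (s : Gs β) : Prop :=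
  ∀ (σ : s.J → Λ) (F : Finset ℕ → ℝ), (∀ W, 0 ≤ F W) →
    ∑ k, s.c k * ch (ct p (s.L k) (σ k) ∧ p ∈ wd p (s.L k) (σ k)) (F (wd p (s.L k) (σ k))) ≤
      1 / (p : ℝ) * l.ev fun W => F (insert p W)

lemma ch_nn {P : Prop} {a : ℝ} (ha : 0 ≤ a) : 0 ≤ ch P a := by
  by_cases h : P
  · rw [ch_on h]; exact ha
  · rw [ch_off h]

lemma ch_le {P : Prop} {a : ℝ} (ha : 0 ≤ a) : ch P a ≤ a := by
  by_cases h : P
  · rw [ch_on h]
  · rw [ch_off h]; exact ha

variable (H : WS M ct wd ms)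
include H

/-- **C-steps, words without `p`** -/
theorem LA_C {l : Law} (hok : ∀ k, M.ok p (s.L k)) (c0 : ∀ k, 0 ≤ s.c k) (hp : p ≠ 0)
    (hA : LA ct wd l p s) : LA ct wd l p (M.C p s) := by
  have hp0 : (1:ℝ) ≤ p := by exact_mod_cast Nat.one_le_iff_ne_zero.2 hp
  by_cases h2 : 2 ≤ p
  · rw [BC_pos _ h2]
    intro σ F hF
    show ∑ x : s.J × Bool, cT (1 - 1 / (p : ℝ)) s.c x *
      ch (ct p (if x.2 then M.cP p (s.L x.1) else M.cN p (s.L x.1)) (σ x) ∧
        p ∉ wd p (if x.2 then M.cP p (s.L x.1) else M.cN p (s.L x.1)) (σ x))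
        (F (wd p (if x.2 then M.cP p (s.L x.1) else M.cN p (s.L x.1)) (σ x))) ≤ _
    rw [Fintype.sum_prod_type]
    have w0 : (0:ℝ) ≤ 1 / p := by positivity
    have w1 : (0:ℝ) ≤ 1 - 1 / p := by
      have : (1:ℝ) / p ≤ 1 := by rw [div_le_one (by linarith)]; exact hp0
      linarith
    have h3 := hA (fun k => σ (k, true)) F hF
    have h4 := hA (fun k => σ (k, false)) F hF
    have e : ∀ k, ∑ t : Bool, cT (1 - 1 / (p : ℝ)) s.c (k, t) *
        ch (ct p (if t then M.cP p (s.L k) else M.cN p (s.L k)) (σ (k, t)) ∧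
          p ∉ wd p (if t then M.cP p (s.L k) else M.cN p (s.L k)) (σ (k, t)))
          (F (wd p (if t then M.cP p (s.L k) else M.cN p (s.L k)) (σ (k, t)))) ≤
        (1 - 1 / (p : ℝ)) * (s.c k * ch (ct p (s.L k) (σ (k, true)) ∧
          p ∉ wd p (s.L k) (σ (k, true))) (F (wd p (s.L k) (σ (k, true))))) +
        1 / (p : ℝ) * (s.c k * ch (ct p (s.L k) (σ (k, false)) ∧
          p ∉ wd p (s.L k) (σ (k, false))) (F (wd p (s.L k) (σ (k, false))))) := fun k => by
      rw [Fintype.sum_bool]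
      simp only [cT, if_true, Bool.false_eq_true, if_false]
      have a1 : ch (ct p (M.cP p (s.L k)) (σ (k, true)) ∧ p ∉ wd p (M.cP p (s.L k)) (σ (k, true)))
          (F (wd p (M.cP p (s.L k)) (σ (k, true)))) ≤ ch (ct p (s.L k) (σ (k, true)) ∧
          p ∉ wd p (s.L k) (σ (k, true))) (F (wd p (s.L k) (σ (k, true)))) := by
        by_cases hc : ct p (M.cP p (s.L k)) (σ (k, true)) ∧
            p ∉ wd p (M.cP p (s.L k)) (σ (k, true))
        · obtain ⟨b1, b2, b3⟩ := H.P1 (hok k) hp hc.1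
          rw [ch_on hc, ch_on ⟨b1, b2⟩, b3]
        · rw [ch_off hc]; exact ch_nn (hF _)
      have a2 : ch (ct p (M.cN p (s.L k)) (σ (k, false)) ∧
          p ∉ wd p (M.cN p (s.L k)) (σ (k, false))) (F (wd p (M.cN p (s.L k)) (σ (k, false)))) ≤
          ch (ct p (s.L k) (σ (k, false)) ∧
          p ∉ wd p (s.L k) (σ (k, false))) (F (wd p (s.L k) (σ (k, false)))) := by
        by_cases hc : ct p (M.cN p (s.L k)) (σ (k, false)) ∧
            p ∉ wd p (M.cN p (s.L k)) (σ (k, false))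
        · obtain ⟨b1, b2, b3⟩ := H.N1 (hok k) hp hc.1
          have b4 : wd p (M.cN p (s.L k)) (σ (k, false)) = wd p (s.L k) (σ (k, false)) := by
            rcases b3 with b3 | b3
            · exact b3
            · exfalso
              apply hc.2
              rw [b3]
              exact Finset.mem_insert_self _ _
          rw [ch_on hc, ch_on ⟨b1, b2⟩, b4]
        · rw [ch_off hc]; exact ch_nn (hF _)
      have a3 := mul_le_mul_of_nonneg_left (mul_le_mul_of_nonneg_left a1 (c0 k)) w1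
      have a4 := mul_le_mul_of_nonneg_left (mul_le_mul_of_nonneg_left a2 (c0 k)) w0
      nlinarith [a3, a4]
    refine (Finset.sum_le_sum fun k _ => e k).trans ?_
    rw [Finset.sum_add_distrib, ← Finset.mul_sum, ← Finset.mul_sum]
    have a3 := mul_le_mul_of_nonneg_left h3 w1
    have a4 := mul_le_mul_of_nonneg_left h4 w0
    linarith
  · rw [BC_neg _ h2]
    intro σ F hF
    refine le_trans (Finset.sum_le_sum fun k _ => ?_) (hA σ F hF)
    refine mul_le_mul_of_nonneg_left ?_ (c0 k)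
    show ch (ct p (M.cP p (s.L k)) (σ k) ∧ p ∉ wd p (M.cP p (s.L k)) (σ k))
      (F (wd p (M.cP p (s.L k)) (σ k))) ≤ _
    by_cases hc : ct p (M.cP p (s.L k)) (σ k) ∧ p ∉ wd p (M.cP p (s.L k)) (σ k)
    · obtain ⟨b1, b2, b3⟩ := H.P1 (hok k) hp hc.1
      rw [ch_on hc, ch_on ⟨b1, b2⟩, b3]
    · rw [ch_off hc]; exact ch_nn (hF _)

/-- **C-steps, words with `p`** -/
theorem LB_C {l : Law} (hok : ∀ k, M.ok p (s.L k)) (c0 : ∀ k, 0 ≤ s.c k) (hp : p ≠ 0)
    (hA : LA ct wd l p s) : LB ct wd l p (M.C p s) := by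
  have hp0 : (1:ℝ) ≤ p := by exact_mod_cast Nat.one_le_iff_ne_zero.2 hp
  have w0 : (0:ℝ) ≤ 1 / p := by positivity
  by_cases h2 : 2 ≤ p
  · rw [BC_pos _ h2]
    intro σ F hF
    show ∑ x : s.J × Bool, cT (1 - 1 / (p : ℝ)) s.c x *
      ch (ct p (if x.2 then M.cP p (s.L x.1) else M.cN p (s.L x.1)) (σ x) ∧
        p ∈ wd p (if x.2 then M.cP p (s.L x.1) else M.cN p (s.L x.1)) (σ x))
        (F (wd p (if x.2 then M.cP p (s.L x.1) else M.cN p (s.L x.1)) (σ x))) ≤ _
    rw [Fintype.sum_prod_type]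
    have h4 := hA (fun k => σ (k, false)) (fun W => F (insert p W)) fun W => hF _
    have e : ∀ k, ∑ t : Bool, cT (1 - 1 / (p : ℝ)) s.c (k, t) *
        ch (ct p (if t then M.cP p (s.L k) else M.cN p (s.L k)) (σ (k, t)) ∧
          p ∈ wd p (if t then M.cP p (s.L k) else M.cN p (s.L k)) (σ (k, t)))
          (F (wd p (if t then M.cP p (s.L k) else M.cN p (s.L k)) (σ (k, t)))) ≤
        1 / (p : ℝ) * (s.c k * ch (ct p (s.L k) (σ (k, false)) ∧
          p ∉ wd p (s.L k) (σ (k, false))) (F (insert p (wd p (s.L k) (σ (k, false)))))) :=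
        fun k => by
      rw [Fintype.sum_bool]
      simp only [cT, if_true, Bool.false_eq_true, if_false]
      have a1 : ch (ct p (M.cP p (s.L k)) (σ (k, true)) ∧ p ∈ wd p (M.cP p (s.L k)) (σ (k, true)))
          (F (wd p (M.cP p (s.L k)) (σ (k, true)))) = 0 := by
        refine ch_off fun hc => ?_
        obtain ⟨b1, b2, b3⟩ := H.P1 (hok k) hp hc.1
        rw [b3] at hc
        exact b2 hc.2
      have a2 : ch (ct p (M.cN p (s.L k)) (σ (k, false)) ∧
          p ∈ wd p (M.cN p (s.L k)) (σ (k, false))) (F (wd p (M.cN p (s.L k)) (σ (k, false)))) ≤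
          ch (ct p (s.L k) (σ (k, false)) ∧
          p ∉ wd p (s.L k) (σ (k, false))) (F (insert p (wd p (s.L k) (σ (k, false))))) := by
        by_cases hc : ct p (M.cN p (s.L k)) (σ (k, false)) ∧
            p ∈ wd p (M.cN p (s.L k)) (σ (k, false))
        · obtain ⟨b1, b2, b3⟩ := H.N1 (hok k) hp hc.1
          have b4 : wd p (M.cN p (s.L k)) (σ (k, false)) =
              insert p (wd p (s.L k) (σ (k, false))) := by
            rcases b3 with b3 | b3
            · exfalso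
              apply b2
              rw [← b3]
              exact hc.2
            · exact b3
          rw [ch_on hc, ch_on ⟨b1, b2⟩, b4]
        · rw [ch_off hc]; exact ch_nn (hF _)
      rw [a1, mul_zero, zero_add]
      have a4 := mul_le_mul_of_nonneg_left (mul_le_mul_of_nonneg_left a2 (c0 k)) w0
      nlinarith [a4]
    refine (Finset.sum_le_sum fun k _ => e k).trans ?_
    rw [← Finset.mul_sum]
    exact mul_le_mul_of_nonneg_left h4 w0
  · rw [BC_neg _ h2]
    intro σ F hF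
    have h0 : ∀ k, ch (ct p (M.cP p (s.L k)) (σ k) ∧ p ∈ wd p (M.cP p (s.L k)) (σ k))
        (F (wd p (M.cP p (s.L k)) (σ k))) = 0 := fun k => by
      refine ch_off fun hc => ?_
      obtain ⟨b1, b2, b3⟩ := H.P1 (hok k) hp hc.1
      rw [b3] at hc
      exact b2 hc.2
    show ∑ k, s.c k * ch (ct p (M.cP p (s.L k)) (σ k) ∧ p ∈ wd p (M.cP p (s.L k)) (σ k))
      (F (wd p (M.cP p (s.L k)) (σ k))) ≤ _
    rw [Finset.sum_eq_zero fun k _ => by rw [h0 k, mul_zero]]
    exact mul_nonneg w0 (l.ev_nonneg fun W => hF _)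

/-- all the words of a state -/
lemma LAB {l : Law} (c0 : ∀ k, 0 ≤ s.c k) (hA : LA ct wd l p s) (hB : LB ct wd l p s)
    (σ : s.J → Λ) (F : Finset ℕ → ℝ) (hF : ∀ W, 0 ≤ F W) :
    ∑ k, s.c k * ch (ct p (s.L k) (σ k)) (F (wd p (s.L k) (σ k))) ≤ (l.nx p).ev F := by
  rw [Law.ev_nx]
  refine le_trans ?_ (add_le_add (hA σ F hF) (hB σ F hF))
  rw [← Finset.sum_add_distrib]
  refine Finset.sum_le_sum fun k _ => ?_
  rw [← mul_add]
  refine mul_le_mul_of_nonneg_left ?_ (c0 k)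
  by_cases hc : ct p (s.L k) (σ k)
  · by_cases hw : p ∈ wd p (s.L k) (σ k)
    · rw [ch_on hc, ch_off fun h => h.2 hw, ch_on ⟨hc, hw⟩, zero_add]
    · rw [ch_on hc, ch_on ⟨hc, hw⟩, ch_off fun h => hw h.2, add_zero]
  · rw [ch_off hc]
    exact add_nonneg (ch_nn (hF _)) (ch_nn (hF _))

/-- **rests, words without `p - 1`** -/
theorem LA_N {l : Law} (hok : ∀ k, M.ok p (s.L k)) (c0 : ∀ k, 0 ≤ s.c k) (hp : p ≠ 0)
    (hA : LA ct wd l p s) (hB : LB ct wd l p s) : LA ct wd (l.nx p) (p - 1) (M.N p s) := by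
  intro σ F hF
  refine le_trans (Finset.sum_le_sum fun k _ => ?_) (LAB H c0 hA hB σ F hF)
  refine mul_le_mul_of_nonneg_left ?_ (c0 k)
  show ch (ct (p - 1) (M.rN p (s.L k)) (σ k) ∧ (p - 1) ∉ wd (p - 1) (M.rN p (s.L k)) (σ k))
    (F (wd (p - 1) (M.rN p (s.L k)) (σ k))) ≤ _
  by_cases hc : ct (p - 1) (M.rN p (s.L k)) (σ k) ∧
      (p - 1) ∉ wd (p - 1) (M.rN p (s.L k)) (σ k)
  · obtain ⟨b1, b2⟩ := H.R1 (hok k) hp hc.1
    rw [ch_on hc, ch_on b1, b2]
  · rw [ch_off hc]; exact ch_nn (hF _)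

/-- **rests, words with `p - 1`** -/
theorem LB_N (l : Law) (hok : ∀ k, M.ok p (s.L k)) (hp : p ≠ 0) :
    LB ct wd l (p - 1) (M.N p s) := by
  intro σ F hF
  have h0 : ∀ k, ch (ct (p - 1) (M.rN p (s.L k)) (σ k) ∧
      (p - 1) ∈ wd (p - 1) (M.rN p (s.L k)) (σ k))
      (F (wd (p - 1) (M.rN p (s.L k)) (σ k))) = 0 := fun k => by
    refine ch_off fun hc => ?_
    have := H.R2 (hok k) hp hc.1 _ hc.2
    omega
  show ∑ k, s.c k * ch (ct (p - 1) (M.rN p (s.L k)) (σ k) ∧
      (p - 1) ∈ wd (p - 1) (M.rN p (s.L k)) (σ k))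
      (F (wd (p - 1) (M.rN p (s.L k)) (σ k))) ≤ _
  rw [Finset.sum_eq_zero fun k _ => by rw [h0 k, mul_zero]]
  exact mul_nonneg (by positivity) (l.ev_nonneg fun W => hF _)

/-- **the law of the rest** : one word per member -/
noncomputable def rl (M : BM β) (ct : ℕ → β → Λ → Prop) (wd : ℕ → β → Λ → Finset ℕ) (p : ℕ)
    (s : Gs β) (c0 : ∀ k, 0 ≤ s.c k) : Law := by
  classical
  exact
    { ι := s.J
      fι := s.fJ
      μ := s.c
      w := fun k => if h : ∃ j, ct (p - 1) (M.rN p (s.L k)) j then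
        wd (p - 1) (M.rN p (s.L k)) h.choose else ∅
      μ0 := c0 }

omit H in
lemma rl_ev (c0 : ∀ k, 0 ≤ s.c k) (F : Finset ℕ → ℝ) :
    (rl M ct wd p s c0).ev F = ∑ k, s.c k * F ((rl M ct wd p s c0).w k) := rfl

lemma rl_w (c0 : ∀ k, 0 ≤ s.c k) (hok : ∀ k, M.ok p (s.L k)) (hp : p ≠ 0) {k : s.J} {j : Λ}
    (h : ct (p - 1) (M.rN p (s.L k)) j) :
    (rl M ct wd p s c0).w k = wd (p - 1) (M.rN p (s.L k)) j := by
  have hx : ∃ j, ct (p - 1) (M.rN p (s.L k)) j := ⟨j, h⟩
  unfold rl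
  refine (dif_pos hx).trans ?_
  exact H.R3 (hok k) hp hx.choose_spec h

lemma rl_up (c0 : ∀ k, 0 ≤ s.c k) (hok : ∀ k, M.ok p (s.L k)) (hp : p ≠ 0) :
    (rl M ct wd p s c0).Up (p - 1) := by
  intro k r hr
  by_cases hx : ∃ j, ct (p - 1) (M.rN p (s.L k)) j
  · obtain ⟨j, hj⟩ := hx
    rw [rl_w H c0 hok hp hj] at hr
    have := H.R2 (hok k) hp hj r hr
    omega
  · have e : (rl M ct wd p s c0).w k = ∅ := dif_neg hx
    rw [e] at hr
    exact absurd hr (Finset.notMem_empty _)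

/-- **restart** -/
theorem LA_rl (c0 : ∀ k, 0 ≤ s.c k) (hok : ∀ k, M.ok p (s.L k)) (hp : p ≠ 0) :
    LA ct wd (rl M ct wd p s c0) (p - 1) (M.N p s) := by
  intro σ F hF
  rw [rl_ev]
  refine Finset.sum_le_sum fun k _ => ?_
  refine mul_le_mul_of_nonneg_left ?_ (c0 k)
  show ch (ct (p - 1) (M.rN p (s.L k)) (σ k) ∧ (p - 1) ∉ wd (p - 1) (M.rN p (s.L k)) (σ k))
    (F (wd (p - 1) (M.rN p (s.L k)) (σ k))) ≤ _
  by_cases hc : ct (p - 1) (M.rN p (s.L k)) (σ k) ∧
      (p - 1) ∉ wd (p - 1) (M.rN p (s.L k)) (σ k)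
  · rw [ch_on hc, rl_w H c0 hok hp hc.1]
  · rw [ch_off hc]; exact hF _

/-! ### the walk sum -/

/-- good states -/
def G1 (M : BM β) (p : ℕ) (s : Gs β) : Prop :=
  (∀ k, M.ok p (s.L k)) ∧ (∀ k, 0 ≤ s.c k) ∧ ∑ k, s.c k ≤ 1

lemma G1_C (h : G1 M p s) (hp : p ≠ 0) : G1 M p (M.C p s) := by
  have hp0 : (1:ℝ) ≤ p := by exact_mod_cast Nat.one_le_iff_ne_zero.2 hp
  by_cases h2 : 2 ≤ p
  · rw [BC_pos _ h2]
    refine ⟨fun x => ?_, fun x => ?_, ?_⟩
    · show M.ok p (if x.2 = true then M.cP p (s.L x.1) else M.cN p (s.L x.1))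
      split_ifs
      · exact H.okP (h.1 x.1) hp
      · exact H.okN (h.1 x.1) hp
    · show 0 ≤ cT (1 - 1 / (p : ℝ)) s.c x
      have w1 : (0:ℝ) ≤ 1 - 1 / p := by
        have : (1:ℝ) / p ≤ 1 := by rw [div_le_one (by linarith)]; exact hp0
        linarith
      unfold cT
      refine mul_nonneg (h.2.1 x.1) ?_
      split_ifs
      · exact w1
      · have : (0:ℝ) ≤ 1 / p := by positivity
        linarith
    · show ∑ x : s.J × Bool, cT (1 - 1 / (p : ℝ)) s.c x ≤ 1
      rw [Fintype.sum_prod_type]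
      refine le_trans (le_of_eq ?_) h.2.2
      refine Finset.sum_congr rfl fun k _ => ?_
      rw [Fintype.sum_bool]
      simp only [cT, if_true, Bool.false_eq_true, if_false]
      ring
  · rw [BC_neg _ h2]
    exact ⟨fun k => H.okP (h.1 k) hp, h.2.1, h.2.2⟩

lemma G1_N (h : G1 M p s) (hp : p ≠ 0) : G1 M (p - 1) (M.N p s) :=
  ⟨fun k => H.okR (h.1 k) hp, h.2.1, h.2.2⟩

omit H in
/-- mass of a piece in a state -/
noncomputable def mS (ms : ℕ → β → Λ → ℝ) (p : ℕ) (s : Gs β) (i : Λ) : ℝ :=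
  ∑ k, s.c k * ms p (s.L k) i

lemma mS_nn (h : G1 M p s) (i : Λ) : 0 ≤ mS ms p s i :=
  Finset.sum_nonneg fun k _ => mul_nonneg (h.2.1 k) (H.m0 (h.1 k) i)

lemma mS_step (h : G1 M p s) (hp : p ≠ 0) (i : Λ) :
    mS ms p (M.C p s) i + mS ms (p - 1) (M.N p s) i ≤ mS ms p s i := by
  have hp0 : (1:ℝ) ≤ p := by exact_mod_cast Nat.one_le_iff_ne_zero.2 hp
  by_cases h2 : 2 ≤ p
  · have e : mS ms p (M.C p s) i = ∑ k, s.c k * ((1 - 1 / (p : ℝ)) * ms p (M.cP p (s.L k)) i +
        1 / (p : ℝ) * ms p (M.cN p (s.L k)) i) := by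
      rw [BC_pos _ h2]
      show ∑ x : s.J × Bool, cT (1 - 1 / (p : ℝ)) s.c x *
        ms p (if x.2 then M.cP p (s.L x.1) else M.cN p (s.L x.1)) i = _
      rw [Fintype.sum_prod_type]
      refine Finset.sum_congr rfl fun k _ => ?_
      rw [Fintype.sum_bool]
      simp only [cT, if_true, Bool.false_eq_true, if_false]
      ring
    rw [e]
    show _ + ∑ k, s.c k * ms (p - 1) (M.rN p (s.L k)) i ≤ ∑ k, s.c k * ms p (s.L k) i
    rw [← Finset.sum_add_distrib]
    refine Finset.sum_le_sum fun k _ => ?_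
    rw [← mul_add]
    exact mul_le_mul_of_nonneg_left (H.ms1 (h.1 k) h2 i) (h.2.1 k)
  · have hp1 : p = 1 := by omega
    rw [BC_neg _ h2]
    show ∑ k, s.c k * ms p (M.cP p (s.L k)) i + ∑ k, s.c k * ms (p - 1) (M.rN p (s.L k)) i ≤
      ∑ k, s.c k * ms p (s.L k) i
    rw [← Finset.sum_add_distrib]
    refine Finset.sum_le_sum fun k _ => ?_
    rw [← mul_add]
    exact mul_le_mul_of_nonneg_left (H.ms2 (h.1 k) hp1 i) (h.2.1 k)

omit H in
/-- **charge of a rest bundle** : `f` at its word -/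
noncomputable def pw (M : BM β) (ct : ℕ → β → Λ → Prop) (wd : ℕ → β → Λ → Finset ℕ)
    (f : ℕ → Finset ℕ → Λ → ℝ) (p : ℕ) (b : β) (i : Λ) : ℝ := by
  classical
  exact if h : ∃ j, ct (p - 1) (M.rN p b) j then f p (wd (p - 1) (M.rN p b) h.choose) i else 0

lemma pw_eq {f : ℕ → Finset ℕ → Λ → ℝ} {b : β} (hb : M.ok p b) (hp : p ≠ 0) {j : Λ}
    (h : ct (p - 1) (M.rN p b) j) (i : Λ) :
    pw M ct wd f p b i = f p (wd (p - 1) (M.rN p b) j) i := by
  have hx : ∃ j, ct (p - 1) (M.rN p b) j := ⟨j, h⟩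
  unfold pw
  rw [dif_pos hx, H.R3 hb hp hx.choose_spec h]

omit H in
lemma pw_nn {f : ℕ → Finset ℕ → Λ → ℝ} (f0 : ∀ p W i, 0 ≤ f p W i) (p : ℕ) (b : β) (i : Λ) :
    0 ≤ pw M ct wd f p b i := by
  unfold pw
  split_ifs
  · exact f0 _ _ _
  · exact le_rfl

omit H in
/-- **the price of a state** -/
noncomputable def pS (M : BM β) (ct : ℕ → β → Λ → Prop) (wd : ℕ → β → Λ → Finset ℕ)
    (ms : ℕ → β → Λ → ℝ) (f : ℕ → Finset ℕ → Λ → ℝ) (p : ℕ) (s : Gs β) : ℝ :=
  ∑ k, ∑ k', s.c k * s.c k' * ∑ i, pw M ct wd f p (s.L k) i * ms (p - 1) (M.rN p (s.L k')) i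

/-- **potentials** : `T` in the block, `R` below it; `e p` : the block ends at `p` -/
structure Pot (f T : ℕ → Finset ℕ → Λ → ℝ) (R : ℕ → Λ → ℝ) (e : ℕ → Prop) : Prop where
  f0 : ∀ p W i, 0 ≤ f p W i
  T0 : ∀ p W i, 0 ≤ T p W i
  R0 : ∀ p i, 0 ≤ R p i
  inb : ∀ p, p ≠ 0 → ¬ e p → ∀ i, R (p - 1) i ≤ R p i ∧ ∀ W : Finset ℕ, (∀ r ∈ W, p < r) →
    f p W i + T (p - 1) W i + 1 / (p : ℝ) * (f p (insert p W) i + T (p - 1) (insert p W) i) ≤
      T p W i
  fin : ∀ p, p ≠ 0 → e p → ∀ i, (∀ W : Finset ℕ, (∀ r ∈ W, p < r) →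
    f p W i + 1 / (p : ℝ) * f p (insert p W) i ≤ T p W i) ∧
    ∀ W : Finset ℕ, (∀ r ∈ W, p - 1 < r) → T (p - 1) W i + R (p - 1) i ≤ R p i

/-- **THE WALK SUM OF THE WORD CHARGES** -/
theorem walk {f T : ℕ → Finset ℕ → Λ → ℝ} {R : ℕ → Λ → ℝ} {e : ℕ → Prop} (P : Pot f T R e) :
    ∀ (n p : ℕ) (s : Gs β) (l : Law), G1 M p s → LA ct wd l p s → LB ct wd l p s → l.Up p →
      Kw M (pS M ct wd ms f) n p s ≤ ∑ i, mS ms p s i * (l.ev (fun W => T p W i) + R p i) := by
  intro n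
  induction n with
  | zero =>
    intro p s l hg _ _ _
    exact Finset.sum_nonneg fun i _ => mul_nonneg (mS_nn H hg i)
      (add_nonneg (l.ev_nonneg fun W => P.T0 _ _ _) (P.R0 _ _))
  | succ n ih =>
    intro p s l hg hA hB hU
    by_cases hp : p = 0
    · subst hp
      rw [Kw_z]
      exact Finset.sum_nonneg fun i _ => mul_nonneg (mS_nn H hg i)
        (add_nonneg (l.ev_nonneg fun W => P.T0 _ _ _) (P.R0 _ _))
    rw [Kw_succ _ _ n hp]
    have hC := ih p (M.C p s) l (G1_C H hg hp) (LA_C H hg.1 hg.2.1 hp hA)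
      (LB_C H hg.1 hg.2.1 hp hA) hU
    have gN := G1_N H hg hp
    -- the price
    have hpr : pS M ct wd ms f p s ≤
        ∑ i, mS ms (p - 1) (M.N p s) i * (l.nx p).ev fun W => f p W i := by
      have e1 : pS M ct wd ms f p s = ∑ i, (∑ k, s.c k * pw M ct wd f p (s.L k) i) *
          mS ms (p - 1) (M.N p s) i := by
        unfold pS
        have e2 : ∀ i, (∑ k, s.c k * pw M ct wd f p (s.L k) i) * mS ms (p - 1) (M.N p s) i =
            ∑ k, ∑ k', s.c k * s.c k' * (pw M ct wd f p (s.L k) i *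
              ms (p - 1) (M.rN p (s.L k')) i) := by
          intro i
          show _ * ∑ k', s.c k' * ms (p - 1) (M.rN p (s.L k')) i = _
          rw [Finset.sum_mul_sum]
          exact Finset.sum_congr rfl fun k _ => Finset.sum_congr rfl fun k' _ => by ring
        rw [Finset.sum_congr rfl fun i _ => e2 i]
        have e3 : ∀ A : s.J → s.J → Λ → ℝ, ∑ k, ∑ k', s.c k * s.c k' * ∑ i, A k k' i =
            ∑ i, ∑ k, ∑ k', s.c k * s.c k' * A k k' i := by
          intro A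
          calc ∑ k, ∑ k', s.c k * s.c k' * ∑ i, A k k' i =
                ∑ k, ∑ k', ∑ i, s.c k * s.c k' * A k k' i :=
                Finset.sum_congr rfl fun k _ => Finset.sum_congr rfl fun k' _ =>
                  Finset.mul_sum _ _ _
            _ = ∑ k, ∑ i, ∑ k', s.c k * s.c k' * A k k' i :=
                Finset.sum_congr rfl fun k _ => Finset.sum_comm
            _ = _ := Finset.sum_comm
        exact e3 _
      rw [e1]
      refine Finset.sum_le_sum fun i _ => ?_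
      rw [mul_comm]
      refine mul_le_mul_of_nonneg_left ?_ (mS_nn H gN i)
      classical
      let σ : s.J → Λ := fun k => if h : ∃ j, ct (p - 1) (M.rN p (s.L k)) j then h.choose else i
      refine le_trans (Finset.sum_le_sum fun k _ => ?_) (LAB H hg.2.1 hA hB σ (fun W => f p W i)
        fun W => P.f0 _ _ _)
      refine mul_le_mul_of_nonneg_left ?_ (hg.2.1 k)
      by_cases hx : ∃ j, ct (p - 1) (M.rN p (s.L k)) j
      · have hs : σ k = hx.choose := dif_pos hx
        have h1 : ct (p - 1) (M.rN p (s.L k)) (σ k) := by rw [hs]; exact hx.choose_spec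
        obtain ⟨b1, b2⟩ := H.R1 (hg.1 k) hp h1
        rw [pw_eq H (hg.1 k) hp h1 i, ch_on b1, b2]
      · have : pw M ct wd f p (s.L k) i = 0 := by
          unfold pw
          exact dif_neg hx
        rw [this]
        exact ch_nn (P.f0 _ _ _)
    -- rests
    have hN : Kw M (pS M ct wd ms f) n (p - 1) (M.N p s) + pS M ct wd ms f p s ≤
        ∑ i, mS ms (p - 1) (M.N p s) i * (l.ev (fun W => T p W i) + R p i) := by
      by_cases he : e p
      · have h1 := ih (p - 1) (M.N p s) (rl M ct wd p s hg.2.1) gN (LA_rl H hg.2.1 hg.1 hp)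
          (LB_N H _ hg.1 hp) (rl_up H hg.2.1 hg.1 hp)
        refine (add_le_add h1 hpr).trans ?_
        rw [← Finset.sum_add_distrib]
        refine Finset.sum_le_sum fun i _ => ?_
        rw [← mul_add]
        refine mul_le_mul_of_nonneg_left ?_ (mS_nn H gN i)
        obtain ⟨q1, q2⟩ := P.fin p hp he i
        have h3 : (rl M ct wd p s hg.2.1).ev (fun W => T (p - 1) W i) + R (p - 1) i ≤ R p i := by
          have h4 : (rl M ct wd p s hg.2.1).ev (fun W => T (p - 1) W i) ≤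
              ∑ k, s.c k * (R p i - R (p - 1) i) := by
            rw [rl_ev]
            refine Finset.sum_le_sum fun k _ => mul_le_mul_of_nonneg_left ?_ (hg.2.1 k)
            have := q2 _ (rl_up H hg.2.1 hg.1 hp k)
            linarith
          rw [← Finset.sum_mul] at h4
          have h5 : 0 ≤ R p i - R (p - 1) i := by
            have := q2 ∅ (by simp)
            have := P.T0 (p - 1) ∅ i
            linarith
          have h6 := mul_le_mul_of_nonneg_right hg.2.2 h5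
          linarith
        have h7 : (l.nx p).ev (fun W => f p W i) ≤ l.ev fun W => T p W i := by
          rw [Law.ev_nx]
          have e3 : l.ev (fun W => f p W i) + 1 / (p : ℝ) * l.ev (fun W => f p (insert p W) i) =
              l.ev fun W => f p W i + 1 / (p : ℝ) * f p (insert p W) i := by
            rw [Law.ev_add]
            congr 1
            unfold Law.ev
            rw [Finset.mul_sum]
            exact Finset.sum_congr rfl fun a _ => by ring
          rw [e3]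
          exact l.ev_mono fun a => q1 _ (hU a)
        linarith
      · have hU' : (l.nx p).Up (p - 1) := by
          rintro (a | a) r hr
          · have h1 : r ∈ l.w a := hr
            have := hU a r h1
            omega
          · have h1 : r ∈ insert p (l.w a) := hr
            rcases Finset.mem_insert.1 h1 with h2 | h2
            · omega
            · have := hU a r h2
              omega
        have h1 := ih (p - 1) (M.N p s) (l.nx p) gN (LA_N H hg.1 hg.2.1 hp hA hB)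
          (LB_N H _ hg.1 hp) hU'
        refine (add_le_add h1 hpr).trans ?_
        rw [← Finset.sum_add_distrib]
        refine Finset.sum_le_sum fun i _ => ?_
        rw [← mul_add]
        refine mul_le_mul_of_nonneg_left ?_ (mS_nn H gN i)
        obtain ⟨q1, q2⟩ := P.inb p hp he i
        have h7 : (l.nx p).ev (fun W => T (p - 1) W i) + (l.nx p).ev (fun W => f p W i) ≤
            l.ev fun W => T p W i := by
          rw [← Law.ev_add, Law.ev_nx]
          have e3 : l.ev (fun W => T (p - 1) W i + f p W i) + 1 / (p : ℝ) *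
              l.ev (fun W => T (p - 1) (insert p W) i + f p (insert p W) i) =
              l.ev fun W => (T (p - 1) W i + f p W i) + 1 / (p : ℝ) *
                (T (p - 1) (insert p W) i + f p (insert p W) i) := by
            rw [Law.ev_add _ (fun W => T (p - 1) W i + f p W i)]
            congr 1
            unfold Law.ev
            rw [Finset.mul_sum]
            exact Finset.sum_congr rfl fun a _ => by ring
          rw [e3]
          refine l.ev_mono fun a => ?_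
          have := q2 _ (hU a)
          linarith
        linarith
    have hfin : ∑ i, mS ms p (M.C p s) i * (l.ev (fun W => T p W i) + R p i) +
        ∑ i, mS ms (p - 1) (M.N p s) i * (l.ev (fun W => T p W i) + R p i) ≤
        ∑ i, mS ms p s i * (l.ev (fun W => T p W i) + R p i) := by
      rw [← Finset.sum_add_distrib]
      refine Finset.sum_le_sum fun i _ => ?_
      rw [← add_mul]
      exact mul_le_mul_of_nonneg_right (mS_step H hg hp i)
        (add_nonneg (l.ev_nonneg fun W => P.T0 _ _ _) (P.R0 _ _))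
    linarith

end law

end Crest.Agent.R4P.LwX48
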