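import Crest.Agent.R4P.LwX_48

/-!
R4 (S0004) with powers, dual potential, helper48: **the walk sum of the word charges of a context**.

* `ctX`, `wdX`, `msX` : content, word (`pm X.c.t p m q`), mass; **`wsX`** : the rules `LwX48.WS`.
* **`walkX`** : from the start.
-/

set_option autoImplicit false
set_option linter.unusedSectionVars false
set_option linter.unusedVariables false
open MeasureTheory Filter Set

namespace Crest.Agent.R4P.LwX48

open Crest.Agent.R4.Tour104 Crest.Agent.R4.Tour758 Crest.Agent.R4.Clos758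
open Crest.Agent.R4.ClosL758
open Crest.Agent.R4P.Grp36 Crest.Agent.R4P.GWa343 Crest.Agent.R4P.GWb343 Crest.Agent.R4P.GWc343
open Crest.Agent.R4P.GMer27 Crest.Agent.R4P.GCol27 Crest.Agent.R4P.RSys343
open Crest.Agent.R4P.RXm55 Crest.Agent.R4P.RXm55.RXm
open Crest.Agent.R4P.MSm25 Crest.Agent.R4P.PayR45 Crest.Agent.R4P.GSK55
open Crest.Agent.R4P.DTp26 (jv PB_jv hz MP)
open Crest.Agent.R4P.MSd343 Crest.Agent.R4P.Bp407 Crest.Agent.R4P.VR407
open Crest.Agent.R4P.Walk560 (DT)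
open Crest.Agent.R4.Avg758 Crest.Agent.R4.ClosG758 Crest.Agent.R4.ClosR758
open Crest.Agent.R4P.ClosR442 Crest.Agent.R4P.Xfer36 Crest.Agent.R4P.TopC36 Crest.Agent.R4P.PN36
open Crest.Agent.R4P.GWd343 Crest.Agent.R4P.GWf343 Crest.Agent.R4P.TrR343
open Crest.Agent.R4P.DTm407 Crest.Agent.R4P.DTn407 Crest.Agent.R4P.DTo407
open Crest.Agent.R4P.Cnt588 Crest.Agent.R4P.Item758
open Crest.Agent.R4P.Bld532 (NS All NodeOk)
open Crest.Agent.R4P.WalkIT579 (tp isL toDT_top toDT_leaf)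
open Crest.Agent.R4P.StratN36 (ex)
open Crest.Agent.R4P.Step588 Crest.Agent.R4P.RseSt23
open Crest.Agent.R4P.TYI47 Crest.Agent.R4P.TYJ47 Crest.Agent.R4P.TYK47 Crest.Agent.R4P.TYP9
open Crest.Agent.R4P.RsT47
open Crest.Agent.R4P.Skel189 Crest.Agent.R4P.Frame758 Crest.Agent.R4P.Data758
open Crest.Agent.R4.Soft104 Crest.Agent.R4.Fam464
open Crest.Agent.R4P.StratX36 hiding mm
open Crest.Agent.R4P.TopX36
open Crest.Agent.R4P.PVe45 (LB)
open Crest.Agent.R4P.PVd45 (DI jv_split3)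
open Crest.Agent.R4P.AsB407
open Crest.Agent.R4P.LwG48 (jv_of_bB jv_of_bN ch_prime)
open Crest.Agent.R4P.E3X479 (pA_ex pQ_ex pB_ex)

variable {Nu : Skel189.Num} {γ : ℝ} {p0 P₀ : ℕ} {X : Ctx Nu γ p0 P₀} {Q : NS → IT → Prop} {Cb : ℝ}
  {p s P₁ : ℕ} {b : Me × List (DT X.c.Lam (LbX X))} {ζ : Type} [Fintype ζ] [DecidableEq ζ]
  {D : TD Me X.c.Lam (LbX X) ζ} {H : TYp (rhoX X) D (InvM X Q Cb)}
  {g : Gs (Me × List (DT X.c.Lam (LbX X)))}

/-- content -/
def ctX (X : Ctx Nu γ p0 P₀) (p : ℕ) (b : Me × List (DT X.c.Lam (LbX X))) (j : X.c.Lam) : Prop :=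
  ∃ x, jv b.2 j x ≠ 0

/-- word -/
def wdX (X : Ctx Nu γ p0 P₀) (p : ℕ) (b : Me × List (DT X.c.Lam (LbX X))) (j : X.c.Lam) :
    Finset ℕ := pm X.c.t p b.1 j.1.1

/-- mass -/
noncomputable def msX (X : Ctx Nu γ p0 P₀) (p : ℕ) (b : Me × List (DT X.c.Lam (LbX X)))
    (j : X.c.Lam) : ℝ := I (jv b.2 j)

/-- the item of a child is an item of the tie above -/
lemma tie_up (H : TYp (rhoX X) D (InvM X Q Cb)) (h : InvM X Q Cb p b) (hp : 2 ≤ p) {j : X.c.Lam}
    {y : ℝ} (hj : jv (D.cP p b).2 j y ≠ 0 ∨ jv (D.cN p b).2 j y ≠ 0) :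
    ∃ x, jv (bB p b.2) j x ≠ 0 := by
  have hp0 : p ≠ 0 := by omega
  have hpr : (2:ℝ) ≤ p := by exact_mod_cast hp
  have Kk := H.bok h hp0
  have c1 := jv_chP Kk j y
  have c2 := jv_chN Kk j y
  have a1 : 0 ≤ jv (D.cP p b).2 j y := by
    show 0 ≤ jv ((bB p b.2).map chP) j y
    rw [c1]; exact add_nonneg ((Kk.PA j).nonneg y) ((Kk.PQ j).nonneg y)
  have a2 : 0 ≤ jv (D.cN p b).2 j y := by
    show 0 ≤ jv ((bB p b.2).map chN) j y
    rw [c2]; exact add_nonneg ((Kk.PBb j).nonneg y) ((Kk.PQ j).nonneg y)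
  have hm : (1 - 1 / (p : ℝ)) * jv (D.cP p b).2 j y + 1 / (p : ℝ) * jv (D.cN p b).2 j y ≤
      Ep p (jv (bB p b.2) j) y := ((lbX H).pv diX).mean (b := b) h hp0 j y
  have w0 : (0:ℝ) < 1 / p := by positivity
  have w1 : (0:ℝ) < 1 - 1 / p := by
    have : (1:ℝ) / p ≤ 1 / 2 := by
      apply one_div_le_one_div_of_le (by norm_num) hpr
    linarith
  have hpos : 0 < Ep p (jv (bB p b.2) j) y := by
    refine lt_of_lt_of_le ?_ hm
    rcases hj with hj | hj
    · have := mul_pos w1 (lt_of_le_of_ne a1 (Ne.symm hj))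
      have := mul_nonneg w0.le a2
      linarith
    · have := mul_pos w0 (lt_of_le_of_ne a2 (Ne.symm hj))
      have := mul_nonneg w1.le a1
      linarith
  by_contra hc
  push Not at hc
  have h0 : Ep p (jv (bB p b.2) j) y = 0 := by
    unfold Ep
    rw [Finset.sum_eq_zero fun k _ => hc _, zero_div]
  linarith

/-- letters at a C-step -/
lemma wd_tu (htu : D.tu = tuM) {m : Me} {q : ℕ} {l : ℕ} :
    l ∈ pm X.c.t p (D.tu p m) q ↔ l ∈ X.c.t.mt q ∧ (p < l ∨ (l = p ∧ ex p q ≤ TYJ47.cnt p m.1)) := by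
  rw [htu]
  have e2 : TYJ47.cnt p (tuM p m).1 = TYJ47.cnt p m.1 + 1 := TYJ47.cnt_tu p m.1
  constructor
  · intro h
    obtain ⟨h1, h2⟩ := Finset.mem_filter.1 h
    refine ⟨h1, ?_⟩
    rcases h2 with h2 | ⟨h2, h3⟩
    · exact Or.inl h2
    · have h3' : ex p q < TYJ47.cnt p (tuM p m).1 := h3
      rw [e2] at h3'
      exact Or.inr ⟨h2, by omega⟩
  · rintro ⟨h1, h2⟩
    refine Finset.mem_filter.2 ⟨h1, ?_⟩
    rcases h2 with h2 | ⟨h2, h3⟩
    · exact Or.inl h2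
    · refine Or.inr ⟨h2, ?_⟩
      show ex p q < TYJ47.cnt p (tuM p m).1
      rw [e2]
      omega

lemma wd_mem {m : Me} {q : ℕ} {l : ℕ} :
    l ∈ pm X.c.t p m q ↔ l ∈ X.c.t.mt q ∧ (p < l ∨ (l = p ∧ ex p q < TYJ47.cnt p m.1)) :=
  Finset.mem_filter

/-- **the rules of the words** -/
theorem wsX (hQ : ∀ u τ, Q u τ → NDt X.par (w X.ψ) X.c.t u τ)
    (H : TYp (rhoX X) D (InvM X Q Cb)) (htu : D.tu = tuM) :
    WS (bm (rxm H)) (ctX X) (wdX X) (msX X) where
  okP := fun h hp => H.toP h hp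
  okN := fun h hp => H.toN h hp
  okR := fun h hp => H.toR h hp
  m0 := fun {p b} h j => by
    have h' : InvM X Q Cb p b := h
    exact I_nonneg fun x => (PB_jv (diX.pb h'.bi).self j).nonneg x
  P1 := by
    intro p b j h hp hc
    have h' : InvM X Q Cb p b := h
    obtain ⟨y, hy⟩ := hc
    have hy' : jv (D.cP p b).2 j y ≠ 0 := hy
    have h2 := (ch_prime hQ H h' hp (Or.inl hy')).two_le
    obtain ⟨x, hx⟩ := tie_up H h' h2 (Or.inl hy')
    have Kk := H.bok h' hp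
    have c1 : jv (D.cP p b).2 j y = pA (bB p b.2) j y + pQ (bB p b.2) j y := jv_chP Kk j y
    have h3 : pA (bB p b.2) j y ≠ 0 ∨ pQ (bB p b.2) j y ≠ 0 := by
      by_contra hc
      push Not at hc
      obtain ⟨e1, e3⟩ := hc
      rw [c1, e1, e3] at hy'
      exact hy' (by norm_num)
    have hx1 : TYJ47.cnt p b.1.1 + 1 ≤ ex p j.1.1 := by
      rcases h3 with h3 | h3
      · exact pA_ex hQ h' hp h3
      · exact pQ_ex hQ h' hp h3
    refine ⟨⟨x, jv_of_bB h' hx⟩, fun hm => ?_, ?_⟩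
    · rcases (wd_mem.1 hm).2 with h4 | ⟨-, h4⟩
      · omega
      · omega
    · show pm X.c.t p (D.tu p b.1) j.1.1 = pm X.c.t p b.1 j.1.1
      ext l
      rw [wd_tu htu, wd_mem]
      constructor
      · rintro ⟨a1, a2⟩
        exact ⟨a1, by omega⟩
      · rintro ⟨a1, a2⟩
        exact ⟨a1, by omega⟩
  N1 := by
    intro p b j h hp hc
    have h' : InvM X Q Cb p b := h
    obtain ⟨y, hy⟩ := hc
    have hy' : jv (D.cN p b).2 j y ≠ 0 := hy
    have h2 := (ch_prime hQ H h' hp (Or.inr hy')).two_le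
    obtain ⟨x, hx⟩ := tie_up H h' h2 (Or.inr hy')
    have Kk := H.bok h' hp
    have c1 : jv (D.cN p b).2 j y = pB (bB p b.2) j y + pQ (bB p b.2) j y := jv_chN Kk j y
    have h3 : pB (bB p b.2) j y ≠ 0 ∨ pQ (bB p b.2) j y ≠ 0 := by
      by_contra hc
      push Not at hc
      obtain ⟨e1, e3⟩ := hc
      rw [c1, e1, e3] at hy'
      exact hy' (by norm_num)
    have hx1 : TYJ47.cnt p b.1.1 ≤ ex p j.1.1 := by
      rcases h3 with h3 | h3
      · exact (pB_ex hQ h' hp h3).ge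
      · have := pQ_ex hQ h' hp h3
        omega
    refine ⟨⟨x, jv_of_bB h' hx⟩, fun hm => ?_, ?_⟩
    · rcases (wd_mem.1 hm).2 with h4 | ⟨-, h4⟩
      · omega
      · omega
    · show pm X.c.t p (D.tu p b.1) j.1.1 = pm X.c.t p b.1 j.1.1 ∨
        pm X.c.t p (D.tu p b.1) j.1.1 = insert p (pm X.c.t p b.1 j.1.1)
      by_cases hl : p ∈ X.c.t.mt j.1.1 ∧ ex p j.1.1 ≤ TYJ47.cnt p b.1.1
      · right
        ext l
        rw [wd_tu htu, Finset.mem_insert, wd_mem]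
        constructor
        · rintro ⟨a1, a2 | ⟨a2, a3⟩⟩
          · exact Or.inr ⟨a1, Or.inl a2⟩
          · exact Or.inl a2
        · rintro (a1 | ⟨a1, a2⟩)
          · subst a1
            exact ⟨hl.1, Or.inr ⟨rfl, hl.2⟩⟩
          · exact ⟨a1, by omega⟩
      · left
        ext l
        rw [wd_tu htu, wd_mem]
        constructor
        · rintro ⟨a1, a2 | ⟨a2, a3⟩⟩
          · exact ⟨a1, Or.inl a2⟩
          · subst a2
            exact absurd ⟨a1, a3⟩ hl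
        · rintro ⟨a1, a2⟩
          exact ⟨a1, by omega⟩
  R1 := by
    rintro p b j h hp ⟨x, hx⟩
    have h' : InvM X Q Cb p b := h
    have hx' : jv (bN p b.2) j x ≠ 0 := hx
    exact ⟨⟨x, jv_of_bN h' hx'⟩, (rest_pmX hQ h' hp hx').1⟩
  R2 := by
    rintro p b j h hp ⟨x, hx⟩ l hl
    have h' : InvM X Q Cb p b := h
    have hx' : jv (bN p b.2) j x ≠ 0 := hx
    have hl' : l ∈ pm X.c.t (p - 1) b.1 j.1.1 := hl
    rw [(rest_pmX hQ h' hp hx').1] at hl'
    rcases (wd_mem.1 hl').2 with h4 | ⟨h4, -⟩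
    · exact h4.le
    · exact h4.ge
  R3 := by
    rintro p b j j' h hp ⟨x, hx⟩ ⟨x', hx'⟩
    have h' : InvM X Q Cb p b := h
    have h1 : jv (bN p b.2) j x ≠ 0 := hx
    have h1' : jv (bN p b.2) j' x' ≠ 0 := hx'
    show pm X.c.t (p - 1) b.1 j.1.1 = pm X.c.t (p - 1) b.1 j'.1.1
    rw [(rest_pmX hQ h' hp h1).1, (rest_pmX hQ h' hp h1').1]
    rcases E3X479.rest_one hQ h' hp with h0 | ⟨u, τ, hs, ht, hl, hv⟩
    · exact absurd (h0 j x) h1
    · have hn := hQ _ _ hs.1.rm.all.self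
      have q1 : j.1.1 ∈ τ.items := by
        rw [hv j x, ← E3X479.val_v hn] at h1
        exact (ctx_supp hn h1).1
      have q2 : j'.1.1 ∈ τ.items := by
        rw [hv j' x', ← E3X479.val_v hn] at h1'
        exact (ctx_supp hn h1').1
      exact (hs.1.rm.pf hQ X.tOk q1).symm.trans (hs.1.rm.pf hQ X.tOk q2)
  ms1 := by
    intro p b h h2 i
    have h' : InvM X Q Cb p b := h
    have hp0 : p ≠ 0 := by omega
    have Kk := H.bok h' hp0
    have pb := diX.pb h'.bi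
    have pB' := PB_jv (pb.bB p).self i
    have pN' := PB_jv (pb.bN p).self i
    have pL' := PB_jv (pb.bL p).self i
    have e1 : I (jv b.2 i) = I (jv (bL p b.2) i) + I (jv (bB p b.2) i) + I (jv (bN p b.2) i) := by
      rw [← I_add pL'.integrableOn pB'.integrableOn, ← I_add (pL'.add pB').integrableOn
        pN'.integrableOn]
      exact congrArg I (funext fun x => jv_split3 p b.2 i x)
    have e2 : I (Ep p (jv (bB p b.2) i)) = I (jv (bB p b.2) i) :=
      I_Ep (Nat.pos_of_ne_zero hp0) pB'.integrableOn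
    have l0 : 0 ≤ I (jv (bL p b.2) i) := I_nonneg pL'.nonneg
    have okP' : InvM X Q Cb p (D.cP p b) := H.toP h' hp0
    have okN' : InvM X Q Cb p (D.cN p b) := H.toN h' hp0
    have q1 := PB_jv (diX.pb okP'.bi).self i
    have q2 := PB_jv (diX.pb okN'.bi).self i
    have hpr : (2:ℝ) ≤ p := by exact_mod_cast h2
    have w0 : (0:ℝ) ≤ 1 / p := by positivity
    have w1 : (0:ℝ) ≤ 1 - 1 / p := by
      have : (1:ℝ) / p ≤ 1 / 2 := by
        apply one_div_le_one_div_of_le (by norm_num) hpr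
      linarith
    have hm : (1 - 1 / (p : ℝ)) * I (jv (D.cP p b).2 i) + 1 / (p : ℝ) * I (jv (D.cN p b).2 i) ≤
        I (Ep p (jv (bB p b.2) i)) := by
      rw [← I_smul, ← I_smul, ← I_add (q1.smul w1).integrableOn (q2.smul w0).integrableOn]
      exact I_mono ((q1.smul w1).add (q2.smul w0)).integrableOn (pB'.Ep (Nat.pos_of_ne_zero hp0)).integrableOn
        fun y => ((lbX H).pv diX).mean (b := b) h' hp0 i y
    show (1 - 1 / (p : ℝ)) * I (jv (D.cP p b).2 i) + 1 / (p : ℝ) * I (jv (D.cN p b).2 i) +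
      I (jv (bN p b.2) i) ≤ I (jv b.2 i)
    linarith
  ms2 := by
    intro p b h h1 i
    subst h1
    have h' : InvM X Q Cb 1 b := h
    have pb := diX.pb h'.bi
    have pB' := PB_jv (pb.bB 1).self i
    have pN' := PB_jv (pb.bN 1).self i
    have pL' := PB_jv (pb.bL 1).self i
    have e1 : I (jv b.2 i) = I (jv (bL 1 b.2) i) + I (jv (bB 1 b.2) i) + I (jv (bN 1 b.2) i) := by
      rw [← I_add pL'.integrableOn pB'.integrableOn, ← I_add (pL'.add pB').integrableOn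
        pN'.integrableOn]
      exact congrArg I (funext fun x => jv_split3 1 b.2 i x)
    have l0 : 0 ≤ I (jv (bL 1 b.2) i) := I_nonneg pL'.nonneg
    have b0 : 0 ≤ I (jv (bB 1 b.2) i) := I_nonneg pB'.nonneg
    have e3 : I (jv (D.cP 1 b).2 i) = 0 := by
      have : jv (D.cP 1 b).2 i = fun _ => 0 := by
        funext y
        show jv ((bB 1 b.2).map chP) i y = 0
        rw [H.no1 h']
        rfl
      rw [this]
      unfold I
      simp
    show I (jv (D.cP 1 b).2 i) + I (jv (bN 1 b.2) i) ≤ I (jv b.2 i)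
    linarith

/-- the law of one word -/
noncomputable def l1 (W : Finset ℕ) : Law where
  ι := Unit
  fι := inferInstance
  μ := fun _ => 1
  w := fun _ => W
  μ0 := fun _ => zero_le_one

lemma l1_ev (W : Finset ℕ) (F : Finset ℕ → ℝ) : (l1 W).ev F = F W := by
  show ∑ _a : Unit, (1:ℝ) * F W = F W
  simp

/-- **THE WALK SUM OF THE WORD CHARGES FROM THE START** -/
theorem walkX (hQ : ∀ u τ, Q u τ → NDt X.par (w X.ψ) X.c.t u τ)
    (H : TYp (rhoX X) D (InvM X Q Cb)) (htu : D.tu = tuM) {u : NS} {τ : IT} (hA : All Q u τ)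
    (hB : InvM X Q Cb (X.self u τ Finset.univ).p (b₀ X u τ))
    {f T : ℕ → Finset ℕ → X.c.Lam → ℝ} {R : ℕ → X.c.Lam → ℝ} {e : ℕ → Prop} (P : Pot f T R e)
    (n : ℕ) : Kw (bm (rxm H)) (pS (bm (rxm H)) (ctX X) (wdX X) (msX X) f) n
      (X.self u τ Finset.univ).p (GSK55.one (b₀ X u τ)) ≤
      ∑ i, I (jv (b₀ X u τ).2 i) * (T (X.self u τ Finset.univ).p u.B.primeFactors i +
        R (X.self u τ Finset.univ).p i) := by
  have hn := hQ _ _ hA.self
  rw [self_p X u τ] at hB ⊢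
  have hw : ∀ j, ctX X (tp τ) (b₀ X u τ) j → wdX X (tp τ) (b₀ X u τ) j = u.B.primeFactors ∧
      ∀ l ∈ u.B.primeFactors, tp τ < l := by
    rintro j ⟨x, hj⟩
    obtain ⟨t, ht, h1⟩ := jv_mem hj
    have e : t = (X.c.D.par X.Y).toDT X.c.sp u.B u.A τ := List.mem_singleton.1 ht
    rw [e] at h1
    have hq : j.1.1 ∈ τ.items := (ctx_supp hn h1).1
    have hs := Rt.start hQ X.tOk hA
    have e1 : u.B.primeFactors = pm X.c.t (tp τ) (TYP9.mS u τ) j.1.1 := hs.rm.pf hQ X.tOk hq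
    refine ⟨e1.symm, fun l hl => ?_⟩
    rw [e1] at hl
    rcases (wd_mem.1 hl).2 with h2 | ⟨h2, h3⟩
    · exact h2
    · exfalso
      have e2 : TYJ47.cnt (tp τ) (TYP9.mS u τ).1 = ex (tp τ) u.A := TYJ47.cnt_m0 u τ
      have h4 : ex (tp τ) u.A ≤ ex (tp τ) j.1.1 :=
        Crest.Agent.R4P.StratN36.ex_le (hn.bk.pos _ hq) (hn.bk.dvd _ hq)
      rw [e2] at h3
      omega
  have h0 : ∀ b : Me × List (DT X.c.Lam (LbX X)), ∀ F : X.c.Lam → ℝ → ℝ, True := fun _ _ => trivial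
  have eS : ∀ i, mS (msX X) (tp τ) (GSK55.one (b₀ X u τ)) i = I (jv (b₀ X u τ).2 i) := fun i => by
    show ∑ _k : Unit, (1:ℝ) * I (jv (b₀ X u τ).2 i) = _
    simp
  have g1 : G1 (bm (rxm H)) (tp τ) (GSK55.one (b₀ X u τ)) :=
    ⟨fun _ => hB, fun _ => zero_le_one, by
      show ∑ _k : Unit, (1:ℝ) ≤ 1
      simp⟩
  have hlb : LB (ctX X) (wdX X) (l1 u.B.primeFactors) (tp τ) (GSK55.one (b₀ X u τ)) := by
    intro σ F hF
    show ∑ k : Unit, (1:ℝ) * Crest.Agent.R4P.DTn407.ch (ctX X (tp τ) (b₀ X u τ) (σ k) ∧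
      tp τ ∈ wdX X (tp τ) (b₀ X u τ) (σ k)) (F (wdX X (tp τ) (b₀ X u τ) (σ k))) ≤ _
    rw [Finset.sum_eq_zero fun k _ => by
      rw [Crest.Agent.R4P.DTn407.ch_off fun hc => ?_, mul_zero]
      obtain ⟨h1, h2⟩ := hw _ hc.1
      rw [h1] at hc
      exact lt_irrefl _ (h2 _ hc.2)]
    exact mul_nonneg (by positivity) (Law.ev_nonneg _ fun W => hF _)
  by_cases hx : ∃ j, ctX X (tp τ) (b₀ X u τ) j
  · obtain ⟨j₀, hj₀⟩ := hx
    have hla : LA (ctX X) (wdX X) (l1 u.B.primeFactors) (tp τ) (GSK55.one (b₀ X u τ)) := by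
      intro σ F hF
      rw [l1_ev]
      show ∑ k : Unit, (1:ℝ) * Crest.Agent.R4P.DTn407.ch (ctX X (tp τ) (b₀ X u τ) (σ k) ∧
        tp τ ∉ wdX X (tp τ) (b₀ X u τ) (σ k)) (F (wdX X (tp τ) (b₀ X u τ) (σ k))) ≤ _
      simp only [Finset.univ_unique, Finset.sum_singleton, one_mul]
      show Crest.Agent.R4P.DTn407.ch (ctX X (tp τ) (b₀ X u τ) (σ (() : Unit)) ∧
        tp τ ∉ wdX X (tp τ) (b₀ X u τ) (σ (() : Unit)))
        (F (wdX X (tp τ) (b₀ X u τ) (σ (() : Unit)))) ≤ _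
      by_cases hc : ctX X (tp τ) (b₀ X u τ) (σ (() : Unit)) ∧
          tp τ ∉ wdX X (tp τ) (b₀ X u τ) (σ (() : Unit))
      · rw [Crest.Agent.R4P.DTn407.ch_on hc, (hw _ hc.1).1]
      · rw [Crest.Agent.R4P.DTn407.ch_off hc]
        exact hF _
    have key := walk (wsX hQ H htu) P n (tp τ) (GSK55.one (b₀ X u τ)) (l1 u.B.primeFactors) g1
      hla hlb fun _ => (hw _ hj₀).2
    refine key.trans (le_of_eq ?_)
    refine Finset.sum_congr rfl fun i _ => ?_
    rw [eS, l1_ev]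
  · have hla : LA (ctX X) (wdX X) (l1 ∅) (tp τ) (GSK55.one (b₀ X u τ)) := by
      intro σ F hF
      rw [l1_ev]
      show ∑ k : Unit, (1:ℝ) * Crest.Agent.R4P.DTn407.ch (ctX X (tp τ) (b₀ X u τ) (σ k) ∧
        tp τ ∉ wdX X (tp τ) (b₀ X u τ) (σ k)) (F (wdX X (tp τ) (b₀ X u τ) (σ k))) ≤ _
      rw [Finset.sum_eq_zero fun k _ => by
        rw [Crest.Agent.R4P.DTn407.ch_off fun hc => hx ⟨_, hc.1⟩, mul_zero]]
      exact hF _
    have hlb' : LB (ctX X) (wdX X) (l1 ∅) (tp τ) (GSK55.one (b₀ X u τ)) := by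
      intro σ F hF
      show ∑ k : Unit, (1:ℝ) * Crest.Agent.R4P.DTn407.ch (ctX X (tp τ) (b₀ X u τ) (σ k) ∧
        tp τ ∈ wdX X (tp τ) (b₀ X u τ) (σ k)) (F (wdX X (tp τ) (b₀ X u τ) (σ k))) ≤ _
      rw [Finset.sum_eq_zero fun k _ => by
        rw [Crest.Agent.R4P.DTn407.ch_off fun hc => hx ⟨_, hc.1⟩, mul_zero]]
      exact mul_nonneg (by positivity) (Law.ev_nonneg _ fun W => hF _)
    have key := walk (wsX hQ H htu) P n (tp τ) (GSK55.one (b₀ X u τ)) (l1 ∅) g1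
      hla hlb' fun _ => by simp [l1]
    have hz : ∀ i, I (jv (b₀ X u τ).2 i) = 0 := fun i => by
      have : jv (b₀ X u τ).2 i = fun _ => 0 := by
        funext x
        by_contra hne
        exact hx ⟨i, x, hne⟩
      rw [this]
      unfold I
      simp
    refine key.trans (le_of_eq ?_)
    refine Finset.sum_congr rfl fun i _ => ?_
    rw [eS, hz i, zero_mul, zero_mul]

end Crest.Agent.R4P.LwX48
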