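import Crest.Agent.R4P.RXn_55
import Crest.Agent.R4P.TrM_28
import Crest.Agent.R4P.TyR_16

/-!
R4 (S0004) with powers, T3 (heights > 1), helper55: **scaled data of the ties, class by class**.

* `SC`, `CR p σ a b R k g gT S` : data and properties of ONE game class at the scale `σ`: `a, b`
  children contents, `R` real content which stays in the class, `k` real content which is separated,
  `g` real lifts, `gT` lift part of the real total.
* `asm τ S`, `SOk_asm` : the classes together (`RXm55.SOk`), the separated content of `z` is in `τ z`;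
  `asm_sgs`, `asm_F`, `asm_N`.
* `MR` : mismatch rows (drop `d`, mismatch `e`), `MR.CR` ; `MR.mean`.
* `KR` : rows with kept content (`TyR_16`), `KR.CR`.
-/

set_option autoImplicit false
set_option linter.unusedSectionVars false
set_option linter.unusedVariables false
open MeasureTheory Filter Set

namespace Crest.Agent.R4P.MRw55

open Crest.Agent.R4.Tour104
open Crest.Agent.R4P.MisR16 Crest.Agent.R4P.RXm55 Crest.Agent.R4P.TrM28

/-! ### one class at a scale -/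

/-- scaled data of one class -/
structure SC where
  /-- virtual main content -/
  vm : ℝ → ℝ
  /-- virtual separated content -/
  vk : ℝ → ℝ
  /-- lift part of the exact row -/
  gX : ℝ → ℝ
  /-- constant part of the exact row -/
  bX : ℝ → ℝ
  /-- extra lifts -/
  gE : ℝ → ℝ
  /-- the part of the real lifts paid at the scale -/
  sg : ℝ → ℝ
  /-- births -/
  e : ℝ → ℝ
  /-- losses -/
  ls : ℝ → ℝ
  /-- constant part of the virtual total -/
  be : ℝ → ℝ
  /-- lift part of the virtual total -/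
  G : ℝ → ℝ

/-- **rows of one class at the scale `σ`** -/
structure CR (p : ℕ) (σ : ℝ) (a b R k g gT : ℝ → ℝ) (S : SC) : Prop where
  pvm : PB S.vm
  pvk : PB S.vk
  pgX : PB S.gX
  pbX : PB S.bX
  pgE : PB S.gE
  psg : PB S.sg
  pe : PB S.e
  pls : PB S.ls
  pbe : PB S.be
  pG : PB S.G
  leR : ∀ x, S.vm x ≤ min (R x) σ
  leK : ∀ x, S.vk x ≤ min (k x) σ
  tot : ∀ x, S.vm x + S.vk x + S.e x = S.be (p * x) + S.G x
  nb : ∀ x, S.be (p * x) + S.G x ≤ min (R x) σ + min (k x) σ + S.ls x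
  lsT : ∀ x, min (R x) σ + min (k x) σ + S.ls x ≤ R x + k x
  mean : ∀ y, S.be y + Ep p S.G y = (1 - 1 / (p : ℝ)) * min (a y) σ + 1 / (p : ℝ) * min (b y) σ
  sgc : ∀ x, S.sg x ≤ g x
  sgG : ∀ x, S.sg x ≤ S.G x
  sgT : ∀ x, g x - S.sg x ≤ gT x - S.G x
  sg2 : ∀ x, S.sg x ≤ 2 * σ
  sgs : ∀ x, S.sg x ≤ S.vm x + S.vk x
  sgX : ∀ x, S.sg x ≤ S.gX x + S.gE x
  row : ∀ y, ∃ (s : Fin p → ℝ) (Δ : ℝ), (∀ i, 0 ≤ s i ∧ s i ≤ 1) ∧
    ∑ i, 1 / (p : ℝ) * s i = 1 / (p : ℝ) ∧ 0 ≤ Δ ∧ Δ ≤ max (min (b y) σ - min (a y) σ) 0 ∧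
    ∀ i : Fin p, S.bX y + S.gX ((y + (i : ℕ)) / p) =
      ((1 - 1 / (p : ℝ)) * min (a y) σ + 1 / (p : ℝ) * min (b y) σ) + (s i - 1 / (p : ℝ)) * Δ
  mnX : ∀ x, S.vm x ≤ S.bX (p * x) + S.gX x
  gE1 : ∀ x, S.gE x ≤ σ
  gXT : ∀ x, S.gX x ≤ gT x
  en : 2 ≤ p → ∀ y, ∑ i : Fin p, 1 / (p : ℝ) * (th (S.vm ((y + (i : ℕ)) / p)) +
      5 / 4 * th (S.vk ((y + (i : ℕ)) / p)) + 1 / 48 * th (S.gE ((y + (i : ℕ)) / p))) ≤
    (1 - 1 / (p : ℝ)) * th (min (a y) σ) + 1 / (p : ℝ) * th (min (b y) σ)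

section asm
variable {δ : Type} [Fintype δ] {p : ℕ} {σ : ℝ}

/-- the classes together -/
noncomputable def asm (τ : Equiv.Perm δ) (S : δ → SC) : SD δ where
  vm := fun z => (S z).vm
  vs := fun z => (S (τ.symm z)).vk
  gX := fun z => (S z).gX
  bX := fun z => (S z).bX
  gE := fun z => (S z).gE
  sg := fun z => (S z).sg
  e := fun x => ∑ z, (S z).e x
  ls := fun x => ∑ z, (S z).ls x
  be := fun y => ∑ z, (S z).be y
  G := fun x => ∑ z, (S z).G x

/-- the contents of the ties: main parts and separated parts -/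
def cont (τ : Equiv.Perm δ) (R k : δ → ℝ → ℝ) (z : δ) (x : ℝ) : ℝ := R z x + k (τ.symm z) x

variable {a b R k g gT : δ → ℝ → ℝ} {S : δ → SC} (τ : Equiv.Perm δ)

lemma min_fr {u v : ℝ} (hσ : 0 ≤ σ) (h : u = 0 ∨ v = 0) : min (u + v) σ = min u σ + min v σ := by
  rcases h with h | h
  · rw [h, zero_add, min_eq_left hσ, zero_add]
  · rw [h, add_zero, min_eq_left hσ, add_zero]

lemma sum_fr (hσ : 0 ≤ σ) (fr : ∀ z x, R z x = 0 ∨ k (τ.symm z) x = 0) (x : ℝ) :
    ∑ z, min (cont τ R k z x) σ = ∑ z, (min (R z x) σ + min (k z x) σ) := by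
  have e : ∀ z, min (cont τ R k z x) σ = min (R z x) σ + min (k (τ.symm z) x) σ := fun z =>
    min_fr hσ (fr z x)
  rw [Finset.sum_congr rfl fun z _ => e z, Finset.sum_add_distrib, Finset.sum_add_distrib]
  congr 1
  exact Equiv.sum_comp τ.symm fun z => min (k z x) σ

lemma sum_cont (x : ℝ) : ∑ z, cont τ R k z x = ∑ z, (R z x + k z x) := by
  unfold cont
  rw [Finset.sum_add_distrib, Finset.sum_add_distrib]
  congr 1
  exact Equiv.sum_comp τ.symm fun z => k z x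

/-- **the rows of the classes together** -/
theorem SOk_asm (hσ : 0 < σ) (H : ∀ z, CR p σ (a z) (b z) (R z) (k z) (g z) (gT z) (S z))
    (fr : ∀ z x, R z x = 0 ∨ k (τ.symm z) x = 0) :
    SOk p σ a b (cont τ R k) g (fun x => ∑ z, gT z x) (asm τ S) where
  pvm := fun z => (H z).pvm
  pvs := fun z => (H _).pvk
  pgX := fun z => (H z).pgX
  pbX := fun z => (H z).pbX
  pgE := fun z => (H z).pgE
  psg := fun z => (H z).psg
  pe := PB.sum _ fun z _ => (H z).pe
  pls := PB.sum _ fun z _ => (H z).pls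
  pbe := PB.sum _ fun z _ => (H z).pbe
  pG := PB.sum _ fun z _ => (H z).pG
  le := fun z x => by
    show (S z).vm x + (S (τ.symm z)).vk x ≤ min (cont τ R k z x) σ
    have e : min (cont τ R k z x) σ = min (R z x) σ + min (k (τ.symm z) x) σ :=
      min_fr hσ.le (fr z x)
    rw [e]
    exact add_le_add ((H z).leR x) ((H _).leK x)
  tot := fun x => by
    show ∑ z, ((S z).vm x + (S (τ.symm z)).vk x) + ∑ z, (S z).e x =
      ∑ z, (S z).be (p * x) + ∑ z, (S z).G x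
    have e : ∑ z, (S (τ.symm z)).vk x = ∑ z, (S z).vk x :=
      Equiv.sum_comp τ.symm fun z => (S z).vk x
    rw [Finset.sum_add_distrib, e, ← Finset.sum_add_distrib, ← Finset.sum_add_distrib,
      ← Finset.sum_add_distrib]
    exact Finset.sum_congr rfl fun z _ => (H z).tot x
  nb := fun x => by
    show ∑ z, (S z).be (p * x) + ∑ z, (S z).G x ≤ ∑ z, min (cont τ R k z x) σ + ∑ z, (S z).ls x
    rw [sum_fr τ hσ.le fr, ← Finset.sum_add_distrib, ← Finset.sum_add_distrib]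
    exact Finset.sum_le_sum fun z _ => (H z).nb x
  lsT := fun x => by
    show ∑ z, min (cont τ R k z x) σ + ∑ z, (S z).ls x ≤ ∑ z, cont τ R k z x
    rw [sum_fr τ hσ.le fr, sum_cont, ← Finset.sum_add_distrib]
    exact Finset.sum_le_sum fun z _ => (H z).lsT x
  mean := fun y => by
    show ∑ z, (S z).be y + Ep p (fun x => ∑ z, (S z).G x) y = _
    have e : Ep p (fun x => ∑ z, (S z).G x) y = ∑ z, Ep p (S z).G y := by
      unfold Ep
      rw [Finset.sum_comm, Finset.sum_div]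
    rw [e, ← Finset.sum_add_distrib]
    exact Finset.sum_congr rfl fun z _ => (H z).mean y
  sgc := fun z x => (H z).sgc x
  sgG := fun x => Finset.sum_le_sum fun z _ => (H z).sgG x
  sgT := fun x => by
    show ∑ z, (g z x - (S z).sg x) ≤ ∑ z, gT z x - ∑ z, (S z).G x
    rw [← Finset.sum_sub_distrib]
    exact Finset.sum_le_sum fun z _ => (H z).sgT x
  sg2 := fun z x => (H z).sg2 x
  sgX := fun z x => (H z).sgX x
  row := fun z y => (H z).row y
  mnX := fun z x => (H z).mnX x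
  gE1 := fun z x => (H z).gE1 x
  gXT := fun x => Finset.sum_le_sum fun z _ => (H z).gXT x
  en := fun hp y => by
    show ∑ i : Fin p, 1 / (p : ℝ) * ∑ z, (th ((S z).vm ((y + (i : ℕ)) / p)) +
      5 / 4 * th ((S (τ.symm z)).vk ((y + (i : ℕ)) / p)) +
        1 / 48 * th ((S z).gE ((y + (i : ℕ)) / p))) ≤ _
    have e : ∀ i : Fin p, ∑ z, (th ((S z).vm ((y + (i : ℕ)) / p)) +
        5 / 4 * th ((S (τ.symm z)).vk ((y + (i : ℕ)) / p)) +
          1 / 48 * th ((S z).gE ((y + (i : ℕ)) / p))) =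
        ∑ z, (th ((S z).vm ((y + (i : ℕ)) / p)) +
        5 / 4 * th ((S z).vk ((y + (i : ℕ)) / p)) +
          1 / 48 * th ((S z).gE ((y + (i : ℕ)) / p))) := fun i => by
      rw [Finset.sum_add_distrib, Finset.sum_add_distrib, Finset.sum_add_distrib,
        Finset.sum_add_distrib]
      congr 2
      exact Equiv.sum_comp τ.symm fun z => 5 / 4 * th ((S z).vk ((y + ((i : ℕ) : ℝ)) / p))
    rw [Finset.sum_congr rfl fun i _ => by rw [e i, Finset.mul_sum], Finset.sum_comm]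
    exact Finset.sum_le_sum fun z _ => (H z).en hp y

/-- the lifts are below the virtual contents -/
lemma asm_sgs (H : ∀ z, CR p σ (a z) (b z) (R z) (k z) (g z) (gT z) (S z)) (z : δ) (x : ℝ) :
    (asm τ S).sg z x ≤ (asm τ S).vm z x + (asm τ S).vs (τ z) x := by
  show (S z).sg x ≤ (S z).vm x + (S (τ.symm (τ z))).vk x
  rw [Equiv.symm_apply_apply]
  exact (H z).sgs x

lemma asm_F (hσ : 0 ≤ σ) (H : ∀ z, CR p σ (a z) (b z) (R z) (k z) (g z) (gT z) (S z)) {z : δ} {x : ℝ}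
    (h : R z x = 0) : (asm τ S).vm z x = 0 := by
  have h1 := (H z).leR x
  rw [h, min_eq_left hσ] at h1
  exact le_antisymm h1 ((H z).pvm.nonneg x)

lemma asm_N (hσ : 0 ≤ σ) (H : ∀ z, CR p σ (a z) (b z) (R z) (k z) (g z) (gT z) (S z)) {z : δ} {x : ℝ}
    (h : k (τ.symm z) x = 0) : (asm τ S).vs z x = 0 := by
  have h1 := (H (τ.symm z)).leK x
  rw [h, min_eq_left hσ] at h1
  exact le_antisymm h1 ((H _).pvk.nonneg x)

end asm

/-! ### helper lemmas -/

lemma w_facts {p : ℕ} (hp : 0 < p) : 0 < 1 / (p : ℝ) ∧ 1 / (p : ℝ) ≤ 1 := by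
  have hp1 : (1 : ℝ) ≤ p := by exact_mod_cast hp
  have hp' : (0 : ℝ) < p := by exact_mod_cast hp
  exact ⟨by positivity, by rw [div_le_one hp']; exact hp1⟩

lemma w_half {p : ℕ} (hp : 2 ≤ p) : 1 / (p : ℝ) ≤ 1 / 2 := by
  have : (2 : ℝ) ≤ p := by exact_mod_cast hp
  exact one_div_le_one_div_of_le (by norm_num) this

/-- a fibre property at a point -/
lemma at_pt {p : ℕ} (hp : 0 < p) {P : ℝ → ℝ → Prop} (h : ∀ y, ∀ i : Fin p, P y ((y + (i : ℕ)) / p))
    (x : ℝ) : P (p * x) x := by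
  have hp' : (p : ℝ) ≠ 0 := by exact_mod_cast hp.ne'
  have h1 := h (p * x) ⟨0, hp⟩
  have e : ((p : ℝ) * x + (((⟨0, hp⟩ : Fin p) : ℕ) : ℝ)) / p = x := by
    show ((p : ℝ) * x + ((0 : ℕ) : ℝ)) / p = x
    field_simp
    simp
  rwa [e] at h1

/-- measurable, periodic, between `0` and a PB function -/
lemma PB_of_le {f g : ℝ → ℝ} (hm : Measurable f) (h0 : ∀ x, 0 ≤ f x) (hg : PB g)
    (hle : ∀ x, f x ≤ g x) (hper : ∀ x, f (x + 1) = f x) : PB f := by
  obtain ⟨B, hB⟩ := hg.bdd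
  exact ⟨hm, h0, ⟨B, fun x => (hle x).trans (hB x)⟩, hper⟩

/-! ### mismatch rows -/

/-- **mismatch row** of one class: children contents `a` (P), `b` (N), drop `d`, mismatch `e`; `B`
constant part, `g` lifts, `k` separated content; the main content is `B (p x) + g x - k x` -/
structure MR (p : ℕ) (a b d e B g k : ℝ → ℝ) : Prop where
  pa : PB a
  pb : PB b
  pd : PB d
  pe : PB e
  pB : PB B
  pg : PB g
  pk : PB k
  dD : ∀ y, d y ≤ max (b y - a y) 0
  eX : ∀ y, e y ≤ mm (1 / (p : ℝ)) (a y) (b y) - 1 / (p : ℝ) * d y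
  row : ∀ y, ∃ s : Fin p → ℝ, (∀ i, 0 ≤ s i ∧ s i ≤ 1) ∧ ∑ i, 1 / (p : ℝ) * s i = 1 / (p : ℝ) ∧
    ∀ i : Fin p, g ((y + (i : ℕ)) / p) = s i * (d y + e y) ∧
      k ((y + (i : ℕ)) / p) = (1 - 1 / (p : ℝ)) * (s i * e y)
  eB : ∀ y, B y = mm (1 / (p : ℝ)) (a y) (b y) - 1 / (p : ℝ) * (d y + e y)

namespace MR
variable {p : ℕ} {a b d e B g k : ℝ → ℝ} {σ : ℝ}

/-- at a point -/
lemma at' (hp : 0 < p) (h : MR p a b d e B g k) (x : ℝ) : ∃ s : ℝ, 0 ≤ s ∧ s ≤ 1 ∧
    g x = s * (d (p * x) + e (p * x)) ∧ k x = (1 - 1 / (p : ℝ)) * (s * e (p * x)) :=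
  at_pt hp (P := fun y x => ∃ s : ℝ, 0 ≤ s ∧ s ≤ 1 ∧
    g x = s * (d y + e y) ∧ k x = (1 - 1 / (p : ℝ)) * (s * e y))
    (fun y i => by
      obtain ⟨s, h1, -, h3⟩ := h.row y
      exact ⟨s i, (h1 i).1, (h1 i).2, (h3 i).1, (h3 i).2⟩) x

/-- the mean -/
lemma mean (hp : 0 < p) (h : MR p a b d e B g k) (y : ℝ) :
    B y + Ep p g y = (1 - 1 / (p : ℝ)) * a y + 1 / (p : ℝ) * b y := by
  obtain ⟨s, h1, h2, h3⟩ := h.row y
  have e1 : Ep p g y = 1 / (p : ℝ) * (d y + e y) := by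
    unfold Ep
    rw [← Fin.sum_univ_eq_sum_range (fun i => g ((y + i) / p)) p, Finset.sum_div]
    have : ∀ i : Fin p, g ((y + ((i : ℕ) : ℝ)) / p) / p = (1 / (p : ℝ) * s i) * (d y + e y) :=
      fun i => by rw [(h3 i).1]; ring
    rw [Finset.sum_congr rfl fun i _ => this i, ← Finset.sum_mul, h2]
  rw [e1, h.eB y]
  unfold mm
  ring

/-- truncated drop -/
noncomputable def dσ (σ : ℝ) (a b d : ℝ → ℝ) (y : ℝ) : ℝ := D1 (a y) (b y) (d y) σ
/-- truncated mismatch -/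
noncomputable def eσ (p : ℕ) (σ : ℝ) (a b d e : ℝ → ℝ) (y : ℝ) : ℝ :=
  E1 (1 / (p : ℝ)) (a y) (b y) (d y) (e y) σ

lemma PB_dσ (hσ : 0 ≤ σ) (h : MR p a b d e B g k) : PB (dσ σ a b d) := PB_D1 h.pa h.pb h.pd hσ

lemma PB_eσ (hp : 0 < p) (hσ : 0 ≤ σ) (h : MR p a b d e B g k) : PB (eσ p σ a b d e) :=
  PB_E1 h.pa h.pb h.pd h.pe hσ (w_facts hp).1 (w_facts hp).2 h.dD

lemma dσ_le (h : MR p a b d e B g k) (y : ℝ) : dσ σ a b d y ≤ d y := D1_le

lemma eσ_le (hp : 0 < p) (h : MR p a b d e B g k) (y : ℝ) : eσ p σ a b d e y ≤ e y :=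
  E1_le (w_facts hp).1 (w_facts hp).2 (h.dD y) (h.pe.nonneg y)

/-- lift part of the truncated exact row -/
noncomputable def gX (p : ℕ) (σ : ℝ) (a b d e g : ℝ → ℝ) (x : ℝ) : ℝ :=
  g x * (dσ σ a b d (p * x) / (d (p * x) + e (p * x)))
/-- truncated extra lifts -/
noncomputable def gE (p : ℕ) (σ : ℝ) (a b d e g : ℝ → ℝ) (x : ℝ) : ℝ :=
  g x * (eσ p σ a b d e (p * x) / (d (p * x) + e (p * x)))
/-- constant part of the truncated exact row -/
noncomputable def bX (p : ℕ) (σ : ℝ) (a b d : ℝ → ℝ) (y : ℝ) : ℝ :=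
  mm (1 / (p : ℝ)) (min (a y) σ) (min (b y) σ) - 1 / (p : ℝ) * dσ σ a b d y
/-- virtual main content -/
noncomputable def vm (p : ℕ) (σ : ℝ) (a b d e g : ℝ → ℝ) (x : ℝ) : ℝ :=
  (bX p σ a b d (p * x) + gX p σ a b d e g x) -
    (1 / (p : ℝ) * eσ p σ a b d e (p * x) - 1 / (p : ℝ) * gE p σ a b d e g x)

/-- **scaled data of a mismatch row** -/
noncomputable def sc (p : ℕ) (σ : ℝ) (a b d e g : ℝ → ℝ) : SC where
  vm := vm p σ a b d e g
  vk := fun x => (1 - 1 / (p : ℝ)) * gE p σ a b d e g x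
  gX := gX p σ a b d e g
  bX := bX p σ a b d
  gE := gE p σ a b d e g
  sg := fun x => gX p σ a b d e g x + gE p σ a b d e g x
  e := fun _ => 0
  ls := fun _ => 0
  be := fun y => bX p σ a b d y - 1 / (p : ℝ) * eσ p σ a b d e y
  G := fun x => gX p σ a b d e g x + gE p σ a b d e g x

lemma ratio {u v t : ℝ} (h0 : 0 ≤ u) (h1 : u ≤ t) (s : ℝ) : s * t * (u / t) = s * u := by
  rcases eq_or_ne t 0 with h | h
  · have : u = 0 := le_antisymm (h ▸ h1) h0
    rw [this, h]; simp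
  · field_simp

lemma gX_at (hp : 0 < p) (hσ : 0 ≤ σ) (h : MR p a b d e B g k) {x s : ℝ}
    (hs : g x = s * (d (p * x) + e (p * x))) : gX p σ a b d e g x = s * dσ σ a b d (p * x) := by
  unfold gX
  rw [hs]
  exact ratio (v := 0) ((PB_dσ hσ h).nonneg _)
    ((dσ_le h _).trans (by linarith [h.pe.nonneg (p * x)])) s

lemma gE_at (hp : 0 < p) (hσ : 0 ≤ σ) (h : MR p a b d e B g k) {x s : ℝ}
    (hs : g x = s * (d (p * x) + e (p * x))) : gE p σ a b d e g x = s * eσ p σ a b d e (p * x) := by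
  unfold gE
  rw [hs]
  exact ratio (v := 0) ((PB_eσ hp hσ h).nonneg _)
    ((eσ_le hp h _).trans (by linarith [h.pd.nonneg (p * x)])) s

lemma PB_gX (hp : 0 < p) (hσ : 0 ≤ σ) (h : MR p a b d e B g k) : PB (gX p σ a b d e g) :=
  h.pg.mul ((TrR343.PB_div (PB_dσ hσ h) (h.pd.add h.pe) fun y =>
    (dσ_le h y).trans (by linarith [h.pe.nonneg y])).pull p)

lemma PB_gE (hp : 0 < p) (hσ : 0 ≤ σ) (h : MR p a b d e B g k) : PB (gE p σ a b d e g) :=
  h.pg.mul ((TrR343.PB_div (PB_eσ hp hσ h) (h.pd.add h.pe) fun y =>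
    (eσ_le hp h y).trans (by linarith [h.pd.nonneg y])).pull p)

lemma meas_mm' {f1 f2 : ℝ → ℝ} (w : ℝ) (h1 : Measurable f1) (h2 : Measurable f2) :
    Measurable fun y => mm w (f1 y) (f2 y) := meas_mm h1 h2 w

lemma PB_bX (hp : 0 < p) (hσ : 0 ≤ σ) (h : MR p a b d e B g k) : PB (bX p σ a b d) := by
  have w := w_facts hp
  refine PB_of_le ?_ (fun y => ns_nonneg w.1.le w.2 (h.pa.nonneg y) (h.pb.nonneg y) hσ)
    (PB.const hσ) (fun y => ?_) fun y => ?_
  · exact (meas_mm' _ (h.pa.meas.min measurable_const) (h.pb.meas.min measurable_const)).sub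
      ((PB_dσ hσ h).meas.const_mul _)
  · have h1 := mm_le_sig (A := a y) (B := b y) (σ := σ) w.1.le w.2
    have h2 := mul_nonneg w.1.le ((PB_dσ hσ h).nonneg y)
    unfold bX
    linarith
  · unfold bX
    rw [h.pa.per, h.pb.per, (PB_dσ hσ h).per]

/-- the form of the main part at a point -/
lemma vm_at (hp : 0 < p) (hσ : 0 ≤ σ) (h : MR p a b d e B g k) {x s : ℝ}
    (hs : g x = s * (d (p * x) + e (p * x))) : vm p σ a b d e g x =
      mm (1 / (p : ℝ)) (min (a (p * x)) σ) (min (b (p * x)) σ) +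
        (s - 1 / (p : ℝ)) * D1 (a (p * x)) (b (p * x)) (d (p * x)) σ -
        1 / (p : ℝ) * E1 (1 / (p : ℝ)) (a (p * x)) (b (p * x)) (d (p * x)) (e (p * x)) σ *
          (1 - s) := by
  unfold vm
  rw [gX_at hp hσ h hs, gE_at hp hσ h hs]
  unfold bX dσ eσ
  ring

theorem CR' (hp : 0 < p) (hσ : 0 < σ) (h : MR p a b d e B g k) :
    CR p σ a b (fun x => B (p * x) + g x - k x) k g g (sc p σ a b d e g) := by
  have w := w_facts hp
  have pX := PB_gX hp hσ.le h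
  have pE := PB_gE hp hσ.le h
  have pb' := PB_bX hp hσ.le h
  have pe' := PB_eσ hp hσ.le h
  have pd' := PB_dσ hσ.le h
  have w1' : 0 ≤ 1 - 1 / (p : ℝ) := by linarith [w.2]
  -- pointwise facts
  have A0 := fun y => h.pa.nonneg y
  have B0 := fun y => h.pb.nonneg y
  have hR : ∀ x s, g x = s * (d (p * x) + e (p * x)) →
      k x = (1 - 1 / (p : ℝ)) * (s * e (p * x)) → B (p * x) + g x - k x =
      mm (1 / (p : ℝ)) (a (p * x)) (b (p * x)) + (s - 1 / (p : ℝ)) * d (p * x) -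
        1 / (p : ℝ) * e (p * x) * (1 - s) := by
    intro x s h1 h2
    rw [h1, h2, h.eB]
    ring
  have hvm0 : ∀ x, 0 ≤ vm p σ a b d e g x := by
    intro x
    obtain ⟨s, s0, s1, h1, h2⟩ := h.at' hp x
    rw [vm_at hp hσ.le h h1]
    exact mn_nonneg w.1 w.2 (A0 _) (B0 _) hσ.le (h.pd.nonneg _) (h.dD _) (h.eX _) s0 s1
  have hvmle : ∀ x, vm p σ a b d e g x ≤ min (B (p * x) + g x - k x) σ := by
    intro x
    obtain ⟨s, s0, s1, h1, h2⟩ := h.at' hp x
    rw [vm_at hp hσ.le h h1, hR x s h1 h2]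
    exact mn_ge w.1 w.2 (h.pd.nonneg _) (h.dD _) s0 s1
  have hvk : ∀ x, (1 - 1 / (p : ℝ)) * gE p σ a b d e g x ≤ min (k x) σ := by
    intro x
    obtain ⟨s, s0, s1, h1, h2⟩ := h.at' hp x
    rw [gE_at hp hσ.le h h1, h2]
    exact sp_ge w.1 w.2 (A0 _) (B0 _) hσ.le (h.pd.nonneg _) (h.dD _) (h.pe.nonneg _) (h.eX _) s0 s1
  have htot : ∀ x, vm p σ a b d e g x + (1 - 1 / (p : ℝ)) * gE p σ a b d e g x + 0 =
      (bX p σ a b d (p * x) - 1 / (p : ℝ) * eσ p σ a b d e (p * x)) +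
        (gX p σ a b d e g x + gE p σ a b d e g x) := fun x => by unfold vm; ring
  have hbe0 : ∀ y, 0 ≤ bX p σ a b d y - 1 / (p : ℝ) * eσ p σ a b d e y := by
    intro y
    have h1 := E1_le_ns (η := e y) w.1 w.2 (A0 y) (B0 y) hσ.le (h.dD y) (h.eX y)
    have h2 := pe'.nonneg y
    have h3 : 1 / (p : ℝ) * eσ p σ a b d e y ≤ 1 * eσ p σ a b d e y :=
      mul_le_mul_of_nonneg_right w.2 h2
    have h4 : eσ p σ a b d e y ≤ bX p σ a b d y := h1
    linarith
  have hgEσ : ∀ x, gE p σ a b d e g x ≤ σ := by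
    intro x
    obtain ⟨s, s0, s1, h1, h2⟩ := h.at' hp x
    rw [gE_at hp hσ.le h h1]
    have h3 := E1_le_sig (η := e (p * x)) w.1 w.2 (A0 (p * x)) (B0 (p * x)) hσ.le
      (h.pd.nonneg _) (h.dD _) (h.eX _)
    have h4 := pe'.nonneg (p * x)
    have h5 : s * eσ p σ a b d e (p * x) ≤ 1 * eσ p σ a b d e (p * x) :=
      mul_le_mul_of_nonneg_right s1 h4
    have h6 : eσ p σ a b d e (p * x) ≤ σ := h3
    linarith
  have hgXσ : ∀ x, gX p σ a b d e g x ≤ σ := by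
    intro x
    obtain ⟨s, s0, s1, h1, h2⟩ := h.at' hp x
    rw [gX_at hp hσ.le h h1]
    have h3 := D1_le_sig (Δ := d (p * x)) (A0 (p * x)) (B0 (p * x)) hσ.le
    have h4 := pd'.nonneg (p * x)
    have h5 : s * dσ σ a b d (p * x) ≤ 1 * dσ σ a b d (p * x) := mul_le_mul_of_nonneg_right s1 h4
    have h6 : dσ σ a b d (p * x) ≤ σ := h3
    linarith
  have hXle : ∀ x, gX p σ a b d e g x + gE p σ a b d e g x ≤ g x := by
    intro x
    obtain ⟨s, s0, s1, h1, h2⟩ := h.at' hp x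
    rw [gX_at hp hσ.le h h1, gE_at hp hσ.le h h1, h1, ← mul_add]
    exact mul_le_mul_of_nonneg_left (add_le_add (dσ_le h _) (eσ_le hp h _)) s0
  have mvm : Measurable (vm p σ a b d e g) := by
    have m1 := (pb'.pull p).meas
    have m2 := (pe'.pull p).meas
    exact (m1.add pX.meas).sub ((m2.const_mul _).sub (pE.meas.const_mul _))
  have pvm : PB (vm p σ a b d e g) := by
    refine PB_of_le mvm hvm0 (PB.const hσ.le) (fun x => (hvmle x).trans (min_le_right _ _))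
      fun x => ?_
    have e1 := (pb'.pull p).per x
    have e2 := (pe'.pull p).per x
    unfold vm
    rw [e1, e2, pX.per, pE.per]
  have pbe : PB fun y => bX p σ a b d y - 1 / (p : ℝ) * eσ p σ a b d e y := by
    refine PB_of_le (pb'.meas.sub (pe'.meas.const_mul _)) hbe0 pb' (fun y => ?_) fun y => ?_
    · have := mul_nonneg w.1.le (pe'.nonneg y)
      linarith
    · rw [pb'.per, pe'.per]
  refine ⟨pvm, pE.smul w1', pX, pb', pE, pX.add pE, PB.const le_rfl, PB.const le_rfl, pbe,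
    pX.add pE, hvmle, hvk, htot, fun x => ?_, fun x => ?_, fun y => ?_, fun x => hXle x,
    fun x => le_rfl, fun x => le_rfl, fun x => ?_, fun x => ?_, fun x => le_rfl, fun y => ?_,
    fun x => ?_, hgEσ, fun x => ?_, fun hp2 y => ?_⟩
  · show (bX p σ a b d (p * x) - 1 / (p : ℝ) * eσ p σ a b d e (p * x)) +
      (gX p σ a b d e g x + gE p σ a b d e g x) ≤ min (B (p * x) + g x - k x) σ + min (k x) σ + 0
    rw [← htot x]
    linarith [hvmle x, hvk x]
  · show min (B (p * x) + g x - k x) σ + min (k x) σ + 0 ≤ (B (p * x) + g x - k x) + k x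
    linarith [min_le_left (B (p * x) + g x - k x) σ, min_le_left (k x) σ]
  · -- the mean
    obtain ⟨s, h1, h2, h3⟩ := h.row y
    have hx : ∀ i : ℕ, (p:ℝ) * ((y + i) / p) = y + i := fun i => by
      have : (p : ℝ) ≠ 0 := by exact_mod_cast hp.ne'
      field_simp
    have e1 : Ep p (fun x => gX p σ a b d e g x + gE p σ a b d e g x) y =
        1 / (p : ℝ) * (dσ σ a b d y + eσ p σ a b d e y) := by
      unfold Ep
      rw [← Fin.sum_univ_eq_sum_range (fun i => gX p σ a b d e g ((y + i) / p) +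
        gE p σ a b d e g ((y + i) / p)) p, Finset.sum_div]
      have : ∀ i : Fin p, (gX p σ a b d e g ((y + ((i : ℕ) : ℝ)) / p) +
          gE p σ a b d e g ((y + ((i : ℕ) : ℝ)) / p)) / p =
          (1 / (p : ℝ) * s i) * (dσ σ a b d y + eσ p σ a b d e y) := fun i => by
        have h4 : g ((y + ((i : ℕ) : ℝ)) / p) = s i * (d (p * ((y + ((i : ℕ) : ℝ)) / p)) +
            e (p * ((y + ((i : ℕ) : ℝ)) / p))) := by
          rw [hx, h.pd.per_nat, h.pe.per_nat, (h3 i).1]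
        rw [gX_at hp hσ.le h h4, gE_at hp hσ.le h h4, hx, pd'.per_nat, pe'.per_nat]
        ring
      rw [Finset.sum_congr rfl fun i _ => this i, ← Finset.sum_mul, h2]
    show (bX p σ a b d y - 1 / (p : ℝ) * eσ p σ a b d e y) +
      Ep p (fun x => gX p σ a b d e g x + gE p σ a b d e g x) y = _
    rw [e1]
    unfold bX mm
    ring
  · show gX p σ a b d e g x + gE p σ a b d e g x ≤ 2 * σ
    linarith [hgXσ x, hgEσ x]
  · show gX p σ a b d e g x + gE p σ a b d e g x ≤ vm p σ a b d e g x +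
      (1 - 1 / (p : ℝ)) * gE p σ a b d e g x
    have := htot x
    have := hbe0 (p * x)
    linarith
  · -- the exact row
    obtain ⟨s, h1, h2, h3⟩ := h.row y
    refine ⟨s, dσ σ a b d y, h1, h2, pd'.nonneg y, D1_le_max, fun i => ?_⟩
    have hx : ∀ i : ℕ, (p:ℝ) * ((y + i) / p) = y + i := fun i => by
      have : (p : ℝ) ≠ 0 := by exact_mod_cast hp.ne'
      field_simp
    have h4 : g ((y + ((i : ℕ) : ℝ)) / p) = s i * (d (p * ((y + ((i : ℕ) : ℝ)) / p)) +
        e (p * ((y + ((i : ℕ) : ℝ)) / p))) := by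
      rw [hx, h.pd.per_nat, h.pe.per_nat, (h3 i).1]
    show bX p σ a b d y + gX p σ a b d e g ((y + ((i : ℕ) : ℝ)) / p) = _
    rw [gX_at hp hσ.le h h4, hx, pd'.per_nat]
    unfold bX mm
    ring
  · show vm p σ a b d e g x ≤ bX p σ a b d (p * x) + gX p σ a b d e g x
    obtain ⟨s, s0, s1, h1, h2⟩ := h.at' hp x
    have h5 : gE p σ a b d e g x ≤ eσ p σ a b d e (p * x) := by
      rw [gE_at hp hσ.le h h1]
      exact mul_le_of_le_one_left (pe'.nonneg _) s1
    have h6 := mul_le_mul_of_nonneg_left h5 w.1.le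
    unfold vm
    linarith
  · show gX p σ a b d e g x ≤ g x
    linarith [hXle x, pE.nonneg x]
  · -- the energy
    obtain ⟨s, h1, h2, h3⟩ := h.row y
    have hx : ∀ i : ℕ, (p:ℝ) * ((y + i) / p) = y + i := fun i => by
      have : (p : ℝ) ≠ 0 := by exact_mod_cast hp.ne'
      field_simp
    have h4 : ∀ i : Fin p, g ((y + ((i : ℕ) : ℝ)) / p) =
        s i * (d (p * ((y + ((i : ℕ) : ℝ)) / p)) + e (p * ((y + ((i : ℕ) : ℝ)) / p))) := fun i => by
      rw [hx, h.pd.per_nat, h.pe.per_nat, (h3 i).1]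
    have u1 : ∑ _i : Fin p, 1 / (p : ℝ) = 1 := by
      rw [Finset.sum_const, Finset.card_univ, Fintype.card_fin, nsmul_eq_mul]
      have : (p : ℝ) ≠ 0 := by exact_mod_cast hp.ne'
      field_simp
    have key := row_sig (u := fun _ : Fin p => 1 / (p : ℝ)) (s := s) (w := 1 / (p : ℝ))
      (A := a y) (B := b y) (Δ := d y) (η := e y) (σ := σ)
      (fun _ => w.1.le) u1 h1 h2 w.1 (w_half hp2) (A0 y) (B0 y) hσ.le (h.pd.nonneg y) (h.dD y)
      (h.eX y)
    refine le_trans (Finset.sum_le_sum fun i _ => ?_) key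
    refine mul_le_mul_of_nonneg_left ?_ w.1.le
    show th (vm p σ a b d e g ((y + ((i : ℕ) : ℝ)) / p)) +
      5 / 4 * th ((1 - 1 / (p : ℝ)) * gE p σ a b d e g ((y + ((i : ℕ) : ℝ)) / p)) +
      1 / 48 * th (gE p σ a b d e g ((y + ((i : ℕ) : ℝ)) / p)) ≤ _
    have e1 : vm p σ a b d e g ((y + ((i : ℕ) : ℝ)) / p) =
        mm (1 / (p : ℝ)) (min (a y) σ) (min (b y) σ) + (s i - 1 / (p : ℝ)) * D1 (a y) (b y) (d y) σ -
        1 / (p : ℝ) * E1 (1 / (p : ℝ)) (a y) (b y) (d y) (e y) σ * (1 - s i) := by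
      rw [vm_at hp hσ.le h (h4 i)]
      simp only [hx, h.pa.per_nat, h.pb.per_nat, h.pd.per_nat, h.pe.per_nat]
    have e2 : gE p σ a b d e g ((y + ((i : ℕ) : ℝ)) / p) =
        s i * E1 (1 / (p : ℝ)) (a y) (b y) (d y) (e y) σ := by
      rw [gE_at hp hσ.le h (h4 i), hx, pe'.per_nat]
      rfl
    rw [e1, e2]
    have t0 : 0 ≤ th (s i * E1 (1 / (p : ℝ)) (a y) (b y) (d y) (e y) σ) :=
      th_nonneg (mul_nonneg (h1 i).1 E1_nonneg)
    linarith

end MR

end Crest.Agent.R4P.MRw55
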