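import Crest.Agent.R4P.MSd_343

/-!
R4 (S0004) with powers, T3 (heights > 1), helper407: **group data of the bundles of decorated trees**.

* `GD.rg : RG H.rb` : group data of a game with nested classes, no class change error (`br = 0`).
* `ms_main` : for group data `D : RG U` and `ε > 0` there is a constant `C` (only `ε`) with
  `K ≤ ε I tot² + C I tot + E` for the scaled mode game `D.ms`.
* `GD.main` : the same for the game data `H : GD wr kg Inv`.
-/

set_option autoImplicit false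
set_option linter.unusedSectionVars false
set_option linter.unusedVariables false
open MeasureTheory Filter Set

namespace Crest.Agent.R4P.MSr407

open Crest.Agent.R4.Tour104 Crest.Agent.R4.Tour758 Crest.Agent.R4.Avg758 Crest.Agent.R4.Clos758
open Crest.Agent.R4.ClosL758 Crest.Agent.R4.ClosG758 Crest.Agent.R4.ClosR758
open Crest.Agent.R4P.ClosR442 Crest.Agent.R4P.Grp36
open Crest.Agent.R4P.Xfer36 Crest.Agent.R4P.TopC36 Crest.Agent.R4P.PN36
open Crest.Agent.R4P.GMer27 Crest.Agent.R4P.GCol27 Crest.Agent.R4P.GWa343 Crest.Agent.R4P.GWb343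
open Crest.Agent.R4P.GWc343 Crest.Agent.R4P.GWd343 Crest.Agent.R4P.GWe343 Crest.Agent.R4P.GWf343
open Crest.Agent.R4P.RSys343 Crest.Agent.R4P.TrR343 Crest.Agent.R4P.RXs343
open Crest.Agent.R4P.RXj343 Crest.Agent.R4P.RXj343.RX Crest.Agent.R4P.MSi343 Crest.Agent.R4P.MSd343
open Crest.Agent.R4P.ModeP940 (PP SS SS_nonneg SS_add)
open Crest.Agent.R4P.ModeS16 (MS)
open Crest.Agent.R4P.LogL51 (isLf)
open Crest.Agent.R4P.Walk560 (DT)

section gd
variable {Λ κ : Type} [Fintype Λ] [DecidableEq Λ] [Fintype κ] [DecidableEq κ]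
  {δ : Type} [Fintype δ] [DecidableEq δ]
variable {wr : ℕ → Λ → κ} {kg : ℕ → Λ → Option δ} {Inv : ℕ → List (DT Λ κ) → Prop}

/-- the contents of the old classes inside a new class -/
noncomputable def gz (H : GD wr kg Inv) (p : ℕ) (L : List (DT Λ κ)) (z' : δ) (x : ℝ) : ℝ :=
  ∑ z ∈ Finset.univ.filter (fun z => H.phi p z = z'), bc (kg p) (bN p L) (some z) x

lemma pbn (H : GD wr kg Inv) {p : ℕ} {L : List (DT Λ κ)} (ht : Inv p L) : PBL (bN p L) :=
  ((H.pb ht).bN p).self

lemma gz_le (H : GD wr kg Inv) {p : ℕ} {L : List (DT Λ κ)} (ht : Inv p L) (hp : p ≠ 0)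
    (z' : δ) (x : ℝ) : gz H p L z' x ≤ bc (kg (p - 1)) (bN p L) (some z') x :=
  bc_mono_eq (bN p L) (kg p) (kg (p - 1)) (H.phi p) (H.nest ht hp) (pbn H ht) z' x

lemma gz_nonneg (H : GD wr kg Inv) {p : ℕ} {L : List (DT Λ κ)} (ht : Inv p L) (z' : δ) (x : ℝ) :
    0 ≤ gz H p L z' x := Finset.sum_nonneg fun z _ => (PB_bc (pbn H ht) _).nonneg x

lemma sum_gz (H : GD wr kg Inv) (p : ℕ) (L : List (DT Λ κ)) (x : ℝ) :
    ∑ z', gz H p L z' x = ∑ z, bc (kg p) (bN p L) (some z) x := by
  unfold gz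
  exact Finset.sum_fiberwise Finset.univ (H.phi p) fun z => bc (kg p) (bN p L) (some z) x

/-- **one bundle** : entering and merging -/
lemma bun_le (H : GD wr kg Inv) {p : ℕ} {L : List (DT Λ κ)} (ht : Inv p L) (hp : p ≠ 0) (σ x : ℝ) :
    ∑ z, min (bc (kg (p - 1)) (bN p L) (some z) x) σ + bc (kg (p - 1)) (bN p L) none x ≤
      ∑ z, min (gz H p L z x) σ + bc (kg p) (bN p L) none x := by
  have e1 := total_eq (kg p) (bN p L) x
  have e2 := total_eq (kg (p - 1)) (bN p L) x
  have e3 := sum_gz H p L x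
  have key : ∑ z, min (bc (kg (p - 1)) (bN p L) (some z) x) σ ≤
      ∑ z, (min (gz H p L z x) σ + (bc (kg (p - 1)) (bN p L) (some z) x - gz H p L z x)) := by
    refine Finset.sum_le_sum fun z _ => ?_
    have h := gz_le H ht hp z x
    rcases le_total (gz H p L z x) σ with h1 | h1
    · rw [min_eq_left h1]
      refine (min_le_left _ _).trans ?_
      linarith
    · rw [min_eq_right h1]
      refine (min_le_right _ _).trans ?_
      linarith
  rw [Finset.sum_add_distrib, Finset.sum_sub_distrib] at key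
  linarith

lemma SS_M {J ζ : Type*} [Fintype J] [Fintype ζ] {c : J → ℝ} (f : ζ → J → ℝ) (g : J → ℝ) :
    SS c f + M c g = M c fun j => ∑ z, f z j + g j := by
  rw [M_add, M_sum]
  rfl

/-- **the short content after entering and merging, against the coarse truncations** -/
lemma A_le_gz (H : GD wr kg Inv) {p : ℕ} {s : Gs (List (DT Λ κ))} (hs : H.rx.gok p s) (hp : p ≠ 0)
    (σ x : ℝ) : H.rb.A σ (p - 1) (H.rx.N p s) x ≤
      SS s.c (fun z j => min (gz H p (s.L j) z x) σ) +
        M s.c fun j => bc (kg p) (bN p (s.L j)) none x := by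
  have e1 : H.rb.A σ (p - 1) (H.rx.N p s) x =
      SS s.c (fun z j => min (bc (kg (p - 1)) (bN p (s.L j)) (some z) x) σ) +
        M s.c fun j => bc (kg (p - 1)) (bN p (s.L j)) none x := rfl
  rw [e1, SS_M, SS_M]
  exact M_mono hs.1.c0 fun j => bun_le H (hs.2 j) hp σ x

/-- **group data of the bundles** (no class change error) -/
noncomputable def _root_.Crest.Agent.R4P.MSd343.GD.rg (H : GD wr kg Inv) : RG H.rb where
  ok := H.rx.gok
  gk := fun h => h
  okC := fun h hp => RX.gok_C h hp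
  okN := fun h hp => RX.gok_N h hp
  br := fun _ _ _ _ => 0
  pbr := fun _ _ _ => PB.const le_rfl
  arN := fun {σ p s} hσ hs hp x => by
    refine (A_le_gz H hs hp σ x).trans ?_
    have e : H.rb.AR σ p s x = SS s.c (fun z j => min (bc (kg p) (bN p (s.L j)) (some z) x) σ) +
        M s.c fun j => bc (kg p) (bN p (s.L j)) none x := rfl
    rw [e]
    refine add_le_add ?_ le_rfl
    exact SS_split hs.1.c0 hσ (H.phi p)
      (h := fun z j => bc (kg p) (bN p (s.L j)) (some z) x) (g := fun z' j => gz H p (s.L j) z' x)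
      (fun z j => (PB_bc (pbn H (hs.2 j)) _).nonneg x) fun z' j => rfl
  ref := fun {σ p s} hσ hs hp x => by
    have h1 := A_le_gz H hs hp σ x
    have e : H.rb.AR σ p s x = SS s.c (fun z j => min (bc (kg p) (bN p (s.L j)) (some z) x) σ) +
        M s.c fun j => bc (kg p) (bN p (s.L j)) none x := rfl
    have h2 := PS_split hs.1 hσ (H.phi p)
      (h := fun z j => bc (kg p) (bN p (s.L j)) (some z) x) (g := fun z' j => gz H p (s.L j) z' x)
      (fun z j => (PB_bc (pbn H (hs.2 j)) _).nonneg x) fun z' j => rfl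
    have h3 : PS σ s.c s.W (fun z j => min (gz H p (s.L j) z x) σ) ≤
        PS σ s.c s.W (fun z j => min (bc (kg (p - 1)) (bN p (s.L j)) (some z) x) σ) :=
      PS_mono hs.1 hσ (fun z j => le_min (gz_nonneg H (hs.2 j) z x) hσ.le)
        (fun z j => min_le_min_right _ (gz_le H (hs.2 j) hp z x)) fun z j => min_le_right _ _
    have e4 : H.rx.PtR σ p s x =
        PS σ s.c s.W (fun z j => min (bc (kg p) (bN p (s.L j)) (some z) x) σ) := rfl
    have e5 : H.rx.Pt σ (p - 1) (H.rx.N p s) x =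
        PS σ s.c s.W (fun z j => min (bc (kg (p - 1)) (bN p (s.L j)) (some z) x) σ) := rfl
    rw [e4, e5, e]
    have h6 : σ * (SS s.c (fun z j => min (bc (kg p) (bN p (s.L j)) (some z) x) σ) -
        SS s.c (fun z j => min (gz H p (s.L j) z x) σ)) ≤
        σ * (SS s.c (fun z j => min (bc (kg p) (bN p (s.L j)) (some z) x) σ) +
        (M s.c fun j => bc (kg p) (bN p (s.L j)) none x) -
          H.rb.A σ (p - 1) (H.rx.N p s) x) :=
      mul_le_mul_of_nonneg_left (by linarith) hσ.le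
    linarith

end gd

/-! ### the theorem for row systems -/

section ms
variable {β δ : Type} [Fintype δ] {R : RX β δ} {U : RB R}

/-- the constant of the walks -/
lemma exists_Km {del : ℝ} (B0 : ℝ) : ∃ Km : ℕ, del * B0 ≤ 2 ^ Km := by
  obtain ⟨k, hk⟩ := pow_unbounded_of_one_lt (del * B0) (one_lt_two : (1:ℝ) < 2)
  exact ⟨k, hk.le⟩

/-- **the scaled mode game of group data** : `K ≤ ε I tot² + C_ε I tot + E` -/
theorem ms_main {ε : ℝ} (hε : 0 < ε) : ∃ (del : ℝ) (h0 : 0 < del) (h1 : del ≤ 1) (C : ℝ), 0 ≤ C ∧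
    ∀ {β δ : Type} [Fintype δ] {R : RX β δ} {U : RB R} (D : RG U) {Km : ℕ}
      (hK : del * U.B0 ≤ 2 ^ Km) (n p : ℕ) (s : Gs β), D.ok p s →
      ModeS16.K (D.ms h0 h1 hK) n p (p, s) ≤ ε * I (fun x => su s U.tt x ^ 2) + C * I (su s U.tt) +
        ModeS16.E (D.ms h0 h1 hK) n p (p, s) := by
  obtain ⟨del, h0, h1, h2⟩ := ModeS16.exists_del hε
  refine ⟨del, h0, h1, 2 * ModeR16.Ld del, by
    have := ModeR16.Ld_pos h0
    positivity, ?_⟩
  intro β δ _ R U D Km hK n p s hs
  have h := ModeS16.main_root (w := D.ms h0 h1 hK) n p (p, s) ⟨rfl, hs⟩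
  have e1 : (D.ms h0 h1 hK).T (p, s) = su s U.tt := rfl
  have e2 : (D.ms h0 h1 hK).del = del := rfl
  rw [e1, e2] at h
  have h3 : 0 ≤ I (fun x => su s U.tt x ^ 2) := I_nonneg fun x => sq_nonneg _
  have h4 := mul_le_mul_of_nonneg_right h2 h3
  linarith

end ms

end Crest.Agent.R4P.MSr407
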