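import Crest.Agent.R4P.NbP_47

/-!
R4 (S0004) with powers, helper4: **a label born at an own tie has a huge denominator.**

* `den_big` : `NoBir γ A t q`, `s ∈ mt q ∪ uq q`, `(log s)^A R ≤ 1`, `ρ` a fraction near `s Bab γ` with
  `den^5 R ≤ 1`, `dist^5 ≤ R^4`, `s ∤ num ρ`  ⟹  `exp (s^(1/4) / 4) < den ρ`;
* `R_small` : then `R < exp (-s^(1/4))`, more precisely `R ≤ exp (-(5/4) s^(1/4))`;
* **`ctx_den_big`** : the same for the items of a context in `SyBP`.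
-/

set_option autoImplicit false

namespace Crest.Agent.R4P.NbD4

open Finset
open Crest.Agent.R4P.Cnt588
open Crest.Agent.R4P.PruneBir12 (Bir NoBir)
open Crest.Agent.R4P.PruneAcc17 (Bab)
open Crest.Agent.R4.Max709 Crest.Agent.R4.Soft104 Crest.Agent.R4P.Skel189
open Crest.Agent.R4P.SxT6 Crest.Agent.R4P.NbP47

/-- fifth roots -/
lemma le_rpow_of_pow5 {x T : ℝ} (hx : 0 ≤ x) (h : x ^ 5 ≤ T) : x ≤ T ^ (1 / 5 : ℝ) := by
  have e : x = (x ^ 5) ^ (1 / 5 : ℝ) := by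
    rw [← Real.rpow_natCast, ← Real.rpow_mul hx]
    norm_num
  rw [e]
  exact Real.rpow_le_rpow (by positivity) h (by norm_num)

/-- **a fraction born at `s` has a huge denominator** -/
theorem den_big {γ A : ℝ} {t : IT} {q s : ℕ} (hN : NoBir γ A t q)
    (hs : s ∈ t.mt q ∨ s ∈ t.uq q) {R : ℝ} (hR0 : 0 < R) (hR1 : R ≤ 1)
    (h1 : Real.log s ^ A * R ≤ 1) (hT : Real.log s ^ A ≤ Real.exp ((s : ℝ) ^ (1 / 4 : ℝ)))
    {ρ : ℚ} (hd : (ρ.den : ℝ) ^ 5 * R ≤ 1)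
    (hn : |((s : ℝ) * (Bab t q s * γ)) - (ρ : ℝ)| ^ 5 ≤ R ^ 4) (hnum : ¬ (s : ℤ) ∣ ρ.num) :
    Real.exp ((s : ℝ) ^ (1 / 4 : ℝ) / 4) < ρ.den := by
  by_contra hc
  push Not at hc
  have hk0 : 0 < ρ.den := ρ.den_pos
  have hkR : (0 : ℝ) < ρ.den := by exact_mod_cast hk0
  set E : ℝ := Real.exp ((s : ℝ) ^ (1 / 4 : ℝ)) with hE
  have hE0 : 0 < E := Real.exp_pos _
  have hE1 : 1 ≤ E := Real.one_le_exp (by positivity)
  set T : ℝ := min (1 / R) E with hTd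
  have hT0 : 0 < T := lt_min (by positivity) hE0
  have hT1 : 1 ≤ T := le_min (by rw [le_div_iff₀ hR0]; linarith) hE1
  have hTR : T ≤ 1 / R := min_le_left _ _
  refine hN s hs ⟨T, le_min ?_ hT, min_le_right _ _, ρ.den, hk0, ?_, ρ.num, hnum, ?_⟩
  · rw [le_div_iff₀ hR0]
    exact h1
  · -- the denominator
    have a1 : (ρ.den : ℝ) ≤ (1 / R) ^ (1 / 4 : ℝ) := by
      have h5 : (ρ.den : ℝ) ^ 5 ≤ 1 / R := by rw [le_div_iff₀ hR0]; exact hd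
      refine (le_rpow_of_pow5 hkR.le h5).trans ?_
      exact Real.rpow_le_rpow_of_exponent_le (by rw [le_div_iff₀ hR0]; linarith) (by norm_num)
    have a2 : (ρ.den : ℝ) ≤ E ^ (1 / 4 : ℝ) := by
      refine hc.trans (le_of_eq ?_)
      rw [hE, ← Real.exp_mul]
      congr 1
      ring
    rcases min_choice (1 / R) E with h | h
    · rw [hTd, h]; exact a1
    · rw [hTd, h]; exact a2
  · -- the distance
    have b1 : |((s : ℝ) * (Bab t q s * γ)) - (ρ : ℝ)| ≤ (R ^ 4) ^ (1 / 5 : ℝ) :=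
      le_rpow_of_pow5 (abs_nonneg _) hn
    have b2 : (R ^ 4) ^ (1 / 5 : ℝ) = (1 / R) ^ (-(4 / 5) : ℝ) := by
      have e0 : (1 / R : ℝ) = R⁻¹ := one_div R
      rw [e0, Real.inv_rpow hR0.le, Real.rpow_neg hR0.le, inv_inv, ← Real.rpow_natCast,
        ← Real.rpow_mul hR0.le]
      norm_num
    have b3 : (1 / R) ^ (-(4 / 5) : ℝ) ≤ T ^ (-(4 / 5) : ℝ) :=
      Real.rpow_le_rpow_of_nonpos hT0 hTR (by norm_num)
    have b4 : |((s : ℝ) * (Bab t q s * γ)) - (ρ : ℝ)| ≤ T ^ (-(4 / 5) : ℝ) := by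
      rw [b2] at b1
      exact b1.trans b3
    have e3 : (ρ.den : ℝ) * s * ((Bab t q s : ℝ) * γ) - ρ.num =
        ρ.den * (((s : ℝ) * (Bab t q s * γ)) - (ρ : ℝ)) := by
      have e4 : (ρ.num : ℝ) = ρ.den * (ρ : ℝ) := by
        have := Rat.den_mul_eq_num ρ
        exact_mod_cast this.symm
      rw [e4]; ring
    rw [e3, abs_mul, abs_of_pos hkR]
    exact mul_le_mul_of_nonneg_left b4 hkR.le

/-- **the radius of a birth is tiny** -/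
theorem R_small {s : ℕ} {R : ℝ} {k : ℕ} (hd : (k : ℝ) ^ 5 * R ≤ 1)
    (h : Real.exp ((s : ℝ) ^ (1 / 4 : ℝ) / 4) < k) :
    R ≤ Real.exp (-(5 / 4 * (s : ℝ) ^ (1 / 4 : ℝ))) := by
  have h0 : 0 < Real.exp ((s : ℝ) ^ (1 / 4 : ℝ) / 4) := Real.exp_pos _
  have h5 : Real.exp (5 / 4 * (s : ℝ) ^ (1 / 4 : ℝ)) ≤ (k : ℝ) ^ 5 := by
    have e : Real.exp (5 / 4 * (s : ℝ) ^ (1 / 4 : ℝ)) =
        Real.exp ((s : ℝ) ^ (1 / 4 : ℝ) / 4) ^ 5 := by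
      rw [← Real.exp_nat_mul]
      congr 1
      push_cast
      ring
    rw [e]
    exact pow_le_pow_left₀ h0.le h.le 5
  by_contra hc
  push Not at hc
  have h1 : Real.exp (5 / 4 * (s : ℝ) ^ (1 / 4 : ℝ)) *
      Real.exp (-(5 / 4 * (s : ℝ) ^ (1 / 4 : ℝ))) = 1 := by
    rw [← Real.exp_add]
    simp
  have h2 : 0 < Real.exp (5 / 4 * (s : ℝ) ^ (1 / 4 : ℝ)) := Real.exp_pos _
  have h3 : 0 < Real.exp (-(5 / 4 * (s : ℝ) ^ (1 / 4 : ℝ))) := Real.exp_pos _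
  have h4 : Real.exp (5 / 4 * (s : ℝ) ^ (1 / 4 : ℝ)) * R ≤ (k : ℝ) ^ 5 * R :=
    mul_le_mul_of_nonneg_right h5 (h3.le.trans hc.le)
  have h6 : 1 < Real.exp (5 / 4 * (s : ℝ) ^ (1 / 4 : ℝ)) * R := by
    have h7 := mul_lt_mul_of_pos_left hc h2
    rw [h1] at h7
    exact h7
  linarith

/-- the scale of the prune is below `exp (s^(1/4))` for large `s` -/
lemma log_exp (A : ℝ) : ∃ s₁ : ℕ, ∀ s : ℕ, s₁ ≤ s →
    Real.log s ^ A ≤ Real.exp ((s : ℝ) ^ (1 / 4 : ℝ)) := by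
  have h1 : Filter.Tendsto (fun x : ℝ => Real.log x ^ A / x) Filter.atTop (nhds 0) := by
    have := isLittleO_log_rpow_rpow_atTop (s := 1) A one_pos
    have h2 := this.tendsto_div_nhds_zero
    simpa using h2
  have h3 : ∀ᶠ x : ℝ in Filter.atTop, Real.log x ^ A ≤ x := by
    have h4 := h1.eventually (gt_mem_nhds (show (0:ℝ) < 1 by norm_num))
    filter_upwards [h4, Filter.eventually_gt_atTop 0] with x hx hx0
    rw [div_lt_one hx0] at hx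
    exact hx.le
  have h5 : ∀ᶠ x : ℝ in Filter.atTop, x ≤ Real.exp (x ^ (1 / 4 : ℝ)) := by
    have h6 := isLittleO_log_rpow_atTop (r := (1 / 4 : ℝ)) (by norm_num)
    have h7 := h6.tendsto_div_nhds_zero
    have h8 := h7.eventually (gt_mem_nhds (show (0:ℝ) < 1 by norm_num))
    filter_upwards [h8, Filter.eventually_gt_atTop 0] with x hx hx0
    have hp : 0 < x ^ (1 / 4 : ℝ) := Real.rpow_pos_of_pos hx0 _
    rw [div_lt_one hp] at hx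
    calc x = Real.exp (Real.log x) := (Real.exp_log hx0).symm
      _ ≤ _ := Real.exp_le_exp.2 hx.le
  obtain ⟨a, ha⟩ := Filter.eventually_atTop.1 (h3.and h5)
  refine ⟨⌈a⌉₊, fun s hs => ?_⟩
  have h9 : a ≤ (s : ℝ) := (Nat.le_ceil a).trans (by exact_mod_cast hs)
  exact (ha s h9).1.trans (ha s h9).2

/-- **births of the items of a context in `SyBP`** : huge denominators, tiny radii -/
theorem ctx_den_big {C1 : ℝ} : ∃ p₁ : ℕ, ∀ {N : Skel189.Num} {γ : ℝ}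
    {th : ℕ → (ℕ → ℝ) → Finset ℕ → ℕ → ℝ} {Ct c : ℝ}, FinAll26.NumFin N th Ct c → N.C1 = C1 →
    ∀ {p0 P₀ : ℕ}, p₁ ≤ p0 → ∀ X : Ctx N γ p0 P₀, InS SyBP N γ X → ∀ q ∈ X.S', ∀ s : ℕ, p0 ≤ s →
    (s ∈ X.c.t.mt q ∨ s ∈ X.c.t.uq q) → ∀ R : ℝ, 0 < R → R ≤ 1 →
    Real.log s ^ (5 * (4 * C1 + C1 + 1 + 3)) * R ≤ 1 → ∀ ρ : ℚ, (ρ.den : ℝ) ^ 5 * R ≤ 1 →
    |((s : ℝ) * (Bab X.c.t q s * γ)) - (ρ : ℝ)| ^ 5 ≤ R ^ 4 → ¬ (s : ℤ) ∣ ρ.num →
    Real.exp ((s : ℝ) ^ (1 / 4 : ℝ) / 4) < ρ.den ∧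
      R ≤ Real.exp (-(5 / 4 * (s : ℝ) ^ (1 / 4 : ℝ))) := by
  obtain ⟨s₁, h1⟩ := log_exp (5 * (4 * C1 + C1 + 1 + 3))
  refine ⟨s₁, fun {N γ th Ct c} hF hC {p0 P₀} hp X hX q hq s hs0 hs R hR0 hR1 hl ρ hd hn hnum => ?_⟩
  have hN := noBir_of hF X hX hq
  rw [hC] at hN
  have h2 := den_big hN hs hR0 hR1 hl (h1 s (hp.trans hs0)) hd hn hnum
  exact ⟨h2, R_small hd h2⟩

end Crest.Agent.R4P.NbD4
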