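import Crest.Agent.R4P.GSK_55
import Crest.Agent.R4P.Pay3_49
import Crest.Agent.R4P.RGp_25
import Crest.Agent.R4P.PVe_45

/-!
R4 (S0004) with powers, T3, helper37: **payment of the second order parts** (`Pay3_49`, line (c1)(iii)
of PLAN v1; docs 1654). The second order parts carry no factor `2^k`, so charges of *any* (non uniform)
rates pay them with the integral of the total charge at the root only.

* `Kw_bch` : local terms `f ≤ I (Σ yx) + I (Σ yc) + er` of charges `Q : BCh B` have walk sum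
  `≤ I (su s (Q.Y p)) + Kw er`.
* `Sg_eq`, **`Sg_bch`** : the same for the second order parts `S : GSec D`.
* `I_rates` : the integral of the total charge of rates (`Rates`) at a state, by pieces.
* `sq_cls` : second moments of class contents: `Σ_{z ∈ Z} (Σ_{j ∈ z, E j} V j)² ≤ Σ_j [j ∈ Z, E j] V j² +
  pairs`.
-/

set_option autoImplicit false
set_option linter.unusedSectionVars false
set_option linter.unusedVariables false
open MeasureTheory Filter Set

namespace Crest.Agent.R4P.NcP37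

open Crest.Agent.R4.Tour104 Crest.Agent.R4.Clos758
open Crest.Agent.R4P.GMer27 Crest.Agent.R4P.GCol27 Crest.Agent.R4P.RSys343 Crest.Agent.R4P.TrR343
open Crest.Agent.R4P.RXs343 Crest.Agent.R4P.RXm55 Crest.Agent.R4P.RXm55.RXm
open Crest.Agent.R4P.MSi343 (su su_add two_pos')
open Crest.Agent.R4P.MSm25 Crest.Agent.R4P.PayR45 Crest.Agent.R4P.GSK55 Crest.Agent.R4P.Pay349

section walk
variable {β : Type} {B : BM β}

/-- the step of the charges, unscored -/
lemma bch_step (Q : BCh B) {p : ℕ} {s : Gs β} (H : TC s.c s.W) (hk : ∀ j, B.ok p (s.L j))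
    (hp : p ≠ 0) (HC : TC (B.C p s).c (B.C p s).W) (kC : ∀ j, B.ok p ((B.C p s).L j))
    (kN : ∀ j, B.ok (p - 1) ((B.N p s).L j)) :
    I (su s (Q.yx p)) + I (su s (Q.yc p)) + I (su (B.C p s) (Q.Y p)) +
      I (su (B.N p s) (Q.Y (p - 1))) ≤ I (su s (Q.Y p)) := by
  have hp0 : 0 < p := Nat.pos_of_ne_zero hp
  have pY := PB_su' H (f := Q.Y p) fun j => Q.pY (hk j)
  have pYB := PB_su' H (f := Q.YB p) fun j => Q.pYB (hk j) hp
  have pyx := PB_su' H (f := Q.yx p) fun j => Q.pyx (hk j) hp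
  have pyc := PB_su' H (f := Q.yc p) fun j => Q.pyc (hk j) hp
  have pYC := PB_su' HC (f := Q.Y p) fun j => Q.pY (kC j)
  have HN : TC (B.N p s).c (B.N p s).W := H
  have pYN := PB_su' HN (f := Q.Y (p - 1)) fun j => Q.pY (kN j)
  have h1 : I (su s (Q.yx p)) + I (su s (Q.YB p)) + I (su (B.N p s) (Q.Y (p - 1))) ≤
      I (su s (Q.Y p)) := by
    rw [← I_add pyx.integrableOn pYB.integrableOn,
      ← I_add (pyx.add pYB).integrableOn pYN.integrableOn]
    refine I_mono ((pyx.add pYB).add pYN).integrableOn pY.integrableOn fun x => ?_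
    show su s (Q.yx p) x + su s (Q.YB p) x +
      M s.c (fun j => Q.Y (p - 1) (B.rN p (s.L j)) x) ≤ su s (Q.Y p) x
    unfold su
    rw [← M_add, ← M_add]
    exact M_mono H.c0 fun j => Q.spl (hk j) hp x
  have h2 : I (su s (Q.yc p)) + I (su (B.C p s) (Q.Y p)) ≤ I (su s (Q.YB p)) := by
    rw [← I_add pyc.integrableOn pYC.integrableOn, ← I_Ep hp0 pYB.integrableOn]
    refine I_mono (pyc.add pYC).integrableOn (pYB.Ep hp0).integrableOn fun y => ?_
    rw [Ep_su']
    have h1 := su_C (B := B) (s := s) hp (Q.Y p) y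
      (fun e j => by have := hk j; subst e; exact (Q.one this y).1)
      (fun e j => by have := hk j; subst e; exact (Q.one this y).2) H.c0
    show su s (Q.yc p) y + su (B.C p s) (Q.Y p) y ≤ _
    refine (add_le_add le_rfl h1).trans ?_
    unfold su
    rw [← M_add]
    exact M_mono H.c0 fun j => Q.mean (hk j) hp y
  linarith

/-- **walk sum of the charges, unscored, any rates** -/
theorem Kw_bch (Q : BCh B) {ok : ℕ → Gs β → Prop} (tc : ∀ {p s}, ok p s → TC s.c s.W)
    (gk : ∀ {p s}, ok p s → ∀ j, B.ok p (s.L j))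
    (hC : ∀ {p s}, ok p s → p ≠ 0 → ok p (B.C p s))
    (hN : ∀ {p s}, ok p s → p ≠ 0 → ok (p - 1) (B.N p s)) {f er : ℕ → Gs β → ℝ}
    (h : ∀ {p s}, ok p s → p ≠ 0 → f p s ≤ I (su s (Q.yx p)) + I (su s (Q.yc p)) + er p s) :
    ∀ (n p : ℕ) (s : Gs β), ok p s → Kw B f n p s ≤ I (su s (Q.Y p)) + Kw B er n p s := by
  intro n
  induction n with
  | zero =>
    intro p s hs
    have : 0 ≤ I (su s (Q.Y p)) :=
      I_nonneg fun x => (PB_su' (tc hs) (f := Q.Y p) fun j => Q.pY (gk hs j)).nonneg x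
    show (0 : ℝ) ≤ I (su s (Q.Y p)) + 0
    linarith
  | succ n ih =>
    intro p s hs
    by_cases hp : p = 0
    · subst hp
      have : 0 ≤ I (su s (Q.Y 0)) :=
        I_nonneg fun x => (PB_su' (tc hs) (f := Q.Y 0) fun j => Q.pY (gk hs j)).nonneg x
      rw [Kw_z, Kw_z]
      linarith
    · have oC := hC hs hp
      have oN := hN hs hp
      rw [Kw_succ _ _ n hp, Kw_succ _ _ n hp]
      have i1 := ih p _ oC
      have i2 := ih (p - 1) _ oN
      have i3 := h hs hp
      have i4 := bch_step Q (tc hs) (gk hs) hp (tc oC) (gk oC) (gk oN)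
      linarith

end walk

/-! ### second order parts of the groups -/

section sec
variable {β δ : Type} [Fintype δ] {R : RXm β δ} {U : RBm R}

lemma Sg_eq {D : RGx U} (S : GSec D) : ∀ (n p : ℕ) (s : Gs β),
    Sg S n p s = Kw (bm R) (fun p s => I (S.rx p s) + I (S.rc p s)) n p s := by
  intro n
  induction n with
  | zero => intro p s; rfl
  | succ n ih =>
    intro p s
    by_cases hp : p = 0
    · subst hp
      simp [Sg, Kw]
    · rw [Sg_succ _ n hp, Kw_succ _ _ n hp, ih, ih]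
      rfl

/-- **the second order parts paid by charges of any rates**, remainder `er` -/
theorem Sg_bch {D : RGx U} (S : GSec D) (Q : BCh (bm R)) {er : ℕ → Gs β → ℝ}
    (h : ∀ {p s}, D.ok p s → p ≠ 0 →
      I (S.rx p s) + I (S.rc p s) ≤ I (su s (Q.yx p)) + I (su s (Q.yc p)) + er p s)
    (n p : ℕ) (s : Gs β) (hs : D.ok p s) :
    Sg S n p s ≤ I (su s (Q.Y p)) + Kw (bm R) er n p s := by
  rw [Sg_eq]
  exact Kw_bch Q (ok := D.ok) (fun hs => (D.gk hs).1) (fun hs => (D.gk hs).2)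
    (fun hs hp => D.okC hs hp) (fun hs hp => D.okN hs hp) h n p s hs

end sec

/-! ### the total charge of rates -/

section rates
variable {β Λ : Type} [Fintype Λ] {B : BM β}

/-- **the integral of the total charge of rates** at one bundle: `Σ_j (Σ_{q ≤ p} rate) mass` -/
lemma I_rates (R : Rates Λ) (V : PV B Λ) {p : ℕ} {b : β} (hb : B.ok p b) :
    I ((R.bch V).Y p b) ≤
      ∑ j, (∑ q ∈ Finset.range (p + 1), (R.r q j * V.Lv q j + R.e q j)) * I (V.v b j) := by
  have e0 : ∀ j, 0 ≤ R.bel V p j + R.e p j := fun j =>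
    add_nonneg (R.bel_nonneg V p j) (R.e0 p j)
  have e1 : I ((R.bch V).Y p b) = ∑ j, ((R.bel V p j + R.e p j) * I (V.v b j) +
      R.r p j * I (V.u p b j)) := by
    show I (fun x => ∑ j, ((R.bel V p j + R.e p j) * V.v b j x + R.r p j * V.u p b j x)) = _
    rw [I_sum _ fun j _ => (((V.pv hb j).smul (e0 j)).add
      ((V.pu hb j).smul (R.r0 p j))).integrableOn]
    refine Finset.sum_congr rfl fun j _ => ?_
    rw [I_add ((V.pv hb j).smul (e0 j)).integrableOn ((V.pu hb j).smul (R.r0 p j)).integrableOn,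
      I_smul, I_smul]
  rw [e1]
  refine Finset.sum_le_sum fun j _ => ?_
  have h1 : I (V.u p b j) ≤ V.Lv p j * I (V.v b j) := by
    rw [← I_smul]
    exact I_mono (V.pu hb j).integrableOn ((V.pv hb j).smul (Nat.cast_nonneg _)).integrableOn
      fun x => V.uv hb j x
  have h2 := mul_le_mul_of_nonneg_left h1 (R.r0 p j)
  have h3 := R.bel_succ V p j
  unfold Rates.rt at h3
  have h4 : ∑ q ∈ Finset.range (p + 1), (R.r q j * V.Lv q j + R.e q j) =
      R.bel V p j + (R.r p j * V.Lv p j + R.e p j) := h3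
  rw [h4]
  nlinarith

end rates

/-! ### second moments of class contents -/

section mom
variable {Λ δ : Type*} [Fintype Λ] [DecidableEq δ]

open Classical in
/-- content of the pieces of the class `z` with the property `E` -/
noncomputable def cls (κ : Λ → Option δ) (E : Λ → Prop) (V : Λ → ℝ) (z : δ) : ℝ :=
  ∑ j, if κ j = some z ∧ E j then V j else 0

open Classical in
/-- pairs of different pieces of one class of `Z` -/
noncomputable def prz (κ : Λ → Option δ) (Z : Finset δ) (V : Λ → ℝ) : ℝ :=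
  ∑ i, ∑ j, if i ≠ j ∧ κ i = κ j ∧ (∃ z ∈ Z, κ i = some z) then V i * V j else 0

variable {κ : Λ → Option δ} {E : Λ → Prop} {V : Λ → ℝ}

lemma cls_nonneg (h : ∀ j, 0 ≤ V j) (z : δ) : 0 ≤ cls κ E V z :=
  Finset.sum_nonneg fun j _ => by
    split_ifs
    · exact h j
    · exact le_rfl

open Classical in
lemma prz_nonneg (h : ∀ j, 0 ≤ V j) (Z : Finset δ) : 0 ≤ prz κ Z V :=
  Finset.sum_nonneg fun i _ => Finset.sum_nonneg fun j _ => by
    split_ifs
    · exact mul_nonneg (h i) (h j)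
    · exact le_rfl

open Classical in
/-- **second moments of the class contents** : diagonal and pairs -/
theorem sq_cls (h : ∀ j, 0 ≤ V j) (Z : Finset δ) :
    ∑ z ∈ Z, cls κ E V z ^ 2 ≤
      (∑ j, if (∃ z ∈ Z, κ j = some z) ∧ E j then V j ^ 2 else 0) + prz κ Z V := by
  have e1 : ∀ z ∈ Z, cls κ E V z ^ 2 = ∑ i, ∑ j,
      if (κ i = some z ∧ E i) ∧ (κ j = some z ∧ E j) then V i * V j else 0 := by
    intro z _
    unfold cls
    rw [pow_two, Finset.sum_mul_sum]
    refine Finset.sum_congr rfl fun i _ => Finset.sum_congr rfl fun j _ => ?_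
    by_cases h1 : κ i = some z ∧ E i
    · by_cases h2 : κ j = some z ∧ E j
      · rw [if_pos h1, if_pos h2, if_pos ⟨h1, h2⟩]
      · have h3 : ¬ ((κ i = some z ∧ E i) ∧ (κ j = some z ∧ E j)) := fun e => h2 e.2
        rw [if_neg h3, if_neg h2, mul_zero]
    · have h3 : ¬ ((κ i = some z ∧ E i) ∧ (κ j = some z ∧ E j)) := fun e => h1 e.1
      rw [if_neg h3, if_neg h1, zero_mul]
  rw [Finset.sum_congr rfl e1]
  have e2 : (∑ j, if (∃ z ∈ Z, κ j = some z) ∧ E j then V j ^ 2 else 0) =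
      ∑ i, ∑ j, if i = j ∧ (∃ z ∈ Z, κ j = some z) ∧ E j then V i * V j else 0 := by
    refine Finset.sum_congr rfl fun i _ => ?_
    rw [Finset.sum_eq_single i]
    · by_cases h1 : (∃ z ∈ Z, κ i = some z) ∧ E i
      · rw [if_pos h1, if_pos ⟨rfl, h1⟩, pow_two]
      · rw [if_neg h1, if_neg (fun e => h1 e.2)]
    · intro j _ hj
      rw [if_neg (fun e => hj e.1.symm)]
    · intro hh; exact absurd (Finset.mem_univ i) hh
  rw [e2]
  unfold prz
  rw [Finset.sum_comm, ← Finset.sum_add_distrib]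
  refine Finset.sum_le_sum fun i _ => ?_
  rw [Finset.sum_comm, ← Finset.sum_add_distrib]
  refine Finset.sum_le_sum fun j _ => ?_
  have hij := mul_nonneg (h i) (h j)
  -- at most one class
  have e3 : ∑ z ∈ Z, (if (κ i = some z ∧ E i) ∧ (κ j = some z ∧ E j) then V i * V j else 0) ≤
      if κ i = κ j ∧ (∃ z ∈ Z, κ i = some z) ∧ E j then V i * V j else 0 := by
    by_cases hk : κ i = κ j ∧ (∃ z ∈ Z, κ i = some z) ∧ E j
    · rw [if_pos hk]
      obtain ⟨z0, hz0, hz1⟩ := hk.2.1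
      refine le_of_le_of_eq (Finset.sum_le_sum (g := fun z => if z = z0 then V i * V j else 0)
        fun z _ => ?_) ?_
      · by_cases hz : z = z0
        · rw [if_pos hz]
          split_ifs
          · exact le_rfl
          · exact hij
        · rw [if_neg hz, if_neg]
          intro e
          exact hz (Option.some.inj (e.1.1.symm.trans hz1))
      · rw [Finset.sum_ite_eq', if_pos hz0]
    · rw [if_neg hk]
      refine le_of_eq (Finset.sum_eq_zero fun z hz => if_neg fun e => hk ?_)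
      exact ⟨e.1.1.trans e.2.1.symm, ⟨z, hz, e.1.1⟩, e.2.2⟩
  refine e3.trans ?_
  by_cases hij' : i = j
  · subst hij'
    by_cases h1 : (∃ z ∈ Z, κ i = some z) ∧ E i
    · rw [if_pos ⟨rfl, h1⟩, if_pos ⟨rfl, h1⟩, if_neg (fun e => e.1 rfl)]
      linarith
    · rw [if_neg (fun e => h1 e.2), if_neg (fun e => h1 e.2), if_neg (fun e => e.1 rfl)]
      linarith
  · rw [if_neg (fun e : i = j ∧ _ => hij' e.1), zero_add]
    by_cases h1 : κ i = κ j ∧ (∃ z ∈ Z, κ i = some z) ∧ E j
    · rw [if_pos h1, if_pos ⟨hij', h1.1, h1.2.1⟩]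
    · rw [if_neg h1]
      split_ifs
      · exact hij
      · exact le_rfl

/-- rate of a piece: `4/θ (τ 1_E + 1/τ)` on the classes of `Z` -/
noncomputable def rtz (θ τ : ℝ) (κ : Λ → Option δ) (Z : Finset δ) (E : Λ → Prop) (j : Λ) : ℝ :=
  open Classical in if ∃ z ∈ Z, κ j = some z then 4 / θ * ((if E j then τ else 0) + 1 / τ) else 0

lemma rtz_nonneg {θ τ : ℝ} (hθ : 0 < θ) (hτ : 0 < τ) (Z : Finset δ) (j : Λ) :
    0 ≤ rtz θ τ κ Z E j := by
  unfold rtz
  split_ifs <;> positivity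

/-- **one member** : the second order part of the `L²` price by rates of the pieces and pairs -/
lemma one_le {θ τ : ℝ} (hθ : 0 < θ) (hτ : 0 < τ) (h : ∀ j, 0 ≤ V j) (h1 : ∀ j, V j ≤ 1)
    (Z : Finset δ) : 4 / θ * (τ * ∑ z ∈ Z, cls κ E V z ^ 2 +
      (∑ z ∈ Z, cls κ (fun _ => True) V z ^ 2) / τ) ≤
      ∑ j, rtz θ τ κ Z E j * V j + 4 / θ * (τ + 1 / τ) * prz κ Z V := by
  classical
  have a1 := sq_cls (κ := κ) (E := E) h Z
  have a2 := sq_cls (κ := κ) (E := fun _ => True) h Z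
  have b1 : (∑ j, if (∃ z ∈ Z, κ j = some z) ∧ E j then V j ^ 2 else 0) ≤
      ∑ j, if (∃ z ∈ Z, κ j = some z) ∧ E j then V j else 0 :=
    Finset.sum_le_sum fun j _ => by
      split_ifs
      · nlinarith [h j, h1 j]
      · exact le_rfl
  have b2 : ∑ z ∈ Z, cls κ (fun _ => True) V z ^ 2 ≤
      (∑ j, if (∃ z ∈ Z, κ j = some z) then V j else 0) + prz κ Z V := by
    refine a2.trans (add_le_add (Finset.sum_le_sum fun j _ => ?_) le_rfl)
    by_cases hj : ∃ z ∈ Z, κ j = some z
    · rw [if_pos ⟨hj, trivial⟩, if_pos hj]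
      nlinarith [h j, h1 j]
    · rw [if_neg (fun e => hj e.1), if_neg hj]
  have p0 := prz_nonneg (κ := κ) h Z
  have t0 : (0:ℝ) ≤ 4 / θ := by positivity
  have e1 : ∑ j, rtz θ τ κ Z E j * V j =
      4 / θ * (τ * (∑ j, if (∃ z ∈ Z, κ j = some z) ∧ E j then V j else 0) +
        (∑ j, if (∃ z ∈ Z, κ j = some z) then V j else 0) / τ) := by
    rw [Finset.mul_sum, Finset.sum_div, ← Finset.sum_add_distrib, Finset.mul_sum]
    refine Finset.sum_congr rfl fun j _ => ?_
    unfold rtz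
    by_cases h2 : ∃ z ∈ Z, κ j = some z
    · by_cases h3 : E j
      · rw [if_pos h2, if_pos h3, if_pos ⟨h2, h3⟩, if_pos h2]
        ring
      · have h4 : ¬ ((∃ z ∈ Z, κ j = some z) ∧ E j) := fun e => h3 e.2
        rw [if_pos h2, if_neg h3, if_neg h4, if_pos h2]
        ring
    · have h4 : ¬ ((∃ z ∈ Z, κ j = some z) ∧ E j) := fun e => h2 e.1
      rw [if_neg h2, if_neg h4, if_neg h2]
      ring
  rw [e1]
  have c1 := mul_le_mul_of_nonneg_left (a1.trans (add_le_add_left b1 _)) hτ.le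
  have c2 := div_le_div_of_nonneg_right b2 hτ.le
  have c3 := mul_le_mul_of_nonneg_left (add_le_add c1 c2) t0
  refine c3.trans (le_of_eq ?_)
  ring

/-- **the group** : means over the members -/
theorem grp_le {J : Type*} [Fintype J] {c : J → ℝ} (c0 : ∀ m, 0 ≤ c m) {θ τ : ℝ} (hθ : 0 < θ)
    (hτ : 0 < τ) (κ : J → Λ → Option δ) (E : J → Λ → Prop) (V : J → Λ → ℝ)
    (h : ∀ m j, 0 ≤ V m j) (h1 : ∀ m j, V m j ≤ 1) (Z : Finset δ) :
    4 / θ * ∑ z ∈ Z, (τ * M c (fun m => cls (κ m) (E m) (V m) z ^ 2) +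
      M c (fun m => cls (κ m) (fun _ => True) (V m) z ^ 2) / τ) ≤
      M c (fun m => ∑ j, rtz θ τ (κ m) Z (E m) j * V m j) +
        4 / θ * (τ + 1 / τ) * M c fun m => prz (κ m) Z (V m) := by
  have e1 : 4 / θ * ∑ z ∈ Z, (τ * M c (fun m => cls (κ m) (E m) (V m) z ^ 2) +
      M c (fun m => cls (κ m) (fun _ => True) (V m) z ^ 2) / τ) =
      M c fun m => 4 / θ * (τ * ∑ z ∈ Z, cls (κ m) (E m) (V m) z ^ 2 +
      (∑ z ∈ Z, cls (κ m) (fun _ => True) (V m) z ^ 2) / τ) := by
    unfold M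
    simp only [Finset.mul_sum, Finset.sum_div, mul_add, Finset.sum_add_distrib]
    congr 1
    · rw [Finset.sum_comm]
      refine Finset.sum_congr rfl fun m _ => Finset.sum_congr rfl fun z _ => ?_
      ring
    · rw [Finset.sum_comm]
      refine Finset.sum_congr rfl fun m _ => Finset.sum_congr rfl fun z _ => ?_
      ring
  have e2 : M c (fun m => ∑ j, rtz θ τ (κ m) Z (E m) j * V m j) +
        4 / θ * (τ + 1 / τ) * M c (fun m => prz (κ m) Z (V m)) =
      M c fun m => ∑ j, rtz θ τ (κ m) Z (E m) j * V m j +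
        4 / θ * (τ + 1 / τ) * prz (κ m) Z (V m) := by
    rw [← M_smul, ← M_add]
  rw [e1, e2]
  exact M_mono c0 fun m => one_le hθ hτ (h m) (h1 m) Z

end mom

end Crest.Agent.R4P.NcP37
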