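import Crest.Agent.R4P.XmE_18
import Crest.Agent.R4P.E3Y_479

/-!
R4 (S0004) with powers, helper23: **near-rough pairs of two nodes: the energy is linear in the mate**
(X5b of the dual).

* `item_le` : one node, one item of radius `≤ 1/2`: the total content of its pieces is at most `1` at
  every point (no class height); `item_leR` : `≤ 2 R + 1` for every radius.
* `near_inj`, `near_card` : two nodes, a fixed item of the second one: at most `K^2` items of the first
  one with reduced cofactors `D1, D2 ≤ K`.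
* **`near_le`** : for a relation inside the near-rough pairs (`D1, D2 ≤ K`, radius of the first piece
  `≤ 1/2`): `qe W (vN u) (vN u') x ≤ K^2 Σ_i [∃ j, W j i] vN u' i x`, and `near_I` (integrals).
-/

set_option autoImplicit false
set_option linter.unusedSectionVars false
set_option linter.unusedVariables false
open Finset MeasureTheory Filter

namespace Crest.Agent.R4P.NrL23

open Crest.Agent.R4.HVW560
open Crest.Agent.R4.Tour104 Crest.Agent.R4.Tour758 Crest.Agent.R4.Avg758 Crest.Agent.R4.Clos758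
open Crest.Agent.R4.ClosL758 Crest.Agent.R4.ClosG758 Crest.Agent.R4.ClosR758
open Crest.Agent.R4.Fam464 Crest.Agent.R4.Piece464
open Crest.Agent.R4P.Cnt588 Crest.Agent.R4P.Item758 Crest.Agent.R4P.AvgItem710
open Crest.Agent.R4P.Walk560 Crest.Agent.R4P.NodeG33
open Crest.Agent.R4P.Data758 Crest.Agent.R4P.Skel189
open Crest.Agent.R4P.Bld532 (NS All)
open Crest.Agent.R4P.Step588 (NDt)
open Crest.Agent.R4.Soft104 (w)
open Crest.Agent.R4P.SameIx30 Crest.Agent.R4P.GPair33
open Crest.Agent.R4P.XmE18 (D1 D2 cof_self_pos)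
open Crest.Agent.R4P.E3V479 (qe PB_qe)
open Crest.Agent.R4P.DTp26 (MP)

variable {N : Skel189.Num} {γ : ℝ} {p0 P₀ : ℕ} {X : Ctx N γ p0 P₀}

/-- one node, one item: the total content of the pieces is at most the arc of the item -/
lemma item_arc {s : NS} {t : IT} (h : QX X s t) {q : ℕ} (hq : q ∈ t.items)
    (A : Finset X.c.Lam) (x : ℝ) :
    ∑ j ∈ A.filter (fun j => j.1.1 = q), vN X (.inl (s, t)) j x ≤
      arc (s.B * X.c.γ) (RB X s q) (q / s.A) x := by
  have hF := fam_node (X.ok.rad X.Y) h.B_pos h.fit (wts_nd h X.Y) (one_dvd _) hq A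
  have key := sum_pc_le_arc (w := q / s.A) (θ := (s.B : ℝ) / (1 : ℕ) * X.c.γ) hF.al hF.be hF.dj
    hF.one x
  have e1 : (s.B : ℝ) / (1 : ℕ) * X.c.γ = s.B * X.c.γ := by simp
  have e2 : (s.B : ℝ) / (1 : ℕ) * X.c.rr q = RB X s q := by simp
  refine le_trans (Finset.sum_le_sum fun j hj => hF.le j hj x) ?_
  refine key.trans (le_of_eq ?_)
  rw [← e1, ← e2]

/-- one node, one item of radius `≤ 1/2` : the total content is at most `1` -/
theorem item_le {s : NS} {t : IT} (h : QX X s t) {q : ℕ} (hR : RB X s q ≤ 1 / 2)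
    (A : Finset X.c.Lam) (x : ℝ) :
    ∑ j ∈ A.filter (fun j => j.1.1 = q), vN X (.inl (s, t)) j x ≤ 1 := by
  by_cases hq : q ∈ t.items
  · exact (item_arc h hq A x).trans (Crest.Agent.R4.AvgItem710.arc_le_one hR x)
  · refine le_trans (le_of_eq ?_) zero_le_one
    refine Finset.sum_eq_zero fun j hj => ?_
    refine (X.c.D.par X.Y).U_zero t s.B s.A 1 j ?_ x
    have := (Finset.mem_filter.1 hj).2
    show j.1.1 ∉ t.items
    rw [this]
    exact hq

/-- one node, one item: the total content is at most `2 R + 1` -/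
theorem item_leR {s : NS} {t : IT} (h : QX X s t) {q : ℕ} (hR : 0 ≤ RB X s q)
    (A : Finset X.c.Lam) (x : ℝ) :
    ∑ j ∈ A.filter (fun j => j.1.1 = q), vN X (.inl (s, t)) j x ≤ 2 * RB X s q + 1 := by
  by_cases hq : q ∈ t.items
  · refine (item_arc h hq A x).trans ?_
    have := pc_le (θ := s.B * X.c.γ) (α := -RB X s q) (β := RB X s q) (w := q / s.A)
      (κ := fun _ => (1:ℝ)) (B := 1) (by linarith) zero_le_one (fun _ => le_rfl) x
    show pc (s.B * X.c.γ) (-RB X s q) (RB X s q) (q / s.A) (fun _ => 1) x ≤ _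
    linarith
  · refine le_trans (le_of_eq ?_) (by linarith : (0:ℝ) ≤ 2 * RB X s q + 1)
    refine Finset.sum_eq_zero fun j hj => ?_
    refine (X.c.D.par X.Y).U_zero t s.B s.A 1 j ?_ x
    have := (Finset.mem_filter.1 hj).2
    show j.1.1 ∉ t.items
    rw [this]
    exact hq

/-- the reduced cofactors determine the item -/
lemma near_inj {s s' : NS} {t t' : IT} (h : QX X s t) (h' : QX X s' t') {q r q' : ℕ}
    (hq : q ∈ t.items) (hr : r ∈ t.items) (hq' : q' ∈ t'.items)
    (e1 : D1 s s' (q, q') = D1 s s' (r, q')) (e2 : D2 s s' (q, q') = D2 s s' (r, q')) :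
    q = r := by
  have p2 := (cof_self_pos h h' (e := (q, q')) hq hq').2
  have a1 : (q / s.A).gcd (q' / s'.A) * D1 s s' (q, q') = q / s.A :=
    Crest.Agent.R4.AvgItem710.mul_cof
  have a2 : (q / s.A).gcd (q' / s'.A) * D2 s s' (q, q') = q' / s'.A :=
    Crest.Agent.R4.AvgItem710.mul_cof'
  have b1 : (r / s.A).gcd (q' / s'.A) * D1 s s' (r, q') = r / s.A :=
    Crest.Agent.R4.AvgItem710.mul_cof
  have b2 : (r / s.A).gcd (q' / s'.A) * D2 s s' (r, q') = q' / s'.A :=
    Crest.Agent.R4.AvgItem710.mul_cof'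
  have g : (q / s.A).gcd (q' / s'.A) = (r / s.A).gcd (q' / s'.A) := by
    rw [← e2] at b2
    exact Nat.eq_of_mul_eq_mul_right p2 (a2.trans b2.symm)
  have e3 : q / s.A = r / s.A := by rw [← a1, ← b1, g, e1]
  have d1 := h.bk.dvd _ hq
  have d2 := h.bk.dvd _ hr
  rw [← Nat.div_mul_cancel d1, ← Nat.div_mul_cancel d2, e3]

/-- **at most `K^2` near-rough items** of the first node for a fixed item of the second one -/
theorem near_card {s s' : NS} {t t' : IT} (h : QX X s t) (h' : QX X s' t') {q' : ℕ}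
    (hq' : q' ∈ t'.items) (F : Finset ℕ) (hF : ∀ q ∈ F, q ∈ t.items) {K : ℕ}
    (hK : ∀ q ∈ F, D1 s s' (q, q') ≤ K ∧ D2 s s' (q, q') ≤ K) : F.card ≤ K ^ 2 := by
  classical
  have key : F.card ≤ ((Finset.Icc 1 K) ×ˢ (Finset.Icc 1 K)).card := by
    refine Finset.card_le_card_of_injOn (fun q => (D1 s s' (q, q'), D2 s s' (q, q')))
      (fun q hq => ?_) fun q hq r hr e => ?_
    · have hp := cof_self_pos h h' (e := (q, q')) (hF q hq) hq'
      have hk := hK q hq
      exact Finset.mem_coe.2 (Finset.mem_product.2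
        ⟨Finset.mem_Icc.2 ⟨hp.1, hk.1⟩, Finset.mem_Icc.2 ⟨hp.2, hk.2⟩⟩)
    · have e' := Prod.ext_iff.1 e
      exact near_inj h h' (hF q hq) (hF r hr) hq' e'.1 e'.2
  rw [Finset.card_product, Nat.card_Icc] at key
  calc F.card ≤ _ := key
    _ = K ^ 2 := by rw [Nat.add_sub_cancel, sq]

open Classical in
/-- **near-rough pairs are linear in the mate**, at a point -/
theorem near_le {s s' : NS} {t t' : IT} (h : QX X s t) (h' : QX X s' t') {K : ℕ}
    {W : ℝ → X.c.Lam → X.c.Lam → Prop} {x : ℝ}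
    (hW : ∀ j i, W x j i → vN X (.inl (s, t)) j x ≠ 0 → vN X (.inl (s', t')) i x ≠ 0 →
      RB X s j.1.1 ≤ 1 / 2 ∧ D1 s s' (j.1.1, i.1.1) ≤ K ∧ D2 s s' (j.1.1, i.1.1) ≤ K) :
    qe W (vN X (.inl (s, t))) (vN X (.inl (s', t'))) x ≤
      (K : ℝ) ^ 2 * ∑ i, if ∃ j, W x j i ∧ vN X (.inl (s, t)) j x ≠ 0
        then vN X (.inl (s', t')) i x else 0 := by
  set V := vN X (.inl (s, t)) with hV
  set V' := vN X (.inl (s', t')) with hV'
  have V0 : ∀ j, 0 ≤ V j x := fun j => (PB_vN_inl h j).nonneg x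
  have V0' : ∀ j, 0 ≤ V' j x := fun j => (PB_vN_inl h' j).nonneg x
  unfold qe
  rw [Finset.sum_comm, Finset.mul_sum]
  refine Finset.sum_le_sum fun i _ => ?_
  by_cases hi : V' i x = 0
  · refine le_of_eq_of_le (Finset.sum_eq_zero fun j _ => ?_) ?_
    · rw [hi]; simp
    · split_ifs
      · rw [hi]; simp
      · simp
  by_cases hex : ∃ j, W x j i ∧ V j x ≠ 0
  swap
  · rw [if_neg hex]
    refine le_of_eq_of_le (Finset.sum_eq_zero fun j _ => ?_) (by simp)
    by_cases hj : W x j i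
    · have : V j x = 0 := by
        by_contra hne
        exact hex ⟨j, hj, hne⟩
      rw [this]; simp
    · rw [if_neg hj]
  rw [if_pos hex]
  have hi' : i.1.1 ∈ t'.items := (tooth h' hi).1
  -- the pieces related to `i`
  set A : Finset X.c.Lam := Finset.univ.filter (fun j => W x j i ∧ V j x ≠ 0) with hA
  set F : Finset ℕ := A.image (fun j => j.1.1) with hF
  have hcard : F.card ≤ K ^ 2 := by
    refine near_card h h' hi' F (fun q hq => ?_) fun q hq => ?_
    · obtain ⟨j, hj, rfl⟩ := Finset.mem_image.1 hq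
      exact (tooth h (Finset.mem_filter.1 hj).2.2).1
    · obtain ⟨j, hj, rfl⟩ := Finset.mem_image.1 hq
      have h1 := (Finset.mem_filter.1 hj).2
      exact (hW j i h1.1 h1.2 hi).2
  have e1 : ∑ j, (if W x j i then V j x * V' i x else 0) = (∑ j ∈ A, V j x) * V' i x := by
    rw [Finset.sum_mul, hA, Finset.sum_filter]
    refine Finset.sum_congr rfl fun j _ => ?_
    by_cases h1 : W x j i
    · by_cases h2 : V j x = 0
      · rw [h2]; simp
      · rw [if_pos h1, if_pos ⟨h1, h2⟩]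
    · rw [if_neg h1, if_neg fun h2 => h1 h2.1]
  have e2 : ∑ j ∈ A, V j x = ∑ q ∈ F, ∑ j ∈ A.filter (fun j => j.1.1 = q), V j x :=
    (Finset.sum_fiberwise_of_maps_to (fun j hj => Finset.mem_image_of_mem _ hj) _).symm
  have e3 : ∑ q ∈ F, ∑ j ∈ A.filter (fun j => j.1.1 = q), V j x ≤ ∑ q ∈ F, (1:ℝ) := by
    refine Finset.sum_le_sum fun q hq => ?_
    obtain ⟨j, hj, rfl⟩ := Finset.mem_image.1 hq
    have h1 := (Finset.mem_filter.1 hj).2
    exact item_le h (hW j i h1.1 h1.2 hi).1 A x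
  have e4 : ∑ q ∈ F, (1:ℝ) ≤ (K:ℝ) ^ 2 := by
    rw [Finset.sum_const, nsmul_eq_mul, mul_one]
    exact_mod_cast hcard
  rw [e1, e2]
  exact mul_le_mul_of_nonneg_right (e3.trans e4) (V0' i)

open Classical in
/-- **near-rough pairs are linear in the mate** : `Sp` = any property of the mate piece -/
theorem near_I {s s' : NS} {t t' : IT} (h : QX X s t) (h' : QX X s' t') {K : ℕ}
    {W : ℝ → X.c.Lam → X.c.Lam → Prop} (hm : ∀ j i, MP fun x => W x j i)
    {Sp : X.c.Lam → Prop}
    (hW : ∀ x j i, W x j i → vN X (.inl (s, t)) j x ≠ 0 → vN X (.inl (s', t')) i x ≠ 0 →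
      (RB X s j.1.1 ≤ 1 / 2 ∧ D1 s s' (j.1.1, i.1.1) ≤ K ∧ D2 s s' (j.1.1, i.1.1) ≤ K) ∧ Sp i) :
    I (qe W (vN X (.inl (s, t))) (vN X (.inl (s', t')))) ≤
      (K : ℝ) ^ 2 * ∑ i, if Sp i then I (vN X (.inl (s', t')) i) else 0 := by
  have pV := fun j => PB_vN_inl (X := X) h j
  have pV' := fun j => PB_vN_inl (X := X) h' j
  have pI : PB fun x => ∑ i, if Sp i then vN X (.inl (s', t')) i x else 0 :=
    PB.sum _ fun i _ => by
      by_cases hi : Sp i
      · simpa [hi] using pV' i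
      · simpa [hi] using (PB.const le_rfl : PB fun _ => (0:ℝ))
  have key : ∀ x, qe W (vN X (.inl (s, t))) (vN X (.inl (s', t'))) x ≤
      (K : ℝ) ^ 2 * ∑ i, if Sp i then vN X (.inl (s', t')) i x else 0 := by
    intro x
    refine (near_le h h' (x := x) fun j i h1 h2 h3 => (hW x j i h1 h2 h3).1).trans ?_
    refine mul_le_mul_of_nonneg_left (Finset.sum_le_sum fun i _ => ?_) (by positivity)
    have n0 := (pV' i).nonneg x
    by_cases hi : vN X (.inl (s', t')) i x = 0
    · rw [hi]; simp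
    · by_cases hex : ∃ j, W x j i ∧ vN X (.inl (s, t)) j x ≠ 0
      · obtain ⟨j, h1, h2⟩ := hex
        rw [if_pos ⟨j, h1, h2⟩, if_pos (hW x j i h1 h2 hi).2]
      · rw [if_neg hex]
        split_ifs
        · exact n0
        · exact le_rfl
  refine (I_mono (PB_qe hm pV pV').integrableOn (pI.smul (by positivity)).integrableOn key).trans
    (le_of_eq ?_)
  rw [I_smul, I_sum _ fun i _ => ?_]
  · congr 1
    refine Finset.sum_congr rfl fun i _ => ?_
    split_ifs
    · rfl
    · simp [I]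
  · by_cases hi : Sp i
    · simpa [hi] using (pV' i).integrableOn
    · simpa [hi] using (PB.const le_rfl : PB fun _ => (0:ℝ)).integrableOn

end Crest.Agent.R4P.NrL23
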