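import Crest.Agent.R4P.PayR_45
import Crest.Agent.R4P.GSK_55
import Crest.Agent.Lib.Mertens

/-!
R4 (S0004) with powers, helper11: **the weight of the members with many missing ties** (OmF of helper845).

* `Ex T f` : expectation over the sides of the C-steps (`T` = columns of the C-steps, last one first,
  `true` = P with weight `1 - 1/p`); `HW T s h` : the weights of the group state `s` are the product
  weights, `h k` = the sides of the member `k`; `HW.one`, `HW.C`, `HW.N`.
* `lastN T l q` : the last C-step at the column `q` was passed on the N side; `cntN S T l`.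
* `Ex_pow` : `Ex T (lam ^ cntN S) ≤ ∏_{q ∈ S} (1 + (lam - 1) / q)`.
* `tail` : weight of `cntN S ≥ m` is at most `exp (2 Σ_S 1/q - m)`.
* **`om_le`** : windows `[n, exp (exp (a i)))`, at least `δ i` missing ties: weight `≤ (log n) ^ (-e)`.
-/

set_option autoImplicit false
set_option linter.unusedSectionVars false
set_option linter.unusedVariables false

namespace Crest.Agent.R4P.OmW11

open Finset
open Crest.Agent.R4P.GMer27 (cT WT)
open Crest.Agent.R4P.RSys343 (Gs)
open Crest.Agent.R4P.PayR45 (BM)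
open Crest.Agent.R4P.GSK55 (one)

variable {β : Type}

/-! ### expectation over the sides -/

/-- expectation over the sides of the C-steps -/
noncomputable def Ex : List ℕ → (List Bool → ℝ) → ℝ
  | [], f => f []
  | p :: T, f => (1 - 1 / (p : ℝ)) * Ex T (fun l => f (true :: l)) +
      1 / (p : ℝ) * Ex T (fun l => f (false :: l))

/-- columns of the C-steps are `≥ 2` -/
def Ok2 (T : List ℕ) : Prop := ∀ p ∈ T, 2 ≤ p

lemma w01 {p : ℕ} (hp : 2 ≤ p) : 0 ≤ 1 / (p : ℝ) ∧ 0 ≤ 1 - 1 / (p : ℝ) := by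
  have h : (2 : ℝ) ≤ p := by exact_mod_cast hp
  refine ⟨by positivity, ?_⟩
  have : 1 / (p : ℝ) ≤ 1 := by
    rw [div_le_one (by linarith)]; linarith
  linarith

lemma Ex_mono {T : List ℕ} (hT : Ok2 T) {f g : List Bool → ℝ} (h : ∀ l, f l ≤ g l) :
    Ex T f ≤ Ex T g := by
  induction T generalizing f g with
  | nil => exact h []
  | cons p T ih =>
    have hp := w01 (hT p (by simp))
    have hT' : Ok2 T := fun q hq => hT q (by simp [hq])
    exact add_le_add (mul_le_mul_of_nonneg_left (ih hT' fun l => h _) hp.2)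
      (mul_le_mul_of_nonneg_left (ih hT' fun l => h _) hp.1)

lemma Ex_smul (T : List ℕ) (c : ℝ) (f : List Bool → ℝ) :
    Ex T (fun l => c * f l) = c * Ex T f := by
  induction T generalizing f with
  | nil => rfl
  | cons p T ih =>
    show (1 - 1 / (p : ℝ)) * Ex T (fun l => c * f (true :: l)) +
      1 / (p : ℝ) * Ex T (fun l => c * f (false :: l)) = c * ((1 - 1 / (p : ℝ)) *
        Ex T (fun l => f (true :: l)) + 1 / (p : ℝ) * Ex T (fun l => f (false :: l)))
    rw [ih (fun l => f (true :: l)), ih (fun l => f (false :: l))]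
    ring

lemma Ex_const (T : List ℕ) (c : ℝ) : Ex T (fun _ => c) = c := by
  induction T with
  | nil => rfl
  | cons p T ih =>
    show (1 - 1 / (p : ℝ)) * Ex T (fun _ => c) + 1 / (p : ℝ) * Ex T (fun _ => c) = c
    rw [ih]; ring

lemma Ex_sum {ι : Type*} (s : Finset ι) (T : List ℕ) (f : ι → List Bool → ℝ) :
    Ex T (fun l => ∑ i ∈ s, f i l) = ∑ i ∈ s, Ex T (f i) := by
  induction T generalizing f with
  | nil => rfl
  | cons p T ih =>
    show (1 - 1 / (p : ℝ)) * Ex T (fun l => ∑ i ∈ s, f i (true :: l)) +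
      1 / (p : ℝ) * Ex T (fun l => ∑ i ∈ s, f i (false :: l)) = ∑ i ∈ s, ((1 - 1 / (p : ℝ)) *
        Ex T (fun l => f i (true :: l)) + 1 / (p : ℝ) * Ex T (fun l => f i (false :: l)))
    rw [ih, ih, Finset.mul_sum, Finset.mul_sum, ← Finset.sum_add_distrib]

/-! ### the weights of a group state -/

/-- **the weights of `s` are the product weights** -/
structure HW (T : List ℕ) (s : Gs β) (h : s.J → List Bool) : Prop where
  ok : Ok2 T
  sum : ∀ f : List Bool → ℝ, ∑ k, s.c k * f (h k) = Ex T f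

lemma HW.one (b : β) : HW [] (one b) (fun _ => []) where
  ok := fun p hp => by simp at hp
  sum := fun f => by
    show ∑ _k : Unit, (1 : ℝ) * f [] = f []
    simp

lemma BMC_pos (M : BM β) {p : ℕ} (hp : 2 ≤ p) (s : Gs β) : M.C p s =
    ⟨s.J × Bool, inferInstance, cT (1 - 1 / (p : ℝ)) s.c,
    WT (1 - 1 / (p : ℝ)) s.W, fun x => if x.2 then M.cP p (s.L x.1) else M.cN p (s.L x.1)⟩ :=
  if_pos hp

lemma BMC_neg (M : BM β) {p : ℕ} (hp : ¬ 2 ≤ p) (s : Gs β) : M.C p s =
    ⟨s.J, s.fJ, s.c, s.W, fun j => M.cP p (s.L j)⟩ := if_neg hp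

/-- sides after a C-step, for a state which is literally the state of the children -/
theorem HW.C' {T : List ℕ} {s : Gs β} {h : s.J → List Bool} (H : HW T s h) (M : BM β) {p : ℕ}
    (hp : 2 ≤ p) : HW (p :: T) (⟨s.J × Bool, inferInstance, cT (1 - 1 / (p : ℝ)) s.c,
    WT (1 - 1 / (p : ℝ)) s.W, fun x => if x.2 then M.cP p (s.L x.1) else M.cN p (s.L x.1)⟩ : Gs β)
    (fun x => x.2 :: h x.1) where
  ok := fun q hq => by
    rcases List.mem_cons.1 hq with rfl | hq
    · exact hp
    · exact H.ok q hq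
  sum := fun f => by
    show ∑ x : s.J × Bool, cT (1 - 1 / (p : ℝ)) s.c x * f (x.2 :: h x.1) =
      (1 - 1 / (p : ℝ)) * Ex T (fun l => f (true :: l)) +
      1 / (p : ℝ) * Ex T (fun l => f (false :: l))
    rw [GMer27.sum_JB, ← H.sum, ← H.sum, Finset.mul_sum, Finset.mul_sum,
      ← Finset.sum_add_distrib]
    refine Finset.sum_congr rfl fun k _ => ?_
    simp only [cT]
    simp
    ring

/-- **invariant of the states**: `G` = property of the sides of a member and of its bundle -/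
def HS (T : List ℕ) (s : Gs β) (G : List Bool → β → Prop) : Prop :=
  ∃ h : s.J → List Bool, HW T s h ∧ ∀ k, G (h k) (s.L k)

lemma HS.one {G : List Bool → β → Prop} {b : β} (h : G [] b) : HS [] (one b) G :=
  ⟨fun _ => [], HW.one b, fun _ => h⟩

/-- C-step at a column `≥ 2` -/
theorem HS.C {T : List ℕ} {s : Gs β} {G G' : List Bool → β → Prop} (H : HS T s G) (M : BM β)
    {p : ℕ} (hp : 2 ≤ p) (hP : ∀ l b, G l b → G' (true :: l) (M.cP p b))
    (hN : ∀ l b, G l b → G' (false :: l) (M.cN p b)) : HS (p :: T) (M.C p s) G' := by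
  obtain ⟨h, H1, H2⟩ := H
  rw [BMC_pos M hp s]
  refine ⟨fun x => x.2 :: h x.1, H1.C' M hp, ?_⟩
  rintro ⟨k, b⟩
  cases b
  · exact hN _ _ (H2 k)
  · exact hP _ _ (H2 k)

/-- C-step at a column `≤ 1` -/
theorem HS.C1 {T : List ℕ} {s : Gs β} {G G' : List Bool → β → Prop} (H : HS T s G) (M : BM β)
    {p : ℕ} (hp : ¬ 2 ≤ p) (hP : ∀ l b, G l b → G' l (M.cP p b)) : HS T (M.C p s) G' := by
  obtain ⟨h, H1, H2⟩ := H
  rw [BMC_neg M hp s]
  exact ⟨h, ⟨H1.ok, H1.sum⟩, fun k => hP _ _ (H2 k)⟩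

/-- the rest -/
theorem HS.N {T : List ℕ} {s : Gs β} {G G' : List Bool → β → Prop} (H : HS T s G) (M : BM β)
    {p : ℕ} (hR : ∀ l b, G l b → G' l (M.rN p b)) : HS T (M.N p s) G' := by
  obtain ⟨h, H1, H2⟩ := H
  exact ⟨h, ⟨H1.ok, H1.sum⟩, fun k => hR _ _ (H2 k)⟩

/-! ### the last side at a column -/

/-- the last C-step at the column `q` was passed on the N side -/
def lastN : List ℕ → List Bool → ℕ → Prop
  | p :: T, b :: l, q => if q = p then b = false else lastN T l q
  | [], _, _ => False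
  | _ :: _, [], _ => False

lemma lastN_same (p : ℕ) (T : List ℕ) (b : Bool) (l : List Bool) :
    lastN (p :: T) (b :: l) p ↔ b = false := by
  unfold lastN
  rw [if_pos rfl]

lemma lastN_ne {p q : ℕ} (h : q ≠ p) (T : List ℕ) (b : Bool) (l : List Bool) :
    lastN (p :: T) (b :: l) q ↔ lastN T l q := by
  conv_lhs => unfold lastN
  rw [if_neg h]

open Classical in
/-- number of the columns of `S` passed on the N side -/
noncomputable def cntN (S : Finset ℕ) (T : List ℕ) (l : List Bool) : ℕ := (S.filter (lastN T l)).card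

open Classical in
/-- `lam ^ cntN` -/
noncomputable def pw (lam : ℝ) (S : Finset ℕ) (T : List ℕ) (l : List Bool) : ℝ :=
  ∏ q ∈ S, if lastN T l q then lam else 1

lemma pw_eq (lam : ℝ) (S : Finset ℕ) (T : List ℕ) (l : List Bool) :
    pw lam S T l = lam ^ cntN S T l := by
  classical
  unfold pw cntN
  rw [Finset.prod_ite, Finset.prod_const_one, mul_one, Finset.prod_const]

lemma pw_true (lam : ℝ) (S : Finset ℕ) (p : ℕ) (T : List ℕ) (l : List Bool) :
    pw lam S (p :: T) (true :: l) = pw lam (S.erase p) T l := by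
  classical
  unfold pw
  by_cases hp : p ∈ S
  · rw [← Finset.mul_prod_erase S _ hp]
    have h1 : ¬ lastN (p :: T) (true :: l) p := by rw [lastN_same]; simp
    rw [if_neg h1, one_mul]
    refine Finset.prod_congr rfl fun q hq => ?_
    have hq' := Finset.ne_of_mem_erase hq
    simp only [lastN_ne hq']
  · rw [Finset.erase_eq_of_notMem hp]
    refine Finset.prod_congr rfl fun q hq => ?_
    have hq' : q ≠ p := fun e => hp (e ▸ hq)
    simp only [lastN_ne hq']

lemma pw_false (lam : ℝ) (S : Finset ℕ) (p : ℕ) (T : List ℕ) (l : List Bool) :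
    pw lam S (p :: T) (false :: l) = (if p ∈ S then lam else 1) * pw lam (S.erase p) T l := by
  classical
  unfold pw
  by_cases hp : p ∈ S
  · rw [← Finset.mul_prod_erase S _ hp, if_pos hp]
    have h1 : lastN (p :: T) (false :: l) p := by rw [lastN_same]
    rw [if_pos h1]
    congr 1
    refine Finset.prod_congr rfl fun q hq => ?_
    have hq' := Finset.ne_of_mem_erase hq
    simp only [lastN_ne hq']
  · rw [Finset.erase_eq_of_notMem hp, if_neg hp, one_mul]
    refine Finset.prod_congr rfl fun q hq => ?_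
    have hq' : q ≠ p := fun e => hp (e ▸ hq)
    simp only [lastN_ne hq']

/-- **the moment of the number of missing ties** -/
theorem Ex_pow {lam : ℝ} (hl : 1 ≤ lam) {T : List ℕ} (hT : Ok2 T) (S : Finset ℕ) :
    Ex T (pw lam S T) ≤ ∏ q ∈ S, (1 + (lam - 1) / (q : ℝ)) := by
  classical
  have hfac : ∀ q : ℕ, 1 ≤ 1 + (lam - 1) / (q : ℝ) := fun q => by
    have : 0 ≤ (lam - 1) / (q : ℝ) := div_nonneg (by linarith) (Nat.cast_nonneg _)
    linarith
  induction T generalizing S with
  | nil =>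
    have e : Ex [] (pw lam S []) = 1 := by
      show pw lam S [] [] = 1
      unfold pw
      refine Finset.prod_eq_one fun q _ => ?_
      rw [if_neg]
      exact fun h => h
    rw [e]
    calc (1 : ℝ) = ∏ _q ∈ S, (1 : ℝ) := Finset.prod_const_one.symm
      _ ≤ _ := Finset.prod_le_prod (fun _ _ => zero_le_one) fun q _ => hfac q
  | cons p T ih =>
    have hp2 : 2 ≤ p := hT p (by simp)
    have hp := w01 hp2
    have hT' : Ok2 T := fun q hq => hT q (by simp [hq])
    have h1 := ih hT' (S.erase p)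
    show (1 - 1 / (p : ℝ)) * Ex T (fun l => pw lam S (p :: T) (true :: l)) +
      1 / (p : ℝ) * Ex T (fun l => pw lam S (p :: T) (false :: l)) ≤ _
    simp only [pw_true, pw_false]
    rw [Ex_smul]
    have e1 : Ex T (fun l => pw lam (S.erase p) T l) = Ex T (pw lam (S.erase p) T) := rfl
    rw [e1]
    set E := Ex T (pw lam (S.erase p) T)
    have hE : 0 ≤ E := by
      have := Ex_mono hT' (f := fun _ => 0) (g := pw lam (S.erase p) T) fun l =>
        Finset.prod_nonneg fun q _ => by split_ifs <;> linarith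
      rwa [Ex_const] at this
    by_cases hps : p ∈ S
    · rw [if_pos hps, ← Finset.mul_prod_erase S _ hps]
      have h2 := mul_le_mul_of_nonneg_left h1 (zero_le_one.trans (hfac p))
      refine le_trans (le_of_eq ?_) h2
      ring
    · rw [if_neg hps]
      rw [Finset.erase_eq_of_notMem hps] at h1
      refine le_trans (le_of_eq ?_) h1
      ring

/-- **the tail** -/
theorem Ex_tail {T : List ℕ} (hT : Ok2 T) (S : Finset ℕ) (m : ℝ) {f : List Bool → ℝ}
    (hf : ∀ l, f l ≤ Real.exp (cntN S T l - m)) :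
    Ex T f ≤ Real.exp (2 * (∑ q ∈ S, 1 / (q : ℝ)) - m) := by
  have h1 : Ex T f ≤ Real.exp (-m) * Ex T (pw (Real.exp 1) S T) := by
    rw [← Ex_smul]
    refine Ex_mono hT fun l => (hf l).trans (le_of_eq ?_)
    rw [pw_eq, ← Real.exp_nat_mul, ← Real.exp_add]
    congr 1
    ring
  have he : (1 : ℝ) ≤ Real.exp 1 := Real.one_le_exp zero_le_one
  have h2 := Ex_pow he hT S
  have h3 : ∏ q ∈ S, (1 + (Real.exp 1 - 1) / (q : ℝ)) ≤
      Real.exp (2 * ∑ q ∈ S, 1 / (q : ℝ)) := by
    rw [Finset.mul_sum, Real.exp_sum]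
    refine Finset.prod_le_prod (fun q _ => ?_) fun q _ => ?_
    · have : 0 ≤ (Real.exp 1 - 1) / (q : ℝ) := div_nonneg (by linarith) (Nat.cast_nonneg _)
      linarith
    · have h4 : Real.exp 1 - 1 ≤ 2 := by linarith [Real.exp_one_lt_d9]
      have h5 : (Real.exp 1 - 1) / (q : ℝ) ≤ 2 * (1 / (q : ℝ)) := by
        rw [mul_one_div]
        exact div_le_div_of_nonneg_right h4 (Nat.cast_nonneg _)
      have h6 := Real.add_one_le_exp (2 * (1 / (q : ℝ)))
      linarith
  have h7 := mul_le_mul_of_nonneg_left (h2.trans h3) (Real.exp_pos (-m)).le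
  refine h1.trans (h7.trans (le_of_eq ?_))
  rw [← Real.exp_add]
  congr 1
  ring

open Classical in
/-- the tail, as the weight of the members of a state -/
theorem tail {T : List ℕ} {s : Gs β} {h : s.J → List Bool} (H : HW T s h) (c0 : ∀ k, 0 ≤ s.c k)
    (S : Finset ℕ) (m : ℝ) :
    ∑ k, (if m ≤ (cntN S T (h k) : ℝ) then s.c k else 0) ≤
      Real.exp (2 * (∑ q ∈ S, 1 / (q : ℝ)) - m) := by
  have e : ∑ k, (if m ≤ (cntN S T (h k) : ℝ) then s.c k else 0) =
      ∑ k, s.c k * (fun l => if m ≤ (cntN S T l : ℝ) then (1 : ℝ) else 0) (h k) := by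
    refine Finset.sum_congr rfl fun k _ => ?_
    show (if m ≤ (cntN S T (h k) : ℝ) then s.c k else 0) =
      s.c k * (if m ≤ (cntN S T (h k) : ℝ) then (1 : ℝ) else 0)
    split_ifs <;> simp
  rw [e, H.sum fun l => if m ≤ (cntN S T l : ℝ) then (1 : ℝ) else 0]
  refine Ex_tail H.ok S m fun l => ?_
  show (if m ≤ (cntN S T l : ℝ) then (1 : ℝ) else 0) ≤ _
  split_ifs with hm
  · exact Real.one_le_exp (by linarith)
  · exact (Real.exp_pos _).le

/-! ### windows -/

open Classical in
/-- primes of the window `[n, P]`, `log log q ≤ a i` -/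
noncomputable def Wn (a : ℝ) (n P i : ℕ) : Finset ℕ :=
  (Finset.Icc n P).filter fun q => q.Prime ∧ Real.log (Real.log q) ≤ a * i

lemma mem_Wn {a : ℝ} {n P i q : ℕ} : q ∈ Wn a n P i ↔
    (n ≤ q ∧ q ≤ P) ∧ q.Prime ∧ Real.log (Real.log q) ≤ a * i := by
  classical
  unfold Wn
  rw [Finset.mem_filter, Finset.mem_Icc]

lemma sum_Wn {a : ℝ} {n P i : ℕ} (hn : 3 ≤ n) (hi : Real.log (Real.log n) ≤ a * i) :
    ∑ q ∈ Wn a n P i, 1 / (q : ℝ) ≤ a * i - Real.log (Real.log n) + 8 / Real.log n := by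
  classical
  have hn0 : (0 : ℝ) < n := by exact_mod_cast (show 0 < n by omega)
  have hl : 0 < Real.log n := Real.log_pos (by exact_mod_cast (show 1 < n by omega))
  set Z : Finset ℕ := insert n (Wn a n P i) with hZ
  have hne : Z.Nonempty := ⟨n, Finset.mem_insert_self _ _⟩
  set X : ℕ := Z.max' hne with hX
  have hXm : X ∈ Z := Finset.max'_mem _ _
  have hnX : n ≤ X := Finset.le_max' _ _ (Finset.mem_insert_self _ _)
  have hXl : Real.log (Real.log X) ≤ a * i := by
    rcases Finset.mem_insert.1 hXm with h | h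
    · rw [h]; exact hi
    · exact (mem_Wn.1 h).2.2
  have hsub : Wn a n P i ⊆ insert n (Crest.Agent.Lib.Mertens.primesIoc n X) := by
    intro q hq
    have h1 := mem_Wn.1 hq
    have h2 : q ≤ X := Finset.le_max' _ _ (Finset.mem_insert_of_mem hq)
    rcases eq_or_lt_of_le h1.1.1 with h3 | h3
    · rw [← h3]; exact Finset.mem_insert_self _ _
    · exact Finset.mem_insert_of_mem (Crest.Agent.Lib.Mertens.mem_primesIoc.2 ⟨⟨h3, h2⟩, h1.2.1⟩)
  have h1 : ∑ q ∈ Wn a n P i, 1 / (q : ℝ) ≤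
      ∑ q ∈ insert n (Crest.Agent.Lib.Mertens.primesIoc n X), 1 / (q : ℝ) :=
    Finset.sum_le_sum_of_subset_of_nonneg hsub fun _ _ _ => by positivity
  have h2 : n ∉ Crest.Agent.Lib.Mertens.primesIoc n X := fun h =>
    lt_irrefl _ (Crest.Agent.Lib.Mertens.mem_primesIoc.1 h).1.1
  rw [Finset.sum_insert h2] at h1
  have h3 := (abs_le.1 (Crest.Agent.Lib.Mertens.mertens_two_nat n X (by omega) hnX)).2
  have h4 : ∑ q ∈ Crest.Agent.Lib.Mertens.primesIoc n X, 1 / (q : ℝ) =
      Crest.Agent.Lib.Mertens.S n X := rfl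
  have h5 : 1 / (n : ℝ) ≤ 1 / Real.log n :=
    one_div_le_one_div_of_le hl ((Real.log_le_sub_one_of_pos hn0).trans (by linarith))
  have h6 : 8 / Real.log n = 1 / Real.log n + 7 / Real.log n := by ring
  linarith

/-- **the weight of the members with many missing ties in one of the windows** -/
theorem om_le {a δ e : ℝ} (ha : 0 < a) (h2 : 2 * a < δ) (he : e * a < δ) : ∃ n₀ : ℕ, 16 ≤ n₀ ∧
    ∀ n ≥ n₀, ∀ (P : ℕ) {β : Type} {T : List ℕ} {s : Gs β} {h : s.J → List Bool}, HW T s h →
      (∀ k, 0 ≤ s.c k) → ∀ (F : s.J → Prop) [DecidablePred F],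
      (∀ k, F k → ∃ i : ℕ, Real.log (Real.log n) ≤ a * i ∧
        δ * i ≤ (cntN (Wn a n P i) T (h k) : ℝ)) →
      ∑ k, (if F k then s.c k else 0) ≤ Real.log n ^ (-e) := by
  classical
  set b : ℝ := δ - 2 * a with hb
  have hb0 : 0 < b := by linarith
  set r : ℝ := Real.exp (-b) with hr
  have hr0 : 0 < r := Real.exp_pos _
  have hr1 : r < 1 := by
    rw [hr, ← Real.exp_zero]; exact Real.exp_lt_exp.2 (by linarith)
  have hr2 : 0 < 1 - r := by linarith
  set C : ℝ := Real.exp 16 / (1 - r) with hC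
  have hC0 : 0 < C := div_pos (Real.exp_pos _) hr2
  set g : ℝ := δ / a - e with hg
  have hg0 : 0 < g := by
    rw [hg, sub_pos, lt_div_iff₀ ha]; exact he
  -- n large
  obtain ⟨n1, hn1⟩ : ∃ n1 : ℕ, ∀ n ≥ n1, C ≤ Real.log n ^ g := by
    have h := ((tendsto_rpow_atTop hg0).comp Real.tendsto_log_atTop).comp
      (tendsto_natCast_atTop_atTop (R := ℝ))
    exact Filter.eventually_atTop.1 (h.eventually_ge_atTop C)
  refine ⟨max 16 n1, le_max_left _ _, fun n hn P β T s h H c0 F _ hF => ?_⟩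
  have hn16 : 16 ≤ n := (le_max_left _ _).trans hn
  have hn1' := hn1 n ((le_max_right _ _).trans hn)
  have hl1 : 1 < Real.log n := by
    rw [Real.lt_log_iff_exp_lt (by exact_mod_cast (show 0 < n by omega))]
    have : (16 : ℝ) ≤ n := by exact_mod_cast hn16
    linarith [Real.exp_one_lt_d9]
  have hl0 : 0 < Real.log n := by linarith
  set L : ℝ := Real.log (Real.log n) with hL
  have hL0 : 0 < L := Real.log_pos hl1
  set i0 : ℕ := ⌈L / a⌉₊ with hi0
  have hi0' : L / a ≤ i0 := Nat.le_ceil _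
  obtain ⟨I, hI⟩ : ∃ I : ℕ, ∀ i : ℕ, δ * i ≤ ((P : ℝ) + 1) → i < I := by
    refine ⟨⌊(P + 1) / δ⌋₊ + 1, fun i hi => ?_⟩
    have : (i : ℝ) ≤ (P + 1) / δ := by
      rw [le_div_iff₀ (by linarith)]; linarith
    exact Nat.lt_succ_of_le (Nat.le_floor this)
  have hF' : ∀ k, F k → ∃ i ∈ Finset.Ico i0 I, δ * i ≤ (cntN (Wn a n P i) T (h k) : ℝ) := by
    intro k hk
    obtain ⟨i, h3, h4⟩ := hF k hk
    refine ⟨i, Finset.mem_Ico.2 ⟨?_, hI i (h4.trans ?_)⟩, h4⟩
    · refine Nat.ceil_le.2 ?_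
      rw [div_le_iff₀ ha]; linarith
    · have h5 : cntN (Wn a n P i) T (h k) ≤ P + 1 := by
        unfold cntN
        refine (Finset.card_filter_le _ _).trans ?_
        unfold Wn
        refine (Finset.card_filter_le _ _).trans ?_
        rw [Nat.card_Icc]; omega
      exact_mod_cast h5
  have s1 : ∑ k, (if F k then s.c k else 0) ≤ ∑ k, ∑ i ∈ Finset.Ico i0 I,
      (if δ * i ≤ (cntN (Wn a n P i) T (h k) : ℝ) then s.c k else 0) := by
    refine Finset.sum_le_sum fun k _ => ?_
    have h0 : ∀ i ∈ Finset.Ico i0 I,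
        0 ≤ (if δ * i ≤ (cntN (Wn a n P i) T (h k) : ℝ) then s.c k else 0) := fun i _ => by
      split_ifs
      · exact c0 k
      · exact le_rfl
    split_ifs with hk
    · obtain ⟨i, h3, h4⟩ := hF' k hk
      refine le_trans ?_ (Finset.single_le_sum h0 h3)
      rw [if_pos h4]
    · exact Finset.sum_nonneg h0
  rw [Finset.sum_comm] at s1
  have s2 : ∀ i ∈ Finset.Ico i0 I, ∑ k, (if δ * i ≤ (cntN (Wn a n P i) T (h k) : ℝ)
      then s.c k else 0) ≤ Real.exp 16 * Real.exp (-(2 * L)) * r ^ i := by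
    intro i hi
    have h3 := tail H c0 (Wn a n P i) (δ * i)
    have h4 : L ≤ a * i := by
      have h5 : (i0 : ℝ) ≤ i := by exact_mod_cast (Finset.mem_Ico.1 hi).1
      have h6 := hi0'.trans h5
      rw [div_le_iff₀ ha] at h6
      linarith
    have h7 := sum_Wn (P := P) (by omega : 3 ≤ n) h4
    refine h3.trans ?_
    rw [hr, ← Real.exp_nat_mul, ← Real.exp_add, ← Real.exp_add]
    refine Real.exp_le_exp.2 ?_
    have h8 : 8 / Real.log n ≤ 8 := div_le_self (by norm_num) hl1.le
    have h9 : (i : ℝ) * -b = -(δ * i) + 2 * (a * i) := by rw [hb]; ring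
    rw [h9]
    linarith
  have s3 : ∑ i ∈ Finset.Ico i0 I, r ^ i ≤ r ^ i0 / (1 - r) :=
    geom_sum_Ico_le_of_lt_one hr0.le hr1
  have s4 : r ^ i0 ≤ Real.exp (-(b / a * L)) := by
    rw [hr, ← Real.exp_nat_mul]
    refine Real.exp_le_exp.2 ?_
    have h3 : b * (L / a) ≤ b * i0 := mul_le_mul_of_nonneg_left hi0' hb0.le
    have h4 : b / a * L = b * (L / a) := by ring
    rw [h4]
    nlinarith
  refine s1.trans ((Finset.sum_le_sum s2).trans ?_)
  rw [← Finset.mul_sum]
  have hK : 0 ≤ Real.exp 16 * Real.exp (-(2 * L)) := by positivity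
  have s5 : Real.exp 16 * Real.exp (-(2 * L)) * ∑ i ∈ Finset.Ico i0 I, r ^ i ≤
      C * (Real.exp (-(2 * L)) * Real.exp (-(b / a * L))) := by
    refine (mul_le_mul_of_nonneg_left (s3.trans (div_le_div_of_nonneg_right s4 hr2.le)) hK).trans
      (le_of_eq ?_)
    rw [hC]; ring
  refine s5.trans ?_
  have e1 : Real.exp (-(2 * L)) * Real.exp (-(b / a * L)) = Real.log n ^ (-(δ / a)) := by
    rw [← Real.exp_add, Real.rpow_def_of_pos hl0]
    congr 1
    rw [← hL, hb]
    field_simp
    ring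
  rw [e1]
  have e2 : Real.log n ^ (-e) = Real.log n ^ g * Real.log n ^ (-(δ / a)) := by
    rw [← Real.rpow_add hl0]
    congr 1
    rw [hg]; ring
  rw [e2]
  exact mul_le_mul_of_nonneg_right hn1' (Real.rpow_nonneg hl0.le _)

end Crest.Agent.R4P.OmW11
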