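import Mathlib

/-!
R4 (S0004), helper625: **matched-prime lemma** ("at most one `s`").

`two_rel`: two relations `|y s θ - x φ - n| ≤ ε`, `|y' s' θ - x' φ - n'| ≤ ε` with different primes
`s, s'` and cofactors `≤ T < s, s'` give a non-zero integer `m`, `|m| ≤ T² (s + s')`, with
`|m θ - a| ≤ 2 T ε`.

`at_most_one`: if moreover `θ` is within `δ` of a reduced fraction `h/k` with `k > T² (s + s')` and
`T² (s + s') δ + 2 T ε < 1 / k`, this is impossible; hence at most one prime of a block carries a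
relation.
-/

set_option autoImplicit false

namespace Crest.Agent.R4P.OneS625

/-- two relations at different primes give a good approximation of `θ` of small height -/
theorem two_rel {θ φ ε : ℝ} {T s s' x y x' y' : ℕ} (hs : s.Prime) (hs' : s'.Prime) (hss : s ≠ s')
    (hTs : T < s) (_hTs' : T < s') (hx : 1 ≤ x) (hy : 1 ≤ y) (hx' : 1 ≤ x') (hy' : 1 ≤ y')
    (hxT : x ≤ T) (hyT : y ≤ T) (hxT' : x' ≤ T) (hyT' : y' ≤ T) {n n' : ℤ}
    (h1 : |(y : ℝ) * s * θ - x * φ - n| ≤ ε) (h2 : |(y' : ℝ) * s' * θ - x' * φ - n'| ≤ ε) :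
    ∃ m a : ℤ, m ≠ 0 ∧ (|m| : ℤ) ≤ (T : ℤ) ^ 2 * (s + s') ∧ |(m : ℝ) * θ - a| ≤ 2 * T * ε := by
  have hε : 0 ≤ ε := (abs_nonneg _).trans h1
  refine ⟨(x' : ℤ) * y * s - x * y' * s', (x' : ℤ) * n - x * n', ?_, ?_, ?_⟩
  · intro h0
    have h3 : (x' * y * s : ℕ) = x * y' * s' := by
      have : ((x' * y * s : ℕ) : ℤ) = ((x * y' * s' : ℕ) : ℤ) := by push_cast; linarith
      exact_mod_cast this
    have h4 : s ∣ x * y' * s' := ⟨x' * y, by rw [← h3]; ring⟩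
    rcases (hs.dvd_mul).1 h4 with h5 | h5
    · rcases (hs.dvd_mul).1 h5 with h6 | h6
      · exact absurd (Nat.le_of_dvd (by omega) h6) (by omega)
      · exact absurd (Nat.le_of_dvd (by omega) h6) (by omega)
    · exact hss ((Nat.prime_dvd_prime_iff_eq hs hs').1 h5)
  · have e1 : (0 : ℤ) ≤ (x' : ℤ) * y * s := by positivity
    have e2 : (0 : ℤ) ≤ (x : ℤ) * y' * s' := by positivity
    have e3 : (x' : ℤ) * y * s ≤ (T : ℤ) ^ 2 * s := by
      have : x' * y ≤ T * T := Nat.mul_le_mul hxT' hyT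
      have h' : ((x' * y * s : ℕ) : ℤ) ≤ ((T * T * s : ℕ) : ℤ) := by
        exact_mod_cast Nat.mul_le_mul_right s this
      push_cast at h'
      nlinarith
    have e4 : (x : ℤ) * y' * s' ≤ (T : ℤ) ^ 2 * s' := by
      have : x * y' ≤ T * T := Nat.mul_le_mul hxT hyT'
      have h' : ((x * y' * s' : ℕ) : ℤ) ≤ ((T * T * s' : ℕ) : ℤ) := by
        exact_mod_cast Nat.mul_le_mul_right s' this
      push_cast at h'
      nlinarith
    rw [abs_le]
    constructor <;> nlinarith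
  · push_cast
    have e : ((x' : ℝ) * y * s - x * y' * s') * θ - (x' * n - x * n') =
        x' * ((y : ℝ) * s * θ - x * φ - n) - x * ((y' : ℝ) * s' * θ - x' * φ - n') := by ring
    rw [e]
    have hx0 : (0 : ℝ) ≤ x := Nat.cast_nonneg x
    have hx0' : (0 : ℝ) ≤ x' := Nat.cast_nonneg x'
    have hxR : (x : ℝ) ≤ T := by exact_mod_cast hxT
    have hxR' : (x' : ℝ) ≤ T := by exact_mod_cast hxT'
    calc |(x' : ℝ) * ((y : ℝ) * s * θ - x * φ - n) - x * ((y' : ℝ) * s' * θ - x' * φ - n')|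
        ≤ |(x' : ℝ) * ((y : ℝ) * s * θ - x * φ - n)| +
          |x * ((y' : ℝ) * s' * θ - x' * φ - n')| := abs_sub _ _
      _ = x' * |(y : ℝ) * s * θ - x * φ - n| + x * |(y' : ℝ) * s' * θ - x' * φ - n'| := by
          rw [abs_mul, abs_mul, abs_of_nonneg hx0, abs_of_nonneg hx0']
      _ ≤ T * ε + T * ε := add_le_add (mul_le_mul hxR' h1 (abs_nonneg _) (by positivity))
          (mul_le_mul hxR h2 (abs_nonneg _) (by positivity))
      _ = 2 * T * ε := by ring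

/-- a reduced fraction of large denominator near `θ` excludes approximations of small height -/
lemma no_small {θ δ η : ℝ} {k : ℕ} {h m a : ℤ} (hk : 1 ≤ k) (hco : IsCoprime h (k : ℤ))
    (hθ : |θ - h / k| ≤ δ) (hm : m ≠ 0) (hmk : |m| < (k : ℤ)) (ha : |(m : ℝ) * θ - a| ≤ η) :
    1 / (k : ℝ) ≤ |(m : ℝ)| * δ + η := by
  have hk0 : (0 : ℝ) < k := by exact_mod_cast (by omega : 0 < k)
  have hne : m * h - a * k ≠ 0 := by
    intro h0
    have hd : (k : ℤ) ∣ m * h := ⟨a, by linarith⟩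
    have hd2 : (k : ℤ) ∣ m := (hco.symm).dvd_of_dvd_mul_right hd
    have h3 := Int.le_of_dvd (abs_pos.2 hm) ((dvd_abs _ _).2 hd2)
    omega
  have h1 : (1 : ℝ) ≤ |((m * h - a * k : ℤ) : ℝ)| := by
    have := Int.one_le_abs hne
    exact_mod_cast this
  have e : ((m * h - a * k : ℤ) : ℝ) / k = ((m : ℝ) * θ - a) - m * (θ - h / k) := by
    push_cast; field_simp; ring
  calc 1 / (k : ℝ) ≤ |((m * h - a * k : ℤ) : ℝ)| / k := by gcongr
    _ = |((m * h - a * k : ℤ) : ℝ) / k| := by rw [abs_div, abs_of_pos hk0]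
    _ = |((m : ℝ) * θ - a) - m * (θ - h / k)| := by rw [e]
    _ ≤ |(m : ℝ) * θ - a| + |m * (θ - h / k)| := abs_sub _ _
    _ ≤ η + |(m : ℝ)| * δ := by
        rw [abs_mul]
        exact add_le_add ha (mul_le_mul_of_nonneg_left hθ (abs_nonneg _))
    _ = _ := by ring

/-- relation at the prime `s` between the targets `θ` (raised by `s`) and `φ` -/
def Rel (θ φ ε : ℝ) (T s : ℕ) : Prop :=
  ∃ x y : ℕ, 1 ≤ x ∧ x ≤ T ∧ 1 ≤ y ∧ y ≤ T ∧ ∃ n : ℤ, |(y : ℝ) * s * θ - x * φ - n| ≤ ε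

/-- **at most one `s`**: `θ` close to a reduced fraction of large denominator `k`: at most one prime of
`(P, Q]` carries a relation. -/
theorem at_most_one {θ φ ε δ : ℝ} {T P Q k : ℕ} {h : ℤ} (hk : 1 ≤ k)
    (hco : IsCoprime h (k : ℤ)) (hθ : |θ - h / k| ≤ δ) (hTP : T ≤ P)
    (hkQ : 2 * T ^ 2 * Q < k) (hsm : 2 * (T : ℝ) ^ 2 * Q * δ + 2 * T * ε < 1 / k)
    {s s' : ℕ} (hs : s.Prime) (hs' : s'.Prime) (hPs : P < s) (hPs' : P < s') (hsQ : s ≤ Q)
    (hsQ' : s' ≤ Q) (h1 : Rel θ φ ε T s) (h2 : Rel θ φ ε T s') : s = s' := by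
  by_contra hss
  obtain ⟨x, y, hx, hxT, hy, hyT, n, hn⟩ := h1
  obtain ⟨x', y', hx', hxT', hy', hyT', n', hn'⟩ := h2
  obtain ⟨m, a, hm, hmT, ha⟩ := two_rel hs hs' hss (by omega) (by omega) hx hy hx' hy' hxT hyT hxT'
    hyT' hn hn'
  have hδ : 0 ≤ δ := (abs_nonneg _).trans hθ
  have hmQ : |m| ≤ 2 * (T : ℤ) ^ 2 * Q := by
    refine hmT.trans ?_
    have : ((s : ℤ) + s') ≤ 2 * Q := by
      have : s + s' ≤ 2 * Q := by omega
      exact_mod_cast this
    nlinarith [sq_nonneg (T : ℤ)]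
  have hmk : |m| < (k : ℤ) := by
    refine hmQ.trans_lt ?_
    exact_mod_cast hkQ
  have h3 := no_small hk hco hθ hm hmk ha
  have h4 : |(m : ℝ)| ≤ 2 * (T : ℝ) ^ 2 * Q := by
    have : ((|m| : ℤ) : ℝ) ≤ ((2 * (T : ℤ) ^ 2 * Q : ℤ) : ℝ) := by exact_mod_cast hmQ
    push_cast at this
    exact this
  have h5 : |(m : ℝ)| * δ ≤ 2 * (T : ℝ) ^ 2 * Q * δ := mul_le_mul_of_nonneg_right h4 hδ
  linarith

end Crest.Agent.R4P.OneS625
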