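import Crest.Agent.R4P.GMer_27

/-!
# The merge potential is at most `14 M (h ^ (3/2))`  (R4, helper479)

For the abstract merge potential of `GMer_27` and `0 ≤ h ≤ 1`:

* `B_le32` : `B c W n h ≤ 7 n M(h √h)`,
* `Pot_le32` : `Pot c W h ≤ 14 M(h √h)`,
* `Pot_le_cap` : `Pot c W h ≤ 14 √a M h` if `h ≤ a`.
-/

set_option autoImplicit false
set_option linter.unusedVariables false

namespace Crest.Agent.R4P.Pot32_479

open Finset Filter
open Crest.Agent.R4.MergePot970 (abel w w_nonneg w_zero w_mono w_le_one w_step)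
open Crest.Agent.R4P.GMer27

variable {J : Type*} [Fintype J] {c : J → ℝ} {W : Set (J → ℝ)}

/-- `T_lam(h) ≤ M((h - lam)^+)` -/
lemma T_le_pos (H : TC c W) (lam : ℝ) (h : J → ℝ) :
    T c W lam h ≤ M c (fun j => max (h j - lam) 0) := by
  obtain ⟨φ, h1, h2⟩ := T_max H lam h
  rw [← h2]
  apply M_mono H.c0
  intro j
  obtain ⟨p0, p1⟩ := H.bd φ h1 j
  have h3 : 0 ≤ max (h j - lam) 0 := le_max_right _ _
  have h4 : h j - lam ≤ max (h j - lam) 0 := le_max_left _ _
  calc (h j - lam) * φ j ≤ max (h j - lam) 0 * φ j := mul_le_mul_of_nonneg_right h4 p0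
    _ ≤ max (h j - lam) 0 * 1 := mul_le_mul_of_nonneg_left p1 h3
    _ = _ := mul_one _

lemma w_sqrt {n i : ℕ} (hn : 0 < n) : w n i = Real.sqrt ((i : ℝ) / n) := by
  rw [w, Real.sqrt_div (Nat.cast_nonneg i)]

/-- one member: the increments of the weight against the tail -/
lemma incr {n : ℕ} (hn : 0 < n) {x : ℝ} (hx : 0 ≤ x) (i : ℕ) :
    (w n (i + 1) - w n i) * max (x - ((i + 1 : ℕ) : ℝ) / n) 0 ≤
      x * (min (w n (i + 1)) (Real.sqrt x) - min (w n i) (Real.sqrt x)) := by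
  have hm := w_mono n i
  have hmin : min (w n i) (Real.sqrt x) ≤ min (w n (i + 1)) (Real.sqrt x) :=
    min_le_min hm le_rfl
  rcases le_total (((i + 1 : ℕ) : ℝ) / n) x with h | h
  · have h1 : w n (i + 1) ≤ Real.sqrt x := by
      rw [w_sqrt hn]
      exact Real.sqrt_le_sqrt h
    rw [min_eq_left h1, min_eq_left (hm.trans h1), max_eq_left (sub_nonneg.2 h), mul_comm]
    apply mul_le_mul_of_nonneg_right _ (sub_nonneg.2 hm)
    have : (0 : ℝ) ≤ ((i + 1 : ℕ) : ℝ) / n := by positivity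
    linarith
  · rw [max_eq_right (sub_nonpos.2 h), mul_zero]
    exact mul_nonneg hx (sub_nonneg.2 hmin)

lemma incr_sum {n : ℕ} (hn : 0 < n) {x : ℝ} (hx : 0 ≤ x) :
    ∑ i ∈ range n, (w n (i + 1) - w n i) * max (x - ((i + 1 : ℕ) : ℝ) / n) 0 ≤
      x * Real.sqrt x := by
  calc _ ≤ ∑ i ∈ range n,
        x * (min (w n (i + 1)) (Real.sqrt x) - min (w n i) (Real.sqrt x)) :=
        Finset.sum_le_sum fun i _ => incr hn hx i
    _ = x * (min (w n n) (Real.sqrt x) - min (w n 0) (Real.sqrt x)) := by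
        rw [← Finset.mul_sum, Finset.sum_range_sub (fun i => min (w n i) (Real.sqrt x))]
    _ ≤ x * Real.sqrt x := by
        apply mul_le_mul_of_nonneg_left _ hx
        have h1 := min_le_right (w n n) (Real.sqrt x)
        have h2 : 0 ≤ min (w n 0) (Real.sqrt x) := le_min (w_nonneg n 0) (Real.sqrt_nonneg _)
        linarith

/-- **`B ≤ 7 n M(h √h)`** -/
lemma B_le32 (H : TC c W) {n : ℕ} (hn : 0 < n) {h : J → ℝ}
    (h0 : ∀ j, 0 ≤ h j) (h1 : ∀ j, h j ≤ 1) :
    B c W n h ≤ 7 * (n * M c (fun j => h j * Real.sqrt (h j))) := by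
  have hn' : (0 : ℝ) < n := by exact_mod_cast hn
  have s1 : B c W n h ≤ 7 * (n * ∑ i ∈ range n, w n i * (t c W n h i - t c W n h (i + 1))) := by
    rw [B, Finset.mul_sum, Finset.mul_sum]
    apply Finset.sum_le_sum
    intro i _
    have hw0 := w_nonneg n i
    have e : 7 * (n * (w n i * (t c W n h i - t c W n h (i + 1)))) =
        w n i * (7 * nu c W n h i) := by
      simp only [nu]
      ring
    rw [e]
    apply mul_le_mul_of_nonneg_left _ hw0
    nlinarith [sq_nonneg (nu c W n h i)]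
  have hab := abel (w n) (t c W n h) n
  rw [t_top H hn h1, w_zero, mul_zero, add_zero, zero_mul, zero_add] at hab
  rw [hab] at s1
  refine s1.trans ?_
  apply mul_le_mul_of_nonneg_left _ (by norm_num : (0 : ℝ) ≤ 7)
  apply mul_le_mul_of_nonneg_left _ hn'.le
  calc ∑ i ∈ range n, (w n (i + 1) - w n i) * t c W n h (i + 1)
      ≤ ∑ i ∈ range n, (w n (i + 1) - w n i) *
          M c (fun j => max (h j - ((i + 1 : ℕ) : ℝ) / n) 0) := by
        apply Finset.sum_le_sum
        intro i _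
        exact mul_le_mul_of_nonneg_left (T_le_pos H _ h) (sub_nonneg.2 (w_mono n i))
    _ = M c (fun j => ∑ i ∈ range n,
          (w n (i + 1) - w n i) * max (h j - ((i + 1 : ℕ) : ℝ) / n) 0) := by
        rw [M_sum]
        exact Finset.sum_congr rfl fun i _ => (M_smul _ _).symm
    _ ≤ M c (fun j => h j * Real.sqrt (h j)) :=
        M_mono H.c0 fun j => incr_sum hn (h0 j)

/-- **`Pot ≤ 14 M(h √h)`** -/
theorem Pot_le32 (H : TC c W) {h : J → ℝ} (h0 : ∀ j, 0 ≤ h j) (h1 : ∀ j, h j ≤ 1) :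
    Pot c W h ≤ 14 * M c (fun j => h j * Real.sqrt (h j)) := by
  refine liminf_le_of_le (isBoundedUnder_of ⟨0, fun n => Bn_nonneg H h n⟩) fun b hb => ?_
  obtain ⟨n, hn⟩ := hb.exists
  refine hn.trans ?_
  have hn : (0 : ℝ) < (n : ℝ) + 1 := by positivity
  rw [div_le_iff₀ hn]
  have := B_le32 H n.succ_pos h0 h1
  push_cast at this
  linarith

/-- **low contents are cheap** -/
theorem Pot_le_cap (H : TC c W) {h : J → ℝ} (h0 : ∀ j, 0 ≤ h j) (h1 : ∀ j, h j ≤ 1) {a : ℝ}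
    (ha : ∀ j, h j ≤ a) : Pot c W h ≤ 14 * (Real.sqrt a * M c h) := by
  refine (Pot_le32 H h0 h1).trans ?_
  apply mul_le_mul_of_nonneg_left _ (by norm_num : (0 : ℝ) ≤ 14)
  rw [← M_smul]
  apply M_mono H.c0
  intro j
  rw [mul_comm (Real.sqrt a)]
  exact mul_le_mul_of_nonneg_left (Real.sqrt_le_sqrt (ha j)) (h0 j)

end Crest.Agent.R4P.Pot32_479
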