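import Crest.Agent.R4P.GMk_35
import Crest.Agent.R4P.Pot32_479

/-!
# The own-height potential is at most `14 M (h ^ (3/2))`  (R4, helper49)

For helper35's potential `PN` of `GMk_35` (`PN = 7/8 Pk`) and `0 ≤ h ≤ 1`:

* `B_le32` : `B c W n h ≤ 8 n M(h √h)`,
* `PN_le32` : `PN c W h ≤ 14 M(h √h)`,
* `PN_le_cap` : `PN c W h ≤ 14 √a M h` if `h ≤ a`.
-/

set_option autoImplicit false
set_option linter.unusedVariables false

namespace Crest.Agent.R4P.PN32_49

open Finset Filter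
open Crest.Agent.R4.MergePot970 (abel w w_nonneg w_zero w_mono w_le_one w_step)
open Crest.Agent.R4P.GMer27 (TC M M_mono M_nonneg M_sum M_smul M_const)
open Crest.Agent.R4P.GMk35 (T2_le t t_top B nu Pk PN Bn_nonneg PN_zero)
open Crest.Agent.R4P.Pot32_479 (incr_sum)

variable {J : Type*} [Fintype J] {c : J → ℝ} {W : Set (J → ℝ)}

/-- **`B ≤ 8 n M(h √h)`** -/
lemma B_le32 (H : TC c W) {n : ℕ} (hn : 0 < n) {h : J → ℝ}
    (h0 : ∀ j, 0 ≤ h j) (h1 : ∀ j, h j ≤ 1) :
    B c W n h ≤ 8 * (n * M c (fun j => h j * Real.sqrt (h j))) := by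
  have hn' : (0 : ℝ) < n := by exact_mod_cast hn
  have s1 : B c W n h ≤ 8 * (n * ∑ i ∈ range n, w n i * (t c W n h i - t c W n h (i + 1))) := by
    rw [B, Finset.mul_sum, Finset.mul_sum]
    apply Finset.sum_le_sum
    intro i _
    have hw0 := w_nonneg n i
    have e : 8 * (n * (w n i * (t c W n h i - t c W n h (i + 1)))) =
        w n i * (8 * nu c W n h i) := by
      simp only [nu]
      ring
    rw [e]
    apply mul_le_mul_of_nonneg_left _ hw0
    nlinarith [sq_nonneg (nu c W n h i)]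
  have hab := abel (w n) (t c W n h) n
  rw [t_top H hn h1, w_zero, mul_zero, add_zero, zero_mul, zero_add] at hab
  rw [hab] at s1
  refine s1.trans ?_
  apply mul_le_mul_of_nonneg_left _ (by norm_num : (0 : ℝ) ≤ 8)
  apply mul_le_mul_of_nonneg_left _ hn'.le
  calc ∑ i ∈ range n, (w n (i + 1) - w n i) * t c W n h (i + 1)
      ≤ ∑ i ∈ range n, (w n (i + 1) - w n i) *
          M c (fun j => max (h j - ((i + 1 : ℕ) : ℝ) / n) 0) := by
        apply Finset.sum_le_sum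
        intro i _
        exact mul_le_mul_of_nonneg_left (T2_le H (by positivity) h)
          (sub_nonneg.2 (w_mono n i))
    _ = M c (fun j => ∑ i ∈ range n,
          (w n (i + 1) - w n i) * max (h j - ((i + 1 : ℕ) : ℝ) / n) 0) := by
        rw [M_sum]
        exact Finset.sum_congr rfl fun i _ => (M_smul _ _).symm
    _ ≤ M c (fun j => h j * Real.sqrt (h j)) :=
        M_mono H.c0 fun j => incr_sum hn (h0 j)

/-- **`Pk ≤ 16 M(h √h)`** -/
theorem Pk_le16 (H : TC c W) {h : J → ℝ} (h0 : ∀ j, 0 ≤ h j) (h1 : ∀ j, h j ≤ 1) :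
    Pk c W h ≤ 16 * M c (fun j => h j * Real.sqrt (h j)) := by
  refine liminf_le_of_le (isBoundedUnder_of ⟨0, fun n => Bn_nonneg H h n⟩) fun b hb => ?_
  obtain ⟨n, hn⟩ := hb.exists
  refine hn.trans ?_
  have hn : (0 : ℝ) < (n : ℝ) + 1 := by positivity
  rw [div_le_iff₀ hn]
  have := B_le32 H n.succ_pos h0 h1
  push_cast at this
  linarith

/-- **`PN ≤ 14 M(h √h)`** -/
theorem PN_le32 (H : TC c W) {h : J → ℝ} (h0 : ∀ j, 0 ≤ h j) (h1 : ∀ j, h j ≤ 1) :
    PN c W h ≤ 14 * M c (fun j => h j * Real.sqrt (h j)) := by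
  have h2 := Pk_le16 H h0 h1
  unfold PN
  linarith

/-- **low contents are cheap** -/
theorem PN_le_cap (H : TC c W) {h : J → ℝ} (h0 : ∀ j, 0 ≤ h j) (h1 : ∀ j, h j ≤ 1) {a : ℝ}
    (ha : ∀ j, h j ≤ a) : PN c W h ≤ 14 * (Real.sqrt a * M c h) := by
  refine (PN_le32 H h0 h1).trans ?_
  apply mul_le_mul_of_nonneg_left _ (by norm_num : (0 : ℝ) ≤ 14)
  rw [← M_smul]
  apply M_mono H.c0
  intro j
  rw [mul_comm (Real.sqrt a)]
  exact mul_le_mul_of_nonneg_left (Real.sqrt_le_sqrt (ha j)) (h0 j)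

end Crest.Agent.R4P.PN32_49
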