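import Crest.Agent.R4P.XmO_37

/-!
R4 (S0004) with powers, helper18: **energies of POOR pieces of one label, no late side**.

For a fixed item `i` of the first node and a fixed cofactor `s` the partner is determined by the cofactor
`r` of `i`, and `r` runs through ONE residue class of the divisors of `q / s.A`. If only `M_i` values of `s`
occur (poor item), the pairs with `s < r` cost `2 R_i M_i C K^(-1/4)`; the pairs with `r < s` are charged to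
the other side.

* `dv_sum` : divisors of one residue class;
* `poor_row`, **`poor_min`** : number level;
* **`node_poor`** : two nodes of one circle, arbitrary offsets, `F`, `G` uncounted;
* **`node_poor1`** : one node, many labels, same label, different items;
* `card_pow` : the number of cofactors built from the primes of a set.
-/

set_option autoImplicit false
set_option linter.unusedSectionVars false
set_option linter.unusedVariables false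

open MeasureTheory Filter

namespace Crest.Agent.R4P.PoC18

open Crest.Agent.R4.HVW560 (wn)
open Crest.Agent.R4.Smo944 (Smooth wt2)
open Crest.Agent.R016 (primesIoc mem_primesIoc)
open Crest.Agent.R4P.GcdK37 (ind ind_t ind_f ind_nn ind_le)
open Crest.Agent.R4P.GcdS37 (rd sg sg_pos one_div_sg res_sum tw_sum Tm Tm_pos)
open Crest.Agent.R4P.GcdT37 (rd_inj)

/-! ### one residue class of divisors -/

/-- the smooth part -/
theorem dv_smooth {z k : ℕ} (hz : 2 ≤ z) (hk : 0 < k) {H : ℝ} (hH1 : 1 ≤ H) (hHk : H ≤ k)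
    {B : Finset ℕ} (hB : Smooth z B) (hBk : ∀ b ∈ B, H ≤ (b : ℝ))
    (hr : ∀ a ∈ B, ∀ b ∈ B, a % k = b % k) :
    ∑ b ∈ B, (1 : ℝ) / b ≤ √((4 + Real.log z) / H) *
      √(Real.exp (Tm 0 * (Real.log (Real.log z) + 6))) := by
  have hb0 : ∀ b ∈ B, (0 : ℝ) < b := fun b hb => by exact_mod_cast (hB b hb).1
  have hH0 : 0 < H := by linarith
  -- the two sums
  have h1 : ∑ b ∈ B, (b : ℝ) ^ (-(1 + sg z)) ≤ (4 + Real.log z) / H := by
    refine (res_sum (sg_pos z) hk hH1 hBk hr).trans ?_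
    rw [one_div_sg]
    have hlz : 0 ≤ Real.log (z : ℝ) := Real.log_natCast_nonneg z
    have e1 : (1 + (2 + Real.log (z:ℝ))) / k ≤ (1 + (2 + Real.log (z:ℝ))) / H :=
      div_le_div_of_nonneg_left (by linarith) hH0 hHk
    have e2 : 1 / H + (1 + (2 + Real.log (z:ℝ))) / H = (4 + Real.log z) / H := by
      rw [← add_div]; congr 1; ring
    linarith
  have h2 : ∑ b ∈ B, (b : ℝ) ^ (-(1 - sg z)) ≤ Real.exp (Tm 0 * (Real.log (Real.log z) + 6)) := by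
    have key := tw_sum (κ := 1) zero_le_one 0 hz hB
    rw [one_mul] at key
    refine le_trans (le_of_eq (Finset.sum_congr rfl fun b hb => ?_)) key
    have hbn := (hB b hb).1
    have e1 : ∏ p ∈ primesIoc 0 z, wt2 1 0 p (b.factorization p) = (b : ℝ)⁻¹ := by
      have e2 : ∀ p ∈ primesIoc 0 z, wt2 1 0 p (b.factorization p) =
          ((p : ℝ) ^ (b.factorization p))⁻¹ := by
        intro p hp
        unfold wt2
        split_ifs with h0
        · rw [h0]; simp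
        · simp
      rw [Finset.prod_congr rfl e2, Finset.prod_inv_distrib]
      congr 1
      have h3 : (b : ℝ) = ∏ p ∈ primesIoc 0 z, (p : ℝ) ^ (b.factorization p) := by
        conv_lhs => rw [← Nat.prod_factorization_pow_eq_self hbn.ne']
        rw [Finsupp.prod, Nat.support_factorization]
        push_cast
        apply Finset.prod_subset (hB.pf hb)
        intro p _ hp
        rw [← Nat.support_factorization, Finsupp.notMem_support_iff] at hp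
        rw [hp, pow_zero]
      exact h3.symm
    rw [e1, ← Real.rpow_neg_one, ← Real.rpow_add (hb0 b hb)]
    congr 1
    ring
  -- Cauchy-Schwarz
  have h3 : ∑ b ∈ B, (1 : ℝ) / b = ∑ b ∈ B, (b : ℝ) ^ (-(1 + sg z) / 2) * (b : ℝ) ^ (-(1 - sg z) / 2) := by
    refine Finset.sum_congr rfl fun b hb => ?_
    rw [← Real.rpow_add (hb0 b hb), one_div, ← Real.rpow_neg_one]
    congr 1
    ring
  rw [h3]
  refine (Real.sum_mul_le_sqrt_mul_sqrt B _ _).trans ?_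
  have e1 : ∑ b ∈ B, ((b : ℝ) ^ (-(1 + sg z) / 2)) ^ 2 = ∑ b ∈ B, (b : ℝ) ^ (-(1 + sg z)) :=
    Finset.sum_congr rfl fun b hb => by
      rw [← Real.rpow_natCast, ← Real.rpow_mul (hb0 b hb).le]
      congr 1
      push_cast; ring
  have e2 : ∑ b ∈ B, ((b : ℝ) ^ (-(1 - sg z) / 2)) ^ 2 = ∑ b ∈ B, (b : ℝ) ^ (-(1 - sg z)) :=
    Finset.sum_congr rfl fun b hb => by
      rw [← Real.rpow_natCast, ← Real.rpow_mul (hb0 b hb).le]
      congr 1
      push_cast; ring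
  rw [e1, e2]
  exact mul_le_mul (Real.sqrt_le_sqrt h1) (Real.sqrt_le_sqrt h2) (Real.sqrt_nonneg _)
    (Real.sqrt_nonneg _)

/-- growth of the smooth factor -/
lemma grow : ∃ Ce : ℝ, 1 ≤ Ce ∧ ∃ C : ℝ, 1 ≤ C ∧ ∀ (P z : ℕ) (H : ℝ), 2 ≤ P → 1 ≤ H →
    (3 + Real.log P) ^ Ce ≤ H → 2 ≤ z → Real.log z ≤ Real.log P + 4 * Real.log H + Real.log 2 →
    √((4 + Real.log z) / H) * √(Real.exp (Tm 0 * (Real.log (Real.log z) + 6))) ≤
      C * H ^ (-(1 / 4) : ℝ) := by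
  have hT := Tm_pos 0
  set a : ℝ := (1 + Tm 0) / 2 with ha
  have ha0 : 0 < a := by rw [ha]; linarith
  have ha2 : 1 / 2 ≤ a := by rw [ha]; linarith
  set D : ℝ := 2 + 16 * a with hD
  refine ⟨max 1 (4 * a), le_max_left _ _, max 1 (Real.exp (3 * Tm 0) * (2 * D) ^ a), le_max_left _ _,
    fun P z H hP hH hPH hz hlz => ?_⟩
  have hH0 : 0 < H := by linarith
  have hlP : 0 ≤ Real.log (P : ℝ) := Real.log_natCast_nonneg P
  have hlH : 0 ≤ Real.log H := Real.log_nonneg hH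
  have hlz0 : 0 < Real.log (z : ℝ) := Real.log_pos (by exact_mod_cast (by omega : 1 < z))
  -- size of `3 + log P` and `log H`
  have g1 : 3 + Real.log (P : ℝ) ≤ H ^ (1 / (4 * a)) := by
    have k1 : (3 + Real.log (P : ℝ)) ^ (4 * a) ≤ H :=
      (Real.rpow_le_rpow_of_exponent_le (by linarith) (le_max_right _ _)).trans hPH
    have k2 := Real.rpow_le_rpow (by positivity) k1 (by positivity : (0:ℝ) ≤ 1 / (4 * a))
    rwa [← Real.rpow_mul (by linarith), mul_one_div_cancel (by positivity), Real.rpow_one] at k2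
  have g2 : Real.log H ≤ 4 * a * H ^ (1 / (4 * a)) := by
    have := Real.log_le_rpow_div hH0.le (by positivity : (0:ℝ) < 1 / (4 * a))
    rw [div_div_eq_mul_div, div_one] at this
    linarith
  have g3 : 1 ≤ H ^ (1 / (4 * a)) := Real.one_le_rpow hH (by positivity)
  have g4 : 4 + Real.log (z : ℝ) ≤ D * H ^ (1 / (4 * a)) := by
    have hl2 : Real.log 2 ≤ 1 := by
      have := Real.log_two_lt_d9; linarith
    rw [hD]
    have : 4 + Real.log (z : ℝ) ≤ (3 + Real.log P) + 1 + 1 * 1 + 4 * Real.log H := by linarith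
    nlinarith
  have g5 : 0 ≤ 4 + Real.log (z : ℝ) := by linarith
  -- the exponential
  have e1 : √(Real.exp (Tm 0 * (Real.log (Real.log z) + 6))) =
      Real.exp (3 * Tm 0) * (Real.log z) ^ (Tm 0 / 2) := by
    rw [Real.sqrt_eq_rpow, ← Real.exp_mul, Real.rpow_def_of_pos hlz0, ← Real.exp_add]
    congr 1
    ring
  have e2 : √((4 + Real.log z) / H) = (4 + Real.log (z:ℝ)) ^ (1 / 2 : ℝ) * H ^ (-(1 / 2) : ℝ) := by
    rw [Real.sqrt_eq_rpow, Real.div_rpow g5 hH0.le, Real.rpow_neg hH0.le, div_eq_mul_inv]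
  rw [e1, e2]
  have e3 : (Real.log (z:ℝ)) ^ (Tm 0 / 2) ≤ (4 + Real.log (z:ℝ)) ^ (Tm 0 / 2) :=
    Real.rpow_le_rpow hlz0.le (by linarith) (by linarith)
  have e4 : (4 + Real.log (z:ℝ)) ^ (1 / 2 : ℝ) * (4 + Real.log (z:ℝ)) ^ (Tm 0 / 2) =
      (4 + Real.log (z:ℝ)) ^ a := by
    rw [← Real.rpow_add (by linarith)]
    congr 1
    rw [ha]; ring
  have e5 : (4 + Real.log (z:ℝ)) ^ a ≤ (2 * D) ^ a * H ^ (1 / 4 : ℝ) := by
    calc (4 + Real.log (z:ℝ)) ^ a ≤ (D * H ^ (1 / (4 * a))) ^ a := Real.rpow_le_rpow g5 g4 ha0.le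
      _ = D ^ a * H ^ (1 / 4 : ℝ) := by
          rw [Real.mul_rpow (by rw [hD]; positivity) (by positivity), ← Real.rpow_mul hH0.le]
          congr 2
          field_simp
      _ ≤ (2 * D) ^ a * H ^ (1 / 4 : ℝ) := by
          refine mul_le_mul_of_nonneg_right (Real.rpow_le_rpow (by rw [hD]; positivity) ?_ ha0.le)
            (by positivity)
          have : 0 ≤ D := by rw [hD]; positivity
          linarith
  have hHh : (0:ℝ) < H ^ (-(1 / 2) : ℝ) := Real.rpow_pos_of_pos hH0 _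
  calc (4 + Real.log (z:ℝ)) ^ (1 / 2 : ℝ) * H ^ (-(1 / 2) : ℝ) *
        (Real.exp (3 * Tm 0) * (Real.log z) ^ (Tm 0 / 2))
      ≤ (4 + Real.log (z:ℝ)) ^ (1 / 2 : ℝ) * H ^ (-(1 / 2) : ℝ) *
        (Real.exp (3 * Tm 0) * (4 + Real.log (z:ℝ)) ^ (Tm 0 / 2)) := by
        refine mul_le_mul_of_nonneg_left (mul_le_mul_of_nonneg_left e3 (Real.exp_pos _).le) ?_
        positivity
    _ = Real.exp (3 * Tm 0) * H ^ (-(1 / 2) : ℝ) * ((4 + Real.log (z:ℝ)) ^ (1 / 2 : ℝ) *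
        (4 + Real.log (z:ℝ)) ^ (Tm 0 / 2)) := by ring
    _ ≤ Real.exp (3 * Tm 0) * H ^ (-(1 / 2) : ℝ) * ((2 * D) ^ a * H ^ (1 / 4 : ℝ)) := by
        rw [e4]
        exact mul_le_mul_of_nonneg_left e5 (by positivity)
    _ = Real.exp (3 * Tm 0) * (2 * D) ^ a * (H ^ (-(1 / 2) : ℝ) * H ^ (1 / 4 : ℝ)) := by ring
    _ = Real.exp (3 * Tm 0) * (2 * D) ^ a * H ^ (-(1 / 4) : ℝ) := by
        rw [← Real.rpow_add hH0]; norm_num
    _ ≤ max 1 (Real.exp (3 * Tm 0) * (2 * D) ^ a) * H ^ (-(1 / 4) : ℝ) :=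
        mul_le_mul_of_nonneg_right (le_max_right _ _) (by positivity)

open Classical in
/-- **divisors of one residue class** -/
theorem dv_sum : ∃ Ce : ℝ, 1 ≤ Ce ∧ ∃ C : ℝ, 1 ≤ C ∧ ∀ (P k m : ℕ) (H : ℝ) (p : ℕ → Prop), 2 ≤ P →
    0 < k → 1 ≤ H → H ≤ k → (3 + Real.log P) ^ Ce ≤ H → 0 < m →
    (∀ z : ℕ, P ≤ z → ∑ d ∈ m.divisors.filter (fun d => ∃ b : ℕ, b.Prime ∧ z < b ∧ b ∣ d),
      (1 : ℝ) / d ≤ H * (z : ℝ) ^ (-(1 / 2) : ℝ)) →
    (∀ d, d ∣ m → p d → H ≤ (d : ℝ)) → (∀ a b, a ∣ m → b ∣ m → p a → p b → a % k = b % k) →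
    ∑ d ∈ m.divisors.filter p, (1 : ℝ) / d ≤ C * H ^ (-(1 / 4) : ℝ) := by
  obtain ⟨Ce, hCe, C, hC, gr⟩ := grow
  refine ⟨Ce, hCe, C + 1, by linarith, fun P k m H p hP hk hH hHk hPH hm htail hge hres => ?_⟩
  have hH0 : 0 < H := by linarith
  set z : ℕ := max P ⌈H ^ 4⌉₊ with hz
  have hPz : P ≤ z := le_max_left _ _
  have hz2 : 2 ≤ z := hP.trans hPz
  have hzH : H ^ 4 ≤ (z : ℝ) := (Nat.le_ceil _).trans (by exact_mod_cast le_max_right _ _)
  have hz0 : (0:ℝ) < z := by positivity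
  have hlz : Real.log z ≤ Real.log P + 4 * Real.log H + Real.log 2 := by
    have hP0 : (0:ℝ) < P := by positivity
    have hH4 : (1:ℝ) ≤ H ^ 4 := one_le_pow₀ hH
    have h1 : (z : ℝ) ≤ P * H ^ 4 * 2 := by
      rw [hz]
      push_cast
      refine max_le ?_ ?_
      · nlinarith
      · have := (Nat.ceil_lt_add_one (by positivity : (0:ℝ) ≤ H ^ 4)).le
        have hP1 : (1:ℝ) ≤ P := by exact_mod_cast (by omega : 1 ≤ P)
        nlinarith
    calc Real.log z ≤ Real.log (P * H ^ 4 * 2) := Real.log_le_log hz0 h1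
      _ = _ := by
        rw [Real.log_mul (by positivity) (by norm_num), Real.log_mul hP0.ne' (by positivity),
          Real.log_pow]
        push_cast; ring
  -- splitting
  set T := m.divisors.filter (fun d => ∃ b : ℕ, b.Prime ∧ z < b ∧ b ∣ d) with hT
  set B := (m.divisors.filter p).filter (fun d => ∀ b : ℕ, b.Prime → b ∣ d → b ≤ z) with hB
  have hsub : m.divisors.filter p ⊆ B ∪ T := by
    intro d hd
    rw [Finset.mem_union]
    by_cases h : ∀ b : ℕ, b.Prime → b ∣ d → b ≤ z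
    · exact Or.inl (Finset.mem_filter.2 ⟨hd, h⟩)
    · push Not at h
      obtain ⟨b, h1, h2, h3⟩ := h
      exact Or.inr (Finset.mem_filter.2 ⟨(Finset.mem_filter.1 hd).1, b, h1, h3, h2⟩)
  have hTs : ∑ d ∈ T, (1 : ℝ) / d ≤ H ^ (-(1 / 4) : ℝ) := by
    refine (htail z hPz).trans ?_
    have h1 : (z : ℝ) ^ (-(1 / 2) : ℝ) ≤ (H ^ 4) ^ (-(1 / 2) : ℝ) :=
      Real.rpow_le_rpow_of_nonpos (by positivity) hzH (by norm_num)
    have h2 : (H ^ 4) ^ (-(1 / 2) : ℝ) = H ^ (-2 : ℝ) := by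
      rw [← Real.rpow_natCast, ← Real.rpow_mul hH0.le]; norm_num
    calc H * (z : ℝ) ^ (-(1 / 2) : ℝ) ≤ H * H ^ (-2 : ℝ) := by
          rw [← h2]; exact mul_le_mul_of_nonneg_left h1 hH0.le
      _ = H ^ (-1 : ℝ) := by
          nth_rw 1 [← Real.rpow_one H]
          rw [← Real.rpow_add hH0]; norm_num
      _ ≤ H ^ (-(1 / 4) : ℝ) := Real.rpow_le_rpow_of_exponent_le hH (by norm_num)
  have hBs : ∑ d ∈ B, (1 : ℝ) / d ≤ C * H ^ (-(1 / 4) : ℝ) := by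
    have hmem : ∀ d ∈ B, d ∣ m ∧ p d ∧ ∀ b : ℕ, b.Prime → b ∣ d → b ≤ z := by
      intro d hd
      obtain ⟨h1, h2⟩ := Finset.mem_filter.1 hd
      obtain ⟨h3, h4⟩ := Finset.mem_filter.1 h1
      exact ⟨Nat.dvd_of_mem_divisors h3, h4, h2⟩
    refine (dv_smooth hz2 hk hH hHk (B := B) (fun d hd => ⟨Nat.pos_of_dvd_of_pos (hmem d hd).1 hm,
      (hmem d hd).2.2⟩) (fun d hd => hge d (hmem d hd).1 (hmem d hd).2.1)
      (fun a ha b hb => hres a b (hmem a ha).1 (hmem b hb).1 (hmem a ha).2.1 (hmem b hb).2.1)).trans ?_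
    exact gr P z H hP hH hPH hz2 hlz
  calc ∑ d ∈ m.divisors.filter p, (1 : ℝ) / d ≤ ∑ d ∈ B ∪ T, (1 : ℝ) / d :=
        Finset.sum_le_sum_of_subset_of_nonneg hsub fun d _ _ => by positivity
    _ ≤ ∑ d ∈ B, (1 : ℝ) / d + ∑ d ∈ T, (1 : ℝ) / d := by
        rw [← Finset.sum_union_inter]
        have : 0 ≤ ∑ d ∈ B ∩ T, (1 : ℝ) / d := Finset.sum_nonneg fun d _ => by positivity
        linarith
    _ ≤ (C + 1) * H ^ (-(1 / 4) : ℝ) := by linarith


/-! ### one item against a family -/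

open Classical in
/-- **one item, few second cofactors** -/
theorem poor_row : ∃ Ce : ℝ, 1 ≤ Ce ∧ ∃ C : ℝ, 1 ≤ C ∧ ∀ (κ : Type) (P m : ℕ) (H : ℝ) (T : Finset ℕ)
    (k : ℕ → ℕ) (G : Finset κ) (e' : κ → ℕ) (Rel : κ → Prop), 2 ≤ P → 1 ≤ H →
    (3 + Real.log P) ^ Ce ≤ H → 0 < m →
    (∀ z : ℕ, P ≤ z → ∑ d ∈ m.divisors.filter (fun d => ∃ b : ℕ, b.Prime ∧ z < b ∧ b ∣ d),
      (1 : ℝ) / d ≤ H * (z : ℝ) ^ (-(1 / 2) : ℝ)) →
    (∀ i ∈ G, ∀ j ∈ G, e' i = e' j → i = j) →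
    (∀ j ∈ G, Rel j → (rd m (e' j)).2 ∈ T ∧ H ≤ (rd m (e' j)).1) →
    (∀ s ∈ T, (∃ j ∈ G, Rel j ∧ (rd m (e' j)).2 = s) → 0 < k s ∧ H ≤ k s) →
    (∀ j ∈ G, ∀ j' ∈ G, Rel j → Rel j' → (rd m (e' j)).2 = (rd m (e' j')).2 →
      (rd m (e' j)).1 % k (rd m (e' j)).2 = (rd m (e' j')).1 % k (rd m (e' j)).2) →
    ∑ j ∈ G.filter Rel, (1 : ℝ) / ((rd m (e' j)).1 : ℕ) ≤ C * (T.card * H ^ (-(1 / 4) : ℝ)) := by
  obtain ⟨Ce, hCe, C, hC, dv⟩ := dv_sum
  refine ⟨Ce, hCe, C, hC, fun κ P m H T k G e' Rel hP hH hPH hm htail hinj hT hk hmod => ?_⟩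
  have hH0 : 0 < H := by linarith
  have hi : Set.InjOn (fun j => rd m (e' j)) ((G.filter Rel : Finset κ) : Set κ) := by
    intro i hi j hj h
    exact hinj i (Finset.mem_filter.1 (Finset.mem_coe.1 hi)).1 j
      (Finset.mem_filter.1 (Finset.mem_coe.1 hj)).1 (rd_inj hm h)
  set I := (G.filter Rel).image (fun j => rd m (e' j)) with hI
  have e1 : ∑ j ∈ G.filter Rel, (1 : ℝ) / ((rd m (e' j)).1 : ℕ) = ∑ t ∈ I, (1 : ℝ) / (t.1 : ℕ) := by
    rw [hI, Finset.sum_image (f := fun t : ℕ × ℕ => (1 : ℝ) / (t.1 : ℕ)) hi]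
  have e2 : ∑ t ∈ I, (1 : ℝ) / (t.1 : ℕ) =
      ∑ s ∈ T, ∑ t ∈ I.filter (fun t => t.2 = s), (1 : ℝ) / (t.1 : ℕ) := by
    rw [Finset.sum_fiberwise_of_maps_to (s := I) (t := T) (g := Prod.snd)]
    intro t ht
    obtain ⟨j, hj, rfl⟩ := Finset.mem_image.1 ht
    exact (hT j (Finset.mem_filter.1 hj).1 (Finset.mem_filter.1 hj).2).1
  rw [e1, e2]
  have e3 : ∀ s ∈ T, ∑ t ∈ I.filter (fun t => t.2 = s), (1 : ℝ) / (t.1 : ℕ) ≤
      C * H ^ (-(1 / 4) : ℝ) := by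
    intro s hs
    obtain ⟨p, hp⟩ : ∃ p : ℕ → Prop, ∀ d, p d ↔ (d, s) ∈ I := ⟨_, fun _ => Iff.rfl⟩
    have hpj : ∀ d, p d → ∃ j ∈ G, Rel j ∧ rd m (e' j) = (d, s) := by
      intro d hd
      obtain ⟨j, hj, hjd⟩ := Finset.mem_image.1 ((hp d).1 hd)
      exact ⟨j, (Finset.mem_filter.1 hj).1, (Finset.mem_filter.1 hj).2, hjd⟩
    by_cases hne : ∃ j ∈ G, Rel j ∧ (rd m (e' j)).2 = s
    · obtain ⟨hk0, hkH⟩ := hk s hs hne
      have key := dv P (k s) m H p hP hk0 hH hkH hPH hm htail (fun d _ hd => by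
        obtain ⟨j, hj, hr, h1⟩ := hpj d hd
        have := (hT j hj hr).2
        rw [h1] at this
        exact this) (fun a b _ _ ha hb => by
        obtain ⟨j, hj, hr, h1⟩ := hpj a ha
        obtain ⟨j', hj', hr', h1'⟩ := hpj b hb
        have := hmod j hj j' hj' hr hr' (by rw [h1, h1'])
        rw [h1, h1'] at this
        exact this)
      refine le_trans ?_ key
      have hi2 : Set.InjOn Prod.fst ((I.filter (fun t => t.2 = s) : Finset (ℕ × ℕ)) : Set (ℕ × ℕ)) := by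
        intro a ha b hb h
        exact Prod.ext h ((Finset.mem_filter.1 (Finset.mem_coe.1 ha)).2.trans
          (Finset.mem_filter.1 (Finset.mem_coe.1 hb)).2.symm)
      rw [← Finset.sum_image (f := fun d : ℕ => (1 : ℝ) / (d : ℝ)) hi2]
      refine Finset.sum_le_sum_of_subset_of_nonneg (fun d hd => ?_) fun d _ _ => by positivity
      obtain ⟨t, ht, rfl⟩ := Finset.mem_image.1 hd
      obtain ⟨ht1, ht2⟩ := Finset.mem_filter.1 ht
      have hpt : p t.1 := by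
        rw [hp, ← ht2]; exact ht1
      obtain ⟨j, hj, hr, h1⟩ := hpj t.1 hpt
      refine Finset.mem_filter.2 ⟨Nat.mem_divisors.2 ⟨?_, hm.ne'⟩, hpt⟩
      have : (rd m (e' j)).1 = t.1 := by rw [h1]
      rw [← this]
      exact Nat.div_dvd_of_dvd (Nat.gcd_dvd_left _ _)
    · have : I.filter (fun t => t.2 = s) = ∅ := by
        refine Finset.filter_eq_empty_iff.2 fun t ht hts => hne ?_
        obtain ⟨j, hj, rfl⟩ := Finset.mem_image.1 ht
        exact ⟨j, (Finset.mem_filter.1 hj).1, (Finset.mem_filter.1 hj).2, hts⟩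
      rw [this, Finset.sum_empty]
      positivity
  calc ∑ s ∈ T, ∑ t ∈ I.filter (fun t => t.2 = s), (1 : ℝ) / (t.1 : ℕ) ≤
        ∑ _s ∈ T, C * H ^ (-(1 / 4) : ℝ) := Finset.sum_le_sum e3
    _ = C * (T.card * H ^ (-(1 / 4) : ℝ)) := by
        rw [Finset.sum_const, nsmul_eq_mul]; ring

open Classical in
/-- **POOR FAMILIES**: pairs `s ≤ r` are charged to `i`, pairs `r < s` to `j` -/
theorem poor_min : ∃ Ce : ℝ, 1 ≤ Ce ∧ ∃ C : ℝ, 1 ≤ C ∧ ∀ (ι κ : Type) (P : ℕ)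
    (F : Finset ι) (G : Finset κ) (e : ι → ℕ) (e' : κ → ℕ) (R : ι → ℝ) (R' : κ → ℝ)
    (H : ι → ℝ) (H' : κ → ℝ) (T : ι → Finset ℕ) (T' : κ → Finset ℕ)
    (k : ι → ℕ → ℕ) (k' : κ → ℕ → ℕ) (Rel : ι → κ → Prop), 2 ≤ P →
    (∀ i ∈ F, 1 ≤ H i ∧ (3 + Real.log P) ^ Ce ≤ H i) →
    (∀ j ∈ G, 1 ≤ H' j ∧ (3 + Real.log P) ^ Ce ≤ H' j) →
    (∀ i ∈ F, 0 < e i) → (∀ j ∈ G, 0 < e' j) → (∀ i ∈ F, ∀ j ∈ F, e i = e j → i = j) →
    (∀ i ∈ G, ∀ j ∈ G, e' i = e' j → i = j) → (∀ i ∈ F, 0 ≤ R i) → (∀ j ∈ G, 0 ≤ R' j) →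
    (∀ i ∈ F, ∀ z : ℕ, P ≤ z →
      ∑ d ∈ (e i).divisors.filter (fun d => ∃ b : ℕ, b.Prime ∧ z < b ∧ b ∣ d), (1 : ℝ) / d ≤
        H i * (z : ℝ) ^ (-(1 / 2) : ℝ)) →
    (∀ j ∈ G, ∀ z : ℕ, P ≤ z →
      ∑ d ∈ (e' j).divisors.filter (fun d => ∃ b : ℕ, b.Prime ∧ z < b ∧ b ∣ d), (1 : ℝ) / d ≤
        H' j * (z : ℝ) ^ (-(1 / 2) : ℝ)) →
    (∀ i ∈ F, ∀ j ∈ G, Rel i j → (rd (e i) (e' j)).2 ≤ (rd (e i) (e' j)).1 →
      (rd (e i) (e' j)).2 ∈ T i ∧ H i ≤ (rd (e i) (e' j)).1 ∧ H i ≤ k i (rd (e i) (e' j)).2) →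
    (∀ i ∈ F, ∀ j ∈ G, Rel i j → (rd (e i) (e' j)).1 < (rd (e i) (e' j)).2 →
      (rd (e i) (e' j)).1 ∈ T' j ∧ H' j ≤ (rd (e i) (e' j)).2 ∧ H' j ≤ k' j (rd (e i) (e' j)).1) →
    (∀ i ∈ F, ∀ j ∈ G, ∀ l ∈ G, Rel i j → Rel i l → (rd (e i) (e' j)).2 = (rd (e i) (e' l)).2 →
      (rd (e i) (e' j)).2 ≤ (rd (e i) (e' j)).1 → (rd (e i) (e' l)).2 ≤ (rd (e i) (e' l)).1 →
      (rd (e i) (e' j)).1 % k i (rd (e i) (e' j)).2 =
        (rd (e i) (e' l)).1 % k i (rd (e i) (e' j)).2) →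
    (∀ j ∈ G, ∀ i ∈ F, ∀ l ∈ F, Rel i j → Rel l j → (rd (e i) (e' j)).1 = (rd (e l) (e' j)).1 →
      (rd (e i) (e' j)).1 < (rd (e i) (e' j)).2 → (rd (e l) (e' j)).1 < (rd (e l) (e' j)).2 →
      (rd (e i) (e' j)).2 % k' j (rd (e i) (e' j)).1 =
        (rd (e l) (e' j)).2 % k' j (rd (e i) (e' j)).1) →
    ∑ i ∈ F, ∑ j ∈ G, ind (Rel i j) *
      min (R i / ((rd (e i) (e' j)).1 : ℕ)) (R' j / ((rd (e i) (e' j)).2 : ℕ)) ≤
      C * (∑ i ∈ F, (T i).card * H i ^ (-(1 / 4) : ℝ) * R i +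
        ∑ j ∈ G, (T' j).card * H' j ^ (-(1 / 4) : ℝ) * R' j) := by
  obtain ⟨Ce, hCe, C, hC, row⟩ := poor_row
  refine ⟨Ce, hCe, C, hC, ?_⟩
  intro ι κ P F G e e' R R' H H' T T' k k' Rel hP hF hG he he' hinj hinj' hR hR' ht ht' h1 h2 h3 h4
  obtain ⟨L, hL⟩ : ∃ L : ι → κ → Prop, ∀ i j, L i j ↔
      (Rel i j ∧ (rd (e i) (e' j)).2 ≤ (rd (e i) (e' j)).1) := ⟨_, fun _ _ => Iff.rfl⟩
  obtain ⟨L', hL'⟩ : ∃ L : ι → κ → Prop, ∀ i j, L i j ↔
      (Rel i j ∧ (rd (e i) (e' j)).1 < (rd (e i) (e' j)).2) := ⟨_, fun _ _ => Iff.rfl⟩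
  have hsp : ∀ i ∈ F, ∀ j ∈ G, ind (Rel i j) *
      min (R i / ((rd (e i) (e' j)).1 : ℕ)) (R' j / ((rd (e i) (e' j)).2 : ℕ)) ≤
      ind (L i j) * (R i * (1 / ((rd (e i) (e' j)).1 : ℕ))) +
      ind (L' i j) * (R' j * (1 / ((rd (e i) (e' j)).2 : ℕ))) := by
    intro i hi j hj
    have a1 : 0 ≤ R i * (1 / (((rd (e i) (e' j)).1 : ℕ) : ℝ)) := mul_nonneg (hR i hi) (by positivity)
    have a2 : 0 ≤ R' j * (1 / (((rd (e i) (e' j)).2 : ℕ) : ℝ)) := mul_nonneg (hR' j hj) (by positivity)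
    by_cases hr : Rel i j
    · rw [ind_t hr, one_mul]
      rcases le_or_gt (rd (e i) (e' j)).2 (rd (e i) (e' j)).1 with hc | hc
      · rw [ind_t ((hL i j).2 ⟨hr, hc⟩), one_mul]
        refine (min_le_left _ _).trans ?_
        have := mul_nonneg (ind_nn (L' i j)) a2
        have e9 : R i / (((rd (e i) (e' j)).1 : ℕ) : ℝ) = R i * (1 / (((rd (e i) (e' j)).1 : ℕ) : ℝ)) := by
          rw [mul_one_div]
        linarith
      · rw [ind_t ((hL' i j).2 ⟨hr, hc⟩), one_mul]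
        refine (min_le_right _ _).trans ?_
        have := mul_nonneg (ind_nn (L i j)) a1
        have e9 : R' j / (((rd (e i) (e' j)).2 : ℕ) : ℝ) = R' j * (1 / (((rd (e i) (e' j)).2 : ℕ) : ℝ)) := by
          rw [mul_one_div]
        linarith
    · rw [ind_f hr, zero_mul]
      exact add_nonneg (mul_nonneg (ind_nn _) a1) (mul_nonneg (ind_nn _) a2)
  have hrow : ∀ i ∈ F, ∑ j ∈ G, ind (L i j) * (R i * (1 / ((rd (e i) (e' j)).1 : ℕ))) ≤
      C * ((T i).card * H i ^ (-(1 / 4) : ℝ) * R i) := by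
    intro i hi
    have e1 : ∑ j ∈ G, ind (L i j) * (R i * (1 / ((rd (e i) (e' j)).1 : ℕ))) =
        R i * ∑ j ∈ G.filter (L i), (1 : ℝ) / ((rd (e i) (e' j)).1 : ℕ) := by
      rw [Finset.mul_sum, Finset.sum_filter]
      refine Finset.sum_congr rfl fun j _ => ?_
      by_cases hc : L i j
      · rw [ind_t hc, if_pos hc, one_mul]
      · rw [ind_f hc, if_neg hc, zero_mul]
    rw [e1]
    have key := row κ P (e i) (H i) (T i) (k i) G e' (L i) hP (hF i hi).1 (hF i hi).2 (he i hi)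
      (ht i hi) hinj' (fun j hj hl => by
        obtain ⟨l1, l2⟩ := (hL i j).1 hl
        exact ⟨(h1 i hi j hj l1 l2).1, (h1 i hi j hj l1 l2).2.1⟩)
      (fun s hs hex => by
        obtain ⟨j, hj, hl, rfl⟩ := hex
        obtain ⟨l1, l2⟩ := (hL i j).1 hl
        have := (h1 i hi j hj l1 l2).2.2
        refine ⟨?_, this⟩
        have h5 : (0:ℝ) < (k i (rd (e i) (e' j)).2 : ℕ) := lt_of_lt_of_le (by linarith [(hF i hi).1]) this
        exact_mod_cast h5)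
      (fun j hj l hl hj1 hl1 hs => h3 i hi j hj l hl ((hL i j).1 hj1).1 ((hL i l).1 hl1).1 hs
        ((hL i j).1 hj1).2 ((hL i l).1 hl1).2)
    refine (mul_le_mul_of_nonneg_left key (hR i hi)).trans (le_of_eq (by ring))
  have hrow' : ∀ j ∈ G, ∑ i ∈ F, ind (L' i j) * (R' j * (1 / ((rd (e i) (e' j)).2 : ℕ))) ≤
      C * ((T' j).card * H' j ^ (-(1 / 4) : ℝ) * R' j) := by
    intro j hj
    have hsw : ∀ i, rd (e' j) (e i) = (rd (e i) (e' j)).swap := fun i => GcdU37.rd_swap _ _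
    have s1 : ∀ i, (rd (e' j) (e i)).1 = (rd (e i) (e' j)).2 := fun i => by rw [hsw i]; rfl
    have s2 : ∀ i, (rd (e' j) (e i)).2 = (rd (e i) (e' j)).1 := fun i => by rw [hsw i]; rfl
    have e1 : ∑ i ∈ F, ind (L' i j) * (R' j * (1 / ((rd (e i) (e' j)).2 : ℕ))) =
        R' j * ∑ i ∈ F.filter (fun i => L' i j), (1 : ℝ) / ((rd (e' j) (e i)).1 : ℕ) := by
      rw [Finset.mul_sum, Finset.sum_filter]
      refine Finset.sum_congr rfl fun i _ => ?_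
      by_cases hc : L' i j
      · rw [ind_t hc, if_pos hc, one_mul, s1]
      · rw [ind_f hc, if_neg hc, zero_mul]
    rw [e1]
    have key := row ι P (e' j) (H' j) (T' j) (k' j) F e (fun i => L' i j) hP (hG j hj).1 (hG j hj).2
      (he' j hj) (ht' j hj) hinj
      (fun i hi hl => by
        obtain ⟨l1, l2⟩ := (hL' i j).1 hl
        rw [s1, s2]
        exact ⟨(h2 i hi j hj l1 l2).1, (h2 i hi j hj l1 l2).2.1⟩)
      (fun s hs hex => by
        obtain ⟨i, hi, hl, rfl⟩ := hex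
        obtain ⟨l1, l2⟩ := (hL' i j).1 hl
        rw [s2]
        have := (h2 i hi j hj l1 l2).2.2
        refine ⟨?_, this⟩
        have h5 : (0:ℝ) < (k' j (rd (e i) (e' j)).1 : ℕ) := lt_of_lt_of_le (by linarith [(hG j hj).1]) this
        exact_mod_cast h5)
      (fun i hi l hl hi1 hl1 hs => by
        rw [s1, s2, s1]
        rw [s2, s2] at hs
        exact h4 j hj i hi l hl ((hL' i j).1 hi1).1 ((hL' l j).1 hl1).1 hs
          ((hL' i j).1 hi1).2 ((hL' l j).1 hl1).2)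
    refine (mul_le_mul_of_nonneg_left key (hR' j hj)).trans (le_of_eq (by ring))
  calc ∑ i ∈ F, ∑ j ∈ G, ind (Rel i j) *
        min (R i / ((rd (e i) (e' j)).1 : ℕ)) (R' j / ((rd (e i) (e' j)).2 : ℕ))
      ≤ ∑ i ∈ F, ∑ j ∈ G, (ind (L i j) * (R i * (1 / ((rd (e i) (e' j)).1 : ℕ))) +
        ind (L' i j) * (R' j * (1 / ((rd (e i) (e' j)).2 : ℕ)))) :=
        Finset.sum_le_sum fun i hi => Finset.sum_le_sum fun j hj => hsp i hi j hj
    _ = ∑ i ∈ F, ∑ j ∈ G, ind (L i j) * (R i * (1 / ((rd (e i) (e' j)).1 : ℕ))) +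
        ∑ j ∈ G, ∑ i ∈ F, ind (L' i j) * (R' j * (1 / ((rd (e i) (e' j)).2 : ℕ))) := by
        rw [Finset.sum_comm (s := G) (t := F), ← Finset.sum_add_distrib]
        refine Finset.sum_congr rfl fun i _ => ?_
        rw [← Finset.sum_add_distrib]
    _ ≤ ∑ i ∈ F, C * ((T i).card * H i ^ (-(1 / 4) : ℝ) * R i) +
        ∑ j ∈ G, C * ((T' j).card * H' j ^ (-(1 / 4) : ℝ) * R' j) :=
        add_le_add (Finset.sum_le_sum hrow) (Finset.sum_le_sum hrow')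
    _ = _ := by rw [← Finset.mul_sum, ← Finset.mul_sum]; ring


/-! ### nodes -/

section node

open Crest.Agent.R4.Tour104 Crest.Agent.R4.Tour758 Crest.Agent.R4.Avg758 Crest.Agent.R4.Clos758
open Crest.Agent.R4.ClosL758 Crest.Agent.R4.ClosG758 Crest.Agent.R4.ClosR758
open Crest.Agent.R4.Fam464 Crest.Agent.R4.Piece464
open Crest.Agent.R4P.Cnt588 Crest.Agent.R4P.Item758 Crest.Agent.R4P.AvgItem710
open Crest.Agent.R4P.Walk560 Crest.Agent.R4P.NodeG33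
open Crest.Agent.R4P.Data758 Crest.Agent.R4P.Skel189
open Crest.Agent.R4P.Bld532 (NS All)
open Crest.Agent.R4P.Step588 (NDt CT CT_pos)
open Crest.Agent.R4.Soft104 (w)
open Crest.Agent.R4P.SameIx30 Crest.Agent.R4P.GPair33
open Crest.Agent.R4P.ShR18 (Co)
open Crest.Agent.R4P.SpM18 Crest.Agent.R4P.XmE18 Crest.Agent.R4P.XmM18 Crest.Agent.R4P.XmG18
open Crest.Agent.R4P.XmN37 Crest.Agent.R4P.XmO37
open Crest.Agent.R4P

variable {N : Skel189.Num} {γ : ℝ} {p0 P₀ : ℕ} {X : Ctx N γ p0 P₀}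

open Classical in
/-- the alive items of a node which occur on the left of `R` -/
noncomputable def ocL (X : Ctx N γ p0 P₀) (t : IT) (R : Finset (X.c.Lam × X.c.Lam)) : Finset ℕ :=
  t.items.filter fun q => q ∈ X.S' ∧ ∃ x ∈ R, x.1.1.1 = q

open Classical in
/-- the alive items of a node which occur on the right of `R` -/
noncomputable def ocR (X : Ctx N γ p0 P₀) (t : IT) (R : Finset (X.c.Lam × X.c.Lam)) : Finset ℕ :=
  t.items.filter fun q => q ∈ X.S' ∧ ∃ x ∈ R, x.2.1.1 = q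

/-- the congruence of a pair of items -/
def CoP (s s' : NS) (ρ ρ' : ℕ → ℚ) (e : ℕ × ℕ) : Prop :=
  Co ((D2 s s' e : ℕ) * ρ e.1) ((D1 s s' e : ℕ) * ρ' e.2)

/-- **POOR PIECES OF TWO NODES** : the smaller cofactor of the larger side lies in a small set -/
theorem node_poor : ∃ Ce : ℝ, 1 ≤ Ce ∧ ∃ C : ℝ, 1 ≤ C ∧
    ∀ (N : Skel189.Num), ∃ p₁ : ℕ, ∀ p0 ≥ p₁, ∀ (γ : ℝ) (P₀ : ℕ)
    (X : Ctx N γ p0 P₀) (s s' : NS) (t t' : IT) (P : ℕ) (ρ ρ' : ℕ → ℚ)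
    (R : Finset (X.c.Lam × X.c.Lam)) (H H' : ℕ → ℝ) (T T' : ℕ → Finset ℕ),
    MN X s t → MN X s' t' → p0 ≤ P → (∀ r : ℕ, r.Prime → r < s.n → r ≤ P) →
    (∀ r : ℕ, r.Prime → r < s'.n → r ≤ P) → ExO X s s' t t' R ρ ρ' →
    (∀ q ∈ ocL X t R, (3 + Real.log P) ^ Ce ≤ H q) →
    (∀ q ∈ ocR X t' R, (3 + Real.log P) ^ Ce ≤ H' q) →
    (∀ x ∈ R, CoP s s' ρ ρ' (it2 x) → D2 s s' (it2 x) ≤ D1 s s' (it2 x) →
      D2 s s' (it2 x) ∈ T x.1.1.1 ∧ H x.1.1.1 ≤ D1 s s' (it2 x) ∧ H x.1.1.1 ≤ (ρ' x.2.1.1).den) →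
    (∀ x ∈ R, CoP s s' ρ ρ' (it2 x) → D1 s s' (it2 x) < D2 s s' (it2 x) →
      D1 s s' (it2 x) ∈ T' x.2.1.1 ∧ H' x.2.1.1 ≤ D2 s s' (it2 x) ∧ H' x.2.1.1 ≤ (ρ x.1.1.1).den) →
    (∀ x ∈ R, ∀ y ∈ R, x.1.1.1 = y.1.1.1 → D2 s s' (it2 x) = D2 s s' (it2 y) →
      CoP s s' ρ ρ' (it2 x) → CoP s s' ρ ρ' (it2 y) → ρ' x.2.1.1 = ρ' y.2.1.1) →
    (∀ x ∈ R, ∀ y ∈ R, x.2.1.1 = y.2.1.1 → D1 s s' (it2 x) = D1 s s' (it2 y) →
      CoP s s' ρ ρ' (it2 x) → CoP s s' ρ ρ' (it2 y) → ρ x.1.1.1 = ρ y.1.1.1) →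
    Q R (vN X (.inl (s, t))) (vN X (.inl (s', t'))) ≤
      C * (1 + Real.log P) *
        (∑ q ∈ ocL X t R, (T q).card * H q ^ (-(1 / 4) : ℝ) * MI X s t q +
          ∑ q ∈ ocR X t' R, (T' q).card * H' q ^ (-(1 / 4) : ℝ) * MI X s' t' q) := by
  classical
  obtain ⟨C0, hC0, C1, hC1, pm⟩ := poor_min
  have hCT := CT_pos
  refine ⟨C0 + 2 * CT + 1, by linarith, 8 * CT * C1 + 1, by nlinarith, fun N => ?_⟩
  obtain ⟨p1, h1⟩ := lg_nd N
  refine ⟨p1 + 3, ?_⟩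
  intro p0 hp0 γ P₀ X s s' t t' P ρ ρ' R H H' T T' h h' hP hl hl' hE hH hH' hT hT' hlab hlab'
  set f := vN X (.inl (s, t)) with hf
  set g := vN X (.inl (s', t')) with hg
  have hlP : 0 ≤ Real.log (P : ℝ) := Real.log_natCast_nonneg P
  have hw1 : 1 ≤ 3 + Real.log (P : ℝ) := by linarith
  have hw0 : 0 < 3 + Real.log (P : ℝ) := by linarith
  set F := ocL X t R with hF
  set G := ocR X t' R with hG
  have hFi : ∀ q ∈ F, q ∈ t.items ∧ q ∈ X.S' := by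
    intro q hq
    rw [hF] at hq
    unfold ocL at hq
    obtain ⟨a, b, -⟩ := Finset.mem_filter.1 hq
    exact ⟨a, b⟩
  have hGi : ∀ q ∈ G, q ∈ t'.items ∧ q ∈ X.S' := by
    intro q hq
    rw [hG] at hq
    unfold ocR at hq
    obtain ⟨a, b, -⟩ := Finset.mem_filter.1 hq
    exact ⟨a, b⟩
  have hRB : ∀ q, 0 ≤ RB X s q := RB_nn h.nd
  have hRB' : ∀ q, 0 ≤ RB X s' q := RB_nn h'.nd
  have big : ∀ U : ℝ, (3 + Real.log P) ^ (C0 + 2 * CT + 1) ≤ U →
      1 ≤ U ∧ (3 + Real.log P) ^ C0 ≤ U ∧ 2 * CT * Real.log P ≤ U := by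
    intro U hU
    refine ⟨(Real.one_le_rpow hw1 (by linarith)).trans hU,
      (Real.rpow_le_rpow_of_exponent_le hw1 (by linarith)).trans hU, ?_⟩
    calc 2 * CT * Real.log P ≤ (3 + Real.log (P : ℝ)) ^ (2 * CT) * (3 + Real.log (P : ℝ)) ^ (1 : ℝ) := by
          rw [Real.rpow_one]
          exact mul_le_mul const_pow (by linarith) hlP (by positivity)
      _ = (3 + Real.log (P : ℝ)) ^ (2 * CT + 1) := (Real.rpow_add hw0 _ _).symm
      _ ≤ (3 + Real.log (P : ℝ)) ^ (C0 + 2 * CT + 1) :=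
          Real.rpow_le_rpow_of_exponent_le hw1 (by linarith)
      _ ≤ _ := hU
  -- the relation of the items
  obtain ⟨Rel, hRel⟩ : ∃ Rel : ℕ → ℕ → Prop, ∀ i j, Rel i j ↔
      ∃ x ∈ R, it2 x = (i, j) ∧ ∃ y, f x.1 y * g x.2 y ≠ 0 := ⟨_, fun _ _ => Iff.rfl⟩
  have hRx : ∀ {i j}, Rel i j → ∃ x ∈ R, it2 x = (i, j) ∧ x.1.1.1 = i ∧ x.2.1.1 = j ∧
      i ∈ t.items ∧ j ∈ t'.items ∧ i ∈ X.S' ∧ j ∈ X.S' ∧ CoP s s' ρ ρ' (it2 x) := by
    intro i j hr
    obtain ⟨x, hx, hie, y, hy⟩ := (hRel i j).1 hr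
    obtain ⟨i1, i2, i3, i4, hco⟩ := hE.co h.nd h'.nd hx hy
    have e1 : x.1.1.1 = i := (Prod.ext_iff.1 hie).1
    have e2 : x.2.1.1 = j := (Prod.ext_iff.1 hie).2
    exact ⟨x, hx, hie, e1, e2, e1 ▸ i1, e2 ▸ i2, e1 ▸ i3, e2 ▸ i4, hco⟩
  have hD : ∀ i j : ℕ, D1 s s' (i, j) = (rd (i / s.A) (j / s'.A)).1 ∧
      D2 s s' (i, j) = (rd (i / s.A) (j / s'.A)).2 := by
    intro i j
    refine ⟨rfl, ?_⟩
    unfold D2 Crest.Agent.R4.HVW560.cof rd
    rw [Nat.gcd_comm]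
  -- moduli
  obtain ⟨k, hk⟩ : ∃ k : ℕ → ℕ → ℕ, ∀ i j, Rel i j →
      k i (rd (i / s.A) (j / s'.A)).2 = (ρ' j).den := by
    refine ⟨fun i c => if hc : ∃ j, Rel i j ∧ (rd (i / s.A) (j / s'.A)).2 = c then
      (ρ' hc.choose).den else 1, fun i j hr => ?_⟩
    have hc : ∃ j', Rel i j' ∧ (rd (i / s.A) (j' / s'.A)).2 = (rd (i / s.A) (j / s'.A)).2 :=
      ⟨j, hr, rfl⟩
    show (if hc : ∃ j', Rel i j' ∧ (rd (i / s.A) (j' / s'.A)).2 = (rd (i / s.A) (j / s'.A)).2 then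
      (ρ' hc.choose).den else 1) = _
    rw [dif_pos hc]
    obtain ⟨h5, h6⟩ := hc.choose_spec
    obtain ⟨x, hx, hie, x1, x2, -, -, -, -, hcx⟩ := hRx h5
    obtain ⟨y, hy, hje, y1, y2, -, -, -, -, hcy⟩ := hRx hr
    have := hlab x hx y hy (by rw [x1, y1]) (by
      rw [hie, hje, (hD _ _).2, (hD _ _).2]; exact h6) hcx hcy
    rw [x2, y2] at this
    rw [this]
  obtain ⟨k', hk'⟩ : ∃ k : ℕ → ℕ → ℕ, ∀ i j, Rel i j →
      k j (rd (i / s.A) (j / s'.A)).1 = (ρ i).den := by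
    refine ⟨fun j c => if hc : ∃ i, Rel i j ∧ (rd (i / s.A) (j / s'.A)).1 = c then
      (ρ hc.choose).den else 1, fun i j hr => ?_⟩
    have hc : ∃ i', Rel i' j ∧ (rd (i' / s.A) (j / s'.A)).1 = (rd (i / s.A) (j / s'.A)).1 :=
      ⟨i, hr, rfl⟩
    show (if hc : ∃ i', Rel i' j ∧ (rd (i' / s.A) (j / s'.A)).1 = (rd (i / s.A) (j / s'.A)).1 then
      (ρ hc.choose).den else 1) = _
    rw [dif_pos hc]
    obtain ⟨h5, h6⟩ := hc.choose_spec
    obtain ⟨x, hx, hie, x1, x2, -, -, -, -, hcx⟩ := hRx h5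
    obtain ⟨y, hy, hje, y1, y2, -, -, -, -, hcy⟩ := hRx hr
    have := hlab' x hx y hy (by rw [x2, y2]) (by
      rw [hie, hje, (hD _ _).1, (hD _ _).1]; exact h6) hcx hcy
    rw [x1, y1] at this
    rw [this]
  -- the pair sum
  have key := pm ℕ ℕ P F G (fun q => q / s.A) (fun q => q / s'.A) (fun q => RB X s q)
    (fun q => RB X s' q) H H' T T' k k' Rel (by omega)
    (fun i hi => ⟨(big _ (hH i hi)).1, (big _ (hH i hi)).2.1⟩)
    (fun i hi => ⟨(big _ (hH' i hi)).1, (big _ (hH' i hi)).2.1⟩)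
    (fun q hq => Nat.pos_of_ne_zero (h.nd.div_ne (hFi q hq).1))
    (fun q hq => Nat.pos_of_ne_zero (h'.nd.div_ne (hGi q hq).1))
    (fun q hq q' hq' he => div_inj h.nd (hFi q hq).1 (hFi q' hq').1 he)
    (fun q hq q' hq' he => div_inj h'.nd (hGi q hq).1 (hGi q' hq').1 he)
    (fun q _ => hRB q) (fun q _ => hRB' q)
    (fun q hq z hz => by
      obtain ⟨g1, g2⟩ := h1 p0 (by omega) γ P₀ X s t h.nd P hP hl q (hFi q hq).2 (hFi q hq).1
      refine (tail_nd h.nd hl (hFi q hq).1 g1 hz (g2 z hz)).trans ?_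
      exact mul_le_mul_of_nonneg_right (big _ (hH q hq)).2.2 (by positivity))
    (fun q hq z hz => by
      obtain ⟨g1, g2⟩ := h1 p0 (by omega) γ P₀ X s' t' h'.nd P hP hl' q (hGi q hq).2 (hGi q hq).1
      refine (tail_nd h'.nd hl' (hGi q hq).1 g1 hz (g2 z hz)).trans ?_
      exact mul_le_mul_of_nonneg_right (big _ (hH' q hq)).2.2 (by positivity))
    (fun i hi j hj hr hc => by
      obtain ⟨x, hx, hie, x1, x2, -, -, -, -, hcx⟩ := hRx hr
      have := hT x hx hcx (by rw [hie, (hD _ _).1, (hD _ _).2]; exact hc)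
      rw [hie, (hD _ _).1, (hD _ _).2, x1, x2] at this
      rw [hk i j hr]
      exact this)
    (fun i hi j hj hr hc => by
      obtain ⟨x, hx, hie, x1, x2, -, -, -, -, hcx⟩ := hRx hr
      have := hT' x hx hcx (by rw [hie, (hD _ _).1, (hD _ _).2]; exact hc)
      rw [hie, (hD _ _).1, (hD _ _).2, x1, x2] at this
      rw [hk' i j hr]
      exact this)
    (fun i hi j hj l hl hr hr' he _ _ => by
      obtain ⟨x, hx, hie, x1, x2, -, -, -, -, hcx⟩ := hRx hr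
      obtain ⟨y, hy, hje, y1, y2, -, -, -, -, hcy⟩ := hRx hr'
      have hd2 : D2 s s' (it2 x) = D2 s s' (it2 y) := by
        rw [hie, hje, (hD _ _).2, (hD _ _).2]; exact he
      have hρ := hlab x hx y hy (by rw [x1, y1]) hd2 hcx hcy
      rw [x2, y2] at hρ
      unfold CoP at hcx hcy
      rw [hie] at hcx
      rw [hje] at hcy
      rw [hie, hje] at hd2
      rw [hk i j hr]
      rw [(hD _ _).1] at hcx hcy
      rw [← hd2, ← hρ] at hcy
      exact Co.mod hcx.symm hcy.symm)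
    (fun j hj i hi l hl hr hr' he _ _ => by
      obtain ⟨x, hx, hie, x1, x2, -, -, -, -, hcx⟩ := hRx hr
      obtain ⟨y, hy, hje, y1, y2, -, -, -, -, hcy⟩ := hRx hr'
      have hd1 : D1 s s' (it2 x) = D1 s s' (it2 y) := by
        rw [hie, hje, (hD _ _).1, (hD _ _).1]; exact he
      have hρ := hlab' x hx y hy (by rw [x2, y2]) hd1 hcx hcy
      rw [x1, y1] at hρ
      unfold CoP at hcx hcy
      rw [hie] at hcx
      rw [hje] at hcy
      rw [hie, hje] at hd1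
      rw [hk' i j hr]
      rw [(hD _ _).2] at hcx hcy
      rw [← hd1, ← hρ] at hcy
      exact Co.mod hcx hcy)
  -- step 1
  have step1 : Q R f g ≤ 2 * ∑ i ∈ F, ∑ j ∈ G, ind (Rel i j) *
      min (RB X s i / ((rd (i / s.A) (j / s'.A)).1 : ℕ)) (RB X s' j / ((rd (i / s.A) (j / s'.A)).2 : ℕ)) := by
    refine (node_off h.nd h'.nd hE).trans ?_
    rw [Finset.mul_sum]
    have e0 : ∀ i ∈ F, 2 * ∑ j ∈ G, ind (Rel i j) *
        min (RB X s i / ((rd (i / s.A) (j / s'.A)).1 : ℕ))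
          (RB X s' j / ((rd (i / s.A) (j / s'.A)).2 : ℕ)) =
        ∑ j ∈ G, 2 * (ind (Rel i j) * min (RB X s i / ((rd (i / s.A) (j / s'.A)).1 : ℕ))
          (RB X s' j / ((rd (i / s.A) (j / s'.A)).2 : ℕ))) := fun i _ => Finset.mul_sum _ _ _
    rw [Finset.sum_congr rfl e0, ← Finset.sum_product' (s := F) (t := G)
      (f := fun i j => 2 * (ind (Rel i j) * min (RB X s i / ((rd (i / s.A) (j / s'.A)).1 : ℕ))
          (RB X s' j / ((rd (i / s.A) (j / s'.A)).2 : ℕ))))]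
    have hmn0 : ∀ i j : ℕ, 0 ≤ min (RB X s i / ((rd (i / s.A) (j / s'.A)).1 : ℕ))
          (RB X s' j / ((rd (i / s.A) (j / s'.A)).2 : ℕ)) := fun i j =>
      le_min (div_nonneg (hRB i) (Nat.cast_nonneg _)) (div_nonneg (hRB' j) (Nat.cast_nonneg _))
    refine le_trans (Finset.sum_le_sum fun e he => ?_)
      (Finset.sum_le_sum_of_subset_of_nonneg (s := (t.items ×ˢ t'.items).filter
        (fun e => ∃ x ∈ R, it2 x = e ∧ ∃ y, f x.1 y * g x.2 y ≠ 0)) (t := F ×ˢ G) ?_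
        fun e _ _ => mul_nonneg (by norm_num) (mul_nonneg (ind_nn _) (hmn0 _ _)))
    · obtain ⟨-, x, hx, hie, y, hy⟩ := Finset.mem_filter.1 he
      have hr : Rel e.1 e.2 := (hRel _ _).2 ⟨x, hx, hie, y, hy⟩
      rw [ind_t hr, one_mul]
      refine le_of_eq ?_
      unfold ov
      rw [show e = (e.1, e.2) from rfl, (hD e.1 e.2).1, (hD e.1 e.2).2]
    · intro e he
      obtain ⟨he1, x, hx, hie, y, hy⟩ := Finset.mem_filter.1 he
      obtain ⟨i1, i2, i3, i4, -⟩ := hE.co h.nd h'.nd hx hy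
      have e1 : x.1.1.1 = e.1 := (Prod.ext_iff.1 hie).1
      have e2 : x.2.1.1 = e.2 := (Prod.ext_iff.1 hie).2
      refine Finset.mem_product.2 ⟨?_, ?_⟩
      · rw [hF]; unfold ocL
        exact Finset.mem_filter.2 ⟨(Finset.mem_product.1 he1).1, by rw [← e1]; exact i3, x, hx, e1⟩
      · rw [hG]; unfold ocR
        exact Finset.mem_filter.2 ⟨(Finset.mem_product.1 he1).2, by rw [← e2]; exact i4, x, hx, e2⟩
  -- radii against masses
  have hHn : ∀ q ∈ F, 0 ≤ (T q).card * H q ^ (-(1 / 4) : ℝ) := fun q hq => by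
    have := (big _ (hH q hq)).1
    positivity
  have hHn' : ∀ q ∈ G, 0 ≤ (T' q).card * H' q ^ (-(1 / 4) : ℝ) := fun q hq => by
    have := (big _ (hH' q hq)).1
    positivity
  have s1 : ∑ q ∈ F, (T q).card * H q ^ (-(1 / 4) : ℝ) * RB X s q ≤
      4 * CT * Real.log P * ∑ q ∈ F, (T q).card * H q ^ (-(1 / 4) : ℝ) * MI X s t q := by
    rw [Finset.mul_sum]
    refine Finset.sum_le_sum fun q hq => ?_
    have := mul_le_mul_of_nonneg_left (h.lo P hP hl q (hFi q hq).2 (hFi q hq).1) (hHn q hq)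
    linarith
  have s2 : ∑ q ∈ G, (T' q).card * H' q ^ (-(1 / 4) : ℝ) * RB X s' q ≤
      4 * CT * Real.log P * ∑ q ∈ G, (T' q).card * H' q ^ (-(1 / 4) : ℝ) * MI X s' t' q := by
    rw [Finset.mul_sum]
    refine Finset.sum_le_sum fun q hq => ?_
    have := mul_le_mul_of_nonneg_left (h'.lo P hP hl' q (hGi q hq).2 (hGi q hq).1) (hHn' q hq)
    linarith
  set W := ∑ q ∈ F, (T q).card * H q ^ (-(1 / 4) : ℝ) * MI X s t q +
    ∑ q ∈ G, (T' q).card * H' q ^ (-(1 / 4) : ℝ) * MI X s' t' q with hW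
  have hW0 : 0 ≤ W := add_nonneg
    (Finset.sum_nonneg fun q hq => mul_nonneg (hHn q hq) (MI_nonneg h.nd q))
    (Finset.sum_nonneg fun q hq => mul_nonneg (hHn' q hq) (MI_nonneg h'.nd q))
  calc Q R f g ≤ 2 * (C1 * (∑ i ∈ F, (T i).card * H i ^ (-(1 / 4) : ℝ) * RB X s i +
        ∑ j ∈ G, (T' j).card * H' j ^ (-(1 / 4) : ℝ) * RB X s' j)) :=
        step1.trans (mul_le_mul_of_nonneg_left key (by norm_num))
    _ ≤ 2 * (C1 * (4 * CT * Real.log P * W)) := by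
        refine mul_le_mul_of_nonneg_left (mul_le_mul_of_nonneg_left ?_ (by linarith)) (by norm_num)
        rw [hW, mul_add]
        exact add_le_add s1 s2
    _ = 8 * CT * C1 * Real.log P * W := by ring
    _ ≤ (8 * CT * C1 + 1) * (1 + Real.log P) * W := by
        refine mul_le_mul_of_nonneg_right ?_ hW0
        have h0 : 0 ≤ 8 * CT * C1 := by positivity
        nlinarith


open Classical in
/-- the pairs of `R` with a common point -/
noncomputable def cmn (X : Ctx N γ p0 P₀) (s s' : NS) (t t' : IT) (R : Finset (X.c.Lam × X.c.Lam)) :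
    Finset (X.c.Lam × X.c.Lam) :=
  R.filter fun x => ∃ y, vN X (.inl (s, t)) x.1 y * vN X (.inl (s', t')) x.2 y ≠ 0

open Classical in
lemma Q_cmn {s s' : NS} {t t' : IT} {R : Finset (X.c.Lam × X.c.Lam)} :
    Q R (vN X (.inl (s, t))) (vN X (.inl (s', t'))) =
      Q (cmn X s s' t t' R) (vN X (.inl (s, t))) (vN X (.inl (s', t'))) := by
  unfold Q cmn
  rw [Finset.sum_filter]
  refine Finset.sum_congr rfl fun x _ => ?_
  split_ifs with hx
  · rfl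
  · push Not at hx
    have e1 : (fun y => vN X (.inl (s, t)) x.1 y * vN X (.inl (s', t')) x.2 y) = fun _ => 0 :=
      funext hx
    rw [e1]
    simp [I]

/-- **ONE NODE, MANY LABELS, SAME LABEL, DIFFERENT ITEMS, POOR** (no late side) : for every item `q` only
`T q` smaller cofactors -/
theorem node_poor1 : ∃ Ce : ℝ, 1 ≤ Ce ∧ ∃ C : ℝ, 1 ≤ C ∧
    ∀ (N : Skel189.Num), ∃ p₁ : ℕ, ∀ p0 ≥ p₁, ∀ (γ : ℝ) (P₀ : ℕ)
    (X : Ctx N γ p0 P₀) (s : NS) (t : IT) (P : ℕ) (ρ : ℕ → ℚ)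
    (R : Finset (X.c.Lam × X.c.Lam)) (T : ℕ → Finset ℕ),
    MN X s t → p0 ≤ P → (∀ r : ℕ, r.Prime → r < s.n → r ≤ P) → ExO X s s t t R ρ ρ →
    (∀ x ∈ R, x.1.1.1 ≠ x.2.1.1) → (∀ x ∈ R, ρ x.1.1.1 = ρ x.2.1.1) →
    (∀ x ∈ R, (3 + Real.log P) ^ Ce ≤ ((ρ x.1.1.1).den : ℝ)) →
    (∀ x ∈ R, x.1.1.1 ∈ t.items → x.2.1.1 ∈ t.items → CoP s s ρ ρ (it2 x) →
      D2 s s (it2 x) ≤ D1 s s (it2 x) → D2 s s (it2 x) ∈ T x.1.1.1) →
    (∀ x ∈ R, x.1.1.1 ∈ t.items → x.2.1.1 ∈ t.items → CoP s s ρ ρ (it2 x) →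
      D1 s s (it2 x) < D2 s s (it2 x) → D1 s s (it2 x) ∈ T x.2.1.1) →
    Q R (vN X (.inl (s, t))) (vN X (.inl (s, t))) ≤
      C * (1 + Real.log P) *
        ∑ q ∈ occ X t R, (T q).card * ((ρ q).den : ℝ) ^ (-(1 / 4) : ℝ) * MI X s t q := by
  classical
  obtain ⟨Ce, hCe, C, hC, np⟩ := node_poor
  refine ⟨Ce, hCe, 2 * C, by linarith, fun N => ?_⟩
  obtain ⟨p1, h1⟩ := np N
  refine ⟨p1, fun p0 hp0 γ P₀ X s t P ρ R T h hP hl hE hne hlab hden hT hT' => ?_⟩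
  have hlP : 0 ≤ Real.log (P : ℝ) := Real.log_natCast_nonneg P
  set R' := cmn X s s t t R with hR'
  have hsub : R' ⊆ R := Finset.filter_subset _ _
  have hE' : ExO X s s t t R' ρ ρ := hE.mono hsub
  have hit : ∀ x ∈ R', x.1.1.1 ∈ t.items ∧ x.2.1.1 ∈ t.items := by
    intro x hx
    obtain ⟨hxR, y, hy⟩ := Finset.mem_filter.1 hx
    obtain ⟨i1, i2, -, -, -⟩ := hE.co h.nd h.nd hxR hy
    exact ⟨i1, i2⟩
  -- the larger cofactor is at least the denominator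
  have hbig : ∀ x ∈ R', CoP s s ρ ρ (it2 x) →
      (D2 s s (it2 x) ≤ D1 s s (it2 x) → ((ρ x.1.1.1).den : ℝ) ≤ D1 s s (it2 x)) ∧
      (D1 s s (it2 x) < D2 s s (it2 x) → ((ρ x.1.1.1).den : ℝ) ≤ D2 s s (it2 x)) := by
    intro x hx hc
    obtain ⟨i1, i2⟩ := hit x hx
    have hl2 : ρ (it2 x).1 = ρ (it2 x).2 := hlab x (hsub hx)
    unfold CoP at hc
    rw [← hl2] at hc
    have hmod : D2 s s (it2 x) ≡ D1 s s (it2 x) [MOD (ρ (it2 x).1).den] :=
      Co.mod hc (ShR18.Co.refl _)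
    refine ⟨fun hle => ?_, fun hlt => ?_⟩
    · have hdv := (Nat.modEq_iff_dvd' hle).1 hmod
      rcases Nat.eq_zero_or_pos (D1 s s (it2 x) - D2 s s (it2 x)) with h0 | h0
      · exfalso
        have heq : D1 s s (it2 x) = D2 s s (it2 x) := by omega
        have w1 : 0 < x.1.1.1 / s.A := Nat.pos_of_ne_zero (h.nd.div_ne i1)
        have a1 := Nat.div_mul_cancel (Nat.gcd_dvd_left (x.1.1.1 / s.A) (x.2.1.1 / s.A))
        have a2 := Nat.div_mul_cancel (Nat.gcd_dvd_right (x.1.1.1 / s.A) (x.2.1.1 / s.A))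
        have a3 : x.1.1.1 / s.A / (x.1.1.1 / s.A).gcd (x.2.1.1 / s.A) =
            x.2.1.1 / s.A / (x.1.1.1 / s.A).gcd (x.2.1.1 / s.A) := by
          have b1 : D1 s s (it2 x) = x.1.1.1 / s.A / (x.1.1.1 / s.A).gcd (x.2.1.1 / s.A) := rfl
          have b2 : D2 s s (it2 x) = x.2.1.1 / s.A / (x.1.1.1 / s.A).gcd (x.2.1.1 / s.A) := by
            unfold D2 Crest.Agent.R4.HVW560.cof it2
            rw [Nat.gcd_comm]
          rw [← b1, ← b2]; exact heq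
        rw [← a3, a1] at a2
        exact hne x (hsub hx) (div_inj h.nd i1 i2 a2)
      · have := Nat.le_of_dvd h0 hdv
        have h3 : (ρ x.1.1.1).den ≤ D1 s s (it2 x) := by
          show (ρ (it2 x).1).den ≤ _
          omega
        exact_mod_cast h3
    · have hdv := (Nat.modEq_iff_dvd' hlt.le).1 hmod.symm
      have := Nat.le_of_dvd (by omega) hdv
      have h3 : (ρ x.1.1.1).den ≤ D2 s s (it2 x) := by
        show (ρ (it2 x).1).den ≤ _
        omega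
      exact_mod_cast h3
  have hoL : ∀ q ∈ ocL X t R', q ∈ occ X t R ∧ ∃ x ∈ R, x.1.1.1 = q := by
    intro q hq
    unfold ocL at hq
    obtain ⟨a, b, x, hx, hxq⟩ := Finset.mem_filter.1 hq
    exact ⟨by unfold occ; exact Finset.mem_filter.2 ⟨a, b, x, hsub hx, Or.inl hxq⟩, x, hsub hx, hxq⟩
  have hoR : ∀ q ∈ ocR X t R', q ∈ occ X t R ∧ ∃ x ∈ R, x.2.1.1 = q := by
    intro q hq
    unfold ocR at hq
    obtain ⟨a, b, x, hx, hxq⟩ := Finset.mem_filter.1 hq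
    exact ⟨by unfold occ; exact Finset.mem_filter.2 ⟨a, b, x, hsub hx, Or.inr hxq⟩, x, hsub hx, hxq⟩
  have key := h1 p0 hp0 γ P₀ X s s t t P ρ ρ R' (fun q => ((ρ q).den : ℝ)) (fun q => ((ρ q).den : ℝ))
    T T h h hP hl hl hE'
    (fun q hq => by
      obtain ⟨-, x, hx, rfl⟩ := hoL q hq
      exact hden x hx)
    (fun q hq => by
      obtain ⟨-, x, hx, rfl⟩ := hoR q hq
      rw [← hlab x hx]
      exact hden x hx)
    (fun x hx hc hle => by
      refine ⟨hT x (hsub hx) (hit x hx).1 (hit x hx).2 hc hle, (hbig x hx hc).1 hle, ?_⟩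
      exact le_of_eq (by rw [hlab x (hsub hx)]))
    (fun x hx hc hlt => by
      refine ⟨hT' x (hsub hx) (hit x hx).1 (hit x hx).2 hc hlt, ?_, ?_⟩
      · have := (hbig x hx hc).2 hlt
        rw [← hlab x (hsub hx)]
        exact this
      · exact le_of_eq (by rw [hlab x (hsub hx)]))
    (fun x hx y hy he _ _ _ => by
      rw [← hlab x (hsub hx), ← hlab y (hsub hy), he])
    (fun x hx y hy he _ _ _ => by
      rw [hlab x (hsub hx), hlab y (hsub hy), he])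
  rw [Q_cmn]
  refine key.trans ?_
  have hnn : ∀ q, 0 ≤ (T q).card * ((ρ q).den : ℝ) ^ (-(1 / 4) : ℝ) * MI X s t q := fun q =>
    mul_nonneg (by positivity) (MI_nonneg h.nd q)
  have u1 : ∑ q ∈ ocL X t R', (T q).card * ((ρ q).den : ℝ) ^ (-(1 / 4) : ℝ) * MI X s t q ≤
      ∑ q ∈ occ X t R, (T q).card * ((ρ q).den : ℝ) ^ (-(1 / 4) : ℝ) * MI X s t q :=
    Finset.sum_le_sum_of_subset_of_nonneg (fun q hq => (hoL q hq).1) fun q _ _ => hnn q
  have u2 : ∑ q ∈ ocR X t R', (T q).card * ((ρ q).den : ℝ) ^ (-(1 / 4) : ℝ) * MI X s t q ≤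
      ∑ q ∈ occ X t R, (T q).card * ((ρ q).den : ℝ) ^ (-(1 / 4) : ℝ) * MI X s t q :=
    Finset.sum_le_sum_of_subset_of_nonneg (fun q hq => (hoR q hq).1) fun q _ _ => hnn q
  have h0 : 0 ≤ C * (1 + Real.log (P : ℝ)) := by positivity
  calc _ ≤ C * (1 + Real.log P) *
        (∑ q ∈ occ X t R, (T q).card * ((ρ q).den : ℝ) ^ (-(1 / 4) : ℝ) * MI X s t q +
          ∑ q ∈ occ X t R, (T q).card * ((ρ q).den : ℝ) ^ (-(1 / 4) : ℝ) * MI X s t q) :=
        mul_le_mul_of_nonneg_left (add_le_add u1 u2) h0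
    _ = _ := by ring

/-- cofactors which divide a fixed number -/
def TD (m : ℕ) : Finset ℕ := m.divisors

lemma TD_mem {m d : ℕ} (hm : m ≠ 0) (h : d ∣ m) : d ∈ TD m := Nat.mem_divisors.2 ⟨h, hm⟩

/-- the number of cofactors built from the primes of `S` -/
lemma card_pow (S : Finset ℕ) (hS : ∀ l ∈ S, l.Prime) (e : ℕ) :
    (TD (∏ l ∈ S, l ^ e)).card ≤ (e + 1) ^ S.card := by
  unfold TD
  classical
  induction S using Finset.induction_on with
  | empty => simp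
  | insert a S ha ih =>
    have h1 : (a ^ e).Coprime (∏ l ∈ S, l ^ e) := by
      refine Nat.Coprime.prod_right fun l hl => Nat.Coprime.pow _ _ ?_
      refine (Nat.coprime_primes (hS a (Finset.mem_insert_self _ _))
        (hS l (Finset.mem_insert_of_mem hl))).2 fun h => ?_
      rw [h] at ha
      exact ha hl
    rw [Finset.prod_insert ha, h1.card_divisors_mul, Finset.card_insert_of_notMem ha, pow_succ,
      mul_comm]
    refine Nat.mul_le_mul (ih fun l hl => hS l (Finset.mem_insert_of_mem hl)) ?_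
    rw [Nat.divisors_prime_pow (hS a (Finset.mem_insert_self _ _))]
    simp

end node

end Crest.Agent.R4P.PoC18
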