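import Crest.Agent.R4P.XmQ_37
import Crest.Agent.R4P.PrK_45
import Crest.Agent.R4P.NcE_14
import Crest.Agent.R4P.RtW_28

/-!
R4 (S0004), powers pass, helper28: **from energies of pairs of nodes to the node forms of helper45**
(`VNd`, `VTs` of `PrK45`), static kernels, sparse labels (over helper37's `XmQ37.node_lab`).

* `rl K` : the relation `K j i ≠ 0`; `bil_qe`, `MI_lm`; `NL` : facts of a node (`ctx_NL`);
* **`pair_lm`** : `bil K (vx s t) (vx s' t') ≤ lm c + lm c'`;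
* **`vn_lab`** : rest columns, `RN K`; **`fb_lab`** : children of a tie, `FB K`; **`fp_lab`** : P child
  against N child, `FP K` (`PrK45.pn_nd`).
-/

set_option autoImplicit false
set_option linter.unusedSectionVars false
set_option linter.unusedVariables false

open MeasureTheory Filter

namespace Crest.Agent.R4P.RtL28

open Crest.Agent.R4.Tour104 Crest.Agent.R4.Tour758 Crest.Agent.R4.Avg758 Crest.Agent.R4.Clos758
open Crest.Agent.R4.ClosL758 Crest.Agent.R4.ClosG758 Crest.Agent.R4.ClosR758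
open Crest.Agent.R4.HVW560
open Crest.Agent.R4.Fam464 Crest.Agent.R4.Piece464
open Crest.Agent.R4P.Cnt588 Crest.Agent.R4P.Item758 Crest.Agent.R4P.AvgItem710
open Crest.Agent.R4P.Walk560 Crest.Agent.R4P.NodeG33
open Crest.Agent.R4P.Data758 Crest.Agent.R4P.Skel189
open Crest.Agent.R4P.Bld532 (NS All NodeOk)
open Crest.Agent.R4P.WalkIT579 (tp isL nodeOk_hi)
open Crest.Agent.R4P.Step588 (NDt CT CT_pos)
open Crest.Agent.R4.Soft104 (w)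
open Crest.Agent.R4P.SameIx30 Crest.Agent.R4P.GPair33
open Crest.Agent.R4P.ShR18 (Co)
open Crest.Agent.R4P.SpM18 Crest.Agent.R4P.XmE18 Crest.Agent.R4P.XmM18 Crest.Agent.R4P.XmG18
open Crest.Agent.R4P.XmN37 Crest.Agent.R4P.XmO37 Crest.Agent.R4P.XmQ37
open Crest.Agent.R4P.RtE28 (KK KK_one)
open Crest.Agent.R4P.GcdV37 (La rt)
open Crest.Agent.R4P.E3V479 (qe)
open Crest.Agent.R4P.DTp26 (MP)
open Crest.Agent.R4P.JnE5 (Ker bil)
open Crest.Agent.R4P.PrH45 (RN FB)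
open Crest.Agent.R4P.PrK45
open Crest.Agent.R4P.RseNd23 (NF)
open Crest.Agent.R4P.RtS28 (Mn Mn_nonneg)
open Crest.Agent.R4P

/-! ### kernels -/

section ker
variable {Λ : Type} [Fintype Λ]

/-- the relation of a kernel -/
def rl (K : Λ → Λ → ℝ) : ℝ → Λ → Λ → Prop := fun _ j i => K j i ≠ 0

lemma mp_rl (K : Λ → Λ → ℝ) (j i : Λ) : MP fun y => rl K y j i where
  meas := fun q => MeasurableSet.const ((K j i ≠ 0) = q)
  per := fun x => rfl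

lemma I_zero : I (fun _ => (0:ℝ)) = 0 := by unfold I; simp

/-- a kernel by its relation -/
lemma bil_qe {K : Λ → Λ → ℝ} {W : ℝ} (hK : ∀ j i, K j i ≤ W) {f g : Λ → ℝ → ℝ}
    (hf : ∀ j, PB (f j)) (hg : ∀ j, PB (g j)) : bil K f g ≤ W * I (qe (rl K) f g) := by
  classical
  have e1 : I (qe (rl K) f g) = ∑ j, ∑ i, if K j i ≠ 0 then I (fun x => f j x * g i x) else 0 := by
    unfold qe
    have p : ∀ j i, PB (fun x => if rl K x j i then f j x * g i x else 0) := by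
      intro j i
      by_cases h : K j i ≠ 0
      · have e : (fun x => if rl K x j i then f j x * g i x else 0) = fun x => f j x * g i x :=
          funext fun x => if_pos h
        rw [e]; exact (hf j).mul (hg i)
      · have e : (fun x => if rl K x j i then f j x * g i x else 0) = fun x => (0:ℝ) :=
          funext fun x => if_neg h
        rw [e]; exact PB.const le_rfl
    rw [I_sum _ fun j _ => (PB.sum _ fun i _ => p j i).integrableOn]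
    refine Finset.sum_congr rfl fun j _ => ?_
    rw [I_sum _ fun i _ => (p j i).integrableOn]
    refine Finset.sum_congr rfl fun i _ => ?_
    by_cases h : K j i ≠ 0
    · rw [if_pos h]
      congr 1
      exact funext fun x => if_pos h
    · rw [if_neg h]
      have e : (fun x => if rl K x j i then f j x * g i x else 0) = fun x => (0:ℝ) :=
        funext fun x => if_neg h
      rw [e, I_zero]
  rw [e1, Finset.mul_sum]
  refine Finset.sum_le_sum fun j _ => ?_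
  rw [Finset.mul_sum]
  refine Finset.sum_le_sum fun i _ => ?_
  have h0 : 0 ≤ I (fun x => f j x * g i x) :=
    I_nonneg fun x => mul_nonneg ((hf j).nonneg x) ((hg i).nonneg x)
  by_cases h : K j i ≠ 0
  · rw [if_pos h]
    exact mul_le_mul_of_nonneg_right (hK j i) h0
  · rw [if_neg h, not_not.1 h, mul_zero, zero_mul]

end ker

/-! ### nodes -/

variable {N : Skel189.Num} {γ : ℝ} {p0 P₀ : ℕ} {X : Ctx N γ p0 P₀}

/-- **facts of a node** -/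
structure NL (X : Ctx N γ p0 P₀) (u : NS) (τ : IT) : Prop where
  mn : MN X u τ
  nf : NF X u τ
  rg : RgN X u τ
  tot : lm X (fun _ => 1) u τ ≤ 4 * Mn X u τ

theorem ctx_NL (N : Skel189.Num) : ∃ p₁ : ℕ, ∀ p0 ≥ p₁, ∀ (γ : ℝ) (P₀ : ℕ), 2 ≤ P₀ →
    ∀ X : Ctx N γ p0 P₀, ∀ j₀ : X.c.Lam, All (NL X) ⟨top X.S, 1, 1, 1⟩ X.c.t := by
  obtain ⟨p1, h1⟩ := ctx_MN N
  obtain ⟨p2, h2⟩ := RseNd23.ctx_NF N
  obtain ⟨p3, h3⟩ := lm_mu N
  refine ⟨p1 + p2 + p3, fun p0 hp0 γ P₀ hP X j₀ => ?_⟩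
  have hQE := AsmX26.ctx_QE X j₀ (Q' := fun _ _ => True)
    (All.mono (fun _ _ _ => trivial) (Step588.ctx_NDt X))
  refine All.mono (fun u τ hh => ?_) (((h1 p0 (by omega) γ P₀ hP X).and
    (h2 p0 (by omega) γ P₀ hP X)).and ((h3 p0 (by omega) γ P₀ hP X j₀).and
    ((ctx_RgN j₀).and hQE)))
  obtain ⟨⟨a1, a2⟩, a3, a4, a5⟩ := hh
  refine ⟨a1, a2, a4, ?_⟩
  have hmu : X.mu j₀ u τ Finset.univ = Mn X u τ := a5.mass
  have := a3 (fun _ => 1) 1 (by norm_num) fun _ _ => le_rfl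
  rw [hmu] at this
  linarith

/-- masses of items as linear functionals -/
lemma MI_lm {u : NS} {τ : IT} (h : NL X u τ) {F : Finset ℕ} {c : ℕ → ℝ} {ε : X.c.Lam → ℝ}
    (h0 : ∀ j, 0 ≤ ε j) (hc : ∀ j : X.c.Lam, j.1.1 ∈ F → c j.1.1 ≤ ε j) :
    ∑ q ∈ F, c q * MI X u τ q ≤ lm X ε u τ := by
  classical
  rw [sum_MI]
  unfold lm
  rw [Finset.sum_filter]
  refine Finset.sum_le_sum fun j _ => ?_
  have hI : 0 ≤ I (vx X u τ j) := I_vx_nonneg h.rg j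
  split_ifs with hj
  · exact mul_le_mul_of_nonneg_right (hc j hj) hI
  · exact mul_nonneg (h0 j) hI

/-- the mass of a family of items -/
lemma MI_tot {u : NS} {τ : IT} (h : NL X u τ) (F : Finset ℕ) :
    ∑ q ∈ F, MI X u τ q ≤ 4 * Mn X u τ := by
  have k := MI_lm h (F := F) (c := fun _ => 1) (ε := fun _ => 1) (fun _ => by norm_num)
    fun _ _ => le_rfl
  simp only [one_mul] at k
  exact k.trans h.tot

/-- rate of an item at the number level -/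
noncomputable def r1 (X : Ctx N γ p0 P₀) (s s' : NS) (t t' : IT) (K : X.c.Lam → X.c.Lam → ℝ)
    (ρ ρ' : ℕ → ℚ) (Z : ℚ → ℚ → ℝ) (q : ℕ) : ℝ :=
  ∑ r ∈ La ρ' (prs X s s' t t' (rl K)) q, rt Z (ρ q) r

/-- rate of an item at the number level, second node -/
noncomputable def r2 (X : Ctx N γ p0 P₀) (s s' : NS) (t t' : IT) (K : X.c.Lam → X.c.Lam → ℝ)
    (ρ ρ' : ℕ → ℚ) (Z : ℚ → ℚ → ℝ) (q : ℕ) : ℝ :=
  ∑ r ∈ GcdV37.Lb ρ (prs X s s' t t' (rl K)) q, rt Z r (ρ' q)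

/-- **hypotheses on the pairs of a kernel** : exact centres, sparse labels, one side late, one large
cofactor (`L = log P`, exponents `Ce`, `A`) -/
structure LbK (X : Ctx N γ p0 P₀) (s s' : NS) (t t' : IT) (K : X.c.Lam → X.c.Lam → ℝ)
    (ρ ρ' : ℕ → ℚ) (Z : ℚ → ℚ → ℝ) (L Ce A : ℝ) : Prop where
  ex : ExP X s s' t t' (rl K) ρ ρ'
  z : ∀ e ∈ prs X s s' t t' (rl K), 0 < Z (ρ e.1) (ρ' e.2) ∧
    (Z (ρ e.1) (ρ' e.2) ≤ D1 s s' e ∨ Z (ρ e.1) (ρ' e.2) ≤ D2 s s' e)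
  dn : ∀ e ∈ prs X s s' t t' (rl K), (3 + L) ^ Ce ≤ KK (ρ e.1) (ρ' e.2)
  lt : ∀ e ∈ prs X s s' t t' (rl K), 1 ≤ KK (ρ e.1) (ρ' e.2) ^ A * RB X s e.1 ∨
    1 ≤ KK (ρ e.1) (ρ' e.2) ^ A * RB X s' e.2

/-- **A PAIR OF NODES** -/
theorem pair_lm {A : ℝ} (hA : 0 ≤ A) : ∃ Ce : ℝ, 1 ≤ Ce ∧ ∃ C : ℝ, 1 ≤ C ∧
    ∀ (N : Skel189.Num), ∃ p₁ : ℕ, ∀ p0 ≥ p₁, ∀ (γ : ℝ) (P₀ : ℕ)
    (X : Ctx N γ p0 P₀) (s s' : NS) (t t' : IT) (P : ℕ) (ρ ρ' : ℕ → ℚ) (Z : ℚ → ℚ → ℝ)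
    (K : X.c.Lam → X.c.Lam → ℝ) (W : ℝ) (c c' : X.c.Lam → ℝ),
    NL X s t → NL X s' t' → p0 ≤ P → (∀ r : ℕ, r.Prime → r < s.n → r ≤ P) →
    (∀ r : ℕ, r.Prime → r < s'.n → r ≤ P) → 0 ≤ W → (∀ j i, K j i ≤ W) →
    LbK X s s' t t' K ρ ρ' Z (Real.log P) Ce A →
    4 * Mn X s t ≤ (3 + Real.log P) ^ A → 4 * Mn X s' t' ≤ (3 + Real.log P) ^ A →
    (∀ j, 0 ≤ c j) → (∀ j, 0 ≤ c' j) →
    (∀ j : X.c.Lam, ∀ e ∈ prs X s s' t t' (rl K), j.1.1 = e.1 →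
      W * (C * (1 + Real.log P) * r1 X s s' t t' K ρ ρ' Z e.1) ≤ c j) →
    (∀ j : X.c.Lam, ∀ e ∈ prs X s s' t t' (rl K), j.1.1 = e.2 →
      W * (C * (1 + Real.log P) * r2 X s s' t t' K ρ ρ' Z e.2) ≤ c' j) →
    bil K (vx X s t) (vx X s' t') ≤ lm X c s t + lm X c' s' t' := by
  classical
  obtain ⟨Ce, hCe, C, hC, h0⟩ := node_lab hA
  refine ⟨Ce, hCe, C, hC, fun N => ?_⟩
  obtain ⟨p1, h1⟩ := h0 N
  refine ⟨p1, fun p0 hp0 γ P₀ X s s' t t' P ρ ρ' Z K W c c' h h' hP hl hl' hW hK hL m1 m2 c0 c0'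
    hc hc' => ?_⟩
  have e1 : vx X s t = vN X (.inl (s, t)) := rfl
  have e2 : vx X s' t' = vN X (.inl (s', t')) := rfl
  have pV := fun j => pb_vx h.rg j
  have pU := fun j => pb_vx h'.rg j
  have k1 := bil_qe hK pV pU
  have k2 := h1 p0 hp0 γ P₀ X s s' t t' P ρ ρ' Z (rl K) h.mn h'.mn hP hl hl' (mp_rl K) hL.ex hL.z
    hL.dn hL.lt ((MI_tot h _).trans m1) ((MI_tot h' _).trans m2)
  refine k1.trans ((mul_le_mul_of_nonneg_left k2 hW).trans ?_)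
  have a1 : ∑ q ∈ (prs X s s' t t' (rl K)).image Prod.fst,
      (W * (C * (1 + Real.log P) * r1 X s s' t t' K ρ ρ' Z q)) * MI X s t q ≤ lm X c s t := by
    refine MI_lm h c0 fun j hj => ?_
    obtain ⟨e, he, h3⟩ := Finset.mem_image.1 hj
    rw [← h3]
    exact hc j e he h3.symm
  have a2 : ∑ q ∈ (prs X s s' t t' (rl K)).image Prod.snd,
      (W * (C * (1 + Real.log P) * r2 X s s' t t' K ρ ρ' Z q)) * MI X s' t' q ≤ lm X c' s' t' := by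
    refine MI_lm h' c0' fun j hj => ?_
    obtain ⟨e, he, h3⟩ := Finset.mem_image.1 hj
    rw [← h3]
    exact hc' j e he h3.symm
  refine le_trans (le_of_eq ?_) (add_le_add a1 a2)
  unfold r1 r2
  rw [mul_add, mul_add, Finset.mul_sum, Finset.mul_sum, Finset.mul_sum, Finset.mul_sum]
  congr 1
  · exact Finset.sum_congr rfl fun q _ => by ring
  · exact Finset.sum_congr rfl fun q _ => by ring

/-- few labels of partners, small rates -/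
lemma r1_le {s s' : NS} {t t' : IT} {K : X.c.Lam → X.c.Lam → ℝ} {ρ ρ' : ℕ → ℚ}
    {Z : ℚ → ℚ → ℝ} {q n : ℕ} {δ : ℝ} (hδ : 0 ≤ δ) {T : Finset ℚ} (hT : T.card ≤ n)
    (h1 : ∀ e ∈ prs X s s' t t' (rl K), e.1 = q → ρ' e.2 ∈ T)
    (h2 : ∀ e ∈ prs X s s' t t' (rl K), e.1 = q → GcdV37.rt Z (ρ e.1) (ρ' e.2) ≤ δ) :
    r1 X s s' t t' K ρ ρ' Z q ≤ n * δ := by
  have hs : La ρ' (prs X s s' t t' (rl K)) q ⊆ T := fun r hr => by
    obtain ⟨e, he, e1, e2⟩ := mem_La.1 hr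
    exact e2 ▸ h1 e he e1
  have hc : ((La ρ' (prs X s s' t t' (rl K)) q).card : ℝ) ≤ n := by
    exact_mod_cast (Finset.card_le_card hs).trans hT
  refine le_trans (Finset.sum_le_sum (g := fun _ => δ) fun r hr => ?_) ?_
  · obtain ⟨e, he, e1, e2⟩ := mem_La.1 hr
    have := h2 e he e1
    rwa [e1, e2] at this
  · rw [Finset.sum_const, nsmul_eq_mul]
    exact mul_le_mul_of_nonneg_right hc hδ

lemma r2_le {s s' : NS} {t t' : IT} {K : X.c.Lam → X.c.Lam → ℝ} {ρ ρ' : ℕ → ℚ}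
    {Z : ℚ → ℚ → ℝ} {q n : ℕ} {δ : ℝ} (hδ : 0 ≤ δ) {T : Finset ℚ} (hT : T.card ≤ n)
    (h1 : ∀ e ∈ prs X s s' t t' (rl K), e.2 = q → ρ e.1 ∈ T)
    (h2 : ∀ e ∈ prs X s s' t t' (rl K), e.2 = q → GcdV37.rt Z (ρ e.1) (ρ' e.2) ≤ δ) :
    r2 X s s' t t' K ρ ρ' Z q ≤ n * δ := by
  have hs : GcdV37.Lb ρ (prs X s s' t t' (rl K)) q ⊆ T := fun r hr => by
    obtain ⟨e, he, e1, e2⟩ := mem_Lb.1 hr
    exact e2 ▸ h1 e he e1
  have hc : ((GcdV37.Lb ρ (prs X s s' t t' (rl K)) q).card : ℝ) ≤ n := by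
    exact_mod_cast (Finset.card_le_card hs).trans hT
  refine le_trans (Finset.sum_le_sum (g := fun _ => δ) fun r hr => ?_) ?_
  · obtain ⟨e, he, e1, e2⟩ := mem_Lb.1 hr
    have := h2 e he e1
    rwa [e1, e2] at this
  · rw [Finset.sum_const, nsmul_eq_mul]
    exact mul_le_mul_of_nonneg_right hc hδ

/-! ### masses of the nodes and of the children of a tie -/

/-- the N child -/
abbrev nN (p : ℕ) (u : NS) : NS := ⟨p, u.c * p, u.A, u.B * p⟩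

/-- the P child -/
noncomputable abbrev nP (p : ℕ) (u : NS) : NS := ⟨p, u.c / (1 - 1 / (p : ℝ)), u.A * p, u.B⟩

/-- **the masses of a node which is not a leaf and of the children of a tie** -/
theorem mass_nd (N : Skel189.Num) : ∃ p₁ : ℕ, ∀ p0 ≥ p₁, ∀ (γ : ℝ) (P₀ : ℕ), 2 ≤ P₀ →
    ∀ X : Ctx N γ p0 P₀, ∀ (u : NS) (τ : IT), NL X u τ → ¬ isL τ →
    4 * Mn X u τ ≤ (3 + Real.log (tp τ)) ^ (N.B + N.c2 + 2) ∧
    ∀ p Sp t₁ t₀, τ = .br p Sp t₁ t₀ →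
      4 * Mn X (nP p u) t₁ ≤ (3 + Real.log p) ^ (N.B + N.c2 + 2) ∧
      4 * Mn X (nN p u) t₀ ≤ (3 + Real.log p) ^ (N.B + N.c2 + 2) := by
  obtain ⟨p1, h1⟩ := NcE14.nce N
  refine ⟨p1 + 2, fun p0 hp0 γ P₀ hP X u τ h hl => ?_⟩
  have hB := N.hB
  have hC1 := N.hC1
  have hc2 := N.hc2
  have hc := h1 p0 (by omega) γ P₀ hP X u τ h.nf hl
  have key : ∀ L : ℝ, 1 ≤ L → 8 * L ^ (N.B + N.c2) ≤ (3 + L) ^ (N.B + N.c2 + 2) := by
    intro L hL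
    have k1 : L ^ (N.B + N.c2) ≤ (3 + L) ^ (N.B + N.c2) :=
      Real.rpow_le_rpow (by linarith) (by linarith) (by linarith)
    have k2 : (8 : ℝ) ≤ (3 + L) ^ (2 : ℝ) := by
      rw [Real.rpow_two]; nlinarith
    rw [Real.rpow_add (by linarith : (0:ℝ) < 3 + L), mul_comm]
    exact mul_le_mul k1 k2 (by norm_num) (by positivity)
  have tot : Mn X u τ ≤ Real.log (tp τ) ^ N.c2 := hc.tot
  have l1 := hc.l1
  have M0 := Mn_nonneg h.nf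
  have pw : Real.log (tp τ) ^ N.c2 ≤ Real.log (tp τ) ^ (N.B + N.c2) :=
    Real.rpow_le_rpow_of_exponent_le l1 (by linarith)
  refine ⟨?_, ?_⟩
  · have := key _ l1
    linarith
  · rintro p Sp t₁ t₀ rfl
    have F := RtC28.tF h.nf.nd
    obtain ⟨b1, b0, b⟩ := RtS28.Mn_br (X := X) (Sp := Sp) F
    have n := h.nf.nd.self.node
    obtain ⟨n1, n2, n3, n4, n5, n6, n7, n8, n9, n10, n11, n12, n13⟩ := n
    have hp2 : (2:ℝ) ≤ p := by exact_mod_cast F.pr.two_le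
    have hp0' : (0:ℝ) < p := by linarith
    have l1' : 1 ≤ Real.log (p : ℝ) := l1
    have l0 : 0 < Real.log (p : ℝ) := by linarith
    have hsg : X.par.sg p = Real.log p ^ N.B / p := rfl
    have W1 : 0 ≤ u.c * Ws (w X.ψ) t₁.items :=
      mul_nonneg hc.c0.le (Finset.sum_nonneg fun q _ => hc.w0 q)
    have W0 : 0 ≤ u.c * Ws (w X.ψ) t₀.items :=
      mul_nonneg hc.c0.le (Finset.sum_nonneg fun q _ => hc.w0 q)
    have tot' : Mn X u (.br p Sp t₁ t₀) ≤ Real.log p ^ N.c2 := tot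
    have pw' : Real.log (p:ℝ) ^ N.c2 ≤ Real.log p ^ (N.B + N.c2) := pw
    have k8 := key _ l1'
    constructor
    · have h1' : (1:ℝ) / 2 ≤ 1 - 1 / (p:ℝ) := by
        rw [le_sub_comm, div_le_iff₀ hp0']
        linarith
      have M1 : 0 ≤ Mn X (nP p u) t₁ := by
        by_contra hneg
        push Not at hneg
        have h5 : (1 - 1 / (p : ℝ)) * Mn X (nP p u) t₁ < 0 :=
          mul_neg_of_pos_of_neg (by linarith) hneg
        have h6 : (1 - 1 / (p : ℝ)) * Mn X (nP p u) t₁ = u.c * Ws (w X.ψ) t₁.items := b1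
        linarith
      have h5 : 1 / 2 * Mn X (nP p u) t₁ ≤ u.c * Ws (w X.ψ) t₁.items := by
        refine le_trans (mul_le_mul_of_nonneg_right h1' M1) (le_of_eq b1)
      linarith
    · have e1 : Mn X (nN p u) t₀ = p * (u.c * Ws (w X.ψ) t₀.items) := by
        rw [← b0]
        show Mn X (nN p u) t₀ = p * (1 / (p:ℝ) * Mn X (nN p u) t₀)
        field_simp
      have e2 : u.c * Ws (w X.ψ) t₀.items ≤ 2 * (Real.log p ^ N.B / p) * Mn X u (.br p Sp t₁ t₀) := by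
        calc u.c * Ws (w X.ψ) t₀.items
            ≤ u.c * (2 * X.par.sg p * Ws (w X.ψ) (t₁.items ∪ t₀.items)) :=
              mul_le_mul_of_nonneg_left n12 hc.c0.le
          _ = 2 * X.par.sg p * (u.c * Ws (w X.ψ) (t₁.items ∪ t₀.items)) := by ring
          _ = _ := by rw [hsg]; rfl
      have e3 : Mn X (nN p u) t₀ ≤ 2 * Real.log p ^ N.B * Mn X u (.br p Sp t₁ t₀) := by
        rw [e1]
        calc (p:ℝ) * (u.c * Ws (w X.ψ) t₀.items)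
            ≤ p * (2 * (Real.log p ^ N.B / p) * Mn X u (.br p Sp t₁ t₀)) :=
              mul_le_mul_of_nonneg_left e2 hp0'.le
          _ = _ := by field_simp
      have e4 : 2 * Real.log (p:ℝ) ^ N.B * Mn X u (.br p Sp t₁ t₀) ≤
          2 * Real.log p ^ (N.B + N.c2) := by
        rw [Real.rpow_add l0, mul_assoc]
        exact mul_le_mul_of_nonneg_left (mul_le_mul_of_nonneg_left tot' (by positivity))
          (by norm_num)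
      linarith

/-- the exponent of the hypotheses on the masses -/
noncomputable def Ax (N : Skel189.Num) (A : ℝ) : ℝ := max A (N.B + N.c2 + 2)

lemma lt_mono {A A' K R : ℝ} (hK : 1 ≤ K) (hA : A ≤ A') (hR : 0 ≤ R) (h : 1 ≤ K ^ A * R) :
    1 ≤ K ^ A' * R :=
  h.trans (mul_le_mul_of_nonneg_right (Real.rpow_le_rpow_of_exponent_le hK hA) hR)

lemma LbK.up {s s' : NS} {t t' : IT} {K : X.c.Lam → X.c.Lam → ℝ} {ρ ρ' : ℕ → ℚ}
    {Z : ℚ → ℚ → ℝ} {L Ce A A' : ℝ} (h : NL X s t) (h' : NL X s' t') (hA : A ≤ A')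
    (H : LbK X s s' t t' K ρ ρ' Z L Ce A) : LbK X s s' t t' K ρ ρ' Z L Ce A' where
  ex := H.ex
  z := H.z
  dn := H.dn
  lt := fun e he => (H.lt e he).imp (lt_mono (KK_one _ _) hA (RB_nn h.mn.nd e.1))
    (lt_mono (KK_one _ _) hA (RB_nn h'.mn.nd e.2))

lemma LbK.mono {s s' : NS} {t t' : IT} {K : X.c.Lam → X.c.Lam → ℝ} {ρ ρ' : ℕ → ℚ}
    {Z : ℚ → ℚ → ℝ} {L L' Ce A : ℝ} (hL : 0 ≤ L') (hLL : L' ≤ L) (hC : 0 ≤ Ce)
    (H : LbK X s s' t t' K ρ ρ' Z L Ce A) : LbK X s s' t t' K ρ ρ' Z L' Ce A where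
  ex := H.ex
  z := H.z
  dn := fun e he => (Real.rpow_le_rpow (by linarith) (by linarith) hC).trans (H.dn e he)
  lt := H.lt

/-- **REST COLUMNS** : `RN K` at a node which is not a leaf, `q` any column above its top -/
theorem vn_lab (N : Skel189.Num) {A : ℝ} (hA : 0 ≤ A) : ∃ Ce : ℝ, 1 ≤ Ce ∧ ∃ C : ℝ, 1 ≤ C ∧
    ∃ p₁ : ℕ, ∀ p0 ≥ p₁, ∀ (γ : ℝ) (P₀ : ℕ), 2 ≤ P₀ → ∀ (X : Ctx N γ p0 P₀) (u : NS) (τ : IT)
    (q : ℕ) (ρ : ℕ → ℚ) (Z : ℚ → ℚ → ℝ) (K : X.c.Lam → X.c.Lam → ℝ) (W : ℝ) (ε : X.c.Lam → ℝ),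
    NL X u τ → ¬ isL τ → tp τ < q → 0 ≤ W → (∀ j i, K j i ≤ W) →
    LbK X u u τ τ K ρ ρ Z (Real.log q) Ce A → (∀ j, 0 ≤ ε j) →
    (∀ j : X.c.Lam, ∀ e ∈ prs X u u τ τ (rl K), j.1.1 = e.1 →
      W * (C * (1 + Real.log q) * r1 X u u τ τ K ρ ρ Z e.1) ≤ ε j) →
    (∀ j : X.c.Lam, ∀ e ∈ prs X u u τ τ (rl K), j.1.1 = e.2 →
      W * (C * (1 + Real.log q) * r2 X u u τ τ K ρ ρ Z e.2) ≤ ε j) →
    2 * bil K (vx X u τ) (vx X u τ) ≤ lm X (fun j => 4 * ε j) u τ := by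
  obtain ⟨Ce, hCe, C, hC, h0⟩ := pair_lm (A := Ax N A) (hA.trans (le_max_left _ _))
  obtain ⟨p1, h1⟩ := h0 N
  obtain ⟨p2, h2⟩ := mass_nd N
  refine ⟨Ce, hCe, C, hC, p1 + p2 + 2, ?_⟩
  intro p0 hp0 γ P₀ hP X u τ q ρ Z K W ε h hl hq hW hK hL hε hr hr'
  obtain ⟨k1, k2, k3, k4⟩ := nodeOk_hi h.nf.nd.self.node hl
  have k2' : p0 < tp τ := k2
  have m1 := (h2 p0 (by omega) γ P₀ hP X u τ h hl).1
  have tp2 : (2:ℝ) ≤ tp τ := by exact_mod_cast (by omega : 2 ≤ tp τ)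
  have l0 : 0 ≤ Real.log (tp τ) := Real.log_natCast_nonneg _
  have lq : Real.log (tp τ) ≤ Real.log q :=
    Real.log_le_log (by linarith) (by exact_mod_cast hq.le)
  have m2 : 4 * Mn X u τ ≤ (3 + Real.log (tp τ)) ^ Ax N A :=
    m1.trans (Real.rpow_le_rpow_of_exponent_le (by linarith) (le_max_right _ _))
  have rr : ∀ (a b : ℝ), 0 ≤ b → W * (C * (1 + Real.log (tp τ)) * b) ≤
      W * (C * (1 + Real.log q) * b) := fun a b hb => by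
    refine mul_le_mul_of_nonneg_left (mul_le_mul_of_nonneg_right ?_ hb) hW
    exact mul_le_mul_of_nonneg_left (by linarith) (by linarith)
  have rt0 : ∀ r r' : ℚ, ∀ e ∈ prs X u u τ τ (rl K), ρ e.1 = r → ρ e.2 = r' → 0 ≤ rt Z r r' := by
    rintro r r' e he rfl rfl
    have a1 := (hL.z e he).1
    have a2 := KK_one (ρ e.1) (ρ e.2)
    unfold GcdV37.rt
    positivity
  have n1 : ∀ q, 0 ≤ r1 X u u τ τ K ρ ρ Z q := fun q => by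
    refine Finset.sum_nonneg fun r hr => ?_
    obtain ⟨e, he, e1, e2⟩ := mem_La.1 hr
    exact rt0 _ _ e he (by rw [e1]) e2
  have n2 : ∀ q, 0 ≤ r2 X u u τ τ K ρ ρ Z q := fun q => by
    refine Finset.sum_nonneg fun r hr => ?_
    obtain ⟨e, he, e1, e2⟩ := mem_Lb.1 hr
    exact rt0 _ _ e he e2 (by rw [e1])
  have key := h1 p0 (by omega) γ P₀ X u u τ τ (tp τ) ρ ρ Z K W ε ε h h k2'.le
    k4 k4 hW hK ((hL.up h h (le_max_left _ _)).mono l0 lq (by linarith)) m2 m2 hε hε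
    (fun j e he hj => (rr 0 _ (n1 _)).trans (hr j e he hj))
    (fun j e he hj => (rr 0 _ (n2 _)).trans (hr' j e he hj))
  rw [lm_smul]
  linarith

/-- **CHILDREN OF A TIE** : `FB K` -/
theorem fb_lab (N : Skel189.Num) {A : ℝ} (hA : 0 ≤ A) : ∃ Ce : ℝ, 1 ≤ Ce ∧ ∃ C : ℝ, 1 ≤ C ∧
    ∃ p₁ : ℕ, ∀ p0 ≥ p₁, ∀ (γ : ℝ) (P₀ : ℕ), 2 ≤ P₀ → ∀ (X : Ctx N γ p0 P₀) (u : NS) (p : ℕ)
    (Sp : Finset ℕ) (t₁ t₀ : IT) (ρ₁ ρ₀ : ℕ → ℚ) (Z : ℚ → ℚ → ℝ)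
    (K : X.c.Lam → X.c.Lam → ℝ) (W : ℝ) (ε : X.c.Lam → ℝ),
    NL X u (.br p Sp t₁ t₀) → NL X (nP p u) t₁ → NL X (nN p u) t₀ → 0 ≤ W → (∀ j i, K j i ≤ W) →
    LbK X (nP p u) (nP p u) t₁ t₁ K ρ₁ ρ₁ Z (Real.log p) Ce A →
    LbK X (nN p u) (nN p u) t₀ t₀ K ρ₀ ρ₀ Z (Real.log p) Ce A → (∀ j, 0 ≤ ε j) →
    (∀ j : X.c.Lam, ∀ e ∈ prs X (nP p u) (nP p u) t₁ t₁ (rl K), j.1.1 = e.1 →
      W * (C * (1 + Real.log p) * r1 X (nP p u) (nP p u) t₁ t₁ K ρ₁ ρ₁ Z e.1) ≤ ε j) →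
    (∀ j : X.c.Lam, ∀ e ∈ prs X (nP p u) (nP p u) t₁ t₁ (rl K), j.1.1 = e.2 →
      W * (C * (1 + Real.log p) * r2 X (nP p u) (nP p u) t₁ t₁ K ρ₁ ρ₁ Z e.2) ≤ ε j) →
    (∀ j : X.c.Lam, ∀ e ∈ prs X (nN p u) (nN p u) t₀ t₀ (rl K), j.1.1 = e.1 →
      W * (C * (1 + Real.log p) * r1 X (nN p u) (nN p u) t₀ t₀ K ρ₀ ρ₀ Z e.1) ≤ ε j) →
    (∀ j : X.c.Lam, ∀ e ∈ prs X (nN p u) (nN p u) t₀ t₀ (rl K), j.1.1 = e.2 →
      W * (C * (1 + Real.log p) * r2 X (nN p u) (nN p u) t₀ t₀ K ρ₀ ρ₀ Z e.2) ≤ ε j) →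
    FB (fun _ => K) p (vx X (nP p u) t₁) (vx X (nN p u) t₀) ≤
      lm X (fun j => 4 * ε j) u (.br p Sp t₁ t₀) := by
  obtain ⟨Ce, hCe, C, hC, h0⟩ := pair_lm (A := Ax N A) (hA.trans (le_max_left _ _))
  obtain ⟨p1, h1⟩ := h0 N
  obtain ⟨p2, h2⟩ := mass_nd N
  refine ⟨Ce, hCe, C, hC, p1 + p2 + 2, ?_⟩
  intro p0 hp0 γ P₀ hP X u p Sp t₁ t₀ ρ₁ ρ₀ Z K W ε h hu1 hu0 hW hK hL1 hL0 hε a1 a2 a3 a4
  have hl : ¬ isL (IT.br p Sp t₁ t₀) := fun h => h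
  obtain ⟨-, k2, -, -⟩ := nodeOk_hi h.nf.nd.self.node hl
  have k2' : p0 < p := k2
  obtain ⟨m1, m0⟩ := (h2 p0 (by omega) γ P₀ hP X u _ h hl).2 p Sp t₁ t₀ rfl
  have l0 : 0 ≤ Real.log (p : ℝ) := Real.log_natCast_nonneg p
  have pm : (3 + Real.log (p:ℝ)) ^ (N.B + N.c2 + 2) ≤ (3 + Real.log p) ^ Ax N A :=
    Real.rpow_le_rpow_of_exponent_le (by linarith) (le_max_right _ _)
  have hlv : ∀ r : ℕ, r.Prime → r < p → r ≤ p := fun r _ hr => hr.le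
  have key1 := h1 p0 (by omega) γ P₀ X _ _ t₁ t₁ p ρ₁ ρ₁ Z K W ε ε hu1 hu1 k2'.le hlv hlv hW hK
    (hL1.up hu1 hu1 (le_max_left _ _)) (m1.trans pm) (m1.trans pm) hε hε a1 a2
  have key0 := h1 p0 (by omega) γ P₀ X _ _ t₀ t₀ p ρ₀ ρ₀ Z K W ε ε hu0 hu0 k2'.le hlv hlv hW hK
    (hL0.up hu0 hu0 (le_max_left _ _)) (m0.trans pm) (m0.trans pm) hε hε a3 a4
  have hp2 : (2:ℝ) ≤ p := by exact_mod_cast (RtC28.tF h.nf.nd).pr.two_le
  have hp0' : (0:ℝ) < p := by linarith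
  have w1 : (0:ℝ) ≤ 1 - 1 / (p:ℝ) := by
    rw [sub_nonneg, div_le_one hp0']; linarith
  have b := lm_br2 h.rg (c := fun j => 4 * ε j) (c₁ := fun j => 4 * ε j) (c₀ := fun j => 4 * ε j)
    (fun _ _ => le_rfl) (fun _ _ => le_rfl) hu1.rg hu0.rg
  refine le_trans ?_ b
  rw [lm_smul, lm_smul]
  unfold FB
  refine add_le_add (mul_le_mul_of_nonneg_left (by linarith) w1)
    (mul_le_mul_of_nonneg_left (by linarith) (by positivity))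

/-- **P CHILD AGAINST N CHILD** : `1/p * (2 * bil K ..)` (`PrK45.pn_nd`); P items pay `4/p` times the
rate, N items pay twice the rate -/
theorem fp_lab (N : Skel189.Num) {A : ℝ} (hA : 0 ≤ A) : ∃ Ce : ℝ, 1 ≤ Ce ∧ ∃ C : ℝ, 1 ≤ C ∧
    ∃ p₁ : ℕ, ∀ p0 ≥ p₁, ∀ (γ : ℝ) (P₀ : ℕ), 2 ≤ P₀ → ∀ (X : Ctx N γ p0 P₀) (u : NS) (p : ℕ)
    (Sp : Finset ℕ) (t₁ t₀ : IT) (ρ₁ ρ₀ : ℕ → ℚ) (Z : ℚ → ℚ → ℝ)
    (K : X.c.Lam → X.c.Lam → ℝ) (W : ℝ) (ε : X.c.Lam → ℝ),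
    NL X u (.br p Sp t₁ t₀) → NL X (nP p u) t₁ → NL X (nN p u) t₀ → 0 ≤ W → (∀ j i, K j i ≤ W) →
    LbK X (nP p u) (nN p u) t₁ t₀ K ρ₁ ρ₀ Z (Real.log p) Ce A → (∀ j, 0 ≤ ε j) →
    (∀ j : X.c.Lam, ∀ e ∈ prs X (nP p u) (nN p u) t₁ t₀ (rl K), j.1.1 = e.1 →
      4 / (p : ℝ) * (W * (C * (1 + Real.log p) * r1 X (nP p u) (nN p u) t₁ t₀ K ρ₁ ρ₀ Z e.1)) ≤ ε j) →
    (∀ j : X.c.Lam, ∀ e ∈ prs X (nP p u) (nN p u) t₁ t₀ (rl K), j.1.1 = e.2 →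
      2 * (W * (C * (1 + Real.log p) * r2 X (nP p u) (nN p u) t₁ t₀ K ρ₁ ρ₀ Z e.2)) ≤ ε j) →
    1 / (p : ℝ) * (2 * bil K (vx X (nP p u) t₁) (vx X (nN p u) t₀)) ≤
      lm X ε u (.br p Sp t₁ t₀) := by
  classical
  obtain ⟨Ce, hCe, C, hC, h0⟩ := pair_lm (A := Ax N A) (hA.trans (le_max_left _ _))
  obtain ⟨p1, h1⟩ := h0 N
  obtain ⟨p2, h2⟩ := mass_nd N
  refine ⟨Ce, hCe, C, hC, p1 + p2 + 2, ?_⟩
  intro p0 hp0 γ P₀ hP X u p Sp t₁ t₀ ρ₁ ρ₀ Z K W ε h hu1 hu0 hW hK hL hε a1 a2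
  have hl : ¬ isL (IT.br p Sp t₁ t₀) := fun h => h
  obtain ⟨-, k2, -, -⟩ := nodeOk_hi h.nf.nd.self.node hl
  have k2' : p0 < p := k2
  obtain ⟨m1, m0⟩ := (h2 p0 (by omega) γ P₀ hP X u _ h hl).2 p Sp t₁ t₀ rfl
  have l0 : 0 ≤ Real.log (p : ℝ) := Real.log_natCast_nonneg p
  have pm : (3 + Real.log (p:ℝ)) ^ (N.B + N.c2 + 2) ≤ (3 + Real.log p) ^ Ax N A :=
    Real.rpow_le_rpow_of_exponent_le (by linarith) (le_max_right _ _)
  have hlv : ∀ r : ℕ, r.Prime → r < p → r ≤ p := fun r _ hr => hr.le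
  have hp2 : (2:ℝ) ≤ p := by exact_mod_cast (RtC28.tF h.nf.nd).pr.two_le
  have hp0' : (0:ℝ) < p := by linarith
  have w1 : (1:ℝ) / 2 ≤ 1 - 1 / (p:ℝ) := by
    rw [le_sub_comm, div_le_iff₀ hp0']
    linarith
  have key := h1 p0 (by omega) γ P₀ X _ _ t₁ t₀ p ρ₁ ρ₀ Z K W (fun j => (p:ℝ) / 4 * ε j)
    (fun j => 1 / 2 * ε j) hu1 hu0 k2'.le hlv hlv hW hK (hL.up hu1 hu0 (le_max_left _ _))
    (m1.trans pm) (m0.trans pm) (fun j => mul_nonneg (by positivity) (hε j))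
    (fun j => mul_nonneg (by norm_num) (hε j)) (fun j e he hj => by
      have := a1 j e he hj
      have h5 := mul_le_mul_of_nonneg_left this (by positivity : (0:ℝ) ≤ p / 4)
      refine le_trans (le_of_eq ?_) h5
      field_simp) (fun j e he hj => by
      have := a2 j e he hj
      linarith)
  have b := lm_br2 h.rg (c := ε) (c₁ := ε) (c₀ := ε) (fun _ _ => le_rfl) (fun _ _ => le_rfl)
    hu1.rg hu0.rg
  refine le_trans ?_ b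
  have L1 : 0 ≤ lm X ε (nP p u) t₁ :=
    Finset.sum_nonneg fun j _ => mul_nonneg (hε j) (I_vx_nonneg hu1.rg j)
  have e1 : lm X (fun j => (p:ℝ) / 4 * ε j) (nP p u) t₁ = (p:ℝ) / 4 * lm X ε (nP p u) t₁ :=
    lm_smul _ _ _ _
  have e0 : lm X (fun j => 1 / 2 * ε j) (nN p u) t₀ = 1 / 2 * lm X ε (nN p u) t₀ :=
    lm_smul _ _ _ _
  rw [e1, e0] at key
  have k5 := mul_le_mul_of_nonneg_left key (by positivity : (0:ℝ) ≤ 1 / (p:ℝ) * 2)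
  have e3 : 1 / (p:ℝ) * 2 * ((p:ℝ) / 4 * lm X ε (nP p u) t₁ + 1 / 2 * lm X ε (nN p u) t₀) =
      1 / 2 * lm X ε (nP p u) t₁ + 1 / (p:ℝ) * lm X ε (nN p u) t₀ := by
    field_simp
    ring
  rw [e3] at k5
  have k6 := mul_le_mul_of_nonneg_right w1 L1
  calc 1 / (p : ℝ) * (2 * bil K (vx X (nP p u) t₁) (vx X (nN p u) t₀))
      = 1 / (p : ℝ) * 2 * bil K (vx X (nP p u) t₁) (vx X (nN p u) t₀) := by ring
    _ ≤ _ := k5
    _ ≤ _ := by linarith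

end Crest.Agent.R4P.RtL28
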