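import Crest.Agent.R4P.PoC_18
import Crest.Agent.R4P.RtL_28

/-!
R4 (S0004) with powers, helper18: **POOR PIECES, relations with a point, node forms** (early against early, no
late side; over `PoC18.poor_min`, `XmQ37.ExP / prs / node_offP`, `RtL28`).

* `LbT` : hypotheses on the related pairs of items of two nodes (exact centres, few smaller cofactors,
  the larger cofactor and the denominator of the partner at least `H`); **`node_poorP`**;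
* `LbS` : one node, same label, different items; `LbS.lbt`; **`node_poorS`**;
* node forms for static kernels: **`pair_poor`**, **`vn_poor`** (`RN K`), **`fb_poor`** (`FB K`),
  **`fp_poor`** (P child against N child).
-/

set_option autoImplicit false
set_option linter.unusedSectionVars false
set_option linter.unusedVariables false

open MeasureTheory Filter

namespace Crest.Agent.R4P.PoL18

open Crest.Agent.R4.HVW560 (wn)
open Crest.Agent.R4.Tour104 Crest.Agent.R4.Tour758 Crest.Agent.R4.Avg758 Crest.Agent.R4.Clos758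
open Crest.Agent.R4.ClosL758 Crest.Agent.R4.ClosG758 Crest.Agent.R4.ClosR758
open Crest.Agent.R4.Fam464 Crest.Agent.R4.Piece464
open Crest.Agent.R4P.Cnt588 Crest.Agent.R4P.Item758 Crest.Agent.R4P.AvgItem710
open Crest.Agent.R4P.Walk560 Crest.Agent.R4P.NodeG33
open Crest.Agent.R4P.Data758 Crest.Agent.R4P.Skel189
open Crest.Agent.R4P.Bld532 (NS All NodeOk)
open Crest.Agent.R4P.WalkIT579 (tp isL nodeOk_hi)
open Crest.Agent.R4P.Step588 (NDt CT CT_pos)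
open Crest.Agent.R4.Soft104 (w)
open Crest.Agent.R4P.SameIx30 Crest.Agent.R4P.GPair33
open Crest.Agent.R4P.ShR18 (Co)
open Crest.Agent.R4P.SpM18 Crest.Agent.R4P.XmE18 Crest.Agent.R4P.XmM18 Crest.Agent.R4P.XmG18
open Crest.Agent.R4P.XmN37 Crest.Agent.R4P.XmO37 Crest.Agent.R4P.XmQ37
open Crest.Agent.R4P.GcdK37 (ind ind_t ind_f ind_nn ind_le)
open Crest.Agent.R4P.GcdS37 (rd)
open Crest.Agent.R4P.E3V479 (qe)
open Crest.Agent.R4P.DTp26 (MP)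
open Crest.Agent.R4P.JnE5 (Ker bil)
open Crest.Agent.R4P.PrH45 (RN FB)
open Crest.Agent.R4P.PrK45
open Crest.Agent.R4P.RtL28
open Crest.Agent.R4P.PoC18
open Crest.Agent.R4P

variable {N : Skel189.Num} {γ : ℝ} {p0 P₀ : ℕ} {X : Ctx N γ p0 P₀}

/-- **hypotheses on the related pairs of items** of two nodes (`L = log P`) -/
structure LbT (X : Ctx N γ p0 P₀) (s s' : NS) (t t' : IT) (R : ℝ → X.c.Lam → X.c.Lam → Prop)
    (ρ ρ' : ℕ → ℚ) (H H' : ℕ → ℝ) (T T' : ℕ → Finset ℕ) (L Ce : ℝ) : Prop where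
  ex : ExP X s s' t t' R ρ ρ'
  h1 : ∀ e ∈ prs X s s' t t' R, (3 + L) ^ Ce ≤ H e.1
  h2 : ∀ e ∈ prs X s s' t t' R, (3 + L) ^ Ce ≤ H' e.2
  t1 : ∀ e ∈ prs X s s' t t' R, D2 s s' e ≤ D1 s s' e →
    D2 s s' e ∈ T e.1 ∧ H e.1 ≤ D1 s s' e ∧ H e.1 ≤ (ρ' e.2).den
  t2 : ∀ e ∈ prs X s s' t t' R, D1 s s' e < D2 s s' e →
    D1 s s' e ∈ T' e.2 ∧ H' e.2 ≤ D2 s s' e ∧ H' e.2 ≤ (ρ e.1).den
  l1 : ∀ e ∈ prs X s s' t t' R, ∀ e' ∈ prs X s s' t t' R, e.1 = e'.1 → D2 s s' e = D2 s s' e' →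
    ρ' e.2 = ρ' e'.2
  l2 : ∀ e ∈ prs X s s' t t' R, ∀ e' ∈ prs X s s' t t' R, e.2 = e'.2 → D1 s s' e = D1 s s' e' →
    ρ e.1 = ρ e'.1

open Classical in
/-- **POOR PIECES OF TWO NODES, RELATION WITH A POINT** -/
theorem node_poorP : ∃ Ce : ℝ, 1 ≤ Ce ∧ ∃ C : ℝ, 1 ≤ C ∧
    ∀ (N : Skel189.Num), ∃ p₁ : ℕ, ∀ p0 ≥ p₁, ∀ (γ : ℝ) (P₀ : ℕ)
    (X : Ctx N γ p0 P₀) (s s' : NS) (t t' : IT) (P : ℕ) (ρ ρ' : ℕ → ℚ)
    (R : ℝ → X.c.Lam → X.c.Lam → Prop) (H H' : ℕ → ℝ) (T T' : ℕ → Finset ℕ),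
    MN X s t → MN X s' t' → p0 ≤ P → (∀ r : ℕ, r.Prime → r < s.n → r ≤ P) →
    (∀ r : ℕ, r.Prime → r < s'.n → r ≤ P) → (∀ j i, MP fun y => R y j i) →
    LbT X s s' t t' R ρ ρ' H H' T T' (Real.log P) Ce →
    I (qe R (vN X (.inl (s, t))) (vN X (.inl (s', t')))) ≤ C * (1 + Real.log P) *
        (∑ q ∈ (prs X s s' t t' R).image Prod.fst,
            (T q).card * H q ^ (-(1 / 4) : ℝ) * MI X s t q +
          ∑ q ∈ (prs X s s' t t' R).image Prod.snd,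
            (T' q).card * H' q ^ (-(1 / 4) : ℝ) * MI X s' t' q) := by
  obtain ⟨C0, hC0, C1, hC1, pm⟩ := poor_min
  have hCT := CT_pos
  refine ⟨C0 + 2 * CT + 1, by linarith, 8 * CT * C1 + 1, by nlinarith, fun N => ?_⟩
  obtain ⟨p1, h1⟩ := lg_nd N
  refine ⟨p1 + 3, ?_⟩
  intro p0 hp0 γ P₀ X s s' t t' P ρ ρ' R H H' T T' h h' hP hl hl' mR hL
  obtain ⟨hE, hH, hH', hT, hT', hlab, hlab'⟩ := hL
  set f := vN X (.inl (s, t)) with hf
  set g := vN X (.inl (s', t')) with hg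
  have hlP : 0 ≤ Real.log (P : ℝ) := Real.log_natCast_nonneg P
  have hw1 : 1 ≤ 3 + Real.log (P : ℝ) := by linarith
  have hw0 : 0 < 3 + Real.log (P : ℝ) := by linarith
  set E := prs X s s' t t' R with hEd
  have al : ∀ e ∈ E, e.1 ∈ t.items ∧ e.1 ∈ X.S' ∧ e.2 ∈ t'.items ∧ e.2 ∈ X.S' := fun e he =>
    prs_alive h.nd h'.nd he
  have hco : ∀ e ∈ E, CoP s s' ρ ρ' e := fun e he => hE.co h.nd h'.nd he
  set F := E.image Prod.fst with hF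
  set G := E.image Prod.snd with hG
  have hFi : ∀ q ∈ F, q ∈ t.items ∧ q ∈ X.S' := by
    intro q hq
    obtain ⟨e, he, rfl⟩ := Finset.mem_image.1 hq
    exact ⟨(al e he).1, (al e he).2.1⟩
  have hGi : ∀ q ∈ G, q ∈ t'.items ∧ q ∈ X.S' := by
    intro q hq
    obtain ⟨e, he, rfl⟩ := Finset.mem_image.1 hq
    exact ⟨(al e he).2.2.1, (al e he).2.2.2⟩
  have hHF : ∀ q ∈ F, (3 + Real.log P) ^ (C0 + 2 * CT + 1) ≤ H q := by
    intro q hq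
    obtain ⟨e, he, rfl⟩ := Finset.mem_image.1 hq
    exact hH e he
  have hHG : ∀ q ∈ G, (3 + Real.log P) ^ (C0 + 2 * CT + 1) ≤ H' q := by
    intro q hq
    obtain ⟨e, he, rfl⟩ := Finset.mem_image.1 hq
    exact hH' e he
  have hRB : ∀ q, 0 ≤ RB X s q := RB_nn h.nd
  have hRB' : ∀ q, 0 ≤ RB X s' q := RB_nn h'.nd
  have big : ∀ U : ℝ, (3 + Real.log P) ^ (C0 + 2 * CT + 1) ≤ U →
      1 ≤ U ∧ (3 + Real.log P) ^ C0 ≤ U ∧ 2 * CT * Real.log P ≤ U := by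
    intro U hU
    refine ⟨(Real.one_le_rpow hw1 (by linarith)).trans hU,
      (Real.rpow_le_rpow_of_exponent_le hw1 (by linarith)).trans hU, ?_⟩
    calc 2 * CT * Real.log P ≤ (3 + Real.log (P : ℝ)) ^ (2 * CT) * (3 + Real.log (P : ℝ)) ^ (1 : ℝ) := by
          rw [Real.rpow_one]
          exact mul_le_mul const_pow (by linarith) hlP (by positivity)
      _ = (3 + Real.log (P : ℝ)) ^ (2 * CT + 1) := (Real.rpow_add hw0 _ _).symm
      _ ≤ (3 + Real.log (P : ℝ)) ^ (C0 + 2 * CT + 1) :=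
          Real.rpow_le_rpow_of_exponent_le hw1 (by linarith)
      _ ≤ _ := hU
  -- the relation of the items
  have hD : ∀ i j : ℕ, D1 s s' (i, j) = (rd (i / s.A) (j / s'.A)).1 ∧
      D2 s s' (i, j) = (rd (i / s.A) (j / s'.A)).2 := by
    intro i j
    refine ⟨rfl, ?_⟩
    unfold D2 Crest.Agent.R4.HVW560.cof rd
    rw [Nat.gcd_comm]
  -- moduli
  obtain ⟨k, hk⟩ : ∃ k : ℕ → ℕ → ℕ, ∀ i j, (i, j) ∈ E →
      k i (rd (i / s.A) (j / s'.A)).2 = (ρ' j).den := by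
    refine ⟨fun i c => if hc : ∃ j, (i, j) ∈ E ∧ (rd (i / s.A) (j / s'.A)).2 = c then
      (ρ' hc.choose).den else 1, fun i j hr => ?_⟩
    have hc : ∃ j', (i, j') ∈ E ∧ (rd (i / s.A) (j' / s'.A)).2 = (rd (i / s.A) (j / s'.A)).2 :=
      ⟨j, hr, rfl⟩
    show (if hc : ∃ j', (i, j') ∈ E ∧ (rd (i / s.A) (j' / s'.A)).2 = (rd (i / s.A) (j / s'.A)).2 then
      (ρ' hc.choose).den else 1) = _
    rw [dif_pos hc]
    obtain ⟨h5, h6⟩ := hc.choose_spec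
    have := hlab _ h5 _ hr rfl (by rw [(hD _ _).2, (hD _ _).2]; exact h6)
    rw [this]
  obtain ⟨k', hk'⟩ : ∃ k : ℕ → ℕ → ℕ, ∀ i j, (i, j) ∈ E →
      k j (rd (i / s.A) (j / s'.A)).1 = (ρ i).den := by
    refine ⟨fun j c => if hc : ∃ i, (i, j) ∈ E ∧ (rd (i / s.A) (j / s'.A)).1 = c then
      (ρ hc.choose).den else 1, fun i j hr => ?_⟩
    have hc : ∃ i', (i', j) ∈ E ∧ (rd (i' / s.A) (j / s'.A)).1 = (rd (i / s.A) (j / s'.A)).1 :=
      ⟨i, hr, rfl⟩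
    show (if hc : ∃ i', (i', j) ∈ E ∧ (rd (i' / s.A) (j / s'.A)).1 = (rd (i / s.A) (j / s'.A)).1 then
      (ρ hc.choose).den else 1) = _
    rw [dif_pos hc]
    obtain ⟨h5, h6⟩ := hc.choose_spec
    have := hlab' _ h5 _ hr rfl (by rw [(hD _ _).1, (hD _ _).1]; exact h6)
    rw [this]
  -- the pair sum
  have key := pm ℕ ℕ P F G (fun q => q / s.A) (fun q => q / s'.A) (fun q => RB X s q)
    (fun q => RB X s' q) H H' T T' k k' (fun i j => (i, j) ∈ E) (by omega)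
    (fun i hi => ⟨(big _ (hHF i hi)).1, (big _ (hHF i hi)).2.1⟩)
    (fun i hi => ⟨(big _ (hHG i hi)).1, (big _ (hHG i hi)).2.1⟩)
    (fun q hq => Nat.pos_of_ne_zero (h.nd.div_ne (hFi q hq).1))
    (fun q hq => Nat.pos_of_ne_zero (h'.nd.div_ne (hGi q hq).1))
    (fun q hq q' hq' he => div_inj h.nd (hFi q hq).1 (hFi q' hq').1 he)
    (fun q hq q' hq' he => div_inj h'.nd (hGi q hq).1 (hGi q' hq').1 he)
    (fun q _ => hRB q) (fun q _ => hRB' q)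
    (fun q hq z hz => by
      obtain ⟨g1, g2⟩ := h1 p0 (by omega) γ P₀ X s t h.nd P hP hl q (hFi q hq).2 (hFi q hq).1
      refine (tail_nd h.nd hl (hFi q hq).1 g1 hz (g2 z hz)).trans ?_
      exact mul_le_mul_of_nonneg_right (big _ (hHF q hq)).2.2 (by positivity))
    (fun q hq z hz => by
      obtain ⟨g1, g2⟩ := h1 p0 (by omega) γ P₀ X s' t' h'.nd P hP hl' q (hGi q hq).2 (hGi q hq).1
      refine (tail_nd h'.nd hl' (hGi q hq).1 g1 hz (g2 z hz)).trans ?_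
      exact mul_le_mul_of_nonneg_right (big _ (hHG q hq)).2.2 (by positivity))
    (fun i hi j hj hr hc => by
      have := hT _ hr (by rw [(hD _ _).1, (hD _ _).2]; exact hc)
      rw [(hD _ _).1, (hD _ _).2] at this
      rw [hk i j hr]
      exact this)
    (fun i hi j hj hr hc => by
      have := hT' _ hr (by rw [(hD _ _).1, (hD _ _).2]; exact hc)
      rw [(hD _ _).1, (hD _ _).2] at this
      rw [hk' i j hr]
      exact this)
    (fun i hi j hj l hl hr hr' he _ _ => by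
      have hcx := hco _ hr
      have hcy := hco _ hr'
      have hd2 : D2 s s' (i, j) = D2 s s' (i, l) := by
        rw [(hD _ _).2, (hD _ _).2]; exact he
      have hρ : ρ' j = ρ' l := hlab _ hr _ hr' rfl hd2
      unfold CoP at hcx hcy
      rw [hk i j hr]
      rw [(hD _ _).1] at hcx hcy
      have hcx' : Co ((D2 s s' (i, j) : ℕ) * ρ i) (((rd (i / s.A) (j / s'.A)).1 : ℕ) * ρ' j) := hcx
      have hcy' : Co ((D2 s s' (i, l) : ℕ) * ρ i) (((rd (i / s.A) (l / s'.A)).1 : ℕ) * ρ' l) := hcy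
      rw [← hd2, ← hρ] at hcy'
      exact Co.mod hcx'.symm hcy'.symm)
    (fun j hj i hi l hl hr hr' he _ _ => by
      have hcx := hco _ hr
      have hcy := hco _ hr'
      have hd1 : D1 s s' (i, j) = D1 s s' (l, j) := by
        rw [(hD _ _).1, (hD _ _).1]; exact he
      have hρ : ρ i = ρ l := hlab' _ hr _ hr' rfl hd1
      unfold CoP at hcx hcy
      rw [hk' i j hr]
      rw [(hD _ _).2] at hcx hcy
      have hcx' : Co (((rd (i / s.A) (j / s'.A)).2 : ℕ) * ρ i) ((D1 s s' (i, j) : ℕ) * ρ' j) := hcx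
      have hcy' : Co (((rd (l / s.A) (j / s'.A)).2 : ℕ) * ρ l) ((D1 s s' (l, j) : ℕ) * ρ' j) := hcy
      rw [← hd1, ← hρ] at hcy'
      exact Co.mod hcx' hcy')
  -- step 1
  have step1 : I (qe R f g) ≤ 2 * ∑ i ∈ F, ∑ j ∈ G, ind ((i, j) ∈ E) *
      min (RB X s i / ((rd (i / s.A) (j / s'.A)).1 : ℕ)) (RB X s' j / ((rd (i / s.A) (j / s'.A)).2 : ℕ)) := by
    refine (node_offP h.nd h'.nd mR hE).trans ?_
    rw [Finset.mul_sum]
    have e0 : ∀ i ∈ F, 2 * ∑ j ∈ G, ind ((i, j) ∈ E) *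
        min (RB X s i / ((rd (i / s.A) (j / s'.A)).1 : ℕ))
          (RB X s' j / ((rd (i / s.A) (j / s'.A)).2 : ℕ)) =
        ∑ j ∈ G, 2 * (ind ((i, j) ∈ E) * min (RB X s i / ((rd (i / s.A) (j / s'.A)).1 : ℕ))
          (RB X s' j / ((rd (i / s.A) (j / s'.A)).2 : ℕ))) := fun i _ => Finset.mul_sum _ _ _
    rw [Finset.sum_congr rfl e0, ← Finset.sum_product' (s := F) (t := G)
      (f := fun i j => 2 * (ind ((i, j) ∈ E) * min (RB X s i / ((rd (i / s.A) (j / s'.A)).1 : ℕ))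
          (RB X s' j / ((rd (i / s.A) (j / s'.A)).2 : ℕ))))]
    have hmn0 : ∀ i j : ℕ, 0 ≤ min (RB X s i / ((rd (i / s.A) (j / s'.A)).1 : ℕ))
          (RB X s' j / ((rd (i / s.A) (j / s'.A)).2 : ℕ)) := fun i j =>
      le_min (div_nonneg (hRB i) (Nat.cast_nonneg _)) (div_nonneg (hRB' j) (Nat.cast_nonneg _))
    refine le_trans (Finset.sum_le_sum fun e he => ?_)
      (Finset.sum_le_sum_of_subset_of_nonneg (s := E) (t := F ×ˢ G) ?_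
        fun e _ _ => mul_nonneg (by norm_num) (mul_nonneg (ind_nn _) (hmn0 _ _)))
    · rw [ind_t (show (e.1, e.2) ∈ E from he), one_mul]
      refine le_of_eq ?_
      unfold ov
      rw [show e = (e.1, e.2) from rfl, (hD e.1 e.2).1, (hD e.1 e.2).2]
    · intro e he
      exact Finset.mem_product.2 ⟨Finset.mem_image_of_mem _ he, Finset.mem_image_of_mem _ he⟩
  -- radii against masses
  have hHn : ∀ q ∈ F, 0 ≤ (T q).card * H q ^ (-(1 / 4) : ℝ) := fun q hq => by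
    have := (big _ (hHF q hq)).1
    positivity
  have hHn' : ∀ q ∈ G, 0 ≤ (T' q).card * H' q ^ (-(1 / 4) : ℝ) := fun q hq => by
    have := (big _ (hHG q hq)).1
    positivity
  have s1 : ∑ q ∈ F, (T q).card * H q ^ (-(1 / 4) : ℝ) * RB X s q ≤
      4 * CT * Real.log P * ∑ q ∈ F, (T q).card * H q ^ (-(1 / 4) : ℝ) * MI X s t q := by
    rw [Finset.mul_sum]
    refine Finset.sum_le_sum fun q hq => ?_
    have := mul_le_mul_of_nonneg_left (h.lo P hP hl q (hFi q hq).2 (hFi q hq).1) (hHn q hq)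
    linarith
  have s2 : ∑ q ∈ G, (T' q).card * H' q ^ (-(1 / 4) : ℝ) * RB X s' q ≤
      4 * CT * Real.log P * ∑ q ∈ G, (T' q).card * H' q ^ (-(1 / 4) : ℝ) * MI X s' t' q := by
    rw [Finset.mul_sum]
    refine Finset.sum_le_sum fun q hq => ?_
    have := mul_le_mul_of_nonneg_left (h'.lo P hP hl' q (hGi q hq).2 (hGi q hq).1) (hHn' q hq)
    linarith
  set W := ∑ q ∈ F, (T q).card * H q ^ (-(1 / 4) : ℝ) * MI X s t q +
    ∑ q ∈ G, (T' q).card * H' q ^ (-(1 / 4) : ℝ) * MI X s' t' q with hW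
  have hW0 : 0 ≤ W := add_nonneg
    (Finset.sum_nonneg fun q hq => mul_nonneg (hHn q hq) (MI_nonneg h.nd q))
    (Finset.sum_nonneg fun q hq => mul_nonneg (hHn' q hq) (MI_nonneg h'.nd q))
  calc I (qe R f g) ≤ 2 * (C1 * (∑ i ∈ F, (T i).card * H i ^ (-(1 / 4) : ℝ) * RB X s i +
        ∑ j ∈ G, (T' j).card * H' j ^ (-(1 / 4) : ℝ) * RB X s' j)) :=
        step1.trans (mul_le_mul_of_nonneg_left key (by norm_num))
    _ ≤ 2 * (C1 * (4 * CT * Real.log P * W)) := by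
        refine mul_le_mul_of_nonneg_left (mul_le_mul_of_nonneg_left ?_ (by linarith)) (by norm_num)
        rw [hW, mul_add]
        exact add_le_add s1 s2
    _ = 8 * CT * C1 * Real.log P * W := by ring
    _ ≤ (8 * CT * C1 + 1) * (1 + Real.log P) * W := by
        refine mul_le_mul_of_nonneg_right ?_ hW0
        have h0 : 0 ≤ 8 * CT * C1 := by positivity
        nlinarith

/-! ### one node, same label, different items -/

/-- **hypotheses on the related pairs of items of ONE node, SAME LABEL, different items** -/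
structure LbS (X : Ctx N γ p0 P₀) (s : NS) (t : IT) (R : ℝ → X.c.Lam → X.c.Lam → Prop)
    (ρ : ℕ → ℚ) (T : ℕ → Finset ℕ) (L Ce : ℝ) : Prop where
  ex : ExP X s s t t R ρ ρ
  ne : ∀ e ∈ prs X s s t t R, e.1 ≠ e.2
  lab : ∀ e ∈ prs X s s t t R, ρ e.1 = ρ e.2
  dn : ∀ e ∈ prs X s s t t R, (3 + L) ^ Ce ≤ ((ρ e.1).den : ℝ)
  t1 : ∀ e ∈ prs X s s t t R, D2 s s e ≤ D1 s s e → D2 s s e ∈ T e.1
  t2 : ∀ e ∈ prs X s s t t R, D1 s s e < D2 s s e → D1 s s e ∈ T e.2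

/-- different items of one node with the same label: the larger cofactor is at least the denominator -/
lemma big_den {s : NS} {t : IT} (h : QX X s t) {R : ℝ → X.c.Lam → X.c.Lam → Prop} {ρ : ℕ → ℚ}
    (hE : ExP X s s t t R ρ ρ) {e : ℕ × ℕ} (he : e ∈ prs X s s t t R) (hne : e.1 ≠ e.2)
    (hl : ρ e.1 = ρ e.2) : (D2 s s e ≤ D1 s s e → (ρ e.1).den ≤ D1 s s e) ∧
      (D1 s s e < D2 s s e → (ρ e.1).den ≤ D2 s s e) := by
  obtain ⟨i1, -, i2, -⟩ := prs_alive h h he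
  have hc := hE.co h h he
  rw [← hl] at hc
  have hmod : D2 s s e ≡ D1 s s e [MOD (ρ e.1).den] := Co.mod hc (ShR18.Co.refl _)
  refine ⟨fun hle => ?_, fun hlt => ?_⟩
  · have hdv := (Nat.modEq_iff_dvd' hle).1 hmod
    rcases Nat.eq_zero_or_pos (D1 s s e - D2 s s e) with h0 | h0
    · exfalso
      have heq : D1 s s e = D2 s s e := by omega
      have w1 : 0 < e.1 / s.A := Nat.pos_of_ne_zero (h.div_ne i1)
      have a1 := Nat.div_mul_cancel (Nat.gcd_dvd_left (e.1 / s.A) (e.2 / s.A))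
      have a2 := Nat.div_mul_cancel (Nat.gcd_dvd_right (e.1 / s.A) (e.2 / s.A))
      have a3 : e.1 / s.A / (e.1 / s.A).gcd (e.2 / s.A) =
          e.2 / s.A / (e.1 / s.A).gcd (e.2 / s.A) := by
        have b1 : D1 s s e = e.1 / s.A / (e.1 / s.A).gcd (e.2 / s.A) := rfl
        have b2 : D2 s s e = e.2 / s.A / (e.1 / s.A).gcd (e.2 / s.A) := by
          unfold D2 Crest.Agent.R4.HVW560.cof
          rw [Nat.gcd_comm]
        rw [← b1, ← b2]; exact heq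
      rw [← a3, a1] at a2
      exact hne (div_inj h i1 i2 a2)
    · have := Nat.le_of_dvd h0 hdv
      omega
  · have hdv := (Nat.modEq_iff_dvd' hlt.le).1 hmod.symm
    have := Nat.le_of_dvd (by omega) hdv
    omega

lemma LbS.lbt {s : NS} {t : IT} (h : QX X s t) {R : ℝ → X.c.Lam → X.c.Lam → Prop} {ρ : ℕ → ℚ}
    {T : ℕ → Finset ℕ} {L Ce : ℝ} (H : LbS X s t R ρ T L Ce) :
    LbT X s s t t R ρ ρ (fun q => ((ρ q).den : ℝ)) (fun q => ((ρ q).den : ℝ)) T T L Ce where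
  ex := H.ex
  h1 := H.dn
  h2 := fun e he => by rw [← H.lab e he]; exact H.dn e he
  t1 := fun e he hle => ⟨H.t1 e he hle, by
    exact_mod_cast (big_den h H.ex he (H.ne e he) (H.lab e he)).1 hle, le_of_eq (by rw [H.lab e he])⟩
  t2 := fun e he hlt => ⟨H.t2 e he hlt, by
    have := (big_den h H.ex he (H.ne e he) (H.lab e he)).2 hlt
    rw [H.lab e he] at this
    exact_mod_cast this, le_of_eq (by rw [H.lab e he])⟩
  l1 := fun e he e' he' h1 _ => by rw [← H.lab e he, ← H.lab e' he', h1]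
  l2 := fun e he e' he' h1 _ => by rw [H.lab e he, H.lab e' he', h1]

lemma LbT.mono {s s' : NS} {t t' : IT} {R : ℝ → X.c.Lam → X.c.Lam → Prop} {ρ ρ' : ℕ → ℚ}
    {H H' : ℕ → ℝ} {T T' : ℕ → Finset ℕ} {L L' Ce : ℝ} (hL : 0 ≤ L') (hLL : L' ≤ L) (hC : 0 ≤ Ce)
    (h : LbT X s s' t t' R ρ ρ' H H' T T' L Ce) : LbT X s s' t t' R ρ ρ' H H' T T' L' Ce where
  ex := h.ex
  h1 := fun e he => (Real.rpow_le_rpow (by linarith) (by linarith) hC).trans (h.h1 e he)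
  h2 := fun e he => (Real.rpow_le_rpow (by linarith) (by linarith) hC).trans (h.h2 e he)
  t1 := h.t1
  t2 := h.t2
  l1 := h.l1
  l2 := h.l2

lemma LbS.mono {s : NS} {t : IT} {R : ℝ → X.c.Lam → X.c.Lam → Prop} {ρ : ℕ → ℚ}
    {T : ℕ → Finset ℕ} {L L' Ce : ℝ} (hL : 0 ≤ L') (hLL : L' ≤ L) (hC : 0 ≤ Ce)
    (h : LbS X s t R ρ T L Ce) : LbS X s t R ρ T L' Ce where
  ex := h.ex
  ne := h.ne
  lab := h.lab
  dn := fun e he => (Real.rpow_le_rpow (by linarith) (by linarith) hC).trans (h.dn e he)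
  t1 := h.t1
  t2 := h.t2

/-! ### static kernels, node forms -/

/-- **A PAIR OF NODES** -/
theorem pair_poor : ∃ Ce : ℝ, 1 ≤ Ce ∧ ∃ C : ℝ, 1 ≤ C ∧
    ∀ (N : Skel189.Num), ∃ p₁ : ℕ, ∀ p0 ≥ p₁, ∀ (γ : ℝ) (P₀ : ℕ)
    (X : Ctx N γ p0 P₀) (s s' : NS) (t t' : IT) (P : ℕ) (ρ ρ' : ℕ → ℚ) (H H' : ℕ → ℝ)
    (T T' : ℕ → Finset ℕ) (K : X.c.Lam → X.c.Lam → ℝ) (W : ℝ) (c c' : X.c.Lam → ℝ),
    NL X s t → NL X s' t' → p0 ≤ P → (∀ r : ℕ, r.Prime → r < s.n → r ≤ P) →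
    (∀ r : ℕ, r.Prime → r < s'.n → r ≤ P) → 0 ≤ W → (∀ j i, K j i ≤ W) →
    LbT X s s' t t' (rl K) ρ ρ' H H' T T' (Real.log P) Ce →
    (∀ j, 0 ≤ c j) → (∀ j, 0 ≤ c' j) →
    (∀ j : X.c.Lam, ∀ e ∈ prs X s s' t t' (rl K), j.1.1 = e.1 →
      W * (C * (1 + Real.log P) * ((T e.1).card * H e.1 ^ (-(1 / 4) : ℝ))) ≤ c j) →
    (∀ j : X.c.Lam, ∀ e ∈ prs X s s' t t' (rl K), j.1.1 = e.2 →
      W * (C * (1 + Real.log P) * ((T' e.2).card * H' e.2 ^ (-(1 / 4) : ℝ))) ≤ c' j) →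
    bil K (vx X s t) (vx X s' t') ≤ lm X c s t + lm X c' s' t' := by
  classical
  obtain ⟨Ce, hCe, C, hC, h0⟩ := node_poorP
  refine ⟨Ce, hCe, C, hC, fun N => ?_⟩
  obtain ⟨p1, h1⟩ := h0 N
  refine ⟨p1, fun p0 hp0 γ P₀ X s s' t t' P ρ ρ' H H' T T' K W c c' h h' hP hl hl' hW hK hL c0 c0'
    hc hc' => ?_⟩
  have pV := fun j => pb_vx h.rg j
  have pU := fun j => pb_vx h'.rg j
  have k1 := bil_qe hK pV pU
  have k2 := h1 p0 hp0 γ P₀ X s s' t t' P ρ ρ' (rl K) H H' T T' h.mn h'.mn hP hl hl' (mp_rl K) hL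
  refine k1.trans ((mul_le_mul_of_nonneg_left k2 hW).trans ?_)
  have a1 : ∑ q ∈ (prs X s s' t t' (rl K)).image Prod.fst,
      (W * (C * (1 + Real.log P) * ((T q).card * H q ^ (-(1 / 4) : ℝ)))) * MI X s t q ≤ lm X c s t := by
    refine MI_lm h c0 fun j hj => ?_
    obtain ⟨e, he, h3⟩ := Finset.mem_image.1 hj
    rw [← h3]
    exact hc j e he h3.symm
  have a2 : ∑ q ∈ (prs X s s' t t' (rl K)).image Prod.snd,
      (W * (C * (1 + Real.log P) * ((T' q).card * H' q ^ (-(1 / 4) : ℝ)))) * MI X s' t' q ≤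
        lm X c' s' t' := by
    refine MI_lm h' c0' fun j hj => ?_
    obtain ⟨e, he, h3⟩ := Finset.mem_image.1 hj
    rw [← h3]
    exact hc' j e he h3.symm
  refine le_trans (le_of_eq ?_) (add_le_add a1 a2)
  rw [mul_add, mul_add, Finset.mul_sum, Finset.mul_sum, Finset.mul_sum, Finset.mul_sum]
  congr 1
  · exact Finset.sum_congr rfl fun q _ => by ring
  · exact Finset.sum_congr rfl fun q _ => by ring

/-- **REST COLUMNS** : `RN K` at a node which is not a leaf, `q` any column above its top -/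
theorem vn_poor (N : Skel189.Num) : ∃ Ce : ℝ, 1 ≤ Ce ∧ ∃ C : ℝ, 1 ≤ C ∧
    ∃ p₁ : ℕ, ∀ p0 ≥ p₁, ∀ (γ : ℝ) (P₀ : ℕ), 2 ≤ P₀ → ∀ (X : Ctx N γ p0 P₀) (u : NS) (τ : IT)
    (q : ℕ) (ρ : ℕ → ℚ) (T : ℕ → Finset ℕ) (K : X.c.Lam → X.c.Lam → ℝ) (W : ℝ) (ε : X.c.Lam → ℝ),
    NL X u τ → ¬ isL τ → tp τ < q → 0 ≤ W → (∀ j i, K j i ≤ W) →
    LbS X u τ (rl K) ρ T (Real.log q) Ce → (∀ j, 0 ≤ ε j) →
    (∀ j : X.c.Lam, ∀ e ∈ prs X u u τ τ (rl K), j.1.1 = e.1 ∨ j.1.1 = e.2 →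
      W * (C * (1 + Real.log q) * ((T j.1.1).card * ((ρ j.1.1).den : ℝ) ^ (-(1 / 4) : ℝ))) ≤ ε j) →
    2 * bil K (vx X u τ) (vx X u τ) ≤ lm X (fun j => 4 * ε j) u τ := by
  obtain ⟨Ce, hCe, C, hC, h0⟩ := pair_poor
  obtain ⟨p1, h1⟩ := h0 N
  refine ⟨Ce, hCe, C, hC, p1 + 2, ?_⟩
  intro p0 hp0 γ P₀ hP X u τ q ρ T K W ε h hl hq hW hK hL hε hr
  obtain ⟨k1, k2, k3, k4⟩ := nodeOk_hi h.nf.nd.self.node hl
  have k2' : p0 < tp τ := k2
  have tp2 : (2:ℝ) ≤ tp τ := by exact_mod_cast (by omega : 2 ≤ tp τ)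
  have l0 : 0 ≤ Real.log (tp τ) := Real.log_natCast_nonneg _
  have lq : Real.log (tp τ) ≤ Real.log q :=
    Real.log_le_log (by linarith) (by exact_mod_cast hq.le)
  have rr : ∀ b : ℝ, 0 ≤ b → W * (C * (1 + Real.log (tp τ)) * b) ≤
      W * (C * (1 + Real.log q) * b) := fun b hb => by
    refine mul_le_mul_of_nonneg_left (mul_le_mul_of_nonneg_right ?_ hb) hW
    exact mul_le_mul_of_nonneg_left (by linarith) (by linarith)
  have key := h1 p0 (by omega) γ P₀ X u u τ τ (tp τ) ρ ρ _ _ T T K W ε ε h h k2'.le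
    k4 k4 hW hK ((hL.mono l0 lq (by linarith)).lbt h.mn.nd) hε hε
    (fun j e he hj => by
      have := hr j e he (Or.inl hj)
      rw [hj] at this
      exact (rr _ (by positivity)).trans this)
    (fun j e he hj => by
      have := hr j e he (Or.inr hj)
      rw [hj] at this
      exact (rr _ (by positivity)).trans this)
  rw [lm_smul]
  linarith

/-- **CHILDREN OF A TIE** : `FB K` -/
theorem fb_poor (N : Skel189.Num) : ∃ Ce : ℝ, 1 ≤ Ce ∧ ∃ C : ℝ, 1 ≤ C ∧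
    ∃ p₁ : ℕ, ∀ p0 ≥ p₁, ∀ (γ : ℝ) (P₀ : ℕ), 2 ≤ P₀ → ∀ (X : Ctx N γ p0 P₀) (u : NS) (p : ℕ)
    (Sp : Finset ℕ) (t₁ t₀ : IT) (ρ₁ ρ₀ : ℕ → ℚ) (T₁ T₀ : ℕ → Finset ℕ)
    (K : X.c.Lam → X.c.Lam → ℝ) (W : ℝ) (ε : X.c.Lam → ℝ),
    NL X u (.br p Sp t₁ t₀) → NL X (nP p u) t₁ → NL X (nN p u) t₀ → 0 ≤ W → (∀ j i, K j i ≤ W) →
    LbS X (nP p u) t₁ (rl K) ρ₁ T₁ (Real.log p) Ce →
    LbS X (nN p u) t₀ (rl K) ρ₀ T₀ (Real.log p) Ce → (∀ j, 0 ≤ ε j) →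
    (∀ j : X.c.Lam, ∀ e ∈ prs X (nP p u) (nP p u) t₁ t₁ (rl K), j.1.1 = e.1 ∨ j.1.1 = e.2 →
      W * (C * (1 + Real.log p) * ((T₁ j.1.1).card * ((ρ₁ j.1.1).den : ℝ) ^ (-(1 / 4) : ℝ))) ≤ ε j) →
    (∀ j : X.c.Lam, ∀ e ∈ prs X (nN p u) (nN p u) t₀ t₀ (rl K), j.1.1 = e.1 ∨ j.1.1 = e.2 →
      W * (C * (1 + Real.log p) * ((T₀ j.1.1).card * ((ρ₀ j.1.1).den : ℝ) ^ (-(1 / 4) : ℝ))) ≤ ε j) →
    FB (fun _ => K) p (vx X (nP p u) t₁) (vx X (nN p u) t₀) ≤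
      lm X (fun j => 4 * ε j) u (.br p Sp t₁ t₀) := by
  obtain ⟨Ce, hCe, C, hC, h0⟩ := pair_poor
  obtain ⟨p1, h1⟩ := h0 N
  refine ⟨Ce, hCe, C, hC, p1 + 2, ?_⟩
  intro p0 hp0 γ P₀ hP X u p Sp t₁ t₀ ρ₁ ρ₀ T₁ T₀ K W ε h hu1 hu0 hW hK hL1 hL0 hε a1 a0
  have hl : ¬ isL (IT.br p Sp t₁ t₀) := fun h => h
  obtain ⟨-, k2, -, -⟩ := nodeOk_hi h.nf.nd.self.node hl
  have k2' : p0 < p := k2
  have l0 : 0 ≤ Real.log (p : ℝ) := Real.log_natCast_nonneg p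
  have hlv : ∀ r : ℕ, r.Prime → r < p → r ≤ p := fun r _ hr => hr.le
  have key1 := h1 p0 (by omega) γ P₀ X _ _ t₁ t₁ p ρ₁ ρ₁ _ _ T₁ T₁ K W ε ε hu1 hu1 k2'.le hlv hlv
    hW hK (hL1.lbt hu1.mn.nd) hε hε
    (fun j e he hj => by have := a1 j e he (Or.inl hj); rwa [hj] at this)
    (fun j e he hj => by have := a1 j e he (Or.inr hj); rwa [hj] at this)
  have key0 := h1 p0 (by omega) γ P₀ X _ _ t₀ t₀ p ρ₀ ρ₀ _ _ T₀ T₀ K W ε ε hu0 hu0 k2'.le hlv hlv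
    hW hK (hL0.lbt hu0.mn.nd) hε hε
    (fun j e he hj => by have := a0 j e he (Or.inl hj); rwa [hj] at this)
    (fun j e he hj => by have := a0 j e he (Or.inr hj); rwa [hj] at this)
  have hp2 : (2:ℝ) ≤ p := by exact_mod_cast (RtC28.tF h.nf.nd).pr.two_le
  have hp0' : (0:ℝ) < p := by linarith
  have w1 : (0:ℝ) ≤ 1 - 1 / (p:ℝ) := by
    rw [sub_nonneg, div_le_one hp0']; linarith
  have b := lm_br2 h.rg (c := fun j => 4 * ε j) (c₁ := fun j => 4 * ε j) (c₀ := fun j => 4 * ε j)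
    (fun _ _ => le_rfl) (fun _ _ => le_rfl) hu1.rg hu0.rg
  refine le_trans ?_ b
  rw [lm_smul, lm_smul]
  unfold FB
  refine add_le_add (mul_le_mul_of_nonneg_left (by linarith) w1)
    (mul_le_mul_of_nonneg_left (by linarith) (by positivity))

/-- **P CHILD AGAINST N CHILD** : P items pay `4/p` times the rate, N items pay twice the rate -/
theorem fp_poor (N : Skel189.Num) : ∃ Ce : ℝ, 1 ≤ Ce ∧ ∃ C : ℝ, 1 ≤ C ∧
    ∃ p₁ : ℕ, ∀ p0 ≥ p₁, ∀ (γ : ℝ) (P₀ : ℕ), 2 ≤ P₀ → ∀ (X : Ctx N γ p0 P₀) (u : NS) (p : ℕ)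
    (Sp : Finset ℕ) (t₁ t₀ : IT) (ρ₁ ρ₀ : ℕ → ℚ) (H₁ H₀ : ℕ → ℝ) (T₁ T₀ : ℕ → Finset ℕ)
    (K : X.c.Lam → X.c.Lam → ℝ) (W : ℝ) (ε : X.c.Lam → ℝ),
    NL X u (.br p Sp t₁ t₀) → NL X (nP p u) t₁ → NL X (nN p u) t₀ → 0 ≤ W → (∀ j i, K j i ≤ W) →
    LbT X (nP p u) (nN p u) t₁ t₀ (rl K) ρ₁ ρ₀ H₁ H₀ T₁ T₀ (Real.log p) Ce → (∀ j, 0 ≤ ε j) →
    (∀ j : X.c.Lam, ∀ e ∈ prs X (nP p u) (nN p u) t₁ t₀ (rl K), j.1.1 = e.1 →
      4 / (p : ℝ) * (W * (C * (1 + Real.log p) * ((T₁ e.1).card * H₁ e.1 ^ (-(1 / 4) : ℝ)))) ≤ ε j) →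
    (∀ j : X.c.Lam, ∀ e ∈ prs X (nP p u) (nN p u) t₁ t₀ (rl K), j.1.1 = e.2 →
      2 * (W * (C * (1 + Real.log p) * ((T₀ e.2).card * H₀ e.2 ^ (-(1 / 4) : ℝ)))) ≤ ε j) →
    1 / (p : ℝ) * (2 * bil K (vx X (nP p u) t₁) (vx X (nN p u) t₀)) ≤
      lm X ε u (.br p Sp t₁ t₀) := by
  obtain ⟨Ce, hCe, C, hC, h0⟩ := pair_poor
  obtain ⟨p1, h1⟩ := h0 N
  refine ⟨Ce, hCe, C, hC, p1 + 2, ?_⟩
  intro p0 hp0 γ P₀ hP X u p Sp t₁ t₀ ρ₁ ρ₀ H₁ H₀ T₁ T₀ K W ε h hu1 hu0 hW hK hL hε a1 a2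
  have hl : ¬ isL (IT.br p Sp t₁ t₀) := fun h => h
  obtain ⟨-, k2, -, -⟩ := nodeOk_hi h.nf.nd.self.node hl
  have k2' : p0 < p := k2
  have l0 : 0 ≤ Real.log (p : ℝ) := Real.log_natCast_nonneg p
  have hlv : ∀ r : ℕ, r.Prime → r < p → r ≤ p := fun r _ hr => hr.le
  have hp2 : (2:ℝ) ≤ p := by exact_mod_cast (RtC28.tF h.nf.nd).pr.two_le
  have hp0' : (0:ℝ) < p := by linarith
  have w1 : (1:ℝ) / 2 ≤ 1 - 1 / (p:ℝ) := by
    rw [le_sub_comm, div_le_iff₀ hp0']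
    linarith
  have key := h1 p0 (by omega) γ P₀ X _ _ t₁ t₀ p ρ₁ ρ₀ H₁ H₀ T₁ T₀ K W (fun j => (p:ℝ) / 4 * ε j)
    (fun j => 1 / 2 * ε j) hu1 hu0 k2'.le hlv hlv hW hK hL
    (fun j => mul_nonneg (by positivity) (hε j))
    (fun j => mul_nonneg (by norm_num) (hε j)) (fun j e he hj => by
      have := a1 j e he hj
      have h5 := mul_le_mul_of_nonneg_left this (by positivity : (0:ℝ) ≤ p / 4)
      refine le_trans (le_of_eq ?_) h5
      field_simp) (fun j e he hj => by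
      have := a2 j e he hj
      linarith)
  have b := lm_br2 h.rg (c := ε) (c₁ := ε) (c₀ := ε) (fun _ _ => le_rfl) (fun _ _ => le_rfl)
    hu1.rg hu0.rg
  refine le_trans ?_ b
  have L1 : 0 ≤ lm X ε (nP p u) t₁ :=
    Finset.sum_nonneg fun j _ => mul_nonneg (hε j) (I_vx_nonneg hu1.rg j)
  have e1 : lm X (fun j => (p:ℝ) / 4 * ε j) (nP p u) t₁ = (p:ℝ) / 4 * lm X ε (nP p u) t₁ :=
    lm_smul _ _ _ _
  have e0 : lm X (fun j => 1 / 2 * ε j) (nN p u) t₀ = 1 / 2 * lm X ε (nN p u) t₀ :=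
    lm_smul _ _ _ _
  rw [e1, e0] at key
  have k5 := mul_le_mul_of_nonneg_left key (by positivity : (0:ℝ) ≤ 1 / (p:ℝ) * 2)
  have e3 : 1 / (p:ℝ) * 2 * ((p:ℝ) / 4 * lm X ε (nP p u) t₁ + 1 / 2 * lm X ε (nN p u) t₀) =
      1 / 2 * lm X ε (nP p u) t₁ + 1 / (p:ℝ) * lm X ε (nN p u) t₀ := by
    field_simp
    ring
  rw [e3] at k5
  have k6 := mul_le_mul_of_nonneg_right w1 L1
  calc 1 / (p : ℝ) * (2 * bil K (vx X (nP p u) t₁) (vx X (nN p u) t₀))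
      = 1 / (p : ℝ) * 2 * bil K (vx X (nP p u) t₁) (vx X (nN p u) t₀) := by ring
    _ ≤ _ := k5
    _ ≤ _ := by linarith

end Crest.Agent.R4P.PoL18
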