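import Crest.Agent.R4P.PrE_45

/-!
R4 (S0004) with powers, T3, helper45: **quadratic rate lemma, spent credits and column kernels**
(version 2 of `PrE_45`).

* `QP2 V` : pairs of items of one member; the creation density `tc p b i j` of a pair at the true tie is
  free: `Ep (v_i v_j) ≤ (1-w) vP_i vP_j + w vN_i vN_j + w tc_ij`.
* `QC2 V κ` : charges of pairs with **spent credit** `σ p b i j x` (all the charges above the column) and
  a column dependent kernel `κ p i j`: `σ ≤ κ p i j` where both have content,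
  `σ + e ≤ σ(rest)`, `r + σ ≤ κ p i j`, `r + σ + sP ≤ σ(P child)`, `r + σ + sN ≤ σ(N child)`.
* **`QC2.sv`** : a superharmonic value `Vc` of the creation `Q.crn κ` (joins and ties, weights
  `κ p i j` of the column) gives the value `Vc - Σ ∫ σ v_i v_j` of the charges.
* **`QC2.Kw_le`** : `Kw (M chg) ≤ M Vc`.
-/

set_option autoImplicit false
set_option linter.unusedSectionVars false
set_option linter.unusedVariables false
open MeasureTheory Filter Set

namespace Crest.Agent.R4P.PrE245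

open Crest.Agent.R4.Tour104 Crest.Agent.R4.Clos758
open Crest.Agent.R4P.Grp36 Crest.Agent.R4P.GWa343 Crest.Agent.R4P.GMer27
open Crest.Agent.R4P.MSm25 Crest.Agent.R4P.GSK55
open Crest.Agent.R4P.GCol27 Crest.Agent.R4P.RSys343 Crest.Agent.R4P.TrR343
open Crest.Agent.R4P.RXs343 Crest.Agent.R4P.RXm55 Crest.Agent.R4P.RXm55.RXm
open Crest.Agent.R4P.Pay45 Crest.Agent.R4P.PayR45 Crest.Agent.R4P.PVe45 Crest.Agent.R4P.PrE45
open Crest.Agent.R4P.JnF5 (SV)

/-! ### the walk sum of the charges -/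

section walk
variable {β : Type} {B : BM β} {φ V : ℕ → β → ℝ} {siz : β → ℕ}

/-- a walk sum with base terms `0` -/
lemma Kb_zero (f : ℕ → Gs β → ℝ) : ∀ (n p : ℕ) (s : Gs β),
    JnF5.Kb B f (fun _ _ => 0) n p s = Kw B f n p s := by
  intro n
  induction n with
  | zero => intro p s; rfl
  | succ n ih =>
    intro p s
    by_cases hp : p = 0
    · subst hp
      rw [JnF5.Kb_z, Kw_z]
    · rw [JnF5.Kb_succ _ _ n hp, Kw_succ _ _ n hp, ih, ih]

/-- **the walk sum of local terms with a superharmonic value** -/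
theorem Kw_sv (H : SV B φ V siz) {ok : ℕ → Gs β → Prop} {f : ℕ → Gs β → ℝ}
    (hC : ∀ {p s}, ok p s → p ≠ 0 → ok p (B.C p s))
    (hN : ∀ {p s}, ok p s → p ≠ 0 → ok (p - 1) (B.N p s))
    (hT : ∀ {p s}, ok p s → TC s.c s.W) (hM : ∀ {p s}, ok p s → ∀ j, B.ok p (s.L j))
    (hf : ∀ {p s}, ok p s → p ≠ 0 → f p s ≤ GMer27.M s.c fun j => φ p (s.L j))
    (hV : ∀ {p b}, B.ok p b → (p = 0 ∨ siz b = 0) → 0 ≤ V p b)
    (n p : ℕ) (s : Gs β) (hs : ok p s) (hn : ∀ j, siz (s.L j) + p ≤ n) :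
    Kw B f n p s ≤ GMer27.M s.c fun j => V p (s.L j) := by
  have h := JnF5.Kb_le H (ok := ok) (f := f) (g := fun _ _ => 0) (er := fun _ _ => 0) hC hN hT hM
    (fun hs hp => by
      have := hf hs hp
      linarith)
    (fun {p s} hs h => by
      refine GMer27.M_nonneg (hT hs).c0 fun j => hV (hM hs j) ?_
      rcases h with h | h
      · exact Or.inl h
      · exact Or.inr (h j)) n p s hs fun j => Or.inr (hn j)
  rw [Kb_zero] at h
  have e : ∀ (n p : ℕ) (s : Gs β), Kw B (fun _ _ => (0:ℝ)) n p s = 0 := by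
    intro n
    induction n with
    | zero => intro p s; rfl
    | succ n ih =>
      intro p s
      by_cases hp : p = 0
      · subst hp; rw [Kw_z]
      · rw [Kw_succ _ _ n hp, ih, ih]; norm_num
  rw [e] at h
  linarith

end walk

/-! ### pairs -/

section pairs
variable {β Λ : Type} [Fintype Λ] {B : BM β}

/-- **pairs of items of one member**, general creation density -/
structure QP2 (V : PV B Λ) where
  vL : ℕ → β → Λ → ℝ → ℝ
  tc : ℕ → β → Λ → Λ → ℝ → ℝ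
  pvL : ∀ {p b}, B.ok p b → p ≠ 0 → ∀ j, PB (vL p b j)
  ptc : ∀ {p b}, B.ok p b → p ≠ 0 → ∀ i j, PB (tc p b i j)
  split : ∀ {p b}, B.ok p b → p ≠ 0 → ∀ j x,
    V.v b j x ≤ vL p b j x + V.vB p b j x + V.v (B.rN p b) j x
  row : ∀ {p b}, B.ok p b → 2 ≤ p → ∀ i j y, Ep p (fun x => V.vB p b i x * V.vB p b j x) y ≤
    (1 - 1 / (p : ℝ)) * (V.v (B.cP p b) i y * V.v (B.cP p b) j y) +
      1 / (p : ℝ) * (V.v (B.cN p b) i y * V.v (B.cN p b) j y) +
      1 / (p : ℝ) * tc p b i j y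
  no1 : ∀ {b}, B.ok 1 b → ∀ j x, V.vB 1 b j x = 0
  no1N : ∀ {b}, B.ok 1 b → ∀ j y, V.v (B.cN 1 b) j y = 0

variable {V : PV B Λ} (Q : QP2 V)

/-- cross products of the parts, at a point -/
noncomputable def QP2.cx (p : ℕ) (b : β) (i j : Λ) (x : ℝ) : ℝ :=
  crs (Q.vL p b i x) (V.vB p b i x) (V.v (B.rN p b) i x) (Q.vL p b j x) (V.vB p b j x)
    (V.v (B.rN p b) j x)

/-- **local creation of pairs**, weights `κ p i j` -/
noncomputable def QP2.crn (κ : ℕ → Λ → Λ → ℝ) (p : ℕ) (b : β) : ℝ :=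
  ∑ i, ∑ j, κ p i j * (I (Q.cx p b i j) + 1 / (p : ℝ) * I (Q.tc p b i j))

variable (κ : ℕ → Λ → Λ → ℝ)

/-- **charges of pairs with spent credit** : `σ` spent above the column, rates `r` (contents of the ties
and pulls), `e` (contents of the rest), `sP`, `sN` (contents of the children, at the point below) -/
structure QC2 (V : PV B Λ) (κ : ℕ → Λ → Λ → ℝ) where
  σ : ℕ → β → Λ → Λ → ℝ → ℝ
  r : ℕ → β → Λ → Λ → ℝ → ℝ
  e : ℕ → β → Λ → Λ → ℝ → ℝ
  sP : ℕ → β → Λ → Λ → ℝ → ℝ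
  sN : ℕ → β → Λ → Λ → ℝ → ℝ
  pσ : ∀ {p b}, B.ok p b → ∀ i j, PB (σ p b i j)
  pr : ∀ {p b}, B.ok p b → p ≠ 0 → ∀ i j, PB (r p b i j)
  pe : ∀ {p b}, B.ok p b → p ≠ 0 → ∀ i j, PB (e p b i j)
  psP : ∀ {p b}, B.ok p b → p ≠ 0 → ∀ i j, PB (sP p b i j)
  psN : ∀ {p b}, B.ok p b → p ≠ 0 → ∀ i j, PB (sN p b i j)
  σκ : ∀ {p b}, B.ok p b → ∀ i j x, V.v b i x ≠ 0 → V.v b j x ≠ 0 → σ p b i j x ≤ κ p i j
  rest : ∀ {p b}, B.ok p b → p ≠ 0 → ∀ i j x, V.v (B.rN p b) i x ≠ 0 → V.v (B.rN p b) j x ≠ 0 →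
    e p b i j x + σ p b i j x ≤ σ (p - 1) (B.rN p b) i j x
  tie0 : ∀ {p b}, B.ok p b → p ≠ 0 → ∀ i j x, V.vB p b i x ≠ 0 → V.vB p b j x ≠ 0 →
    r p b i j x + σ p b i j x ≤ κ p i j
  tieP : ∀ {p b}, B.ok p b → p ≠ 0 → ∀ i j x, V.vB p b i x ≠ 0 → V.vB p b j x ≠ 0 →
    V.v (B.cP p b) i (p * x) ≠ 0 → V.v (B.cP p b) j (p * x) ≠ 0 →
    r p b i j x + σ p b i j x + sP p b i j (p * x) ≤ σ p (B.cP p b) i j (p * x)
  tieN : ∀ {p b}, B.ok p b → p ≠ 0 → ∀ i j x, V.vB p b i x ≠ 0 → V.vB p b j x ≠ 0 →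
    V.v (B.cN p b) i (p * x) ≠ 0 → V.v (B.cN p b) j (p * x) ≠ 0 →
    r p b i j x + σ p b i j x + sN p b i j (p * x) ≤ σ p (B.cN p b) i j (p * x)
  kP : ∀ {p b}, B.ok p b → 2 ≤ p → ∀ i j y, V.v (B.cP p b) i y ≠ 0 → V.v (B.cP p b) j y ≠ 0 →
    sP p b i j y ≤ σ p (B.cP p b) i j y
  kN : ∀ {p b}, B.ok p b → 2 ≤ p → ∀ i j y, V.v (B.cN p b) i y ≠ 0 → V.v (B.cN p b) j y ≠ 0 →
    sN p b i j y ≤ σ p (B.cN p b) i j y

variable {κ} (Z : QC2 V κ)

/-- charges of a pair at the contents below the ties -/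
noncomputable def QC2.low (p : ℕ) (b : β) (i j : Λ) : ℝ :=
  (1 - 1 / (p : ℝ)) * I (fun y => Z.sP p b i j y * (V.v (B.cP p b) i y * V.v (B.cP p b) j y)) +
    1 / (p : ℝ) * I (fun y => Z.sN p b i j y * (V.v (B.cN p b) i y * V.v (B.cN p b) j y))

/-- **local charges** -/
noncomputable def QC2.chg (p : ℕ) (b : β) : ℝ :=
  ∑ i, ∑ j, (I (fun x => Z.e p b i j x * (V.v (B.rN p b) i x * V.v (B.rN p b) j x)) +
    I (fun x => Z.r p b i j x * (V.vB p b i x * V.vB p b j x)) + Z.low p b i j)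

/-- spent credit of the pairs -/
noncomputable def QC2.sp (p : ℕ) (b : β) (i j : Λ) (x : ℝ) : ℝ :=
  Z.σ p b i j x * (V.v b i x * V.v b j x)

/-- the value of the charges -/
noncomputable def QC2.W (Vc : ℕ → β → ℝ) (p : ℕ) (b : β) : ℝ :=
  Vc p b - ∑ i, ∑ j, I (Z.sp p b i j)

lemma QC2.PB_sp {p : ℕ} {b : β} (hb : B.ok p b) (i j : Λ) : PB (Z.sp p b i j) :=
  (Z.pσ hb i j).mul ((V.pv hb i).mul (V.pv hb j))

/-- the part of the rest at a point -/
lemma QC2.restP {p : ℕ} {b : β} (hb : B.ok p b) (hp : p ≠ 0) (i j : Λ) (x : ℝ) :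
    Z.e p b i j x * (V.v (B.rN p b) i x * V.v (B.rN p b) j x) +
      Z.σ p b i j x * (V.v (B.rN p b) i x * V.v (B.rN p b) j x) ≤
      Z.sp (p - 1) (B.rN p b) i j x := by
  unfold QC2.sp
  by_cases h1 : V.v (B.rN p b) i x = 0
  · rw [h1]; simp
  by_cases h2 : V.v (B.rN p b) j x = 0
  · rw [h2]; simp
  have a1 := Z.rest hb hp i j x h1 h2
  have a2 := mul_nonneg ((V.pv (V.okR hb hp) i).nonneg x) ((V.pv (V.okR hb hp) j).nonneg x)
  rw [← add_mul]
  exact mul_le_mul_of_nonneg_right (by linarith) a2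

/-- the part of the ties and pulls, at the point below -/
lemma QC2.tieE (Q : QP2 V) {p : ℕ} {b : β} (hb : B.ok p b) (hp : 2 ≤ p)
    (hκ : ∀ p i j, 0 ≤ κ p i j) (i j : Λ) (y : ℝ) :
    Ep p (fun x => (Z.r p b i j x + Z.σ p b i j x) * (V.vB p b i x * V.vB p b j x)) y +
      ((1 - 1 / (p : ℝ)) * (Z.sP p b i j y * (V.v (B.cP p b) i y * V.v (B.cP p b) j y)) +
      1 / (p : ℝ) * (Z.sN p b i j y * (V.v (B.cN p b) i y * V.v (B.cN p b) j y))) ≤
    (1 - 1 / (p : ℝ)) * Z.sp p (B.cP p b) i j y + 1 / (p : ℝ) * Z.sp p (B.cN p b) i j y +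
      κ p i j * (1 / (p : ℝ) * Q.tc p b i j y) := by
  have hp0 : p ≠ 0 := by omega
  have hpp : 0 < p := by omega
  have hp' : (0 : ℝ) < p := by exact_mod_cast hpp
  obtain ⟨w0, w1⟩ := w_facts hp0
  set vPi := V.v (B.cP p b) i y with e1
  set vPj := V.v (B.cP p b) j y with e2
  set vNi := V.v (B.cN p b) i y with e3
  set vNj := V.v (B.cN p b) j y with e4
  set cP := Z.σ p (B.cP p b) i j y with e5
  set cN := Z.σ p (B.cN p b) i j y with e6
  set zP := Z.sP p b i j y with e5'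
  set zN := Z.sN p b i j y with e6'
  have hPi : 0 ≤ vPi := (V.pv (V.okP hb hp0) i).nonneg y
  have hPj : 0 ≤ vPj := (V.pv (V.okP hb hp0) j).nonneg y
  have hNi : 0 ≤ vNi := (V.pv (V.okN hb hp0) i).nonneg y
  have hNj : 0 ≤ vNj := (V.pv (V.okN hb hp0) j).nonneg y
  set mP : ℝ := if vPi ≠ 0 ∧ vPj ≠ 0 then cP - zP else κ p i j with emP
  set mN : ℝ := if vNi ≠ 0 ∧ vNj ≠ 0 then cN - zN else κ p i j with emN
  set mm : ℝ := min (κ p i j) (min mP mN) with emm
  have k1 : 0 ≤ mP := by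
    rw [emP]
    split_ifs with h
    · have := Z.kP hb hp i j y h.1 h.2
      linarith
    · exact hκ p i j
  have k2 : 0 ≤ mN := by
    rw [emN]
    split_ifs with h
    · have := Z.kN hb hp i j y h.1 h.2
      linarith
    · exact hκ p i j
  have k3 : 0 ≤ mm := le_min (hκ p i j) (le_min k1 k2)
  have mκ : mm ≤ κ p i j := min_le_left _ _
  have mP' : mm ≤ mP := (min_le_right _ _).trans (min_le_left _ _)
  have mN' : mm ≤ mN := (min_le_right _ _).trans (min_le_right _ _)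
  -- the points of the fibre
  have s1 : Ep p (fun x => (Z.r p b i j x + Z.σ p b i j x) *
      (V.vB p b i x * V.vB p b j x)) y ≤
      mm * Ep p (fun x => V.vB p b i x * V.vB p b j x) y := by
    have e7 : mm * Ep p (fun x => V.vB p b i x * V.vB p b j x) y =
        Ep p (fun x => mm * (V.vB p b i x * V.vB p b j x)) y := by
      unfold Ep
      rw [← Finset.mul_sum, mul_div_assoc]
    rw [e7]
    unfold Ep
    refine div_le_div_of_nonneg_right (Finset.sum_le_sum fun l _ => ?_) hp'.le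
    set x : ℝ := (y + (l : ℝ)) / p with hx
    have hpx : (p : ℝ) * x = y + (l : ℝ) := by rw [hx]; field_simp
    show (Z.r p b i j x + Z.σ p b i j x) * (V.vB p b i x * V.vB p b j x) ≤
      mm * (V.vB p b i x * V.vB p b j x)
    have n1 := (V.pvB hb hp0 i).nonneg x
    have n2 := (V.pvB hb hp0 j).nonneg x
    by_cases z1 : V.vB p b i x = 0
    · rw [z1]; simp
    by_cases z2 : V.vB p b j x = 0
    · rw [z2]; simp
    refine mul_le_mul_of_nonneg_right ?_ (mul_nonneg n1 n2)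
    have q1 : V.v (B.cP p b) i (p * x) = vPi := by
      rw [hpx, e1, (V.pv (V.okP hb hp0) i).per_nat]
    have q2 : V.v (B.cP p b) j (p * x) = vPj := by
      rw [hpx, e2, (V.pv (V.okP hb hp0) j).per_nat]
    have q3 : V.v (B.cN p b) i (p * x) = vNi := by
      rw [hpx, e3, (V.pv (V.okN hb hp0) i).per_nat]
    have q4 : V.v (B.cN p b) j (p * x) = vNj := by
      rw [hpx, e4, (V.pv (V.okN hb hp0) j).per_nat]
    have q5 : Z.σ p (B.cP p b) i j (p * x) = cP := by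
      rw [hpx, e5, (Z.pσ (V.okP hb hp0) i j).per_nat]
    have q6 : Z.σ p (B.cN p b) i j (p * x) = cN := by
      rw [hpx, e6, (Z.pσ (V.okN hb hp0) i j).per_nat]
    have q7 : Z.sP p b i j (p * x) = zP := by
      rw [hpx, e5', (Z.psP hb hp0 i j).per_nat]
    have q8 : Z.sN p b i j (p * x) = zN := by
      rw [hpx, e6', (Z.psN hb hp0 i j).per_nat]
    have t0 := Z.tie0 hb hp0 i j x z1 z2
    have tP := Z.tieP hb hp0 i j x z1 z2
    have tN := Z.tieN hb hp0 i j x z1 z2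
    rw [q1, q2, q5, q7] at tP
    rw [q3, q4, q6, q8] at tN
    have u1 : Z.r p b i j x + Z.σ p b i j x ≤ mP := by
      rw [emP]
      split_ifs with h
      · have := tP h.1 h.2
        linarith
      · exact t0
    have u2 : Z.r p b i j x + Z.σ p b i j x ≤ mN := by
      rw [emN]
      split_ifs with h
      · have := tN h.1 h.2
        linarith
      · exact t0
    exact le_min t0 (le_min u1 u2)
  have s2 := Q.row hb hp i j y
  have s3 := mul_le_mul_of_nonneg_left s2 k3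
  have u1 : mm * (vPi * vPj) + zP * (vPi * vPj) ≤ Z.sp p (B.cP p b) i j y := by
    show _ ≤ cP * (vPi * vPj)
    by_cases z1 : vPi = 0
    · rw [z1]; simp
    by_cases z2 : vPj = 0
    · rw [z2]; simp
    rw [← add_mul]
    refine mul_le_mul_of_nonneg_right ?_ (mul_nonneg hPi hPj)
    have : mP = cP - zP := if_pos ⟨z1, z2⟩
    linarith
  have u2 : mm * (vNi * vNj) + zN * (vNi * vNj) ≤ Z.sp p (B.cN p b) i j y := by
    show _ ≤ cN * (vNi * vNj)
    by_cases z1 : vNi = 0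
    · rw [z1]; simp
    by_cases z2 : vNj = 0
    · rw [z2]; simp
    rw [← add_mul]
    refine mul_le_mul_of_nonneg_right ?_ (mul_nonneg hNi hNj)
    have : mN = cN - zN := if_pos ⟨z1, z2⟩
    linarith
  have c0 : 0 ≤ Q.tc p b i j y := (Q.ptc hb hp0 i j).nonneg y
  have u3 : mm * (1 / (p : ℝ) * Q.tc p b i j y) ≤ κ p i j * (1 / (p : ℝ) * Q.tc p b i j y) :=
    mul_le_mul_of_nonneg_right mκ (mul_nonneg w0 c0)
  have u4 := mul_le_mul_of_nonneg_left u1 w1
  have u5 := mul_le_mul_of_nonneg_left u2 w0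
  have e8 : mm * ((1 - 1 / (p : ℝ)) * (vPi * vPj) + 1 / (p : ℝ) * (vNi * vNj) +
      1 / (p : ℝ) * Q.tc p b i j y) =
      (1 - 1 / (p : ℝ)) * (mm * (vPi * vPj)) +
      1 / (p : ℝ) * (mm * (vNi * vNj)) + mm * (1 / (p : ℝ) * Q.tc p b i j y) := by
    ring
  rw [e8] at s3
  linarith

/-- the cross products are fine -/
lemma QP2.PB_cx (Q : QP2 V) {p : ℕ} {b : β} (hb : B.ok p b) (hp : p ≠ 0) (i j : Λ) :
    PB (Q.cx p b i j) := by
  have l1 := Q.pvL hb hp i
  have l2 := Q.pvL hb hp j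
  have m1 := V.pvB hb hp i
  have m2 := V.pvB hb hp j
  have r1 := V.pv (V.okR hb hp) i
  have r2 := V.pv (V.okR hb hp) j
  exact (((l1.mul l2).add ((l1.mul m2).add (m1.mul l2))).add
    ((l1.mul r2).add (r1.mul l2))).add ((m1.mul r2).add (r1.mul m2))

/-- the tie part with its credit -/
noncomputable def QC2.bb (p : ℕ) (b : β) (i j : Λ) (x : ℝ) : ℝ :=
  (Z.r p b i j x + Z.σ p b i j x) * (V.vB p b i x * V.vB p b j x)

lemma QC2.PB_bb {p : ℕ} {b : β} (hb : B.ok p b) (hp : p ≠ 0) (i j : Λ) : PB (Z.bb p b i j) :=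
  ((Z.pr hb hp i j).add (Z.pσ hb i j)).mul ((V.pvB hb hp i).mul (V.pvB hb hp j))

/-- one pair, at a point -/
lemma QC2.pt (Q : QP2 V) {p : ℕ} {b : β} (hb : B.ok p b) (hp : p ≠ 0)
    (hκ : ∀ p i j, 0 ≤ κ p i j) (i j : Λ) (x : ℝ) :
    Z.e p b i j x * (V.v (B.rN p b) i x * V.v (B.rN p b) j x) +
      Z.r p b i j x * (V.vB p b i x * V.vB p b j x) + Z.sp p b i j x ≤
      κ p i j * Q.cx p b i j x + Z.bb p b i j x + Z.sp (p - 1) (B.rN p b) i j x := by
  have h1 := Z.restP hb hp i j x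
  have hl1 := (Q.pvL hb hp i).nonneg x
  have hl2 := (Q.pvL hb hp j).nonneg x
  have hm1 := (V.pvB hb hp i).nonneg x
  have hm2 := (V.pvB hb hp j).nonneg x
  have hr1 := (V.pv (V.okR hb hp) i).nonneg x
  have hr2 := (V.pv (V.okR hb hp) j).nonneg x
  have hv1 := (V.pv hb i).nonneg x
  have hv2 := (V.pv hb j).nonneg x
  have g1 := (Z.pσ hb i j).nonneg x
  have hc : 0 ≤ Q.cx p b i j x := (Q.PB_cx hb hp i j).nonneg x
  have h2 : Z.sp p b i j x ≤ κ p i j * Q.cx p b i j x +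
      Z.σ p b i j x * (V.vB p b i x * V.vB p b j x) +
      Z.σ p b i j x * (V.v (B.rN p b) i x * V.v (B.rN p b) j x) := by
    have hk := mul_nonneg (hκ p i j) hc
    have t1 := mul_nonneg g1 (mul_nonneg hm1 hm2)
    have t2 := mul_nonneg g1 (mul_nonneg hr1 hr2)
    by_cases z : V.v b i x ≠ 0 ∧ V.v b j x ≠ 0
    · have g0 := Z.σκ hb i j x z.1 z.2
      have s1 := Q.split hb hp i x
      have s2 := Q.split hb hp j x
      have s3 : V.v b i x * V.v b j x ≤
          (Q.vL p b i x + V.vB p b i x + V.v (B.rN p b) i x) *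
            (Q.vL p b j x + V.vB p b j x + V.v (B.rN p b) j x) :=
        mul_le_mul s1 s2 hv2 (by linarith)
      have s4 : (Q.vL p b i x + V.vB p b i x + V.v (B.rN p b) i x) *
            (Q.vL p b j x + V.vB p b j x + V.v (B.rN p b) j x) = Q.cx p b i j x +
            V.vB p b i x * V.vB p b j x + V.v (B.rN p b) i x * V.v (B.rN p b) j x := by
        unfold QP2.cx crs
        ring
      rw [s4] at s3
      have s5 := mul_le_mul_of_nonneg_left s3 g1
      have s6 : Z.σ p b i j x * Q.cx p b i j x ≤ κ p i j * Q.cx p b i j x :=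
        mul_le_mul_of_nonneg_right g0 hc
      show Z.σ p b i j x * (V.v b i x * V.v b j x) ≤ _
      linarith
    · have z0 : V.v b i x = 0 ∨ V.v b j x = 0 := by
        by_contra hh
        push Not at hh
        exact z hh
      have t3 : Z.sp p b i j x = 0 := by
        show Z.σ p b i j x * (V.v b i x * V.v b j x) = 0
        rcases z0 with h | h <;> rw [h] <;> ring
      rw [t3]
      linarith
  have h3 : Z.bb p b i j x = Z.r p b i j x * (V.vB p b i x * V.vB p b j x) +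
      Z.σ p b i j x * (V.vB p b i x * V.vB p b j x) := by
    unfold QC2.bb
    ring
  rw [h3]
  linarith

/-- one pair, integrated -/
lemma QC2.int1 (Q : QP2 V) {p : ℕ} {b : β} (hb : B.ok p b) (hp : p ≠ 0)
    (hκ : ∀ p i j, 0 ≤ κ p i j) (i j : Λ) :
    I (fun x => Z.e p b i j x * (V.v (B.rN p b) i x * V.v (B.rN p b) j x)) +
      I (fun x => Z.r p b i j x * (V.vB p b i x * V.vB p b j x)) + I (Z.sp p b i j) ≤
      κ p i j * I (Q.cx p b i j) + I (Z.bb p b i j) + I (Z.sp (p - 1) (B.rN p b) i j) := by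
  have a1 : PB fun x => Z.e p b i j x * (V.v (B.rN p b) i x * V.v (B.rN p b) j x) :=
    (Z.pe hb hp i j).mul ((V.pv (V.okR hb hp) i).mul (V.pv (V.okR hb hp) j))
  have a2 : PB fun x => Z.r p b i j x * (V.vB p b i x * V.vB p b j x) :=
    (Z.pr hb hp i j).mul ((V.pvB hb hp i).mul (V.pvB hb hp j))
  have a3 := Z.PB_sp hb i j
  have a4 : PB fun x => κ p i j * Q.cx p b i j x := (Q.PB_cx hb hp i j).smul (hκ p i j)
  have a5 := Z.PB_bb hb hp i j
  have a6 := Z.PB_sp (V.okR hb hp) i j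
  rw [← I_smul (κ p i j), ← I_add a1.integrableOn a2.integrableOn,
    ← I_add (a1.add a2).integrableOn a3.integrableOn, ← I_add a4.integrableOn a5.integrableOn,
    ← I_add (a4.add a5).integrableOn a6.integrableOn]
  exact I_mono ((a1.add a2).add a3).integrableOn ((a4.add a5).add a6).integrableOn fun x =>
    Z.pt Q hb hp hκ i j x

/-- the tie part, integrated -/
lemma QC2.bb_le (Q : QP2 V) {p : ℕ} {b : β} (hb : B.ok p b) (hp : 2 ≤ p)
    (hκ : ∀ p i j, 0 ≤ κ p i j) (i j : Λ) :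
    I (Z.bb p b i j) + Z.low p b i j ≤ (1 - 1 / (p : ℝ)) * I (Z.sp p (B.cP p b) i j) +
      1 / (p : ℝ) * I (Z.sp p (B.cN p b) i j) + κ p i j * (1 / (p : ℝ) * I (Q.tc p b i j)) := by
  have hp0 : p ≠ 0 := by omega
  have hpp : 0 < p := by omega
  obtain ⟨w0, w1⟩ := w_facts hp0
  have a1 := Z.PB_bb hb hp0 i j
  have a0 : PB fun y => (1 - 1 / (p : ℝ)) *
      (Z.sP p b i j y * (V.v (B.cP p b) i y * V.v (B.cP p b) j y)) :=
    ((Z.psP hb hp0 i j).mul ((V.pv (V.okP hb hp0) i).mul (V.pv (V.okP hb hp0) j))).smul w1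
  have a0' : PB fun y => 1 / (p : ℝ) *
      (Z.sN p b i j y * (V.v (B.cN p b) i y * V.v (B.cN p b) j y)) :=
    ((Z.psN hb hp0 i j).mul ((V.pv (V.okN hb hp0) i).mul (V.pv (V.okN hb hp0) j))).smul w0
  have e0 : Z.low p b i j = I fun y => (1 - 1 / (p : ℝ)) *
      (Z.sP p b i j y * (V.v (B.cP p b) i y * V.v (B.cP p b) j y)) +
      1 / (p : ℝ) * (Z.sN p b i j y * (V.v (B.cN p b) i y * V.v (B.cN p b) j y)) := by
    rw [I_add a0.integrableOn a0'.integrableOn, I_smul, I_smul]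
    rfl
  have a2 := (Z.PB_sp (V.okP hb hp0) i j).smul w1
  have a3 := (Z.PB_sp (V.okN hb hp0) i j).smul w0
  have a4 := ((Q.ptc hb hp0 i j).smul w0).smul (hκ p i j)
  rw [e0, ← I_Ep hpp a1.integrableOn, ← I_smul (1 - 1 / (p : ℝ)),
    ← I_smul (1 / (p : ℝ)) (Z.sp _ _ _ _),
    ← I_smul (1 / (p : ℝ)) (Q.tc _ _ _ _), ← I_smul (κ p i j), ← I_add a2.integrableOn
    a3.integrableOn, ← I_add (a2.add a3).integrableOn a4.integrableOn,
    ← I_add (a1.Ep hpp).integrableOn (a0.add a0').integrableOn]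
  exact I_mono ((a1.Ep hpp).add (a0.add a0')).integrableOn ((a2.add a3).add a4).integrableOn fun y =>
    Z.tieE Q hb hp hκ i j y

lemma QC2.bb_one (Q : QP2 V) {b : β} (hb : B.ok 1 b) (i j : Λ) : I (Z.bb 1 b i j) = 0 := by
  have e : Z.bb 1 b i j = fun _ => 0 := by
    funext x
    show (Z.r 1 b i j x + Z.σ 1 b i j x) * (V.vB 1 b i x * V.vB 1 b j x) = 0
    rw [Q.no1 hb i x]
    ring
  rw [e]
  simp [I]

lemma QC2.low_one (Q : QP2 V) {b : β} (hb : B.ok 1 b) (i j : Λ) : Z.low 1 b i j = 0 := by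
  unfold QC2.low
  have e : (fun y => Z.sN 1 b i j y * (V.v (B.cN 1 b) i y * V.v (B.cN 1 b) j y)) = fun _ => 0 := by
    funext y
    rw [Q.no1N hb i y]
    ring
  rw [e]
  simp [I]

/-- **the quadratic rate lemma** -/
theorem QC2.sv (Q : QP2 V) (hκ : ∀ p i j, 0 ≤ κ p i j) {Vc : ℕ → β → ℝ} {siz : β → ℕ}
    (H : SV B (Q.crn κ) Vc siz) : SV B Z.chg (Z.W Vc) siz where
  okP := H.okP
  okN := H.okN
  okR := H.okR
  v2 := fun {p b} hb h2 => by
    have hp : p ≠ 0 := by omega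
    have h1 := H.v2 hb h2
    have h3 : Z.chg p b + ∑ i, ∑ j, I (Z.sp p b i j) ≤ Q.crn κ p b +
        ((1 - 1 / (p : ℝ)) * ∑ i, ∑ j, I (Z.sp p (B.cP p b) i j) +
        1 / (p : ℝ) * ∑ i, ∑ j, I (Z.sp p (B.cN p b) i j)) +
        ∑ i, ∑ j, I (Z.sp (p - 1) (B.rN p b) i j) := by
      unfold QC2.chg QP2.crn
      rw [← sum2_mul, ← sum2_mul, ← sum2_add, ← sum2_add, ← sum2_add, ← sum2_add]
      refine sum2_le fun i j => ?_
      have a1 := Z.int1 Q hb hp hκ i j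
      have a2 := Z.bb_le Q hb h2 hκ i j
      have e1 : κ p i j * (I (Q.cx p b i j) + 1 / (p : ℝ) * I (Q.tc p b i j)) =
        κ p i j * I (Q.cx p b i j) + κ p i j * (1 / (p : ℝ) * I (Q.tc p b i j)) := by ring
      rw [e1]
      linarith
    unfold QC2.W
    nlinarith
  v1 := fun {b} hb => by
    have h1 := H.v1 hb
    have h3 : Z.chg 1 b + ∑ i, ∑ j, I (Z.sp 1 b i j) ≤ Q.crn κ 1 b +
        ∑ i, ∑ j, I (Z.sp 0 (B.rN 1 b) i j) := by
      unfold QC2.chg QP2.crn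
      rw [← sum2_add, ← sum2_add]
      refine sum2_le fun i j => ?_
      have a1 := Z.int1 Q hb one_ne_zero hκ i j
      have a2 := Z.bb_one Q hb i j
      have a3 : 0 ≤ κ 1 i j * (1 / ((1 : ℕ) : ℝ) * I (Q.tc 1 b i j)) :=
        mul_nonneg (hκ 1 i j) (mul_nonneg (by positivity)
          (I_nonneg fun x => (Q.ptc hb one_ne_zero i j).nonneg x))
      have e1 : κ 1 i j * (I (Q.cx 1 b i j) + 1 / ((1 : ℕ) : ℝ) * I (Q.tc 1 b i j)) =
        κ 1 i j * I (Q.cx 1 b i j) + κ 1 i j * (1 / ((1 : ℕ) : ℝ) * I (Q.tc 1 b i j)) := by ring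
      have a4 := Z.low_one Q hb i j
      rw [e1]
      linarith
    have h4 : 0 ≤ ∑ i, ∑ j, I (Z.sp 1 (B.cP 1 b) i j) := Finset.sum_nonneg fun i _ =>
      Finset.sum_nonneg fun j _ => I_nonneg fun x =>
        (Z.PB_sp (H.okP hb one_ne_zero) i j).nonneg x
    unfold QC2.W
    linarith
  sP := H.sP
  sN := H.sN
  sR := H.sR

/-- the value is at most the value of the creation -/
lemma QC2.W_le {Vc : ℕ → β → ℝ} {p : ℕ} {b : β} (hb : B.ok p b) : Z.W Vc p b ≤ Vc p b := by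
  unfold QC2.W
  have : 0 ≤ ∑ i, ∑ j, I (Z.sp p b i j) := Finset.sum_nonneg fun i _ =>
    Finset.sum_nonneg fun j _ => I_nonneg fun x => (Z.PB_sp hb i j).nonneg x
  linarith

/-- the value is nonnegative if the value of the creation is at least the energy of the pairs -/
lemma QC2.W_nonneg (hκ : ∀ p i j, 0 ≤ κ p i j) {Vc : ℕ → β → ℝ} {p : ℕ} {b : β} (hb : B.ok p b)
    (h : ∑ i, ∑ j, κ p i j * I (fun x => V.v b i x * V.v b j x) ≤ Vc p b) : 0 ≤ Z.W Vc p b := by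
  unfold QC2.W
  have : ∑ i, ∑ j, I (Z.sp p b i j) ≤ ∑ i, ∑ j, κ p i j * I (fun x => V.v b i x * V.v b j x) := by
    refine sum2_le fun i j => ?_
    rw [← I_smul]
    have a1 := (V.pv hb i).mul (V.pv hb j)
    refine I_mono (Z.PB_sp hb i j).integrableOn (a1.smul (hκ p i j)).integrableOn fun x => ?_
    have h2 := a1.nonneg x
    show Z.σ p b i j x * (V.v b i x * V.v b j x) ≤ κ p i j * (V.v b i x * V.v b j x)
    by_cases z1 : V.v b i x = 0
    · rw [z1]; simp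
    by_cases z2 : V.v b j x = 0
    · rw [z2]; simp
    exact mul_le_mul_of_nonneg_right (Z.σκ hb i j x z1 z2) h2
  linarith

/-- **the walk sum of the charges** -/
theorem QC2.Kw_le (Q : QP2 V) (hκ : ∀ p i j, 0 ≤ κ p i j) {Vc : ℕ → β → ℝ} {siz : β → ℕ}
    (H : SV B (Q.crn κ) Vc siz) {ok : ℕ → Gs β → Prop}
    (hC : ∀ {p s}, ok p s → p ≠ 0 → ok p (B.C p s))
    (hN : ∀ {p s}, ok p s → p ≠ 0 → ok (p - 1) (B.N p s))
    (hT : ∀ {p s}, ok p s → TC s.c s.W) (hM : ∀ {p s}, ok p s → ∀ j, B.ok p (s.L j))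
    {f : ℕ → Gs β → ℝ} (hf : ∀ {p s}, ok p s → p ≠ 0 → f p s ≤ GMer27.M s.c fun j => Z.chg p (s.L j))
    (hV : ∀ {p b}, B.ok p b → (p = 0 ∨ siz b = 0) →
      ∑ i, ∑ j, κ p i j * I (fun x => V.v b i x * V.v b j x) ≤ Vc p b)
    (n p : ℕ) (s : Gs β) (hs : ok p s) (hn : ∀ j, siz (s.L j) + p ≤ n) :
    Kw B f n p s ≤ GMer27.M s.c fun j => Vc p (s.L j) :=
  (Kw_sv (Z.sv Q hκ H) (ok := ok) (f := f) (fun hs hp => hC hs hp) (fun hs hp => hN hs hp)
    (fun hs => hT hs) (fun hs => hM hs) (fun hs hp => hf hs hp)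
    (fun {p b} hb h => Z.W_nonneg hκ hb (hV hb h)) n p s hs
    hn).trans (GMer27.M_mono (hT hs).c0 fun j => Z.W_le (hM hs j))

end pairs

end Crest.Agent.R4P.PrE245
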