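import Crest.Agent.R4P.PrE2_45
import Crest.Agent.R4P.PrD_45

/-!
R4 (S0004) with powers, T3, helper45: **static sums over the walk of a decorated tree**.

* `ts F t` : sum over the true ties of the path weight times `F q a b` (`a`, `b` = contents of the P and
  N child); `TS` of a bundle; **`ts_sv`** : superharmonic value of `F p (pA ..) (pB ..)`.
* `rE R p t` : sum over the nodes of the energies `R p' v` at all the columns `p'` between the parent
  and the node; `RE` of a bundle; **`rE_sv`** : value of `R p (jv (rest))`.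
* **`jc_sv`** : `Psi - jl` is a value of the joins of the two children
  `(1 - 1/p) jl (cP) + 1/p jl (cN)`; **`cross_N`**, `cross_P` : the cross energy of a child of the
  true tie with the pulls of the column is at most the join of the child bundle.
* bounds: `ts_le`, `rE_le` (path sums by credits and masses).
-/

set_option autoImplicit false
set_option linter.unusedSectionVars false
set_option linter.unusedVariables false
open MeasureTheory Filter Set

namespace Crest.Agent.R4P.PrG45

open Crest.Agent.R4.Tour104 Crest.Agent.R4.Tour758 Crest.Agent.R4.Avg758 Crest.Agent.R4.Clos758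
open Crest.Agent.R4.ClosL758 Crest.Agent.R4.ClosG758 Crest.Agent.R4.ClosR758
open Crest.Agent.R4P.ClosR442 Crest.Agent.R4P.Grp36
open Crest.Agent.R4P.Xfer36 Crest.Agent.R4P.TopC36 Crest.Agent.R4P.PN36
open Crest.Agent.R4P.GMer27 Crest.Agent.R4P.GCol27 Crest.Agent.R4P.GWa343 Crest.Agent.R4P.GWb343
open Crest.Agent.R4P.GWc343 Crest.Agent.R4P.GWd343 Crest.Agent.R4P.GWe343 Crest.Agent.R4P.GWf343
open Crest.Agent.R4P.MSd343 Crest.Agent.R4P.Bp407 Crest.Agent.R4P.VR407
open Crest.Agent.R4P.DTp26 (jv jv_nil jv_cons jv_append PB_jv sum_jv)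
open Crest.Agent.R4P.Pay45 Crest.Agent.R4P.PayR45 Crest.Agent.R4P.PVd45 Crest.Agent.R4P.PVe45
open Crest.Agent.R4P.PrE45 Crest.Agent.R4P.PrD45 Crest.Agent.R4P.JnE5
open Crest.Agent.R4P.JnF5 (SV)
open Crest.Agent.R4P.GSK55 (Pr)
open Crest.Agent.R4P.LogL51 (isLf)
open Crest.Agent.R4P.Walk560 (DT)

/-! ### sums over the true ties -/

section ts
variable {Λ κ : Type} [Fintype Λ] [DecidableEq Λ] [Fintype κ] [DecidableEq κ]
  (F : ℕ → (Λ → ℝ → ℝ) → (Λ → ℝ → ℝ) → ℝ)

open Classical in
/-- **sum over the true ties** -/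
noncomputable def ts : DT Λ κ → ℝ
  | .leaf _ _ => 0
  | .br q w _ t₁ t₀ _ _ _ => (1 - w) * ts t₁ + w * ts t₀ +
      if w = 0 then 0 else F q t₁.g.val t₀.g.val
  | .add _ _ t₁ t₀ => ts t₁ + ts t₀
  | .up _ _ t => ts t

/-- the sum of a bundle -/
noncomputable def TS (L : List (DT Λ κ)) : ℝ := (L.map (ts F)).sum

variable {F}

lemma TS_nil : TS F ([] : List (DT Λ κ)) = 0 := rfl

lemma TS_cons (t : DT Λ κ) (L : List (DT Λ κ)) : TS F (t :: L) = ts F t + TS F L := by
  simp [TS]

lemma TS_append (L K : List (DT Λ κ)) : TS F (L ++ K) = TS F L + TS F K := by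
  simp [TS]

lemma TS_rs (p : ℕ) (t : DT Λ κ) : TS F (rs p t) = ts F t := by
  induction t with
  | leaf r f => simp [rs, TS]
  | br q w r t₁ t₀ v B G => simp [rs, TS]
  | add q r t₁ t₀ ih₁ ih₀ =>
    unfold rs
    split_ifs with h
    · rw [TS_append, ih₁, ih₀]
      rfl
    · simp [TS]
  | up q Sp t ih =>
    unfold rs
    split_ifs with h
    · exact ih
    · simp [TS]

lemma TS_flat (p : ℕ) (L : List (DT Λ κ)) : TS F (L.flatMap (rs p)) = TS F L := by
  induction L with
  | nil => rfl
  | cons t L ih => rw [List.flatMap_cons, TS_append, ih, TS_cons, TS_rs]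

lemma TS_leaves {L : List (DT Λ κ)} (h : ∀ t ∈ L, isLf t = true) : TS F L = 0 := by
  refine List.sum_eq_zero fun y hy => ?_
  obtain ⟨t, ht, rfl⟩ := List.mem_map.1 hy
  obtain ⟨r, f, rfl⟩ := isLf_eq (h t ht)
  rfl

/-- a resolved bundle -/
lemma TS_split (p : ℕ) (L : List (DT Λ κ)) : TS F L = TS F (bB p L) + TS F (bN p L) := by
  rw [← TS_flat p L]
  unfold TS
  rw [sum_filter_map (fun t => isB p t) (ts F)]
  have e1 : (L.flatMap (rs p)).filter (fun t => isB p t) = bB p L := rfl
  have e2 : (L.flatMap (rs p)).filter (fun t => !isB p t) = bR p L := rfl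
  rw [e1, e2, sum_filter_map (fun t => isLf t) (ts F) (bR p L)]
  have e3 : (bR p L).filter (fun t => isLf t) = bL p L := rfl
  have e4 : (bR p L).filter (fun t => !isLf t) = bN p L := rfl
  rw [e3, e4]
  have e5 : ((bL p L).map (ts F)).sum = 0 := TS_leaves fun t ht => (List.mem_filter.1 ht).2
  rw [e5]
  ring

variable {p : ℕ} {kd : Λ → κ} {K : List (DT Λ κ)}

/-- a node of a bundle -/
lemma ts_node (h : KOk kd p K) {t : DT Λ κ} (ht : t ∈ K) :
    ts F t = (1 - 1 / (p : ℝ)) * ts F (chP t) + 1 / (p : ℝ) * ts F (chN t) +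
      (open Classical in if wT t = 0 then 0 else F p (nA t) (nB t)) := by
  classical
  obtain ⟨w, r, t₁, t₀, v, B, G, e⟩ := isB_eq (h.bk.ok t ht).2
  have hv := h.vr t ht
  subst e
  have e5 : chN (DT.br p w r t₁ t₀ v B G) = if w = 0 then t₁ else t₀ := rfl
  have e6 : chP (DT.br p w r t₁ t₀ v B G) = t₁ := rfl
  have e7 : ts F (DT.br p w r t₁ t₀ v B G) = (1 - w) * ts F t₁ + w * ts F t₀ +
    if w = 0 then 0 else F p t₁.g.val t₀.g.val := by
    show (1 - w) * ts F t₁ + w * ts F t₀ + (if w = 0 then 0 else F p t₁.g.val t₀.g.val) = _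
    congr
  have e8 : wT (DT.br p w r t₁ t₀ v B G) = w := rfl
  rw [e5, e6, e7, e8]
  rcases hv with ⟨hw, hp, -⟩ | ⟨hw, -, -⟩
  · have hp' : (0 : ℝ) < p := by exact_mod_cast hp
    have hw0 : w ≠ 0 := by rw [hw]; positivity
    have eA : nA (DT.br p w r t₁ t₀ v B G) = t₁.g.val := by
      funext j y; unfold nA; simp only [if_neg hw0]
    have eB : nB (DT.br p w r t₁ t₀ v B G) = t₀.g.val := by
      funext j y; unfold nB; simp only [if_neg hw0]
    rw [if_neg hw0, if_neg hw0, if_neg hw0, eA, eB, hw]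
  · rw [if_pos hw, if_pos hw, if_pos hw, hw]
    ring

/-- **the column** -/
lemma TS_col (h : KOk kd p K) (F0 : F p (fun _ _ => 0) (fun _ _ => 0) = 0) :
    TS F K = (1 - 1 / (p : ℝ)) * TS F (K.map chP) + 1 / (p : ℝ) * TS F (K.map chN) +
      F p (pA K) (pB K) := by
  classical
  induction K with
  | nil =>
    have e : pA ([] : List (DT Λ κ)) = fun _ _ => 0 := rfl
    have e' : pB ([] : List (DT Λ κ)) = fun _ _ => 0 := rfl
    rw [e, e', F0]
    simp [TS]
  | cons t K ih =>
    have ih' := ih h.tail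
    have h1 := ts_node (F := F) h (List.mem_cons_self (a := t) (l := K))
    rw [List.map_cons, List.map_cons, TS_cons, TS_cons, TS_cons, h1, ih']
    rcases node h (List.mem_cons_self (a := t) (l := K)) with ⟨hw, -⟩ |
      ⟨hw, -, -, h1, h2, -⟩
    · have hl : (K.filter fun t => decide (wT t ≠ 0)).length = 0 := by
        have := h.bk.one
        rw [List.filter_cons_of_pos (by simpa using hw), List.length_cons] at this
        omega
      obtain ⟨i1, i2, -⟩ := no_tie h.tail hl
      have e1 : pA (t :: K) = nA t := by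
        funext j y
        have e : pA (t :: K) j y = nA t j y + pA K j y := ls_cons _ _ _ _ _
        rw [e, i1, add_zero]
      have e2 : pB (t :: K) = nB t := by
        funext j y
        have e : pB (t :: K) j y = nB t j y + pB K j y := ls_cons _ _ _ _ _
        rw [e, i2, add_zero]
      rw [e1, e2, i1, i2, F0, if_neg hw]
      ring
    · have e1 : pA (t :: K) = pA K := by
        funext j y
        have e : pA (t :: K) j y = nA t j y + pA K j y := ls_cons _ _ _ _ _
        rw [e, h1, zero_add]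
      have e2 : pB (t :: K) = pB K := by
        funext j y
        have e : pB (t :: K) j y = nB t j y + pB K j y := ls_cons _ _ _ _ _
        rw [e, h2, zero_add]
      rw [e1, e2, if_pos hw]
      ring

end ts

/-! ### energies at the columns of the rest -/

section re
variable {Λ κ : Type} [Fintype Λ] [DecidableEq Λ] [Fintype κ] [DecidableEq κ]
  (R : ℕ → (Λ → ℝ → ℝ) → ℝ)

/-- energies of the columns `(q, p]` -/
noncomputable def cols (q p : ℕ) (v : Λ → ℝ → ℝ) : ℝ := ∑ p' ∈ Finset.Ioc q p, R p' v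

/-- **energies at the columns between the parent and the node** -/
noncomputable def rE : ℕ → DT Λ κ → ℝ
  | _, .leaf _ _ => 0
  | p, .br q w r t₁ t₀ v B G => cols R q p (DT.br q w r t₁ t₀ v B G).g.val +
      ((1 - w) * rE q t₁ + w * rE q t₀)
  | p, .add q r t₁ t₀ => cols R q p (DT.add q r t₁ t₀).g.val + (rE q t₁ + rE q t₀)
  | p, .up q Sp t => cols R q p (DT.up q Sp t).g.val + rE q t

/-- the energies of a bundle -/
noncomputable def RE (p : ℕ) (L : List (DT Λ κ)) : ℝ := (L.map (rE R p)).sum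

variable {R}

lemma cols_self (p : ℕ) (v : Λ → ℝ → ℝ) : cols R p p v = 0 := by simp [cols]

lemma cols_succ {q p : ℕ} (h : q < p) (v : Λ → ℝ → ℝ) :
    cols R q p v = R p v + cols R q (p - 1) v := by
  unfold cols
  have e : Finset.Ioc q p = insert p (Finset.Ioc q (p - 1)) := by
    ext x
    simp only [Finset.mem_Ioc, Finset.mem_insert]
    omega
  rw [e, Finset.sum_insert]
  simp only [Finset.mem_Ioc]
  omega

lemma RE_nil (p : ℕ) : RE R p ([] : List (DT Λ κ)) = 0 := rfl

lemma RE_cons (p : ℕ) (t : DT Λ κ) (L : List (DT Λ κ)) : RE R p (t :: L) = rE R p t + RE R p L := by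
  simp [RE]

lemma RE_append (p : ℕ) (L K : List (DT Λ κ)) : RE R p (L ++ K) = RE R p L + RE R p K := by
  simp [RE]

lemma RE_rs (p : ℕ) (t : DT Λ κ) : RE R p (rs p t) = rE R p t := by
  induction t with
  | leaf r f => simp [rs, RE]
  | br q w r t₁ t₀ v B G => simp [rs, RE]
  | add q r t₁ t₀ ih₁ ih₀ =>
    unfold rs
    split_ifs with h
    · subst h
      rw [RE_append, ih₁, ih₀]
      show _ = cols R q q (DT.add q r t₁ t₀).g.val + (rE R q t₁ + rE R q t₀)
      rw [cols_self, zero_add]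
    · simp [RE]
  | up q Sp t ih =>
    unfold rs
    split_ifs with h
    · subst h
      rw [ih]
      show _ = cols R q q (DT.up q Sp t).g.val + rE R q t
      rw [cols_self, zero_add]
    · simp [RE]

lemma RE_flat (p : ℕ) (L : List (DT Λ κ)) : RE R p (L.flatMap (rs p)) = RE R p L := by
  induction L with
  | nil => rfl
  | cons t L ih => rw [List.flatMap_cons, RE_append, ih, RE_cons, RE_rs]

lemma RE_leaves {p : ℕ} {L : List (DT Λ κ)} (h : ∀ t ∈ L, isLf t = true) : RE R p L = 0 := by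
  refine List.sum_eq_zero fun y hy => ?_
  obtain ⟨t, ht, rfl⟩ := List.mem_map.1 hy
  obtain ⟨r, f, rfl⟩ := isLf_eq (h t ht)
  rfl

/-- a resolved bundle -/
lemma RE_split (p : ℕ) (L : List (DT Λ κ)) : RE R p L = RE R p (bB p L) + RE R p (bN p L) := by
  rw [← RE_flat p L]
  unfold RE
  rw [sum_filter_map (fun t => isB p t) (rE R p)]
  have e1 : (L.flatMap (rs p)).filter (fun t => isB p t) = bB p L := rfl
  have e2 : (L.flatMap (rs p)).filter (fun t => !isB p t) = bR p L := rfl
  rw [e1, e2, sum_filter_map (fun t => isLf t) (rE R p) (bR p L)]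
  have e3 : (bR p L).filter (fun t => isLf t) = bL p L := rfl
  have e4 : (bR p L).filter (fun t => !isLf t) = bN p L := rfl
  rw [e3, e4]
  have e5 : ((bL p L).map (rE R p)).sum = 0 := RE_leaves fun t ht => (List.mem_filter.1 ht).2
  rw [e5]
  ring

variable {p : ℕ} {kd : Λ → κ} {K : List (DT Λ κ)}

/-- **the ties and pulls** of the column -/
lemma RE_col (h : KOk kd p K) : RE R p K = (1 - 1 / (p : ℝ)) * RE R p (K.map chP) +
    1 / (p : ℝ) * RE R p (K.map chN) := by
  induction K with
  | nil => simp [RE]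
  | cons t K ih =>
    rw [List.map_cons, List.map_cons, RE_cons, RE_cons, RE_cons, ih h.tail]
    obtain ⟨w, r, t₁, t₀, v, B, G, e⟩ :=
      isB_eq (h.bk.ok t (List.mem_cons_self (a := t) (l := K))).2
    have hv := h.vr t (List.mem_cons_self (a := t) (l := K))
    subst e
    have e5 : chN (DT.br p w r t₁ t₀ v B G) = if w = 0 then t₁ else t₀ := rfl
    have e6 : chP (DT.br p w r t₁ t₀ v B G) = t₁ := rfl
    have e7 : rE R p (DT.br p w r t₁ t₀ v B G) = cols R p p (DT.br p w r t₁ t₀ v B G).g.val +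
      ((1 - w) * rE R p t₁ + w * rE R p t₀) := rfl
    rw [e5, e6, e7, cols_self]
    rcases hv with ⟨hw, hp, -⟩ | ⟨hw, -, -⟩
    · have hp' : (0 : ℝ) < p := by exact_mod_cast hp
      have hw0 : w ≠ 0 := by rw [hw]; positivity
      rw [if_neg hw0, hw]
      ring
    · rw [if_pos hw, hw]
      ring

/-- a node strictly below the column, one step down -/
lemma rE_step {t : DT Λ κ} (hl : ¬ isLf t = true) (hc : t.Col p) :
    rE R p t = R p t.g.val + rE R (p - 1) t := by
  cases t with
  | leaf r f => exact absurd (by simp [isLf]) hl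
  | br q w r t₁ t₀ v B G =>
    have hq : q < p := hc.2.1
    show cols R q p _ + _ = R p _ + (cols R q (p - 1) _ + _)
    rw [cols_succ hq]
    ring
  | add q r t₁ t₀ =>
    have hq : q < p := hc.2.1
    show cols R q p _ + _ = R p _ + (cols R q (p - 1) _ + _)
    rw [cols_succ hq]
    ring
  | up q Sp t =>
    have hq : q < p := hc.2.1
    show cols R q p _ + _ = R p _ + (cols R q (p - 1) _ + _)
    rw [cols_succ hq]
    ring

/-- **the rest** : at most one node -/
lemma RE_rest (R0 : R p (fun _ _ => 0) = 0) (hl : ∀ t ∈ K, ¬ isLf t = true) (hc : ∀ t ∈ K, t.Col p)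
    (h1 : K.length ≤ 1) : RE R p K = R p (jv K) + RE R (p - 1) K := by
  cases K with
  | nil =>
    have e : jv ([] : List (DT Λ κ)) = fun _ _ => 0 := rfl
    rw [e, R0, RE_nil, RE_nil, zero_add]
  | cons t K =>
    have h2 : K = [] := by
      cases K with
      | nil => rfl
      | cons s K => simp at h1
    subst h2
    have e : jv [t] = t.g.val := by
      funext j x
      rw [jv_cons, jv_nil, add_zero]
    rw [e, RE_cons, RE_cons, RE_nil, RE_nil, rE_step (hl t (by simp)) (hc t (by simp))]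
    ring

end re

/-! ### superharmonic values -/

section sv
variable {Λ κ : Type} [Fintype Λ] [DecidableEq Λ] [Fintype κ] [DecidableEq κ] {β : Type}
  {B : BM β} {lst : β → List (DT Λ κ)} {Inv : ℕ → List (DT Λ κ) → Prop} {kd : ℕ → Λ → κ}

/-- **value of the sums over the true ties** -/
theorem ts_sv {F : ℕ → (Λ → ℝ → ℝ) → (Λ → ℝ → ℝ) → ℝ} (L : LB B lst Inv) (H : DI Inv)
    (hK : ∀ {p b}, B.ok p b → p ≠ 0 → KOk (kd p) p (bB p (lst b)))
    (tk : ∀ {p b}, B.ok p b → p ≠ 0 → TOk p (bB p (lst b)))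
    (F0 : ∀ p, F p (fun _ _ => 0) (fun _ _ => 0) = 0) :
    SV B (fun p b => F p (pA (bB p (lst b))) (pB (bB p (lst b))))
      (fun _ b => TS F (lst b)) (fun b => siz (lst b)) where
  okP := L.okP
  okN := L.okN
  okR := L.okR
  v2 := fun {p b} hb h2 => by
    have hp : p ≠ 0 := by omega
    have h3 := TS_split (F := F) p (lst b)
    have h4 := TS_col (F := F) (hK hb hp) (F0 p)
    show F p (pA (bB p (lst b))) (pB (bB p (lst b))) +
      ((1 - 1 / (p : ℝ)) * TS F (lst (B.cP p b)) + 1 / (p : ℝ) * TS F (lst (B.cN p b))) +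
      TS F (lst (B.rN p b)) ≤ TS F (lst b)
    rw [L.P hb hp, L.N hb hp, L.R hb hp]
    linarith
  v1 := fun {b} hb => by
    have h3 := TS_split (F := F) 1 (lst b)
    have h6 := H.no1 (L.inv hb)
    show F 1 (pA (bB 1 (lst b))) (pB (bB 1 (lst b))) +
      TS F (lst (B.cP 1 b)) + TS F (lst (B.rN 1 b)) ≤ TS F (lst b)
    have e : pA ([] : List (DT Λ κ)) = fun _ _ => 0 := rfl
    have e' : pB ([] : List (DT Λ κ)) = fun _ _ => 0 := rfl
    rw [h6, TS_nil] at h3
    rw [L.P hb one_ne_zero, L.R hb one_ne_zero, h6, List.map_nil, e, e', F0, TS_nil]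
    linarith
  sP := fun {p b} hb hp => by
    rw [L.P hb hp]
    exact siz_ch fun t ht => (size_ch ((tk hb hp).isb t ht)).1
  sN := fun {p b} hb hp => by
    rw [L.N hb hp]
    exact siz_ch fun t ht => (size_ch ((tk hb hp).isb t ht)).2
  sR := fun {p b} hb hp => by
    rw [L.R hb hp]
    exact siz_bN p _

lemma bN_lf {p : ℕ} {L : List (DT Λ κ)} : ∀ t ∈ bN p L, ¬ isLf t = true := fun t ht => by
  have h := (List.mem_filter.1 ht).2
  simpa using h

/-- **value of the energies of the rest** -/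
theorem rE_sv {R : ℕ → (Λ → ℝ → ℝ) → ℝ} (L : LB B lst Inv) (H : DI Inv)
    (hK : ∀ {p b}, B.ok p b → p ≠ 0 → KOk (kd p) p (bB p (lst b)))
    (tk : ∀ {p b}, B.ok p b → p ≠ 0 → TOk p (bB p (lst b)))
    (len : ∀ {p b}, B.ok p b → p ≠ 0 → (bN p (lst b)).length ≤ 1)
    (R0 : ∀ p, R p (fun _ _ => 0) = 0) :
    SV B (fun p b => R p (jv (bN p (lst b)))) (fun p b => RE R p (lst b))
      (fun b => siz (lst b)) where
  okP := L.okP
  okN := L.okN
  okR := L.okR
  v2 := fun {p b} hb h2 => by
    have hp : p ≠ 0 := by omega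
    have h3 := RE_split (R := R) p (lst b)
    have h4 := RE_col (R := R) (hK hb hp)
    have hc : ∀ t ∈ bN p (lst b), t.Col p := fun t ht => by
      have h5 := H.col (H.toR (L.inv hb) hp) t ht
      have e : p - 1 + 1 = p := by omega
      rwa [e] at h5
    have h5 := RE_rest (R := R) (p := p) (R0 p) bN_lf hc (len hb hp)
    show R p (jv (bN p (lst b))) +
      ((1 - 1 / (p : ℝ)) * RE R p (lst (B.cP p b)) + 1 / (p : ℝ) * RE R p (lst (B.cN p b))) +
      RE R (p - 1) (lst (B.rN p b)) ≤ RE R p (lst b)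
    rw [L.P hb hp, L.N hb hp, L.R hb hp]
    linarith
  v1 := fun {b} hb => by
    have h3 := RE_split (R := R) 1 (lst b)
    have h6 := H.no1 (L.inv hb)
    have hc : ∀ t ∈ bN 1 (lst b), t.Col 1 := fun t ht => by
      have h5 := H.col (H.toR (L.inv hb) one_ne_zero) t ht
      exact h5
    have h5 := RE_rest (R := R) (p := 1) (R0 1) bN_lf hc (len hb one_ne_zero)
    show R 1 (jv (bN 1 (lst b))) +
      RE R 1 (lst (B.cP 1 b)) + RE R 0 (lst (B.rN 1 b)) ≤ RE R 1 (lst b)
    rw [h6, RE_nil] at h3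
    rw [L.P hb one_ne_zero, L.R hb one_ne_zero, h6, List.map_nil, RE_nil]
    have e0 : RE R (1 - 1) (bN 1 (lst b)) = RE R 0 (bN 1 (lst b)) := rfl
    rw [e0] at h5
    linarith
  sP := fun {p b} hb hp => by
    rw [L.P hb hp]
    exact siz_ch fun t ht => (size_ch ((tk hb hp).isb t ht)).1
  sN := fun {p b} hb hp => by
    rw [L.N hb hp]
    exact siz_ch fun t ht => (size_ch ((tk hb hp).isb t ht)).2
  sR := fun {p b} hb hp => by
    rw [L.R hb hp]
    exact siz_bN p _

/-! ### the joins of the children -/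

variable {K : ℕ → Λ → Λ → ℝ}

lemma jl_nonneg' {p : ℕ} (hK : Ker (K p)) {L : List (DT Λ κ)} (h : PBA L) :
    0 ≤ jl K JnH5.idk p L := by
  have h1 : ∀ c, PB (bc (JnH5.idk p) (bL p L) c) := fun c => PB_bc (h.bL p).self c
  have h2 : ∀ c, PB (bc (JnH5.idk p) (bB p L) c) := fun c => PB_bc (h.bB p).self c
  have h3 : ∀ c, PB (bc (JnH5.idk p) (bN p L) c) := fun c => PB_bc (h.bN p).self c
  unfold jl
  have a1 := bil_nonneg hK h1 h2
  have a2 := bil_nonneg hK h1 h3
  have a3 := bil_nonneg hK h2 h3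
  have a4 := bil_nonneg hK h1 h1
  linarith

lemma jl_nonneg (hK : ∀ p, Ker (K p)) {p : ℕ} {L : List (DT Λ κ)} (h : PBA L) :
    0 ≤ jl K JnH5.idk p L := jl_nonneg' (hK p) h

/-- **value of the joins of the children** : `Psi - jl` -/
theorem jc_sv (L : LB B lst Inv) (H : DI Inv)
    (tk : ∀ {p b}, B.ok p b → p ≠ 0 → TOk p (bB p (lst b)))
    (len : ∀ {p b}, B.ok p b → p ≠ 0 → (bN p (lst b)).length ≤ 1) (hk : ∀ p, Ker (K p)) :
    SV B (fun p b => (1 - 1 / (p : ℝ)) * jl K JnH5.idk p (lst (B.cP p b)) +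
        1 / (p : ℝ) * jl K JnH5.idk p (lst (B.cN p b)))
      (fun p b => Psi K JnH5.idk p (lst b) - jl K JnH5.idk p (lst b)) (fun b => siz (lst b)) where
  okP := L.okP
  okN := L.okN
  okR := L.okR
  v2 := fun {p b} hb h2 => by
    have hp : p ≠ 0 := by omega
    have hpp : 0 < p := by omega
    have h1 := Psi_step (K := K) (wr := JnH5.idk) hpp hk (H.pb (L.inv hb))
      (tk hb hp) (len hb hp)
    have n3 := jl_nonneg hk (p := p - 1) (H.pb (L.inv (L.okR hb hp)))
    show (1 - 1 / (p : ℝ)) * jl K JnH5.idk p (lst (B.cP p b)) +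
        1 / (p : ℝ) * jl K JnH5.idk p (lst (B.cN p b)) +
      ((1 - 1 / (p : ℝ)) * (Psi K JnH5.idk p (lst (B.cP p b)) - jl K JnH5.idk p (lst (B.cP p b))) +
      1 / (p : ℝ) * (Psi K JnH5.idk p (lst (B.cN p b)) - jl K JnH5.idk p (lst (B.cN p b)))) +
      (Psi K JnH5.idk (p - 1) (lst (B.rN p b)) - jl K JnH5.idk (p - 1) (lst (B.rN p b))) ≤
      Psi K JnH5.idk p (lst b) - jl K JnH5.idk p (lst b)
    rw [← L.P hb hp, ← L.N hb hp, ← L.R hb hp] at h1
    linarith
  v1 := fun {b} hb => by
    have h1 := Psi_step (K := K) (wr := JnH5.idk) one_pos hk (H.pb (L.inv hb))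
      (tk hb one_ne_zero) (len hb one_ne_zero)
    have h6 := H.no1 (L.inv hb)
    have n3 := jl_nonneg hk (p := 0) (H.pb (L.inv (L.okR hb one_ne_zero)))
    have eP : lst (B.cP 1 b) = [] := by rw [L.P hb one_ne_zero, h6]; rfl
    have eN : lst (B.cN 1 b) = [] := by rw [L.N hb one_ne_zero, h6]; rfl
    have e2 : Psi K JnH5.idk 1 ([] : List (DT Λ κ)) = 0 := JnH5.Psi_nil 1
    have e3 : jl K JnH5.idk 1 ([] : List (DT Λ κ)) = 0 := by
      have hz : bc (JnH5.idk 1) ([] : List (DT Λ κ)) = jv [] := JnH5.bc_id []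
      have hz' : bc (JnH5.idk 1) ([] : List (DT Λ κ)) = fun _ _ => 0 := by
        rw [hz]; funext c x; rfl
      have q1 : bL 1 ([] : List (DT Λ κ)) = [] := rfl
      have q2 : bB 1 ([] : List (DT Λ κ)) = [] := rfl
      have q3 : bN 1 ([] : List (DT Λ κ)) = [] := rfl
      unfold jl
      rw [q1, q2, q3, hz', bil_zero_left]
      ring
    show (1 - 1 / ((1 : ℕ) : ℝ)) * jl K JnH5.idk 1 (lst (B.cP 1 b)) +
        1 / ((1 : ℕ) : ℝ) * jl K JnH5.idk 1 (lst (B.cN 1 b)) +
      (Psi K JnH5.idk 1 (lst (B.cP 1 b)) - jl K JnH5.idk 1 (lst (B.cP 1 b))) +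
      (Psi K JnH5.idk 0 (lst (B.rN 1 b)) - jl K JnH5.idk 0 (lst (B.rN 1 b))) ≤
      Psi K JnH5.idk 1 (lst b) - jl K JnH5.idk 1 (lst b)
    rw [h6, List.map_nil, List.map_nil, e2, ← L.R hb one_ne_zero] at h1
    have e4 : (1 - 1 : ℕ) = 0 := rfl
    rw [e4] at h1
    rw [eP, eN, e2, e3]
    norm_num at h1 ⊢
    linarith
  sP := fun {p b} hb hp => by
    rw [L.P hb hp]
    exact siz_ch fun t ht => (size_ch ((tk hb hp).isb t ht)).1
  sN := fun {p b} hb hp => by
    rw [L.N hb hp]
    exact siz_ch fun t ht => (size_ch ((tk hb hp).isb t ht)).2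
  sR := fun {p b} hb hp => by
    rw [L.R hb hp]
    exact siz_bN p _

end sv

/-! ### cross energies of a child of the true tie with the pulls -/

section cross
variable {Λ κ : Type} [Fintype Λ] [DecidableEq Λ] [Fintype κ] [DecidableEq κ]
  {p : ℕ} {kd : Λ → κ} {Q : List (DT Λ κ)}

lemma rs_one {t : DT Λ κ} (h : t.top < p) : rs p t = [t] := by
  cases t with
  | leaf r f => rfl
  | br q w r t₁ t₀ v B G => rfl
  | add q r t₁ t₀ =>
    have h1 : q < p := h
    simp [rs, h1.ne]
  | up q Sp t =>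
    have h1 : q < p := h
    simp [rs, h1.ne]

lemma isB_low {t : DT Λ κ} (h : t.top < p) : isB p t = false := by
  cases t with
  | leaf r f => rfl
  | br q w r t₁ t₀ v B G =>
    have h1 : q < p := h
    simp [isB, h1.ne]
  | add q r t₁ t₀ => rfl
  | up q Sp t => rfl

lemma bL_app (A C : List (DT Λ κ)) : bL p (A ++ C) = bL p A ++ bL p C := by
  unfold bL bR
  rw [List.flatMap_append, List.filter_append, List.filter_append]

lemma bN_app (A C : List (DT Λ κ)) : bN p (A ++ C) = bN p A ++ bN p C := by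
  unfold bN bR
  rw [List.flatMap_append, List.filter_append, List.filter_append]

lemma bB_app (A C : List (DT Λ κ)) : bB p (A ++ C) = bB p A ++ bB p C := by
  unfold bB
  rw [List.flatMap_append, List.filter_append]

lemma one_low {t : DT Λ κ} (h : t.top < p) : bB p [t] = [] ∧
    ((isLf t = true ∧ bL p [t] = [t] ∧ bN p [t] = []) ∨
      (isLf t = false ∧ bL p [t] = [] ∧ bN p [t] = [t])) := by
  have e1 : [t].flatMap (rs p) = [t] := by
    rw [List.flatMap_cons, List.flatMap_nil, rs_one h, List.append_nil]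
  have e2 : bR p [t] = [t] := by
    unfold bR
    rw [e1, List.filter_cons_of_pos (by simp [isB_low h]), List.filter_nil]
  refine ⟨?_, ?_⟩
  · unfold bB
    rw [e1, List.filter_cons_of_neg (by simp [isB_low h]), List.filter_nil]
  · unfold bL bN
    rw [e2]
    cases hl : isLf t with
    | true =>
      refine Or.inl ⟨rfl, ?_, ?_⟩
      · rw [List.filter_cons_of_pos hl, List.filter_nil]
      · rw [List.filter_cons_of_neg (by simp [hl]), List.filter_nil]
    | false =>
      refine Or.inr ⟨rfl, ?_, ?_⟩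
      · rw [List.filter_cons_of_neg (by simp [hl]), List.filter_nil]
      · rw [List.filter_cons_of_pos (by simp [hl]), List.filter_nil]

lemma jv_mid (A C : List (DT Λ κ)) (t : DT Λ κ) :
    jv (A ++ t :: C) = fun j x => t.g.val j x + jv (A ++ C) j x := by
  funext j x
  rw [jv_append, jv_append, jv_cons]
  ring

lemma jv_one (t : DT Λ κ) : jv [t] = t.g.val := by
  funext j x
  rw [jv_cons, jv_nil, add_zero]

/-- **a low member of a bundle against the others** -/
theorem cross_aux {K : ℕ → Λ → Λ → ℝ} (hK : Ker (K p)) {A C : List (DT Λ κ)} {t : DT Λ κ}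
    (h : PBA (A ++ t :: C)) (ht : t.top < p) (len : (bN p (A ++ t :: C)).length ≤ 1) :
    4 * bil (K p) t.g.val (jv (A ++ C)) ≤ jl K JnH5.idk p (A ++ t :: C) := by
  have hAC : PBA (A ++ C) := fun s hs => h s (by
    rcases List.mem_append.1 hs with h1 | h1
    · exact List.mem_append_left _ h1
    · exact List.mem_append_right _ (List.mem_cons_of_mem _ h1))
  have ht' : ∀ j, PB (t.g.val j) := (h t (by simp)).self
  have pl : ∀ j, PB (jv (bL p (A ++ C)) j) := fun j => PB_jv (hAC.bL p).self j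
  have pm : ∀ j, PB (jv (bB p (A ++ C)) j) := fun j => PB_jv (hAC.bB p).self j
  have pr : ∀ j, PB (jv (bN p (A ++ C)) j) := fun j => PB_jv (hAC.bN p).self j
  obtain ⟨oB, o⟩ := one_low ht
  have e3 : jv (A ++ C) = fun j x => (jv (bL p (A ++ C)) j x + jv (bB p (A ++ C)) j x) +
      jv (bN p (A ++ C)) j x := by
    funext j x
    exact jv_split3 p (A ++ C) j x
  have eB : jv (bB p (A ++ t :: C)) = jv (bB p (A ++ C)) := by
    have e : A ++ t :: C = A ++ ([t] ++ C) := rfl
    rw [e, bB_app, bB_app, oB, List.nil_append, ← bB_app]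
  have plm : ∀ j, PB fun x => jv (bL p (A ++ C)) j x + jv (bB p (A ++ C)) j x :=
    fun j => (pl j).add (pm j)
  have e4 : bil (K p) t.g.val (jv (A ++ C)) = bil (K p) t.g.val (jv (bL p (A ++ C))) +
      bil (K p) t.g.val (jv (bB p (A ++ C))) + bil (K p) t.g.val (jv (bN p (A ++ C))) := by
    rw [e3, bil_add_right plm pr ht', bil_add_right pl pm ht']
  have e6 : ∀ M : List (DT Λ κ), bc (JnH5.idk p) M = jv M := fun M => JnH5.bc_id M
  have b1 := bil_nonneg hK pl pm
  have b2 := bil_nonneg hK pl pr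
  have b3 := bil_nonneg hK pm pr
  have b4 := bil_nonneg hK pl pl
  have b5 := bil_nonneg hK ht' ht'
  rw [e4]
  unfold jl
  rw [e6, e6, e6, eB]
  have eA : A ++ t :: C = A ++ ([t] ++ C) := rfl
  rcases o with ⟨-, oL, oN⟩ | ⟨-, oL, oN⟩
  · have eL : jv (bL p (A ++ t :: C)) = fun j x => t.g.val j x + jv (bL p (A ++ C)) j x := by
      rw [eA, bL_app, bL_app, oL, bL_app]
      exact jv_mid _ _ _
    have eN : bN p (A ++ t :: C) = bN p (A ++ C) := by
      rw [eA, bN_app, bN_app, oN, List.nil_append, ← bN_app]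
    rw [eL, eN, bil_add_left ht' pl pm, bil_add_left ht' pl pr, bil_add2 hK ht' pl]
    linarith
  · have eL : bL p (A ++ t :: C) = bL p (A ++ C) := by
      rw [eA, bL_app, bL_app, oL, List.nil_append, ← bL_app]
    have eN : jv (bN p (A ++ t :: C)) = fun j x => t.g.val j x + jv (bN p (A ++ C)) j x := by
      rw [eA, bN_app, bN_app, oN, bN_app]
      exact jv_mid _ _ _
    have z : bN p (A ++ C) = [] := by
      have h1 : (bN p (A ++ t :: C)).length = (bN p (A ++ C)).length + 1 := by
        rw [eA, bN_app, bN_app, oN, bN_app]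
        simp only [List.length_append, List.length_cons, List.length_nil]
        omega
      have h2 : (bN p (A ++ C)).length = 0 := by omega
      exact List.length_eq_zero_iff.1 h2
    have z1 : jv (bN p (A ++ C)) = fun _ _ => 0 := by rw [z]; rfl
    rw [eL, eN, bil_add_right ht' pr pl, bil_add_right ht' pr pm, z1, bil_zero_right,
      bil_zero_right, bil_zero_right, bil_symm hK (f := jv (bL p (A ++ C))) (g := t.g.val),
      bil_symm hK (f := jv (bB p (A ++ C))) (g := t.g.val)]
    linarith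

lemma KOk_sub {K' : List (DT Λ κ)} (h : KOk kd p Q) (s : K'.Sublist Q) : KOk kd p K' where
  bk := ⟨fun t ht => h.bk.ok t (s.subset ht), fun t ht => h.bk.cl t (s.subset ht),
    ((s.filter _).length_le).trans h.bk.one⟩
  pb := fun t ht => h.pb t (s.subset ht)
  vr := fun t ht => h.vr t (s.subset ht)

/-- **the tie and the pulls of a column** -/
theorem tie_split (h : KOk kd p Q) :
    (pA Q = (fun _ _ => 0) ∧ pB Q = fun _ _ => 0) ∨
    ∃ A t C, Q = A ++ t :: C ∧ wT t ≠ 0 ∧ pA Q = (chP t).g.val ∧ pB Q = (chN t).g.val ∧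
      jv ((A ++ C).map chP) = pQ Q ∧ jv ((A ++ C).map chN) = pQ Q := by
  by_cases hex : ∃ t ∈ Q, wT t ≠ 0
  · obtain ⟨t, ht, hw⟩ := hex
    obtain ⟨A, C, e⟩ := List.append_of_mem ht
    refine Or.inr ⟨A, t, C, e, hw, ?_⟩
    have hS : KOk kd p (A ++ C) := KOk_sub h (by
      rw [e]
      exact List.Sublist.append_left (List.sublist_cons_self t C) A)
    have h1 := h.bk.one
    have hl : ((A ++ C).filter fun t => decide (wT t ≠ 0)).length = 0 := by
      rw [e, List.filter_append, List.filter_cons_of_pos (by simpa using hw), List.length_append,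
        List.length_cons] at h1
      rw [List.filter_append, List.length_append]
      omega
    obtain ⟨i1, i2, -⟩ := no_tie hS hl
    have eF : ∀ f : DT Λ κ → Λ → ℝ → ℝ, ls f Q = fun j y => f t j y + ls f (A ++ C) j y := by
      intro f
      funext j y
      rw [e]
      unfold ls
      rw [List.map_append, List.map_append, List.map_cons, List.sum_append, List.sum_append,
        List.sum_cons]
      ring
    rcases node h ht with ⟨-, -, n1, n2, n3, -⟩ | ⟨hw', -⟩
    · have z1 : ls nA (A ++ C) = fun _ _ => 0 := i1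
      have z2 : ls nB (A ++ C) = fun _ _ => 0 := i2
      have q1 : pA Q = (chP t).g.val := by
        show ls nA Q = _
        rw [eF, z1]
        funext j y
        rw [add_zero, n1]
      have q2 : pB Q = (chN t).g.val := by
        show ls nB Q = _
        rw [eF, z2]
        funext j y
        rw [add_zero, n2]
      have q3 : pQ Q = pQ (A ++ C) := by
        show ls nQ Q = ls nQ (A ++ C)
        rw [eF]
        funext j y
        rw [n3, zero_add]
      refine ⟨q1, q2, ?_, ?_⟩
      · funext j y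
        rw [jv_chP hS, q3, i1, zero_add]
      · funext j y
        rw [jv_chN hS, q3, i2, zero_add]
    · exact absurd hw' hw
  · push Not at hex
    have hl : (Q.filter fun t => decide (wT t ≠ 0)).length = 0 := by
      rw [List.length_eq_zero_iff, List.filter_eq_nil_iff]
      intro t ht
      simpa using hex t ht
    obtain ⟨i1, i2, -⟩ := no_tie h hl
    exact Or.inl ⟨i1, i2⟩

/-- children of a true tie are strictly below its column -/
lemma top_ch {t : DT Λ κ} (hc : t.Col (p + 1)) (hb : isB p t = true) (hw : wT t ≠ 0) :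
    (chP t).top < p ∧ (chN t).top < p := by
  obtain ⟨w, r, t₁, t₀, v, B, G, rfl⟩ := isB_eq hb
  have hw' : w ≠ 0 := hw
  have e5 : chN (DT.br p w r t₁ t₀ v B G) = if w = 0 then t₁ else t₀ := rfl
  have hp : 0 < p := hc.1.pos
  rw [e5, if_neg hw']
  exact ⟨(hc.2.2.2.2 hw').1.top_lt hp, (hc.2.2.2.2 hw').2.top_lt hp⟩

/-- **cross energy of the N child of the tie with the pulls** -/
theorem cross_N {K : ℕ → Λ → Λ → ℝ} (hK : Ker (K p)) (h : KOk kd p Q)
    (hi : ∀ t ∈ Q, t.Col (p + 1)) (hP : PBA (Q.map chN))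
    (len : (bN p (Q.map chN)).length ≤ 1) :
    4 * bil (K p) (pB Q) (pQ Q) ≤ jl K JnH5.idk p (Q.map chN) := by
  rcases tie_split h with ⟨-, e⟩ | ⟨A, t, C, e, hw, -, e1, -, e2⟩
  · rw [e, bil_zero_left, mul_zero]
    exact jl_nonneg' hK hP
  · have ht : t ∈ Q := by rw [e]; simp
    have h1 := top_ch (hi t ht) (h.bk.ok t ht).2 hw
    rw [e1, ← e2]
    have e3 : Q.map chN = A.map chN ++ chN t :: C.map chN := by
      rw [e, List.map_append, List.map_cons]
    rw [e3] at hP len ⊢
    rw [List.map_append]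
    exact cross_aux hK hP h1.2 len

/-- **cross energy of the P child of the tie with the pulls** -/
theorem cross_P {K : ℕ → Λ → Λ → ℝ} (hK : Ker (K p)) (h : KOk kd p Q)
    (hi : ∀ t ∈ Q, t.Col (p + 1)) (hP : PBA (Q.map chP))
    (len : (bN p (Q.map chP)).length ≤ 1) :
    4 * bil (K p) (pA Q) (pQ Q) ≤ jl K JnH5.idk p (Q.map chP) := by
  rcases tie_split h with ⟨e, -⟩ | ⟨A, t, C, e, hw, e1, -, e2, -⟩
  · rw [e, bil_zero_left, mul_zero]
    exact jl_nonneg' hK hP
  · have ht : t ∈ Q := by rw [e]; simp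
    have h1 := top_ch (hi t ht) (h.bk.ok t ht).2 hw
    rw [e1, ← e2]
    have e3 : Q.map chP = A.map chP ++ chP t :: C.map chP := by
      rw [e, List.map_append, List.map_cons]
    rw [e3] at hP len ⊢
    rw [List.map_append]
    exact cross_aux hK hP h1.1 len

end cross

end Crest.Agent.R4P.PrG45
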