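import Crest.Agent.R4P.PrG_45
import Crest.Agent.R4P.PrF_45

/-!
R4 (S0004) with powers, T3, helper45: **the error `E0` of typed bundles with static column kernels**.

A pair of pieces of one member in one type above and in two types below has a kernel which depends on the
pieces and the column only:

* `KN p` : same type at the column `p`, different types at `p - 1`, both in the rest;
* `KB p` : same type above the tie, different types below it, both in the tie;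
* pairs of the tie and the pulls are paid by the value of the joins (kernel `K`, `PrG45.jc_sv`,
  `cross_N`, `cross_P`); pairs of the pulls do not separate.

**`E0_st`**, **`E0_st_root`** : `E0 ≤ Kw (so) + (8/δ + Ld) (4 (leU K + dC K) + rE (2 KN) + ts KB + 2 pn KB
+ Kw (I jb0))` ; no credits, no probabilities.

* `ls_rE`, `ls_ts`, `ls_pn` : linear bounds: local energies at most `Σ_i ε p i · ∫ (content of i)` give at
  most `Σ_i E i · ∫ (content of i)` with the path sums `E` of `ε`.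
-/

set_option autoImplicit false
set_option linter.unusedSectionVars false
set_option linter.unusedVariables false
open MeasureTheory Filter Set

namespace Crest.Agent.R4P.PrH45

open Crest.Agent.R4.Tour104 Crest.Agent.R4.Tour758 Crest.Agent.R4.Clos758
open Crest.Agent.R4.ClosL758
open Crest.Agent.R4P.Grp36 Crest.Agent.R4P.GWa343 Crest.Agent.R4P.GWb343 Crest.Agent.R4P.GWc343
open Crest.Agent.R4P.GMer27 Crest.Agent.R4P.GCol27 Crest.Agent.R4P.RSys343
open Crest.Agent.R4P.RXm55 Crest.Agent.R4P.RXm55.RXm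
open Crest.Agent.R4P.MSi343 (su su_add)
open Crest.Agent.R4P.ModeR16 (Ld Ld_pos)
open Crest.Agent.R4P.MSm25 Crest.Agent.R4P.PayR45 Crest.Agent.R4P.GSK55
open Crest.Agent.R4P.DTp26 (jv PB_jv hz)
open Crest.Agent.R4P.MSd343 Crest.Agent.R4P.Bp407 Crest.Agent.R4P.VR407
open Crest.Agent.R4P.RGf25 Crest.Agent.R4P.RGp25
open Crest.Agent.R4P.JnE5 Crest.Agent.R4P.JnF5 Crest.Agent.R4P.JnH5
open Crest.Agent.R4P.PVd45 Crest.Agent.R4P.PVe45 Crest.Agent.R4P.PrE45 Crest.Agent.R4P.PrD45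
open Crest.Agent.R4P.PrF45 Crest.Agent.R4P.PrG45
open Crest.Agent.R4P.LogL51 (isLf)
open Crest.Agent.R4P.Walk560 (DT)

/-! ### the separated pairs of one bundle -/

section st
variable {Λ κ : Type} [Fintype Λ] [DecidableEq Λ] [Fintype κ] [DecidableEq κ]
  {β δ : Type} [Fintype δ] [DecidableEq δ]
  {R : RXm β δ} {pr : β → List (DT Λ κ)} {kO : ℕ → β → ℝ → Λ → Option δ}
  {K : ℕ → Λ → Λ → ℝ} {U : RBm R} {Inv : ℕ → List (DT Λ κ) → Prop} {kd : ℕ → Λ → κ}
  {KN KB : ℕ → Λ → Λ → ℝ}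

/-- **point maps of typed bundles** : contents `(j, true)` of the tie (and of the rest),
`(j, false)` of the pulls -/
structure PX (P : PMap U (Λ × Bool)) (pr : β → List (DT Λ κ)) : Prop where
  n1 : ∀ {p b}, R.ok p b → p ≠ 0 → ∀ j x, P.vN p b (j, true) x = jv (bN p (pr b)) j x
  n0 : ∀ {p b}, R.ok p b → p ≠ 0 → ∀ j x, P.vN p b (j, false) x = 0
  b1 : ∀ {p b}, R.ok p b → p ≠ 0 → ∀ j x,
    P.vB p b (j, true) x + pQ (bB p (pr b)) j (p * x) = jv (bB p (pr b)) j x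
  b0 : ∀ {p b}, R.ok p b → p ≠ 0 → ∀ j x, P.vB p b (j, false) x = pQ (bB p (pr b)) j (p * x)

/-- **static column kernels** of the separated pairs -/
structure ST (P : PMap U (Λ × Bool)) (pr : β → List (DT Λ κ)) (K KN KB : ℕ → Λ → Λ → ℝ) : Prop where
  kN : ∀ p, Ker (KN p)
  kB : ∀ p, Ker (KB p)
  /-- pairs of the rest -/
  sN : ∀ {p b}, R.ok p b → p ≠ 0 → ∀ i j x, P.vN p b (i, true) x ≠ 0 → P.vN p b (j, true) x ≠ 0 →
    P.kO p b x (i, true) ≠ none → P.kO p b x (i, true) = P.kO p b x (j, true) →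
    (P.kN p b x (i, true) ≠ P.kN p b x (j, true) ∨ P.kN p b x (i, true) = none) → 1 ≤ KN p i j
  /-- pairs of the tie -/
  sB : ∀ {p b}, R.ok p b → p ≠ 0 → ∀ i j x, P.vB p b (i, true) x ≠ 0 → P.vB p b (j, true) x ≠ 0 →
    P.kO p b x (i, true) ≠ none → P.kO p b x (i, true) = P.kO p b x (j, true) →
    P.kR p b x (i, true) ≠ P.kR p b x (j, true) → 1 ≤ KB p i j
  /-- pairs of the tie and the pulls -/
  sX : ∀ {p b}, R.ok p b → p ≠ 0 → ∀ i j x, P.vB p b (i, true) x ≠ 0 → P.vB p b (j, false) x ≠ 0 →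
    P.kO p b x (i, true) ≠ none → P.kO p b x (i, true) = P.kO p b x (j, false) →
    P.kR p b x (i, true) ≠ P.kR p b x (j, false) → 1 ≤ K p i j
  /-- the pulls do not separate -/
  sQ : ∀ {p b}, R.ok p b → p ≠ 0 → ∀ i j x, P.vB p b (i, false) x ≠ 0 →
    P.vB p b (j, false) x ≠ 0 → P.kO p b x (i, false) ≠ none →
    P.kO p b x (i, false) = P.kO p b x (j, false) →
    P.kR p b x (i, false) = P.kR p b x (j, false)

lemma sum_pb {α : Type} [Fintype α] (g : α × Bool → α × Bool → ℝ) :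
    ∑ i, ∑ j, g i j = ∑ i, ∑ j, ((g (i, true) (j, true) + g (i, true) (j, false)) +
      (g (i, false) (j, true) + g (i, false) (j, false))) := by
  rw [Fintype.sum_prod_type]
  refine Finset.sum_congr rfl fun i _ => ?_
  rw [Fintype.sum_bool, Fintype.sum_prod_type, Fintype.sum_prod_type, ← Finset.sum_add_distrib]
  refine Finset.sum_congr rfl fun j _ => ?_
  rw [Fintype.sum_bool, Fintype.sum_bool]

variable {P : PMap U (Λ × Bool)}

/-- **separated pairs of the rest** -/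
theorem prsN_st (X : PX P pr) (S : ST P pr K KN KB) {p : ℕ} {b : β} (hb : R.ok p b) (hp : p ≠ 0)
    (x : ℝ) : prsN P.fl p b x ≤
      2 * ∑ i, ∑ j, KN p i j * (jv (bN p (pr b)) i x * jv (bN p (pr b)) j x) := by
  classical
  refine (P.prN hb hp x).trans (mul_le_mul_of_nonneg_left ?_ (by norm_num))
  rw [sum_pb]
  refine Finset.sum_le_sum fun i _ => Finset.sum_le_sum fun j _ => ?_
  have z : ∀ j, P.vN p b (j, false) x = 0 := fun j => X.n0 hb hp j x
  have n1 := (P.pvN hb hp (i, true)).nonneg x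
  have n2 := (P.pvN hb hp (j, true)).nonneg x
  simp only [z, mul_zero, zero_mul, ite_self, add_zero]
  rw [← X.n1 hb hp, ← X.n1 hb hp]
  have hk := (S.kN p).nn i j
  split_ifs with h
  · by_cases h1 : P.vN p b (i, true) x = 0
    · rw [h1]; simp
    by_cases h2 : P.vN p b (j, true) x = 0
    · rw [h2]; simp
    have h3 := S.sN hb hp i j x h1 h2 h.1 h.2.1 h.2.2
    calc P.vN p b (i, true) x * P.vN p b (j, true) x =
        1 * (P.vN p b (i, true) x * P.vN p b (j, true) x) := (one_mul _).symm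
      _ ≤ _ := mul_le_mul_of_nonneg_right h3 (mul_nonneg n1 n2)
  · exact mul_nonneg hk (mul_nonneg n1 n2)

/-- **separated pairs of the ties and pulls** -/
theorem prsB_st (S : ST P pr K KN KB) (hK : ∀ p, Ker (K p)) {p : ℕ} {b : β}
    (hb : R.ok p b) (hp : p ≠ 0) (x : ℝ) : prs (P.fl.fB p) b x ≤
      2 * ∑ i, ∑ j, KB p i j * (P.vB p b (i, true) x * P.vB p b (j, true) x) +
      2 * ∑ i, ∑ j, K p i j * (P.vB p b (i, true) x * P.vB p b (j, false) x) +
      2 * ∑ i, ∑ j, K p i j * (P.vB p b (i, false) x * P.vB p b (j, true) x) := by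
  classical
  refine (P.prB hb hp x).trans ?_
  rw [← mul_add, ← mul_add, sum_pb, ← Finset.sum_add_distrib, ← Finset.sum_add_distrib]
  refine mul_le_mul_of_nonneg_left (Finset.sum_le_sum fun i _ => ?_) (by norm_num)
  rw [← Finset.sum_add_distrib, ← Finset.sum_add_distrib]
  refine Finset.sum_le_sum fun j _ => ?_
  have n1 := (P.pvB hb hp (i, true)).nonneg x
  have n2 := (P.pvB hb hp (j, true)).nonneg x
  have n3 := (P.pvB hb hp (i, false)).nonneg x
  have n4 := (P.pvB hb hp (j, false)).nonneg x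
  have hk := (S.kB p).nn i j
  have hk' := (hK p).nn i j
  have hk'' := (hK p).sy i j
  have a1 : (if P.kO p b x (i, true) ≠ none ∧ P.kO p b x (i, true) = P.kO p b x (j, true) ∧
      P.kR p b x (i, true) ≠ P.kR p b x (j, true) then
      P.vB p b (i, true) x * P.vB p b (j, true) x else 0) ≤
      KB p i j * (P.vB p b (i, true) x * P.vB p b (j, true) x) := by
    split_ifs with h
    · by_cases h1 : P.vB p b (i, true) x = 0
      · rw [h1]; simp
      by_cases h2 : P.vB p b (j, true) x = 0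
      · rw [h2]; simp
      have h3 := S.sB hb hp i j x h1 h2 h.1 h.2.1 h.2.2
      have h4 := mul_le_mul_of_nonneg_right h3 (mul_nonneg n1 n2)
      linarith
    · exact mul_nonneg hk (mul_nonneg n1 n2)
  have a2 : (if P.kO p b x (i, true) ≠ none ∧ P.kO p b x (i, true) = P.kO p b x (j, false) ∧
      P.kR p b x (i, true) ≠ P.kR p b x (j, false) then
      P.vB p b (i, true) x * P.vB p b (j, false) x else 0) ≤
      K p i j * (P.vB p b (i, true) x * P.vB p b (j, false) x) := by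
    split_ifs with h
    · by_cases h1 : P.vB p b (i, true) x = 0
      · rw [h1]; simp
      by_cases h2 : P.vB p b (j, false) x = 0
      · rw [h2]; simp
      have h3 := S.sX hb hp i j x h1 h2 h.1 h.2.1 h.2.2
      have h4 := mul_le_mul_of_nonneg_right h3 (mul_nonneg n1 n4)
      linarith
    · exact mul_nonneg hk' (mul_nonneg n1 n4)
  have a3 : (if P.kO p b x (i, false) ≠ none ∧ P.kO p b x (i, false) = P.kO p b x (j, true) ∧
      P.kR p b x (i, false) ≠ P.kR p b x (j, true) then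
      P.vB p b (i, false) x * P.vB p b (j, true) x else 0) ≤
      K p i j * (P.vB p b (i, false) x * P.vB p b (j, true) x) := by
    split_ifs with h
    · by_cases h1 : P.vB p b (i, false) x = 0
      · rw [h1]; simp
      by_cases h2 : P.vB p b (j, true) x = 0
      · rw [h2]; simp
      have h3 := S.sX hb hp j i x h2 h1 (by rw [← h.2.1]; exact h.1) h.2.1.symm h.2.2.symm
      rw [← hk''] at h3
      have h4 := mul_le_mul_of_nonneg_right h3 (mul_nonneg n3 n2)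
      linarith
    · exact mul_nonneg hk' (mul_nonneg n3 n2)
  have a4 : (if P.kO p b x (i, false) ≠ none ∧ P.kO p b x (i, false) = P.kO p b x (j, false) ∧
      P.kR p b x (i, false) ≠ P.kR p b x (j, false) then
      P.vB p b (i, false) x * P.vB p b (j, false) x else 0) ≤ 0 := by
    split_ifs with h
    · by_cases h1 : P.vB p b (i, false) x = 0
      · rw [h1]; simp
      by_cases h2 : P.vB p b (j, false) x = 0
      · rw [h2]; simp
      exact absurd (S.sQ hb hp i j x h1 h2 h.1 h.2.1) h.2.2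
    · exact le_rfl
  linarith

/-! ### integrated -/

lemma I_2 (K' : Λ → Λ → ℝ) (hK' : Ker K') {f g : Λ → ℝ → ℝ} (hf : ∀ i, PB (f i))
    (hg : ∀ i, PB (g i)) : PB (fun x => ∑ i, ∑ j, K' i j * (f i x * g j x)) ∧
    I (fun x => ∑ i, ∑ j, K' i j * (f i x * g j x)) = bil K' f g := by
  have h1 : ∀ i j, PB fun x => K' i j * (f i x * g j x) := fun i j =>
    ((hf i).mul (hg j)).smul (hK'.nn i j)
  refine ⟨PB.sum _ fun i _ => PB.sum _ fun j _ => h1 i j, ?_⟩
  rw [I_sum2 h1]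
  unfold bil
  exact Finset.sum_congr rfl fun i _ => Finset.sum_congr rfl fun j _ => I_smul _ _

/-- **rest energies** -/
noncomputable def RN (KN : ℕ → Λ → Λ → ℝ) (p : ℕ) (v : Λ → ℝ → ℝ) : ℝ := 2 * bil (KN p) v v

/-- **energies of the two children** of a tie -/
noncomputable def FB (KB : ℕ → Λ → Λ → ℝ) (q : ℕ) (a b : Λ → ℝ → ℝ) : ℝ :=
  (1 - 1 / (q : ℝ)) * (2 * bil (KB q) a a) + 1 / (q : ℝ) * (2 * bil (KB q) b b)

theorem I_prsN_st (H : KP R pr kO K) (X : PX P pr) (S : ST P pr K KN KB) {p : ℕ} {b : β}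
    (hb : R.ok p b) (hp : p ≠ 0) : I (prsN P.fl p b) ≤ RN KN p (jv (bN p (pr b))) := by
  have h1 : ∀ j, PB (jv (bN p (pr b)) j) := fun j => PB_jv ((H.pba hb).bN p).self j
  obtain ⟨h2, h3⟩ := I_2 (KN p) (S.kN p) h1 h1
  unfold RN
  rw [← h3, ← I_smul]
  exact I_mono (PB_prsN1 (F := P.fl) hb hp).integrableOn (h2.smul (by norm_num)).integrableOn fun x =>
    prsN_st X S hb hp x

/-- the content of the tie -/
lemma vB_eq (X : PX P pr) {p : ℕ} {b : β} (hb : R.ok p b) (hp : p ≠ 0)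
    (hK : KOk (kd p) p (bB p (pr b))) (j : Λ) : P.vB p b (j, true) =
      vF p (kd p) (pA (bB p (pr b))) (pB (bB p (pr b))) (pG (bB p (pr b))) j := by
  funext x
  have h1 := X.b1 hb hp j x
  have h2 := (jv_K hK j x).1
  linarith

/-- the energy of the tie -/
lemma bil_tie {K' : Λ → Λ → ℝ} (hK' : Ker K') {p : ℕ} {Q : List (DT Λ κ)}
    (h : KOk (kd p) p Q) (hp : 0 < p) {F : Λ → ℝ → ℝ}
    (hF : ∀ j, F j = vF p (kd p) (pA Q) (pB Q) (pG Q) j) (pF : ∀ j, PB (F j)) :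
    bil K' F F ≤ (1 - 1 / (p : ℝ)) * bil K' (pA Q) (pA Q) + 1 / (p : ℝ) * bil K' (pB Q) (pB Q) +
      1 / (p : ℝ) * (2 * bil K' (pA Q) (pB Q)) := by
  have T := td h hp
  obtain ⟨w0, w1⟩ := w_facts hp.ne'
  have a : ∀ j, PB (pA Q j) := T.pa
  have b : ∀ j, PB (pB Q j) := T.pb
  have e1 : bil K' (pB Q) (pA Q) = bil K' (pA Q) (pB Q) := bil_symm hK'
  have key : bil K' F F ≤ (1 - 1 / (p : ℝ)) * bil K' (pA Q) (pA Q) +
      1 / (p : ℝ) * bil K' (pB Q) (pB Q) +
      1 / (p : ℝ) * (bil K' (pA Q) (pB Q) + bil K' (pB Q) (pA Q)) := by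
    unfold bil
    rw [← Finset.sum_add_distrib, Finset.mul_sum, Finset.mul_sum, Finset.mul_sum,
      ← Finset.sum_add_distrib, ← Finset.sum_add_distrib]
    refine Finset.sum_le_sum fun i _ => ?_
    rw [← Finset.sum_add_distrib, Finset.mul_sum, Finset.mul_sum, Finset.mul_sum,
      ← Finset.sum_add_distrib, ← Finset.sum_add_distrib]
    refine Finset.sum_le_sum fun j _ => ?_
    have h1 : I (fun x => F i x * F j x) ≤ (1 - 1 / (p : ℝ)) * I (fun x => pA Q i x * pA Q j x) +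
        1 / (p : ℝ) * I (fun x => pB Q i x * pB Q j x) +
        1 / (p : ℝ) * (I (fun x => pA Q i x * pB Q j x) + I (fun x => pB Q i x * pA Q j x)) := by
      have p1 := ((a i).mul (a j)).smul w1
      have p2 := ((b i).mul (b j)).smul w0
      have p3 := (((a i).mul (b j)).add ((b i).mul (a j))).smul w0
      rw [← I_Ep hp ((pF i).mul (pF j)).integrableOn,
        ← I_add ((a i).mul (b j)).integrableOn ((b i).mul (a j)).integrableOn,
        ← I_smul (1 - 1 / (p : ℝ)), ← I_smul (1 / (p : ℝ)), ← I_smul (1 / (p : ℝ)),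
        ← I_add p1.integrableOn p2.integrableOn, ← I_add (p1.add p2).integrableOn p3.integrableOn]
      refine I_mono (((pF i).mul (pF j)).Ep hp).integrableOn
        ((p1.add p2).add p3).integrableOn fun y => ?_
      have h2 := row_vF T (kd p) i j y
      rw [hF i, hF j]
      exact h2
    have h2 := mul_le_mul_of_nonneg_left h1 (hK'.nn i j)
    refine h2.trans (le_of_eq ?_)
    ring
  rw [e1] at key
  linarith

/-- **the separated pairs of a bundle at its tie** -/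
theorem I_prsB_st (H : KP R pr kO K) (L : LB (bm R) pr Inv) (HI : DI Inv)
    (hK : ∀ {p b}, (bm R).ok p b → p ≠ 0 → KOk (kd p) p (bB p (pr b)))
    (X : PX P pr) (S : ST P pr K KN KB) {p : ℕ} {b : β}
    (hb : R.ok p b) (hp : p ≠ 0) : I (prs (P.fl.fB p) b) ≤
      FB KB p (pA (bB p (pr b))) (pB (bB p (pr b))) +
      2 * (1 / (p : ℝ) * (2 * bil (KB p) (pA (bB p (pr b))) (pB (bB p (pr b))))) +
      ((1 - 1 / (p : ℝ)) * jl K idk p (pr ((bm R).cP p b)) +
        1 / (p : ℝ) * jl K idk p (pr ((bm R).cN p b))) := by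
  have hb' : (bm R).ok p b := hb
  have hp0 : 0 < p := Nat.pos_of_ne_zero hp
  obtain ⟨w0, w1⟩ := w_facts hp
  set Q := bB p (pr b) with hQ
  have k := hK hb' hp
  rw [← hQ] at k
  set F : Λ → ℝ → ℝ := fun j => P.vB p b (j, true) with hF
  set G : Λ → ℝ → ℝ := fun j => P.vB p b (j, false) with hG
  have pF : ∀ j, PB (F j) := fun j => P.pvB hb hp (j, true)
  have pG' : ∀ j, PB (G j) := fun j => P.pvB hb hp (j, false)
  have eF : ∀ j, F j = vF p (kd p) (pA Q) (pB Q) (pG Q) j := fun j => vB_eq X hb hp k j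
  obtain ⟨q1, i1⟩ := I_2 (KB p) (S.kB p) pF pF
  obtain ⟨q2, i2⟩ := I_2 (K p) (H.ker p) pF pG'
  obtain ⟨q3, i3⟩ := I_2 (K p) (H.ker p) pG' pF
  have h1 : I (prs (P.fl.fB p) b) ≤ 2 * bil (KB p) F F + 2 * bil (K p) F G +
      2 * bil (K p) G F := by
    rw [← i1, ← i2, ← i3, ← I_smul, ← I_smul, ← I_smul,
      ← I_add (q1.smul zero_le_two).integrableOn (q2.smul zero_le_two).integrableOn,
      ← I_add ((q1.smul zero_le_two).add (q2.smul zero_le_two)).integrableOn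
        (q3.smul zero_le_two).integrableOn]
    exact I_mono (PB_prs1 (P.fl.pB hb hp)).integrableOn
      (((q1.smul zero_le_two).add (q2.smul zero_le_two)).add (q3.smul zero_le_two)).integrableOn
      fun x => prsB_st S H.ker hb hp x
  have h2 : bil (K p) F G = bil (K p) G F := bil_symm (H.ker p)
  have T := td k hp0
  have h3 : bil (K p) G F = (1 - 1 / (p : ℝ)) * bil (K p) (pQ Q) (pA Q) +
      1 / (p : ℝ) * bil (K p) (pQ Q) (pB Q) :=
    bil_cross hp0 k.PQ pF T.pa T.pb (fun j x => X.b0 hb hp j x) fun j y => by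
      rw [eF j]
      exact T.Ep_v (kd p) j y
  have h4 := bil_tie (S.kB p) k hp0 eF pF
  have hi : ∀ t ∈ Q, t.Col (p + 1) := fun t ht => (HI.bB_facts (L.inv hb') hp t ht).2.2.2.1
  have eP : pr ((bm R).cP p b) = Q.map chP := L.P hb' hp
  have eN : pr ((bm R).cN p b) = Q.map chN := L.N hb' hp
  have oP : R.ok p (R.cP p b) := R.okP hb hp
  have oN : R.ok p (R.cN p b) := R.okN hb hp
  have h5 : 4 * bil (K p) (pA Q) (pQ Q) ≤ jl K idk p (pr ((bm R).cP p b)) := by
    rw [eP]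
    refine cross_P (H.ker p) k hi ?_ ?_
    · have := H.pba oP
      rwa [show pr (R.cP p b) = Q.map chP from eP] at this
    · have := H.len oP hp
      rwa [show pr (R.cP p b) = Q.map chP from eP] at this
  have h6 : 4 * bil (K p) (pB Q) (pQ Q) ≤ jl K idk p (pr ((bm R).cN p b)) := by
    rw [eN]
    refine cross_N (H.ker p) k hi ?_ ?_
    · have := H.pba oN
      rwa [show pr (R.cN p b) = Q.map chN from eN] at this
    · have := H.len oN hp
      rwa [show pr (R.cN p b) = Q.map chN from eN] at this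
  have h7 := mul_le_mul_of_nonneg_left h5 w1
  have h8 := mul_le_mul_of_nonneg_left h6 w0
  have e1 : bil (K p) (pA Q) (pQ Q) = bil (K p) (pQ Q) (pA Q) := bil_symm (H.ker p)
  have e2 : bil (K p) (pB Q) (pQ Q) = bil (K p) (pQ Q) (pB Q) := bil_symm (H.ker p)
  rw [e1] at h7
  rw [e2] at h8
  unfold FB
  rw [h2, h3] at h1
  linarith

/-! ### `E0` -/

lemma leaf_parts {L : List (DT Λ κ)} (h : ∀ t ∈ L, isLf t = true) (p : ℕ) :
    bL p L = L ∧ bB p L = [] ∧ bN p L = [] := by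
  have e1 : L.flatMap (rs p) = L := by
    induction L with
    | nil => rfl
    | cons t L ih =>
      rw [List.flatMap_cons, (GWd343.rs_leaf p (h t (by simp))).1,
        ih fun s hs => h s (List.mem_cons_of_mem _ hs)]
      rfl
  have e2 : GWa343.bR p L = L := by
    unfold GWa343.bR
    rw [e1, List.filter_eq_self]
    intro t ht
    simp [(GWd343.rs_leaf p (h t ht)).2]
  refine ⟨?_, ?_, ?_⟩
  · unfold bL
    rw [e2, List.filter_eq_self]
    exact fun t ht => h t ht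
  · unfold bB
    rw [e1, List.filter_eq_nil_iff]
    intro t ht
    simp [(GWd343.rs_leaf p (h t ht)).2]
  · unfold bN
    rw [e2, List.filter_eq_nil_iff]
    intro t ht
    simp [h t ht]

lemma Psi_leaves {K : ℕ → Λ → Λ → ℝ} {L : List (DT Λ κ)} (h : ∀ t ∈ L, isLf t = true) (p : ℕ) :
    Psi K idk p L = jl K idk p L := by
  obtain ⟨e1, e2, e3⟩ := leaf_parts h p
  have e7 : (L.map (ph K idk p)).sum = 0 := by
    refine List.sum_eq_zero fun y hy => ?_
    obtain ⟨t, ht, rfl⟩ := List.mem_map.1 hy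
    exact ph_leaf (h t ht)
  have e6 : ∀ M : List (DT Λ κ), bc (idk p) M = jv M := fun M => bc_id M
  have z : jv ([] : List (DT Λ κ)) = fun _ _ => 0 := rfl
  unfold Psi E2 jl
  rw [e7, e1, e2, e3, e6, e6, z, bil_zero_right, bil_zero_right]
  ring

lemma RN_zero (p : ℕ) : RN KN p (fun _ _ => 0) = 0 := by
  unfold RN
  rw [bil_zero_left, mul_zero]

lemma FB_zero (p : ℕ) : FB KB p (fun _ _ => 0) (fun _ _ => 0) = 0 := by
  unfold FB
  rw [bil_zero_left]
  ring

/-- **the value of the in-member terms** -/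
noncomputable def Vs (K KN KB : ℕ → Λ → Λ → ℝ) (p : ℕ) (L : List (DT Λ κ)) : ℝ :=
  2 * Psi K idk p L + RE (RN KN) p L + TS (FB KB) L + 2 * PNs KB L

/-- **`E0` with static column kernels** -/
theorem E0_st (H : KP R pr kO K) (L : LB (bm R) pr Inv) (HI : DI Inv)
    (hK : ∀ {p b}, (bm R).ok p b → p ≠ 0 → KOk (kd p) p (bB p (pr b)))
    (X : PX P pr) (S : ST P pr K KN KB) (D : RGx U) {del : ℝ} {Km : ℕ} (h0 : 0 < del)
    (h1 : del ≤ 1) (hdK : del * U.B0 ≤ 2 ^ Km)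
    (eN : ∀ {p s}, D.ok p s → p ≠ 0 →
      I (D.jm Km p s) ≤ GMer27.M s.c fun j => I (prsN P.fl p (s.L j)))
    (eB : ∀ {p s}, D.ok p s → p ≠ 0 →
      I (D.jmB Km p s) ≤ GMer27.M s.c fun j => I (prs (P.fl.fB p) (s.L j)))
    (n p : ℕ) (s : Gs β) (hs : D.ok p s) (hn : ∀ j, siz (pr (s.L j)) + p ≤ n) :
    Pay45.E0 (D.ms h0 h1 hdK) n p (p, s) ≤ Kw (bm R) (so U) n p s +
      (8 / del + Ld del) * (GMer27.M s.c (fun j => Vs K KN KB p (pr (s.L j))) +
        Kw (bm R) (fun p s => I (R.jb0 p s)) n p s) := by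
  have tk : ∀ {p b}, (bm R).ok p b → p ≠ 0 → TOk p (bB p (pr b)) := fun h hp => H.tk h hp
  have len : ∀ {p b}, (bm R).ok p b → p ≠ 0 → (bN p (pr b)).length ≤ 1 := fun h hp => H.len h hp
  have S1 := H.sv
  have S2 := jc_sv L HI tk len H.ker
  have S3 := rE_sv (R := RN KN) L HI hK tk len RN_zero
  have S4 := ts_sv (F := FB KB) L HI hK tk FB_zero
  have S5 := sv_smul (show (0:ℝ) ≤ 2 by norm_num) (pn_sv (K' := KB) L HI hK tk)
  have SS := sv_add (sv_add (sv_add (sv_add S1 S2) S3) S4) S5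
  have L0 := Ld_pos h0
  have c8 : 0 ≤ 8 / del := by positivity
  have key := E0_le D h0 h1 hdK SS (er := fun p s => I (R.jb0 p s)) (fun {p s} hs hp => ?_)
    (fun {p s} hs h => ?_) n p s hs hn
  · refine key.trans (add_le_add le_rfl (mul_le_mul_of_nonneg_left ?_ (by linarith)))
    refine add_le_add ?_ le_rfl
    refine M_mono (D.gk hs).1.c0 fun j => ?_
    have h2 : (bm R).ok p (s.L j) := (D.gk hs).2 j
    have h3 : 0 ≤ jl K idk p (pr (s.L j)) := jl_nonneg H.ker (H.pba ((D.gk hs).2 j))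
    show Psi K idk p (pr (s.L j)) + (Psi K idk p (pr (s.L j)) - jl K idk p (pr (s.L j))) +
      RE (RN KN) p (pr (s.L j)) + TS (FB KB) (pr (s.L j)) + 2 * PNs KB (pr (s.L j)) ≤ _
    unfold Vs
    linarith
  · have hg := D.gk hs
    have c0 := hg.1.c0
    have h2 := H.inm_le hg hp
    have e1 : inm D Km p s = (I (R.jn p s) + lfE R p s) + oth D Km p s := by
      unfold inm oth
      ring
    have h3 : oth D Km p s ≤ GMer27.M s.c (fun j => I (prsN P.fl p (s.L j)) +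
        I (prs (P.fl.fB p) (s.L j))) + I (R.jb0 p s) := by
      have a1 := eN hs hp
      have a2 := eB hs hp
      rw [M_add]
      unfold oth
      linarith
    have h4 : GMer27.M s.c (fun j => I (prsN P.fl p (s.L j)) +
        I (prs (P.fl.fB p) (s.L j))) ≤ GMer27.M s.c (fun j => RN KN p (jv (bN p (pr (s.L j)))) +
        (FB KB p (pA (bB p (pr (s.L j)))) (pB (bB p (pr (s.L j)))) +
      2 * (1 / (p : ℝ) * (2 * bil (KB p) (pA (bB p (pr (s.L j)))) (pB (bB p (pr (s.L j)))))) +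
      ((1 - 1 / (p : ℝ)) * jl K idk p (pr ((bm R).cP p (s.L j))) +
        1 / (p : ℝ) * jl K idk p (pr ((bm R).cN p (s.L j)))))) :=
      M_mono c0 fun j => add_le_add (I_prsN_st H X S (hg.2 j) hp)
        (I_prsB_st H L HI hK X S (hg.2 j) hp)
    have e2 : GMer27.M s.c (fun j => jl K idk p (pr (s.L j)) +
        ((1 - 1 / (p : ℝ)) * jl K idk p (pr ((bm R).cP p (s.L j))) +
        1 / (p : ℝ) * jl K idk p (pr ((bm R).cN p (s.L j)))) +
        RN KN p (jv (bN p (pr (s.L j)))) +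
        FB KB p (pA (bB p (pr (s.L j)))) (pB (bB p (pr (s.L j)))) +
        2 * (1 / (p : ℝ) * (2 * bil (KB p) (pA (bB p (pr (s.L j))))
          (pB (bB p (pr (s.L j))))))) =
        GMer27.M s.c (fun j => jl K idk p (pr (s.L j))) +
        GMer27.M s.c (fun j => RN KN p (jv (bN p (pr (s.L j)))) +
        (FB KB p (pA (bB p (pr (s.L j)))) (pB (bB p (pr (s.L j)))) +
      2 * (1 / (p : ℝ) * (2 * bil (KB p) (pA (bB p (pr (s.L j)))) (pB (bB p (pr (s.L j)))))) +
      ((1 - 1 / (p : ℝ)) * jl K idk p (pr ((bm R).cP p (s.L j))) +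
        1 / (p : ℝ) * jl K idk p (pr ((bm R).cN p (s.L j)))))) := by
      rw [← M_add]
      congr 1
      funext j
      ring
    rw [e1, e2]
    linarith
  · have c0 := (D.gk hs).1.c0
    refine (H.bse_le (D.gk hs) h).trans (M_mono c0 fun j => ?_)
    have hb : R.ok p (s.L j) := (D.gk hs).2 j
    have hlf : ∀ t ∈ pr (s.L j), isLf t = true := by
      rcases h with h0 | h0
      · subst h0; exact H.lf0 hb
      · have := siz_zero (h0 j)
        rw [this]
        simp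
    have z1 : PNs KB (pr (s.L j)) = 0 := by
      refine List.sum_eq_zero fun y hy => ?_
      obtain ⟨t, ht, rfl⟩ := List.mem_map.1 hy
      obtain ⟨r, f, rfl⟩ := isLf_eq (hlf t ht)
      rfl
    have z2 : TS (FB KB) (pr (s.L j)) = 0 := TS_leaves hlf
    have z3 : RE (RN KN) p (pr (s.L j)) = 0 := RE_leaves hlf
    have z4 := Psi_leaves (K := K) hlf p
    show Psi K idk p (pr (s.L j)) ≤ Psi K idk p (pr (s.L j)) +
      (Psi K idk p (pr (s.L j)) - jl K idk p (pr (s.L j))) +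
      RE (RN KN) p (pr (s.L j)) + TS (FB KB) (pr (s.L j)) + 2 * PNs KB (pr (s.L j))
    rw [z1, z2, z3, z4]
    linarith

/-- the value of one tree -/
lemma Vs_single (K KN KB : ℕ → Λ → Λ → ℝ) (p : ℕ) (t : DT Λ κ) : Vs K KN KB p [t] =
    4 * (leU K idk p t + dC K idk t) + rE (RN KN) p t + ts (FB KB) t + 2 * pn KB t := by
  unfold Vs
  rw [Psi_single, RE_cons, RE_nil, TS_cons, TS_nil, PNs_cons, PNs_nil]
  ring

/-- **the form at the root** -/
theorem E0_st_root (H : KP R pr kO K) (L : LB (bm R) pr Inv) (HI : DI Inv)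
    (hK : ∀ {p b}, (bm R).ok p b → p ≠ 0 → KOk (kd p) p (bB p (pr b)))
    (X : PX P pr) (S : ST P pr K KN KB) (D : RGx U) {del : ℝ} {Km : ℕ} (h0 : 0 < del)
    (h1 : del ≤ 1) (hdK : del * U.B0 ≤ 2 ^ Km)
    (eN : ∀ {p s}, D.ok p s → p ≠ 0 →
      I (D.jm Km p s) ≤ GMer27.M s.c fun j => I (prsN P.fl p (s.L j)))
    (eB : ∀ {p s}, D.ok p s → p ≠ 0 →
      I (D.jmB Km p s) ≤ GMer27.M s.c fun j => I (prs (P.fl.fB p) (s.L j)))
    (n p : ℕ) (b : β) (t : DT Λ κ) (hb : pr b = [t]) (hs : D.ok p (one b)) (hn : t.size + p ≤ n) :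
    Pay45.E0 (D.ms h0 h1 hdK) n p (p, one b) ≤ Kw (bm R) (so U) n p (one b) +
      (8 / del + Ld del) * (4 * (leU K idk p t + dC K idk t) + rE (RN KN) p t +
        ts (FB KB) t + 2 * pn KB t + Kw (bm R) (fun p s => I (R.jb0 p s)) n p (one b)) := by
  have h2 := E0_st H L HI hK X S D h0 h1 hdK eN eB n p (one b) hs (fun j => by
    have e : pr ((one b).L j) = [t] := hb
    rw [e]
    show siz [t] + p ≤ n
    simpa [siz] using hn)
  rw [one_M b (fun b' => Vs K KN KB p (pr b')), hb, Vs_single] at h2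
  exact h2

/-- the hypotheses `eN`, `eB` for a system given by prices -/
lemma eN_prc (Q : Prc49.Prc P) {Km p : ℕ} {s : Gs β} (hs : Q.ok p s) (hp : p ≠ 0) :
    I (Q.rg.jm Km p s) ≤ GMer27.M s.c fun j => I (prsN P.fl p (s.L j)) := by
  have hg := Q.gk hs
  have e1 : I (Q.rg.jm Km p s) = GMer27.M s.c fun j => I (prsN P.fl p (s.L j)) :=
    I_su hg.1.c0 fun j => PB_prsN1 (F := P.fl) (hg.2 j) hp
  exact e1.le

lemma eB_prc (Q : Prc49.Prc P) {Km p : ℕ} {s : Gs β} (hs : Q.ok p s) (hp : p ≠ 0) :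
    I (Q.rg.jmB Km p s) ≤ GMer27.M s.c fun j => I (prs (P.fl.fB p) (s.L j)) := by
  have hg := Q.gk hs
  have e1 : I (Q.rg.jmB Km p s) = GMer27.M s.c fun j => I (prs (P.fl.fB p) (s.L j)) :=
    I_su hg.1.c0 fun j => PB_prs1 (P.fl.pB (hg.2 j) hp)
  exact e1.le

end st

/-! ### linear bounds -/

section lin
variable {Λ κ : Type} [Fintype Λ] [DecidableEq Λ] [Fintype κ] [DecidableEq κ] {ε : ℕ → Λ → ℝ}

/-- path sums of the rates -/
noncomputable def Es (ε : ℕ → Λ → ℝ) (p : ℕ) (i : Λ) : ℝ := ∑ q ∈ Finset.Ioc 0 p, ε q i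

/-- linear functional of a node -/
noncomputable def lf1 (c : Λ → ℝ) (t : DT Λ κ) : ℝ := ∑ i, c i * I (t.g.val i)

lemma Es_mono (h : ∀ q i, 0 ≤ ε q i) {q p : ℕ} (hqp : q ≤ p) (i : Λ) : Es ε q i ≤ Es ε p i :=
  Finset.sum_le_sum_of_subset_of_nonneg (Finset.Ioc_subset_Ioc_right hqp) fun q _ _ => h q i

lemma Es_nonneg (h : ∀ q i, 0 ≤ ε q i) (p : ℕ) (i : Λ) : 0 ≤ Es ε p i :=
  Finset.sum_nonneg fun q _ => h q i

lemma Es_split {q p : ℕ} (hqp : q ≤ p) (i : Λ) :
    Es ε p i = Es ε q i + ∑ p' ∈ Finset.Ioc q p, ε p' i := by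
  unfold Es
  rw [← Finset.sum_union (Finset.disjoint_left.2 fun a h1 h2 => by
    rw [Finset.mem_Ioc] at h1 h2
    omega)]
  congr 1
  ext a
  simp only [Finset.mem_union, Finset.mem_Ioc]
  omega

lemma Es_succ {q : ℕ} (hq : 0 < q) (i : Λ) : Es ε q i = Es ε (q - 1) i + ε q i := by
  rw [Es_split (Nat.sub_le q 1) i]
  congr 1
  have e : Finset.Ioc (q - 1) q = {q} := by
    ext a
    simp only [Finset.mem_Ioc, Finset.mem_singleton]
    omega
  rw [e, Finset.sum_singleton]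

/-- linear functional of the children of a node -/
lemma lf1_br {q : ℕ} {w : ℝ} {r : Λ → κ} {t₁ t₀ : DT Λ κ} {v : Λ → ℝ → ℝ} {B G : κ → ℝ → ℝ}
    (hi : IMean (DT.br q w r t₁ t₀ v B G)) (h1 : ∀ j, PB (t₁.g.val j)) (h0 : ∀ j, PB (t₀.g.val j))
    (hv : ∀ j, PB (v j)) (c : Λ → ℝ) :
    (1 - w) * lf1 c t₁ + w * lf1 c t₀ = lf1 c (DT.br q w r t₁ t₀ v B G) := by
  obtain ⟨hq, w0, w1, hm⟩ := hi
  unfold lf1
  rw [Finset.mul_sum, Finset.mul_sum, ← Finset.sum_add_distrib]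
  refine Finset.sum_congr rfl fun i _ => ?_
  have e : I ((DT.br q w r t₁ t₀ v B G).g.val i) = (1 - w) * I (t₁.g.val i) + w * I (t₀.g.val i) := by
    show I (v i) = _
    rw [← I_Ep hq (hv i).integrableOn]
    have e2 : Ep q (v i) = fun y => (1 - w) * t₁.g.val i y + w * t₀.g.val i y :=
      funext fun y => hm i y
    rw [e2, I_add ((h1 i).smul (by linarith)).integrableOn ((h0 i).smul w0).integrableOn, I_smul,
      I_smul]
  rw [e]
  ring

lemma lf1_add {q : ℕ} {r : Λ → κ} {t₁ t₀ : DT Λ κ} (h1 : ∀ j, PB (t₁.g.val j))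
    (h0 : ∀ j, PB (t₀.g.val j)) (c : Λ → ℝ) :
    lf1 c t₁ + lf1 c t₀ = lf1 c (DT.add q r t₁ t₀) := by
  unfold lf1
  rw [← Finset.sum_add_distrib]
  refine Finset.sum_congr rfl fun i _ => ?_
  have e : I ((DT.add q r t₁ t₀).g.val i) = I (t₁.g.val i) + I (t₀.g.val i) := by
    rw [← I_add (h1 i).integrableOn (h0 i).integrableOn]
    rfl
  rw [e]
  ring

lemma lf1_mono {c c' : Λ → ℝ} (h : ∀ i, c i ≤ c' i) {t : DT Λ κ} (hp : ∀ j, PB (t.g.val j)) :
    lf1 c t ≤ lf1 c' t :=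
  Finset.sum_le_sum fun i _ => mul_le_mul_of_nonneg_right (h i) (I_nonneg fun x => (hp i).nonneg x)

lemma lf1_nonneg {c : Λ → ℝ} (h : ∀ i, 0 ≤ c i) {t : DT Λ κ} (hp : ∀ j, PB (t.g.val j)) :
    0 ≤ lf1 c t :=
  Finset.sum_nonneg fun i _ => mul_nonneg (h i) (I_nonneg fun x => (hp i).nonneg x)

lemma lf1_sum (s : Finset ℕ) (c : ℕ → Λ → ℝ) (t : DT Λ κ) :
    lf1 (fun i => ∑ q ∈ s, c q i) t = ∑ q ∈ s, lf1 (c q) t := by
  unfold lf1
  rw [Finset.sum_comm]
  refine Finset.sum_congr rfl fun i _ => ?_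
  rw [Finset.sum_mul]

lemma lf1_addc (c c' : Λ → ℝ) (t : DT Λ κ) :
    lf1 (fun i => c i + c' i) t = lf1 c t + lf1 c' t := by
  unfold lf1
  rw [← Finset.sum_add_distrib]
  exact Finset.sum_congr rfl fun i _ => by ring

/-- a property of the nodes at the columns between their parent and themselves -/
def Cb (F : ℕ → DT Λ κ → Prop) : ℕ → DT Λ κ → Prop
  | _, .leaf _ _ => True
  | p, .br q w r t₁ t₀ v B G' => (∀ p' ∈ Finset.Ioc q p, F p' (.br q w r t₁ t₀ v B G')) ∧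
      Cb F q t₁ ∧ Cb F q t₀
  | p, .add q r t₁ t₀ => (∀ p' ∈ Finset.Ioc q p, F p' (.add q r t₁ t₀)) ∧ Cb F q t₁ ∧ Cb F q t₀
  | p, .up q Sp t => (∀ p' ∈ Finset.Ioc q p, F p' (.up q Sp t)) ∧ Cb F q t

/-- **linear bound of the energies of the rest** -/
theorem ls_rE (h : ∀ q i, 0 ≤ ε q i) {R : ℕ → (Λ → ℝ → ℝ) → ℝ} :
    ∀ {p : ℕ} {t : DT Λ κ}, t.Col (p + 1) → t.All IMean →
      (t.All fun t => ∀ j, PB (t.g.val j)) →
      Cb (fun p' t => R p' t.g.val ≤ lf1 (ε p') t) p t → rE R p t ≤ lf1 (Es ε p) t := by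
  intro p t
  induction t generalizing p with
  | leaf r f => exact fun _ _ hp _ => lf1_nonneg (Es_nonneg h p) hp.self
  | br q w r t₁ t₀ v B G ih₁ ih₀ =>
    intro hc hi hp hF
    have hq : q ≤ p := Nat.lt_succ_iff.1 hc.2.1
    have a1 := ih₁ hc.2.2.1 hi.2.1 hp.2.1 hF.2.1
    have a0 := ih₀ hc.2.2.2.1 hi.2.2 hp.2.2 hF.2.2
    obtain ⟨hq0, w0, w1, -⟩ := hi.1
    have e := lf1_br hi.1 hp.2.1.self hp.2.2.self hp.1 (Es ε q)
    have b1 := mul_le_mul_of_nonneg_left a1 (show 0 ≤ 1 - w by linarith)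
    have b0 := mul_le_mul_of_nonneg_left a0 w0
    have h2 : cols R q p (DT.br q w r t₁ t₀ v B G).g.val ≤
        lf1 (fun i => ∑ p' ∈ Finset.Ioc q p, ε p' i) (DT.br q w r t₁ t₀ v B G) := by
      rw [lf1_sum]
      exact Finset.sum_le_sum fun p' hp' => hF.1 p' hp'
    have e2 : lf1 (Es ε p) (DT.br q w r t₁ t₀ v B G) = lf1 (Es ε q) (DT.br q w r t₁ t₀ v B G) +
        lf1 (fun i => ∑ p' ∈ Finset.Ioc q p, ε p' i) (DT.br q w r t₁ t₀ v B G) := by
      rw [← lf1_addc]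
      unfold lf1
      exact Finset.sum_congr rfl fun i _ => by rw [Es_split hq i]
    show cols R q p (DT.br q w r t₁ t₀ v B G).g.val + ((1 - w) * rE R q t₁ + w * rE R q t₀) ≤ _
    linarith
  | add q r t₁ t₀ ih₁ ih₀ =>
    intro hc hi hp hF
    have hq : q ≤ p := Nat.lt_succ_iff.1 hc.2.1
    have a1 := ih₁ hc.2.2.1 hi.2.1 hp.2.1 hF.2.1
    have a0 := ih₀ hc.2.2.2 hi.2.2 hp.2.2 hF.2.2
    have e := lf1_add (q := q) (r := r) hp.2.1.self hp.2.2.self (Es ε q)
    have h2 : cols R q p (DT.add q r t₁ t₀).g.val ≤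
        lf1 (fun i => ∑ p' ∈ Finset.Ioc q p, ε p' i) (DT.add q r t₁ t₀) := by
      rw [lf1_sum]
      exact Finset.sum_le_sum fun p' hp' => hF.1 p' hp'
    have e2 : lf1 (Es ε p) (DT.add q r t₁ t₀) = lf1 (Es ε q) (DT.add q r t₁ t₀) +
        lf1 (fun i => ∑ p' ∈ Finset.Ioc q p, ε p' i) (DT.add q r t₁ t₀) := by
      rw [← lf1_addc]
      unfold lf1
      exact Finset.sum_congr rfl fun i _ => by rw [Es_split hq i]
    show cols R q p (DT.add q r t₁ t₀).g.val + (rE R q t₁ + rE R q t₀) ≤ _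
    linarith
  | up q Sp t ih =>
    intro hc hi hp hF
    have hq : q ≤ p := Nat.lt_succ_iff.1 hc.2.1
    have a1 := ih (p := q) (hc.2.2.mono (Nat.le_succ q)) hi.2 hp.2 hF.2
    have h2 : cols R q p (DT.up q Sp t).g.val ≤
        lf1 (fun i => ∑ p' ∈ Finset.Ioc q p, ε p' i) (DT.up q Sp t) := by
      rw [lf1_sum]
      exact Finset.sum_le_sum fun p' hp' => hF.1 p' hp'
    have e1 : lf1 (Es ε q) t = lf1 (Es ε q) (DT.up q Sp t) := rfl
    have e2 : lf1 (Es ε p) (DT.up q Sp t) = lf1 (Es ε q) (DT.up q Sp t) +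
        lf1 (fun i => ∑ p' ∈ Finset.Ioc q p, ε p' i) (DT.up q Sp t) := by
      rw [← lf1_addc]
      unfold lf1
      exact Finset.sum_congr rfl fun i _ => by rw [Es_split hq i]
    show cols R q p (DT.up q Sp t).g.val + rE R q t ≤ _
    linarith

/-- local bound at the true ties -/
def TsN (F : ℕ → (Λ → ℝ → ℝ) → (Λ → ℝ → ℝ) → ℝ) (ε : ℕ → Λ → ℝ) : DT Λ κ → Prop
  | .br q w r t₁ t₀ v B G' => w ≠ 0 → F q t₁.g.val t₀.g.val ≤ lf1 (ε q) (.br q w r t₁ t₀ v B G')
  | _ => True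

/-- **linear bound of the energies at the true ties** (a column is a true tie at most once) -/
theorem ls_ts (h : ∀ q i, 0 ≤ ε q i) {F : ℕ → (Λ → ℝ → ℝ) → (Λ → ℝ → ℝ) → ℝ} :
    ∀ {p : ℕ} {t : DT Λ κ}, t.Col (p + 1) → t.All IMean →
      (t.All fun t => ∀ j, PB (t.g.val j)) → t.All (TsN F ε) → ts F t ≤ lf1 (Es ε p) t := by
  classical
  intro p t
  induction t generalizing p with
  | leaf r f => exact fun _ _ hp _ => lf1_nonneg (Es_nonneg h p) hp.self
  | br q w r t₁ t₀ v B G ih₁ ih₀ =>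
    intro hc hi hp hF
    have hq : q ≤ p := Nat.lt_succ_iff.1 hc.2.1
    obtain ⟨hq0, w0, w1, -⟩ := hi.1
    have hvb : ∀ j, PB ((DT.br q w r t₁ t₀ v B G).g.val j) := hp.1
    by_cases hw : w = 0
    · have a1 := ih₁ hc.2.2.1 hi.2.1 hp.2.1 hF.2.1
      have e := lf1_br hi.1 hp.2.1.self hp.2.2.self hp.1 (Es ε q)
      have e2 := lf1_mono (Es_mono h hq) hvb
      have e3 : ts F (DT.br q w r t₁ t₀ v B G) = (1 - w) * ts F t₁ + w * ts F t₀ +
          if w = 0 then 0 else F q t₁.g.val t₀.g.val := by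
        show (1 - w) * ts F t₁ + w * ts F t₀ + (if w = 0 then 0 else F q t₁.g.val t₀.g.val) = _
        congr
      rw [e3, if_pos hw]
      subst hw
      linarith
    · have hcc := hc.2.2.2.2 hw
      have e9 : q - 1 + 1 = q := by omega
      have a1 := ih₁ (p := q - 1) (by rw [e9]; exact hcc.1) hi.2.1 hp.2.1 hF.2.1
      have a0 := ih₀ (p := q - 1) (by rw [e9]; exact hcc.2) hi.2.2 hp.2.2 hF.2.2
      have e := lf1_br hi.1 hp.2.1.self hp.2.2.self hp.1 (Es ε (q - 1))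
      have b1 := mul_le_mul_of_nonneg_left a1 (show 0 ≤ 1 - w by linarith)
      have b0 := mul_le_mul_of_nonneg_left a0 w0
      have e2 := lf1_mono (Es_mono h hq) hvb
      have e3 : ts F (DT.br q w r t₁ t₀ v B G) = (1 - w) * ts F t₁ + w * ts F t₀ +
          if w = 0 then 0 else F q t₁.g.val t₀.g.val := by
        show (1 - w) * ts F t₁ + w * ts F t₀ + (if w = 0 then 0 else F q t₁.g.val t₀.g.val) = _
        congr
      have e4 : lf1 (Es ε q) (DT.br q w r t₁ t₀ v B G) =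
          lf1 (Es ε (q - 1)) (DT.br q w r t₁ t₀ v B G) +
          lf1 (ε q) (DT.br q w r t₁ t₀ v B G) := by
        rw [← lf1_addc]
        unfold lf1
        exact Finset.sum_congr rfl fun i _ => by rw [Es_succ hq0 i]
      have h5 := hF.1 hw
      rw [e3, if_neg hw]
      linarith
  | add q r t₁ t₀ ih₁ ih₀ =>
    intro hc hi hp hF
    have hq : q ≤ p := Nat.lt_succ_iff.1 hc.2.1
    have a1 := ih₁ hc.2.2.1 hi.2.1 hp.2.1 hF.2.1
    have a0 := ih₀ hc.2.2.2 hi.2.2 hp.2.2 hF.2.2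
    have e := lf1_add (q := q) (r := r) hp.2.1.self hp.2.2.self (Es ε q)
    have e2 := lf1_mono (Es_mono h hq) (t := DT.add q r t₁ t₀) hp.1
    show ts F t₁ + ts F t₀ ≤ _
    linarith
  | up q Sp t ih =>
    intro hc hi hp hF
    have hq : q ≤ p := Nat.lt_succ_iff.1 hc.2.1
    have a1 := ih (p := q) (hc.2.2.mono (Nat.le_succ q)) hi.2 hp.2 hF.2
    have e2 := lf1_mono (Es_mono h hq) (t := DT.up q Sp t) hp.1
    have e1 : lf1 (Es ε q) t = lf1 (Es ε q) (DT.up q Sp t) := rfl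
    show ts F t ≤ _
    linarith

/-- local bound of the P against N energies -/
def PnN (K' : ℕ → Λ → Λ → ℝ) (ε : ℕ → Λ → ℝ) : DT Λ κ → Prop
  | .br q w r t₁ t₀ v B G' => w ≠ 0 →
      w * (2 * bil (K' q) t₁.g.val t₀.g.val) ≤ lf1 (ε q) (.br q w r t₁ t₀ v B G')
  | _ => True

/-- **linear bound of the P against N energies** -/
theorem ls_pn (h : ∀ q i, 0 ≤ ε q i) {K' : ℕ → Λ → Λ → ℝ} :
    ∀ {p : ℕ} {t : DT Λ κ}, t.Col (p + 1) → t.All IMean →
      (t.All fun t => ∀ j, PB (t.g.val j)) → t.All (PnN K' ε) → pn K' t ≤ lf1 (Es ε p) t := by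
  intro p t
  induction t generalizing p with
  | leaf r f => exact fun _ _ hp _ => lf1_nonneg (Es_nonneg h p) hp.self
  | br q w r t₁ t₀ v B G ih₁ ih₀ =>
    intro hc hi hp hF
    have hq : q ≤ p := Nat.lt_succ_iff.1 hc.2.1
    obtain ⟨hq0, w0, w1, -⟩ := hi.1
    have hvb : ∀ j, PB ((DT.br q w r t₁ t₀ v B G).g.val j) := hp.1
    have e3 : pn K' (DT.br q w r t₁ t₀ v B G) = (1 - w) * pn K' t₁ + w * pn K' t₀ +
        w * (2 * bil (K' q) t₁.g.val t₀.g.val) := rfl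
    by_cases hw : w = 0
    · have a1 := ih₁ hc.2.2.1 hi.2.1 hp.2.1 hF.2.1
      have e := lf1_br hi.1 hp.2.1.self hp.2.2.self hp.1 (Es ε q)
      have e2 := lf1_mono (Es_mono h hq) hvb
      rw [e3]
      subst hw
      linarith
    · have hcc := hc.2.2.2.2 hw
      have e9 : q - 1 + 1 = q := by omega
      have a1 := ih₁ (p := q - 1) (by rw [e9]; exact hcc.1) hi.2.1 hp.2.1 hF.2.1
      have a0 := ih₀ (p := q - 1) (by rw [e9]; exact hcc.2) hi.2.2 hp.2.2 hF.2.2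
      have e := lf1_br hi.1 hp.2.1.self hp.2.2.self hp.1 (Es ε (q - 1))
      have b1 := mul_le_mul_of_nonneg_left a1 (show 0 ≤ 1 - w by linarith)
      have b0 := mul_le_mul_of_nonneg_left a0 w0
      have e2 := lf1_mono (Es_mono h hq) hvb
      have e4 : lf1 (Es ε q) (DT.br q w r t₁ t₀ v B G) =
          lf1 (Es ε (q - 1)) (DT.br q w r t₁ t₀ v B G) +
          lf1 (ε q) (DT.br q w r t₁ t₀ v B G) := by
        rw [← lf1_addc]
        unfold lf1
        exact Finset.sum_congr rfl fun i _ => by rw [Es_succ hq0 i]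
      have h5 := hF.1 hw
      rw [e3]
      linarith
  | add q r t₁ t₀ ih₁ ih₀ =>
    intro hc hi hp hF
    have hq : q ≤ p := Nat.lt_succ_iff.1 hc.2.1
    have a1 := ih₁ hc.2.2.1 hi.2.1 hp.2.1 hF.2.1
    have a0 := ih₀ hc.2.2.2 hi.2.2 hp.2.2 hF.2.2
    have e := lf1_add (q := q) (r := r) hp.2.1.self hp.2.2.self (Es ε q)
    have e2 := lf1_mono (Es_mono h hq) (t := DT.add q r t₁ t₀) hp.1
    show pn K' t₁ + pn K' t₀ ≤ _
    linarith
  | up q Sp t ih =>
    intro hc hi hp hF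
    have hq : q ≤ p := Nat.lt_succ_iff.1 hc.2.1
    have a1 := ih (p := q) (hc.2.2.mono (Nat.le_succ q)) hi.2 hp.2 hF.2
    have e2 := lf1_mono (Es_mono h hq) (t := DT.up q Sp t) hp.1
    have e1 : lf1 (Es ε q) t = lf1 (Es ε q) (DT.up q Sp t) := rfl
    show pn K' t ≤ _
    linarith

end lin

/-! ### the typed trees -/

section typ
open Crest.Agent.R4P.DTn407 Crest.Agent.R4P.DTm407 Crest.Agent.R4P.RGd25
variable {μ Λ κ ζ : Type} [Fintype Λ] [DecidableEq Λ] [Fintype κ] [DecidableEq κ]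
  [Fintype ζ] [DecidableEq ζ] {wr : ℕ → Λ → κ} {D : DTm407.TD μ Λ κ ζ}
  {Inv : ℕ → μ × List (DT Λ κ) → Prop} {H : TYp wr D Inv} {hNo : NoOut D Inv} {U : RBm (rxm H)}

/-- the point maps of the typed trees -/
theorem PX_pmdx : PX (pmdx H U) (fun b : μ × List (DT Λ κ) => b.2) where
  n1 := fun _ _ _ _ => rfl
  n0 := fun _ _ _ _ => rfl
  b1 := fun {p b} _ _ j x => vTp_jv (bB p b.2) j x
  b0 := fun _ _ _ _ => rfl

theorem PX_pmd : PX (pmd H hNo U) (fun b : μ × List (DT Λ κ) => b.2) := PX_pmdx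

/-- **static column kernels of the types**, pieces may enter the game in the rest -/
theorem ST_pmdx {K KN KB : ℕ → Λ → Λ → ℝ} (kN : ∀ p, Ker (KN p)) (kB : ∀ p, Ker (KB p))
    (sN : ∀ {p b}, Inv p b → p ≠ 0 → ∀ i j x, jv (bN p b.2) i x ≠ 0 → jv (bN p b.2) j x ≠ 0 →
      D.tp p b.1 x i ≠ none → D.tp p b.1 x i = D.tp p b.1 x j →
      (D.tp (p - 1) b.1 x i ≠ D.tp (p - 1) b.1 x j ∨ D.tp (p - 1) b.1 x i = none) → 1 ≤ KN p i j)
    (sB : ∀ {p b}, Inv p b → p ≠ 0 → ∀ i j x, vT p (bB p b.2) i x ≠ 0 → vT p (bB p b.2) j x ≠ 0 →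
      D.tp p b.1 x i ≠ none → D.tp p b.1 x i = D.tp p b.1 x j →
      D.pt wr p b x i ≠ D.pt wr p b x j → 1 ≤ KB p i j)
    (sX : ∀ {p b}, Inv p b → p ≠ 0 → ∀ i j x, vT p (bB p b.2) i x ≠ 0 →
      pQ (bB p b.2) j (p * x) ≠ 0 → D.tp p b.1 x i ≠ none → D.tp p b.1 x i = D.tp p b.1 x j →
      D.pt wr p b x i ≠ D.lt p b.1 (p * x) j → 1 ≤ K p i j)
    (sQ : ∀ {p b}, Inv p b → p ≠ 0 → ∀ i j x, pQ (bB p b.2) i (p * x) ≠ 0 →
      pQ (bB p b.2) j (p * x) ≠ 0 → D.tp p b.1 x i ≠ none → D.tp p b.1 x i = D.tp p b.1 x j →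
      D.lt p b.1 (p * x) i = D.lt p b.1 (p * x) j) :
    ST (pmdx H U) (fun b : μ × List (DT Λ κ) => b.2) K KN KB where
  kN := kN
  kB := kB
  sN := fun hb hp i j x h1 h2 h3 h4 h5 => sN hb hp i j x h1 h2 h3 h4 h5
  sB := fun hb hp i j x h1 h2 h3 h4 h5 => sB hb hp i j x h1 h2 h3 h4 h5
  sX := fun hb hp i j x h1 h2 h3 h4 h5 => sX hb hp i j x h1 h2 h3 h4 h5
  sQ := fun hb hp i j x h1 h2 h3 h4 => sQ hb hp i j x h1 h2 h3 h4

/-- **static column kernels of the types** -/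
theorem ST_pmd {K KN KB : ℕ → Λ → Λ → ℝ} (kN : ∀ p, Ker (KN p)) (kB : ∀ p, Ker (KB p))
    (sN : ∀ {p b}, Inv p b → p ≠ 0 → ∀ i j x, jv (bN p b.2) i x ≠ 0 → jv (bN p b.2) j x ≠ 0 →
      D.tp p b.1 x i ≠ none → D.tp p b.1 x i = D.tp p b.1 x j →
      D.tp (p - 1) b.1 x i ≠ D.tp (p - 1) b.1 x j → 1 ≤ KN p i j)
    (sB : ∀ {p b}, Inv p b → p ≠ 0 → ∀ i j x, vT p (bB p b.2) i x ≠ 0 → vT p (bB p b.2) j x ≠ 0 →
      D.tp p b.1 x i ≠ none → D.tp p b.1 x i = D.tp p b.1 x j →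
      D.pt wr p b x i ≠ D.pt wr p b x j → 1 ≤ KB p i j)
    (sX : ∀ {p b}, Inv p b → p ≠ 0 → ∀ i j x, vT p (bB p b.2) i x ≠ 0 →
      pQ (bB p b.2) j (p * x) ≠ 0 → D.tp p b.1 x i ≠ none → D.tp p b.1 x i = D.tp p b.1 x j →
      D.pt wr p b x i ≠ D.lt p b.1 (p * x) j → 1 ≤ K p i j)
    (sQ : ∀ {p b}, Inv p b → p ≠ 0 → ∀ i j x, pQ (bB p b.2) i (p * x) ≠ 0 →
      pQ (bB p b.2) j (p * x) ≠ 0 → D.tp p b.1 x i ≠ none → D.tp p b.1 x i = D.tp p b.1 x j →
      D.lt p b.1 (p * x) i = D.lt p b.1 (p * x) j) :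
    ST (pmd H hNo U) (fun b : μ × List (DT Λ κ) => b.2) K KN KB :=
  ST_pmdx kN kB (fun hb hp i j x h1 h2 h3 h4 h5 => sN hb hp i j x h1 h2 h3 h4
    (h5.resolve_right (hNo hb hp x i h1 h3))) sB sX sQ

end typ

end Crest.Agent.R4P.PrH45
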