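import Crest.Agent.R4P.PrM_45
import Crest.Agent.R4P.RtP_28
import Crest.Agent.R4P.AsM_407

/-!
R4 (S0004) with powers, T3, helper45: **the second order pairs of a rule whose types are the real indices**.

* `RI r` : labels = real states (also below the ties), constant tags;
* **`SpD.cls`** : a second order pair of such a rule has one index and different real classes;
* **`hT_ix`** (field `hT` of `FmS`) : energy of the kernels `tA KTr`, from `RtP28.tgtPN`.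
-/

set_option autoImplicit false
set_option linter.unusedSectionVars false
set_option linter.unusedVariables false
open MeasureTheory Filter Set

namespace Crest.Agent.R4P.PrN45

open Crest.Agent.R4.Tour104 Crest.Agent.R4.Tour758 Crest.Agent.R4.Clos758 Crest.Agent.R4.ClosL758
open Crest.Agent.R4P.Grp36 Crest.Agent.R4P.GWa343 Crest.Agent.R4P.GWb343
open Crest.Agent.R4P.GWc343 hiding SB
open Crest.Agent.R4P.GWd343 Crest.Agent.R4P.GCol27 Crest.Agent.R4P.TrR343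
open Crest.Agent.R4P.DTp26 Crest.Agent.R4P.VR407 Crest.Agent.R4P.Bp407 Crest.Agent.R4P.MSd343
open Crest.Agent.R4P.DTm407 Crest.Agent.R4P.DTn407 Crest.Agent.R4P.DTn407.TD'
open Crest.Agent.R4P.DTo407 Crest.Agent.R4P.DTo407.TD'
open Crest.Agent.R4P.DTs407
open Crest.Agent.R4P.Walk560 (DT)
open Crest.Agent.R4P.RXm55 Crest.Agent.R4P.MSm25 Crest.Agent.R4P.RSys343
open Crest.Agent.R4.Avg758 Crest.Agent.R4.ClosG758 Crest.Agent.R4.ClosR758
open Crest.Agent.R4P.ClosR442 Crest.Agent.R4P.PN36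
open Crest.Agent.R4P.GWf343 Crest.Agent.R4P.GWg343
open Crest.Agent.R4P.Cnt588 Crest.Agent.R4P.Item758 Crest.Agent.R4P.W363
open Crest.Agent.R4P.Bld532 (NS All NodeOk Bk)
open Crest.Agent.R4P.WalkIT579 (tp isL)
open Crest.Agent.R4P.StratN36 (ex)
open Crest.Agent.R4P.Step588 Crest.Agent.R4P.RseSt23
open Crest.Agent.R4P.TYI47 Crest.Agent.R4P.TYJ47 Crest.Agent.R4P.TYK47 Crest.Agent.R4P.TYP9
open Crest.Agent.R4P.RsT47
open Crest.Agent.R4P.StE6 Crest.Agent.R4P.StF6 Crest.Agent.R4P.StG6 Crest.Agent.R4P.StJ6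
open Crest.Agent.R4P.StB21 (LvF)
open Crest.Agent.R4P.Skel189 Crest.Agent.R4P.Frame758 Crest.Agent.R4P.Data758
open Crest.Agent.R4.Soft104 Crest.Agent.R4.Fam464
open Crest.Agent.R4P.StratX36 Crest.Agent.R4P.TopX36
open Crest.Agent.R4P.RGf25 Crest.Agent.R4P.RGp25 Crest.Agent.R4P.RGd25 Crest.Agent.R4P.Prc49
open Crest.Agent.R4P.AsB407 Crest.Agent.R4P.AsC407 Crest.Agent.R4P.AsD407
open Crest.Agent.R4P.AsE407 Crest.Agent.R4P.AsI407 Crest.Agent.R4P.AsK407 Crest.Agent.R4P.AsM407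
open Crest.Agent.R4P.JnA5 (ixf)
open Crest.Agent.R4P.JnE5 Crest.Agent.R4P.PrD45 Crest.Agent.R4P.PrH45 Crest.Agent.R4P.PrJ45
open Crest.Agent.R4P.PrK45 Crest.Agent.R4P.PrL45 Crest.Agent.R4P.PrM45
open Crest.Agent.R4P.RtP28 (KRt tgtPN)
open Crest.Agent.R4P.Fin5 (CF)

variable {N : Skel189.Num} {γ : ℝ} {p0 P₀ : ℕ} {X : Ctx N γ p0 P₀} {Q : NS → IT → Prop} {C : ℝ}
  {n : ℕ} {p : ℕ} {b : Me × List (DT X.c.Lam (LbX X))} {r : RF X} {i j : X.c.Lam} {x y : ℝ}

/-- **the types are the real indices** -/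
structure RI (r : RF X) : Prop where
  lb : ∀ p M x (j : X.c.Lam), r.R.lb p M x j = X.c.st p j.1.1
  tg : ∃ g : ℕ, ∀ p M T x (j : X.c.Lam), r.R.tg p M T x j = g

/-- **a second order pair has one index and different real classes** -/
theorem SpD.cls (cf : CtxF X Q) (hI : RI r) (h : SpD X Q r p j i) :
    ixf X p j = ixf X p i ∧ rhoX X p j ≠ rhoX X p i ∧ p0 < p := by
  obtain ⟨m, s, Sp, t₁, t₀, y, hs, vj, vi, hix, h0, h1⟩ := id h
  have hn := cf.hQ _ _ hs.1.rm.all.self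
  obtain ⟨hP, hN⟩ := (carX cf.hQ).br hs
  have nP' := cf.hQ _ _ hP.1.rm.all.self
  have nN' := cf.hQ _ _ hN.1.rm.all.self
  obtain ⟨qj, -⟩ := tth_of nP' vj
  obtain ⟨qi, -⟩ := tth_of nN' vi
  obtain ⟨k1, k2, k3, E⟩ := SpD.node cf.hQ h hn (Finset.mem_union_left _ qj)
    (Finset.mem_union_right _ qi)
  obtain ⟨y', a, a', -, -, h2⟩ := E.tgt hI.lb cf.hd1 k3 nP' nN' k1 k2
  obtain ⟨g, hg⟩ := hI.tg
  exact ⟨hix, h2.resolve_left fun h3 => h3 (by rw [hg, hg]), hn.self.node.2.2.1⟩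

/-- **against the kernel of the real classes** -/
theorem KTr_le (cf : CtxF X Q) (hI : RI r) {s : ℝ} (hs : ∀ q : ℕ, p0 < q → tA N q ≤ Real.log q ^ s)
    (p : ℕ) (j i : X.c.Lam) : tA N p * KTr X Q r p j i ≤ KRt X s p j i := by
  unfold KTr
  by_cases h : SpD X Q r p j i
  · obtain ⟨h1, h2, h3⟩ := SpD.cls cf hI h
    rw [if_pos h, mul_one]
    unfold KRt
    rw [if_pos ⟨h1, h2⟩]
    exact hs p h3
  · rw [if_neg h, mul_zero]
    exact (RtP28.KRt_ker s p).nn j i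

/-- the powers of the logarithm -/
lemma tA_le (N : Skel189.Num) : ∃ p₁ : ℕ, ∀ q : ℕ, p₁ ≤ q → tA N q ≤ Real.log q ^ (sA N + 5) := by
  have h0 : 0 ≤ sA N := by
    have h1 := SB_le_sA N
    have hB0 : 0 ≤ N.B := by have := N.hB; have := N.hC1; have := N.hc2; linarith
    have := N.hc2
    refine le_trans ?_ h1
    unfold EnC48.SB
    linarith
  obtain ⟨p1, h1⟩ := Crest.Agent.R4.RseN207.log_large (280 * 2 ^ (sA N + 4) + 1)
  refine ⟨p1, fun q hq => ?_⟩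
  have h2 := h1 q hq
  have h3 : (0:ℝ) ≤ 280 * 2 ^ (sA N + 4) := by positivity
  have hl : 1 ≤ Real.log q := by linarith
  have h4 : (1 + Real.log q) ^ (sA N + 4) ≤ (2 * Real.log q) ^ (sA N + 4) :=
    Real.rpow_le_rpow (by linarith) (by linarith) (by linarith)
  rw [Real.mul_rpow (by norm_num) (by linarith)] at h4
  have h5 : 0 ≤ Real.log q ^ (sA N + 4) := Real.rpow_nonneg (by linarith) _
  have e : Real.log q ^ (sA N + 5) = Real.log q ^ (sA N + 4) * Real.log q := by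
    rw [← Real.rpow_add_one (by linarith)]
    congr 1
    ring
  unfold tA
  rw [e]
  have h6 : 280 * 2 ^ (sA N + 4) ≤ Real.log q := by linarith
  nlinarith

/-- **the energies of the second order pairs** of the rules whose types are the real indices -/
theorem hT_all (N : Skel189.Num) (γ : ℝ) {A' : ℝ} (hA' : 0 ≤ A') : Ev N γ fun p0 P₀ X => CF X →
    ∀ j₀ : X.c.Lam, All (fun u τ => ∀ {Q : NS → IT → Prop}, CtxF X Q → ∀ r : RF X, RI r →
      pn (fun p j l => tA N p * KTr X Q r p j l) (tX X u τ) ≤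
        Real.log p0 ^ (-A') * X.mu j₀ u τ Finset.univ) ⟨Skel189.top X.S, 1, 1, 1⟩ X.c.t := by
  obtain ⟨p1, h1⟩ := tA_le N
  have s0 : 0 ≤ sA N + 5 := by
    have h1 := SB_le_sA N
    have hB0 : 0 ≤ N.B := by have := N.hB; have := N.hC1; have := N.hc2; linarith
    have := N.hc2
    have : 0 ≤ EnC48.SB N N.c2 := by
      unfold EnC48.SB
      linarith
    linarith
  have h2 := tgtPN N γ (sA N + 5) A' s0 hA'
  have h3 : Ev N γ fun p0 P₀ X => p1 ≤ p0 := Ev.of (p₁ := p1) fun p0 hp0 _ _ _ => hp0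
  refine (h2.and h3).mono ?_
  rintro p0 P₀ X ⟨b1, b2⟩ hC j₀
  refine All.mono (fun u τ hh {Q} cf r hI => ?_) ((b1 hC j₀).and (ctx_RgN (X := X) j₀))
  obtain ⟨g1, g2⟩ := hh
  refine le_trans (pn_mono (fun q i j => ?_) g2.tq g2.pb) g1
  exact KTr_le cf hI (fun q hq => h1 q (by omega)) q i j

section fam
variable {A : Type} [Fintype A] {ω : A → ℝ}

/-- **field `hT`** of the static form -/
theorem hT_ix {j₀ : X.c.Lam} {u : NS} {τ : IT} {a ϑ e : ℝ} (cf : CtxF X Q) (ω0 : ∀ i, 0 ≤ ω i)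
    (ω1 : ∑ i, ω i = 1) {r : A → RF X} (hI : ∀ i, RI (r i))
    (h : ∀ r : RF X, RI r → pn (fun p j l => tA N p * KTr X Q r p j l) (tX X u τ) ≤
      e * X.mu j₀ u τ Finset.univ) (he : e ≤ a) (ha : 0 ≤ a) (hϑ : 0 ≤ ϑ)
    (hμ : 0 ≤ X.mu j₀ u τ Finset.univ) :
    Bd X j₀ u τ a ϑ (∑ i, ω i * pn (fun p j l => tA N p * KTr X Q (r i) p j l) (tX X u τ)) :=
  bd_one ω0 ω1 (fun i => h (r i) (hI i)) he ha hϑ hμ

end fam

end Crest.Agent.R4P.PrN45
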