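import Crest.Agent.R4P.PrI_45

/-!
R4 (S0004) with powers, T3, helper50: **the separated pairs of the rests with weights** `w p` (dual potential:
`w p = C / θ p`).

* `Kw_sepw` : `Kw (w p · I su prsN) ≤ Σ_j c_j RE (RN (w · KN))`;
* **`vSN_le`** : at a node of a context: `vSN w ≤ rE (RN (w · KN))`;
* the same for the pairs which stay in the game (`prs (fN p)`): `fh_prsM`, `PMap.prM`, `SM`, `Kw_sepM`,
  **`vSM_le`** : `vSM w ≤ rE (RN (w · KM))`.
-/

set_option autoImplicit false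
set_option linter.unusedSectionVars false
set_option linter.unusedVariables false
open MeasureTheory Filter Set

namespace Crest.Agent.R4P.PrS50

open Crest.Agent.R4.Tour104 Crest.Agent.R4.Tour758 Crest.Agent.R4.Clos758
open Crest.Agent.R4.ClosL758
open Crest.Agent.R4P.Grp36 Crest.Agent.R4P.GWa343 Crest.Agent.R4P.GWb343 Crest.Agent.R4P.GWc343
open Crest.Agent.R4P.GMer27 Crest.Agent.R4P.GCol27 Crest.Agent.R4P.RSys343
open Crest.Agent.R4P.RXm55 Crest.Agent.R4P.RXm55.RXm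
open Crest.Agent.R4P.MSi343 (su su_add)
open Crest.Agent.R4P.MSm25 Crest.Agent.R4P.PayR45 Crest.Agent.R4P.GSK55
open Crest.Agent.R4P.DTp26 (jv PB_jv hz)
open Crest.Agent.R4P.MSd343 Crest.Agent.R4P.Bp407 Crest.Agent.R4P.VR407
open Crest.Agent.R4P.RGf25 Crest.Agent.R4P.RGp25
open Crest.Agent.R4P.JnE5 Crest.Agent.R4P.JnF5 Crest.Agent.R4P.JnH5
open Crest.Agent.R4P.PVd45 Crest.Agent.R4P.PVe45 Crest.Agent.R4P.PrE45 Crest.Agent.R4P.PrD45
open Crest.Agent.R4P.PrF45 Crest.Agent.R4P.PrG45 Crest.Agent.R4P.PrH45 Crest.Agent.R4P.PrE245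
open Crest.Agent.R4P.PrI45
open Crest.Agent.R4P.LogL51 (isLf)
open Crest.Agent.R4P.Walk560 (DT)

section sep
variable {Λ κ : Type} [Fintype Λ] [DecidableEq Λ] [Fintype κ] [DecidableEq κ]
  {β δ : Type} [Fintype δ] [DecidableEq δ]
  {R : RXm β δ} {pr : β → List (DT Λ κ)} {kO : ℕ → β → ℝ → Λ → Option δ}
  {K : ℕ → Λ → Λ → ℝ} {U : RBm R} {Inv : ℕ → List (DT Λ κ) → Prop} {kd : ℕ → Λ → κ}
  {KN KB : ℕ → Λ → Λ → ℝ} {P : PMap U (Λ × Bool)}

/-- the weighted kernel -/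
noncomputable def wK (w : ℕ → ℝ) (KN : ℕ → Λ → Λ → ℝ) (p : ℕ) (i j : Λ) : ℝ := w p * KN p i j

lemma bil_wK (w : ℕ → ℝ) (KN : ℕ → Λ → Λ → ℝ) (p : ℕ) (f g : Λ → ℝ → ℝ) :
    bil (wK w KN p) f g = w p * bil (KN p) f g := by
  unfold bil wK
  rw [Finset.mul_sum]
  refine Finset.sum_congr rfl fun i _ => ?_
  rw [Finset.mul_sum]
  exact Finset.sum_congr rfl fun j _ => by ring

lemma RN_wK (w : ℕ → ℝ) (KN : ℕ → Λ → Λ → ℝ) (p : ℕ) (v : Λ → ℝ → ℝ) :
    RN (wK w KN) p v = w p * RN KN p v := by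
  unfold RN
  rw [bil_wK]
  ring

/-- **the separated pairs of the rests of the flows, weighted** -/
theorem Kw_sepw (H : KP R pr kO K) (L : LB (bm R) pr Inv) (HI : DI Inv)
    (hK : ∀ {p b}, (bm R).ok p b → p ≠ 0 → KOk (kd p) p (bB p (pr b)))
    (X : PX P pr) (S : ST P pr K KN KB) {w : ℕ → ℝ} (w0 : ∀ p, 0 ≤ w p)
    {ok : ℕ → Gs β → Prop}
    (hC : ∀ {p s}, ok p s → p ≠ 0 → ok p ((bm R).C p s))
    (hN : ∀ {p s}, ok p s → p ≠ 0 → ok (p - 1) ((bm R).N p s))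
    (hg : ∀ {p s}, ok p s → R.gok p s)
    (n p : ℕ) (s : Gs β) (hs : ok p s) (hn : ∀ j, siz (pr (s.L j)) + p ≤ n) :
    Kw (bm R) (fun p s => w p * I (su s (prsN P.fl p))) n p s ≤
      GMer27.M s.c fun j => RE (RN (wK w KN)) p (pr (s.L j)) := by
  have tk : ∀ {p b}, (bm R).ok p b → p ≠ 0 → TOk p (bB p (pr b)) := fun h hp => H.tk h hp
  have len : ∀ {p b}, (bm R).ok p b → p ≠ 0 → (bN p (pr b)).length ≤ 1 := fun h hp => H.len h hp
  have S3 := rE_sv (R := RN (wK w KN)) L HI hK tk len RN_zero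
  refine Kw_sv S3 (ok := ok)
    (f := fun p s => w p * I (su s (prsN P.fl p))) hC hN
    (fun h => (hg h).1) (fun h => (hg h).2) (fun {p s} hs hp => ?_) (fun {p b} hb h => ?_)
    n p s hs hn
  · have g := hg hs
    have c0 := g.1.c0
    have e1 : I (su s (prsN P.fl p)) = GMer27.M s.c fun j => I (prsN P.fl p (s.L j)) :=
      I_su c0 fun j => PB_prsN1 (g.2 j) hp
    show w p * I (su s (prsN P.fl p)) ≤ _
    rw [e1, ← M_smul]
    refine M_mono c0 fun j => ?_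
    have h1 := I_prsN_st H X S (g.2 j) hp
    have h2 := mul_le_mul_of_nonneg_left h1 (w0 p)
    rw [RN_wK]
    exact h2
  · have hb' : R.ok p b := hb
    have hlf : ∀ t ∈ pr b, isLf t = true := by
      rcases h with h0 | h0
      · subst h0; exact H.lf0 hb'
      · have := siz_zero h0
        rw [this]
        simp
    have z3 : RE (RN (wK w KN)) p (pr b) = 0 := RE_leaves hlf
    show 0 ≤ RE (RN (wK w KN)) p (pr b)
    rw [z3]

end sep


/-! ### pairs which stay in the game -/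

section fh
variable {Λ δ : Type*} [Fintype Λ] [Fintype δ] [DecidableEq δ] {τ τ' : ℝ → Λ → Option δ}
  {V : Λ → ℝ → ℝ} {x : ℝ}

open Classical in
/-- **the separated pairs of a flow, by pieces** (both pieces stay) -/
lemma fh_prsM (hV : ∀ j, 0 ≤ V j x) :
    ∑ z, ((∑ z', fh τ τ' V z z' x) ^ 2 - ∑ z', fh τ τ' V z z' x ^ 2) ≤
      ∑ i, ∑ j, if τ x i ≠ none ∧ τ x i = τ x j ∧ τ' x i ≠ none ∧ τ' x j ≠ none ∧ τ' x i ≠ τ' x j
        then V i x * V j x else 0 := by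
  set V' : Λ → ℝ → ℝ := fun i y => if τ' y i ≠ none then V i y else 0 with hV'
  have h0 : ∀ j, 0 ≤ V' j x := fun j => by
    show 0 ≤ if τ' x j ≠ none then V j x else 0
    split_ifs
    · exact hV j
    · exact le_rfl
  have e : ∀ z z', fh τ τ' V z z' x = fh τ τ' V' z z' x := fun z z' => by
    rw [fh_eq, fh_eq]
    refine Finset.sum_congr rfl fun i _ => ?_
    by_cases h : τ x i = some z ∧ τ' x i = some z'
    · rw [if_pos h, if_pos h]
      show V i x = if τ' x i ≠ none then V i x else 0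
      rw [if_pos (by rw [h.2]; exact Option.some_ne_none _)]
    · rw [if_neg h, if_neg h]
  simp only [e]
  refine (fh_prs h0).trans (Finset.sum_le_sum fun i _ => Finset.sum_le_sum fun j _ => ?_)
  have e1 : V' i x = if τ' x i ≠ none then V i x else 0 := rfl
  have e2 : V' j x = if τ' x j ≠ none then V j x else 0 := rfl
  rw [e1, e2]
  by_cases h1 : τ' x i ≠ none
  · by_cases h2 : τ' x j ≠ none
    · rw [if_pos h1, if_pos h2]
      by_cases h3 : τ x i ≠ none ∧ τ x i = τ x j ∧ τ' x i ≠ τ' x j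
      · rw [if_pos h3, if_pos ⟨h3.1, h3.2.1, h1, h2, h3.2.2⟩]
      · rw [if_neg h3, if_neg fun h => h3 ⟨h.1, h.2.1, h.2.2.2.2⟩]
    · rw [if_neg h2, mul_zero, ite_self]
      split_ifs
      · exact mul_nonneg (hV i) (hV j)
      · exact le_rfl
  · rw [if_neg h1, zero_mul, ite_self]
    split_ifs
    · exact mul_nonneg (hV i) (hV j)
    · exact le_rfl

end fh

section sepM
variable {Λ κ : Type} [Fintype Λ] [DecidableEq Λ] [Fintype κ] [DecidableEq κ]
  {β δ : Type} [Fintype δ] [DecidableEq δ]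
  {R : RXm β δ} {pr : β → List (DT Λ κ)} {kO : ℕ → β → ℝ → Λ → Option δ}
  {K : ℕ → Λ → Λ → ℝ} {U : RBm R} {Inv : ℕ → List (DT Λ κ) → Prop} {kd : ℕ → Λ → κ}
  {KM : ℕ → Λ → Λ → ℝ} {P : PMap U (Λ × Bool)}

open Classical in
/-- separated pairs of the rest which stay in the game -/
lemma prM {Λ' : Type} [Fintype Λ'] (P : PMap U Λ') {p : ℕ} {b : β} (hb : R.ok p b) (hp : p ≠ 0)
    (x : ℝ) : prs (P.fl.fN p) b x ≤ 2 * ∑ i, ∑ j, if P.kO p b x i ≠ none ∧
      P.kO p b x i = P.kO p b x j ∧ P.kN p b x i ≠ none ∧ P.kN p b x j ≠ none ∧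
      P.kN p b x i ≠ P.kN p b x j then P.vN p b i x * P.vN p b j x else 0 :=
  mul_le_mul_of_nonneg_left (fh_prsM fun j => (P.pvN hb hp j).nonneg x) (by norm_num)

/-- **static column kernel** of the separated pairs which stay in the game -/
structure SM (P : PMap U (Λ × Bool)) (KM : ℕ → Λ → Λ → ℝ) : Prop where
  k : ∀ p, Ker (KM p)
  s : ∀ {p b}, R.ok p b → p ≠ 0 → ∀ i j x, P.vN p b (i, true) x ≠ 0 → P.vN p b (j, true) x ≠ 0 →
    P.kO p b x (i, true) ≠ none → P.kO p b x (i, true) = P.kO p b x (j, true) →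
    P.kN p b x (i, true) ≠ none → P.kN p b x (j, true) ≠ none →
    P.kN p b x (i, true) ≠ P.kN p b x (j, true) → 1 ≤ KM p i j

theorem prsM_st (X : PX P pr) (S : SM P KM) {p : ℕ} {b : β} (hb : R.ok p b) (hp : p ≠ 0)
    (x : ℝ) : prs (P.fl.fN p) b x ≤
      2 * ∑ i, ∑ j, KM p i j * (jv (bN p (pr b)) i x * jv (bN p (pr b)) j x) := by
  classical
  refine (prM P hb hp x).trans (mul_le_mul_of_nonneg_left ?_ (by norm_num))
  rw [sum_pb]
  refine Finset.sum_le_sum fun i _ => Finset.sum_le_sum fun j _ => ?_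
  have z : ∀ j, P.vN p b (j, false) x = 0 := fun j => X.n0 hb hp j x
  have n1 := (P.pvN hb hp (i, true)).nonneg x
  have n2 := (P.pvN hb hp (j, true)).nonneg x
  simp only [z, mul_zero, zero_mul, ite_self, add_zero]
  rw [← X.n1 hb hp, ← X.n1 hb hp]
  have hk := (S.k p).nn i j
  split_ifs with h
  · by_cases h1 : P.vN p b (i, true) x = 0
    · rw [h1]; simp
    by_cases h2 : P.vN p b (j, true) x = 0
    · rw [h2]; simp
    have h3 := S.s hb hp i j x h1 h2 h.1 h.2.1 h.2.2.1 h.2.2.2.1 h.2.2.2.2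
    calc P.vN p b (i, true) x * P.vN p b (j, true) x =
        1 * (P.vN p b (i, true) x * P.vN p b (j, true) x) := (one_mul _).symm
      _ ≤ _ := mul_le_mul_of_nonneg_right h3 (mul_nonneg n1 n2)
  · exact mul_nonneg hk (mul_nonneg n1 n2)

theorem I_prsM_st (H : KP R pr kO K) (X : PX P pr) (S : SM P KM) {p : ℕ} {b : β}
    (hb : R.ok p b) (hp : p ≠ 0) : I (prs (P.fl.fN p) b) ≤ RN KM p (jv (bN p (pr b))) := by
  have h1 : ∀ j, PB (jv (bN p (pr b)) j) := fun j => PB_jv ((H.pba hb).bN p).self j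
  obtain ⟨h2, h3⟩ := I_2 (KM p) (S.k p) h1 h1
  unfold RN
  rw [← h3, ← I_smul]
  exact I_mono (PB_prs1 fun z z' => P.fl.pN hb hp z z').integrableOn
    (h2.smul (by norm_num)).integrableOn fun x => prsM_st X S hb hp x

/-- **the separated pairs of the rests which stay in the game, weighted** -/
theorem Kw_sepM (H : KP R pr kO K) (L : LB (bm R) pr Inv) (HI : DI Inv)
    (hK : ∀ {p b}, (bm R).ok p b → p ≠ 0 → KOk (kd p) p (bB p (pr b)))
    (X : PX P pr) (S : SM P KM) {w : ℕ → ℝ} (w0 : ∀ p, 0 ≤ w p)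
    {ok : ℕ → Gs β → Prop}
    (hC : ∀ {p s}, ok p s → p ≠ 0 → ok p ((bm R).C p s))
    (hN : ∀ {p s}, ok p s → p ≠ 0 → ok (p - 1) ((bm R).N p s))
    (hg : ∀ {p s}, ok p s → R.gok p s)
    (n p : ℕ) (s : Gs β) (hs : ok p s) (hn : ∀ j, siz (pr (s.L j)) + p ≤ n) :
    Kw (bm R) (fun p s => w p * I (su s (prs (P.fl.fN p)))) n p s ≤
      GMer27.M s.c fun j => RE (RN (wK w KM)) p (pr (s.L j)) := by
  have tk : ∀ {p b}, (bm R).ok p b → p ≠ 0 → TOk p (bB p (pr b)) := fun h hp => H.tk h hp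
  have len : ∀ {p b}, (bm R).ok p b → p ≠ 0 → (bN p (pr b)).length ≤ 1 := fun h hp => H.len h hp
  have S3 := rE_sv (R := RN (wK w KM)) L HI hK tk len RN_zero
  refine Kw_sv S3 (ok := ok)
    (f := fun p s => w p * I (su s (prs (P.fl.fN p)))) hC hN
    (fun h => (hg h).1) (fun h => (hg h).2) (fun {p s} hs hp => ?_) (fun {p b} hb h => ?_)
    n p s hs hn
  · have g := hg hs
    have c0 := g.1.c0
    have e1 : I (su s (prs (P.fl.fN p))) = GMer27.M s.c fun j => I (prs (P.fl.fN p) (s.L j)) :=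
      I_su c0 fun j => PB_prs1 fun z z' => P.fl.pN (g.2 j) hp z z'
    show w p * I (su s (prs (P.fl.fN p))) ≤ _
    rw [e1, ← M_smul]
    refine M_mono c0 fun j => ?_
    have h1 := I_prsM_st H X S (g.2 j) hp
    have h2 := mul_le_mul_of_nonneg_left h1 (w0 p)
    rw [RN_wK]
    exact h2
  · have hb' : R.ok p b := hb
    have hlf : ∀ t ∈ pr b, isLf t = true := by
      rcases h with h0 | h0
      · subst h0; exact H.lf0 hb'
      · have := siz_zero h0
        rw [this]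
        simp
    have z3 : RE (RN (wK w KM)) p (pr b) = 0 := RE_leaves hlf
    show 0 ≤ RE (RN (wK w KM)) p (pr b)
    rw [z3]

end sepM

/-! ### the games of a context -/

section game
open Crest.Agent.R4.Avg758 Crest.Agent.R4.ClosG758 Crest.Agent.R4.ClosR758
open Crest.Agent.R4P.ClosR442 Crest.Agent.R4P.Xfer36 Crest.Agent.R4P.TopC36 Crest.Agent.R4P.PN36
open Crest.Agent.R4P.GWd343 Crest.Agent.R4P.GWf343 Crest.Agent.R4P.TrR343
open Crest.Agent.R4P.GWg343 (FX ctx_BI)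
open Crest.Agent.R4P.DTm407 Crest.Agent.R4P.DTn407 Crest.Agent.R4P.DTo407 Crest.Agent.R4P.RGd25
open Crest.Agent.R4P.Cnt588 Crest.Agent.R4P.Item758
open Crest.Agent.R4P.Bld532 (NS All NodeOk)
open Crest.Agent.R4P.WalkIT579 (tp isL toDT_top toDT_leaf)
open Crest.Agent.R4P.Step588 Crest.Agent.R4P.RseSt23
open Crest.Agent.R4P.TYI47 Crest.Agent.R4P.TYJ47 Crest.Agent.R4P.TYK47 Crest.Agent.R4P.TYP9
open Crest.Agent.R4P.RsT47
open Crest.Agent.R4P.Skel189 Crest.Agent.R4P.Frame758 Crest.Agent.R4P.Data758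
open Crest.Agent.R4.Soft104 Crest.Agent.R4.Fam464
open Crest.Agent.R4P.StratX36 Crest.Agent.R4P.TopX36
open Crest.Agent.R4P.AsB407 Crest.Agent.R4P.GTopA50

variable {N : Skel189.Num} {γ : ℝ} {p0 P₀ : ℕ} {X : Ctx N γ p0 P₀} {Q : NS → IT → Prop} {C : ℝ}
  {n : ℕ} (G : Gm X Q C n) {u : NS} {τ : IT}

/-- separated pairs of the rests, weighted -/
noncomputable def vSN (w : ℕ → ℝ) (u : NS) (τ : IT) (k : ℕ) : ℝ := Kw (bm G.R) (fun p s =>
  w p * I (su s (prsN (pmdx G.H (rb G.H)).fl p))) k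
  (X.self u τ Finset.univ).p (one (b₀ X u τ))

/-- **the separated pairs of the rests of a game, weighted** -/
theorem vSN_le (hQ : ∀ u τ, Q u τ → NDt X.par (w X.ψ) X.c.t u τ)
    (hB : InvM X Q C (X.self u τ Finset.univ).p (b₀ X u τ))
    {K KN KB : ℕ → X.c.Lam → X.c.Lam → ℝ} (hK : ∀ p, Ker (K p))
    (dom : ∀ {p b}, InvM X Q C p b → ∀ x j j', Xp p b.2 x j j' →
      G.D.tp p b.1 x j = G.D.tp p b.1 x j' → G.D.tp p b.1 x j ≠ none → 1 ≤ K p j j')
    (domQ : ∀ {p b}, InvM X Q C p b → p ≠ 0 → ∀ i j x, vT p (bB p b.2) i x ≠ 0 →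
      pQ (bB p b.2) j (p * x) ≠ 0 → G.D.tp p b.1 x i ≠ none → G.D.tp p b.1 x i = G.D.tp p b.1 x j →
      1 ≤ K p i j)
    (kN : ∀ p, Ker (KN p)) (kB : ∀ p, Ker (KB p))
    (sN : ∀ {p b}, InvM X Q C p b → p ≠ 0 → ∀ i j x, jv (bN p b.2) i x ≠ 0 →
      jv (bN p b.2) j x ≠ 0 → G.D.tp p b.1 x i ≠ none → G.D.tp p b.1 x i = G.D.tp p b.1 x j →
      (G.D.tp (p - 1) b.1 x i ≠ G.D.tp (p - 1) b.1 x j ∨ G.D.tp (p - 1) b.1 x i = none) →
      1 ≤ KN p i j)
    (sB : ∀ {p b}, InvM X Q C p b → p ≠ 0 → ∀ i j x, vT p (bB p b.2) i x ≠ 0 →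
      vT p (bB p b.2) j x ≠ 0 → G.D.tp p b.1 x i ≠ none → G.D.tp p b.1 x i = G.D.tp p b.1 x j →
      G.D.pt (rhoX X) p b x i ≠ G.D.pt (rhoX X) p b x j → 1 ≤ KB p i j)
    (sQ : ∀ {p b}, InvM X Q C p b → p ≠ 0 → ∀ i j x, pQ (bB p b.2) i (p * x) ≠ 0 →
      pQ (bB p b.2) j (p * x) ≠ 0 → G.D.tp p b.1 x i ≠ none →
      G.D.tp p b.1 x i = G.D.tp p b.1 x j → G.D.lt p b.1 (p * x) i = G.D.lt p b.1 (p * x) j)
    {w : ℕ → ℝ} (w0 : ∀ p, 0 ≤ w p)
    {k : ℕ} (hk : (X.self u τ Finset.univ).t.size + (X.self u τ Finset.univ).p ≤ k) :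
    vSN G w u τ k ≤ rE (RN (wK w KN)) (X.self u τ Finset.univ).p (X.self u τ Finset.univ).t := by
  have HK := kpX hQ G.H hK dom
  have S := ST_pmdx (H := G.H) (U := rb G.H) (K := K) kN kB
    (fun h hp i j x => sN h hp i j x) (fun h hp i j x => sB h hp i j x)
    (fun {p b} h hp i j x h1 h2 h3 h4 _ => ?_) (fun h hp i j x => sQ h hp i j x)
  · have hs : okG G.H (X.self u τ Finset.univ).p (one (b₀ X u τ)) := okG.one hB
    have h1 := Kw_sepw HK (lbX G.H) diX (kd := rhoX X) (fun {p b} h hp => G.H.bok h hp)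
      PX_pmdx S w0 (ok := okG G.H) (fun h hp => h.C hp) (fun h hp => h.N hp) (fun h => h.gok)
      k (X.self u τ Finset.univ).p (one (b₀ X u τ)) hs (fun j => by
        show siz [(X.self u τ Finset.univ).t] + _ ≤ k
        simpa [siz] using hk)
    rw [one_M (b₀ X u τ) (fun b' => RE (RN (wK w KN)) (X.self u τ Finset.univ).p b'.2)] at h1
    have e : RE (RN (wK w KN)) (X.self u τ Finset.univ).p (b₀ X u τ).2 =
      RE (RN (wK w KN)) (X.self u τ Finset.univ).p [(X.self u τ Finset.univ).t] := rfl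
    rw [e, RE_cons, RE_nil, add_zero] at h1
    exact h1
  · exact domQ h hp i j x h1 h2 h3 h4

/-- separated pairs of the rests which stay in the game, weighted -/
noncomputable def vSM (w : ℕ → ℝ) (u : NS) (τ : IT) (k : ℕ) : ℝ := Kw (bm G.R) (fun p s =>
  w p * I (su s (prs ((pmdx G.H (rb G.H)).fl.fN p)))) k
  (X.self u τ Finset.univ).p (one (b₀ X u τ))

/-- **the separated pairs of the rests of a game which stay in the game, weighted** -/
theorem vSM_le (hQ : ∀ u τ, Q u τ → NDt X.par (w X.ψ) X.c.t u τ)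
    (hB : InvM X Q C (X.self u τ Finset.univ).p (b₀ X u τ))
    {K KM : ℕ → X.c.Lam → X.c.Lam → ℝ} (hK : ∀ p, Ker (K p))
    (dom : ∀ {p b}, InvM X Q C p b → ∀ x j j', Xp p b.2 x j j' →
      G.D.tp p b.1 x j = G.D.tp p b.1 x j' → G.D.tp p b.1 x j ≠ none → 1 ≤ K p j j')
    (kM : ∀ p, Ker (KM p))
    (sM : ∀ {p b}, InvM X Q C p b → p ≠ 0 → ∀ i j x, jv (bN p b.2) i x ≠ 0 →
      jv (bN p b.2) j x ≠ 0 → G.D.tp p b.1 x i ≠ none → G.D.tp p b.1 x i = G.D.tp p b.1 x j →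
      G.D.tp (p - 1) b.1 x i ≠ none → G.D.tp (p - 1) b.1 x j ≠ none →
      G.D.tp (p - 1) b.1 x i ≠ G.D.tp (p - 1) b.1 x j → 1 ≤ KM p i j)
    {w : ℕ → ℝ} (w0 : ∀ p, 0 ≤ w p)
    {k : ℕ} (hk : (X.self u τ Finset.univ).t.size + (X.self u τ Finset.univ).p ≤ k) :
    vSM G w u τ k ≤ rE (RN (wK w KM)) (X.self u τ Finset.univ).p (X.self u τ Finset.univ).t := by
  have HK := kpX hQ G.H hK dom
  have S : SM (pmdx G.H (rb G.H)) KM := ⟨kM, fun {p b} hb hp i j x h1 h2 h3 h4 h5 h6 h7 => by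
    have h1' : jv (bN p b.2) i x ≠ 0 := h1
    have h2' : jv (bN p b.2) j x ≠ 0 := h2
    exact sM hb hp i j x h1' h2' h3 h4 h5 h6 h7⟩
  have hs : okG G.H (X.self u τ Finset.univ).p (one (b₀ X u τ)) := okG.one hB
  have h1 := Kw_sepM HK (lbX G.H) diX (kd := rhoX X) (fun {p b} h hp => G.H.bok h hp)
    PX_pmdx S w0 (ok := okG G.H) (fun h hp => h.C hp) (fun h hp => h.N hp) (fun h => h.gok)
    k (X.self u τ Finset.univ).p (one (b₀ X u τ)) hs (fun j => by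
      show siz [(X.self u τ Finset.univ).t] + _ ≤ k
      simpa [siz] using hk)
  rw [one_M (b₀ X u τ) (fun b' => RE (RN (wK w KM)) (X.self u τ Finset.univ).p b'.2)] at h1
  have e : RE (RN (wK w KM)) (X.self u τ Finset.univ).p (b₀ X u τ).2 =
    RE (RN (wK w KM)) (X.self u τ Finset.univ).p [(X.self u τ Finset.univ).t] := rfl
  rw [e, RE_cons, RE_nil, add_zero] at h1
  exact h1

end game

end Crest.Agent.R4P.PrS50
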