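import Crest.Agent.R4P.TgtDF_7
import Crest.Agent.R4P.CoEv_30

/-!
R4P (S0004, all `q`), helper30: **prune of the coincidence primes**.

* `SxC γ K B C1 c2 p0 ψ S` : the items without coincidence primes (`CoEv30.Co K`) among their missing
  ties and up primes; `SxC_mass`; `NoCo.of`;
* `SxK γ C1 K = SxF ∩ SxC` with mass `≥ 1 - 1/8` (`SxK_mass`);
* `tgtD_sub` : `TgtD` for every prune contained in `SxF`.
-/

set_option autoImplicit false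

namespace Crest.Agent.R4P.PruneCo30

open Crest.Agent.R4P.Cnt588 Crest.Agent.R4P.Bld532 Crest.Agent.R4.Max709 Crest.Agent.R4.Soft104
open Crest.Agent.R4P.Skel189 Crest.Agent.R4P.PruneAcc17
open Crest.Agent.R4P.CoEv30 (Co co_log)
open Crest.Agent.R4P.ParF5 Crest.Agent.R4P.ParT21
open Crest.Agent.R4P.FinAll26 (TgtX TgtB TgtD NumFin)
open Crest.Agent.R4P.NumG23
open Crest.Agent.R4P.PruneBad17 (SxB SxB_mass)

/-- **no coincidence prime among the missing ties and the up primes** -/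
def NoCo (γ K : ℝ) (t : IT) (q : ℕ) : Prop :=
  ∀ p, (p ∈ t.mt q ∨ p ∈ t.uq q) → ¬ Co K (Bab t q p * γ) p

open Classical in
/-- **the pruned set** -/
noncomputable def SxC (γ K B C1 c2 : ℝ) (p0 : ℕ) (ψ : ℕ → ℝ) (S : Finset ℕ) : Finset ℕ :=
  S.filter fun q => NoCo γ K (bld (Bld532.par B C1 c2 p0) (w ψ) (top S) 1 1 S) q

/-- **mass of the pruned set** -/
theorem SxC_mass (γ K B C1 c2 ε : ℝ) (hK : 0 ≤ K) (hε : 0 < ε) (hB : 0 ≤ B) (hC1 : 0 ≤ C1)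
    (hc2 : 0 ≤ c2) :
    ∃ p₁ : ℕ, ∀ p0 ≥ p₁, ∃ Q₁ : ℕ, ∀ P₀ ≥ Q₁, ∀ (ψ : ℕ → ℝ) (S : Finset ℕ), SysM P₀ ψ S →
      SxC γ K B C1 c2 p0 ψ S ⊆ S ∧
        (1 - ε) * Ws (w ψ) S ≤ Ws (w ψ) (SxC γ K B C1 c2 p0 ψ S) := by
  classical
  obtain ⟨p1, h1⟩ := prune_ev B C1 c2 ε hε hB hC1 hc2
  obtain ⟨p2, h2⟩ := co_log K (B + C1 + c2 + 2) hK (by positivity)
  refine ⟨p1 + p2, fun p0 hp0 => ⟨0, fun P₀ _ ψ S hS => ⟨Finset.filter_subset _ _, ?_⟩⟩⟩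
  have key := (h1 p0 (by omega)).2 (fun B' p => Co K ((B' : ℝ) * γ) p)
    (fun B' P hP => by
      have := h2 P (by omega) ((B' : ℝ) * γ)
      convert this using 2)
    (w ψ) (fun q => w_nonneg hS.nonneg q) (top S) S hS.pos
  exact key

/-- **the items of a context have no coincidence primes** -/
theorem NoCo.of {N : Skel189.Num} {γ K : ℝ} {p0 P₀ : ℕ} (X : Ctx N γ p0 P₀)
    (h : N.S2 p0 X.ψ X.S ⊆ SxC γ K N.B N.C1 N.c2 p0 X.ψ X.S) {q : ℕ} (hq : q ∈ X.S') :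
    NoCo γ K X.c.t q := by
  classical
  have h1 := h (X.prn.sub2 hq)
  have h2 := (Finset.mem_filter.1 h1).2
  rw [X.ht]
  exact h2

/-- **the prune** without accidents, bad primes and coincidence primes -/
noncomputable def SxK (K γ C1 : ℝ) (p0 : ℕ) (ψ : ℕ → ℝ) (S : Finset ℕ) : Finset ℕ :=
  SxF γ C1 p0 ψ S ∩ SxC γ K (4 * C1) C1 1 p0 ψ S

lemma SxK_sub (K γ C1 : ℝ) (p0 : ℕ) (ψ : ℕ → ℝ) (S : Finset ℕ) :
    SxK K γ C1 p0 ψ S ⊆ SxF γ C1 p0 ψ S := Finset.inter_subset_left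

lemma SxK_subC (K γ C1 : ℝ) (p0 : ℕ) (ψ : ℕ → ℝ) (S : Finset ℕ) :
    SxK K γ C1 p0 ψ S ⊆ SxC γ K (4 * C1) C1 1 p0 ψ S := Finset.inter_subset_right

/-- **`TgtD` for every prune contained in `SxF`** -/
theorem tgtD_sub : ∃ c : ℝ, ∀ (N : Skel189.Num) (Ct C₀ γ : ℝ)
    (Sx : ℕ → (ℕ → ℝ) → Finset ℕ → Finset ℕ), (∀ p0 ψ S, Sx p0 ψ S ⊆ SxF γ N.C1 p0 ψ S) →
    NumOK N (thF Ct) Ct C₀ Sx → NumFin N (thF Ct) Ct c → NumG N → TgtD N γ := by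
  obtain ⟨c1, h1⟩ := DseTk23.tchk_of DseW7.wL
  obtain ⟨c2, h2⟩ := FinD21.tgtD_of
  refine ⟨max (max c1 c2) 10, fun N Ct C₀ γ Sx hS h hN hG => ?_⟩
  have n1 : NumFin N (thF Ct) Ct c1 :=
    EndD23.NumFin.weaken hN ((le_max_left _ _).trans (le_max_left _ _))
  have n2 : NumFin N (thF Ct) Ct c2 :=
    EndD23.NumFin.weaken hN ((le_max_right _ _).trans (le_max_left _ _))
  have e1 : 10 ≤ N.C1 := (le_max_right _ _).trans hN.C1
  have eB := hN.B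
  have ec := hN.c2
  have k1 := h1 N Ct C₀ _ h n1 hG γ (aAcc N.C1) (by unfold aAcc; linarith)
    (fun p0 ψ S => by
      rw [eB, ec]
      exact (hS p0 ψ S).trans (NumG23.SxF_subA γ N.C1 p0 ψ S))
    (fun p0 ψ S => by
      rw [eB, ec]
      exact (hS p0 ψ S).trans (NumG23.SxF_subB γ N.C1 p0 ψ S))
  exact h2 N Ct C₀ _ h n2 γ (N.B + 2) (N.C1 + 3) le_rfl (by rw [ec]; linarith)
    (by rw [eB]; linarith) k1 (FarPay7.tfar h γ)

end Crest.Agent.R4P.PruneCo30
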