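import Crest.Agent.R4P.AcK_41
import Crest.Agent.R4P.RuV_47
import Crest.Agent.R4P.JnN_5
import Crest.Agent.R4P.PurN_41

/-!
R4 (S0004) with powers, helper18: **the static fields of a pair of one node from one common point**.

* `tth_pt` : a tooth gives a point `Pt`; `ix_pt` : equal index at `p`, both labelled, teeth at one point:
  exact centres at this point;
* **`ex_ix`** : the field `ex` of `PsJ`, `PgJ`, `PuJ`, `LbM` (all points, all teeth), one node;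
* **`psJ_of`** : equal index, one label `σ`, `¬ acc` of the first piece at the node: `PsJ`.
-/

set_option autoImplicit false
set_option linter.unusedSectionVars false
set_option linter.unusedVariables false

open MeasureTheory Filter

namespace Crest.Agent.R4P.PsA18

open Crest.Agent.R4.Tour104 Crest.Agent.R4.Tour758 Crest.Agent.R4.Avg758 Crest.Agent.R4.Clos758
open Crest.Agent.R4.ClosL758 Crest.Agent.R4.ClosG758 Crest.Agent.R4.ClosR758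
open Crest.Agent.R4.HVW560
open Crest.Agent.R4.Fam464 Crest.Agent.R4.Piece464
open Crest.Agent.R4P.Cnt588 Crest.Agent.R4P.Item758 Crest.Agent.R4P.AvgItem710
open Crest.Agent.R4P.W363 Crest.Agent.R4P.LfDat734
open Crest.Agent.R4P.Walk560 Crest.Agent.R4P.NodeG33
open Crest.Agent.R4P.Data758 Crest.Agent.R4P.Skel189 Crest.Agent.R4P.WPex189
open Crest.Agent.R4P.Bld532 (NS All NodeOk Bk)
open Crest.Agent.R4P.Step588 (NDt)
open Crest.Agent.R4.Soft104 (w)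
open Crest.Agent.R4P.SameIx30 Crest.Agent.R4P.GPair33
open Crest.Agent.R4P.XmE18 Crest.Agent.R4P.XmM18 Crest.Agent.R4P.XmG18
open Crest.Agent.R4P.WalkIT579 (tp isL)
open Crest.Agent.R4P.DseKid23 (pt_kid)
open Crest.Agent.R4P.InN9 (Pt)
open Crest.Agent.R4P.JnA5 (ixf)
open Crest.Agent.R4P.XmO37 (Tth)
open Crest.Agent.R4P.XmQ37 (ExP prs mem_prs prs_alive)
open Crest.Agent.R4P.XmB41 Crest.Agent.R4P.XmC41 Crest.Agent.R4P.XmD41 Crest.Agent.R4P.AcJ41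
open Crest.Agent.R4P.AcK41
open Crest.Agent.R4P.PrK45
open Crest.Agent.R4P.E3X479 (val_v)
open Crest.Agent.R4P.StM6 (acc)
open Crest.Agent.R4P

variable {N : Skel189.Num} {γ : ℝ} {p0 P₀ : ℕ} {X : Ctx N γ p0 P₀} {u : NS} {τ : IT}

/-- a tooth gives a point -/
theorem tth_pt (hB : 0 < u.B) {j : X.c.Lam} {y : ℝ} {a : ℤ} (h : Tth X u j y a) :
    ∃ z : ℝ, Pt X u j y z a := by
  obtain ⟨z, q1, q2, q3, q4⟩ := pt_kid (u := u) hB (j := j) (W := j.1.1 / u.A) (y := y) (a := a)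
    (by rw [Nat.cast_one, div_one]; exact h.1) (by rw [Nat.cast_one, div_one]; exact h.2)
  exact ⟨z, q1, q2, q3, q4⟩

/-- **equal index: exact centres** at a common point of two labelled pieces of one node -/
theorem ix_pt (h : QX X u τ) {p : ℕ} (hp : p ≤ top X.S) {j i : X.c.Lam}
    (hx : ixf X p j = ixf X p i) (hj : j.1.1 ∈ τ.items) (hi : i.1.1 ∈ τ.items) {σ σ' : ℚ}
    (sj : X.c.st p j.1.1 = some σ) (si : X.c.st p i.1.1 = some σ') {y : ℝ} {a a' : ℤ}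
    (h1 : Tth X u j y a) (h2 : Tth X u i y a') :
    ((a : ℚ) + u.B * σ) * (i.1.1 / u.A : ℕ) = (a' + u.B * σ') * (j.1.1 / u.A : ℕ) := by
  have hn : NDt X.par (w X.ψ) X.c.t u τ := h
  obtain ⟨z, p1⟩ := tth_pt (X := X) hn.B_pos h1
  obtain ⟨z', p2⟩ := tth_pt (X := X) hn.B_pos h2
  have k := ResM48.node_rel hn hp hx hj hi p1 p2 sj si
  have hw : 0 < j.1.1 / u.A := Nat.pos_of_ne_zero (hn.div_ne hj)
  have c1 : (j.1.1 / u.A) / Nat.gcd (j.1.1 / u.A) (i.1.1 / u.A) = j.1.1 / Nat.gcd j.1.1 i.1.1 :=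
    RseNd23.cof_div (InN9.A_pos hn) (hn.bk.dvd _ hj) (hn.bk.dvd _ hi)
  have c2 : (i.1.1 / u.A) / Nat.gcd (i.1.1 / u.A) (j.1.1 / u.A) = i.1.1 / Nat.gcd i.1.1 j.1.1 :=
    RseNd23.cof_div (InN9.A_pos hn) (hn.bk.dvd _ hi) (hn.bk.dvd _ hj)
  set g := Nat.gcd (j.1.1 / u.A) (i.1.1 / u.A) with hg
  rw [Nat.gcd_comm (i.1.1 / u.A) (j.1.1 / u.A), ← hg] at c2
  have e1 : j.1.1 / u.A = g * (j.1.1 / Nat.gcd j.1.1 i.1.1) := by
    rw [← c1]; exact (Nat.mul_div_cancel' (Nat.gcd_dvd_left _ _)).symm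
  have e2 : i.1.1 / u.A = g * (i.1.1 / Nat.gcd i.1.1 j.1.1) := by
    rw [← c2]; exact (Nat.mul_div_cancel' (Nat.gcd_dvd_right _ _)).symm
  have k' : ((a : ℚ) + u.B * σ) * ((i.1.1 / Nat.gcd i.1.1 j.1.1 : ℕ) : ℚ) =
      (a' + u.B * σ') * ((j.1.1 / Nat.gcd j.1.1 i.1.1 : ℕ) : ℚ) := by exact_mod_cast k
  rw [e1, e2]
  push_cast
  calc ((a : ℚ) + u.B * σ) * (g * ((i.1.1 / Nat.gcd i.1.1 j.1.1 : ℕ) : ℚ))
      = g * (((a : ℚ) + u.B * σ) * ((i.1.1 / Nat.gcd i.1.1 j.1.1 : ℕ) : ℚ)) := by ring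
    _ = g * ((a' + u.B * σ') * ((j.1.1 / Nat.gcd j.1.1 i.1.1 : ℕ) : ℚ)) := by rw [k']
    _ = _ := by ring

/-- **the field `ex`**, one node: equal index at `p`, one common point -/
theorem ex_ix (h : QX X u τ) (hd1 : X.c.d1 * Kc X.S ≤ 1) {p : ℕ} (hp : p ≤ top X.S)
    {j i : X.c.Lam} (hx : ixf X p j = ixf X p i) (hj : j.1.1 ∈ τ.items) (hi : i.1.1 ∈ τ.items)
    (sj : ∃ σ, X.c.st p j.1.1 = some σ) (si : ∃ σ, X.c.st p i.1.1 = some σ)
    (hpt : ∃ (y : ℝ) (a a' : ℤ), Tth X u j y a ∧ Tth X u i y a') :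
    ∀ (y : ℝ) (a a' : ℤ), Tth X u j y a → Tth X u i y a' →
      ((a : ℚ) + ofs X p u j.1.1) * (i.1.1 / u.A : ℕ) =
        (a' + ofs X p u i.1.1) * (j.1.1 / u.A : ℕ) := by
  obtain ⟨σ, sj⟩ := sj
  obtain ⟨σ', si⟩ := si
  obtain ⟨y₀, a₀, a₀', g1, g2⟩ := hpt
  intro y a a' h1 h2
  rw [ofs_some sj, ofs_some si]
  exact JnN5.ex_allQ h h hd1 hj hi g1 g2 h1 h2 (ix_pt h hp hx hj hi sj si g1 g2)

/-- a common point of the values gives a common tooth point -/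
theorem pt_vx (h : QX X u τ) {j i : X.c.Lam} {y : ℝ} (v1 : vx X u τ j y ≠ 0)
    (v2 : vx X u τ i y ≠ 0) : ∃ (y : ℝ) (a a' : ℤ), Tth X u j y a ∧ Tth X u i y a' := by
  obtain ⟨-, a, h1⟩ := tooth h (y := y) (j := j) (by
    have := PrL45.vx_val h j y
    intro h0
    exact v1 h0)
  obtain ⟨-, a', h2⟩ := tooth h (y := y) (j := i) (by
    intro h0
    exact v2 h0)
  exact ⟨y, a, a', h1, h2⟩

/-- **adapter (a)**: equal index, one label, the first piece is inaccurate at the node -/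
theorem psJ_of (h : QX X u τ) (hd1 : X.c.d1 * Kc X.S ≤ 1) {p : ℕ} (hp : p ≤ top X.S)
    {j i : X.c.Lam} (hx : ixf X p j = ixf X p i) (hj : j.1.1 ∈ τ.items) (hi : i.1.1 ∈ τ.items)
    {σ : ℚ} (sj : X.c.st p j.1.1 = some σ) (si : X.c.st p i.1.1 = some σ)
    (hpt : ∃ (y : ℝ) (a a' : ℤ), Tth X u j y a ∧ Tth X u i y a')
    (hS : j.1.1 ∈ X.S') (hac : ¬ acc X.c.γ (X.c.r j.1.1) u.B σ) {t : ℝ}
    (ht : (u.B : ℝ) * X.c.r j.1.1 ≤ t) : PsJ X p u t j i := by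
  rw [← RB_al (v := u) hS] at ht
  refine ⟨⟨σ, sj, si, ?_⟩, ex_ix h hd1 hp hx hj hi ⟨σ, sj⟩ ⟨σ, si⟩ hpt, ht⟩
  have hn : NDt X.par (w X.ψ) X.c.t u τ := h
  have h1 := mt (RuV47.acc_node hn.B_pos).2 hac
  push Not at h1
  have hB : (0 : ℝ) < u.B := by exact_mod_cast hn.B_pos
  have e1 : (u.B : ℝ) * X.c.γ - (((u.B : ℚ) * σ : ℚ) : ℝ) = u.B * (X.c.γ - σ) := by
    push_cast; ring
  rw [e1, abs_mul, abs_of_pos hB, RB_al hS]
  exact h1

/-- the values of a piece: alive -/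
theorem vx_S (h : QX X u τ) {j : X.c.Lam} {y : ℝ} (v1 : vx X u τ j y ≠ 0) :
    j.1.1 ∈ τ.items ∧ j.1.1 ∈ X.S' := by
  have v2 : (X.g u τ).val j y ≠ 0 := by
    have e : ((X.c.D.par X.Y).toDT X.c.sp u.B u.A τ).g.val j y ≠ 0 := by
      rw [← PrL45.vx_val h j y]
      exact v1
    rw [(X.c.D.par X.Y).toDT_g] at e
    exact e
  obtain ⟨h1, h2, -⟩ := InN9.pt_of_ne (X := X) h (j := j) (y := y) v2
  exact ⟨h1, h2⟩

/-- **adapter (a)**, from the values at one common point -/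
theorem psJ_of_vx (h : QX X u τ) (hd1 : X.c.d1 * Kc X.S ≤ 1) {p : ℕ} (hp : p ≤ top X.S)
    {j i : X.c.Lam} (hx : ixf X p j = ixf X p i) {y : ℝ} (v1 : vx X u τ j y ≠ 0)
    (v2 : vx X u τ i y ≠ 0) {σ : ℚ} (sj : X.c.st p j.1.1 = some σ)
    (si : X.c.st p i.1.1 = some σ) (hac : ¬ acc X.c.γ (X.c.r j.1.1) u.B σ) {t : ℝ}
    (ht : (u.B : ℝ) * X.c.r j.1.1 ≤ t) : PsJ X p u t j i :=
  psJ_of h hd1 hp hx (vx_S h v1).1 (vx_S h v2).1 sj si (pt_vx h v1 v2) (vx_S h v1).2 hac ht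

end Crest.Agent.R4P.PsA18
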