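import Crest.Agent.R4P.GSK_55
import Crest.Agent.R4P.DTp_26
import Crest.Agent.R4P.MSd_343

/-!
R4 (S0004) with powers, T3, helper49: **the budgets of a typed row system** (contents outside the game).

`OG R pr wr` : a row system `R : RXm β δ` over bundles `pr : β → List (DT Λ κ)` of decorated trees whose
contents are the contents of point dependent types `tp : ℕ → β → ℝ → Λ → Option δ` (`none` = outside the
game), such that the pieces of one real class in the ties of a column are all inside or all outside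
(`out p b y c`, a property of the low point `y`).  **`OG.rb : RBm R`**, `OG.rbT`.
-/

set_option autoImplicit false
set_option linter.unusedSectionVars false
set_option linter.unusedVariables false
open MeasureTheory Filter Set

namespace Crest.Agent.R4P.RBd49

open Crest.Agent.R4.Tour104 Crest.Agent.R4.Tour758 Crest.Agent.R4.Avg758 Crest.Agent.R4.Clos758
open Crest.Agent.R4.ClosL758 Crest.Agent.R4.ClosG758 Crest.Agent.R4.ClosR758
open Crest.Agent.R4P.ClosR442 Crest.Agent.R4P.Grp36
open Crest.Agent.R4P.Xfer36 Crest.Agent.R4P.TopC36 Crest.Agent.R4P.PN36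
open Crest.Agent.R4P.GMer27 Crest.Agent.R4P.GCol27 Crest.Agent.R4P.GWa343 Crest.Agent.R4P.GWb343
open Crest.Agent.R4P.GWc343 Crest.Agent.R4P.GWd343 Crest.Agent.R4P.RSys343
open Crest.Agent.R4P.TrR343 Crest.Agent.R4P.DTp26
open Crest.Agent.R4P.RXm55 Crest.Agent.R4P.MSm25 Crest.Agent.R4P.PayR45 Crest.Agent.R4P.GSK55
open Crest.Agent.R4P.MSd343 (PBA)
open Crest.Agent.R4P.ModeG51 (PB_ite)
open Crest.Agent.R4P.Walk560 (DT)

variable {Λ κ : Type} [Fintype Λ] [DecidableEq Λ] [Fintype κ] [DecidableEq κ]
  {β δ : Type} [Fintype δ] [DecidableEq δ]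

/-- content of the pieces outside -/
lemma bcp_none {τ : ℝ → Λ → Option δ} {L : List (DT Λ κ)} {o : κ → Prop} [DecidablePred o]
    (k : Λ → κ) {x : ℝ} (h : ∀ j, jv L j x ≠ 0 → (τ x j = none ↔ o (k j))) :
    bcp τ L none x = ∑ c, if o c then bc k L c x else 0 := by
  classical
  have e1 : ∀ c, bc k L c x = ∑ j ∈ Finset.univ.filter (fun j => k j = c), jv L j x := by
    intro c
    have := bcp_eq (fun _ => k) L c x
    unfold bcp at this
    rw [this, hz_eq, Finset.sum_filter]
    exact Finset.sum_congr rfl fun j _ => by by_cases hh : k j = c <;> simp [hh]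
  rw [bcp_eq, hz_eq]
  have e2 : ∑ c, (if o c then bc k L c x else 0) =
      ∑ c, ∑ j, if k j = c then (if o (k j) then jv L j x else 0) else 0 := by
    refine Finset.sum_congr rfl fun c _ => ?_
    rw [e1 c, Finset.sum_filter]
    split_ifs with h1
    · refine Finset.sum_congr rfl fun j _ => ?_
      split_ifs with h2 h3 h3
      · rfl
      · rw [h2] at h3; exact absurd h1 h3
      · rfl
    · symm
      refine Finset.sum_eq_zero fun j _ => ?_
      split_ifs with h2 h3
      · rw [h2] at h3; exact absurd h3 h1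
      · rfl
      · rfl
  rw [e2, Finset.sum_comm]
  refine Finset.sum_congr rfl fun j _ => ?_
  rw [Finset.sum_ite_eq]
  simp only [Finset.mem_univ, if_true]
  by_cases hj : jv L j x = 0
  · rw [hj]; split_ifs <;> rfl
  · have := h j hj
    by_cases h1 : τ x j = none
    · rw [if_pos h1, if_pos (this.1 h1)]
    · rw [if_neg h1, if_neg fun h2 => h1 (this.2 h2)]

/-- **typed contents of a row system**, with the contents outside the game -/
structure OG (R : RXm β δ) (pr : β → List (DT Λ κ)) (wr : ℕ → Λ → κ) where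
  P : Pr (bm R) pr
  pb : ∀ {p b}, R.ok p b → PBA (pr b)
  bok : ∀ {p b}, R.ok p b → p ≠ 0 → BOk (wr p) p (bB p (pr b))
  /-- types of the pieces -/
  tp : ℕ → β → ℝ → Λ → Option δ
  mt : ∀ {p b}, R.ok p b → ∀ j, MP fun x => tp p b x j
  h : ∀ {p b}, R.ok p b → ∀ z x, R.h p b z x = bcp (tp p b) (pr b) (some z) x
  hL : ∀ {p b}, R.ok p b → p ≠ 0 → ∀ z x, R.hL p b z x = bcp (tp p b) (bL p (pr b)) (some z) x
  hB : ∀ {p b}, R.ok p b → p ≠ 0 → ∀ z x, R.hB p b z x = bcp (tp p b) (bB p (pr b)) (some z) x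
  hN : ∀ {p b}, R.ok p b → p ≠ 0 → ∀ z x, R.hN p b z x = bcp (tp p b) (bN p (pr b)) (some z) x
  /-- the real class is outside the game at the low point -/
  out : ℕ → β → ℝ → κ → Prop
  mo : ∀ {p b}, R.ok p b → p ≠ 0 → ∀ c, MP fun y => out p b y c
  oB : ∀ {p b}, R.ok p b → p ≠ 0 → ∀ x j, jv (bB p (pr b)) j x ≠ 0 →
    (tp p b x j = none ↔ out p b (p * x) (wr p j))
  oP : ∀ {p b}, R.ok p b → p ≠ 0 → ∀ y j, jv ((bB p (pr b)).map chP) j y ≠ 0 →
    (tp p (R.cP p b) y j = none ↔ out p b y (wr p j))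
  oN : ∀ {p b}, R.ok p b → p ≠ 0 → ∀ y j, jv ((bB p (pr b)).map chN) j y ≠ 0 →
    (tp p (R.cN p b) y j = none ↔ out p b y (wr p j))
  B0 : ℝ
  bd : ∀ {p b}, R.ok p b → ∀ x, bt (pr b) x ≤ B0

variable {R : RXm β δ} {pr : β → List (DT Λ κ)} {wr : ℕ → Λ → κ}

open Classical in
/-- constant part of the contents of the ties outside the game -/
noncomputable def OG.bU (H : OG R pr wr) (p : ℕ) (b : β) (y : ℝ) : ℝ :=
  ∑ c, if H.out p b y c then bb (bB p (pr b)) c y else 0

open Classical in
/-- lifts of the contents of the ties outside the game -/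
noncomputable def OG.gU (H : OG R pr wr) (p : ℕ) (b : β) (x : ℝ) : ℝ :=
  ∑ c, if H.out p b (p * x) c then gb (bB p (pr b)) c x else 0

lemma sum_some {f : Option δ → ℝ} : ∑ z : δ, f (some z) + f none = ∑ z, f z := by
  rw [Fintype.sum_option]; ring

open Classical in
/-- the mean of one class -/
lemma mean_c (H : OG R pr wr) {p : ℕ} {b : β} (ht : R.ok p b) (hp : p ≠ 0) (c : κ) (y : ℝ) :
    bb (bB p (pr b)) c y + Ep p (gb (bB p (pr b)) c) y =
      (1 - 1 / (p : ℝ)) * bc (wr p) ((bB p (pr b)).map chP) c y +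
        1 / (p : ℝ) * bc (wr p) ((bB p (pr b)).map chN) c y :=
  RXj343.ER_mean (ER_bundle (Nat.pos_of_ne_zero hp) (H.bok ht hp) ((H.pb ht).chP p).self
    ((H.pb ht).chN p).self c) (Nat.pos_of_ne_zero hp) y

open Classical in
/-- **the budgets** -/
noncomputable def OG.rb (H : OG R pr wr) : RBm R where
  tt := fun b => bt (pr b)
  u := fun p b => bcp (H.tp p b) (pr b) none
  uL := fun p b => bcp (H.tp p b) (bL p (pr b)) none
  uN := fun p b => bcp (H.tp p b) (bN p (pr b)) none
  bU := H.bU
  gU := H.gU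
  pu := fun {p b} ht => PB_bcp (H.mt ht) (H.pb ht).self none
  puL := fun {p b} ht _ => PB_bcp (H.mt ht) ((H.pb ht).bL p).self none
  puN := fun {p b} ht _ => PB_bcp (H.mt ht) ((H.pb ht).bN p).self none
  pbU := fun {p b} ht hp => PB.sum _ fun c _ =>
    PB_ite (H.mo ht hp c).prop.1 (H.mo ht hp c).prop.2 (PB_bb _ c) (PB.const le_rfl)
  pgU := fun {p b} ht hp => PB.sum _ fun c _ =>
    PB_ite (P := fun x => H.out p b (p * x) c) ((H.mo ht hp c).pull p).prop.1
      ((H.mo ht hp c).pull p).prop.2 (PB_gb _ c) (PB.const le_rfl)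
  sh := fun {p b} ht x => by
    have e : ∀ z, R.h p b z x = bcp (H.tp p b) (pr b) (some z) x := fun z => H.h ht z x
    rw [Finset.sum_congr rfl fun z _ => e z, sum_some (f := fun z => bcp (H.tp p b) (pr b) z x)]
    exact sum_bcp _ _ x
  sN := fun {p b} ht hp x => by
    have e : ∀ z, R.hN p b z x = bcp (H.tp p b) (bN p (pr b)) (some z) x := fun z => H.hN ht hp z x
    rw [Finset.sum_congr rfl fun z _ => e z,
      sum_some (f := fun z => bcp (H.tp p b) (bN p (pr b)) z x)]
    have e2 : pr (R.rN p b) = bN p (pr b) := H.P.eR ht hp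
    rw [e2]
    exact sum_bcp _ _ x
  us := fun {p b} ht hp x => by
    rw [bcp_split3 (H.tp p b) p (pr b) none x]
    have e1 : bcp (H.tp p b) (bB p (pr b)) none x = H.bU p b (p * x) + H.gU p b x := by
      rw [bcp_none (o := fun c => H.out p b (p * x) c) (wr p) (H.oB ht hp x)]
      unfold OG.bU OG.gU
      rw [← Finset.sum_add_distrib]
      refine Finset.sum_congr rfl fun c _ => ?_
      split_ifs
      · exact bc_dec (H.bok ht hp) c x
      · ring
    rw [e1]
  um := fun {p b} ht hp y => by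
    have hp0 := Nat.pos_of_ne_zero hp
    have eP : pr (R.cP p b) = (bB p (pr b)).map chP := H.P.eP ht hp
    have eN : pr (R.cN p b) = (bB p (pr b)).map chN := H.P.eN ht hp
    have e1 : bcp (H.tp p (R.cP p b)) (pr (R.cP p b)) none y =
        ∑ c, if H.out p b y c then bc (wr p) ((bB p (pr b)).map chP) c y else 0 := by
      rw [eP]
      exact bcp_none (o := fun c => H.out p b y c) (wr p) (H.oP ht hp y)
    have e2 : bcp (H.tp p (R.cN p b)) (pr (R.cN p b)) none y =
        ∑ c, if H.out p b y c then bc (wr p) ((bB p (pr b)).map chN) c y else 0 := by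
      rw [eN]
      exact bcp_none (o := fun c => H.out p b y c) (wr p) (H.oN ht hp y)
    rw [e1, e2]
    have e3 : Ep p (H.gU p b) y = ∑ c, if H.out p b y c then Ep p (gb (bB p (pr b)) c) y else 0 := by
      unfold OG.gU
      rw [Grp36.Ep_sum']
      refine Finset.sum_congr rfl fun c _ => ?_
      have hpR : (p : ℝ) ≠ 0 := Nat.cast_ne_zero.2 hp
      have hper : ∀ i : ℕ, H.out p b (p * ((y + (i : ℝ)) / p)) c = H.out p b y c := fun i => by
        rw [mul_div_cancel₀ _ hpR]
        exact (H.mo ht hp c).per_nat i y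
      by_cases h : H.out p b y c
      · rw [if_pos h]
        unfold Ep
        congr 1
        refine Finset.sum_congr rfl fun i _ => ?_
        have : H.out p b (p * ((y + (i : ℝ)) / p)) c := by rw [hper]; exact h
        exact if_pos this
      · rw [if_neg h]
        unfold Ep
        rw [Finset.sum_eq_zero, zero_div]
        intro i _
        have : ¬ H.out p b (p * ((y + (i : ℝ)) / p)) c := by rw [hper]; exact h
        exact if_neg this
    rw [e3]
    unfold OG.bU
    rw [Finset.mul_sum, Finset.mul_sum, ← Finset.sum_add_distrib, ← Finset.sum_add_distrib]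
    refine Finset.sum_congr rfl fun c _ => ?_
    split_ifs
    · exact mean_c H ht hp c y
    · ring
  un := fun {b} ht x => by
    have h := H.P.no1 ht
    have eP : pr (R.cP 1 b) = (bB 1 (pr b)).map chP := H.P.eP ht one_ne_zero
    have eN : pr (R.cN 1 b) = (bB 1 (pr b)).map chN := H.P.eN ht one_ne_zero
    constructor
    · show bcp (H.tp 1 (R.cP 1 b)) (pr (R.cP 1 b)) none x = 0
      rw [eP, h]; rfl
    · show bcp (H.tp 1 (R.cN 1 b)) (pr (R.cN 1 b)) none x = 0
      rw [eN, h]; rfl
  B0 := H.B0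
  bd := H.bd

/-- the lifts outside the game are at most the lifts of all the real classes -/
lemma OG.gU_le (H : OG R pr wr) (p : ℕ) (b : β) (x : ℝ) :
    H.gU p b x ≤ ∑ c, gb (bB p (pr b)) c x := by
  classical
  unfold OG.gU
  refine Finset.sum_le_sum fun c _ => ?_
  have := (PB_gb (bB p (pr b)) c).nonneg x
  split_ifs
  · exact le_rfl
  · exact this

end Crest.Agent.R4P.RBd49
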