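import Mathlib

/-!
R4 (S0004), helper36: **residues of words** (helper55's doc 2131 (B)).

`k` a modulus, `r_1, .., r_m` units mod `k`, `H` the set of the `∏ r_j ^ e_j`, `e_j ∈ {-1, 0, 1}`. A family `F` of
reduced fractions `u / u'` with `u = u' h` in `ZMod k`, `h ∈ H`, `u, u' ≤ Y`, at most `b` prime factors each,
`Y ^ (2 a) < k`, satisfies `|F| ^ a ≤ (4 ^ b) ^ a * a ^ (2 a b) * (2 a + 1) ^ m` (`card_pow_le`).

Proof: give every prime a side (numerator / denominator); for some choice of the sides a share `4 ^ (-b)` of `F` is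
compatible with it; in this subfamily products of `a` fractions are reduced, hence determined by their residue.
-/

set_option autoImplicit false
open Finset

namespace Crest.Agent.R4P.ResN36

/-! ### ordered factorizations -/

lemma mem_anti {a n : ℕ} {f : Fin a → ℕ} : f ∈ Nat.finMulAntidiag a n ↔ ∏ i, f i = n ∧ n ≠ 0 :=
  Nat.mem_finMulAntidiag

lemma anti_step {a p n : ℕ} (hp : p.Prime) (hn : n ≠ 0) :
    (Nat.finMulAntidiag a (p * n)).card ≤ a * (Nat.finMulAntidiag a n).card := by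
  classical
  have h1 : Nat.finMulAntidiag a (p * n) ⊆
      ((univ : Finset (Fin a)) ×ˢ Nat.finMulAntidiag a n).image
        fun q => Function.update q.2 q.1 (p * q.2 q.1) := by
    intro g hg
    rw [mem_anti] at hg
    obtain ⟨h2, h3⟩ := hg
    have h4 : p ∣ ∏ i, g i := h2 ▸ dvd_mul_right p n
    obtain ⟨i, -, hi⟩ := (hp.prime.dvd_finsetProd_iff g).1 h4
    obtain ⟨c, hc⟩ := hi
    rw [mem_image]
    refine ⟨(i, Function.update g i c), ?_, ?_⟩
    · rw [mem_product]
      refine ⟨mem_univ _, mem_anti.2 ⟨?_, hn⟩⟩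
      have h5 : ∏ j, Function.update g i (p * c) j = p * ∏ j, Function.update g i c j := by
        rw [prod_update_of_mem (mem_univ i), prod_update_of_mem (mem_univ i), mul_assoc]
      rw [← hc, Function.update_eq_self] at h5
      rw [h2] at h5
      exact (Nat.eq_of_mul_eq_mul_left hp.pos h5).symm
    · show Function.update (Function.update g i c) i (p * Function.update g i c i) = g
      rw [Function.update_self, Function.update_idem, ← hc, Function.update_eq_self]
  refine (card_le_card h1).trans (card_image_le.trans ?_)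
  rw [card_product, card_univ, Fintype.card_fin]

/-- the number of ordered factorizations in `a` factors is at most `a ^ Ω(n)` -/
lemma anti_card (a : ℕ) {n : ℕ} (hn : n ≠ 0) :
    (Nat.finMulAntidiag a n).card ≤ a ^ (ArithmeticFunction.cardFactors n) := by
  classical
  induction n using induction_on_primes with
  | zero => exact absurd rfl hn
  | one =>
    rw [ArithmeticFunction.cardFactors_one, pow_zero]
    rw [Finset.card_le_one]
    intro f hf g hg
    rw [mem_anti] at hf hg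
    funext i
    have h1 : f i ∣ 1 := hf.1 ▸ dvd_prod_of_mem f (mem_univ i)
    have h2 : g i ∣ 1 := hg.1 ▸ dvd_prod_of_mem g (mem_univ i)
    rw [Nat.dvd_one.1 h1, Nat.dvd_one.1 h2]
  | prime_mul p n hp ih =>
    have hn' : n ≠ 0 := fun h => hn (by rw [h, mul_zero])
    refine (anti_step hp hn').trans ?_
    rw [ArithmeticFunction.cardFactors_mul hp.ne_zero hn',
      ArithmeticFunction.cardFactors_apply_prime hp, pow_add, pow_one]
    exact Nat.mul_le_mul_left a (ih hn')

/-! ### sides -/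

/-- `f = (u, u')` is compatible with the sides `σ`: the primes of `u` are in `σ`, those of `u'` are not -/
def Cmp (σ : Finset ℕ) (f : ℕ × ℕ) : Prop := f.1.primeFactors ⊆ σ ∧ Disjoint f.2.primeFactors σ

open Classical in
/-- **sides** -/
lemma sides (F : Finset (ℕ × ℕ)) (b : ℕ) (hcop : ∀ f ∈ F, f.1.Coprime f.2)
    (hb : ∀ f ∈ F, f.1.primeFactors.card ≤ b ∧ f.2.primeFactors.card ≤ b) :
    ∃ σ, F.card ≤ 4 ^ b * (F.filter (Cmp σ)).card := by
  set P : Finset ℕ := F.biUnion fun f => f.1.primeFactors ∪ f.2.primeFactors with hP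
  have key : ∀ f ∈ F, 2 ^ P.card ≤ 4 ^ b * (P.powerset.filter fun σ => Cmp σ f).card := by
    intro f hf
    set A := f.1.primeFactors with hA
    set B := f.2.primeFactors with hB
    have hAB : Disjoint A B := (hcop f hf).disjoint_primeFactors
    have hs : A ∪ B ⊆ P := subset_biUnion_of_mem (fun f => f.1.primeFactors ∪ f.2.primeFactors) hf
    have h1 : (P \ (A ∪ B)).powerset.card ≤ (P.powerset.filter fun σ => Cmp σ f).card := by
      refine card_le_card_of_injOn (fun τ => τ ∪ A) (fun τ hτ => ?_) (fun τ hτ τ' hτ' h => ?_)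
      · rw [mem_coe, mem_powerset] at hτ
        rw [mem_coe, mem_filter, mem_powerset]
        refine ⟨union_subset (hτ.trans sdiff_subset) (subset_union_left.trans hs),
          subset_union_right, ?_⟩
        rw [disjoint_union_right]
        refine ⟨?_, hAB.symm⟩
        exact (disjoint_of_subset_left hτ (disjoint_of_subset_right subset_union_right
          sdiff_disjoint)).symm
      · rw [mem_coe, mem_powerset] at hτ hτ'
        have d1 : Disjoint τ A := disjoint_of_subset_left hτ (disjoint_of_subset_right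
          subset_union_left sdiff_disjoint)
        have d2 : Disjoint τ' A := disjoint_of_subset_left hτ' (disjoint_of_subset_right
          subset_union_left sdiff_disjoint)
        have h' : τ ∪ A = τ' ∪ A := h
        calc τ = (τ ∪ A) \ A := by
                rw [union_sdiff_right, sdiff_eq_self_of_disjoint d1]
          _ = (τ' ∪ A) \ A := by rw [h']
          _ = τ' := by rw [union_sdiff_right, sdiff_eq_self_of_disjoint d2]
    rw [card_powerset] at h1
    have h2 : P.card = (P \ (A ∪ B)).card + (A ∪ B).card := by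
      rw [card_sdiff_of_subset hs]
      have := card_le_card hs
      omega
    have h3 : (A ∪ B).card ≤ 2 * b := (card_union_le A B).trans (by
      rw [two_mul]
      exact add_le_add (hb f hf).1 (hb f hf).2)
    calc 2 ^ P.card = 2 ^ (P \ (A ∪ B)).card * 2 ^ (A ∪ B).card := by rw [h2, pow_add]
      _ ≤ 2 ^ (P \ (A ∪ B)).card * 2 ^ (2 * b) :=
        Nat.mul_le_mul_left _ (Nat.pow_le_pow_right (by norm_num) h3)
      _ = 4 ^ b * 2 ^ (P \ (A ∪ B)).card := by rw [pow_mul, mul_comm]; norm_num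
      _ ≤ _ := Nat.mul_le_mul_left _ h1
  have hsum : ∑ σ ∈ P.powerset, (F.filter (Cmp σ)).card =
      ∑ f ∈ F, (P.powerset.filter fun σ => Cmp σ f).card := by
    simp only [card_filter]
    exact sum_comm
  by_contra hcon
  push Not at hcon
  have h4 : F.card * 2 ^ P.card ≤ 4 ^ b * ∑ σ ∈ P.powerset, (F.filter (Cmp σ)).card := by
    rw [hsum, mul_sum, ← smul_eq_mul, ← sum_const]
    exact sum_le_sum key
  have h5 : 4 ^ b * ∑ σ ∈ P.powerset, (F.filter (Cmp σ)).card < 2 ^ P.card * F.card := by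
    rw [mul_sum, ← card_powerset, ← smul_eq_mul, ← sum_const]
    exact sum_lt_sum_of_nonempty ⟨∅, empty_mem_powerset P⟩ fun σ _ => hcon σ
  rw [mul_comm] at h4
  omega

/-! ### products of fractions -/

/-- `u = u' h` in `ZMod k` with `h = ∏ r_j ^ e_j`, `e_j ∈ {-1, 0, 1}` -/
def Rel {k m : ℕ} (r : Fin m → (ZMod k)ˣ) (f : ℕ × ℕ) : Prop :=
  ∃ e : Fin m → ℤ, (∀ j, |e j| ≤ 1) ∧
    (f.1 : ZMod k) = (f.2 : ZMod k) * ((∏ j, r j ^ e j : (ZMod k)ˣ) : ZMod k)

lemma prod_zpow_sum {G : Type*} [CommGroup G] {m : ℕ} (r : Fin m → G) {a : ℕ}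
    (e : Fin a → Fin m → ℤ) : ∏ i, ∏ j, r j ^ e i j = ∏ j, r j ^ ∑ i, e i j := by
  rw [prod_comm]
  refine prod_congr rfl fun j _ => ?_
  have h : ∀ s : Finset (Fin a), ∏ i ∈ s, r j ^ e i j = r j ^ ∑ i ∈ s, e i j := by
    intro s
    classical
    induction s using Finset.induction_on with
    | empty => simp
    | insert i s hi ih => rw [prod_insert hi, sum_insert hi, zpow_add, ih]
  exact h univ

/-- the residue of a product of fractions -/
lemma res_prod {k m a : ℕ} (r : Fin m → (ZMod k)ˣ) (g : Fin a → ℕ × ℕ) (e : Fin a → Fin m → ℤ)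
    (h : ∀ i, ((g i).1 : ZMod k) = ((g i).2 : ZMod k) * ((∏ j, r j ^ e i j : (ZMod k)ˣ) : ZMod k)) :
    ((∏ i, (g i).1 : ℕ) : ZMod k) = ((∏ i, (g i).2 : ℕ) : ZMod k) *
      ((∏ j, r j ^ ∑ i, e i j : (ZMod k)ˣ) : ZMod k) := by
  rw [← prod_zpow_sum, Nat.cast_prod, Nat.cast_prod, Units.coe_prod, ← prod_mul_distrib]
  exact prod_congr rfl fun i _ => h i

/-- products of compatible fractions are coprime -/
lemma cop_prod {σ : Finset ℕ} {a a' : ℕ} {g : Fin a → ℕ × ℕ} {g' : Fin a' → ℕ × ℕ}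
    (h : ∀ i, Cmp σ (g i)) (h0 : ∀ i, (g i).1 ≠ 0) (h' : ∀ i, Cmp σ (g' i))
    (h0' : ∀ i, (g' i).2 ≠ 0) : (∏ i, (g i).1).Coprime (∏ i, (g' i).2) := by
  refine Nat.Coprime.prod_left fun i _ => Nat.Coprime.prod_right fun j _ => ?_
  rw [← Nat.disjoint_primeFactors (h0 i) (h0' j)]
  exact (disjoint_of_subset_right (h i).1 (h' j).2).symm

lemma om_prod {a b : ℕ} {g : Fin a → ℕ} (h0 : ∀ i, g i ≠ 0)
    (hb : ∀ i, ArithmeticFunction.cardFactors (g i) ≤ b) :
    ArithmeticFunction.cardFactors (∏ i, g i) ≤ a * b := by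
  have h : ∀ s : Finset (Fin a), ArithmeticFunction.cardFactors (∏ i ∈ s, g i) ≤ s.card * b := by
    intro s
    classical
    induction s using Finset.induction_on with
    | empty => simp
    | insert i s hi ih =>
      rw [prod_insert hi, card_insert_of_notMem hi,
        ArithmeticFunction.cardFactors_mul (h0 i) (prod_ne_zero_iff.2 fun j _ => h0 j)]
      have := hb i
      calc _ ≤ b + s.card * b := add_le_add this ih
        _ = (s.card + 1) * b := by ring
  have := h univ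
  rwa [card_univ, Fintype.card_fin] at this

open Classical in
/-- **the compatible family** -/
lemma core {k m a b Y : ℕ} (r : Fin m → (ZMod k)ˣ) (F : Finset (ℕ × ℕ)) (σ : Finset ℕ)
    (hs : ∀ f ∈ F, Cmp σ f) (h0 : ∀ f ∈ F, f.1 ≠ 0 ∧ f.2 ≠ 0) (hY : ∀ f ∈ F, f.1 ≤ Y ∧ f.2 ≤ Y)
    (hb : ∀ f ∈ F, ArithmeticFunction.cardFactors f.1 ≤ b ∧ ArithmeticFunction.cardFactors f.2 ≤ b)
    (hR : ∀ f ∈ F, Rel r f) (ha : a ≠ 0) (hk : Y ^ (2 * a) < k) :
    F.card ^ a ≤ a ^ (2 * a * b) * (2 * a + 1) ^ m := by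
  choose! E hE1 hE2 using hR
  set G : Finset (Fin a → ℕ × ℕ) := Fintype.piFinset fun _ => F with hG
  have hGc : G.card = F.card ^ a := Fintype.card_piFinset_const F a
  set T : Finset (Fin m → ℤ) := Fintype.piFinset fun _ => Icc (-(a : ℤ)) a with hT
  have hTc : T.card = (2 * a + 1) ^ m := by
    rw [hT, Fintype.card_piFinset_const, Int.card_Icc]
    congr 1
    omega
  rw [← hGc, ← hTc]
  have hmem : ∀ {g}, g ∈ G → ∀ i, g i ∈ F := fun hg i => Fintype.mem_piFinset.1 hg i
  refine card_le_mul_card_image_of_maps_to (f := fun g j => ∑ i, E (g i) j) (fun g hg => ?_) _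
    (fun c _ => ?_)
  · rw [hT, Fintype.mem_piFinset]
    intro j
    rw [mem_Icc, ← abs_le]
    refine (abs_sum_le_sum_abs _ _).trans ((sum_le_sum fun i _ => hE1 (g i) (hmem hg i) j).trans ?_)
    simp
  · rcases (G.filter fun g => (fun j => ∑ i, E (g i) j) = c).eq_empty_or_nonempty with he | ⟨g0, hg0⟩
    · rw [he, card_empty]
      exact Nat.zero_le _
    rw [mem_filter] at hg0
    obtain ⟨hg0, hc0⟩ := hg0
    have fin : ∀ {g}, g ∈ G → (fun j => ∑ i, E (g i) j) = c →
        ∏ i, (g i).1 = ∏ i, (g0 i).1 ∧ ∏ i, (g i).2 = ∏ i, (g0 i).2 := by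
      intro g hg hc
      have r1 := res_prod r g (fun i => E (g i)) fun i => hE2 (g i) (hmem hg i)
      have r2 := res_prod r g0 (fun i => E (g0 i)) fun i => hE2 (g0 i) (hmem hg0 i)
      have e1 : ∀ j, ∑ i, E (g i) j = c j := fun j => congrFun hc j
      have e2 : ∀ j, ∑ i, E (g0 i) j = c j := fun j => congrFun hc0 j
      simp only [e1] at r1
      simp only [e2] at r2
      have b1 : ∀ {g}, g ∈ G → ∏ i, (g i).1 ≤ Y ^ a := fun hg =>
        (prod_le_prod' fun i _ => (hY _ (hmem hg i)).1).trans (by simp)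
      have b2 : ∀ {g}, g ∈ G → ∏ i, (g i).2 ≤ Y ^ a := fun hg =>
        (prod_le_prod' fun i _ => (hY _ (hmem hg i)).2).trans (by simp)
      have hYY : Y ^ a * Y ^ a < k := by
        rw [← pow_add]
        have : a + a = 2 * a := by ring
        rwa [this]
      have r3 : (((∏ i, (g i).1) * ∏ i, (g0 i).2 : ℕ) : ZMod k) =
          (((∏ i, (g0 i).1) * ∏ i, (g i).2 : ℕ) : ZMod k) := by
        rw [Nat.cast_mul, Nat.cast_mul, r1, r2]
        ring
      have r4 : (∏ i, (g i).1) * ∏ i, (g0 i).2 = (∏ i, (g0 i).1) * ∏ i, (g i).2 := by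
        rw [ZMod.natCast_eq_natCast_iff'] at r3
        rwa [Nat.mod_eq_of_lt ((Nat.mul_le_mul (b1 hg) (b2 hg0)).trans_lt hYY),
          Nat.mod_eq_of_lt ((Nat.mul_le_mul (b1 hg0) (b2 hg)).trans_lt hYY)] at r3
      have c1 := cop_prod (fun i => hs _ (hmem hg i)) (fun i => (h0 _ (hmem hg i)).1)
        (fun i => hs _ (hmem hg i)) (fun i => (h0 _ (hmem hg i)).2)
      have c2 := cop_prod (fun i => hs _ (hmem hg0 i)) (fun i => (h0 _ (hmem hg0 i)).1)
        (fun i => hs _ (hmem hg0 i)) (fun i => (h0 _ (hmem hg0 i)).2)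
      have c3 := cop_prod (fun i => hs _ (hmem hg0 i)) (fun i => (h0 _ (hmem hg0 i)).1)
        (fun i => hs _ (hmem hg i)) (fun i => (h0 _ (hmem hg i)).2)
      have d1 : ∏ i, (g i).1 ∣ ∏ i, (g0 i).1 :=
        c1.dvd_of_dvd_mul_right (r4 ▸ dvd_mul_right _ _)
      have d2 : ∏ i, (g0 i).1 ∣ ∏ i, (g i).1 :=
        c2.dvd_of_dvd_mul_right (r4 ▸ dvd_mul_right _ _)
      have e3 := Nat.dvd_antisymm d1 d2
      refine ⟨e3, ?_⟩
      rw [e3] at r4
      have n0 : ∏ i, (g0 i).1 ≠ 0 := prod_ne_zero_iff.2 fun i _ => (h0 _ (hmem hg0 i)).1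
      exact (Nat.eq_of_mul_eq_mul_left (Nat.pos_of_ne_zero n0) r4).symm
    have n1 : ∏ i, (g0 i).1 ≠ 0 := prod_ne_zero_iff.2 fun i _ => (h0 _ (hmem hg0 i)).1
    have n2 : ∏ i, (g0 i).2 ≠ 0 := prod_ne_zero_iff.2 fun i _ => (h0 _ (hmem hg0 i)).2
    have h1 : (G.filter fun g => (fun j => ∑ i, E (g i) j) = c).card ≤
        (Nat.finMulAntidiag a (∏ i, (g0 i).1) ×ˢ Nat.finMulAntidiag a (∏ i, (g0 i).2)).card := by
      refine card_le_card_of_injOn (fun g => (fun i => (g i).1, fun i => (g i).2))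
        (fun g hg => ?_) (fun g _ g' _ h => ?_)
      · rw [mem_coe, mem_filter] at hg
        rw [mem_coe, mem_product, mem_anti, mem_anti]
        exact ⟨⟨(fin hg.1 hg.2).1, n1⟩, ⟨(fin hg.1 hg.2).2, n2⟩⟩
      · have h' := Prod.mk.inj h
        funext i
        exact Prod.ext (congrFun h'.1 i) (congrFun h'.2 i)
    refine h1.trans ?_
    rw [card_product]
    have ha1 : 1 ≤ a := Nat.one_le_iff_ne_zero.2 ha
    have u1 := (anti_card a n1).trans (Nat.pow_le_pow_right ha1
      (om_prod (b := b) (fun i => (h0 _ (hmem hg0 i)).1) fun i => (hb _ (hmem hg0 i)).1))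
    have u2 := (anti_card a n2).trans (Nat.pow_le_pow_right ha1
      (om_prod (b := b) (fun i => (h0 _ (hmem hg0 i)).2) fun i => (hb _ (hmem hg0 i)).2))
    calc _ ≤ a ^ (a * b) * a ^ (a * b) := Nat.mul_le_mul u1 u2
      _ = a ^ (2 * a * b) := by rw [← pow_add]; congr 1; ring

lemma omega_le {n b : ℕ} (h : ArithmeticFunction.cardFactors n ≤ b) : n.primeFactors.card ≤ b := by
  refine le_trans ?_ h
  rw [ArithmeticFunction.cardFactors_apply, ← Nat.toFinset_factors]
  exact List.toFinset_card_le _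

/-- **number of fractions with a residue in `H`** -/
theorem card_pow_le {k m a b Y : ℕ} (r : Fin m → (ZMod k)ˣ) (F : Finset (ℕ × ℕ))
    (h0 : ∀ f ∈ F, f.1 ≠ 0 ∧ f.2 ≠ 0) (hY : ∀ f ∈ F, f.1 ≤ Y ∧ f.2 ≤ Y)
    (hcop : ∀ f ∈ F, f.1.Coprime f.2)
    (hb : ∀ f ∈ F, ArithmeticFunction.cardFactors f.1 ≤ b ∧ ArithmeticFunction.cardFactors f.2 ≤ b)
    (hR : ∀ f ∈ F, Rel r f) (ha : a ≠ 0) (hk : Y ^ (2 * a) < k) :
    F.card ^ a ≤ (4 ^ b) ^ a * (a ^ (2 * a * b) * (2 * a + 1) ^ m) := by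
  classical
  obtain ⟨σ, hσ⟩ := sides F b hcop fun f hf => ⟨omega_le (hb f hf).1, omega_le (hb f hf).2⟩
  have h1 := core r (F.filter (Cmp σ)) σ (fun f hf => (mem_filter.1 hf).2)
    (fun f hf => h0 f (mem_filter.1 hf).1) (fun f hf => hY f (mem_filter.1 hf).1)
    (fun f hf => hb f (mem_filter.1 hf).1) (fun f hf => hR f (mem_filter.1 hf).1) ha hk
  calc F.card ^ a ≤ (4 ^ b * (F.filter (Cmp σ)).card) ^ a := Nat.pow_le_pow_left hσ a
    _ = (4 ^ b) ^ a * (F.filter (Cmp σ)).card ^ a := mul_pow _ _ _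
    _ ≤ _ := Nat.mul_le_mul_left _ h1

end Crest.Agent.R4P.ResN36
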