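import Crest.Agent.R4P.RtC_28

/-!
R4 (S0004), powers pass, helper28: **the energy of the P|N pairs of one P-chain, one block of columns**
(`chain`): `HH X Y A P u τ ≤ (log P)^(-s) * (u.c * ∑ alive items)` for every node with column in
`[P, 2P)`.
-/

set_option autoImplicit false
set_option linter.unusedSectionVars false
set_option linter.unusedVariables false

open MeasureTheory Filter

namespace Crest.Agent.R4P.RtD28

open Crest.Agent.R4P.Cnt588 Crest.Agent.R4P.Item758 Crest.Agent.R4P.W363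
open Crest.Agent.R4P.Data758 Crest.Agent.R4P.OmSt532 Crest.Agent.R4P.OmData532
open Crest.Agent.R4P.LfDat734 Crest.Agent.R4P.WPex189
open Crest.Agent.R4P.Bld532 (NS All NodeOk Bk)
open Crest.Agent.R4P.Step588 (NDt ND1 ctx_NDt uq_lt)
open Crest.Agent.R4P.WalkIT579 (tp isL nodeOk_hi top_of_nodeOk)
open Crest.Agent.R4P.Skel189 Crest.Agent.R4P.RseSt23 Crest.Agent.R4P.RseNd23
open Crest.Agent.R4P.RtC28 Crest.Agent.R4P.RtN28
open Crest.Agent.R4.LF363 (Lab)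
open Crest.Agent.R4.HVW560 (cof)
open Crest.Agent.R4.AvgItem710 (Dp mul_cof mul_cof' cof_pos cof_coprime exists_of_I_ne)
open Crest.Agent.R4P.AvgItem710
open Crest.Agent.R4.ClosL758 Crest.Agent.R4.ClosR758 Crest.Agent.R4.Tour104 Crest.Agent.R4.Fam464
open Crest.Agent.R4.Tour758 Crest.Agent.R4.Avg758
open Crest.Agent.R4P.Frame758
open Crest.Agent.R4.Soft104 (w)
open Crest.Agent.R4

open Classical in
lemma cover3 {α : Type*} {S : Finset α} {F : α → ℝ} {C₁ C₂ C₃ : α → Prop} (h0 : ∀ e ∈ S, 0 ≤ F e)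
    (h : ∀ e ∈ S, C₁ e ∨ C₂ e ∨ C₃ e) :
    ∑ e ∈ S, F e ≤ ∑ e ∈ S.filter C₁, F e + (∑ e ∈ S.filter C₂, F e +
      ∑ e ∈ S.filter C₃, F e) := by
  rw [Finset.sum_filter C₁, Finset.sum_filter C₂, Finset.sum_filter C₃, ← Finset.sum_add_distrib,
      ← Finset.sum_add_distrib]
  refine Finset.sum_le_sum fun e he => ?_
  have h0 := h0 e he
  have b1 : 0 ≤ (if C₁ e then F e else 0) := by split_ifs <;> [exact h0; exact le_rfl]
  have b2 : 0 ≤ (if C₂ e then F e else 0) := by split_ifs <;> [exact h0; exact le_rfl]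
  have b3 : 0 ≤ (if C₃ e then F e else 0) := by split_ifs <;> [exact h0; exact le_rfl]
  rcases h e he with h7 | h7 | h7
  · rw [if_pos h7]; linarith
  · rw [if_pos h7]; linarith
  · rw [if_pos h7]; linarith

section ctx
variable {N : Skel189.Num} {γ : ℝ} {p0 P₀ : ℕ}

/-- the label of the present stage, on the circle of the node -/
noncomputable def prL (X : Ctx N γ p0 P₀) (B : ℕ) (q : ℕ) : ℚ :=
  (B : ℚ) * (lab0 X.c.γ (X.c.r q) B).getD 0

set_option maxHeartbeats 4000000 in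
/-- **the P|N pairs of one P-chain, one block of columns** -/
theorem chain (N : Skel189.Num) (s : ℝ) : ∃ p₁ : ℕ, ∀ P ≥ p₁, ∀ p0 ≥ p₁,
    ∀ (γ : ℝ) (P₀ : ℕ), 2 ≤ P₀ → ∀ X : Ctx N γ p0 P₀, RseH X →
    ∀ (Y : Finset (ℕ × ℕ × Finset ℕ)) (u : NS) (τ : IT), All (NF X) u τ → ¬ isL τ →
    P ≤ tp τ → tp τ < 2 * P → ∀ A : Finset X.c.Lam,
      HH X Y A P u τ ≤ Real.log P ^ (-s) * (u.c * ∑ q ∈ al X τ A, w X.ψ q) := by
  classical
  have hc2 := N.hc2
  have hCT := Step588.CT_pos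
  obtain ⟨p1, h1⟩ := alive_facts N
  obtain ⟨p2, h2⟩ := rtU' (4 * Step588.CT) (N.c2 + 1) (s + 1) (by positivity) (by linarith)
  obtain ⟨p3, h3⟩ := rtL' (4 * Step588.CT) (N.c2 + 1) (s + 1) (by positivity) (by linarith)
  obtain ⟨p4, h4⟩ := rtT' (4 * Step588.CT) (s + 1) (by positivity)
  obtain ⟨p5, h5⟩ := num_P (N.c2 + 2)
  obtain ⟨p6, h6⟩ := num_c N.c2 hc2
  refine ⟨p1 + p2 + p3 + p4 + p5 + p6, fun P hPp p0 hp0 γ P₀ hP₀ X hX Y u τ hA hl hPt htP A => ?_⟩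
  have hN := hA.self
  have h := hN.nd
  obtain ⟨k1, k2, k3, k4⟩ := nodeOk_hi h.self.node hl
  have k2' : p0 < tp τ := k2
  have hpt : tp τ ≤ top X.S := k3.le.trans hN.lvl
  obtain ⟨n1, n2, n3, n4, n5⟩ := h5 P (by omega)
  have hPR : (0:ℝ) < P := by exact_mod_cast (by omega : 0 < P)
  have hPR1 : (1:ℝ) ≤ P := by exact_mod_cast (by omega : 1 ≤ P)
  have hl0 : 0 < Real.log (P:ℝ) := by linarith
  have hltp : Real.log (tp τ) ≤ 2 * Real.log P := log_two_mul (by omega) htP (by omega)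
  have hltp0 : 0 ≤ Real.log (tp τ) := Real.log_nonneg (by exact_mod_cast (by omega : 1 ≤ tp τ))
  set T : Finset ℕ := al X τ A with hT
  have hTm : ∀ q ∈ T, q ∈ τ.items ∧ q ∈ X.S' := fun q hq => by
    rw [hT] at hq
    unfold al at hq
    obtain ⟨a1, a2⟩ := Finset.mem_filter.1 hq
    exact ⟨a1, a2.1⟩
  have hTF : ∀ q ∈ T, AlF X u τ q := fun q hq =>
    h1 p0 (by omega) γ P₀ hP₀ X u τ hN hl q (hTm q hq).1 (hTm q hq).2
  have hrr : ∀ q, 0 < X.c.rr q := (X.ok.rad Y).pos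
  set F : ℕ × ℕ → ℝ := FF X Y A P u τ with hF
  set E : Finset (ℕ × ℕ) := (τ.items ×ˢ τ.items).filter fun e => F e ≠ 0 with hE
  have hEne : ∀ e ∈ E, F e ≠ 0 := fun e he => (Finset.mem_filter.1 he).2
  have hspec : ∀ e, ∃ (u' : NS) (p : ℕ) (Sp : Finset ℕ) (t₁ t₀ : IT),
      e ∈ E → SN X Y A P u τ e u' p Sp t₁ t₀ := fun e => by
    by_cases he : e ∈ E
    · obtain ⟨u', p, Sp, t₁, t₀, S⟩ := FF_spec τ u hA e (hEne e he)
      exact ⟨u', p, Sp, t₁, t₀, fun _ => S⟩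
    · exact ⟨u, 0, ∅, .leaf ∅, .leaf ∅, fun h => absurd h he⟩
  choose ue pe Spe te₁ te₀ hSN using hspec
  have hA0 : 0 < u.A := h.A_pos
  have hB0 : 0 < u.B := h.B_pos
  -- facts of the columns
  have hcol : ∀ e ∈ E, P ≤ pe e ∧ pe e < 2 * P ∧ p0 < pe e ∧ pe e ≤ top X.S := fun e he => by
    have S := hSN e he
    obtain ⟨-, g2, -, -⟩ := nodeOk_hi S.nf.nd.self.node (by simp [isL])
    exact ⟨S.hP, lt_of_le_of_lt S.htp htP, g2, S.htp.trans hpt⟩
  have hlink := fun e he => link (Y := Y) (A := A) (hSN e he).nf.nd (hSN e he).pe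
  have hET : ∀ e ∈ E, e.1 ∈ T ∧ e.2 ∈ T := by
    intro e he
    have S := hSN e he
    obtain ⟨j, j', hj, hj', hee, i1, i2, -, -, y, a, a', o1, o2, -⟩ := hlink e he
    have hs1 : j.1.1 ∈ X.S' := by
      by_contra hc
      exact o1 (X.om_zero hc _ _)
    have hs2 : j'.1.1 ∈ X.S' := by
      by_contra hc
      exact o2 (X.om_zero hc _ _)
    have m1 : j.1.1 ∈ τ.items := S.sub (Finset.mem_union_left _ i1)
    have m2 : j'.1.1 ∈ τ.items := S.sub (Finset.mem_union_right _ i2)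
    rw [hT, hee]
    unfold al
    exact ⟨Finset.mem_filter.2 ⟨m1, hs1, j, hj, rfl⟩, Finset.mem_filter.2 ⟨m2, hs2, j', hj', rfl⟩⟩
  have hmem' : ∀ e ∈ E, e.1 ∈ (IT.br (pe e) (Spe e) (te₁ e) (te₀ e)).items ∧
      e.2 ∈ (IT.br (pe e) (Spe e) (te₁ e) (te₀ e)).items := fun e he =>
    ⟨Finset.mem_union_left _ (hSN e he).e1, Finset.mem_union_right _ (hSN e he).e2⟩
  -- cofactors and radii at the node of a pair
  have hcofe : ∀ e ∈ E, cof (e.1 / (ue e).A) (e.2 / (ue e).A) = cof (e.1 / u.A) (e.2 / u.A) ∧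
      cof (e.2 / (ue e).A) (e.1 / (ue e).A) = cof (e.2 / u.A) (e.1 / u.A) := fun e he => by
    have S := hSN e he
    have g := S.nf.nd
    obtain ⟨m1, m2⟩ := hmem' e he
    obtain ⟨t1, t2⟩ := hET e he
    have d1 := g.bk.dvd _ m1
    have d2 := g.bk.dvd _ m2
    have c1 := (hTF _ t1).dvd
    have c2 := (hTF _ t2).dvd
    exact ⟨by rw [cof_div g.A_pos d1 d2, cof_div hA0 c1 c2],
      by rw [cof_div g.A_pos d2 d1, cof_div hA0 c2 c1]⟩
  have hRBe : ∀ e ∈ E, RB X (ue e) = RB X u := fun e he => by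
    funext q
    show ((ue e).B : ℝ) * X.c.rr q = (u.B : ℝ) * X.c.rr q
    rw [(hSN e he).hB]
  have hDAe : ∀ e ∈ E, DA (ue e).A (RB X (ue e)) e = DA u.A (RB X u) e := fun e he => by
    obtain ⟨c1, c2⟩ := hcofe e he
    rw [hRBe e he]
    unfold DA Crest.Agent.R4.AvgItem710.Dp
    rw [c1, c2]
  -- states
  set st : ℕ × ℕ → ℕ → Option ℚ := fun e q => X.c.st (pe e) q with hst
  have hlam : ∀ e ∈ E, X.c.lam (pe e) = 0 := fun e he =>
    hX.lam _ (hcol e he).2.2.1 (hcol e he).2.2.2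
  have hsome : ∀ e ∈ E, (st e e.1).isSome = (st e e.2).isSome := by
    intro e he
    obtain ⟨j, j', hj, hj', hee, i1, i2, hix, -⟩ := hlink e he
    have := isSome_pair (hlam e he) hix
    rw [hee]
    rw [hee] at this
    exact this
  have hwA0 : ∀ q ∈ T, 0 ≤ wA u.A (RB X u) q := fun q hq => by
    unfold wA
    have := (hTF q hq).R0.le
    positivity
  -- masses
  set M : ℝ := u.c * ∑ q ∈ T, w X.ψ q with hMd
  have hM : ∑ q ∈ T, wA u.A (RB X u) q ≤ M := by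
    rw [hMd, Finset.mul_sum]
    exact Finset.sum_le_sum fun q hq => (hTF q hq).wle
  have hM2 : M ≤ Real.log P ^ (N.c2 + 1) := by
    have e1 : M ≤ Real.log (tp τ) ^ N.c2 := by
      refine le_trans ?_ k1
      refine mul_le_mul_of_nonneg_left ?_ hN.c0.le
      unfold Ws
      refine Finset.sum_le_sum_of_subset_of_nonneg (fun q hq => (hTm q hq).1) fun q _ _ => X.hW q
    refine e1.trans (le_trans (Real.rpow_le_rpow hltp0 hltp hc2) (h6 P (by omega)))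
  have hM0 : 0 ≤ M := le_trans (Finset.sum_nonneg hwA0) hM
  have hsub : ∀ T' ⊆ T, ∑ q ∈ T', wA u.A (RB X u) q ≤ M := fun T' hT' =>
    (Finset.sum_le_sum_of_subset_of_nonneg hT' fun q hq _ => hwA0 q hq).trans hM
  have hlo : ∀ q ∈ T, RB X u q ≤ 4 * Step588.CT * Real.log P * wA u.A (RB X u) q := fun q hq => by
    refine (hTF q hq).lo.trans ?_
    refine mul_le_mul_of_nonneg_right ?_ (hwA0 q hq)
    nlinarith
  have htame : ∀ z : ℝ, ((2 * P : ℕ) : ℝ) ^ 2 ≤ z → ∀ q ∈ T,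
      Crest.Agent.R4.ClsB.Tame z 1 (q / u.A) := fun z hz q hq => by
    refine (hTF q hq).tame z (le_trans ?_ hz)
    have : (tp τ : ℝ) ≤ ((2 * P : ℕ) : ℝ) := by exact_mod_cast htP.le
    exact pow_le_pow_left₀ (Nat.cast_nonneg _) this 2
  -- the parts
  set EU := E.filter (fun e => (st e e.1).isSome = false) with hEU
  set EL := (E.filter fun e => ¬ (st e e.1).isSome = false).filter
    (fun e => ret X.c.t (pe e) e.1 ≠ ret X.c.t (pe e) e.2) with hEL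
  set ET := (E.filter fun e => ¬ (st e e.1).isSome = false).filter
    (fun e => ¬ ret X.c.t (pe e) e.1 ≠ ret X.c.t (pe e) e.2) with hETd
  have hsplit : ∑ e ∈ E, F e = ∑ e ∈ EU, F e + (∑ e ∈ EL, F e + ∑ e ∈ ET, F e) := by
    rw [Finset.sum_filter_add_sum_filter_not, Finset.sum_filter_add_sum_filter_not]
  -- a cofactor of the pairs with different retained parts
  have hcofr : ∀ e ∈ E, ret X.c.t (pe e) e.1 ≠ ret X.c.t (pe e) e.2 →
      P ≤ cof (e.1 / u.A) (e.2 / u.A) ∨ P ≤ cof (e.2 / u.A) (e.1 / u.A) := by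
    intro e he hne
    have S := hSN e he
    obtain ⟨t1, t2⟩ := hET e he
    obtain ⟨m1, m2⟩ := hmem' e he
    obtain ⟨c1, c2⟩ := hcofe e he
    have q1 : 0 < e.1 / (ue e).A := Nat.pos_of_ne_zero (S.nf.nd.div_ne m1)
    have q2 : 0 < e.2 / (ue e).A := Nat.pos_of_ne_zero (S.nf.nd.div_ne m2)
    obtain ⟨b, hb, hpb, hh⟩ := sep_ret S.nf.nd X.tOk (by simp [isL]) m1 m2 hne
    have hPb : P ≤ b := S.hP.trans (le_of_lt hpb)
    rcases hh with ⟨-, b1, b2⟩ | ⟨-, b1, b2⟩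
    · left
      rw [← c1]
      exact hPb.trans (Nat.le_of_dvd (cof_pos q1) (dvd_cof hb b1 b2))
    · right
      rw [← c2]
      exact hPb.trans (Nat.le_of_dvd (cof_pos q2) (dvd_cof hb b1 b2))
  have hcoft : ∀ e ∈ E, X.c.tg (pe e) e.1 ≠ X.c.tg (pe e) e.2 →
      2 ^ P ≤ cof (e.1 / u.A) (e.2 / u.A) ∨ 2 ^ P ≤ cof (e.2 / u.A) (e.1 / u.A) := by
    intro e he hne
    obtain ⟨t1, t2⟩ := hET e he
    obtain ⟨g1, g2, g3, g4⟩ := hcol e he
    rw [cof_div hA0 (hTF _ t1).dvd (hTF _ t2).dvd, cof_div hA0 (hTF _ t2).dvd (hTF _ t1).dvd]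
    have hpp : 2 ^ P ≤ 2 ^ (pe e) := Nat.pow_le_pow_right (by norm_num) g1
    rcases hX.sep (pe e) g3 g4 e.1 (hTm _ t1).2 e.2 (hTm _ t2).2 hne with h7 | h7
    · exact Or.inl (hpp.trans h7)
    · right
      refine hpp.trans ?_
      exact h7
  have hp2p : P ≤ 2 ^ P := Nat.lt_two_pow_self.le
  have hdis : ∀ e ∈ E, ret X.c.t (pe e) e.1 ≠ ret X.c.t (pe e) e.2 ∨
      X.c.tg (pe e) e.1 ≠ X.c.tg (pe e) e.2 := fun e he => by
    obtain ⟨j, j', hj, hj', hee, i1, i2, hix, hd, -⟩ := hlink e he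
    rw [hee]
    rw [hee] at hd
    exact hd
  have hF0 : ∀ e ∈ E, 0 < F e := fun e he => by
    have S := hSN e he
    have h7 : 0 ≤ F e := by
      rw [hF, S.eq]
      exact pF_nonneg (tF S.nf.nd) e
    exact lt_of_le_of_ne h7 (Ne.symm (hEne e he))
  set κ : ℝ := Real.log P ^ (-(s + 1)) with hκ
  have hκ0 : 0 ≤ κ := Real.rpow_nonneg hl0.le _
  -- unlabelled
  have hEUle : ∑ e ∈ EU, F e ≤ κ * M := by
    set η : ℝ := Real.exp (-(Real.log P ^ (4/5:ℝ))) with hη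
    have hη0 : 0 < η := Real.exp_pos _
    have hηe : ∀ e ∈ E, etaL X.c.wp (pe e) ≤ η := fun e he => by
      obtain ⟨g1, g2, g3, g4⟩ := hcol e he
      have hdep := hX.dep (pe e) g3 g4
      have h8 : etaL X.c.wp (pe e) ≤ Real.exp (-(Real.log (pe e) ^ (4/5:ℝ))) := by
        unfold etaL
        rw [Real.exp_neg, ← one_div, div_le_div_iff₀ (by positivity) (Real.exp_pos _)]
        linarith
      refine h8.trans (Real.exp_le_exp.2 (neg_le_neg ?_))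
      refine Real.rpow_le_rpow hl0.le ?_ (by norm_num)
      exact Real.log_le_log hPR (by exact_mod_cast g1)
    have hsq0 : 0 < (P:ℝ) ^ (1/4:ℝ) := Real.rpow_pos_of_pos hPR _
    have hsqp : (P:ℝ) ^ (1/4:ℝ) * (P:ℝ) ^ (3/4:ℝ) = P := by
      rw [← Real.rpow_add hPR]; norm_num
    have hηp' : (P:ℝ) ^ (3/4:ℝ) ≤ η * P := by
      have e1 : η * Real.exp (Real.log P ^ (4/5:ℝ)) = 1 := by
        rw [hη, ← Real.exp_add]; simp
      have h34 : 0 < (P:ℝ) ^ (3/4:ℝ) := Real.rpow_pos_of_pos hPR _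
      calc (P:ℝ) ^ (3/4:ℝ) = (η * Real.exp (Real.log P ^ (4/5:ℝ))) * (P:ℝ) ^ (3/4:ℝ) := by
            rw [e1, one_mul]
        _ = η * (Real.exp (Real.log P ^ (4/5:ℝ)) * (P:ℝ) ^ (3/4:ℝ)) := by ring
        _ ≤ η * ((P:ℝ) ^ (1/4:ℝ) * (P:ℝ) ^ (3/4:ℝ)) :=
            mul_le_mul_of_nonneg_left (mul_le_mul_of_nonneg_right n3 h34.le) hη0.le
        _ = η * P := by rw [hsqp]
    -- `(2P)^(1/2) ≤ P^(3/4)`
    have h2P : ((2 * P : ℕ):ℝ) ^ (1/2:ℝ) ≤ (P:ℝ) ^ (3/4:ℝ) := by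
      have h16 : (16:ℝ) ≤ P := by exact_mod_cast n1
      have e1 : (P:ℝ) ^ (3/4:ℝ) = (P:ℝ) ^ (1/4:ℝ) * (P:ℝ) ^ (1/2:ℝ) := by
        rw [← Real.rpow_add hPR]; norm_num
      have e2 : (2:ℝ) ≤ (P:ℝ) ^ (1/4:ℝ) := by
        calc (2:ℝ) = (16:ℝ) ^ (1/4:ℝ) := by
              rw [show (16:ℝ) = 2 ^ (4:ℝ) by norm_num, ← Real.rpow_mul (by norm_num)]
              norm_num
          _ ≤ (P:ℝ) ^ (1/4:ℝ) := Real.rpow_le_rpow (by norm_num) h16 (by norm_num)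
      rw [e1]
      push_cast
      rw [Real.mul_rpow (by norm_num) hPR.le]
      refine mul_le_mul_of_nonneg_right ?_ (Real.rpow_nonneg hPR.le _)
      refine le_trans ?_ e2
      calc (2:ℝ) ^ (1/2:ℝ) ≤ (2:ℝ) ^ (1:ℝ) :=
            Real.rpow_le_rpow_of_exponent_le (by norm_num) (by norm_num)
        _ = 2 := Real.rpow_one _
    set TU : Finset ℕ := T.filter fun q => ∃ e ∈ EU, e.1 = q ∨ e.2 = q with hTU
    have hTUT : TU ⊆ T := Finset.filter_subset _ _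
    have hEUT : EU ⊆ TU ×ˢ TU := by
      intro e he
      obtain ⟨he1, he2⟩ := Finset.mem_filter.1 he
      obtain ⟨t1, t2⟩ := hET e he1
      exact Finset.mem_product.2 ⟨Finset.mem_filter.2 ⟨t1, e, he, Or.inl rfl⟩,
        Finset.mem_filter.2 ⟨t2, e, he, Or.inr rfl⟩⟩
    have hnone : ∀ e ∈ EU, st e e.1 = none ∧ st e e.2 = none := fun e he => by
      obtain ⟨he1, he2⟩ := Finset.mem_filter.1 he
      have hs := hsome e he1
      have h8 : (st e e.2).isSome = false := hs ▸ he2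
      refine ⟨?_, ?_⟩
      · rw [← Option.not_isSome_iff_eq_none, he2]; simp
      · rw [← Option.not_isSome_iff_eq_none, h8]; simp
    refine le_trans (h2 P (by omega) u.A η (u.B * X.c.γ) TU EU (RB X u) F
      (fun q hq => (hTF q (hTUT hq)).dvd) hη0 le_rfl
      (le_trans (Real.one_le_rpow hPR1 (by norm_num)) hηp') hEUT
      (fun q hq => ⟨(hTF q (hTUT hq)).pos, (hTF q (hTUT hq)).R0⟩)
      (fun q hq => hlo q (hTUT hq))
      (fun z hz q hq => htame z hz q (hTUT hq))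
      ((hsub TU hTUT).trans hM2) ?_ ?_ ?_ ?_) ?_
    · intro e he
      obtain ⟨he1, he2⟩ := Finset.mem_filter.1 he
      rcases hdis e he1 with hd' | hd'
      · exact hcofr e he1 hd'
      · rcases hcoft e he1 hd' with h8 | h8
        · exact Or.inl (hp2p.trans h8)
        · exact Or.inr (hp2p.trans h8)
    · intro e he
      obtain ⟨he1, he2⟩ := Finset.mem_filter.1 he
      have S := hSN e he1
      obtain ⟨s1, s2⟩ := hnone e he
      have key := pF_none (Y := Y) (A := A) S.nf.nd (hcol e he1).2.2.2 (hlam e he1) S.e1 S.e2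
        (hηe e he1) s1 s2
      rw [hDAe e he1, hRBe e he1] at key
      rw [hF, S.eq]
      exact key
    · intro e he _
      obtain ⟨he1, he2⟩ := Finset.mem_filter.1 he
      have S := hSN e he1
      obtain ⟨s1, s2⟩ := hnone e he
      obtain ⟨j, j', hj, hj', hee, i1, i2, hix, hd, y, a, a', o1, o2, l1, l2, l3, l4⟩ := hlink e he1
      have hDA0 : 0 ≤ DA u.A (RB X u) e := by
        unfold DA Crest.Agent.R4.AvgItem710.Dp
        refine le_max_of_le_left ?_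
        have := (hrr e.1).le
        have hB' : (0:ℝ) < u.B := by exact_mod_cast hB0
        positivity
      have g1 : j.1.1 ∈ (IT.br (pe e) (Spe e) (te₁ e) (te₀ e)).items :=
        Finset.mem_union_left _ i1
      have g2 : j'.1.1 ∈ (IT.br (pe e) (Spe e) (te₁ e) (te₀ e)).items :=
        Finset.mem_union_right _ i2
      have q1 : e.1 = j.1.1 := by rw [hee]
      have q2 : e.2 = j'.1.1 := by rw [hee]
      have s1' : X.c.st (pe e) j.1.1 = none := by rw [← q1]; exact s1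
      have s2' : X.c.st (pe e) j'.1.1 = none := by rw [← q2]; exact s2
      have k := rel_none S.nf.nd (hcol e he1).2.2.2 (hlam e he1) hix g1 g2 s1' s2' l1 l2 l3 l4
      obtain ⟨ce1, ce2⟩ := hcofe e he1
      have de := hDAe e he1
      rw [← q1, ← q2, ce1, ce2, S.hB] at k
      have k2 : etaL X.c.wp (pe e) * DA (ue e).A (fun q => (u.B:ℝ) * X.c.rr q) (e.1, e.2) ≤
          η * DA u.A (RB X u) e := by
        have e5 : DA (ue e).A (fun q => (u.B:ℝ) * X.c.rr q) (e.1, e.2) = DA u.A (RB X u) e := by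
          rw [← de, hRBe e he1]
        rw [e5]
        exact mul_le_mul_of_nonneg_right (hηe e he1) hDA0
      exact ⟨a, a', k.trans k2⟩
    · intro q hq hthin ρ
      obtain ⟨hq1, e, he, hqe⟩ := Finset.mem_filter.1 hq
      obtain ⟨he1, he2⟩ := Finset.mem_filter.1 he
      have S := hSN e he1
      have hf := hTF q hq1
      obtain ⟨s1, s2⟩ := hnone e he
      obtain ⟨m1, m2⟩ := hmem' e he1
      obtain ⟨c1, c2, c3, c4⟩ := hcol e he1
      have hqs : X.c.st (pe e) q = none ∧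
          q ∈ (IT.br (pe e) (Spe e) (te₁ e) (te₀ e)).items := by
        rcases hqe with h8 | h8
        · rw [← h8]; exact ⟨s1, m1⟩
        · rw [← h8]; exact ⟨s2, m2⟩
      have hR : RB X u q = u.B * X.c.r q := by
        show (u.B:ℝ) * X.c.rr q = _
        rw [hf.rr]
      have key := st_noneB (τ := .br (pe e) (Spe e) (te₁ e) (te₀ e)) S.nf.nd X.tOk (by simp [isL])
        hqs.2 (wp := X.c.wp) (wpL := X.c.wpL) (lv := X.c.lv) (γ := X.c.γ) (r := X.c.r)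
        (hlam e he1) hqs.1 ?_ ρ
      · rw [S.hB, ← hR] at key
        exact key
      · rw [S.hB, ← hR]
        have hthr := hX.thr (pe e) c3
        refine le_trans ?_ hthr
        have h7 : RB X u q * (P:ℝ) ^ (3/4:ℝ) ≤ 1 :=
          (mul_le_mul_of_nonneg_left hηp' hf.R0.le).trans hthin
        have hpeR : (0:ℝ) < (pe e : ℝ) := by exact_mod_cast (by omega : 0 < pe e)
        have h8 : ((pe e : ℕ):ℝ) ^ (1/2:ℝ) ≤ (P:ℝ) ^ (3/4:ℝ) := by
          refine le_trans (Real.rpow_le_rpow hpeR.le ?_ (by norm_num)) h2P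
          exact_mod_cast c2.le
        have h9 : RB X u q * ((pe e : ℕ):ℝ) ^ (1/2:ℝ) ≤ 1 :=
          (mul_le_mul_of_nonneg_left h8 hf.R0.le).trans h7
        rw [Real.rpow_neg hpeR.le, ← one_div, le_div_iff₀ (Real.rpow_pos_of_pos hpeR _)]
        exact h9
    · exact mul_le_mul_of_nonneg_left (hsub TU hTUT) hκ0
  -- labels
  have hEE : ∀ e ∈ EL, e ∈ E := fun e he =>
    (Finset.mem_filter.1 (Finset.mem_filter.1 he).1).1
  set θ₀ : ℝ := ((2 * P : ℕ):ℝ) ^ (-(1/2):ℝ) with hθ₀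
  have h2P0 : (0:ℝ) < ((2 * P : ℕ):ℝ) := by push_cast; linarith
  have hθ0 : 0 < θ₀ := Real.rpow_pos_of_pos h2P0 _
  have hθsq : θ₀ ^ 2 = 1 / (2 * P) := by
    rw [hθ₀, ← Real.rpow_natCast, ← Real.rpow_mul h2P0.le]
    norm_num
    rw [Real.rpow_neg_one]
    ring
  have hthr0 : ∀ e ∈ E, θ₀ ≤ X.c.wp.thr (pe e) := fun e he => by
    obtain ⟨c1, c2, c3, c4⟩ := hcol e he
    refine le_trans ?_ (hX.thr (pe e) c3)
    have hpeR : (0:ℝ) < (pe e : ℝ) := by exact_mod_cast (by omega : 0 < pe e)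
    exact Real.rpow_le_rpow_of_nonpos hpeR (by exact_mod_cast c2.le) (by norm_num)
  have hPinv : (P:ℝ)⁻¹ ≤ θ₀ := by
    have h16 : (16:ℝ) ≤ P := by exact_mod_cast n1
    have e1 : (P:ℝ)⁻¹ ^ 2 ≤ θ₀ ^ 2 := by
      rw [hθsq, inv_pow, ← one_div, div_le_div_iff₀ (by positivity) (by positivity)]
      nlinarith
    exact (sq_le_sq₀ (by positivity) hθ0.le).1 e1
  obtain ⟨Λf, hΛ, hlabc⟩ := lab_chain (thr := X.c.wp.thr) (γ := X.c.γ) (B := u.B) h.bk.sfB
    (K := (2 * Real.log P) ^ (N.c2 + 2)) (θ₀ := θ₀) (P := P) (by omega)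
    (fun s hs => by
      unfold LB at hs
      rw [Finset.mem_sort] at hs
      have h1 := Nat.prime_of_mem_primeFactors hs
      have h2 := h.bk.geB s h1 (Nat.dvd_of_mem_primeFactors hs)
      exact ⟨h1, by omega⟩)
    (fun s hs => by
      unfold LB at hs
      rw [Finset.mem_sort] at hs
      have h1 := Nat.prime_of_mem_primeFactors hs
      have h2 := h.bk.geB s h1 (Nat.dvd_of_mem_primeFactors hs)
      have hsR : (0:ℝ) < s := by exact_mod_cast h1.pos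
      have hPs : (P:ℝ) ≤ s := by exact_mod_cast (by omega : P ≤ s)
      have h6 := hX.thr s (by omega)
      have h7 : (s:ℝ) ^ (1/2:ℝ) = s * (s:ℝ) ^ (-(1/2:ℝ)) := by
        conv_rhs => rw [← Real.rpow_one (s:ℝ), ← Real.rpow_mul hsR.le, ← Real.rpow_add hsR]
        norm_num
      calc (2 * Real.log P) ^ (N.c2 + 2) ≤ (P:ℝ) ^ (1/2:ℝ) := n5
        _ ≤ (s:ℝ) ^ (1/2:ℝ) := Real.rpow_le_rpow hPR.le hPs (by norm_num)
        _ = s * (s:ℝ) ^ (-(1/2:ℝ)) := h7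
        _ ≤ s * X.c.wp.thr s := mul_le_mul_of_nonneg_left h6 hsR.le) hθ0
    (by
      rw [hθsq]
      have : (P:ℝ) ^ 2 * (1 / (2 * P)) = P / 2 := by field_simp
      rw [this]
      linarith)
  -- the label of an item at the column of a pair
  have hlabE : ∀ e ∈ E, ∀ q ∈ T, q ∈ (IT.br (pe e) (Spe e) (te₁ e) (te₀ e)).items → ∀ σ : ℚ,
      st e q = some σ → lab0 X.c.γ (X.c.r q) u.B = some σ ∨
        (((u.B : ℚ) * σ) ∈ Λf ∧ (P:ℝ)⁻¹ ≤ RB X u q) := by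
    intro e he q hqT hq σ hσ
    have S := hSN e he
    have hf := hTF q hqT
    have hR : RB X u q = u.B * X.c.r q := by
      show (u.B:ℝ) * X.c.rr q = _
      rw [hf.rr]
    have hnl : ¬ isL (IT.br (pe e) (Spe e) (te₁ e) (te₀ e)) := by simp [isL]
    have hσ' : stB X.c.wp X.c.wpL X.c.lam X.c.γ X.c.r X.c.t X.c.lv (pe e) q = some σ := hσ
    rcases stB_lbAt hσ' with h3 | h3
    · have e4 := st_node S.nf.nd X.tOk hnl hq X.c.wp X.c.γ X.c.r
      rw [S.hB] at e4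
      have e5 : X.c.wp.st X.c.γ X.c.r X.c.t (pe e) q = some σ := h3
      have e6 : sta X.c.wp.thr X.c.γ (X.c.r q) (LB u.B) (pe e) = some σ := by
        rw [← e5]; exact e4.symm
      have hKq : (u.B:ℝ) * X.c.r q ≤ (2 * Real.log P) ^ (N.c2 + 2) := by
        refine hf.hi.trans ?_
        exact Real.rpow_le_rpow hltp0 hltp (by linarith)
      rcases hlabc (pe e) (X.c.r q) σ (hthr0 e he) hKq e6 with h7 | ⟨h7, h8⟩
      · exact Or.inl h7
      · refine Or.inr ⟨h7, ?_⟩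
        rw [hR]
        exact hPinv.trans ((hthr0 e he).trans h8.le)
    · left
      have e4 := lst_node S.nf.nd X.tOk hnl hq
      have e4' : lst (X.c.t.mt q) (pe e) = LB (ue e).B := e4
      rw [e4', S.hB, LB_prod h.bk.sfB] at h3
      exact h3
  -- exact relations
  have hexE : ∀ e ∈ EL, ∃ σ σ' : ℚ, st e e.1 = some σ ∧ st e e.2 = some σ' ∧
      (u.B : ℚ) * σ ≠ (u.B : ℚ) * σ' ∧
      (P:ℝ) ≤ (LL207.Zc ((u.B : ℚ) * σ) ((u.B : ℚ) * σ') : ℝ) ∧
      ∃ m m' : ℤ, ((m:ℝ) + (((u.B : ℚ) * σ : ℚ) : ℝ)) * (cof (e.2 / u.A) (e.1 / u.A) : ℕ) =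
        (m' + (((u.B : ℚ) * σ' : ℚ) : ℝ)) * (cof (e.1 / u.A) (e.2 / u.A) : ℕ) := by
    intro e he
    obtain ⟨he1, he2⟩ := Finset.mem_filter.1 he
    obtain ⟨he3, he4⟩ := Finset.mem_filter.1 he1
    have S := hSN e he3
    have hs2 := hsome e he3
    rw [Bool.not_eq_false] at he4
    obtain ⟨σ, hσ⟩ := Option.isSome_iff_exists.1 he4
    obtain ⟨σ', hσ'⟩ := Option.isSome_iff_exists.1 (hs2 ▸ he4)
    refine ⟨σ, σ', hσ, hσ', ?_⟩
    obtain ⟨j, j', hj, hj', hee, i1, i2, hix, hd, y, a, a', o1, o2, l1, l2, l3, l4⟩ := hlink e he3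
    have hnl : ¬ isL (IT.br (pe e) (Spe e) (te₁ e) (te₀ e)) := by simp [isL]
    have g1 : j.1.1 ∈ (IT.br (pe e) (Spe e) (te₁ e) (te₀ e)).items :=
      Finset.mem_union_left _ i1
    have g2 : j'.1.1 ∈ (IT.br (pe e) (Spe e) (te₁ e) (te₀ e)).items :=
      Finset.mem_union_right _ i2
    have q1 : e.1 = j.1.1 := by rw [hee]
    have q2 : e.2 = j'.1.1 := by rw [hee]
    have s1' : X.c.st (pe e) j.1.1 = some σ := by rw [← q1]; exact hσ
    have s2' : X.c.st (pe e) j'.1.1 = some σ' := by rw [← q2]; exact hσ'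
    obtain ⟨x1, x2⟩ := rel_some S.nf.nd (hcol e he3).2.2.2 (hlam e he3) hix g1 g2 s1' s2' l1 l2 l3 l4
    have hpos1 : 0 < j.1.1 / (ue e).A := Nat.pos_of_ne_zero (S.nf.nd.div_ne g1)
    have hcop : Nat.Coprime (cof (j.1.1 / (ue e).A) (j'.1.1 / (ue e).A))
        (cof (j'.1.1 / (ue e).A) (j.1.1 / (ue e).A)) := cof_coprime hpos1
    have hret : ret X.c.t (pe e) j.1.1 ≠ ret X.c.t (pe e) j'.1.1 := by
      rw [← q1, ← q2]; exact he2
    have key : pe e ≤ LL207.Zc (((ue e).B : ℚ) * σ) (((ue e).B : ℚ) * σ') ∧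
        (((ue e).B : ℚ) * σ) ≠ (((ue e).B : ℚ) * σ') := by
      obtain ⟨b, hb, hpb, hh⟩ := sep_ret S.nf.nd X.tOk hnl g1 g2 hret
      have hpb' : pe e < b := hpb
      rcases hh with ⟨b0, b1, b2⟩ | ⟨b0, b1, b2⟩
      · have hden : b ∣ (((ue e).B : ℚ) * σ').den :=
          alive_den S.nf.nd g1 le_rfl hnl s1' b0 hpb'.le b1 o1 b2 x1
        have := RseAr23.Zc_of_exact hb (dvd_cof hb b1 b2) hcop (((ue e).B : ℚ) * σ)
          (((ue e).B : ℚ) * σ') x2 hden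
        exact ⟨hpb'.le.trans this.1, this.2⟩
      · have hden : b ∣ (((ue e).B : ℚ) * σ).den :=
          alive_den S.nf.nd g2 le_rfl hnl s2' b0 hpb'.le b1 o2 b2 x1.symm
        have := RseAr23.Zc_of_exact' hb (dvd_cof hb b1 b2) hcop (((ue e).B : ℚ) * σ)
          (((ue e).B : ℚ) * σ') x2 hden
        exact ⟨hpb'.le.trans this.1, this.2⟩
    rw [S.hB] at key x2
    obtain ⟨ce1, ce2⟩ := hcofe e he3
    rw [← q1, ← q2, ce1, ce2] at x2
    exact ⟨key.2, by exact_mod_cast (S.hP.trans key.1), a, a', x2⟩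
  -- the common label
  set ρ₀ : ℚ := if hne : Λf.Nonempty then hne.choose else 0 with hρ₀
  have hρ : ∀ x ∈ Λf, x = ρ₀ := fun x hx => by
    have hne : Λf.Nonempty := ⟨x, hx⟩
    rw [hρ₀, dif_pos hne]
    exact Finset.card_le_one.1 hΛ x hx _ hne.choose_spec
  have hΛc : ((Λf.card : ℕ) : ℝ) ≤ Real.log P := by
    have : ((Λf.card : ℕ) : ℝ) ≤ 1 := by exact_mod_cast hΛ
    linarith
  -- items with a present label, items with the common label
  set T₁ : Finset ℕ := T.filter fun q => (lab0 X.c.γ (X.c.r q) u.B).isSome with hT₁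
  set T₂ : Finset ℕ := T.filter fun q => ρ₀ ∈ Λf ∧ (P:ℝ)⁻¹ ≤ RB X u q with hT₂
  have hT₁T : T₁ ⊆ T := Finset.filter_subset _ _
  have hT₂T : T₂ ⊆ T := Finset.filter_subset _ _
  have hpr : ∀ q σ, lab0 X.c.γ (X.c.r q) u.B = some σ → prL X u.B q = (u.B : ℚ) * σ := by
    intro q σ hσ
    unfold prL
    rw [hσ]; rfl
  have hval₁ : ∀ q ∈ T₁, Lab (u.B * X.c.γ) (RB X u q) (prL X u.B q) ∨
      (prL X u.B q ∈ Λf ∧ (P:ℝ)⁻¹ ≤ RB X u q) := by
    intro q hq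
    obtain ⟨hq1, hq2⟩ := Finset.mem_filter.1 hq
    obtain ⟨σ, hσ⟩ := Option.isSome_iff_exists.1 hq2
    left
    have hR : RB X u q = u.B * X.c.r q := by
      show (u.B:ℝ) * X.c.rr q = _
      rw [(hTF q hq1).rr]
    rw [hpr q σ hσ, hR]
    exact lab0_spec hB0 hσ
  have hval₂ : ∀ q ∈ T₂, Lab (u.B * X.c.γ) (RB X u q) ρ₀ ∨ (ρ₀ ∈ Λf ∧ (P:ℝ)⁻¹ ≤ RB X u q) :=
    fun q hq => Or.inr (Finset.mem_filter.1 hq).2
  have hFL : ∀ e ∈ EL, F e ≤ 2 * ((RB X u e.1 * RB X u e.2) / DA u.A (RB X u) e) := by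
    intro e he
    have S := hSN e (hEE e he)
    obtain ⟨σ, σ', hσ, hσ', -⟩ := hexE e he
    have key := pF_some (Y := Y) (A := A) S.nf.nd (hcol e (hEE e he)).2.2.2 (hlam e (hEE e he))
      S.e1 S.e2 hσ hσ'
    rw [hDAe e (hEE e he), hRBe e (hEE e he)] at key
    rw [hF, S.eq]
    exact key
  -- the four classes
  have hcls : ∀ e ∈ EL, ∀ σ σ', st e e.1 = some σ → st e e.2 = some σ' →
      ((e.1 ∈ T₁ ∧ prL X u.B e.1 = (u.B : ℚ) * σ) ∨ (e.1 ∈ T₂ ∧ ρ₀ = (u.B : ℚ) * σ)) ∧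
      ((e.2 ∈ T₁ ∧ prL X u.B e.2 = (u.B : ℚ) * σ') ∨ (e.2 ∈ T₂ ∧ ρ₀ = (u.B : ℚ) * σ')) := by
    intro e he σ σ' hσ hσ'
    have he' := hEE e he
    obtain ⟨t1, t2⟩ := hET e he'
    obtain ⟨m1, m2⟩ := hmem' e he'
    refine ⟨?_, ?_⟩
    · rcases hlabE e he' e.1 t1 m1 σ hσ with h7 | ⟨h7, h8⟩
      · exact Or.inl ⟨Finset.mem_filter.2 ⟨t1, by rw [h7]; rfl⟩, hpr _ _ h7⟩
      · have h9 := hρ _ h7
        exact Or.inr ⟨Finset.mem_filter.2 ⟨t1, h9 ▸ h7, h8⟩, h9.symm⟩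
    · rcases hlabE e he' e.2 t2 m2 σ' hσ' with h7 | ⟨h7, h8⟩
      · exact Or.inl ⟨Finset.mem_filter.2 ⟨t2, by rw [h7]; rfl⟩, hpr _ _ h7⟩
      · have h9 := hρ _ h7
        exact Or.inr ⟨Finset.mem_filter.2 ⟨t2, h9 ▸ h7, h8⟩, h9.symm⟩
  set C11 : ℕ × ℕ → Prop := fun e => ∃ σ σ' : ℚ, st e e.1 = some σ ∧ st e e.2 = some σ' ∧
    (e.1 ∈ T₁ ∧ prL X u.B e.1 = (u.B : ℚ) * σ) ∧ (e.2 ∈ T₁ ∧ prL X u.B e.2 = (u.B : ℚ) * σ')
    with hC11
  set C12 : ℕ × ℕ → Prop := fun e => ∃ σ σ' : ℚ, st e e.1 = some σ ∧ st e e.2 = some σ' ∧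
    (e.1 ∈ T₁ ∧ prL X u.B e.1 = (u.B : ℚ) * σ) ∧ (e.2 ∈ T₂ ∧ ρ₀ = (u.B : ℚ) * σ') with hC12
  set C21 : ℕ × ℕ → Prop := fun e => ∃ σ σ' : ℚ, st e e.1 = some σ ∧ st e e.2 = some σ' ∧
    (e.1 ∈ T₂ ∧ ρ₀ = (u.B : ℚ) * σ) ∧ (e.2 ∈ T₁ ∧ prL X u.B e.2 = (u.B : ℚ) * σ') with hC21
  have hcov : ∀ e ∈ EL, C11 e ∨ C12 e ∨ C21 e := by
    intro e he
    obtain ⟨σ, σ', hσ, hσ', hne, -⟩ := hexE e he
    obtain ⟨c1, c2⟩ := hcls e he σ σ' hσ hσ'
    rcases c1 with c1 | c1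
    · rcases c2 with c2 | c2
      · exact Or.inl ⟨σ, σ', hσ, hσ', c1, c2⟩
      · exact Or.inr (Or.inl ⟨σ, σ', hσ, hσ', c1, c2⟩)
    · rcases c2 with c2 | c2
      · exact Or.inr (Or.inr ⟨σ, σ', hσ, hσ', c1, c2⟩)
      · exact absurd (c1.2.symm.trans c2.2) hne
  have hEL0 : ∀ e ∈ EL, 0 ≤ F e := fun e he => (hF0 e (hEE e he)).le
  have hsum3 : ∑ e ∈ EL, F e ≤ ∑ e ∈ EL.filter C11, F e + (∑ e ∈ EL.filter C12, F e +
      ∑ e ∈ EL.filter C21, F e) := cover3 hEL0 hcov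
  have hL11 : ∑ e ∈ EL.filter C11, F e ≤ κ * M := by
    refine h3 P (by omega) u.A (u.B * X.c.γ) M T₁ T₁ (EL.filter C11) (RB X u)
      (prL X u.B) (prL X u.B) Λf F
      (fun q hq => (hTF q (hT₁T hq)).dvd) (fun q hq => (hTF q (hT₁T hq)).dvd) hΛc ?_
      (fun q hq => ⟨(hTF q (hT₁T hq)).pos, (hTF q (hT₁T hq)).R0⟩)
      (fun q hq => ⟨(hTF q (hT₁T hq)).pos, (hTF q (hT₁T hq)).R0⟩)
      (fun q hq => hlo q (hT₁T hq)) (fun q hq => hlo q (hT₁T hq))
      (hsub T₁ hT₁T) (hsub T₁ hT₁T) hM2 hval₁ hval₁ ?_ ?_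
    · intro e he
      obtain ⟨he1, σ, σ', hσ, hσ', c1, c2⟩ := Finset.mem_filter.1 he
      exact Finset.mem_product.2 ⟨c1.1, c2.1⟩
    · intro e he
      exact hFL e (Finset.mem_filter.1 he).1
    · intro e he _
      obtain ⟨he1, σ, σ', hσ, hσ', c1, c2⟩ := Finset.mem_filter.1 he
      obtain ⟨τ, τ', hτ, hτ', g1, g2, g3⟩ := hexE e he1
      have r1 : σ = τ := Option.some.inj (hσ.symm.trans hτ)
      have r2 : σ' = τ' := Option.some.inj (hσ'.symm.trans hτ')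
      subst r1 r2
      rw [c1.2, c2.2]
      exact ⟨g1, g2, g3⟩
  have hL12 : ∑ e ∈ EL.filter C12, F e ≤ κ * M := by
    refine h3 P (by omega) u.A (u.B * X.c.γ) M T₁ T₂ (EL.filter C12) (RB X u)
      (prL X u.B) (fun _ => ρ₀) Λf F
      (fun q hq => (hTF q (hT₁T hq)).dvd) (fun q hq => (hTF q (hT₂T hq)).dvd) hΛc ?_
      (fun q hq => ⟨(hTF q (hT₁T hq)).pos, (hTF q (hT₁T hq)).R0⟩)
      (fun q hq => ⟨(hTF q (hT₂T hq)).pos, (hTF q (hT₂T hq)).R0⟩)
      (fun q hq => hlo q (hT₁T hq)) (fun q hq => hlo q (hT₂T hq))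
      (hsub T₁ hT₁T) (hsub T₂ hT₂T) hM2 hval₁ hval₂ ?_ ?_
    · intro e he
      obtain ⟨he1, σ, σ', hσ, hσ', c1, c2⟩ := Finset.mem_filter.1 he
      exact Finset.mem_product.2 ⟨c1.1, c2.1⟩
    · intro e he
      exact hFL e (Finset.mem_filter.1 he).1
    · intro e he _
      obtain ⟨he1, σ, σ', hσ, hσ', c1, c2⟩ := Finset.mem_filter.1 he
      obtain ⟨τ, τ', hτ, hτ', g1, g2, g3⟩ := hexE e he1
      have r1 : σ = τ := Option.some.inj (hσ.symm.trans hτ)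
      have r2 : σ' = τ' := Option.some.inj (hσ'.symm.trans hτ')
      subst r1 r2
      rw [c1.2, c2.2]
      exact ⟨g1, g2, g3⟩
  have hL21 : ∑ e ∈ EL.filter C21, F e ≤ κ * M := by
    refine h3 P (by omega) u.A (u.B * X.c.γ) M T₂ T₁ (EL.filter C21) (RB X u)
      (fun _ => ρ₀) (prL X u.B) Λf F
      (fun q hq => (hTF q (hT₂T hq)).dvd) (fun q hq => (hTF q (hT₁T hq)).dvd) hΛc ?_
      (fun q hq => ⟨(hTF q (hT₂T hq)).pos, (hTF q (hT₂T hq)).R0⟩)
      (fun q hq => ⟨(hTF q (hT₁T hq)).pos, (hTF q (hT₁T hq)).R0⟩)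
      (fun q hq => hlo q (hT₂T hq)) (fun q hq => hlo q (hT₁T hq))
      (hsub T₂ hT₂T) (hsub T₁ hT₁T) hM2 hval₂ hval₁ ?_ ?_
    · intro e he
      obtain ⟨he1, σ, σ', hσ, hσ', c1, c2⟩ := Finset.mem_filter.1 he
      exact Finset.mem_product.2 ⟨c1.1, c2.1⟩
    · intro e he
      exact hFL e (Finset.mem_filter.1 he).1
    · intro e he _
      obtain ⟨he1, σ, σ', hσ, hσ', c1, c2⟩ := Finset.mem_filter.1 he
      obtain ⟨τ, τ', hτ, hτ', g1, g2, g3⟩ := hexE e he1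
      have r1 : σ = τ := Option.some.inj (hσ.symm.trans hτ)
      have r2 : σ' = τ' := Option.some.inj (hσ'.symm.trans hτ')
      subst r1 r2
      rw [c1.2, c2.2]
      exact ⟨g1, g2, g3⟩
  -- tags
  have hETle : ∑ e ∈ ET, F e ≤ κ * M := by
    refine le_trans (h4 P (by omega) u.A T ET (RB X u) F (fun q hq => (hTF q hq).dvd) ?_
      (fun q hq => ⟨(hTF q hq).pos, (hTF q hq).R0⟩) hlo ?_ ?_ ?_)
      (mul_le_mul_of_nonneg_left hM hκ0)
    · intro e he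
      exact Finset.mem_product.2 (hET e (Finset.mem_filter.1 (Finset.mem_filter.1 he).1).1)
    · intro e he l hlp hld
      obtain ⟨he1, he2⟩ := Finset.mem_filter.1 he
      obtain ⟨he3, he4⟩ := Finset.mem_filter.1 he1
      have S := hSN e he3
      obtain ⟨m1, m2⟩ := hmem' e he3
      obtain ⟨ce1, ce2⟩ := hcofe e he3
      obtain ⟨c1, c2, c3, c4⟩ := hcol e he3
      have hnl : ¬ isL (IT.br (pe e) (Spe e) (te₁ e) (te₀ e)) := by simp [isL]
      rw [not_not] at he2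
      rcases hld with hld | hld
      · rw [← ce1] at hld
        have := smooth_ret S.nf.nd X.tOk hnl m1 m2 he2 hlp hld
        have h8 : l ≤ pe e := this
        omega
      · rw [← ce2] at hld
        have := smooth_ret S.nf.nd X.tOk hnl m2 m1 he2.symm hlp hld
        have h8 : l ≤ pe e := this
        omega
    · intro e he
      obtain ⟨he1, he2⟩ := Finset.mem_filter.1 he
      obtain ⟨he3, he4⟩ := Finset.mem_filter.1 he1
      rw [not_not] at he2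
      exact hcoft e he3 ((hdis e he3).resolve_left (not_not.2 he2))
    · intro e he
      obtain ⟨he1, he2⟩ := Finset.mem_filter.1 he
      obtain ⟨he3, he4⟩ := Finset.mem_filter.1 he1
      have S := hSN e he3
      rw [Bool.not_eq_false] at he4
      obtain ⟨σ, hσ⟩ := Option.isSome_iff_exists.1 he4
      obtain ⟨σ', hσ'⟩ := Option.isSome_iff_exists.1 (hsome e he3 ▸ he4)
      have key := pF_some (Y := Y) (A := A) S.nf.nd (hcol e he3).2.2.2 (hlam e he3)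
        S.e1 S.e2 hσ hσ'
      rw [hDAe e he3, hRBe e he3] at key
      rw [hF, S.eq]
      exact key
  -- the sum
  have e0 : HH X Y A P u τ = ∑ e ∈ E, F e :=
    (HH_eq τ u _ (Finset.Subset.refl _)).trans (Finset.sum_filter_ne_zero _).symm
  rw [e0, hsplit]
  have e7 : 5 * κ ≤ Real.log P ^ (-s) := by
    have e8 : Real.log (P:ℝ) ^ (-s) = Real.log P ^ (1:ℝ) * κ := by
      rw [hκ, ← Real.rpow_add hl0]; congr 1; ring
    rw [e8, Real.rpow_one]
    exact mul_le_mul_of_nonneg_right n2 hκ0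
  have e9 := mul_le_mul_of_nonneg_right e7 hM0
  calc ∑ e ∈ EU, F e + (∑ e ∈ EL, F e + ∑ e ∈ ET, F e)
      ≤ κ * M + ((κ * M + (κ * M + κ * M)) + κ * M) := by linarith
    _ = 5 * κ * M := by ring
    _ ≤ Real.log P ^ (-s) * M := e9

end ctx

end Crest.Agent.R4P.RtD28
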