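import Crest.Agent.R4P.RtE_28
import Crest.Agent.R4P.NcC_37

/-!
R4 (S0004), powers pass, helper28: **energies of a tie, many labels, retained primes** (over `RtE_28`,
`NcC_37`).

* `harm_pairs`, `harm2` : `∑ 1/(D D')` over pairs `≤ Y` whose partners lie in a residue class.
* `same_late`, `diff_late` : both families counted, no smoothness.
* `rough_split` : pairs with `z`-smooth reduced cofactors, numbers `e i`, `e' j` arbitrary.
* **`tie_energy`** : the relation `RlT2` of a tie: both sides late, or one side late and smooth cofactors;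
  `∑ min (R i / D) (R' j / D') ≤ (4 / √U0 + C Lp^(-δ/16)) (∑ R + ∑ R')`.
-/

set_option autoImplicit false
set_option linter.unusedVariables false

open Finset

namespace Crest.Agent.R4P.RtF28

open Crest.Agent.R4P.GcdK37 Crest.Agent.R4P.GcdW41 Crest.Agent.R4P.GcdS37 Crest.Agent.R4P.RtE28
open Crest.Agent.R4P.AcG41 (Fam dt_spec one_type dt)
open Crest.Agent.R4.HVW560 (wn)
open Crest.Agent.R4P.ShR18 (Co)

/-! ### harmonic sums in residue classes -/

lemma harm_res {k Y : ℕ} (hk : 0 < k) (hY : 1 ≤ Y) {H : ℝ} (hH : 1 ≤ H) {B : Finset ℕ}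
    (hB : ∀ b ∈ B, H ≤ b ∧ b ≤ Y) (hr : ∀ a ∈ B, ∀ b ∈ B, a % k = b % k) :
    ∑ b ∈ B, 1 / (b : ℝ) ≤ 3 * (1 / H + (2 + Real.log Y) / k) := by
  have hlY : 0 ≤ Real.log Y := Real.log_natCast_nonneg Y
  have hY0 : (0:ℝ) < Y := by exact_mod_cast hY
  set σ : ℝ := 1 / (1 + Real.log Y) with hσ
  have hσ0 : 0 < σ := by positivity
  have h1 := res_sum hσ0 hk hH (fun b hb => (hB b hb).1) hr
  have e1 : 1 + 1 / σ = 2 + Real.log Y := by rw [hσ, one_div_one_div]; ring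
  rw [e1] at h1
  have h2 : ∀ b ∈ B, 1 / (b : ℝ) ≤ 3 * (b : ℝ) ^ (-(1 + σ)) := by
    intro b hb
    have hb1 : (1:ℝ) ≤ b := hH.trans (hB b hb).1
    have hb0 : (0:ℝ) < b := by linarith
    have hbY : (b:ℝ) ≤ Y := by exact_mod_cast (hB b hb).2
    have e2 : (b : ℝ) ^ (-(1 + σ)) = 1 / b * (b:ℝ) ^ (-σ) := by
      rw [show -(1 + σ) = -1 + -σ by ring, Real.rpow_add hb0, Real.rpow_neg_one, one_div]
    rw [e2]
    have e3 : (b:ℝ) ^ σ ≤ 3 := by
      calc (b:ℝ) ^ σ ≤ (Y:ℝ) ^ σ := Real.rpow_le_rpow hb0.le hbY hσ0.le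
        _ = Real.exp (Real.log Y * σ) := by rw [Real.rpow_def_of_pos hY0]
        _ ≤ Real.exp 1 := by
            refine Real.exp_le_exp.2 ?_
            rw [hσ, mul_one_div, div_le_one (by linarith)]
            linarith
        _ ≤ 3 := by have := Real.exp_one_lt_d9; linarith
    have e4 : 1 ≤ 3 * (b:ℝ) ^ (-σ) := by
      rw [Real.rpow_neg hb0.le]
      have e5 : 0 < (b:ℝ) ^ σ := Real.rpow_pos_of_pos hb0 _
      rw [← div_eq_mul_inv, le_div_iff₀ e5]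
      linarith
    have e6 : 0 ≤ 1 / (b:ℝ) := by positivity
    calc 1 / (b:ℝ) = 1 / b * 1 := by ring
      _ ≤ 1 / b * (3 * (b:ℝ) ^ (-σ)) := mul_le_mul_of_nonneg_left e4 e6
      _ = _ := by ring
  refine (Finset.sum_le_sum h2).trans ?_
  rw [← Finset.mul_sum]
  exact mul_le_mul_of_nonneg_left h1 (by norm_num)

/-- pairs `≤ Y`, second coordinate `≥ U` in a class mod `k` which depends on the first one -/
theorem harm_pairs {k Y : ℕ} (hk : 0 < k) (hY : 1 ≤ Y) {U : ℝ} (hU : 1 ≤ U) (hUk : U ≤ k)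
    (Q : Finset (ℕ × ℕ)) (h0 : ∀ t ∈ Q, 0 < t.1 ∧ 0 < t.2 ∧ t.1 ≤ Y ∧ t.2 ≤ Y)
    (hQ : ∀ t ∈ Q, U ≤ t.2) (hr : ∀ t ∈ Q, ∀ t' ∈ Q, t.1 = t'.1 → t.2 % k = t'.2 % k) :
    ∑ t ∈ Q, (1 : ℝ) / (t.1 * t.2) ≤ 9 * (1 + Real.log Y) ^ 2 / U := by
  classical
  have hlY : 0 ≤ Real.log Y := Real.log_natCast_nonneg Y
  have hU0 : 0 < U := by linarith
  have hk0 : (0:ℝ) < k := by exact_mod_cast hk
  have e1 : ∑ t ∈ Q, (1 : ℝ) / (t.1 * t.2) =
      ∑ x ∈ Q.image Prod.fst, ∑ t ∈ Q.filter (fun t => t.1 = x), (1 : ℝ) / (t.1 * t.2) :=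
    (Finset.sum_fiberwise_of_maps_to (fun t ht => Finset.mem_image_of_mem _ ht) _).symm
  rw [e1]
  have e2 : ∀ x ∈ Q.image Prod.fst, ∑ t ∈ Q.filter (fun t => t.1 = x), (1 : ℝ) / (t.1 * t.2) ≤
      1 / (x:ℝ) * (9 * (1 + Real.log Y) / U) := by
    intro x hx
    obtain ⟨t0, ht0, rfl⟩ := Finset.mem_image.1 hx
    have e3 : ∑ t ∈ Q.filter (fun t => t.1 = t0.1), (1 : ℝ) / (t.1 * t.2) =
        1 / (t0.1:ℝ) * ∑ y ∈ (Q.filter (fun t => t.1 = t0.1)).image Prod.snd, 1 / (y:ℝ) := by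
      rw [Finset.sum_image, Finset.mul_sum]
      · refine Finset.sum_congr rfl fun t ht => ?_
        rw [(Finset.mem_filter.1 ht).2, one_div_mul_one_div]
      · intro t ht t' ht' h
        exact Prod.ext ((Finset.mem_filter.1 ht).2.trans (Finset.mem_filter.1 ht').2.symm) h
    rw [e3]
    refine mul_le_mul_of_nonneg_left ?_ (by positivity)
    refine (harm_res hk hY hU (B := (Q.filter (fun t => t.1 = t0.1)).image Prod.snd) ?_ ?_).trans ?_
    · intro y hy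
      obtain ⟨t, ht, rfl⟩ := Finset.mem_image.1 hy
      have ht' := (Finset.mem_filter.1 ht).1
      exact ⟨hQ t ht', (h0 t ht').2.2.2⟩
    · intro y hy y' hy'
      obtain ⟨t, ht, rfl⟩ := Finset.mem_image.1 hy
      obtain ⟨t', ht', rfl⟩ := Finset.mem_image.1 hy'
      obtain ⟨a1, a2⟩ := Finset.mem_filter.1 ht
      obtain ⟨b1, b2⟩ := Finset.mem_filter.1 ht'
      exact hr t a1 t' b1 (a2.trans b2.symm)
    · have h5 : (2 + Real.log Y) / (k:ℝ) ≤ (2 + Real.log Y) / U :=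
        div_le_div_of_nonneg_left (by linarith) hU0 hUk
      calc 3 * (1 / U + (2 + Real.log Y) / k) ≤ 3 * (1 / U + (2 + Real.log Y) / U) := by linarith
        _ = 3 * (3 + Real.log Y) / U := by ring
        _ ≤ 9 * (1 + Real.log Y) / U := by
            refine div_le_div_of_nonneg_right ?_ hU0.le
            linarith
  refine (Finset.sum_le_sum e2).trans ?_
  rw [← Finset.sum_mul]
  have e4 : ∑ x ∈ Q.image Prod.fst, 1 / (x:ℝ) ≤ 1 + Real.log Y := by
    refine le_trans (Finset.sum_le_sum_of_subset_of_nonneg (t := Finset.Icc 1 Y) ?_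
      fun x _ _ => by positivity) harm_le
    intro x hx
    obtain ⟨t, ht, rfl⟩ := Finset.mem_image.1 hx
    exact Finset.mem_Icc.2 ⟨(h0 t ht).1, (h0 t ht).2.2.1⟩
  have e5 : 0 ≤ 9 * (1 + Real.log Y) / U := by positivity
  calc (∑ x ∈ Q.image Prod.fst, 1 / (x:ℝ)) * (9 * (1 + Real.log Y) / U)
      ≤ (1 + Real.log Y) * (9 * (1 + Real.log Y) / U) := mul_le_mul_of_nonneg_right e4 e5
    _ = 9 * (1 + Real.log Y) ^ 2 / U := by ring

lemma sum_swap1 (Q : Finset (ℕ × ℕ)) :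
    ∑ t ∈ Q.image Prod.swap, (1 : ℝ) / (t.1 * t.2) = ∑ t ∈ Q, (1 : ℝ) / (t.1 * t.2) := by
  classical
  rw [Finset.sum_image (fun t _ t' _ h => Prod.swap_injective h)]
  refine Finset.sum_congr rfl fun t _ => ?_
  rw [Prod.fst_swap, Prod.snd_swap, mul_comm (t.2 : ℝ)]

/-- both directions -/
theorem harm2 {k k' Y : ℕ} (hk : 0 < k) (hk' : 0 < k') (hY : 1 ≤ Y) {U : ℝ} (hU : 1 ≤ U)
    (hUk : U ≤ k) (hUk' : U ≤ k') (Q : Finset (ℕ × ℕ))
    (h0 : ∀ t ∈ Q, 0 < t.1 ∧ 0 < t.2 ∧ t.1 ≤ Y ∧ t.2 ≤ Y) (hQ : ∀ t ∈ Q, U ≤ t.1 ∨ U ≤ t.2)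
    (hr : ∀ t ∈ Q, ∀ t' ∈ Q, t.1 = t'.1 → t.2 % k = t'.2 % k)
    (hr' : ∀ t ∈ Q, ∀ t' ∈ Q, t.2 = t'.2 → t.1 % k' = t'.1 % k') :
    ∑ t ∈ Q, (1 : ℝ) / (t.1 * t.2) ≤ 18 * (1 + Real.log Y) ^ 2 / U := by
  classical
  rw [← Finset.sum_filter_add_sum_filter_not Q (fun t => U ≤ (t.2:ℝ))]
  have b2 := harm_pairs hk hY hU hUk (Q.filter fun t => U ≤ (t.2:ℝ))
    (fun t ht => h0 t (Finset.mem_filter.1 ht).1) (fun t ht => (Finset.mem_filter.1 ht).2)
    (fun t ht t' ht' h => hr t (Finset.mem_filter.1 ht).1 t' (Finset.mem_filter.1 ht').1 h)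
  have b1 := harm_pairs hk' hY hU hUk' ((Q.filter fun t => ¬ U ≤ (t.2:ℝ)).image Prod.swap)
    (fun t ht => by
      obtain ⟨t', ht', rfl⟩ := Finset.mem_image.1 ht
      obtain ⟨a1, a2, a3, a4⟩ := h0 t' (Finset.mem_filter.1 ht').1
      exact ⟨a2, a1, a4, a3⟩)
    (fun t ht => by
      obtain ⟨t', ht', rfl⟩ := Finset.mem_image.1 ht
      obtain ⟨m1, m2⟩ := Finset.mem_filter.1 ht'
      exact (hQ t' m1).resolve_right m2)
    (fun t ht t1 ht1 h => by
      obtain ⟨t', ht', rfl⟩ := Finset.mem_image.1 ht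
      obtain ⟨t1', ht1', rfl⟩ := Finset.mem_image.1 ht1
      exact hr' t' (Finset.mem_filter.1 ht').1 t1' (Finset.mem_filter.1 ht1').1 h)
  rw [sum_swap1] at b1
  have e : 18 * (1 + Real.log Y) ^ 2 / U = 9 * (1 + Real.log Y) ^ 2 / U +
    9 * (1 + Real.log Y) ^ 2 / U := by ring
  rw [e]
  exact add_le_add b2 b1

/-! ### overlaps -/

section mn
variable {ι κ : Type} {F : Finset ι} {G : Finset κ} {e : ι → ℕ} {e' : κ → ℕ} {R : ι → ℝ} {R' : κ → ℝ}

/-- the overlap of a pair -/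
noncomputable def mn (e : ι → ℕ) (e' : κ → ℕ) (R : ι → ℝ) (R' : κ → ℝ) (i : ι) (j : κ) : ℝ :=
  min (R i / ((rd (e i) (e' j)).1 : ℕ)) (R' j / ((rd (e i) (e' j)).2 : ℕ))

lemma mn_nn (hR : ∀ i ∈ F, 0 ≤ R i) (hR' : ∀ j ∈ G, 0 ≤ R' j) {i : ι} (hi : i ∈ F) {j : κ}
    (hj : j ∈ G) : 0 ≤ mn e e' R R' i j :=
  le_min (div_nonneg (hR i hi) (Nat.cast_nonneg _)) (div_nonneg (hR' j hj) (Nat.cast_nonneg _))

lemma mn_le_ov (hR : ∀ i ∈ F, 0 ≤ R i) (hR' : ∀ j ∈ G, 0 ≤ R' j) {i : ι} (hi : i ∈ F) {j : κ}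
    (hj : j ∈ G) : mn e e' R R' i j ≤ ov e e' R R' i j := by
  have h := mn_nn (e := e) (e' := e') hR hR' hi hj
  unfold ov
  refine Real.le_sqrt_of_sq_le ?_
  rw [pow_two]
  exact mul_le_mul (min_le_left _ _) (min_le_right _ _) h (div_nonneg (hR i hi) (Nat.cast_nonneg _))

lemma sqrt_le_add {a b : ℝ} (ha : 0 ≤ a) (hb : 0 ≤ b) : √a * √b ≤ a + b := by
  have h1 := Real.sq_sqrt ha
  have h2 := Real.sq_sqrt hb
  nlinarith [sq_nonneg (√a - √b), Real.sqrt_nonneg a, Real.sqrt_nonneg b]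

end mn

/-! ### both families counted -/

/-- **one label, both families counted** -/
theorem same_late {A : ℝ} (hA : 0 ≤ A) : ∃ C : ℝ, 1 ≤ C ∧ ∀ (ι κ : Type) (c k : ℕ) (U0 : ℝ)
    (F : Finset ι) (G : Finset κ) (e : ι → ℕ) (e' : κ → ℕ) (R : ι → ℝ) (R' : κ → ℝ),
    c.Prime → 0 < k → 1 ≤ U0 →
    (F.card : ℝ) ≤ (k : ℝ) ^ A → (G.card : ℝ) ≤ (k : ℝ) ^ A →
    Fam F G e e' R R' → (∀ j ∈ G, ¬ c ∣ e' j) →
    ∑ i ∈ F, ∑ j ∈ G, ind ((U0 ≤ (rd (e i) (e' j)).1 ∨ U0 ≤ (rd (e i) (e' j)).2) ∧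
        c * (rd (e i) (e' j)).1 ≡ (rd (e i) (e' j)).2 [MOD k]) * mn e e' R R' i j ≤
      (1 / √U0 + C * (k : ℝ) ^ (-(1 / 16) : ℝ)) * (∑ i ∈ F, R i + ∑ j ∈ G, R' j) := by
  classical
  obtain ⟨C, hC, h⟩ := NcC37.late_rel (A := 2 * A) (b := 1) (C₀ := 18) (by linarith) one_pos
    (by norm_num)
  refine ⟨C, hC, ?_⟩
  intro ι κ c k U0 F G e e' R R' hcp hk hU0 hcF hcG' hf hcG
  have hk0 : (0:ℝ) < k := by exact_mod_cast hk
  have hk1 : (1:ℝ) ≤ k := by exact_mod_cast hk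
  have hS0 : 0 ≤ ∑ i ∈ F, R i := Finset.sum_nonneg hf.rF
  have hT0 : 0 ≤ ∑ j ∈ G, R' j := Finset.sum_nonneg hf.rG
  have hmn : ∀ i ∈ F, ∀ j ∈ G, 0 ≤ mn e e' R R' i j := fun i hi j hj =>
    mn_nn hf.rF hf.rG hi hj
  by_cases hck : c ∣ k
  · rw [Finset.sum_eq_zero]
    · positivity
    · intro i hi
      refine Finset.sum_eq_zero fun j hj => ?_
      rw [ind_f, zero_mul]
      rintro ⟨-, h2⟩
      have h3 : c ∣ (rd (e i) (e' j)).2 := by
        have := (h2.of_dvd hck).dvd_iff (dvd_refl c)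
        exact this.1 (dvd_mul_right _ _)
      exact hcG j hj (h3.trans (Nat.div_dvd_of_dvd (Nat.gcd_dvd_right _ _)))
  have hcop : c.Coprime k := (Nat.Prime.coprime_iff_not_dvd hcp).2 hck
  set U : ℝ := (k : ℝ) ^ (1 / 2 : ℝ) with hU
  have hU1 : 1 ≤ U := Real.one_le_rpow hk1 (by norm_num)
  have hU0' : 0 < U := by linarith
  have hU2 : U * U = k := by
    rw [hU, ← Real.rpow_add hk0]; norm_num
  have hUk : U ≤ k := by nlinarith
  -- the large pairs
  have hbig : ∑ i ∈ F, ∑ j ∈ G, ind ((U ≤ (rd (e i) (e' j)).1 ∨ U ≤ (rd (e i) (e' j)).2) ∧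
        c * (rd (e i) (e' j)).1 ≡ (rd (e i) (e' j)).2 [MOD k]) * mn e e' R R' i j ≤
      C * U ^ (-(1 / 4) : ℝ) * (∑ i ∈ F, R i + ∑ j ∈ G, R' j) := by
    have hAA : (k:ℝ) ^ A ≤ U ^ (2 * A) := by
      rw [hU, ← Real.rpow_mul hk0.le]
      refine le_of_eq ?_
      congr 1; ring
    refine h ι κ U (fun x y => (U ≤ x ∨ U ≤ y) ∧ c * x ≡ y [MOD k]) F G e e' R R' hU1
      (fun Y Q hY hQ => ?_) (hcF.trans hAA) (hcG'.trans hAA) hf.pF hf.pG hf.iF hf.iG hf.rF hf.rG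
    have h1 := harm2 hk hk hY hU1 hUk hUk Q (fun t ht => by
      obtain ⟨a1, a2, a3, a4, a5, a6⟩ := hQ t ht
      exact ⟨a1, a2, a4, a5⟩) (fun t ht => (hQ t ht).2.2.2.2.2.1) ?_ ?_
    · refine h1.trans (le_of_eq ?_)
      rw [Real.rpow_neg_one]; ring
    · intro t ht t' ht' hh
      have h1 : (c * t.1) % k = t.2 % k := (hQ t ht).2.2.2.2.2.2
      have h2 : (c * t'.1) % k = t'.2 % k := (hQ t' ht').2.2.2.2.2.2
      rw [← h1, ← h2, hh]
    · intro t ht t' ht' hh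
      have h1 : c * t.1 ≡ t.2 [MOD k] := (hQ t ht).2.2.2.2.2.2
      have h2 : c * t'.1 ≡ t'.2 [MOD k] := (hQ t' ht').2.2.2.2.2.2
      rw [← hh] at h2
      exact Nat.ModEq.cancel_left_of_coprime (by rw [Nat.gcd_comm]; exact hcop)
        (h1.trans h2.symm)
  have hUe : U ^ (-(1 / 4) : ℝ) ≤ (k : ℝ) ^ (-(1 / 16) : ℝ) := by
    rw [hU, ← Real.rpow_mul hk0.le]
    exact Real.rpow_le_rpow_of_exponent_le hk1 (by norm_num)
  -- the small pairs
  have hsm : ∑ i ∈ F, ∑ j ∈ G, ind ((U0 ≤ (rd (e i) (e' j)).1 ∨ U0 ≤ (rd (e i) (e' j)).2) ∧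
        ((rd (e i) (e' j)).1 : ℝ) < U ∧ ((rd (e i) (e' j)).2 : ℝ) < U ∧
        c * (rd (e i) (e' j)).1 ≡ (rd (e i) (e' j)).2 [MOD k]) * mn e e' R R' i j ≤
      1 / √U0 * (√(∑ i ∈ F, R i) * √(∑ j ∈ G, R' j)) := by
    by_cases hex : ∃ i ∈ F, ∃ j ∈ G, (U0 ≤ (rd (e i) (e' j)).1 ∨ U0 ≤ (rd (e i) (e' j)).2) ∧
        ((rd (e i) (e' j)).1 : ℝ) < U ∧ ((rd (e i) (e' j)).2 : ℝ) < U ∧
        c * (rd (e i) (e' j)).1 ≡ (rd (e i) (e' j)).2 [MOD k]
    · obtain ⟨i0, hi0, j0, hj0, b0, b1, b2, b3⟩ := hex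
      set t0 := rd (e i0) (e' j0) with ht0
      have s0 := dt_spec (hf.pF i0 hi0) (hf.pG j0 hj0)
      have key := one_type hf t0 ⟨s0.1, s0.2.1⟩
      have hpos : (0:ℝ) < (t0.1 : ℝ) * t0.2 :=
        mul_pos (by exact_mod_cast s0.1) (by exact_mod_cast s0.2.1)
      have hle : U0 ≤ (t0.1 : ℝ) * t0.2 := by
        have c1 : (1:ℝ) ≤ t0.1 := by exact_mod_cast s0.1
        have c2 : (1:ℝ) ≤ t0.2 := by exact_mod_cast s0.2.1
        rcases b0 with b0 | b0
        · nlinarith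
        · nlinarith
      have hst : ∀ i ∈ F, ∀ j ∈ G,
          ind ((U0 ≤ (rd (e i) (e' j)).1 ∨ U0 ≤ (rd (e i) (e' j)).2) ∧
            ((rd (e i) (e' j)).1 : ℝ) < U ∧ ((rd (e i) (e' j)).2 : ℝ) < U ∧
            c * (rd (e i) (e' j)).1 ≡ (rd (e i) (e' j)).2 [MOD k]) * mn e e' R R' i j ≤
          1 / √U0 * (ind (dt (e i) (e' j) = t0) * (√(R i) * √(R' j))) := by
        intro i hi j hj
        by_cases hR : (U0 ≤ (rd (e i) (e' j)).1 ∨ U0 ≤ (rd (e i) (e' j)).2) ∧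
            ((rd (e i) (e' j)).1 : ℝ) < U ∧ ((rd (e i) (e' j)).2 : ℝ) < U ∧
            c * (rd (e i) (e' j)).1 ≡ (rd (e i) (e' j)).2 [MOD k]
        · rw [ind_t hR, one_mul]
          obtain ⟨-, d1, d2, d3⟩ := hR
          have s1 := dt_spec (hf.pF i hi) (hf.pG j hj)
          have hl : ∀ a b : ℕ, (a:ℝ) < U → (b:ℝ) < U → a * b < k := by
            intro a b ha hb
            have : (a:ℝ) * b < k := by
              rw [← hU2]
              exact mul_lt_mul'' ha hb (Nat.cast_nonneg _) (Nat.cast_nonneg _)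
            exact_mod_cast this
          have heq : rd (e i) (e' j) = t0 := small_unique hk d3 b3 s1.2.2.1 s0.2.2.1
            ⟨s1.1, s1.2.1⟩ ⟨s0.1, s0.2.1⟩ (hl _ _ d2 b1) (hl _ _ b2 d1)
          have heq' : dt (e i) (e' j) = t0 := heq
          rw [ind_t heq', one_mul]
          refine (mn_le_ov hf.rF hf.rG hi hj).trans ?_
          unfold ov
          rw [heq]
          have r1 := hf.rF i hi
          have r2 := hf.rG j hj
          have e1 : R i / (t0.1 : ℝ) * (R' j / (t0.2 : ℝ)) =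
              (R i * R' j) / ((t0.1 : ℝ) * t0.2) := by rw [div_mul_div_comm]
          rw [e1, Real.sqrt_div (mul_nonneg r1 r2), Real.sqrt_mul r1, div_eq_mul_one_div,
            mul_comm]
          refine mul_le_mul_of_nonneg_right ?_ (by positivity)
          exact one_div_le_one_div_of_le (Real.sqrt_pos.2 (by linarith)) (Real.sqrt_le_sqrt hle)
        · rw [ind_f hR, zero_mul]
          exact mul_nonneg (by positivity) (mul_nonneg (ind_nn _) (by positivity))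
      calc _ ≤ ∑ i ∈ F, ∑ j ∈ G, 1 / √U0 * (ind (dt (e i) (e' j) = t0) * (√(R i) * √(R' j))) :=
            Finset.sum_le_sum fun i hi => Finset.sum_le_sum fun j hj => hst i hi j hj
        _ = 1 / √U0 * ∑ i ∈ F, ∑ j ∈ G, ind (dt (e i) (e' j) = t0) * (√(R i) * √(R' j)) := by
            rw [Finset.mul_sum]
            exact Finset.sum_congr rfl fun i _ => by rw [Finset.mul_sum]
        _ ≤ _ := mul_le_mul_of_nonneg_left key (by positivity)
    · push Not at hex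
      rw [Finset.sum_eq_zero]
      · positivity
      · intro i hi
        refine Finset.sum_eq_zero fun j hj => ?_
        rw [ind_f, zero_mul]
        rintro ⟨a1, a2, a3, a4⟩
        exact hex i hi j hj a1 a2 a3 a4
  -- the sum
  have hsplit : ∀ i ∈ F, ∀ j ∈ G,
      ind ((U0 ≤ (rd (e i) (e' j)).1 ∨ U0 ≤ (rd (e i) (e' j)).2) ∧
        c * (rd (e i) (e' j)).1 ≡ (rd (e i) (e' j)).2 [MOD k]) * mn e e' R R' i j ≤
      ind ((U0 ≤ (rd (e i) (e' j)).1 ∨ U0 ≤ (rd (e i) (e' j)).2) ∧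
        ((rd (e i) (e' j)).1 : ℝ) < U ∧ ((rd (e i) (e' j)).2 : ℝ) < U ∧
        c * (rd (e i) (e' j)).1 ≡ (rd (e i) (e' j)).2 [MOD k]) * mn e e' R R' i j +
      ind ((U ≤ (rd (e i) (e' j)).1 ∨ U ≤ (rd (e i) (e' j)).2) ∧
        c * (rd (e i) (e' j)).1 ≡ (rd (e i) (e' j)).2 [MOD k]) * mn e e' R R' i j := by
    intro i hi j hj
    rw [← add_mul]
    refine mul_le_mul_of_nonneg_right ?_ (hmn i hi j hj)
    by_cases hR : (U0 ≤ (rd (e i) (e' j)).1 ∨ U0 ≤ (rd (e i) (e' j)).2) ∧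
        c * (rd (e i) (e' j)).1 ≡ (rd (e i) (e' j)).2 [MOD k]
    · rw [ind_t hR]
      by_cases h1 : U ≤ (rd (e i) (e' j)).1 ∨ U ≤ (rd (e i) (e' j)).2
      · rw [ind_t (⟨h1, hR.2⟩ : _ ∧ _)]
        linarith [ind_nn ((U0 ≤ (rd (e i) (e' j)).1 ∨ U0 ≤ (rd (e i) (e' j)).2) ∧
          ((rd (e i) (e' j)).1 : ℝ) < U ∧ ((rd (e i) (e' j)).2 : ℝ) < U ∧
          c * (rd (e i) (e' j)).1 ≡ (rd (e i) (e' j)).2 [MOD k])]
      · push Not at h1
        rw [ind_t (⟨hR.1, h1.1, h1.2, hR.2⟩ : _ ∧ _ ∧ _ ∧ _)]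
        linarith [ind_nn ((U ≤ (rd (e i) (e' j)).1 ∨ U ≤ (rd (e i) (e' j)).2) ∧
          c * (rd (e i) (e' j)).1 ≡ (rd (e i) (e' j)).2 [MOD k])]
    · rw [ind_f hR]
      exact add_nonneg (ind_nn _) (ind_nn _)
  refine (Finset.sum_le_sum fun i hi => Finset.sum_le_sum fun j hj => hsplit i hi j hj).trans ?_
  simp only [Finset.sum_add_distrib]
  have h6 : 1 / √U0 * (√(∑ i ∈ F, R i) * √(∑ j ∈ G, R' j)) ≤
      1 / √U0 * (∑ i ∈ F, R i + ∑ j ∈ G, R' j) :=
    mul_le_mul_of_nonneg_left (sqrt_le_add hS0 hT0) (by positivity)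
  have h7 := mul_le_mul_of_nonneg_right (mul_le_mul_of_nonneg_left hUe (by linarith : 0 ≤ C))
    (add_nonneg hS0 hT0)
  rw [add_mul]
  linarith

/-- **two labels, both families counted** -/
theorem diff_late {A δ : ℝ} (hA : 0 ≤ A) (hδ : 0 < δ) (hδ1 : δ ≤ 1) : ∃ C : ℝ, 1 ≤ C ∧
    ∀ (ι κ : Type) (ρ ρ' : ℚ) (K : ℝ) (F : Finset ι) (G : Finset κ) (e : ι → ℕ) (e' : κ → ℕ)
    (R : ι → ℝ) (R' : κ → ℝ), 1 ≤ K →
    (K ^ δ * ρ.den ≤ ρ'.den ∨ K ^ δ * ρ'.den ≤ ρ.den) →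
    (F.card : ℝ) ≤ K ^ A → (G.card : ℝ) ≤ K ^ A → Fam F G e e' R R' →
    ∑ i ∈ F, ∑ j ∈ G, ind (Co (((rd (e i) (e' j)).2 : ℕ) * ρ) (((rd (e i) (e' j)).1 : ℕ) * ρ')) *
      mn e e' R R' i j ≤
      C * K ^ (-(δ / 8) : ℝ) * (∑ i ∈ F, R i + ∑ j ∈ G, R' j) := by
  classical
  obtain ⟨C, hC, h⟩ := NcC37.late_rel (A := A) (b := δ) (C₀ := 9) hA hδ (by norm_num)
  refine ⟨C, hC, ?_⟩
  intro ι κ ρ ρ' K F G e e' R R' hK hr hcF hcG hf
  have hK0 : 0 < K := by linarith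
  have hS0 : 0 ≤ ∑ i ∈ F, R i := Finset.sum_nonneg hf.rF
  have hT0 : 0 ≤ ∑ j ∈ G, R' j := Finset.sum_nonneg hf.rG
  set U : ℝ := K ^ δ with hU
  have hU1 : 1 ≤ U := Real.one_le_rpow hK hδ.le
  have main : ∀ (ρ ρ' : ℚ) (Y : ℕ) (Q : Finset (ℕ × ℕ)), 1 ≤ Y → U * ρ.den ≤ ρ'.den →
      (∀ t ∈ Q, 0 < t.1 ∧ 0 < t.2 ∧ t.1 ≤ Y ∧ t.2 ≤ Y) →
      (∀ t ∈ Q, Co ((t.1 : ℕ) * ρ) ((t.2 : ℕ) * ρ')) →
      ∑ t ∈ Q, (1 : ℝ) / (t.1 * t.2) ≤ 9 * (1 + Real.log Y) ^ 2 / U := by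
    intro ρ ρ' Y Q hY hr h0 hQ
    have hd0 : (0:ℝ) < ρ.den := by exact_mod_cast ρ.pos
    have hd1 : (1:ℝ) ≤ ρ.den := by exact_mod_cast ρ.pos
    have hUd : U ≤ (ρ'.den : ℝ) := by nlinarith
    refine harm_pairs ρ'.pos hY hU1 hUd Q h0 ?_ ?_
    · intro t ht
      have a1 := den_le_mul (h0 t ht).2.1 ρ'
      rw [← Co.den_eq (hQ t ht)] at a1
      have a2 := den_mul_le t.1 ρ
      have a3 : ρ'.den ≤ ρ.den * t.2 := a1.trans (Nat.mul_le_mul_right _ a2)
      have a4 : (ρ'.den : ℝ) ≤ ρ.den * t.2 := by exact_mod_cast a3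
      have a5 : U * ρ.den ≤ t.2 * ρ.den := by linarith
      exact le_of_mul_le_mul_right a5 hd0
    · intro t ht t' ht' hh
      have h1 := (hQ t ht).symm
      have h2 := (hQ t' ht').symm
      rw [← hh] at h2
      exact h1.mod h2
  have key := h ι κ K (fun x y => Co ((y : ℕ) * ρ) ((x : ℕ) * ρ')) F G e e' R R' hK
    (fun Y Q hY hQ => ?_) hcF hcG hf.pF hf.pG hf.iF hf.iG hf.rF hf.rG
  · refine key.trans ?_
    refine mul_le_mul_of_nonneg_right ?_ (add_nonneg hS0 hT0)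
    refine mul_le_mul_of_nonneg_left ?_ (by linarith)
    exact Real.rpow_le_rpow_of_exponent_le hK (by linarith)
  · have e1 : 9 * (1 + Real.log Y) ^ 2 / U = 9 * (1 + Real.log Y) ^ 2 * K ^ (-δ) := by
      rw [Real.rpow_neg hK0.le, ← div_eq_mul_inv]
    rw [← e1]
    rcases hr with hr | hr
    · rw [← sum_swap1]
      refine main ρ ρ' Y _ hY hr ?_ ?_
      · intro t ht
        obtain ⟨t', ht', rfl⟩ := Finset.mem_image.1 ht
        obtain ⟨a1, a2, a3, a4, a5, a6⟩ := hQ t' ht'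
        exact ⟨a2, a1, a5, a4⟩
      · intro t ht
        obtain ⟨t', ht', rfl⟩ := Finset.mem_image.1 ht
        exact (hQ t' ht').2.2.2.2.2
    · refine main ρ' ρ Y Q hY hr ?_ ?_
      · intro t ht
        obtain ⟨a1, a2, a3, a4, a5, a6⟩ := hQ t ht
        exact ⟨a1, a2, a4, a5⟩
      · intro t ht
        exact (hQ t ht).2.2.2.2.2.symm

/-! ### rough parts -/

section rough

/-- the part of `n` with prime factors `> z` -/
noncomputable def rg (z n : ℕ) : ℕ :=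
  ∏ p ∈ n.primeFactors.filter (z < ·), p ^ n.factorization p

lemma rg_dvd {z n : ℕ} (hn : 0 < n) : rg z n ∣ n := by
  unfold rg
  conv_rhs => rw [← Nat.prod_factorization_pow_eq_self hn.ne']
  rw [Finsupp.prod, Nat.support_factorization]
  exact Finset.prod_dvd_prod_of_subset _ _ _ (Finset.filter_subset _ _)

lemma rg_pos {z n : ℕ} (hn : 0 < n) : 0 < rg z n := Nat.pos_of_dvd_of_pos (rg_dvd hn) hn

lemma rg_fac {z n p : ℕ} (hp : p.Prime) : (rg z n).factorization p =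
    if z < p then n.factorization p else 0 := by
  unfold rg
  rw [Nat.factorization_prod fun q hq => pow_ne_zero _
    (Nat.prime_of_mem_primeFactors (Finset.mem_filter.1 hq).1).ne_zero]
  rw [Finset.sum_apply']
  by_cases h : z < p
  · rw [if_pos h]
    by_cases hm : p ∈ n.primeFactors
    · rw [Finset.sum_eq_single_of_mem p (Finset.mem_filter.2 ⟨hm, h⟩)]
      · rw [Nat.Prime.factorization_pow hp]; simp
      · intro q hq hne
        have hq' := Nat.prime_of_mem_primeFactors (Finset.mem_filter.1 hq).1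
        rw [Nat.Prime.factorization_pow hq', Finsupp.single_apply, if_neg hne]
    · have h0 : n.factorization p = 0 := by
        rw [← Nat.support_factorization] at hm
        exact Finsupp.notMem_support_iff.1 hm
      rw [h0]
      refine Finset.sum_eq_zero fun q hq => ?_
      obtain ⟨hq1, hq2⟩ := Finset.mem_filter.1 hq
      have hq' := Nat.prime_of_mem_primeFactors hq1
      rw [Nat.Prime.factorization_pow hq', Finsupp.single_apply, if_neg]
      rintro rfl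
      exact hm hq1
  · rw [if_neg h]
    refine Finset.sum_eq_zero fun q hq => ?_
    obtain ⟨hq1, hq2⟩ := Finset.mem_filter.1 hq
    have hq' := Nat.prime_of_mem_primeFactors hq1
    rw [Nat.Prime.factorization_pow hq', Finsupp.single_apply, if_neg]
    rintro rfl
    exact h hq2

lemma rg_sm {z n p : ℕ} (hn : 0 < n) (hp : p.Prime) (h : p ∣ n / rg z n) : p ≤ z := by
  by_contra hc
  push Not at hc
  have h1 : (n / rg z n).factorization p = n.factorization p - (rg z n).factorization p := by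
    rw [Nat.factorization_div (rg_dvd hn)]
    rfl
  rw [rg_fac hp, if_pos hc, Nat.sub_self] at h1
  have h2 : 0 < n / rg z n := Nat.div_pos (Nat.le_of_dvd hn (rg_dvd hn)) (rg_pos hn)
  have h3 := (hp.dvd_iff_one_le_factorization h2.ne').1 h
  omega

lemma rd_fac {m n p : ℕ} (hm : 0 < m) (hn : 0 < n) :
    (rd m n).1.factorization p = m.factorization p - (m.gcd n).factorization p ∧
    (rd m n).2.factorization p = n.factorization p - (m.gcd n).factorization p := by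
  constructor
  · show (m / m.gcd n).factorization p = _
    rw [Nat.factorization_div (Nat.gcd_dvd_left _ _)]
    rfl
  · show (n / m.gcd n).factorization p = _
    rw [Nat.factorization_div (Nat.gcd_dvd_right _ _)]
    rfl

/-- smooth reduced cofactors: equal rough parts -/
lemma rg_eq {z m n : ℕ} (hm : 0 < m) (hn : 0 < n) (h : Sm2 z (rd m n)) : rg z m = rg z n := by
  refine Nat.eq_of_factorization_eq (rg_pos hm).ne' (rg_pos hn).ne' fun p => ?_
  by_cases hp : p.Prime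
  · rw [rg_fac hp, rg_fac hp]
    split_ifs with hz
    · have g0 : 0 < m.gcd n := Nat.gcd_pos_of_pos_left _ hm
      have z1 : (rd m n).1.factorization p = 0 := by
        refine Nat.factorization_eq_zero_of_not_dvd fun hd => ?_
        exact absurd (h.2.2 p hp (dvd_mul_of_dvd_left hd _)) (not_le.2 hz)
      have z2 : (rd m n).2.factorization p = 0 := by
        refine Nat.factorization_eq_zero_of_not_dvd fun hd => ?_
        exact absurd (h.2.2 p hp (dvd_mul_of_dvd_right hd _)) (not_le.2 hz)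
      obtain ⟨e1, e2⟩ := rd_fac (p := p) hm hn
      have l1 : (m.gcd n).factorization p ≤ m.factorization p :=
        (Nat.factorization_le_iff_dvd g0.ne' hm.ne').2 (Nat.gcd_dvd_left _ _) p
      have l2 : (m.gcd n).factorization p ≤ n.factorization p :=
        (Nat.factorization_le_iff_dvd g0.ne' hn.ne').2 (Nat.gcd_dvd_right _ _) p
      omega
    · rfl
  · rw [Nat.factorization_eq_zero_of_not_prime _ hp, Nat.factorization_eq_zero_of_not_prime _ hp]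

lemma div_div3 {m g r : ℕ} (hg : r ∣ g) (hm : g ∣ m) (hr : 0 < r) (hg0 : 0 < g) :
    m / r / (g / r) = m / g := by
  obtain ⟨g', rfl⟩ := hg
  obtain ⟨a, rfl⟩ := hm
  have hg' : 0 < g' := Nat.pos_of_mul_pos_left hg0
  rw [Nat.mul_div_cancel_left _ hg0, Nat.mul_div_cancel_left _ hr, mul_assoc,
    Nat.mul_div_cancel_left _ hr, Nat.mul_div_cancel_left _ hg']

lemma rd_div {m n r : ℕ} (hm : r ∣ m) (hn : r ∣ n) (hr : 0 < r) (hm0 : 0 < m) :
    rd (m / r) (n / r) = rd m n := by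
  have hg : r ∣ m.gcd n := Nat.dvd_gcd hm hn
  have hg0 : 0 < m.gcd n := Nat.gcd_pos_of_pos_left _ hm0
  unfold rd
  rw [Nat.gcd_div hm hn, div_div3 hg (Nat.gcd_dvd_left _ _) hr hg0,
    div_div3 hg (Nat.gcd_dvd_right _ _) hr hg0]

end rough

/-! ### the relation of a tie -/

section tie
variable {ι κ : Type} {F : Finset ι} {G : Finset κ} {e : ι → ℕ} {e' : κ → ℕ} {R : ι → ℝ} {R' : κ → ℝ}

/-- **the relation of a tie** : exact centre, sparse labels, both sides late or one side late with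
`z`-smooth cofactors, and: one label with a cofactor `≥ U0`, or two labels with very different
denominators -/
structure RlT2 (z c : ℕ) (Lp U0 A δ : ℝ) (e : ι → ℕ) (e' : κ → ℕ) (R : ι → ℝ) (R' : κ → ℝ)
    (ρ : ι → ℚ) (ρ' : κ → ℚ) (i : ι) (j : κ) : Prop where
  co : Co (((rd (e i) (e' j)).2 : ℕ) * ρ i) (((rd (e i) (e' j)).1 : ℕ) * ρ' j)
  d1 : Lp ≤ (ρ i).den
  d2 : Lp ≤ (ρ' j).den
  lt : (1 ≤ KK (ρ i) (ρ' j) ^ A * R i ∧ 1 ≤ KK (ρ i) (ρ' j) ^ A * R' j) ∨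
    ((1 ≤ KK (ρ i) (ρ' j) ^ A * R i ∨ 1 ≤ KK (ρ i) (ρ' j) ^ A * R' j) ∧ Sm2 z (rd (e i) (e' j)))
  sp : (ρ' j = c * ρ i ∧ (U0 ≤ (rd (e i) (e' j)).1 ∨ U0 ≤ (rd (e i) (e' j)).2)) ∨
    KK (ρ i) (ρ' j) ^ δ * (ρ i).den ≤ (ρ' j).den ∨ KK (ρ i) (ρ' j) ^ δ * (ρ' j).den ≤ (ρ i).den

lemma sum_sqrt_add {V : Type} (s : Finset V) (a b : V → ℝ) (ha : ∀ i ∈ s, 0 ≤ a i)
    (hb : ∀ i ∈ s, 0 ≤ b i) : ∑ i ∈ s, √(a i) * √(b i) ≤ ∑ i ∈ s, a i + ∑ i ∈ s, b i := by
  rw [← Finset.sum_add_distrib]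
  exact Finset.sum_le_sum fun i hi => sqrt_le_add (ha i hi) (hb i hi)

/-- **one side late, smooth cofactors** -/
theorem tie_one {A δ : ℝ} (hA : 0 ≤ A) (hδ : 0 < δ) (hδ1 : δ ≤ 1) : ∃ C : ℝ, 1 ≤ C ∧
    ∀ (ι κ : Type) (z c : ℕ) (Lp U0 : ℝ) (F : Finset ι) (G : Finset κ) (e : ι → ℕ) (e' : κ → ℕ)
    (R : ι → ℝ) (R' : κ → ℝ) (ρ : ι → ℚ) (ρ' : κ → ℚ) (Rl : ι → κ → Prop),
    2 ≤ z → c.Prime → 1 ≤ U0 → 1 ≤ Lp → (3 + Real.log z) ^ C ≤ Lp →
    ∑ i ∈ F, R i ≤ Lp → ∑ j ∈ G, R' j ≤ Lp →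
    Fam F G e e' R R' → (∀ j ∈ G, ¬ c ∣ e' j) →
    (∀ i ∈ F, ∀ j ∈ G, Rl i j → RlT c Lp U0 A δ e e' R R' ρ ρ' i j ∧ Sm2 z (rd (e i) (e' j))) →
    ((∀ i ∈ F, ∀ j ∈ G, Rl i j → ρ' j = c * ρ i) ∨
      (∑ r ∈ (F.image ρ).filter (fun r => Lp ≤ r.den), (r.den : ℝ) ^ (-(δ / 16)) ≤ 1 ∧
        ∑ r ∈ (G.image ρ').filter (fun r => Lp ≤ r.den), (r.den : ℝ) ^ (-(δ / 16)) ≤ 1)) →
    ∑ i ∈ F, ∑ j ∈ G, ind (Rl i j) * mn e e' R R' i j ≤
      (2 / √U0 + C * Lp ^ (-(δ / 16))) * (∑ i ∈ F, R i + ∑ j ∈ G, R' j) := by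
  classical
  obtain ⟨C, hC, h⟩ := node_energy hA hδ hδ1
  refine ⟨C, hC, ?_⟩
  intro ι κ z c Lp U0 F G e e' R R' ρ ρ' Rl hz hc hU0 hLp1 hzL hSR hSR' hf hcG hRl hlac
  have hLp0 : 0 < Lp := by linarith
  set B : ℝ := 2 / √U0 + C * Lp ^ (-(δ / 16)) with hB
  have hB0 : 0 ≤ B := by positivity
  set Fm : ℕ → Finset ι := fun m => F.filter fun i => rg z (e i) = m with hFm
  set Gm : ℕ → Finset κ := fun m => G.filter fun j => rg z (e' j) = m with hGm
  have hFF : ∀ m, Fm m ⊆ F := fun m => Finset.filter_subset _ _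
  have hGG : ∀ m, Gm m ⊆ G := fun m => Finset.filter_subset _ _
  have e1 : ∑ i ∈ F, ∑ j ∈ G, ind (Rl i j) * mn e e' R R' i j ≤
      ∑ m ∈ F.image (fun i => rg z (e i)), ∑ i ∈ Fm m, ∑ j ∈ Gm m,
        ind (Rl i j) * mn e e' R R' i j := by
    rw [sum_fib (fun i => rg z (e i))]
    refine Finset.sum_le_sum fun m hm => Finset.sum_le_sum fun i hi => ?_
    obtain ⟨hi1, hi2⟩ := Finset.mem_filter.1 hi
    rw [← Finset.sum_filter_add_sum_filter_not G (fun j => rg z (e' j) = m)]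
    have z2 : ∑ j ∈ G.filter (fun j => ¬ rg z (e' j) = m), ind (Rl i j) * mn e e' R R' i j = 0 := by
      refine Finset.sum_eq_zero fun j hj => ?_
      obtain ⟨hj1, hj2⟩ := Finset.mem_filter.1 hj
      rw [ind_f, zero_mul]
      intro h5
      apply hj2
      rw [← rg_eq (hf.pF i hi1) (hf.pG j hj1) (hRl i hi1 j hj1 h5).2, hi2]
    rw [z2, add_zero]
  have e2 : ∀ m ∈ F.image (fun i => rg z (e i)), ∑ i ∈ Fm m, ∑ j ∈ Gm m,
      ind (Rl i j) * mn e e' R R' i j ≤ B * (√(∑ i ∈ Fm m, R i) * √(∑ j ∈ Gm m, R' j)) := by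
    intro m hm
    obtain ⟨i0, hi0, hm0⟩ := Finset.mem_image.1 hm
    have hmp : 0 < m := by rw [← hm0]; exact rg_pos (hf.pF i0 hi0)
    have dF : ∀ i ∈ Fm m, m ∣ e i := fun i hi => by
      obtain ⟨hi1, hi2⟩ := Finset.mem_filter.1 hi
      rw [← hi2]; exact rg_dvd (hf.pF i hi1)
    have dG : ∀ j ∈ Gm m, m ∣ e' j := fun j hj => by
      obtain ⟨hj1, hj2⟩ := Finset.mem_filter.1 hj
      rw [← hj2]; exact rg_dvd (hf.pG j hj1)
    have hrd : ∀ i ∈ Fm m, ∀ j ∈ Gm m, rd (e i / m) (e' j / m) = rd (e i) (e' j) :=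
      fun i hi j hj => rd_div (dF i hi) (dG j hj) hmp (hf.pF i (hFF m hi))
    have hfm : Fam (Fm m) (Gm m) (fun i => e i / m) (fun j => e' j / m) R R' :=
      { pF := fun i hi => Nat.div_pos (Nat.le_of_dvd (hf.pF i (hFF m hi)) (dF i hi)) hmp
        pG := fun j hj => Nat.div_pos (Nat.le_of_dvd (hf.pG j (hGG m hj)) (dG j hj)) hmp
        iF := fun i hi i' hi' hh => by
          refine hf.iF i (hFF m hi) i' (hFF m hi') ?_
          have hh' : e i / m = e i' / m := hh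
          rw [← Nat.div_mul_cancel (dF i hi), ← Nat.div_mul_cancel (dF i' hi'), hh']
        iG := fun i hi i' hi' hh => by
          refine hf.iG i (hGG m hi) i' (hGG m hi') ?_
          have hh' : e' i / m = e' i' / m := hh
          rw [← Nat.div_mul_cancel (dG i hi), ← Nat.div_mul_cancel (dG i' hi'), hh']
        rF := fun i hi => hf.rF i (hFF m hi)
        rG := fun j hj => hf.rG j (hGG m hj) }
    have key := h ι κ z c Lp U0 (Fm m) (Gm m) (fun i => e i / m) (fun j => e' j / m) R R' ρ ρ' Rl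
      hz hc hU0 hLp1 hzL
      ((Finset.sum_le_sum_of_subset_of_nonneg (hFF m) fun i hi _ => hf.rF i hi).trans hSR)
      ((Finset.sum_le_sum_of_subset_of_nonneg (hGG m) fun i hi _ => hf.rG i hi).trans hSR')
      hfm (fun j hj hd => hcG j (hGG m hj) (hd.trans (Nat.div_dvd_of_dvd (dG j hj))))
      (fun i hi p hp hd => by
        obtain ⟨hi1, hi2⟩ := Finset.mem_filter.1 hi
        have hd' : p ∣ e i / m := hd
        rw [← hi2] at hd'
        exact rg_sm (hf.pF i hi1) hp hd')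
      (fun j hj p hp hd => by
        obtain ⟨hj1, hj2⟩ := Finset.mem_filter.1 hj
        have hd' : p ∣ e' j / m := hd
        rw [← hj2] at hd'
        exact rg_sm (hf.pG j hj1) hp hd')
      (fun i hi j hj hR => by
        have a := (hRl i (hFF m hi) j (hGG m hj) hR).1
        have e5 := hrd i hi j hj
        exact
          { co := by show Co (((rd (e i / m) (e' j / m)).2 : ℕ) * ρ i)
                       (((rd (e i / m) (e' j / m)).1 : ℕ) * ρ' j)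
                     rw [e5]; exact a.co
            d1 := a.d1
            d2 := a.d2
            lt := a.lt
            sp := by
              show (ρ' j = c * ρ i ∧ (U0 ≤ ((rd (e i / m) (e' j / m)).1 : ℕ) ∨
                U0 ≤ ((rd (e i / m) (e' j / m)).2 : ℕ))) ∨ _
              rw [e5]; exact a.sp })
      (by
        rcases hlac with hl | ⟨hl1, hl2⟩
        · exact Or.inl fun i hi j hj hR => hl i (hFF m hi) j (hGG m hj) hR
        · refine Or.inr ⟨(Finset.sum_le_sum_of_subset_of_nonneg (Finset.filter_subset_filter _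
            (Finset.image_subset_image (hFF m))) fun r _ _ => by positivity).trans hl1,
            (Finset.sum_le_sum_of_subset_of_nonneg (Finset.filter_subset_filter _
            (Finset.image_subset_image (hGG m))) fun r _ _ => by positivity).trans hl2⟩)
    refine (Finset.sum_le_sum fun i hi => Finset.sum_le_sum fun j hj => ?_).trans key
    refine mul_le_mul_of_nonneg_left ?_ (ind_nn _)
    refine (mn_le_ov hf.rF hf.rG (hFF m hi) (hGG m hj)).trans (le_of_eq ?_)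
    show √(R i / ((rd (e i) (e' j)).1 : ℕ) * (R' j / ((rd (e i) (e' j)).2 : ℕ))) =
      √(R i / ((rd (e i / m) (e' j / m)).1 : ℕ) * (R' j / ((rd (e i / m) (e' j / m)).2 : ℕ)))
    rw [hrd i hi j hj]
  refine e1.trans ((Finset.sum_le_sum e2).trans ?_)
  rw [← Finset.mul_sum]
  refine mul_le_mul_of_nonneg_left ?_ hB0
  refine (sum_sqrt_add _ (fun m => ∑ i ∈ Fm m, R i) (fun m => ∑ j ∈ Gm m, R' j)
    (fun m _ => Finset.sum_nonneg fun i hi => hf.rF i (hFF m hi))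
    (fun m _ => Finset.sum_nonneg fun j hj => hf.rG j (hGG m hj))).trans ?_
  refine add_le_add (le_of_eq (sum_fib (fun i => rg z (e i)) R).symm) ?_
  rw [sum_fib (fun j => rg z (e' j)) R']
  set W := F.image (fun i => rg z (e i)) with hW
  rw [← Finset.sum_filter_add_sum_filter_not W (fun m => m ∈ G.image fun j => rg z (e' j))]
  have z3 : ∑ m ∈ W.filter (fun m => ¬ m ∈ G.image fun j => rg z (e' j)), ∑ j ∈ Gm m, R' j = 0 := by
    refine Finset.sum_eq_zero fun m hm => Finset.sum_eq_zero fun j hj => ?_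
    obtain ⟨h5, h6⟩ := Finset.mem_filter.1 hj
    exact absurd (Finset.mem_image.2 ⟨j, h5, h6⟩) (Finset.mem_filter.1 hm).2
  rw [z3, add_zero]
  exact Finset.sum_le_sum_of_subset_of_nonneg (fun m hm => (Finset.mem_filter.1 hm).2)
    fun m _ _ => Finset.sum_nonneg fun j hj => hf.rG j (hGG m hj)

/-- **both sides late** -/
theorem tie_both {A δ : ℝ} (hA : 0 ≤ A) (hδ : 0 < δ) (hδ1 : δ ≤ 1) : ∃ C : ℝ, 1 ≤ C ∧
    ∀ (ι κ : Type) (c : ℕ) (Lp U0 : ℝ) (F : Finset ι) (G : Finset κ) (e : ι → ℕ) (e' : κ → ℕ)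
    (R : ι → ℝ) (R' : κ → ℝ) (ρ : ι → ℚ) (ρ' : κ → ℚ) (Rl : ι → κ → Prop),
    c.Prime → 1 ≤ U0 → 1 < Lp →
    ∑ i ∈ F, R i ≤ Lp → ∑ j ∈ G, R' j ≤ Lp →
    Fam F G e e' R R' → (∀ j ∈ G, ¬ c ∣ e' j) →
    (∀ i ∈ F, ∀ j ∈ G, Rl i j → RlT c Lp U0 A δ e e' R R' ρ ρ' i j ∧
      1 ≤ KK (ρ i) (ρ' j) ^ A * R i ∧ 1 ≤ KK (ρ i) (ρ' j) ^ A * R' j) →
    ((∀ i ∈ F, ∀ j ∈ G, Rl i j → ρ' j = c * ρ i) ∨
      (∑ r ∈ (F.image ρ).filter (fun r => Lp ≤ r.den), (r.den : ℝ) ^ (-(δ / 16)) ≤ 1 ∧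
        ∑ r ∈ (G.image ρ').filter (fun r => Lp ≤ r.den), (r.den : ℝ) ^ (-(δ / 16)) ≤ 1)) →
    ∑ i ∈ F, ∑ j ∈ G, ind (Rl i j) * mn e e' R R' i j ≤
      (1 / √U0 + C * Lp ^ (-(δ / 16))) * (∑ i ∈ F, R i + ∑ j ∈ G, R' j) := by
  classical
  obtain ⟨C1, hC1, h1⟩ := same_late (A := A + 1) (by linarith)
  obtain ⟨C2, hC2, h2⟩ := diff_late (A := A + 1) (by linarith) hδ hδ1
  refine ⟨C1 + C2, by linarith, ?_⟩
  intro ι κ c Lp U0 F G e e' R R' ρ ρ' Rl hc hU0 hLp1 hSR hSR' hf hcG hRl hlac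
  have hLp0 : 0 < Lp := by linarith
  set S := ∑ i ∈ F, R i with hS
  set T := ∑ j ∈ G, R' j with hT
  have hS0 : 0 ≤ S := Finset.sum_nonneg hf.rF
  have hT0 : 0 ≤ T := Finset.sum_nonneg hf.rG
  set Fr : ℚ → Finset ι := fun r => F.filter fun i => ρ i = r with hFr
  set Gr : ℚ → Finset κ := fun r => G.filter fun j => ρ' j = r with hGr
  have hFrF : ∀ r, Fr r ⊆ F := fun r => Finset.filter_subset _ _
  have hGrG : ∀ r, Gr r ⊆ G := fun r => Finset.filter_subset _ _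
  have hmn : ∀ i ∈ F, ∀ j ∈ G, 0 ≤ mn e e' R R' i j := fun i hi j hj =>
    mn_nn hf.rF hf.rG hi hj
  have hSr0 : ∀ r, 0 ≤ ∑ i ∈ Fr r, R i := fun r => Finset.sum_nonneg fun i hi => hf.rF i (hFrF r hi)
  have hTr0 : ∀ r, 0 ≤ ∑ j ∈ Gr r, R' j := fun r => Finset.sum_nonneg fun j hj =>
    hf.rG j (hGrG r hj)
  -- one pair of labels
  have hone : ∀ r r' : ℚ, Lp ≤ r.den → ∀ g : ι → κ → Prop,
      (∀ i ∈ Fr r, ∀ j ∈ Gr r', g i j → Rl i j) → ∀ B : ℝ, 0 ≤ B →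
      (∀ (F' : Finset ι) (G' : Finset κ), F' ⊆ Fr r → G' ⊆ Gr r' →
        (F'.card : ℝ) ≤ KK r r' ^ (A + 1) → (G'.card : ℝ) ≤ KK r r' ^ (A + 1) →
        ∑ i ∈ F', ∑ j ∈ G', ind (g i j) * mn e e' R R' i j ≤
          B * (∑ i ∈ F', R i + ∑ j ∈ G', R' j)) →
      ∑ i ∈ Fr r, ∑ j ∈ Gr r', ind (g i j) * mn e e' R R' i j ≤
        B * (∑ i ∈ Fr r, R i + ∑ j ∈ Gr r', R' j) := by
    intro r r' hr g hgR B hB0 hB
    have hK1 := KK_one r r'
    have hK0 : 0 < KK r r' := by linarith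
    have hKL : Lp ≤ KK r r' := hr.trans (le_max_left _ _)
    have hKA : KK r r' ^ A * Lp ≤ KK r r' ^ (A + 1) := by
      rw [Real.rpow_add hK0, Real.rpow_one]
      exact mul_le_mul_of_nonneg_left hKL (by positivity)
    have hsub1 : ∑ i ∈ Fr r, R i ≤ Lp :=
      (Finset.sum_le_sum_of_subset_of_nonneg (hFrF r) fun i hi _ => hf.rF i hi).trans hSR
    have hsub2 : ∑ j ∈ Gr r', R' j ≤ Lp :=
      (Finset.sum_le_sum_of_subset_of_nonneg (hGrG r') fun i hi _ => hf.rG i hi).trans hSR'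
    set Flt := (Fr r).filter fun i => 1 ≤ KK r r' ^ A * R i with hFL
    set Glt := (Gr r').filter fun j => 1 ≤ KK r r' ^ A * R' j with hGL
    have k1 := hB Flt Glt (Finset.filter_subset _ _) (Finset.filter_subset _ _)
      ((card_late (fun i hi => hf.rF i (hFrF r hi)) (by positivity) hsub1).trans hKA)
      ((card_late (fun i hi => hf.rG i (hGrG r' hi)) (by positivity) hsub2).trans hKA)
    have k2 : ∑ i ∈ Fr r, ∑ j ∈ Gr r', ind (g i j) * mn e e' R R' i j =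
        ∑ i ∈ Flt, ∑ j ∈ Glt, ind (g i j) * mn e e' R R' i j := by
      have z0 : ∀ f : ι → ℝ, ∑ i ∈ Flt, f i =
          ∑ i ∈ Fr r, if 1 ≤ KK r r' ^ A * R i then f i else 0 := fun f =>
        Finset.sum_filter _ _
      have z1 : ∀ f : κ → ℝ, ∑ i ∈ Glt, f i =
          ∑ i ∈ Gr r', if 1 ≤ KK r r' ^ A * R' i then f i else 0 := fun f =>
        Finset.sum_filter _ _
      rw [z0]
      refine Finset.sum_congr rfl fun i hi => ?_
      split_ifs with h5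
      · rw [z1]
        refine Finset.sum_congr rfl fun j hj => ?_
        split_ifs with h6
        · rfl
        · rw [ind_f, zero_mul]
          intro h7
          have a1 := (hRl i (hFrF r hi) j (hGrG r' hj) (hgR i hi j hj h7)).2.2
          rw [(Finset.mem_filter.1 hi).2, (Finset.mem_filter.1 hj).2] at a1
          exact h6 a1
      · refine Finset.sum_eq_zero fun j hj => ?_
        rw [ind_f, zero_mul]
        intro h7
        have a1 := (hRl i (hFrF r hi) j (hGrG r' hj) (hgR i hi j hj h7)).2.1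
        rw [(Finset.mem_filter.1 hi).2, (Finset.mem_filter.1 hj).2] at a1
        exact h5 a1
    rw [k2]
    refine k1.trans (mul_le_mul_of_nonneg_left (add_le_add ?_ ?_) hB0)
    · exact Finset.sum_le_sum_of_subset_of_nonneg (Finset.filter_subset _ _)
        fun i hi _ => hf.rF i (hFrF r hi)
    · exact Finset.sum_le_sum_of_subset_of_nonneg (Finset.filter_subset _ _)
        fun i hi _ => hf.rG i (hGrG r' hi)
  have hVS : ∀ V ⊆ F.image ρ, ∑ r ∈ V, ∑ i ∈ Fr r, R i ≤ S := fun V hV => by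
    rw [hS, sum_fib ρ]
    exact Finset.sum_le_sum_of_subset_of_nonneg hV fun r _ _ => hSr0 r
  have hVT : ∀ V ⊆ G.image ρ', ∑ r ∈ V, ∑ j ∈ Gr r, R' j ≤ T := fun V hV => by
    rw [hT, sum_fib ρ']
    exact Finset.sum_le_sum_of_subset_of_nonneg hV fun r _ _ => hTr0 r
  -- the pairs with one label
  have hsame : ∑ i ∈ F, ∑ j ∈ G, ind (ρ' j = c * ρ i ∧ Rl i j) * mn e e' R R' i j ≤
      (1 / √U0 + C1 * Lp ^ (-(1 / 16) : ℝ)) * (S + T) := by
    set V : Finset ℚ := (F.image ρ).filter (fun r => Lp ≤ r.den) with hV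
    set B : ℝ := 1 / √U0 + C1 * Lp ^ (-(1 / 16) : ℝ) with hB
    have hB0 : 0 ≤ B := by positivity
    have e1 : ∑ i ∈ F, ∑ j ∈ G, ind (ρ' j = c * ρ i ∧ Rl i j) * mn e e' R R' i j ≤
        ∑ r ∈ V, ∑ i ∈ Fr r, ∑ j ∈ Gr (c * r), ind (ρ' j = c * ρ i ∧ Rl i j) *
          mn e e' R R' i j := by
      rw [sum_fib ρ, ← Finset.sum_filter_add_sum_filter_not (F.image ρ) (fun r => Lp ≤ r.den)]
      have z1 : ∑ r ∈ (F.image ρ).filter (fun r => ¬ Lp ≤ (r.den:ℝ)), ∑ i ∈ F.filter (fun i => ρ i = r),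
          ∑ j ∈ G, ind (ρ' j = c * ρ i ∧ Rl i j) * mn e e' R R' i j = 0 := by
        refine Finset.sum_eq_zero fun r hr => Finset.sum_eq_zero fun i hi =>
          Finset.sum_eq_zero fun j hj => ?_
        rw [ind_f, zero_mul]
        rintro ⟨-, h5⟩
        obtain ⟨hi1, hi2⟩ := Finset.mem_filter.1 hi
        have := (hRl i hi1 j hj h5).1.d1
        rw [hi2] at this
        exact (Finset.mem_filter.1 hr).2 this
      rw [z1, add_zero]
      refine Finset.sum_le_sum fun r hr => Finset.sum_le_sum fun i hi => ?_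
      have hi2 := (Finset.mem_filter.1 hi).2
      rw [← Finset.sum_filter_add_sum_filter_not G (fun j => ρ' j = c * r)]
      have z2 : ∑ j ∈ G.filter (fun j => ¬ ρ' j = c * r), ind (ρ' j = c * ρ i ∧ Rl i j) *
          mn e e' R R' i j = 0 := by
        refine Finset.sum_eq_zero fun j hj => ?_
        rw [ind_f, zero_mul]
        rintro ⟨h5, -⟩
        rw [hi2] at h5
        exact (Finset.mem_filter.1 hj).2 h5
      rw [z2, add_zero]
    have e2 : ∀ r ∈ V, ∑ i ∈ Fr r, ∑ j ∈ Gr (c * r), ind (ρ' j = c * ρ i ∧ Rl i j) *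
        mn e e' R R' i j ≤ B * (∑ i ∈ Fr r, R i + ∑ j ∈ Gr (c * r), R' j) := by
      intro r hr
      have hrd : Lp ≤ (r.den : ℝ) := (Finset.mem_filter.1 hr).2
      refine hone r (c * r) hrd (fun i j => ρ' j = c * ρ i ∧ Rl i j) (fun i hi j hj h => h.2) B hB0
        (fun F' G' hF' hG' hcF hcG' => ?_)
      have hKd : KK r (c * r) = r.den := by
        unfold KK
        refine max_eq_left ?_
        have := den_mul_le c r
        exact_mod_cast this
      rw [hKd] at hcF hcG'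
      have key := h1 ι κ c r.den U0 F' G' e e' R R' hc r.pos hU0 hcF hcG'
        (Fam.subG (hf.sub (hF'.trans (hFrF r))) (hG'.trans (hGrG _)))
        (fun j hj => hcG j (hGrG _ (hG' hj)))
      refine (Finset.sum_le_sum fun i hi => Finset.sum_le_sum fun j hj => ?_).trans
        (key.trans ?_)
      · refine mul_le_mul_of_nonneg_right ?_ (hmn i (hFrF r (hF' hi)) j (hGrG _ (hG' hj)))
        by_cases h5 : ρ' j = c * ρ i ∧ Rl i j
        · rw [ind_t h5, ind_t]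
          have hi1 := hFrF r (hF' hi)
          have hj1 := hGrG _ (hG' hj)
          have a1 := (hRl i hi1 j hj1 h5.2).1
          have e5 : ρ i = r := (Finset.mem_filter.1 (hF' hi)).2
          have e6 : ρ' j = c * r := (Finset.mem_filter.1 (hG' hj)).2
          have a2 := a1.co
          rw [e5, e6] at a2
          refine ⟨?_, co_cong a2⟩
          rcases a1.sp with a3 | a3
          · exact a3.2
          · exfalso
            rw [e5, e6] at a3
            have hcg := co_cong a2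
            have hcd' : ¬ c ∣ r.den := by
              intro hh
              have h8 : c ∣ (rd (e i) (e' j)).2 :=
                ((hcg.of_dvd hh).dvd_iff (dvd_refl c)).1 (dvd_mul_right _ _)
              exact hcG j hj1 (h8.trans (Nat.div_dvd_of_dvd (Nat.gcd_dvd_right _ _)))
            have hde := den_cop ((Nat.Prime.coprime_iff_not_dvd hc).2 hcd')
            rw [hKd, hde] at a3
            have b0 : (1:ℝ) < r.den := lt_of_lt_of_le hLp1 hrd
            have b2 : (1:ℝ) < (r.den:ℝ) ^ δ := Real.one_lt_rpow b0 hδ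
            rcases a3 with a3 | a3 <;> nlinarith
        · rw [ind_f h5]; exact ind_nn _
      · refine mul_le_mul_of_nonneg_right ?_ (add_nonneg
          (Finset.sum_nonneg fun i hi => hf.rF i (hFrF r (hF' hi)))
          (Finset.sum_nonneg fun j hj => hf.rG j (hGrG _ (hG' hj))))
        rw [hB]
        have b1 : (r.den : ℝ) ^ (-(1 / 16) : ℝ) ≤ Lp ^ (-(1 / 16) : ℝ) :=
          Real.rpow_le_rpow_of_nonpos hLp0 hrd (by norm_num)
        have b2 : 0 ≤ C1 := by linarith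
        have b3 := mul_le_mul_of_nonneg_left b1 b2
        linarith
    refine e1.trans ((Finset.sum_le_sum e2).trans ?_)
    rw [← Finset.mul_sum]
    refine mul_le_mul_of_nonneg_left ?_ hB0
    rw [Finset.sum_add_distrib]
    refine add_le_add (hVS V (Finset.filter_subset _ _)) ?_
    have hc0 : (c:ℚ) ≠ 0 := by exact_mod_cast hc.ne_zero
    have hinj : ∀ r ∈ V, ∀ r' ∈ V, (c:ℚ) * r = c * r' → r = r' := fun r _ r' _ h =>
      mul_left_cancel₀ hc0 h
    rw [← Finset.sum_image (f := fun r' => ∑ j ∈ Gr r', R' j) hinj]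
    set W := V.image fun r => (c:ℚ) * r with hW
    rw [← Finset.sum_filter_add_sum_filter_not W (fun r => r ∈ G.image ρ')]
    have z3 : ∑ r ∈ W.filter (fun r => ¬ r ∈ G.image ρ'), ∑ j ∈ Gr r, R' j = 0 := by
      refine Finset.sum_eq_zero fun r hr => Finset.sum_eq_zero fun j hj => ?_
      obtain ⟨h5, h6⟩ := Finset.mem_filter.1 hj
      exact absurd (h6 ▸ Finset.mem_image_of_mem ρ' h5) (Finset.mem_filter.1 hr).2
    rw [z3, add_zero]
    exact hVT _ fun r hr => (Finset.mem_filter.1 hr).2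
  -- the pairs with two labels
  have hdiff : ∑ i ∈ F, ∑ j ∈ G, ind (ρ' j ≠ c * ρ i ∧ Rl i j) * mn e e' R R' i j ≤
      C2 * Lp ^ (-(δ / 16)) * (S + T) := by
    rcases hlac with hl | ⟨hl1, hl2⟩
    · rw [Finset.sum_eq_zero]
      · positivity
      · intro i hi
        refine Finset.sum_eq_zero fun j hj => ?_
        rw [ind_f, zero_mul]
        rintro ⟨h5, h6⟩
        exact h5 (hl i hi j hj h6)
    set V : Finset ℚ := (F.image ρ).filter (fun r => Lp ≤ r.den) with hV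
    set V' : Finset ℚ := (G.image ρ').filter (fun r => Lp ≤ r.den) with hV'
    have e1 : ∑ i ∈ F, ∑ j ∈ G, ind (ρ' j ≠ c * ρ i ∧ Rl i j) * mn e e' R R' i j ≤
        ∑ r ∈ V, ∑ r' ∈ V', ∑ i ∈ Fr r, ∑ j ∈ Gr r', ind (ρ' j ≠ c * ρ i ∧ Rl i j) *
          mn e e' R R' i j := by
      rw [sum_fib ρ, ← Finset.sum_filter_add_sum_filter_not (F.image ρ) (fun r => Lp ≤ r.den)]
      have z1 : ∑ r ∈ (F.image ρ).filter (fun r => ¬ Lp ≤ (r.den:ℝ)), ∑ i ∈ F.filter (fun i => ρ i = r),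
          ∑ j ∈ G, ind (ρ' j ≠ c * ρ i ∧ Rl i j) * mn e e' R R' i j = 0 := by
        refine Finset.sum_eq_zero fun r hr => Finset.sum_eq_zero fun i hi =>
          Finset.sum_eq_zero fun j hj => ?_
        rw [ind_f, zero_mul]
        rintro ⟨-, h5⟩
        obtain ⟨hi1, hi2⟩ := Finset.mem_filter.1 hi
        have := (hRl i hi1 j hj h5).1.d1
        rw [hi2] at this
        exact (Finset.mem_filter.1 hr).2 this
      rw [z1, add_zero]
      refine Finset.sum_le_sum fun r hr => ?_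
      rw [Finset.sum_comm (s := V')]
      refine Finset.sum_le_sum fun i hi => ?_
      rw [sum_fib ρ', ← Finset.sum_filter_add_sum_filter_not (G.image ρ') (fun r => Lp ≤ r.den)]
      have z2 : ∑ r ∈ (G.image ρ').filter (fun r => ¬ Lp ≤ (r.den:ℝ)),
          ∑ j ∈ G.filter (fun j => ρ' j = r), ind (ρ' j ≠ c * ρ i ∧ Rl i j) *
          mn e e' R R' i j = 0 := by
        refine Finset.sum_eq_zero fun r hr => Finset.sum_eq_zero fun j hj => ?_
        rw [ind_f, zero_mul]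
        rintro ⟨-, h5⟩
        obtain ⟨hj1, hj2⟩ := Finset.mem_filter.1 hj
        have := (hRl i (Finset.mem_filter.1 hi).1 j hj1 h5).1.d2
        rw [hj2] at this
        exact (Finset.mem_filter.1 hr).2 this
      rw [z2, add_zero]
    set wt : ℚ → ℝ := fun r => (r.den : ℝ) ^ (-(δ / 16)) with hwt
    have hwt0 : ∀ r, 0 ≤ wt r := fun r => by positivity
    have hwL : ∀ r : ℚ, Lp ≤ r.den → wt r ≤ Lp ^ (-(δ / 16)) := fun r hr =>
      Real.rpow_le_rpow_of_nonpos hLp0 hr (by linarith)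
    have e2 : ∀ r ∈ V, ∀ r' ∈ V', ∑ i ∈ Fr r, ∑ j ∈ Gr r', ind (ρ' j ≠ c * ρ i ∧ Rl i j) *
        mn e e' R R' i j ≤ C2 * (wt r * wt r') * (∑ i ∈ Fr r, R i + ∑ j ∈ Gr r', R' j) := by
      intro r hr r' hr'
      have hrd : Lp ≤ (r.den : ℝ) := (Finset.mem_filter.1 hr).2
      have hrd' : Lp ≤ (r'.den : ℝ) := (Finset.mem_filter.1 hr').2
      have hK1 := KK_one r r'
      have hK0 : 0 < KK r r' := by linarith
      have hBle : C2 * KK r r' ^ (-(δ / 8)) ≤ C2 * (wt r * wt r') := by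
        refine mul_le_mul_of_nonneg_left ?_ (by linarith)
        have d1 : (0:ℝ) < r.den := by exact_mod_cast r.pos
        have d2 : (0:ℝ) < r'.den := by exact_mod_cast r'.pos
        have f1 : KK r r' ^ (-(δ / 16)) ≤ wt r :=
          Real.rpow_le_rpow_of_nonpos d1 (le_max_left _ _) (by linarith)
        have f2 : KK r r' ^ (-(δ / 16)) ≤ wt r' :=
          Real.rpow_le_rpow_of_nonpos d2 (le_max_right _ _) (by linarith)
        have f3 : KK r r' ^ (-(δ / 8)) = KK r r' ^ (-(δ / 16)) * KK r r' ^ (-(δ / 16)) := by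
          rw [← Real.rpow_add hK0]; congr 1; ring
        rw [f3]
        exact mul_le_mul f1 f2 (by positivity) (hwt0 r)
      by_cases hrat : KK r r' ^ δ * r.den ≤ r'.den ∨ KK r r' ^ δ * r'.den ≤ r.den
      · refine (hone r r' hrd (fun i j => ρ' j ≠ c * ρ i ∧ Rl i j) (fun i hi j hj h => h.2)
          (C2 * KK r r' ^ (-(δ / 8))) (by positivity) (fun F' G' hF' hG' hcF hcG' => ?_)).trans
          (mul_le_mul_of_nonneg_right hBle (add_nonneg (hSr0 r) (hTr0 r')))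
        have key := h2 ι κ r r' (KK r r') F' G' e e' R R' hK1 hrat hcF hcG'
          (Fam.subG (hf.sub (hF'.trans (hFrF r))) (hG'.trans (hGrG _)))
        refine (Finset.sum_le_sum fun i hi => Finset.sum_le_sum fun j hj => ?_).trans key
        refine mul_le_mul_of_nonneg_right ?_ (hmn i (hFrF r (hF' hi)) j (hGrG _ (hG' hj)))
        by_cases h5 : ρ' j ≠ c * ρ i ∧ Rl i j
        · rw [ind_t h5, ind_t]
          have a1 := (hRl i (hFrF r (hF' hi)) j (hGrG _ (hG' hj)) h5.2).1.co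
          have e5 : ρ i = r := (Finset.mem_filter.1 (hF' hi)).2
          have e6 : ρ' j = r' := (Finset.mem_filter.1 (hG' hj)).2
          rwa [e5, e6] at a1
        · rw [ind_f h5]; exact ind_nn _
      · rw [Finset.sum_eq_zero]
        · have a1 := hwt0 r
          have a2 := hwt0 r'
          have a3 := hSr0 r
          have a4 := hTr0 r'
          positivity
        · intro i hi
          refine Finset.sum_eq_zero fun j hj => ?_
          rw [ind_f, zero_mul]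
          rintro ⟨h5, h6⟩
          have a1 := (hRl i (hFrF r hi) j (hGrG _ hj) h6).1.sp
          have e5 : ρ i = r := (Finset.mem_filter.1 hi).2
          have e6 : ρ' j = r' := (Finset.mem_filter.1 hj).2
          rcases a1 with a1 | a1
          · exact h5 a1.1
          · rw [e5, e6] at a1
            exact hrat a1
    refine e1.trans ((Finset.sum_le_sum fun r hr => Finset.sum_le_sum fun r' hr' =>
      e2 r hr r' hr').trans ?_)
    have c1 : ∑ r ∈ V, ∑ r' ∈ V', C2 * (wt r * wt r') * (∑ i ∈ Fr r, R i + ∑ j ∈ Gr r', R' j) ≤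
        ∑ r ∈ V, ∑ r' ∈ V', (C2 * (Lp ^ (-(δ / 16)) * wt r') * (∑ i ∈ Fr r, R i) +
          C2 * (Lp ^ (-(δ / 16)) * wt r) * ∑ j ∈ Gr r', R' j) := by
      refine Finset.sum_le_sum fun r hr => Finset.sum_le_sum fun r' hr' => ?_
      have w1 := hwL r (Finset.mem_filter.1 hr).2
      have w2 := hwL r' (Finset.mem_filter.1 hr').2
      have m1 : wt r * wt r' ≤ Lp ^ (-(δ / 16)) * wt r' :=
        mul_le_mul_of_nonneg_right w1 (hwt0 r')
      have m2 : wt r * wt r' ≤ Lp ^ (-(δ / 16)) * wt r := by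
        rw [mul_comm (wt r)]
        exact mul_le_mul_of_nonneg_right w2 (hwt0 r)
      have hC20 : 0 ≤ C2 := by linarith
      rw [mul_add]
      exact add_le_add
        (mul_le_mul_of_nonneg_right (mul_le_mul_of_nonneg_left m1 hC20) (hSr0 r))
        (mul_le_mul_of_nonneg_right (mul_le_mul_of_nonneg_left m2 hC20) (hTr0 r'))
    refine c1.trans ?_
    simp only [Finset.sum_add_distrib]
    have hL0 : 0 ≤ Lp ^ (-(δ / 16)) := by positivity
    have hC20 : 0 ≤ C2 := by linarith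
    have p1 : ∑ r ∈ V, ∑ r' ∈ V', C2 * (Lp ^ (-(δ / 16)) * wt r') * (∑ i ∈ Fr r, R i) =
        C2 * Lp ^ (-(δ / 16)) * ((∑ r' ∈ V', wt r') * ∑ r ∈ V, ∑ i ∈ Fr r, R i) := by
      rw [Finset.sum_mul_sum, Finset.sum_comm, Finset.mul_sum]
      refine Finset.sum_congr rfl fun r' _ => ?_
      rw [Finset.mul_sum]
      refine Finset.sum_congr rfl fun r _ => ?_
      ring
    have p2 : ∑ r ∈ V, ∑ r' ∈ V', C2 * (Lp ^ (-(δ / 16)) * wt r) * ∑ j ∈ Gr r', R' j =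
        C2 * Lp ^ (-(δ / 16)) * ((∑ r ∈ V, wt r) * ∑ r' ∈ V', ∑ j ∈ Gr r', R' j) := by
      rw [Finset.sum_mul_sum, Finset.mul_sum]
      refine Finset.sum_congr rfl fun r' _ => ?_
      rw [Finset.mul_sum]
      refine Finset.sum_congr rfl fun r _ => ?_
      ring
    rw [p1, p2, ← mul_add]
    refine mul_le_mul_of_nonneg_left ?_ (mul_nonneg hC20 hL0)
    refine add_le_add ?_ ?_
    · calc (∑ r' ∈ V', wt r') * ∑ r ∈ V, ∑ i ∈ Fr r, R i ≤ 1 * S :=
            mul_le_mul hl2 (hVS V (Finset.filter_subset _ _))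
              (Finset.sum_nonneg fun r _ => hSr0 r) zero_le_one
        _ = S := one_mul _
    · calc (∑ r ∈ V, wt r) * ∑ r' ∈ V', ∑ j ∈ Gr r', R' j ≤ 1 * T :=
            mul_le_mul hl1 (hVT V' (Finset.filter_subset _ _))
              (Finset.sum_nonneg fun r _ => hTr0 r) zero_le_one
        _ = T := one_mul _
  -- the sum
  have hsum : ∀ i ∈ F, ∀ j ∈ G, ind (Rl i j) * mn e e' R R' i j =
      ind (ρ' j = c * ρ i ∧ Rl i j) * mn e e' R R' i j +
      ind (ρ' j ≠ c * ρ i ∧ Rl i j) * mn e e' R R' i j := by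
    intro i _ j _
    rw [← add_mul]
    congr 1
    by_cases h5 : Rl i j
    · by_cases h6 : ρ' j = c * ρ i
      · rw [ind_t h5, ind_t (⟨h6, h5⟩ : _ ∧ _), ind_f (fun h7 => h7.1 h6), add_zero]
      · rw [ind_t h5, ind_f (fun h7 => h6 h7.1), ind_t (⟨h6, h5⟩ : _ ∧ _), zero_add]
    · rw [ind_f h5, ind_f (fun h7 => h5 h7.2), ind_f (fun h7 => h5 h7.2), add_zero]
  rw [Finset.sum_congr rfl fun i hi => Finset.sum_congr rfl fun j hj => hsum i hi j hj]
  simp only [Finset.sum_add_distrib]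
  refine (add_le_add hsame hdiff).trans ?_
  have hM : 0 ≤ S + T := by positivity
  rw [← add_mul]
  refine mul_le_mul_of_nonneg_right ?_ hM
  have b1 : Lp ^ (-(1 / 16) : ℝ) ≤ Lp ^ (-(δ / 16)) :=
    Real.rpow_le_rpow_of_exponent_le hLp1.le (by linarith)
  have b2 : 0 ≤ C1 := by linarith
  have b3 := mul_le_mul_of_nonneg_left b1 b2
  linarith

/-- **energy of the relation of a tie** -/
theorem tie_energy {A δ : ℝ} (hA : 0 ≤ A) (hδ : 0 < δ) (hδ1 : δ ≤ 1) : ∃ C : ℝ, 1 ≤ C ∧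
    ∀ (ι κ : Type) (z c : ℕ) (Lp U0 : ℝ) (F : Finset ι) (G : Finset κ) (e : ι → ℕ) (e' : κ → ℕ)
    (R : ι → ℝ) (R' : κ → ℝ) (ρ : ι → ℚ) (ρ' : κ → ℚ) (Rl : ι → κ → Prop),
    2 ≤ z → c.Prime → 1 ≤ U0 → 1 ≤ Lp → (3 + Real.log z) ^ C ≤ Lp →
    ∑ i ∈ F, R i ≤ Lp → ∑ j ∈ G, R' j ≤ Lp →
    Fam F G e e' R R' → (∀ j ∈ G, ¬ c ∣ e' j) →
    (∀ i ∈ F, ∀ j ∈ G, Rl i j → RlT2 z c Lp U0 A δ e e' R R' ρ ρ' i j) →
    ((∀ i ∈ F, ∀ j ∈ G, Rl i j → ρ' j = c * ρ i) ∨
      (∑ r ∈ (F.image ρ).filter (fun r => Lp ≤ r.den), (r.den : ℝ) ^ (-(δ / 16)) ≤ 1 ∧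
        ∑ r ∈ (G.image ρ').filter (fun r => Lp ≤ r.den), (r.den : ℝ) ^ (-(δ / 16)) ≤ 1)) →
    ∑ i ∈ F, ∑ j ∈ G, ind (Rl i j) * mn e e' R R' i j ≤
      (3 / √U0 + C * Lp ^ (-(δ / 16))) * (∑ i ∈ F, R i + ∑ j ∈ G, R' j) := by
  classical
  obtain ⟨C1, hC1, h1⟩ := tie_one hA hδ hδ1
  obtain ⟨C2, hC2, h2⟩ := tie_both hA hδ hδ1
  refine ⟨C1 + C2, by linarith, ?_⟩
  intro ι κ z c Lp U0 F G e e' R R' ρ ρ' Rl hz hc hU0 hLp1 hzL hSR hSR' hf hcG hRl hlac
  have hlz : 0 ≤ Real.log z := Real.log_natCast_nonneg z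
  have h3z : (1:ℝ) ≤ 3 + Real.log z := by linarith
  have h3L : 1 < Lp := by
    have e1 : (3 + Real.log z) ^ (1:ℝ) ≤ Lp :=
      (Real.rpow_le_rpow_of_exponent_le h3z (by linarith)).trans hzL
    rw [Real.rpow_one] at e1
    linarith
  set Bo : ι → κ → Prop := fun i j => 1 ≤ KK (ρ i) (ρ' j) ^ A * R i ∧
    1 ≤ KK (ρ i) (ρ' j) ^ A * R' j with hBo
  have k1 := h1 ι κ z c Lp U0 F G e e' R R' ρ ρ' (fun i j => Rl i j ∧ ¬ Bo i j) hz hc hU0 hLp1
    ((Real.rpow_le_rpow_of_exponent_le h3z (by linarith)).trans hzL) hSR hSR' hf hcG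
    (fun i hi j hj h => by
      have a := hRl i hi j hj h.1
      rcases a.lt with b | b
      · exact absurd b h.2
      · exact ⟨⟨a.co, a.d1, a.d2, b.1, a.sp⟩, b.2⟩)
    (by
      rcases hlac with hl | hl
      · exact Or.inl fun i hi j hj h => hl i hi j hj h.1
      · exact Or.inr hl)
  have k2 := h2 ι κ c Lp U0 F G e e' R R' ρ ρ' (fun i j => Rl i j ∧ Bo i j) hc hU0 h3L hSR hSR'
    hf hcG
    (fun i hi j hj h => by
      have a := hRl i hi j hj h.1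
      exact ⟨⟨a.co, a.d1, a.d2, Or.inl h.2.1, a.sp⟩, h.2⟩)
    (by
      rcases hlac with hl | hl
      · exact Or.inl fun i hi j hj h => hl i hi j hj h.1
      · exact Or.inr hl)
  have hsum : ∀ i ∈ F, ∀ j ∈ G, ind (Rl i j) * mn e e' R R' i j =
      ind (Rl i j ∧ ¬ Bo i j) * mn e e' R R' i j + ind (Rl i j ∧ Bo i j) * mn e e' R R' i j := by
    intro i _ j _
    rw [← add_mul]
    congr 1
    by_cases h5 : Rl i j
    · by_cases h6 : Bo i j
      · rw [ind_t h5, ind_f (fun h7 => h7.2 h6), ind_t (⟨h5, h6⟩ : _ ∧ _), zero_add]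
      · rw [ind_t h5, ind_t (⟨h5, h6⟩ : _ ∧ _), ind_f (fun h7 => h6 h7.2), add_zero]
    · rw [ind_f h5, ind_f (fun h7 => h5 h7.1), ind_f (fun h7 => h5 h7.1), add_zero]
  rw [Finset.sum_congr rfl fun i hi => Finset.sum_congr rfl fun j hj => hsum i hi j hj]
  simp only [Finset.sum_add_distrib]
  refine (add_le_add k1 k2).trans (le_of_eq ?_)
  rw [← add_mul]
  ring

end tie

end Crest.Agent.R4P.RtF28
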