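import Crest.Agent.R4P.RtP_28

/-!
R4 (S0004), powers pass, helper28: **P|N pairs of an arbitrary column relation** : from the item pairs
of one P-chain in one block of columns to the whole walk.

* `R : ℕ → Finset (Lam × Lam)` : pairs of pieces related at the column.
* `PNg, pG, PG` : pairs separated by a tie, their energy (weight `1/p`), item pair by item pair.
* `linkG` : a pair of items with a nonzero separated pair, on the circle of the node.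
* `pG_le` : energy of an item pair from a relation `|(a + C) cof - (a' + C') cof'| ≤ δ` of the windows on
  the circle of the node.
* `FG, HG` : energies of one P-chain, columns `≥ P`; **`FG_spec`** : the tie node of an item pair.
* **`HG_le`** : `HG ≤ ∑ bd e` over the item pairs with `Rel e`.
* `GW`, `blkB` : the whole tree; **`walkG`** : one P-chain in one block `≤ (log P)^(-s') mass` gives
  `(log p0)^(-A') mass` for the weights `(log p)^s`.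
* `KR R s` : the kernel; **`pn_eqG`**, **`pn_rootG`** : root bound of `PrD45.pn (KR R s)`.
-/

set_option autoImplicit false
set_option linter.unusedSectionVars false
set_option linter.unusedVariables false

open MeasureTheory Filter

namespace Crest.Agent.R4P.RtG28

open Crest.Agent.R4P.Cnt588 Crest.Agent.R4P.Item758 Crest.Agent.R4P.W363
open Crest.Agent.R4P.Data758 Crest.Agent.R4P.OmSt532 Crest.Agent.R4P.OmData532
open Crest.Agent.R4P.LfDat734 Crest.Agent.R4P.WPex189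
open Crest.Agent.R4P.Bld532 (NS All NodeOk Bk)
open Crest.Agent.R4P.Step588 (NDt ND1 ctx_NDt uq_lt)
open Crest.Agent.R4P.WalkIT579 (tp isL nodeOk_hi top_of_nodeOk)
open Crest.Agent.R4P.Skel189 Crest.Agent.R4P.RseSt23 Crest.Agent.R4P.RseNd23
open Crest.Agent.R4P.RtC28 (TF tF conv_rel tp_le log_two_mul Q_eq_sum iF_ne cof1 cof2 UP UN)
open Crest.Agent.R4.HVW560 (cof)
open Crest.Agent.R4.AvgItem710 (Dp mul_cof mul_cof' cof_pos cof_coprime exists_of_I_ne)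
open Crest.Agent.R4P.AvgItem710
open Crest.Agent.R4.ClosL758 Crest.Agent.R4.ClosR758 Crest.Agent.R4.Tour104 Crest.Agent.R4.Fam464
open Crest.Agent.R4.Tour758 Crest.Agent.R4.Avg758
open Crest.Agent.R4P.Frame758
open Crest.Agent.R4.Soft104 (w)
open Crest.Agent.R4
open Crest.Agent.R4P.RtS28 (Mn Mn_nonneg Mn_br Ws_union SS SS_nonneg SS_mono SS_succ SS_block
  dyadic)
open Crest.Agent.R4P.RtP28 (dt_val)
open Crest.Agent.R4P.JnE5 (Ker bil)
open Crest.Agent.R4P.PrD45 (pn)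
open Crest.Agent.R4P.Fin5 (CF)

section ctx
variable {N : Skel189.Num} {γ : ℝ} {p0 P₀ : ℕ}

/-- pairs of pieces related at the column, separated by a tie: the first is present, the second is
missing -/
noncomputable def PNg {X : Ctx N γ p0 P₀} (R : ℕ → Finset (X.c.Lam × X.c.Lam)) (p : ℕ) (t₁ t₀ : IT) :
    Finset (X.c.Lam × X.c.Lam) :=
  (R p).filter fun x => x.1.1.1 ∈ t₁.items ∧ x.2.1.1 ∈ t₀.items

/-- energy of the separated pairs at a tie, one pair of items -/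
noncomputable def pG {X : Ctx N γ p0 P₀} (R : ℕ → Finset (X.c.Lam × X.c.Lam))
    (Y : Finset (ℕ × ℕ × Finset ℕ)) (A : Finset X.c.Lam) (u : NS) (p : ℕ) (t₁ t₀ : IT) (e : ℕ × ℕ) : ℝ :=
  1 / (p : ℝ) * (X.c.D.par Y).iF (PNg R p t₁ t₀) (UP X Y u p t₁ A) (UN X Y u p t₀ A) e

/-- **energy of the separated pairs at a tie** (weight `1/p`, circle of the children) -/
noncomputable def PG {X : Ctx N γ p0 P₀} (R : ℕ → Finset (X.c.Lam × X.c.Lam))
    (Y : Finset (ℕ × ℕ × Finset ℕ)) (A : Finset X.c.Lam) (u : NS) (p : ℕ) (t₁ t₀ : IT) : ℝ :=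
  1 / (p : ℝ) * Q (PNg R p t₁ t₀) (UP X Y u p t₁ A) (UN X Y u p t₀ A)

variable {X : Ctx N γ p0 P₀} {R : ℕ → Finset (X.c.Lam × X.c.Lam)} {Y : Finset (ℕ × ℕ × Finset ℕ)}
  {A : Finset X.c.Lam} {P : ℕ} {u : NS} {p : ℕ} {Sp : Finset ℕ} {t₁ t₀ : IT}

lemma mem_PNg {x : X.c.Lam × X.c.Lam} : x ∈ PNg R p t₁ t₀ ↔ x ∈ R p ∧
    x.1.1.1 ∈ t₁.items ∧ x.2.1.1 ∈ t₀.items := by
  unfold PNg
  rw [Finset.mem_filter]

/-- **a pair of items with a nonzero separated pair of pieces**, on the circle of the node -/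
theorem link (h : NDt X.par (w X.ψ) X.c.t u (.br p Sp t₁ t₀)) {e : ℕ × ℕ}
    (he : e ∈ (X.c.D.par Y).PE (PNg R p t₁ t₀) (UP X Y u p t₁ A) (UN X Y u p t₀ A)) :
    ∃ j j' : X.c.Lam, j ∈ A ∧ j' ∈ A ∧ e = (j.1.1, j'.1.1) ∧ j.1.1 ∈ t₁.items ∧ j'.1.1 ∈ t₀.items ∧
      (j, j') ∈ R p ∧
      ∃ (y : ℝ) (a a' : ℤ),
        X.c.om j.1.1 (X.c.bp j.1.1 j.1.2) ((mp (.br p Sp t₁ t₀) j.1.1 : ℕ) * a) ≠ 0 ∧
        X.c.om j'.1.1 (X.c.bp j'.1.1 j'.1.2) ((mp (.br p Sp t₁ t₀) j'.1.1 : ℕ) * a') ≠ 0 ∧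
        (u.B : ℝ) / (1 : ℕ) * X.c.bp j.1.1 j.1.2 ≤
          ((j.1.1 / u.A : ℕ) : ℝ) * y - (u.B : ℝ) / (1 : ℕ) * X.c.γ - a ∧
        ((j.1.1 / u.A : ℕ) : ℝ) * y - (u.B : ℝ) / (1 : ℕ) * X.c.γ - a <
          (u.B : ℝ) / (1 : ℕ) * X.c.bp j.1.1 (j.1.2 + 1) ∧
        (u.B : ℝ) / (1 : ℕ) * X.c.bp j'.1.1 j'.1.2 ≤
          ((j'.1.1 / u.A : ℕ) : ℝ) * y - (u.B : ℝ) / (1 : ℕ) * X.c.γ - a' ∧
        ((j'.1.1 / u.A : ℕ) : ℝ) * y - (u.B : ℝ) / (1 : ℕ) * X.c.γ - a' <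
          (u.B : ℝ) / (1 : ℕ) * X.c.bp j'.1.1 (j'.1.2 + 1) := by
  have F := tF h
  obtain ⟨j, j', hR, hI, e1, e2⟩ := Par.mem_PE.1 he
  obtain ⟨x, y1, y2⟩ := exists_of_I_ne hI
  have hA : j ∈ A := by
    by_contra hc
    exact y1 (congrFun (rv_of_not_mem
      (f := fun j => ((X.c.D.par Y).toFT u.B (u.A * p) t₁).U 1 j) hc) x)
  have hA' : j' ∈ A := by
    by_contra hc
    exact y2 (congrFun (rv_of_not_mem
      (f := fun j => ((X.c.D.par Y).toFT (u.B * p) u.A t₀).U 1 j) hc) x)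
  have y1' : ((X.c.D.par Y).toFT u.B (u.A * p) t₁).U 1 j x ≠ 0 := by
    have e := congrFun (rv_of_mem
      (f := fun j => ((X.c.D.par Y).toFT u.B (u.A * p) t₁).U 1 j) hA) x
    intro h0
    exact y1 (e.trans h0)
  have y2' : ((X.c.D.par Y).toFT (u.B * p) u.A t₀).U 1 j' x ≠ 0 := by
    have e := congrFun (rv_of_mem
      (f := fun j => ((X.c.D.par Y).toFT (u.B * p) u.A t₀).U 1 j) hA') x
    intro h0
    exact y2 (e.trans h0)
  obtain ⟨m1, a, o1, l1, l2⟩ := Par.supp _ F.b0 F.f1 (F.w1 Y) (one_dvd _) y1'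
  obtain ⟨m2, a', o2, l3, l4⟩ := Par.supp _ (Nat.mul_pos F.b0 F.pr.pos) F.f0 (F.w0 Y) (one_dvd _) y2'
  have m1' : j.1.1 ∈ t₁.items := m1
  have m2' : j'.1.1 ∈ t₀.items := m2
  obtain ⟨y, i, a3, h3, k1, k2, k3, k4⟩ := F.conv m1' m2' l1 l2 l3 l4
  rw [mem_PNg] at hR
  refine ⟨j, j', hA, hA', Prod.ext e1.symm e2.symm, m1', m2', hR.1, y, _, _, ?_, ?_,
    k1, k2, k3, k4⟩
  · -- the weight of the present piece
    rw [one_mul] at o1
    have hn0 : j.1.1 ∉ t₀.items := fun h0 => Finset.disjoint_left.1 F.ds m1' h0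
    have em : mp (.br p Sp t₁ t₀) j.1.1 = mp t₁ j.1.1 := by
      show (if _ then _ else _) = _
      rw [if_neg hn0]
    rw [em]
    have hw := F.w1 Y j m1
    have hd : ((X.c.D.par Y).it j / (u.A * p * pp t₁ ((X.c.D.par Y).it j))) ∣
        ((X.c.D.par Y).it j / (u.A * p)) := by
      refine div_dvd_div' ?_ (pp_dvd F.f1 _ m1)
      exact (F.f1.item _ m1).1
    obtain ⟨v, hv⟩ := hd
    have hv' : j.1.1 / (u.A * p) = (j.1.1 / (u.A * p * pp t₁ j.1.1)) * v := hv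
    have key := hw.add_mul (((mp t₁ j.1.1 : ℕ) : ℤ) * a) ((mp t₁ j.1.1 : ℕ) * v * i)
    have e4 : (((mp t₁ j.1.1 : ℕ) : ℤ) * (a + (j.1.1 / (u.A * p) : ℕ) * i)) =
        ((mp t₁ j.1.1 : ℕ) : ℤ) * a + ((j.1.1 / (u.A * p * pp t₁ j.1.1) : ℕ) : ℤ) *
          ((mp t₁ j.1.1 : ℕ) * v * i) := by
      rw [hv']; push_cast; ring
    rw [e4]
    intro h0
    exact o1 (key.symm.trans h0)
  · -- the weight of the missing piece
    rw [one_mul] at o2
    have em : mp (.br p Sp t₁ t₀) j'.1.1 = p * mp t₀ j'.1.1 := by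
      show (if _ then _ else _) = _
      rw [if_pos m2']
    rw [em]
    have hw := F.w0 Y j' m2
    have hd : ((X.c.D.par Y).it j' / (u.A * pp t₀ ((X.c.D.par Y).it j'))) ∣
        ((X.c.D.par Y).it j' / u.A) := by
      refine div_dvd_div' ?_ (pp_dvd F.f0 _ m2)
      exact (F.f0.item _ m2).1
    obtain ⟨v, hv⟩ := hd
    have hv' : j'.1.1 / u.A = (j'.1.1 / (u.A * pp t₀ j'.1.1)) * v := hv
    have key := hw.add_mul (((mp t₀ j'.1.1 : ℕ) : ℤ) * a') ((mp t₀ j'.1.1 : ℕ) * v * i)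
    have e4 : (((p * mp t₀ j'.1.1 : ℕ) : ℤ) * a3) =
        ((mp t₀ j'.1.1 : ℕ) : ℤ) * a' + ((j'.1.1 / (u.A * pp t₀ j'.1.1) : ℕ) : ℤ) *
          ((mp t₀ j'.1.1 : ℕ) * v * i) := by
      have e5 : (((p * mp t₀ j'.1.1 : ℕ) : ℤ) * a3) = ((mp t₀ j'.1.1 : ℕ) : ℤ) * ((p:ℤ) * a3) := by
        push_cast; ring
      rw [e5, h3, hv']; push_cast; ring
    rw [e4]
    intro h0
    exact o2 (key.symm.trans h0)

/-- **energy of a separated pair of items**, from a relation on the circle of the node -/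
theorem pG_le (h : NDt X.par (w X.ψ) X.c.t u (.br p Sp t₁ t₀)) {e : ℕ × ℕ}
    (h1 : e.1 ∈ t₁.items) (h2 : e.2 ∈ t₀.items) {C C' δ : ℝ} (hδ : 0 ≤ δ)
    (hrel : ∀ x ∈ PNg R p t₁ t₀, x.1 ∈ A → x.2 ∈ A → x.1.1.1 = e.1 → x.2.1.1 = e.2 →
      ∀ (y : ℝ) (a a' : ℤ),
      (u.B : ℝ) / (1 : ℕ) * X.c.bp x.1.1.1 x.1.1.2 ≤
        ((e.1 / u.A : ℕ) : ℝ) * y - (u.B : ℝ) / (1 : ℕ) * X.c.γ - a →
      ((e.1 / u.A : ℕ) : ℝ) * y - (u.B : ℝ) / (1 : ℕ) * X.c.γ - a <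
        (u.B : ℝ) / (1 : ℕ) * X.c.bp x.1.1.1 (x.1.1.2 + 1) →
      (u.B : ℝ) / (1 : ℕ) * X.c.bp x.2.1.1 x.2.1.2 ≤
        ((e.2 / u.A : ℕ) : ℝ) * y - (u.B : ℝ) / (1 : ℕ) * X.c.γ - a' →
      ((e.2 / u.A : ℕ) : ℝ) * y - (u.B : ℝ) / (1 : ℕ) * X.c.γ - a' <
        (u.B : ℝ) / (1 : ℕ) * X.c.bp x.2.1.1 (x.2.1.2 + 1) →
      |((a:ℝ) + C) * (cof (e.2 / u.A) (e.1 / u.A) : ℕ) -
        (a' + C') * (cof (e.1 / u.A) (e.2 / u.A) : ℕ)| ≤ δ) :
    pG R Y A u p t₁ t₀ e ≤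
      2 * ((RB X u e.1 * RB X u e.2) / DA u.A (RB X u) e) * (2 * δ + 1) := by
  have F := tF h
  have hp0 : (0:ℝ) < p := by exact_mod_cast F.pr.pos
  have key := PairR23.iF_rel_le (D := X.c.D.par Y) (ρ := X.c.rr) (b := u.B) (pr := u.A * p) (c := 1)
    (b' := u.B * p) (pr' := u.A) (c' := 1) (t := t₁) (t' := t₀) (A := A) (A' := A)
    (X.ok.rad Y) F.b0
    (Nat.mul_pos F.b0 F.pr.pos) F.f1 F.f0 (F.w1 Y) (F.w0 Y) (one_dvd _) (one_dvd _)
    (PNg R p t₁ t₀) e h1 h2 (C := C) (C' := p * C') (δ := δ) hδ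
    (fun x hx a1 a2 i1 i2 y a a' l1 l2 l3 l4 => by
      obtain ⟨y', i, a3, h3, k1, k2, k3, k4⟩ := F.conv h1 h2 l1 l2 l3 l4
      have r := hrel x hx a1 a2 i1 i2 y' _ _ k1 k2 k3 k4
      rw [F.div1 h1, conv_rel F.pr (F.d0 _ h2).2.2 h3 C C'] at r
      exact r)
  unfold pG
  have eD : Dp (e.1 / (u.A * p)) (e.2 / u.A) ((u.B : ℝ) / (1 : ℕ) * X.c.rr e.1)
      (((u.B * p : ℕ) : ℝ) / (1 : ℕ) * X.c.rr e.2) = DA u.A (RB X u) e := by
    unfold DA Crest.Agent.R4.AvgItem710.Dp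
    rw [F.div1 h1, cof1 F.pr (F.d0 _ h2).2.2, cof2 F.pr (F.d0 _ h2).2.2]
    push_cast
    congr 1
    · rw [div_one]
    · rw [div_one]; ring
  rw [eD] at key
  have hpm := mul_le_mul_of_nonneg_left key (by positivity : (0:ℝ) ≤ 1 / (p:ℝ))
  refine hpm.trans (le_of_eq ?_)
  show 1 / (p:ℝ) * (2 * ((u.B : ℝ) / (1 : ℕ) * X.c.rr e.1 *
    (((u.B * p : ℕ) : ℝ) / (1 : ℕ) * X.c.rr e.2) / DA u.A (RB X u) e) * (2 * δ + 1)) =
    2 * ((((u.B : ℝ) * X.c.rr e.1) * ((u.B : ℝ) * X.c.rr e.2)) / DA u.A (RB X u) e) * (2 * δ + 1)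
  push_cast
  field_simp

/-! ### the P-chain of a node -/

/-- energy of a pair of items at the tie of the P-chain which separates it, columns `≥ P` -/
noncomputable def FG {X : Ctx N γ p0 P₀} (R : ℕ → Finset (X.c.Lam × X.c.Lam))
    (Y : Finset (ℕ × ℕ × Finset ℕ)) (A : Finset X.c.Lam) (P : ℕ) : NS → IT → ℕ × ℕ → ℝ
  | _, .leaf _, _ => 0
  | u, .br p _ t₁ t₀, e => (if P ≤ p then pG R Y A u p t₁ t₀ e else 0) +
      FG R Y A P ⟨p, u.c / (1 - 1 / (p : ℝ)), u.A * p, u.B⟩ t₁ e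
  | u, .add b t₁ t₀, e => FG R Y A P ⟨b + 1, u.c, u.A, u.B⟩ t₁ e +
      FG R Y A P ⟨b + 1, u.c, u.A, u.B⟩ t₀ e
  | u, .up b _ t, e => FG R Y A P ⟨b, u.c, u.A, u.B⟩ t e
  | u, .pl b t, e => FG R Y A P ⟨b + 1, u.c, u.A * b, u.B⟩ t e
  | u, .far b t₁ t₀, e => FG R Y A P ⟨b + 1, u.c, u.A, u.B⟩ t₁ e +
      FG R Y A P ⟨b + 1, u.c, u.A, u.B⟩ t₀ e

/-- **energy of the ties of the P-chain** of a node, columns `≥ P` -/
noncomputable def HG {X : Ctx N γ p0 P₀} (R : ℕ → Finset (X.c.Lam × X.c.Lam))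
    (Y : Finset (ℕ × ℕ × Finset ℕ)) (A : Finset X.c.Lam) (P : ℕ) : NS → IT → ℝ
  | _, .leaf _ => 0
  | u, .br p _ t₁ t₀ => (if P ≤ p then PG R Y A u p t₁ t₀ else 0) +
      HG R Y A P ⟨p, u.c / (1 - 1 / (p : ℝ)), u.A * p, u.B⟩ t₁
  | u, .add b t₁ t₀ => HG R Y A P ⟨b + 1, u.c, u.A, u.B⟩ t₁ +
      HG R Y A P ⟨b + 1, u.c, u.A, u.B⟩ t₀
  | u, .up b _ t => HG R Y A P ⟨b, u.c, u.A, u.B⟩ t
  | u, .pl b t => HG R Y A P ⟨b + 1, u.c, u.A * b, u.B⟩ t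
  | u, .far b t₁ t₀ => HG R Y A P ⟨b + 1, u.c, u.A, u.B⟩ t₁ +
      HG R Y A P ⟨b + 1, u.c, u.A, u.B⟩ t₀

lemma pG_ne {e : ℕ × ℕ} (h : pG R Y A u p t₁ t₀ e ≠ 0) :
    e.1 ∈ t₁.items ∧ e.2 ∈ t₀.items ∧
      e ∈ (X.c.D.par Y).PE (PNg R p t₁ t₀) (UP X Y u p t₁ A) (UN X Y u p t₀ A) := by
  have h1 : (X.c.D.par Y).iF (PNg R p t₁ t₀) (UP X Y u p t₁ A) (UN X Y u p t₀ A) e ≠ 0 :=
    right_ne_zero_of_mul h
  have h2 := iF_ne h1
  obtain ⟨j, j', h3, h4, h5, h6⟩ := Par.mem_PE.1 h2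
  rw [mem_PNg] at h3
  have h5' : j.1.1 = e.1 := h5
  have h6' : j'.1.1 = e.2 := h6
  exact ⟨h5' ▸ h3.2.1, h6' ▸ h3.2.2, h2⟩

lemma pG_nonneg (F : TF X u p t₁ t₀) (e : ℕ × ℕ) : 0 ≤ pG R Y A u p t₁ t₀ e := by
  unfold pG
  refine mul_nonneg (by positivity) (Par.iF_nonneg _ _ (fun j y => F.UP_nonneg j y)
    (fun j y => F.UN_nonneg j y) e)

/-- support of `FF` -/
lemma FG_supp : ∀ (τ : IT) (u : NS) (e : ℕ × ℕ), FG R Y A P u τ e ≠ 0 →
    e.1 ∈ τ.items ∧ e.2 ∈ τ.items := by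
  intro τ
  induction τ with
  | leaf S => intro u e h; exact absurd rfl h
  | br p Sp t₁ t₀ ih₁ ih₀ =>
    intro u e h
    by_cases h1 : FG R Y A P ⟨p, u.c / (1 - 1 / (p : ℝ)), u.A * p, u.B⟩ t₁ e = 0
    · have h2 : (if P ≤ p then pG R Y A u p t₁ t₀ e else 0) ≠ 0 := by
        intro h3
        apply h
        show (if P ≤ p then pG R Y A u p t₁ t₀ e else 0) + _ = 0
        rw [h3, h1, add_zero]
      split_ifs at h2 with h3
      · obtain ⟨g1, g2, -⟩ := pG_ne h2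
        exact ⟨Finset.mem_union_left _ g1, Finset.mem_union_right _ g2⟩
      · exact absurd rfl h2
    · obtain ⟨g1, g2⟩ := ih₁ _ e h1
      exact ⟨Finset.mem_union_left _ g1, Finset.mem_union_left _ g2⟩
  | add b t₁ t₀ ih₁ ih₀ =>
    intro u e h
    by_cases h1 : FG R Y A P ⟨b + 1, u.c, u.A, u.B⟩ t₁ e = 0
    · have h2 : FG R Y A P ⟨b + 1, u.c, u.A, u.B⟩ t₀ e ≠ 0 := by
        intro h3
        apply h
        show FG R Y A P ⟨b + 1, u.c, u.A, u.B⟩ t₁ e + FG R Y A P ⟨b + 1, u.c, u.A, u.B⟩ t₀ e = 0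
        rw [h3, h1, add_zero]
      obtain ⟨g1, g2⟩ := ih₀ _ e h2
      exact ⟨Finset.mem_union_right _ g1, Finset.mem_union_right _ g2⟩
    · obtain ⟨g1, g2⟩ := ih₁ _ e h1
      exact ⟨Finset.mem_union_left _ g1, Finset.mem_union_left _ g2⟩
  | up b Sp t ih => intro u e h; exact ih _ e h
  | pl b t ih => intro u e h; exact ih _ e h
  | far b t₁ t₀ ih₁ ih₀ =>
    intro u e h
    by_cases h1 : FG R Y A P ⟨b + 1, u.c, u.A, u.B⟩ t₁ e = 0
    · have h2 : FG R Y A P ⟨b + 1, u.c, u.A, u.B⟩ t₀ e ≠ 0 := by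
        intro h3
        apply h
        show FG R Y A P ⟨b + 1, u.c, u.A, u.B⟩ t₁ e + FG R Y A P ⟨b + 1, u.c, u.A, u.B⟩ t₀ e = 0
        rw [h3, h1, add_zero]
      obtain ⟨g1, g2⟩ := ih₀ _ e h2
      exact ⟨Finset.mem_union_right _ g1, Finset.mem_union_right _ g2⟩
    · obtain ⟨g1, g2⟩ := ih₁ _ e h1
      exact ⟨Finset.mem_union_left _ g1, Finset.mem_union_left _ g2⟩

/-- the node of a value of `FF` -/
structure SG {X : Ctx N γ p0 P₀} (R : ℕ → Finset (X.c.Lam × X.c.Lam))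
    (Y : Finset (ℕ × ℕ × Finset ℕ)) (A : Finset X.c.Lam) (P : ℕ) (u : NS) (τ : IT) (e : ℕ × ℕ) (u' : NS) (p : ℕ) (Sp : Finset ℕ) (t₁ t₀ : IT) : Prop where
  nf : NF X u' (.br p Sp t₁ t₀)
  hB : u'.B = u.B
  hP : P ≤ p
  htp : p ≤ WalkIT579.tp τ
  sub : (IT.br p Sp t₁ t₀).items ⊆ τ.items
  e1 : e.1 ∈ t₁.items
  e2 : e.2 ∈ t₀.items
  pe : e ∈ (X.c.D.par Y).PE (PNg R p t₁ t₀) (UP X Y u' p t₁ A) (UN X Y u' p t₀ A)
  eq : FG R Y A P u τ e = pG R Y A u' p t₁ t₀ e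

/-- **the node of a value of `FF`** -/
theorem FG_spec : ∀ (τ : IT) (u : NS), All (NF X) u τ → ∀ e : ℕ × ℕ, FG R Y A P u τ e ≠ 0 →
    ∃ (u' : NS) (p : ℕ) (Sp : Finset ℕ) (t₁ t₀ : IT), SG R Y A P u τ e u' p Sp t₁ t₀ := by
  intro τ
  induction τ with
  | leaf S => intro u h e h0; exact absurd rfl h0
  | br p Sp t₁ t₀ ih₁ ih₀ =>
    intro u h e h0
    have hO := h.1.nd.self.ok
    have F := tF h.1.nd
    by_cases h1 : FG R Y A P ⟨p, u.c / (1 - 1 / (p : ℝ)), u.A * p, u.B⟩ t₁ e = 0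
    · have h2 : (if P ≤ p then pG R Y A u p t₁ t₀ e else 0) ≠ 0 := by
        intro h3
        apply h0
        show (if P ≤ p then pG R Y A u p t₁ t₀ e else 0) + _ = 0
        rw [h3, h1, add_zero]
      split_ifs at h2 with h3
      · obtain ⟨g1, g2, g3⟩ := pG_ne h2
        refine ⟨u, p, Sp, t₁, t₀, h.1, rfl, h3, le_rfl, Finset.Subset.refl _, g1, g2, g3, ?_⟩
        show (if P ≤ p then pG R Y A u p t₁ t₀ e else 0) + _ = _
        rw [if_pos h3, h1, add_zero]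
      · exact absurd rfl h2
    · obtain ⟨u', p', Sp', s₁, s₀, S⟩ := ih₁ _ h.2.1 e h1
      obtain ⟨m1, m2⟩ := FG_supp t₁ _ e h1
      refine ⟨u', p', Sp', s₁, s₀, S.nf, S.hB, S.hP, ?_, ?_, S.e1, S.e2, S.pe, ?_⟩
      · have := tp_le hO.2.2.2.2.1 (S := 0) F.pr.pos
        exact S.htp.trans this.le
      · exact S.sub.trans (Finset.subset_union_left)
      · have h3 : (if P ≤ p then pG R Y A u p t₁ t₀ e else 0) = 0 := by
          split_ifs with h4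
          · by_contra h5
            obtain ⟨-, g2, -⟩ := pG_ne h5
            exact Finset.disjoint_left.1 F.ds m2 g2
          · rfl
        show (if P ≤ p then pG R Y A u p t₁ t₀ e else 0) + _ = _
        rw [h3, zero_add]
        exact S.eq
  | add b t₁ t₀ ih₁ ih₀ =>
    intro u h e h0
    have hO := h.1.nd.self.ok
    have hds : Disjoint t₁.items t₀.items := hO.2.2.1
    by_cases h1 : FG R Y A P ⟨b + 1, u.c, u.A, u.B⟩ t₁ e = 0
    · have h2 : FG R Y A P ⟨b + 1, u.c, u.A, u.B⟩ t₀ e ≠ 0 := by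
        intro h3
        apply h0
        show FG R Y A P ⟨b + 1, u.c, u.A, u.B⟩ t₁ e + FG R Y A P ⟨b + 1, u.c, u.A, u.B⟩ t₀ e = 0
        rw [h3, h1, add_zero]
      obtain ⟨u', p', Sp', s₁, s₀, S⟩ := ih₀ _ h.2.2 e h2
      refine ⟨u', p', Sp', s₁, s₀, S.nf, S.hB, S.hP, ?_, S.sub.trans (Finset.subset_union_right),
        S.e1, S.e2, S.pe, ?_⟩
      · have := tp_le hO.2.2.2.2 (S := 0) (Nat.succ_pos b)
        exact S.htp.trans (Nat.lt_succ_iff.1 this)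
      · show FG R Y A P ⟨b + 1, u.c, u.A, u.B⟩ t₁ e + FG R Y A P ⟨b + 1, u.c, u.A, u.B⟩ t₀ e = _
        rw [h1, zero_add]
        exact S.eq
    · obtain ⟨u', p', Sp', s₁, s₀, S⟩ := ih₁ _ h.2.1 e h1
      obtain ⟨m1, m2⟩ := FG_supp t₁ _ e h1
      refine ⟨u', p', Sp', s₁, s₀, S.nf, S.hB, S.hP, ?_, S.sub.trans (Finset.subset_union_left),
        S.e1, S.e2, S.pe, ?_⟩
      · have := tp_le hO.2.2.2.1 (S := 0) (Nat.succ_pos b)
        exact S.htp.trans (Nat.lt_succ_iff.1 this)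
      · have h3 : FG R Y A P ⟨b + 1, u.c, u.A, u.B⟩ t₀ e = 0 := by
          by_contra h5
          obtain ⟨g1, -⟩ := FG_supp t₀ _ e h5
          exact Finset.disjoint_left.1 hds m1 g1
        show FG R Y A P ⟨b + 1, u.c, u.A, u.B⟩ t₁ e + FG R Y A P ⟨b + 1, u.c, u.A, u.B⟩ t₀ e = _
        rw [h3, add_zero]
        exact S.eq
  | up b Sp t ih =>
    intro u h e h0
    have hO := h.1.nd.self.ok
    obtain ⟨u', p', Sp', s₁, s₀, S⟩ := ih _ h.2 e h0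
    refine ⟨u', p', Sp', s₁, s₀, S.nf, S.hB, S.hP, ?_, S.sub, S.e1, S.e2, S.pe, S.eq⟩
    have := tp_le hO.2.2.2 (S := 0) hO.1.pos
    exact S.htp.trans this.le
  | pl b t ih =>
    intro u h e h0
    have hO := h.1.nd.self.ok
    obtain ⟨u', p', Sp', s₁, s₀, S⟩ := ih _ h.2 e h0
    refine ⟨u', p', Sp', s₁, s₀, S.nf, S.hB, S.hP, ?_, S.sub, S.e1, S.e2, S.pe, S.eq⟩
    have := tp_le hO.2.2 (S := 0) (Nat.succ_pos b)
    exact S.htp.trans (Nat.lt_succ_iff.1 this)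
  | far b t₁ t₀ ih₁ ih₀ =>
    intro u h e h0
    have hO := h.1.nd.self.ok
    have hds : Disjoint t₁.items t₀.items := hO.2.2.1
    by_cases h1 : FG R Y A P ⟨b + 1, u.c, u.A, u.B⟩ t₁ e = 0
    · have h2 : FG R Y A P ⟨b + 1, u.c, u.A, u.B⟩ t₀ e ≠ 0 := by
        intro h3
        apply h0
        show FG R Y A P ⟨b + 1, u.c, u.A, u.B⟩ t₁ e + FG R Y A P ⟨b + 1, u.c, u.A, u.B⟩ t₀ e = 0
        rw [h3, h1, add_zero]
      obtain ⟨u', p', Sp', s₁, s₀, S⟩ := ih₀ _ h.2.2 e h2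
      refine ⟨u', p', Sp', s₁, s₀, S.nf, S.hB, S.hP, ?_, S.sub.trans (Finset.subset_union_right),
        S.e1, S.e2, S.pe, ?_⟩
      · have := tp_le hO.2.2.2.2 (S := 0) (Nat.succ_pos b)
        exact S.htp.trans (Nat.lt_succ_iff.1 this)
      · show FG R Y A P ⟨b + 1, u.c, u.A, u.B⟩ t₁ e + FG R Y A P ⟨b + 1, u.c, u.A, u.B⟩ t₀ e = _
        rw [h1, zero_add]
        exact S.eq
    · obtain ⟨u', p', Sp', s₁, s₀, S⟩ := ih₁ _ h.2.1 e h1
      obtain ⟨m1, m2⟩ := FG_supp t₁ _ e h1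
      refine ⟨u', p', Sp', s₁, s₀, S.nf, S.hB, S.hP, ?_, S.sub.trans (Finset.subset_union_left),
        S.e1, S.e2, S.pe, ?_⟩
      · have := tp_le hO.2.2.2.1 (S := 0) (Nat.succ_pos b)
        exact S.htp.trans (Nat.lt_succ_iff.1 this)
      · have h3 : FG R Y A P ⟨b + 1, u.c, u.A, u.B⟩ t₀ e = 0 := by
          by_contra h5
          obtain ⟨g1, -⟩ := FG_supp t₀ _ e h5
          exact Finset.disjoint_left.1 hds m1 g1
        show FG R Y A P ⟨b + 1, u.c, u.A, u.B⟩ t₁ e + FG R Y A P ⟨b + 1, u.c, u.A, u.B⟩ t₀ e = _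
        rw [h3, add_zero]
        exact S.eq

/-- **the energy of the P-chain is the sum over the pairs of items** -/
theorem HG_eq : ∀ (τ : IT) (u : NS) (E : Finset (ℕ × ℕ)), τ.items ×ˢ τ.items ⊆ E →
    HG R Y A P u τ = ∑ e ∈ E, FG R Y A P u τ e := by
  intro τ
  induction τ with
  | leaf S => intro u E hE; exact (Finset.sum_const_zero).symm
  | br p Sp t₁ t₀ ih₁ ih₀ =>
    intro u E hE
    have hE1 : t₁.items ×ˢ t₁.items ⊆ E := (Finset.product_subset_product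
      Finset.subset_union_left Finset.subset_union_left).trans hE
    show (if P ≤ p then PG R Y A u p t₁ t₀ else 0) + HG R Y A P _ t₁ =
      ∑ e ∈ E, ((if P ≤ p then pG R Y A u p t₁ t₀ e else 0) + FG R Y A P _ t₁ e)
    rw [Finset.sum_add_distrib, ih₁ _ E hE1]
    congr 1
    split_ifs with h
    · unfold PG pG
      rw [← Finset.mul_sum]
      congr 1
      refine Q_eq_sum _ _ _ _ fun e he => ?_
      obtain ⟨j, j', h3, h4, h5, h6⟩ := Par.mem_PE.1 he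
      rw [mem_PNg] at h3
      have h5' : j.1.1 = e.1 := h5
      have h6' : j'.1.1 = e.2 := h6
      exact hE (Finset.mem_product.2 ⟨Finset.mem_union_left _ (h5' ▸ h3.2.1),
        Finset.mem_union_right _ (h6' ▸ h3.2.2)⟩)
    · rw [Finset.sum_const_zero]
  | add b t₁ t₀ ih₁ ih₀ =>
    intro u E hE
    have hE1 : t₁.items ×ˢ t₁.items ⊆ E := (Finset.product_subset_product
      Finset.subset_union_left Finset.subset_union_left).trans hE
    have hE0 : t₀.items ×ˢ t₀.items ⊆ E := (Finset.product_subset_product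
      Finset.subset_union_right Finset.subset_union_right).trans hE
    show HG R Y A P _ t₁ + HG R Y A P _ t₀ = ∑ e ∈ E, (FG R Y A P _ t₁ e + FG R Y A P _ t₀ e)
    rw [Finset.sum_add_distrib, ih₁ _ E hE1, ih₀ _ E hE0]
  | up b Sp t ih => intro u E hE; exact ih _ E hE
  | pl b t ih => intro u E hE; exact ih _ E hE
  | far b t₁ t₀ ih₁ ih₀ =>
    intro u E hE
    have hE1 : t₁.items ×ˢ t₁.items ⊆ E := (Finset.product_subset_product
      Finset.subset_union_left Finset.subset_union_left).trans hE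
    have hE0 : t₀.items ×ˢ t₀.items ⊆ E := (Finset.product_subset_product
      Finset.subset_union_right Finset.subset_union_right).trans hE
    show HG R Y A P _ t₁ + HG R Y A P _ t₀ = ∑ e ∈ E, (FG R Y A P _ t₁ e + FG R Y A P _ t₀ e)
    rw [Finset.sum_add_distrib, ih₁ _ E hE1, ih₀ _ E hE0]

/-- **the energy of a P-chain**, item pair by item pair -/
theorem HG_le {u : NS} {τ : IT} (h : All (NF X) u τ) {Rel : ℕ × ℕ → Prop} [DecidablePred Rel]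
    {bd : ℕ × ℕ → ℝ} (h0 : ∀ e, Rel e → 0 ≤ bd e)
    (hb : ∀ (e : ℕ × ℕ) (u' : NS) (p : ℕ) (Sp : Finset ℕ) (t₁ t₀ : IT), SG R Y A P u τ e u' p Sp t₁ t₀ →
      Rel e ∧ pG R Y A u' p t₁ t₀ e ≤ bd e) :
    HG R Y A P u τ ≤ ∑ e ∈ (τ.items ×ˢ τ.items).filter Rel, bd e := by
  classical
  rw [HG_eq τ u _ (Finset.Subset.refl _), Finset.sum_filter]
  refine Finset.sum_le_sum fun e he => ?_
  by_cases hz : FG R Y A P u τ e = 0
  · rw [hz]
    split_ifs with hr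
    · exact h0 e hr
    · exact le_rfl
  · obtain ⟨u', p, Sp, t₁, t₀, S⟩ := FG_spec τ u h e hz
    obtain ⟨r1, r2⟩ := hb e u' p Sp t₁ t₀ S
    rw [if_pos r1, S.eq]
    exact r2

/-- the scaled radii at the node of an item pair -/
lemma SG.rb {τ : IT} {e : ℕ × ℕ} {u' : NS} (S : SG R Y A P u τ e u' p Sp t₁ t₀) :
    RB X u' = RB X u := by
  funext q
  show (u'.B : ℝ) * X.c.rr q = (u.B : ℝ) * X.c.rr q
  rw [S.hB]

/-- the reduced cofactors at the node of an item pair -/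
lemma SG.cofs {τ : IT} (h : All (NF X) u τ) {e : ℕ × ℕ} {u' : NS}
    (S : SG R Y A P u τ e u' p Sp t₁ t₀) :
    cof (e.1 / u'.A) (e.2 / u'.A) = cof (e.1 / u.A) (e.2 / u.A) ∧
      cof (e.2 / u'.A) (e.1 / u'.A) = cof (e.2 / u.A) (e.1 / u.A) := by
  have g := S.nf.nd
  have g0 := h.self.nd
  have m1 : e.1 ∈ (IT.br p Sp t₁ t₀).items := Finset.mem_union_left _ S.e1
  have m2 : e.2 ∈ (IT.br p Sp t₁ t₀).items := Finset.mem_union_right _ S.e2
  have d1 := g.bk.dvd _ m1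
  have d2 := g.bk.dvd _ m2
  have c1 := g0.bk.dvd _ (S.sub m1)
  have c2 := g0.bk.dvd _ (S.sub m2)
  exact ⟨by rw [cof_div g.A_pos d1 d2, cof_div g0.A_pos c1 c2],
    by rw [cof_div g.A_pos d2 d1, cof_div g0.A_pos c2 c1]⟩

/-- the denominator of the overlap at the node of an item pair -/
lemma SG.da {τ : IT} (h : All (NF X) u τ) {e : ℕ × ℕ} {u' : NS}
    (S : SG R Y A P u τ e u' p Sp t₁ t₀) : DA u'.A (RB X u') e = DA u.A (RB X u) e := by
  obtain ⟨c1, c2⟩ := S.cofs h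
  rw [S.rb]
  unfold DA Crest.Agent.R4.AvgItem710.Dp
  rw [c1, c2]

/-- **exact relations** : the energy of a P-chain is at most the sum of the overlaps
`2 R R' / DA = 2 min (R / cof, R' / cof')` -/
theorem HG_exact {τ : IT} (h : All (NF X) u τ) {Rel : ℕ × ℕ → Prop} [DecidablePred Rel]
    (hb : ∀ (e : ℕ × ℕ) (u' : NS) (p : ℕ) (Sp : Finset ℕ) (t₁ t₀ : IT),
      SG R Y A P u τ e u' p Sp t₁ t₀ → Rel e ∧ ∃ C C' : ℝ,
      ∀ x ∈ PNg R p t₁ t₀, x.1 ∈ A → x.2 ∈ A → x.1.1.1 = e.1 → x.2.1.1 = e.2 →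
      ∀ (y : ℝ) (a a' : ℤ),
      (u'.B : ℝ) / (1 : ℕ) * X.c.bp x.1.1.1 x.1.1.2 ≤
        ((e.1 / u'.A : ℕ) : ℝ) * y - (u'.B : ℝ) / (1 : ℕ) * X.c.γ - a →
      ((e.1 / u'.A : ℕ) : ℝ) * y - (u'.B : ℝ) / (1 : ℕ) * X.c.γ - a <
        (u'.B : ℝ) / (1 : ℕ) * X.c.bp x.1.1.1 (x.1.1.2 + 1) →
      (u'.B : ℝ) / (1 : ℕ) * X.c.bp x.2.1.1 x.2.1.2 ≤
        ((e.2 / u'.A : ℕ) : ℝ) * y - (u'.B : ℝ) / (1 : ℕ) * X.c.γ - a' →
      ((e.2 / u'.A : ℕ) : ℝ) * y - (u'.B : ℝ) / (1 : ℕ) * X.c.γ - a' <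
        (u'.B : ℝ) / (1 : ℕ) * X.c.bp x.2.1.1 (x.2.1.2 + 1) →
      ((a:ℝ) + C) * (cof (e.2 / u'.A) (e.1 / u'.A) : ℕ) =
        (a' + C') * (cof (e.1 / u'.A) (e.2 / u'.A) : ℕ)) :
    HG R Y A P u τ ≤ ∑ e ∈ (τ.items ×ˢ τ.items).filter Rel,
      2 * ((RB X u e.1 * RB X u e.2) / DA u.A (RB X u) e) := by
  have hrr : ∀ q, 0 < X.c.rr q := (X.ok.rad Y).pos
  refine HG_le h (fun e _ => ?_) fun e u' p Sp t₁ t₀ S => ?_
  · have r1 : 0 ≤ RB X u e.1 := mul_nonneg (Nat.cast_nonneg _) (hrr _).le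
    have r2 : 0 ≤ RB X u e.2 := mul_nonneg (Nat.cast_nonneg _) (hrr _).le
    have r3 : 0 ≤ DA u.A (RB X u) e := by
      unfold DA Crest.Agent.R4.AvgItem710.Dp
      exact le_max_of_le_left (by positivity)
    positivity
  · obtain ⟨hr, C, C', hc⟩ := hb e u' p Sp t₁ t₀ S
    refine ⟨hr, ?_⟩
    have key := pG_le (R := R) (Y := Y) (A := A) S.nf.nd S.e1 S.e2 (C := C) (C' := C') (δ := 0)
      le_rfl fun x hx a1 a2 i1 i2 y a a' l1 l2 l3 l4 => by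
        rw [hc x hx a1 a2 i1 i2 y a a' l1 l2 l3 l4, sub_self, abs_zero]
    rw [S.da h, S.rb, mul_zero, zero_add, mul_one] at key
    exact key

/-- **expected sum over the ties of `f p` times the energy of the separated pairs** -/
noncomputable def GW {X : Ctx N γ p0 P₀} (R : ℕ → Finset (X.c.Lam × X.c.Lam))
    (Y : Finset (ℕ × ℕ × Finset ℕ)) (A : Finset X.c.Lam) (f : ℕ → ℝ) : NS → IT → ℝ
  | _, .leaf _ => 0
  | u, .br p _ t₁ t₀ => f p * PG R Y A u p t₁ t₀ +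
      ((1 - 1 / (p : ℝ)) * GW R Y A f ⟨p, u.c / (1 - 1 / (p : ℝ)), u.A * p, u.B⟩ t₁ +
        1 / (p : ℝ) * GW R Y A f ⟨p, u.c * p, u.A, u.B * p⟩ t₀)
  | u, .add b t₁ t₀ => GW R Y A f ⟨b + 1, u.c, u.A, u.B⟩ t₁ +
      GW R Y A f ⟨b + 1, u.c, u.A, u.B⟩ t₀
  | u, .up b _ t => GW R Y A f ⟨b, u.c, u.A, u.B⟩ t
  | u, .pl b t => GW R Y A f ⟨b + 1, u.c, u.A * b, u.B⟩ t
  | u, .far b t₁ t₀ => GW R Y A f ⟨b + 1, u.c, u.A, u.B⟩ t₁ +
      GW R Y A f ⟨b + 1, u.c, u.A, u.B⟩ t₀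

lemma PG_nonneg {u : NS} {p : ℕ} {t₁ t₀ : IT} (F : TF X u p t₁ t₀) :
    0 ≤ PG R Y A u p t₁ t₀ := by
  unfold PG
  refine mul_nonneg (by positivity) ?_
  unfold Q
  exact Finset.sum_nonneg fun x _ => I_nonneg fun y =>
    mul_nonneg (F.UP_nonneg _ _) (F.UN_nonneg _ _)

/-- the energy of a P-chain is nonnegative -/
lemma HG_nonneg : ∀ (τ : IT) (u : NS), All (NF X) u τ → 0 ≤ HG R Y A P u τ := by
  intro τ
  induction τ with
  | leaf S => intro u h; exact le_rfl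
  | br p Sp t₁ t₀ ih₁ ih₀ =>
    intro u h
    show 0 ≤ (if P ≤ p then PG R Y A u p t₁ t₀ else 0) + HG R Y A P _ t₁
    have h1 : 0 ≤ (if P ≤ p then PG R Y A u p t₁ t₀ else 0) := by
      split_ifs
      · exact PG_nonneg (tF h.1.nd)
      · exact le_rfl
    exact add_nonneg h1 (ih₁ _ h.2.1)
  | add b t₁ t₀ ih₁ ih₀ => intro u h; exact add_nonneg (ih₁ _ h.2.1) (ih₀ _ h.2.2)
  | up b Sp t ih => intro u h; exact ih _ h.2
  | pl b t ih => intro u h; exact ih _ h.2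
  | far b t₁ t₀ ih₁ ih₀ => intro u h; exact add_nonneg (ih₁ _ h.2.1) (ih₀ _ h.2.2)

lemma HG_zero : ∀ (τ : IT) (u : NS), All (NF X) u τ → tp τ < P → HG R Y A P u τ = 0 := by
  intro τ
  induction τ with
  | leaf S => intro u h _; rfl
  | br p Sp t₁ t₀ ih₁ ih₀ =>
    intro u h hP
    have hO := h.1.nd.self.ok
    have hpP : p < P := hP
    show (if P ≤ p then PG R Y A u p t₁ t₀ else 0) + HG R Y A P _ t₁ = 0
    rw [if_neg (not_le.2 hpP), zero_add]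
    exact ih₁ _ h.2.1 ((tp_le hO.2.2.2.2.1 (S := 0) hO.1.pos).trans hpP)
  | add b t₁ t₀ ih₁ ih₀ =>
    intro u h hP
    have hO := h.1.nd.self.ok
    have hbP : b < P := hP
    have h1 := tp_le hO.2.2.2.1 (S := 0) (Nat.succ_pos b)
    have h0 := tp_le hO.2.2.2.2 (S := 0) (Nat.succ_pos b)
    show HG R Y A P _ t₁ + HG R Y A P _ t₀ = 0
    rw [ih₁ _ h.2.1 (by omega), ih₀ _ h.2.2 (by omega), add_zero]
  | up b Sp t ih =>
    intro u h hP
    have hO := h.1.nd.self.ok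
    have hbP : b < P := hP
    have h1 := tp_le hO.2.2.2 (S := 0) hO.1.pos
    exact ih _ h.2 (by omega)
  | pl b t ih =>
    intro u h hP
    have hO := h.1.nd.self.ok
    have hbP : b < P := hP
    have h1 := tp_le hO.2.2 (S := 0) (Nat.succ_pos b)
    exact ih _ h.2 (by omega)
  | far b t₁ t₀ ih₁ ih₀ =>
    intro u h hP
    have hO := h.1.nd.self.ok
    have hbP : b < P := hP
    have h1 := tp_le hO.2.2.2.1 (S := 0) (Nat.succ_pos b)
    have h0 := tp_le hO.2.2.2.2 (S := 0) (Nat.succ_pos b)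
    show HG R Y A P _ t₁ + HG R Y A P _ t₀ = 0
    rw [ih₁ _ h.2.1 (by omega), ih₀ _ h.2.2 (by omega), add_zero]

lemma GW_nonneg {f : ℕ → ℝ} (hf : ∀ p, 0 ≤ f p) : ∀ (τ : IT) (u : NS), All (NF X) u τ →
    0 ≤ GW R Y A f u τ := by
  intro τ
  induction τ with
  | leaf S => intro u h; exact le_rfl
  | br p Sp t₁ t₀ ih₁ ih₀ =>
    intro u h
    have F := tF h.1.nd
    have hp1 : (1:ℝ) ≤ p := by exact_mod_cast F.pr.one_le
    have h1 : 0 ≤ 1 - 1 / (p:ℝ) := by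
      rw [sub_nonneg, div_le_one (by linarith)]; exact hp1
    exact add_nonneg (mul_nonneg (hf p) (PG_nonneg F))
      (add_nonneg (mul_nonneg h1 (ih₁ _ h.2.1)) (mul_nonneg (by positivity) (ih₀ _ h.2.2)))
  | add b t₁ t₀ ih₁ ih₀ => intro u h; exact add_nonneg (ih₁ _ h.2.1) (ih₀ _ h.2.2)
  | up b Sp t ih => intro u h; exact ih _ h.2
  | pl b t ih => intro u h; exact ih _ h.2
  | far b t₁ t₀ ih₁ ih₀ => intro u h; exact add_nonneg (ih₁ _ h.2.1) (ih₀ _ h.2.2)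

/-- monotone in the weight, only the columns `p0 < p ≤ tp τ` matter -/
lemma GW_mono {f g : ℕ → ℝ} {n : ℕ} (hfg : ∀ p, p.Prime → p0 < p → p ≤ n → f p ≤ g p) :
    ∀ (τ : IT) (u : NS), All (NF X) u τ → tp τ ≤ n → GW R Y A f u τ ≤ GW R Y A g u τ := by
  intro τ
  induction τ with
  | leaf S => intro u h _; exact le_rfl
  | br p Sp t₁ t₀ ih₁ ih₀ =>
    intro u h hn
    have F := tF h.1.nd
    have hO := h.1.nd.self.ok
    have hp0 : p0 < p := h.1.nd.self.node.2.2.1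
    have hpn : p ≤ n := hn
    have hp1 : (1:ℝ) ≤ p := by exact_mod_cast F.pr.one_le
    have h1 : 0 ≤ 1 - 1 / (p:ℝ) := by
      rw [sub_nonneg, div_le_one (by linarith)]; exact hp1
    have t1 := tp_le hO.2.2.2.2.1 (S := 0) hO.1.pos
    have t0 := tp_le hO.2.2.2.2.2 (S := 0) hO.1.pos
    refine add_le_add (mul_le_mul_of_nonneg_right (hfg p F.pr hp0 hpn) (PG_nonneg F))
      (add_le_add (mul_le_mul_of_nonneg_left (ih₁ _ h.2.1 (by omega)) h1)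
        (mul_le_mul_of_nonneg_left (ih₀ _ h.2.2 (by omega)) (by positivity)))
  | add b t₁ t₀ ih₁ ih₀ =>
    intro u h hn
    have hO := h.1.nd.self.ok
    have hbn : b ≤ n := hn
    have h1 := tp_le hO.2.2.2.1 (S := 0) (Nat.succ_pos b)
    have h0 := tp_le hO.2.2.2.2 (S := 0) (Nat.succ_pos b)
    exact add_le_add (ih₁ _ h.2.1 (by omega)) (ih₀ _ h.2.2 (by omega))
  | up b Sp t ih =>
    intro u h hn
    have hO := h.1.nd.self.ok
    have hbn : b ≤ n := hn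
    have h1 := tp_le hO.2.2.2 (S := 0) hO.1.pos
    exact ih _ h.2 (by omega)
  | pl b t ih =>
    intro u h hn
    have hO := h.1.nd.self.ok
    have hbn : b ≤ n := hn
    have h1 := tp_le hO.2.2 (S := 0) (Nat.succ_pos b)
    exact ih _ h.2 (by omega)
  | far b t₁ t₀ ih₁ ih₀ =>
    intro u h hn
    have hO := h.1.nd.self.ok
    have hbn : b ≤ n := hn
    have h1 := tp_le hO.2.2.2.1 (S := 0) (Nat.succ_pos b)
    have h0 := tp_le hO.2.2.2.2 (S := 0) (Nat.succ_pos b)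
    exact add_le_add (ih₁ _ h.2.1 (by omega)) (ih₀ _ h.2.2 (by omega))

/-- linear in the weight -/
lemma GW_sum {ι : Type*} (K : Finset ι) (a : ι → ℝ) (g : ι → ℕ → ℝ) :
    ∀ (τ : IT) (u : NS), GW R Y A (fun p => ∑ k ∈ K, a k * g k p) u τ =
      ∑ k ∈ K, a k * GW R Y A (g k) u τ := by
  intro τ
  induction τ with
  | leaf S =>
    intro u
    show (0:ℝ) = ∑ k ∈ K, a k * 0
    simp
  | br p Sp t₁ t₀ ih₁ ih₀ =>
    intro u
    show (∑ k ∈ K, a k * g k p) * PG R Y A u p t₁ t₀ +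
      ((1 - 1 / (p : ℝ)) * GW R Y A _ ⟨p, u.c / (1 - 1 / (p : ℝ)), u.A * p, u.B⟩ t₁ +
        1 / (p : ℝ) * GW R Y A _ ⟨p, u.c * p, u.A, u.B * p⟩ t₀) =
      ∑ k ∈ K, a k * (g k p * PG R Y A u p t₁ t₀ +
      ((1 - 1 / (p : ℝ)) * GW R Y A (g k) ⟨p, u.c / (1 - 1 / (p : ℝ)), u.A * p, u.B⟩ t₁ +
        1 / (p : ℝ) * GW R Y A (g k) ⟨p, u.c * p, u.A, u.B * p⟩ t₀))
    rw [ih₁, ih₀, Finset.sum_mul, Finset.mul_sum, Finset.mul_sum, ← Finset.sum_add_distrib,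
      ← Finset.sum_add_distrib]
    refine Finset.sum_congr rfl fun k _ => ?_
    ring
  | add b t₁ t₀ ih₁ ih₀ =>
    intro u
    show GW R Y A _ ⟨b + 1, u.c, u.A, u.B⟩ t₁ + GW R Y A _ ⟨b + 1, u.c, u.A, u.B⟩ t₀ =
      ∑ k ∈ K, a k * (GW R Y A (g k) ⟨b + 1, u.c, u.A, u.B⟩ t₁ +
        GW R Y A (g k) ⟨b + 1, u.c, u.A, u.B⟩ t₀)
    rw [ih₁, ih₀, ← Finset.sum_add_distrib]
    refine Finset.sum_congr rfl fun k _ => ?_
    ring
  | up b Sp t ih => intro u; exact ih _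
  | pl b t ih => intro u; exact ih _
  | far b t₁ t₀ ih₁ ih₀ =>
    intro u
    show GW R Y A _ ⟨b + 1, u.c, u.A, u.B⟩ t₁ + GW R Y A _ ⟨b + 1, u.c, u.A, u.B⟩ t₀ =
      ∑ k ∈ K, a k * (GW R Y A (g k) ⟨b + 1, u.c, u.A, u.B⟩ t₁ +
        GW R Y A (g k) ⟨b + 1, u.c, u.A, u.B⟩ t₀)
    rw [ih₁, ih₀, ← Finset.sum_add_distrib]
    refine Finset.sum_congr rfl fun k _ => ?_
    ring

/-- the weight vanishes on the columns -/
lemma GW_zero {f : ℕ → ℝ} {n : ℕ} (hf : ∀ p, p ≤ n → f p = 0) :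
    ∀ (τ : IT) (u : NS), All (NF X) u τ → tp τ ≤ n → GW R Y A f u τ = 0 := by
  intro τ u h hn
  have h1 : GW R Y A f u τ ≤ GW R Y A (fun _ => 0) u τ :=
    GW_mono (fun p _ _ h2 => (hf p h2).le) τ u h hn
  have h2 : GW R Y A (fun _ => 0) u τ ≤ GW R Y A f u τ :=
    GW_mono (fun p _ _ h2 => (hf p h2).ge) τ u h hn
  have h3 := GW_sum (R := R) (Y := Y) (A := A) (∅ : Finset ℕ) (fun _ => 0) (fun _ _ => 0) τ u
  simp only [Finset.sum_empty] at h3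
  rw [h3] at h1 h2
  exact le_antisymm h1 h2

/-- **one block, nodes below the top of the block** -/
theorem blkA {κ : ℝ} (hκ : 0 ≤ κ)
    (hch : ∀ (u : NS) (τ : IT), All (NF X) u τ → ¬ isL τ → P ≤ tp τ → tp τ < 2 * P →
      HG R Y A P u τ ≤ κ * Mn X u τ) :
    ∀ (τ : IT) (u : NS), All (NF X) u τ → tp τ < 2 * P →
      GW R Y A (RtS28.blk P) u τ ≤ HG R Y A P u τ + κ * SS X P (tp τ + 1) * Mn X u τ := by
  -- the energy of a chain at any node below the top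
  have hch' : ∀ (u : NS) (τ : IT), All (NF X) u τ → tp τ < 2 * P →
      HG R Y A P u τ ≤ κ * Mn X u τ := by
    intro u τ h ht
    by_cases hP : tp τ < P
    · rw [HG_zero τ u h hP]
      exact mul_nonneg hκ (Mn_nonneg h.self)
    · cases τ with
      | leaf S => exact mul_nonneg hκ (Mn_nonneg h.self)
      | br p Sp t₁ t₀ => exact hch u _ h (by simp [isL]) (not_lt.1 hP) ht
      | add b t₁ t₀ => exact hch u _ h (by simp [isL]) (not_lt.1 hP) ht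
      | up b Sp t => exact hch u _ h (by simp [isL]) (not_lt.1 hP) ht
      | pl b t => exact hch u _ h (by simp [isL]) (not_lt.1 hP) ht
      | far b t₁ t₀ => exact hch u _ h (by simp [isL]) (not_lt.1 hP) ht
  have hKS : ∀ n, 0 ≤ κ * SS X P n := fun n => mul_nonneg hκ (SS_nonneg n)
  intro τ
  induction τ with
  | leaf S =>
    intro u h _
    show (0:ℝ) ≤ 0 + _
    rw [zero_add]
    exact mul_nonneg (hKS _) (Mn_nonneg h)
  | br p Sp t₁ t₀ ih₁ ih₀ =>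
    intro u h ht
    have F := tF h.1.nd
    have hO := h.1.nd.self.ok
    have hc := h.1.c0
    have hp2 : (2:ℝ) ≤ p := by exact_mod_cast F.pr.two_le
    have hp0 : (0:ℝ) < p := by linarith
    have hq : 0 ≤ 1 - 1 / (p:ℝ) := by
      rw [sub_nonneg, div_le_one hp0]; linarith
    have hq1 : 1 - 1 / (p:ℝ) ≤ 1 := by
      have : 0 ≤ 1 / (p:ℝ) := by positivity
      linarith
    have hptp : p < 2 * P := ht
    have t1 := tp_le hO.2.2.2.2.1 (S := 0) hO.1.pos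
    have t0 := tp_le hO.2.2.2.2.2 (S := 0) hO.1.pos
    obtain ⟨m1, m0, m⟩ := Mn_br (X := X) (Sp := Sp) F
    have i1 := ih₁ _ h.2.1 (by omega)
    have i0 := ih₀ _ h.2.2 (by omega)
    have j0 := hch' _ _ h.2.2 (by omega)
    have hH1 : 0 ≤ HG R Y A P ⟨p, u.c / (1 - 1 / (p : ℝ)), u.A * p, u.B⟩ t₁ :=
      HG_nonneg t₁ _ h.2.1
    have M1 := Mn_nonneg h.2.1.self
    have M0 := Mn_nonneg h.2.2.self
    set G1 := GW R Y A (RtS28.blk P) ⟨p, u.c / (1 - 1 / (p : ℝ)), u.A * p, u.B⟩ t₁ with hG1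
    set G0 := GW R Y A (RtS28.blk P) ⟨p, u.c * p, u.A, u.B * p⟩ t₀ with hG0
    set H1 := HG R Y A P ⟨p, u.c / (1 - 1 / (p : ℝ)), u.A * p, u.B⟩ t₁ with hH1'
    set H0 := HG R Y A P ⟨p, u.c * p, u.A, u.B * p⟩ t₀ with hH0
    set W1 := u.c * Ws (w X.ψ) t₁.items with hW1
    set W0 := u.c * Ws (w X.ψ) t₀.items with hW0
    have W1n : 0 ≤ W1 := mul_nonneg hc.le (Bld532.Ws_nonneg X.hW _)
    have W0n : 0 ≤ W0 := mul_nonneg hc.le (Bld532.Ws_nonneg X.hW _)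
    show RtS28.blk P p * PG R Y A u p t₁ t₀ + ((1 - 1 / (p : ℝ)) * G1 + 1 / (p : ℝ) * G0) ≤
      ((if P ≤ p then PG R Y A u p t₁ t₀ else 0) + H1) +
        κ * SS X P (p + 1) * Mn X u (.br p Sp t₁ t₀)
    rw [m]
    -- the present child
    have k1 : (1 - 1 / (p : ℝ)) * G1 ≤ H1 + κ * SS X P p * W1 := by
      have a1 : G1 ≤ H1 + κ * SS X P p * Mn X ⟨p, u.c / (1 - 1 / (p : ℝ)), u.A * p, u.B⟩ t₁ := by
        refine i1.trans (add_le_add le_rfl (mul_le_mul_of_nonneg_right ?_ M1))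
        exact mul_le_mul_of_nonneg_left (SS_mono t1) hκ
      calc (1 - 1 / (p : ℝ)) * G1 ≤ (1 - 1 / (p : ℝ)) * (H1 + κ * SS X P p *
            Mn X ⟨p, u.c / (1 - 1 / (p : ℝ)), u.A * p, u.B⟩ t₁) :=
            mul_le_mul_of_nonneg_left a1 hq
        _ = (1 - 1 / (p : ℝ)) * H1 + κ * SS X P p * ((1 - 1 / (p : ℝ)) *
            Mn X ⟨p, u.c / (1 - 1 / (p : ℝ)), u.A * p, u.B⟩ t₁) := by ring
        _ ≤ H1 + κ * SS X P p * W1 := by
            rw [m1]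
            exact add_le_add (mul_le_of_le_one_left hH1 hq1) le_rfl
    by_cases hP : P ≤ p
    · rw [if_pos hP]
      have hb : RtS28.blk P p = 1 := by unfold RtS28.blk; rw [if_pos ⟨hP, hptp⟩]
      rw [hb, one_mul, SS_succ F.pr hP]
      have k0 : 1 / (p : ℝ) * G0 ≤ κ * W0 + κ * SS X P p * W0 := by
        have a1 : G0 ≤ κ * Mn X ⟨p, u.c * p, u.A, u.B * p⟩ t₀ +
            κ * SS X P p * Mn X ⟨p, u.c * p, u.A, u.B * p⟩ t₀ := by
          refine i0.trans (add_le_add j0 (mul_le_mul_of_nonneg_right ?_ M0))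
          exact mul_le_mul_of_nonneg_left (SS_mono t0) hκ
        calc 1 / (p : ℝ) * G0 ≤ 1 / (p : ℝ) * (κ * Mn X ⟨p, u.c * p, u.A, u.B * p⟩ t₀ +
            κ * SS X P p * Mn X ⟨p, u.c * p, u.A, u.B * p⟩ t₀) :=
              mul_le_mul_of_nonneg_left a1 (by positivity)
          _ = κ * (1 / (p : ℝ) * Mn X ⟨p, u.c * p, u.A, u.B * p⟩ t₀) +
            κ * SS X P p * (1 / (p : ℝ) * Mn X ⟨p, u.c * p, u.A, u.B * p⟩ t₀) := by ring
          _ = κ * W0 + κ * SS X P p * W0 := by rw [m0]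
      -- the share of the missing child
      have hsh : W0 ≤ 2 * X.par.sg p * (W1 + W0) := by
        have n7 := h.1.nd.self.node.2.2.2.2.2.2.2.2.2.2.2.1
        have n7' : Ws (w X.ψ) t₀.items ≤ 2 * X.par.sg p * Ws (w X.ψ) (t₁.items ∪ t₀.items) := n7
        rw [Ws_union F.ds] at n7'
        have := mul_le_mul_of_nonneg_left n7' hc.le
        calc W0 ≤ u.c * (2 * X.par.sg p * (Ws (w X.ψ) t₁.items + Ws (w X.ψ) t₀.items)) := this
          _ = 2 * X.par.sg p * (W1 + W0) := by rw [hW1, hW0]; ring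
      have hsh' := mul_le_mul_of_nonneg_left hsh hκ
      have e1 : κ * (SS X P p + 2 * X.par.sg p) * (W1 + W0) =
        κ * SS X P p * W1 + κ * SS X P p * W0 + κ * (2 * X.par.sg p * (W1 + W0)) := by ring
      rw [e1]
      linarith
    · rw [if_neg hP]
      have hb : RtS28.blk P p = 0 := by
        unfold RtS28.blk; rw [if_neg (fun hh => hP hh.1)]
      rw [hb, zero_mul]
      have z0 : H0 = 0 := HG_zero t₀ _ h.2.2 (by omega)
      have k0 : 1 / (p : ℝ) * G0 ≤ κ * SS X P p * W0 := by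
        have a1 : G0 ≤ κ * SS X P p * Mn X ⟨p, u.c * p, u.A, u.B * p⟩ t₀ := by
          refine i0.trans ?_
          rw [z0, zero_add]
          refine mul_le_mul_of_nonneg_right ?_ M0
          exact mul_le_mul_of_nonneg_left (SS_mono t0) hκ
        calc 1 / (p : ℝ) * G0 ≤ 1 / (p : ℝ) *
            (κ * SS X P p * Mn X ⟨p, u.c * p, u.A, u.B * p⟩ t₀) :=
              mul_le_mul_of_nonneg_left a1 (by positivity)
          _ = κ * SS X P p * (1 / (p : ℝ) * Mn X ⟨p, u.c * p, u.A, u.B * p⟩ t₀) := by ring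
          _ = κ * SS X P p * W0 := by rw [m0]
      have hS : SS X P p ≤ SS X P (p + 1) := SS_mono (Nat.le_succ p)
      have hS' := mul_le_mul_of_nonneg_right (mul_le_mul_of_nonneg_left hS hκ)
        (add_nonneg W1n W0n)
      have e1 : κ * SS X P p * (W1 + W0) = κ * SS X P p * W1 + κ * SS X P p * W0 := by ring
      rw [e1] at hS'
      linarith
  | add b t₁ t₀ ih₁ ih₀ =>
    intro u h ht
    have hO := h.1.nd.self.ok
    have hbP : b < 2 * P := ht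
    have hds : Disjoint t₁.items t₀.items := hO.2.2.1
    have h1 := tp_le hO.2.2.2.1 (S := 0) (Nat.succ_pos b)
    have h0 := tp_le hO.2.2.2.2 (S := 0) (Nat.succ_pos b)
    have i1 := ih₁ _ h.2.1 (by omega)
    have i0 := ih₀ _ h.2.2 (by omega)
    have M1 := Mn_nonneg h.2.1.self
    have M0 := Mn_nonneg h.2.2.self
    have em : Mn X u (.add b t₁ t₀) = Mn X ⟨b + 1, u.c, u.A, u.B⟩ t₁ +
        Mn X ⟨b + 1, u.c, u.A, u.B⟩ t₀ := by
      show u.c * Ws (w X.ψ) (t₁.items ∪ t₀.items) = _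
      rw [Ws_union hds, mul_add]
    show GW R Y A _ ⟨b + 1, u.c, u.A, u.B⟩ t₁ + GW R Y A _ ⟨b + 1, u.c, u.A, u.B⟩ t₀ ≤
      (HG R Y A P ⟨b + 1, u.c, u.A, u.B⟩ t₁ + HG R Y A P ⟨b + 1, u.c, u.A, u.B⟩ t₀) +
        κ * SS X P (b + 1) * Mn X u (.add b t₁ t₀)
    rw [em]
    have s1 := mul_le_mul_of_nonneg_right (mul_le_mul_of_nonneg_left
      (SS_mono (X := X) (P := P) (show tp t₁ + 1 ≤ b + 1 by omega)) hκ) M1
    have s0 := mul_le_mul_of_nonneg_right (mul_le_mul_of_nonneg_left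
      (SS_mono (X := X) (P := P) (show tp t₀ + 1 ≤ b + 1 by omega)) hκ) M0
    rw [mul_add]
    linarith
  | up b Sp t ih =>
    intro u h ht
    have hO := h.1.nd.self.ok
    have hbP : b < 2 * P := ht
    have h1 := tp_le hO.2.2.2 (S := 0) hO.1.pos
    have i1 := ih _ h.2 (by omega)
    have M1 := Mn_nonneg h.2.self
    have s1 := mul_le_mul_of_nonneg_right (mul_le_mul_of_nonneg_left
      (SS_mono (X := X) (P := P) (show tp t + 1 ≤ b + 1 by omega)) hκ) M1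
    exact i1.trans (add_le_add le_rfl s1)
  | pl b t ih =>
    intro u h ht
    have hO := h.1.nd.self.ok
    have hbP : b < 2 * P := ht
    have h1 := tp_le hO.2.2 (S := 0) (Nat.succ_pos b)
    have i1 := ih _ h.2 (by omega)
    have M1 := Mn_nonneg h.2.self
    have s1 := mul_le_mul_of_nonneg_right (mul_le_mul_of_nonneg_left
      (SS_mono (X := X) (P := P) (show tp t + 1 ≤ b + 1 by omega)) hκ) M1
    exact i1.trans (add_le_add le_rfl s1)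
  | far b t₁ t₀ ih₁ ih₀ =>
    intro u h ht
    have hO := h.1.nd.self.ok
    have hbP : b < 2 * P := ht
    have hds : Disjoint t₁.items t₀.items := hO.2.2.1
    have h1 := tp_le hO.2.2.2.1 (S := 0) (Nat.succ_pos b)
    have h0 := tp_le hO.2.2.2.2 (S := 0) (Nat.succ_pos b)
    have i1 := ih₁ _ h.2.1 (by omega)
    have i0 := ih₀ _ h.2.2 (by omega)
    have M1 := Mn_nonneg h.2.1.self
    have M0 := Mn_nonneg h.2.2.self
    have em : Mn X u (.far b t₁ t₀) = Mn X ⟨b + 1, u.c, u.A, u.B⟩ t₁ +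
        Mn X ⟨b + 1, u.c, u.A, u.B⟩ t₀ := by
      show u.c * Ws (w X.ψ) (t₁.items ∪ t₀.items) = _
      rw [Ws_union hds, mul_add]
    show GW R Y A _ ⟨b + 1, u.c, u.A, u.B⟩ t₁ + GW R Y A _ ⟨b + 1, u.c, u.A, u.B⟩ t₀ ≤
      (HG R Y A P ⟨b + 1, u.c, u.A, u.B⟩ t₁ + HG R Y A P ⟨b + 1, u.c, u.A, u.B⟩ t₀) +
        κ * SS X P (b + 1) * Mn X u (.far b t₁ t₀)
    rw [em]
    have s1 := mul_le_mul_of_nonneg_right (mul_le_mul_of_nonneg_left
      (SS_mono (X := X) (P := P) (show tp t₁ + 1 ≤ b + 1 by omega)) hκ) M1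
    have s0 := mul_le_mul_of_nonneg_right (mul_le_mul_of_nonneg_left
      (SS_mono (X := X) (P := P) (show tp t₀ + 1 ≤ b + 1 by omega)) hκ) M0
    rw [mul_add]
    linarith

/-- **one block, all the nodes** -/
theorem blkB {κ : ℝ} (hκ : 0 ≤ κ)
    (hch : ∀ (u : NS) (τ : IT), All (NF X) u τ → ¬ isL τ → P ≤ tp τ → tp τ < 2 * P →
      HG R Y A P u τ ≤ κ * Mn X u τ) :
    ∀ (τ : IT) (u : NS), All (NF X) u τ →
      GW R Y A (RtS28.blk P) u τ ≤ κ * (1 + SS X P (2 * P)) * Mn X u τ := by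
  have hK0 : 0 ≤ κ * (1 + SS X P (2 * P)) :=
    mul_nonneg hκ (add_nonneg zero_le_one (SS_nonneg _))
  -- below the top of the block
  have hlow : ∀ (τ : IT) (u : NS), All (NF X) u τ → tp τ < 2 * P →
      GW R Y A (RtS28.blk P) u τ ≤ κ * (1 + SS X P (2 * P)) * Mn X u τ := by
    intro τ u h ht
    have M0 := Mn_nonneg h.self
    have i1 := blkA hκ hch τ u h ht
    have hHH : HG R Y A P u τ ≤ κ * Mn X u τ := by
      by_cases hP : tp τ < P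
      · rw [HG_zero τ u h hP]
        exact mul_nonneg hκ M0
      · cases τ with
        | leaf S => exact mul_nonneg hκ M0
        | br p Sp t₁ t₀ => exact hch u _ h (by simp [isL]) (not_lt.1 hP) ht
        | add b t₁ t₀ => exact hch u _ h (by simp [isL]) (not_lt.1 hP) ht
        | up b Sp t => exact hch u _ h (by simp [isL]) (not_lt.1 hP) ht
        | pl b t => exact hch u _ h (by simp [isL]) (not_lt.1 hP) ht
        | far b t₁ t₀ => exact hch u _ h (by simp [isL]) (not_lt.1 hP) ht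
    have s1 := mul_le_mul_of_nonneg_right (mul_le_mul_of_nonneg_left
      (SS_mono (X := X) (P := P) (show tp τ + 1 ≤ 2 * P by omega)) hκ) M0
    have e1 : κ * (1 + SS X P (2 * P)) * Mn X u τ = κ * Mn X u τ +
      κ * SS X P (2 * P) * Mn X u τ := by ring
    rw [e1]
    linarith
  intro τ
  induction τ with
  | leaf S => intro u h; exact mul_nonneg hK0 (Mn_nonneg h)
  | br p Sp t₁ t₀ ih₁ ih₀ =>
    intro u h
    by_cases ht : p < 2 * P
    · exact hlow _ u h ht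
    have F := tF h.1.nd
    obtain ⟨m1, m0, m⟩ := Mn_br (X := X) (Sp := Sp) F
    have hp2 : (2:ℝ) ≤ p := by exact_mod_cast F.pr.two_le
    have hp0 : (0:ℝ) < p := by linarith
    have hq : 0 ≤ 1 - 1 / (p:ℝ) := by
      rw [sub_nonneg, div_le_one hp0]; linarith
    have hb : RtS28.blk P p = 0 := by
      unfold RtS28.blk; rw [if_neg (fun hh => ht hh.2)]
    have i1 := mul_le_mul_of_nonneg_left (ih₁ _ h.2.1) hq
    have i0 := mul_le_mul_of_nonneg_left (ih₀ _ h.2.2) (show (0:ℝ) ≤ 1 / (p:ℝ) by positivity)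
    show RtS28.blk P p * PG R Y A u p t₁ t₀ +
      ((1 - 1 / (p : ℝ)) * GW R Y A (RtS28.blk P) ⟨p, u.c / (1 - 1 / (p : ℝ)), u.A * p, u.B⟩ t₁ +
        1 / (p : ℝ) * GW R Y A (RtS28.blk P) ⟨p, u.c * p, u.A, u.B * p⟩ t₀) ≤
      κ * (1 + SS X P (2 * P)) * Mn X u (.br p Sp t₁ t₀)
    rw [hb, zero_mul, zero_add, m, mul_add]
    refine add_le_add (i1.trans (le_of_eq ?_)) (i0.trans (le_of_eq ?_))
    · rw [← m1]; ring
    · rw [← m0]; ring
  | add b t₁ t₀ ih₁ ih₀ =>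
    intro u h
    have hO := h.1.nd.self.ok
    have hds : Disjoint t₁.items t₀.items := hO.2.2.1
    have em : Mn X u (.add b t₁ t₀) = Mn X ⟨b + 1, u.c, u.A, u.B⟩ t₁ +
        Mn X ⟨b + 1, u.c, u.A, u.B⟩ t₀ := by
      show u.c * Ws (w X.ψ) (t₁.items ∪ t₀.items) = _
      rw [Ws_union hds, mul_add]
    rw [em, mul_add]
    exact add_le_add (ih₁ _ h.2.1) (ih₀ _ h.2.2)
  | up b Sp t ih => intro u h; exact ih _ h.2
  | pl b t ih => intro u h; exact ih _ h.2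
  | far b t₁ t₀ ih₁ ih₀ =>
    intro u h
    have hO := h.1.nd.self.ok
    have hds : Disjoint t₁.items t₀.items := hO.2.2.1
    have em : Mn X u (.far b t₁ t₀) = Mn X ⟨b + 1, u.c, u.A, u.B⟩ t₁ +
        Mn X ⟨b + 1, u.c, u.A, u.B⟩ t₀ := by
      show u.c * Ws (w X.ψ) (t₁.items ∪ t₀.items) = _
      rw [Ws_union hds, mul_add]
    rw [em, mul_add]
    exact add_le_add (ih₁ _ h.2.1) (ih₀ _ h.2.2)

/-! ### the kernel -/

open Classical in
/-- **the kernel** of a column relation, weight `(log p)^s` -/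
noncomputable def KR {X : Ctx N γ p0 P₀} (R : ℕ → Finset (X.c.Lam × X.c.Lam)) (s : ℝ) (p : ℕ)
    (i j : X.c.Lam) : ℝ :=
  if (i, j) ∈ R p then Real.log p ^ s else 0

lemma KR_ker (hR : ∀ p i j, (i, j) ∈ R p → (j, i) ∈ R p) (s : ℝ) (p : ℕ) : Ker (KR R s p) where
  nn := fun i j => by
    unfold KR
    split_ifs
    · exact Real.rpow_nonneg (Real.log_natCast_nonneg p) _
    · exact le_rfl
  sy := fun i j => by
    unfold KR
    by_cases h : (i, j) ∈ R p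
    · rw [if_pos h, if_pos (hR p i j h)]
    · rw [if_neg h, if_neg (fun h' => h (hR p j i h'))]

lemma bil_KR (s : ℝ) (p : ℕ) (f g : X.c.Lam → ℝ → ℝ) :
    bil (KR R s p) f g = Real.log p ^ s * Q (R p) f g := by
  classical
  unfold bil Q
  rw [Finset.mul_sum]
  have e1 : ∀ c c' : X.c.Lam, KR R s p c c' * I (fun x => f c x * g c' x) =
      if (c, c') ∈ R p then Real.log p ^ s * I (fun x => f c x * g c' x) else 0 := by
    intro c c'
    unfold KR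
    by_cases h : (c, c') ∈ R p
    · rw [if_pos h, if_pos h]
    · rw [if_neg h, if_neg h, zero_mul]
  simp_rw [e1]
  rw [← Finset.sum_product']
  rw [← Finset.sum_filter]
  refine Finset.sum_congr ?_ fun x _ => rfl
  ext x
  simp

/-- restriction of the pairs of a tie to the items of its children -/
lemma Q_PNg (F : TF X u p t₁ t₀) :
    Q (R p) (fun j => ((X.c.D.par Y).toFT u.B (u.A * p) t₁).U 1 j)
      (fun j => ((X.c.D.par Y).toFT (u.B * p) u.A t₀).U 1 j) =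
    Q (PNg R p t₁ t₀) (UP X Y u p t₁ Finset.univ) (UN X Y u p t₀ Finset.univ) := by
  classical
  have e1 : UP X Y u p t₁ Finset.univ =
      fun j => ((X.c.D.par Y).toFT u.B (u.A * p) t₁).U 1 j := ClosR758.rv_univ _
  have e0 : UN X Y u p t₀ Finset.univ =
      fun j => ((X.c.D.par Y).toFT (u.B * p) u.A t₀).U 1 j := ClosR758.rv_univ _
  rw [e1, e0]
  unfold Q
  symm
  refine Finset.sum_subset (Finset.filter_subset _ _) fun x hx hn => ?_
  by_contra h0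
  obtain ⟨y, y1, y2⟩ := exists_of_I_ne h0
  obtain ⟨m1, -⟩ := Par.supp _ F.b0 F.f1 (F.w1 Y) (one_dvd _) y1
  obtain ⟨m0, -⟩ := Par.supp _ (Nat.mul_pos F.b0 F.pr.pos) F.f0 (F.w0 Y) (one_dvd _) y2
  exact hn (mem_PNg.2 ⟨hx, m1, m0⟩)

/-- **P against N energy of the tree of a node** -/
theorem pn_eqG (s : ℝ) : ∀ (τ : IT) (u : NS), All (NF X) u τ →
    pn (KR R s) ((X.c.D.par X.Y).toDT X.c.sp u.B u.A τ) =
      2 * GW R X.Y Finset.univ (fun p => Real.log p ^ s) u τ := by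
  intro τ
  induction τ with
  | leaf S => intro u h; exact (mul_zero 2).symm
  | br p Sp t₁ t₀ ih₁ ih₀ =>
    intro u h
    have F := tF h.1.nd
    have v1' : ((X.c.D.par X.Y).toDT X.c.sp u.B (u.A * p) t₁).g.val =
      fun j => ((X.c.D.par X.Y).toFT u.B (u.A * p) t₁).U 1 j := dt_val (X := X) h.2.1.self.nd
    have v0' : ((X.c.D.par X.Y).toDT X.c.sp (u.B * p) u.A t₀).g.val =
      fun j => ((X.c.D.par X.Y).toFT (u.B * p) u.A t₀).U 1 j := dt_val (X := X) h.2.2.self.nd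
    have i1' : pn (KR R s) ((X.c.D.par X.Y).toDT X.c.sp u.B (u.A * p) t₁) = 2 *
      GW R X.Y Finset.univ (fun p => Real.log p ^ s) ⟨p, u.c / (1 - 1 / (p : ℝ)), u.A * p, u.B⟩ t₁ :=
      ih₁ ⟨p, u.c / (1 - 1 / (p : ℝ)), u.A * p, u.B⟩ h.2.1
    have i0' : pn (KR R s) ((X.c.D.par X.Y).toDT X.c.sp (u.B * p) u.A t₀) = 2 *
      GW R X.Y Finset.univ (fun p => Real.log p ^ s) ⟨p, u.c * p, u.A, u.B * p⟩ t₀ :=
      ih₀ ⟨p, u.c * p, u.A, u.B * p⟩ h.2.2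
    show (1 - 1 / (p : ℝ)) * pn (KR R s) ((X.c.D.par X.Y).toDT X.c.sp u.B (u.A * p) t₁) +
      1 / (p : ℝ) * pn (KR R s) ((X.c.D.par X.Y).toDT X.c.sp (u.B * p) u.A t₀) +
      1 / (p : ℝ) * (2 * bil (KR R s p) ((X.c.D.par X.Y).toDT X.c.sp u.B (u.A * p) t₁).g.val
        ((X.c.D.par X.Y).toDT X.c.sp (u.B * p) u.A t₀).g.val) =
      2 * (Real.log p ^ s * PG R X.Y Finset.univ u p t₁ t₀ +
        ((1 - 1 / (p : ℝ)) * GW R X.Y Finset.univ (fun p => Real.log p ^ s)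
          ⟨p, u.c / (1 - 1 / (p : ℝ)), u.A * p, u.B⟩ t₁ +
        1 / (p : ℝ) * GW R X.Y Finset.univ (fun p => Real.log p ^ s)
          ⟨p, u.c * p, u.A, u.B * p⟩ t₀))
    rw [i1', i0', v1', v0', bil_KR, Q_PNg (Y := X.Y) F]
    show _ = 2 * (Real.log p ^ s * (1 / (p : ℝ) * Q (PNg R p t₁ t₀)
      (UP X X.Y u p t₁ Finset.univ) (UN X X.Y u p t₀ Finset.univ)) + _)
    ring
  | add b t₁ t₀ ih₁ ih₀ =>
    intro u h
    have i1 : pn (KR R s) ((X.c.D.par X.Y).toDT X.c.sp u.B u.A t₁) = 2 *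
      GW R X.Y Finset.univ (fun p => Real.log p ^ s) ⟨b + 1, u.c, u.A, u.B⟩ t₁ :=
      ih₁ ⟨b + 1, u.c, u.A, u.B⟩ h.2.1
    have i0 : pn (KR R s) ((X.c.D.par X.Y).toDT X.c.sp u.B u.A t₀) = 2 *
      GW R X.Y Finset.univ (fun p => Real.log p ^ s) ⟨b + 1, u.c, u.A, u.B⟩ t₀ :=
      ih₀ ⟨b + 1, u.c, u.A, u.B⟩ h.2.2
    show pn (KR R s) ((X.c.D.par X.Y).toDT X.c.sp u.B u.A t₁) +
      pn (KR R s) ((X.c.D.par X.Y).toDT X.c.sp u.B u.A t₀) =
      2 * (GW R X.Y Finset.univ (fun p => Real.log p ^ s) ⟨b + 1, u.c, u.A, u.B⟩ t₁ +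
        GW R X.Y Finset.univ (fun p => Real.log p ^ s) ⟨b + 1, u.c, u.A, u.B⟩ t₀)
    rw [i1, i0]
    ring
  | up b Sp t ih => intro u h; exact ih ⟨b, u.c, u.A, u.B⟩ h.2
  | pl b t ih =>
    intro u h
    have i1 : pn (KR R s) ((X.c.D.par X.Y).toDT X.c.sp u.B (u.A * b) t) = 2 *
      GW R X.Y Finset.univ (fun p => Real.log p ^ s) ⟨b + 1, u.c, u.A * b, u.B⟩ t :=
      ih ⟨b + 1, u.c, u.A * b, u.B⟩ h.2
    show (1 - (0:ℝ)) * pn (KR R s) ((X.c.D.par X.Y).toDT X.c.sp u.B (u.A * b) t) +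
      0 * pn (KR R s) (.leaf ((X.c.D.par X.Y).rho b) fun _ _ => 0) + 0 * _ =
      2 * GW R X.Y Finset.univ (fun p => Real.log p ^ s) ⟨b + 1, u.c, u.A * b, u.B⟩ t
    rw [i1]
    ring
  | far b t₁ t₀ ih₁ ih₀ =>
    intro u h
    have i1 : pn (KR R s) ((X.c.D.par X.Y).toDT X.c.sp u.B u.A t₁) = 2 *
      GW R X.Y Finset.univ (fun p => Real.log p ^ s) ⟨b + 1, u.c, u.A, u.B⟩ t₁ :=
      ih₁ ⟨b + 1, u.c, u.A, u.B⟩ h.2.1
    have i0 : pn (KR R s) ((X.c.D.par X.Y).toDT X.c.sp u.B u.A t₀) = 2 *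
      GW R X.Y Finset.univ (fun p => Real.log p ^ s) ⟨b + 1, u.c, u.A, u.B⟩ t₀ :=
      ih₀ ⟨b + 1, u.c, u.A, u.B⟩ h.2.2
    show pn (KR R s) ((X.c.D.par X.Y).toDT X.c.sp u.B u.A t₁) +
      pn (KR R s) ((X.c.D.par X.Y).toDT X.c.sp u.B u.A t₀) =
      2 * (GW R X.Y Finset.univ (fun p => Real.log p ^ s) ⟨b + 1, u.c, u.A, u.B⟩ t₁ +
        GW R X.Y Finset.univ (fun p => Real.log p ^ s) ⟨b + 1, u.c, u.A, u.B⟩ t₀)
    rw [i1, i0]
    ring

/-- **one P-chain in one block** of the relation `R` : the hypothesis of the walk -/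
def ChB (X : Ctx N γ p0 P₀) (R : ℕ → Finset (X.c.Lam × X.c.Lam)) (Y : Finset (ℕ × ℕ × Finset ℕ))
    (A : Finset X.c.Lam) (s' : ℝ) : Prop :=
  ∀ (P : ℕ), p0 < 2 * P → ∀ (u : NS) (τ : IT), All (NF X) u τ → ¬ isL τ → P ≤ tp τ →
    tp τ < 2 * P → HG R Y A P u τ ≤ Real.log P ^ (-s') * Mn X u τ

end ctx

/-! ### the walk -/

set_option maxHeartbeats 1000000 in
/-- **the energy of the separated P|N pairs over the whole tree**, from one P-chain in one block -/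
theorem walkG (N : Skel189.Num) {s A' : ℝ} (hs : 0 ≤ s) (hA' : 0 ≤ A') : ∃ p₁ : ℕ, ∀ p0 ≥ p₁,
    ∀ (γ : ℝ) (P₀ : ℕ) (X : Ctx N γ p0 P₀) (R : ℕ → Finset (X.c.Lam × X.c.Lam))
    (Y : Finset (ℕ × ℕ × Finset ℕ)) (A : Finset X.c.Lam) (s' : ℝ), s + N.B + A' + 4 ≤ s' →
    ChB X R Y A s' → ∀ (u : NS) (τ : IT), All (NF X) u τ →
    GW R Y A (fun p => Real.log p ^ s) u τ ≤ Real.log p0 ^ (-A') * Mn X u τ := by
  have hB : 0 ≤ N.B := by
    have h1 := N.hB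
    have h2 := N.hC1
    have h3 := N.hc2
    linarith
  obtain ⟨p2, h2⟩ := dyadic N.B s A' hB hs hA'
  refine ⟨p2 + 16, fun p0 hp0 γ P₀ X R Y A s' hs' hch u τ hA => ?_⟩
  set K := tp τ + 1 with hK
  set S := Finset.Ico (Nat.log 2 p0) K with hS
  have hlog : ∀ k ∈ S, p0 < 2 * 2 ^ k ∧ 8 ≤ 2 ^ k := by
    intro k hk
    have hk1 : Nat.log 2 p0 ≤ k := (Finset.mem_Ico.1 hk).1
    have h3 : p0 < 2 ^ (Nat.log 2 p0 + 1) := Nat.lt_pow_succ_log_self (by norm_num) p0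
    have h4 : 2 ^ (Nat.log 2 p0) ≤ 2 ^ k := Nat.pow_le_pow_right (by norm_num) hk1
    rw [pow_succ] at h3
    omega
  have hf : ∀ p, p.Prime → p0 < p → p ≤ tp τ → Real.log p ^ s ≤
      ∑ k ∈ S, (2 * Real.log ((2 ^ k : ℕ) : ℝ)) ^ s * RtS28.blk (2 ^ k) p := by
    intro p hp hp0' hpt
    set k := Nat.log 2 p with hk
    have hkp : 2 ^ k ≤ p := Nat.pow_log_le_self 2 hp.ne_zero
    have hpk : p < 2 ^ (k + 1) := Nat.lt_pow_succ_log_self (by norm_num) p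
    have hkS : k ∈ S := by
      refine Finset.mem_Ico.2 ⟨Nat.log_mono_right hp0'.le, ?_⟩
      have : k < 2 ^ k := Nat.lt_two_pow_self
      omega
    have hk8 := (hlog k hkS).2
    have hb : RtS28.blk (2 ^ k) p = 1 := by
      unfold RtS28.blk
      rw [if_pos ⟨hkp, by rw [pow_succ] at hpk; omega⟩]
    have hlp : Real.log p ≤ 2 * Real.log ((2 ^ k : ℕ) : ℝ) :=
      log_two_mul (by omega) (by rw [pow_succ] at hpk; omega) hp.pos
    have hlp0 : 0 ≤ Real.log (p:ℝ) := Real.log_natCast_nonneg p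
    refine (Real.rpow_le_rpow hlp0 hlp hs).trans ?_
    refine le_trans (le_of_eq ?_) (Finset.single_le_sum (f := fun k =>
      (2 * Real.log ((2 ^ k : ℕ) : ℝ)) ^ s * RtS28.blk (2 ^ k) p) (fun i _ => ?_) hkS)
    · show _ = (2 * Real.log ((2 ^ k : ℕ) : ℝ)) ^ s * RtS28.blk (2 ^ k) p
      rw [hb, mul_one]
    · refine mul_nonneg (Real.rpow_nonneg ?_ _) ?_
      · exact mul_nonneg (by norm_num) (Real.log_natCast_nonneg _)
      · unfold RtS28.blk; split_ifs <;> norm_num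
  have hM0 := Mn_nonneg hA.self
  have e1 := GW_mono (R := R) (Y := Y) (A := A) hf τ u hA le_rfl
  rw [GW_sum (R := R) (Y := Y) (A := A) S (fun k => (2 * Real.log ((2 ^ k : ℕ) : ℝ)) ^ s)
    (fun k => RtS28.blk (2 ^ k)) τ u] at e1
  refine e1.trans ?_
  have e2 : ∀ k ∈ S, (2 * Real.log ((2 ^ k : ℕ) : ℝ)) ^ s * GW R Y A (RtS28.blk (2 ^ k)) u τ ≤
      (2 * Real.log ((2 ^ k : ℕ) : ℝ)) ^ s *
      (Real.log ((2 ^ k : ℕ) : ℝ) ^ (-(s + N.B + A' + 4)) *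
        (1 + 2 * (2 * Real.log ((2 ^ k : ℕ) : ℝ)) ^ N.B)) * Mn X u τ := by
    intro k hk
    obtain ⟨hk1, hk8⟩ := hlog k hk
    have hl1 : 1 ≤ Real.log ((2 ^ k : ℕ) : ℝ) := Bld532.one_le_log_nat (by omega)
    have hl0 : 0 ≤ Real.log ((2 ^ k : ℕ) : ℝ) := by linarith
    set κ : ℝ := Real.log ((2 ^ k : ℕ) : ℝ) ^ (-(s + N.B + A' + 4)) with hκ
    have hκ0 : 0 ≤ κ := Real.rpow_nonneg hl0 _
    have i1 := blkB (R := R) (Y := Y) (A := A) (P := 2 ^ k) hκ0 (fun u' τ' hA'' hl' hP' ht' => by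
      refine (hch (2 ^ k) hk1 u' τ' hA'' hl' hP' ht').trans ?_
      refine mul_le_mul_of_nonneg_right ?_ (Mn_nonneg hA''.self)
      exact Real.rpow_le_rpow_of_exponent_le hl1 (by linarith)) τ u hA
    have i2 : SS X (2 ^ k) (2 * 2 ^ k) ≤ 2 * (2 * Real.log ((2 ^ k : ℕ) : ℝ)) ^ N.B :=
      SS_block X (by omega) hB
    rw [mul_assoc]
    refine mul_le_mul_of_nonneg_left (i1.trans ?_) (Real.rpow_nonneg (by positivity) _)
    refine mul_le_mul_of_nonneg_right (mul_le_mul_of_nonneg_left ?_ hκ0) hM0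
    linarith
  refine (Finset.sum_le_sum e2).trans ?_
  rw [← Finset.sum_mul]
  exact mul_le_mul_of_nonneg_right (h2 p0 (by omega) K) hM0

/-- **the root bound** of the kernel of a column relation, from one P-chain in one block -/
theorem pn_rootG (N : Skel189.Num) {s A' : ℝ} (hs : 0 ≤ s) (hA' : 0 ≤ A') : ∃ p₁ : ℕ, ∀ p0 ≥ p₁,
    ∀ (γ : ℝ) (P₀ : ℕ), 2 ≤ P₀ → ∀ (X : Ctx N γ p0 P₀) (R : ℕ → Finset (X.c.Lam × X.c.Lam))
    (s' : ℝ), s + N.B + A' + 5 ≤ s' → ChB X R X.Y Finset.univ s' → ∀ j₀ : X.c.Lam,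
    All (fun u τ => pn (KR R s) (X.self u τ Finset.univ).t ≤
      Real.log p0 ^ (-A') * X.mu j₀ u τ Finset.univ) ⟨top X.S, 1, 1, 1⟩ X.c.t := by
  obtain ⟨p1, h1⟩ := walkG N hs (show 0 ≤ A' + 1 by linarith)
  obtain ⟨p2, h2⟩ := ctx_NF N
  obtain ⟨p3, h3⟩ := Crest.Agent.R4.RseN207.log_large 2
  refine ⟨p1 + p2 + p3, fun p0 hp0 γ P₀ hP₀ X R s' hs' hch j₀ => ?_⟩
  have hall := h2 p0 (by omega) γ P₀ hP₀ X
  have hQE := AsmX26.ctx_QE X j₀ (Q' := fun _ _ => True)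
    (All.mono (fun _ _ _ => trivial) (ctx_NDt X))
  refine All.mono (fun u τ hh => ?_) ((Step588.All_All _ _ hall).and hQE)
  obtain ⟨h, g7⟩ := hh
  have hmu : X.mu j₀ u τ Finset.univ = Mn X u τ := g7.mass
  rw [hmu]
  show pn (KR R s) ((X.c.D.par X.Y).toDT X.c.sp u.B u.A τ) ≤ _
  rw [pn_eqG s τ u h]
  have k1 := h1 p0 (by omega) γ P₀ X R X.Y Finset.univ s' (by linarith) hch u τ h
  have k3 := h3 p0 (by omega)
  have hl0 : 0 < Real.log (p0:ℝ) := by linarith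
  have M0 : 0 ≤ Mn X u τ := Mn_nonneg h.self
  have e1 : Real.log (p0:ℝ) ^ (-A') = Real.log p0 * Real.log p0 ^ (-(A' + 1)) := by
    conv_rhs => rw [← Real.rpow_one (Real.log (p0:ℝ)), ← Real.rpow_mul hl0.le,
      ← Real.rpow_add hl0]
    congr 1; ring
  have e2 : 0 ≤ Real.log (p0:ℝ) ^ (-(A' + 1)) := Real.rpow_nonneg hl0.le _
  rw [e1]
  have e3 : 0 ≤ Real.log (p0:ℝ) ^ (-(A' + 1)) * Mn X u τ := mul_nonneg e2 M0
  nlinarith

end Crest.Agent.R4P.RtG28
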