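import Crest.Agent.R4P.RtV_28
import Crest.Agent.R4P.XmO_37
import Crest.Agent.R4P.AcT_41

/-!
R4 (S0004), powers pass, helper28: **P|N pairs of sparse labels at a tie, arbitrary offsets** (over
`RtV_28`, `RtW_28`, `XmN_37`, `XmO_37`).

* `TieR` : the hypotheses at one tie node: exact centres of the related pairs with a common point
  (offsets `ρ₁` of the P items, `ρ₀` of the N items, both on the circle of the node), labels of
  denominator `≥ (log p)^c`, one of the two pieces late, one label with a cofactor `≥ (log p)^U` or two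
  labels with very different denominators.
* **`tie_off`** : `PG ≤ (1/p) (16 / √U0 + C Lp^(-δ/16)) (log p)^(B+2) mass`.
* **`tib_off`** : `TiB X R Y A s'`.
-/

set_option autoImplicit false
set_option linter.unusedSectionVars false
set_option linter.unusedVariables false

open MeasureTheory Filter

namespace Crest.Agent.R4P.RtH28

open Crest.Agent.R4P.Cnt588 Crest.Agent.R4P.Item758 Crest.Agent.R4P.W363
open Crest.Agent.R4P.Data758 Crest.Agent.R4P.OmSt532 Crest.Agent.R4P.OmData532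
open Crest.Agent.R4P.LfDat734 Crest.Agent.R4P.WPex189
open Crest.Agent.R4P.Bld532 (NS All NodeOk Bk)
open Crest.Agent.R4P.Step588 (NDt ND1 ctx_NDt uq_lt CT CT_pos)
open Crest.Agent.R4P.WalkIT579 (tp isL nodeOk_hi top_of_nodeOk)
open Crest.Agent.R4P.Skel189 Crest.Agent.R4P.RseSt23 Crest.Agent.R4P.RseNd23
open Crest.Agent.R4P.RtC28 (TF tF Q_eq_sum cof1 cof2 UP UN)
open Crest.Agent.R4.HVW560 (cof)
open Crest.Agent.R4.AvgItem710 (Dp mul_cof mul_cof' cof_pos cof_coprime)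
open Crest.Agent.R4P.AvgItem710
open Crest.Agent.R4.ClosL758 Crest.Agent.R4.ClosR758 Crest.Agent.R4.Tour104
open Crest.Agent.R4P.Frame758
open Crest.Agent.R4.Soft104 (w)
open Crest.Agent.R4P.RtS28 (Mn Mn_nonneg Mn_br Ws_union)
open Crest.Agent.R4P.RtG28 Crest.Agent.R4P.RtW28
open Crest.Agent.R4P.NcE14 (Nc)
open Crest.Agent.R4P.GcdK37 (ind ind_t ind_f ind_nn ind_le)
open Crest.Agent.R4P.GcdS37 (rd)
open Crest.Agent.R4P.AcG41 (dt dt_spec Fam)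
open Crest.Agent.R4P.AcT41 (xy_max cof_dt)
open Crest.Agent.R4P.ShR18 (Co)
open Crest.Agent.R4P.RtE28 (KK RlT)
open Crest.Agent.R4P.RtF28 (mn)
open Crest.Agent.R4P.RtV28 (tw tie_min)
open Crest.Agent.R4P.GcdU37 (Tl)
open Crest.Agent.R4P.XmO37 (Tth)
open Crest.Agent.R4P

section ctx
variable {N : Skel189.Num} {γ : ℝ} {p0 P₀ : ℕ}

/-- the P cofactor and the N cofactor of a pair of items at a tie, on the circle of the children -/
noncomputable def cD (u : NS) (p q r : ℕ) : ℕ × ℕ := rd (q / (u.A * p)) (r / u.A)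

/-- a related pair with a common point on the circle of the node -/
structure Rpt (X : Ctx N γ p0 P₀) (R : ℕ → Finset (X.c.Lam × X.c.Lam)) (u : NS) (p : ℕ) (t₁ t₀ : IT)
    (x : X.c.Lam × X.c.Lam) (y : ℝ) (a a' : ℤ) : Prop where
  rl : x ∈ R p
  i1 : x.1.1.1 ∈ t₁.items
  i2 : x.2.1.1 ∈ t₀.items
  s1 : x.1.1.1 ∈ X.S'
  s2 : x.2.1.1 ∈ X.S'
  h1 : Tth X u x.1 y a
  h2 : Tth X u x.2 y a'

/-- **hypotheses at a tie** : first piece present, second piece missing -/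
structure TieR (X : Ctx N γ p0 P₀) (R : ℕ → Finset (X.c.Lam × X.c.Lam)) (u : NS) (p : ℕ) (t₁ t₀ : IT)
    (ρ₁ ρ₀ : ℕ → ℚ) (Lp U0 A δ : ℝ) : Prop where
  ex : ∀ x y a a', Rpt X R u p t₁ t₀ x y a a' →
    ((a : ℚ) + ρ₁ x.1.1.1) * (x.2.1.1 / u.A : ℕ) = (a' + ρ₀ x.2.1.1) * (x.1.1.1 / u.A : ℕ)
  d1 : ∀ x y a a', Rpt X R u p t₁ t₀ x y a a' → Lp ≤ ((ρ₁ x.1.1.1).den : ℝ)
  d2 : ∀ x y a a', Rpt X R u p t₁ t₀ x y a a' → Lp ≤ (((p : ℚ) * ρ₀ x.2.1.1).den : ℝ)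
  lt : ∀ x y a a', Rpt X R u p t₁ t₀ x y a a' →
    1 ≤ KK (ρ₁ x.1.1.1) (p * ρ₀ x.2.1.1) ^ A * RB X u x.1.1.1 ∨
    1 ≤ KK (ρ₁ x.1.1.1) (p * ρ₀ x.2.1.1) ^ A * (p * RB X u x.2.1.1)
  sp : ∀ x y a a', Rpt X R u p t₁ t₀ x y a a' →
    (ρ₁ x.1.1.1 = ρ₀ x.2.1.1 ∧ (U0 ≤ (cD u p x.1.1.1 x.2.1.1).1 ∨
      U0 ≤ (cD u p x.1.1.1 x.2.1.1).2)) ∨
    KK (ρ₁ x.1.1.1) (p * ρ₀ x.2.1.1) ^ δ * (ρ₁ x.1.1.1).den ≤ (p * ρ₀ x.2.1.1).den ∨
    KK (ρ₁ x.1.1.1) (p * ρ₀ x.2.1.1) ^ δ * (p * ρ₀ x.2.1.1).den ≤ (ρ₁ x.1.1.1).den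

open Classical in
/-- one label per pair, or lacunary labels -/
def TieL (X : Ctx N γ p0 P₀) (R : ℕ → Finset (X.c.Lam × X.c.Lam)) (u : NS) (p : ℕ) (t₁ t₀ : IT)
    (ρ₁ ρ₀ : ℕ → ℚ) (Lp δ : ℝ) : Prop :=
  (∀ x y a a', Rpt X R u p t₁ t₀ x y a a' → ρ₁ x.1.1.1 = ρ₀ x.2.1.1) ∨
    (∑ r ∈ ((t₁.items.filter (· ∈ X.S')).image ρ₁).filter (fun r => Lp ≤ (r.den : ℝ)),
      (r.den : ℝ) ^ (-(δ / 16)) ≤ 1 ∧
     ∑ r ∈ ((t₀.items.filter (· ∈ X.S')).image (fun q => (p : ℚ) * ρ₀ q)).filter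
      (fun r => Lp ≤ (r.den : ℝ)), (r.den : ℝ) ^ (-(δ / 16)) ≤ 1)

variable {X : Ctx N γ p0 P₀} {R : ℕ → Finset (X.c.Lam × X.c.Lam)}
  {Y : Finset (ℕ × ℕ × Finset ℕ)} {Aa : Finset X.c.Lam} {u : NS} {p : ℕ}
  {Sp : Finset ℕ} {t₁ t₀ : IT} {ρ₁ ρ₀ : ℕ → ℚ} {Lp U0 A δ : ℝ}

/-- the cofactors -/
lemma cD_eq (F : TF X u p t₁ t₀) {q r : ℕ} (hq : q ∈ t₁.items) (hr : r ∈ t₀.items) :
    cof (r / u.A) (q / u.A) = (cD u p q r).2 ∧ cof (q / u.A) (r / u.A) = p * (cD u p q r).1 ∧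
      0 < (cD u p q r).1 ∧ 0 < (cD u p q r).2 := by
  obtain ⟨c1, c2, -, -⟩ := cof_dt F hq hr
  have e1 : (dt (r / u.A) (q / (u.A * p))).1 = (cD u p q r).2 := by
    show (r / u.A) / Nat.gcd (r / u.A) (q / (u.A * p)) = (r / u.A) / Nat.gcd (q / (u.A * p)) (r / u.A)
    rw [Nat.gcd_comm]
  have e2 : (dt (r / u.A) (q / (u.A * p))).2 = (cD u p q r).1 := by
    show (q / (u.A * p)) / Nat.gcd (r / u.A) (q / (u.A * p)) =
      (q / (u.A * p)) / Nat.gcd (q / (u.A * p)) (r / u.A)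
    rw [Nat.gcd_comm]
  have hd1 := F.d1 q hq
  have hd0 := F.d0 r hr
  have w1 : 0 < q / (u.A * p) :=
    Nat.div_pos (Nat.le_of_dvd hd1.1 hd1.2) (Nat.mul_pos F.a0 F.pr.pos)
  have w0 : 0 < r / u.A := Nat.div_pos (Nat.le_of_dvd hd0.1 hd0.2.1) F.a0
  refine ⟨c1.trans e1, by rw [c2, e2], ?_, ?_⟩
  · exact Nat.div_pos (Nat.le_of_dvd w1 (Nat.gcd_dvd_left _ _)) (Nat.gcd_pos_of_pos_left _ w1)
  · exact Nat.div_pos (Nat.le_of_dvd w0 (Nat.gcd_dvd_right _ _)) (Nat.gcd_pos_of_pos_left _ w1)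

/-- a nonzero pair of items -/
lemma rpt_of (h : NDt X.par (w X.ψ) X.c.t u (.br p Sp t₁ t₀)) {q r : ℕ}
    (hne : pG R Y Aa u p t₁ t₀ (q, r) ≠ 0) :
    ∃ x y a a', Rpt X R u p t₁ t₀ x y a a' ∧ x.1.1.1 = q ∧ x.2.1.1 = r := by
  obtain ⟨m1, m0, hPE⟩ := pG_ne hne
  obtain ⟨j, j', hA, hA', ee, i1, i2, hR, y, a, a', o1, o2, l1, l2, l3, l4⟩ := link h hPE
  have e1 : j.1.1 = q := (congrArg Prod.fst ee).symm
  have e2 : j'.1.1 = r := (congrArg Prod.snd ee).symm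
  have hs1 : j.1.1 ∈ X.S' := by
    by_contra hc
    exact o1 (X.om_zero hc _ _)
  have hs2 : j'.1.1 ∈ X.S' := by
    by_contra hc
    exact o2 (X.om_zero hc _ _)
  rw [Nat.cast_one, div_one] at l1 l2 l3 l4
  exact ⟨(j, j'), y, a, a', ⟨hR, i1, i2, hs1, hs2, ⟨l1, l2⟩, ⟨l3, l4⟩⟩, e1, e2⟩

/-- exact centres with the cofactors -/
lemma ex_cof (F : TF X u p t₁ t₀) {q r : ℕ} (hq : q ∈ t₁.items) (hr : r ∈ t₀.items) {a a' : ℤ}
    {σ τ : ℚ} (h : ((a : ℚ) + σ) * (r / u.A : ℕ) = (a' + τ) * (q / u.A : ℕ)) :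
    ((a : ℚ) + σ) * ((cD u p q r).2 : ℕ) = (a' + τ) * (p * (cD u p q r).1 : ℕ) := by
  obtain ⟨c1, c2, -, -⟩ := cD_eq F hq hr
  have hd0 := F.d0 r hr
  have w0 : 0 < r / u.A := Nat.div_pos (Nat.le_of_dvd hd0.1 hd0.2.1) F.a0
  have hg0 : (0 : ℚ) < ((r / u.A).gcd (q / u.A) : ℕ) := by
    exact_mod_cast Nat.gcd_pos_of_pos_left _ w0
  have ew : ((r / u.A : ℕ) : ℚ) = ((r / u.A).gcd (q / u.A) : ℕ) * (cof (r / u.A) (q / u.A) : ℕ) := by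
    rw [Nat.gcd_comm (r / u.A)]
    exact_mod_cast (mul_cof' (w := q / u.A) (w' := r / u.A)).symm
  have ew' : ((q / u.A : ℕ) : ℚ) = ((r / u.A).gcd (q / u.A) : ℕ) * (cof (q / u.A) (r / u.A) : ℕ) := by
    rw [Nat.gcd_comm (r / u.A)]
    exact_mod_cast (mul_cof (w := q / u.A) (w' := r / u.A)).symm
  rw [ew, ew', c1, c2] at h
  apply mul_left_cancel₀ hg0.ne'
  linear_combination h

/-- **one pair of items** -/
theorem pG_off (h : NDt X.par (w X.ψ) X.c.t u (.br p Sp t₁ t₀))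
    (hT : TieR X R u p t₁ t₀ ρ₁ ρ₀ Lp U0 A δ) {q r : ℕ} (hq : q ∈ t₁.items) (hr : r ∈ t₀.items)
    (hs : q ∈ X.S') (hs' : r ∈ X.S') :
    pG R Y Aa u p t₁ t₀ (q, r) ≤ 2 / p * mn (fun q => q / (u.A * p)) (fun r => r / u.A) (RB X u)
      (fun r => p * RB X u r) q r := by
  have F := tF h
  obtain ⟨c1, c2, c3, c4⟩ := cD_eq F hq hr
  have hrr : ∀ q, 0 < X.c.rr q := (X.ok.rad Y).pos
  have hB : (0 : ℝ) < u.B := by exact_mod_cast h.B_pos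
  have hp : (0 : ℝ) < p := by exact_mod_cast F.pr.pos
  have key := pG_le (R := R) (Y := Y) (A := Aa) h (e := (q, r)) hq hr (C := (ρ₁ q : ℝ))
    (C' := (ρ₀ r : ℝ)) (δ := 0) le_rfl (fun x hx a1 a2 i1 i2 y a a' l1 l2 l3 l4 => by
      have hx1 := (mem_PNg.1 hx).1
      simp only at i1 i2 l1 l2 l3 l4 ⊢
      rw [Nat.cast_one, div_one] at l1 l2 l3 l4
      rw [← i1] at l1 l2
      rw [← i2] at l3 l4
      have k := hT.ex x y a a' ⟨hx1, by rw [i1]; exact hq, by rw [i2]; exact hr,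
        by rw [i1]; exact hs, by rw [i2]; exact hs', ⟨l1, l2⟩, ⟨l3, l4⟩⟩
      rw [i1, i2] at k
      have k2 := ex_cof F hq hr k
      rw [c1, c2]
      have k3 : ((a : ℝ) + (ρ₁ q : ℝ)) * ((cD u p q r).2 : ℕ) =
          (a' + (ρ₀ r : ℝ)) * ((p * (cD u p q r).1 : ℕ) : ℝ) := by exact_mod_cast k2
      rw [k3, sub_self, abs_zero])
  have d1' : (0 : ℝ) < ((cD u p q r).1 : ℝ) := by exact_mod_cast c3
  have d2' : (0 : ℝ) < ((cD u p q r).2 : ℝ) := by exact_mod_cast c4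
  have hx : 0 < RB X u q := mul_pos hB (hrr q)
  have hy : 0 < RB X u r := mul_pos hB (hrr r)
  have e1 : DA u.A (RB X u) (q, r) =
      max (((cD u p q r).2 : ℝ) * RB X u q) ((p * ((cD u p q r).1 : ℝ)) * RB X u r) := by
    unfold DA Crest.Agent.R4.AvgItem710.Dp
    simp only
    rw [c1, c2]
    push_cast
    rfl
  rw [e1] at key
  have k2 := xy_max hx hy d2' (mul_pos hp d1')
  have e2 : min (RB X u r / ((cD u p q r).2 : ℝ)) (RB X u q / (p * ((cD u p q r).1 : ℝ))) =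
      1 / p * mn (fun q => q / (u.A * p)) (fun r => r / u.A) (RB X u)
        (fun r => p * RB X u r) q r := by
    show _ = 1 / p * min (RB X u q / ((cD u p q r).1 : ℝ)) (p * RB X u r / ((cD u p q r).2 : ℝ))
    rw [mul_min_of_nonneg _ _ (by positivity : (0:ℝ) ≤ 1 / p), min_comm]
    congr 1
    · field_simp
    · field_simp
  rw [e2] at k2
  simp only at key
  calc pG R Y Aa u p t₁ t₀ (q, r) ≤ _ := key
    _ ≤ 2 * (1 / p * mn (fun q => q / (u.A * p)) (fun r => r / u.A) (RB X u)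
        (fun r => p * RB X u r) q r) * (2 * 0 + 1) := by
        rw [mul_zero, zero_add, mul_one, mul_one]
        linarith
    _ = _ := by ring

/-- the tails at the children of a tie -/
theorem tails (N : Skel189.Num) : ∃ p₁ : ℕ, ∀ p0 ≥ p₁, ∀ (γ : ℝ) (P₀ : ℕ) (X : Ctx N γ p0 P₀)
    (u : NS) (p : ℕ) (Sp : Finset ℕ) (t₁ t₀ : IT), All (NF X) u (.br p Sp t₁ t₀) →
    Tl p (tw p) (t₁.items.filter (· ∈ X.S')) (fun q => q / (u.A * p)) ∧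
    Tl p (tw p) (t₀.items.filter (· ∈ X.S')) (fun r => r / u.A) := by
  obtain ⟨p1, h1⟩ := XmN37.lg_nd N
  obtain ⟨p2, h2⟩ := Crest.Agent.R4.RseN207.log_large (2 * CT)
  refine ⟨p1 + p2 + 3, fun p0 hp0 γ P₀ X u p Sp t₁ t₀ h => ?_⟩
  have hO := h.1.nd.self.ok
  have hp0' : p0 < p := h.1.nd.self.node.2.2.1
  have q1 := h.2.1.self.nd
  have q0 := h.2.2.self.nd
  have hL := h2 p (by omega)
  have hl0 : 0 ≤ Real.log (p : ℝ) := Real.log_natCast_nonneg p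
  have htw : 2 * CT * Real.log p ≤ tw p := by
    unfold tw
    rw [Real.rpow_two]
    nlinarith
  have hlv : ∀ r : ℕ, r.Prime → r < p → r ≤ p := fun r _ hr => hr.le
  constructor
  · intro q hq z hz
    obtain ⟨hq1, hq2⟩ := Finset.mem_filter.1 hq
    obtain ⟨g1, g2⟩ := h1 p0 (by omega) γ P₀ X _ t₁ q1 p hp0'.le hlv q hq2 hq1
    refine (XmN37.tail_nd q1 hlv hq1 g1 hz (g2 z hz)).trans ?_
    exact mul_le_mul_of_nonneg_right htw (by positivity)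
  · intro q hq z hz
    obtain ⟨hq1, hq2⟩ := Finset.mem_filter.1 hq
    obtain ⟨g1, g2⟩ := h1 p0 (by omega) γ P₀ X _ t₀ q0 p hp0'.le hlv q hq2 hq1
    refine (XmN37.tail_nd q0 hlv hq1 g1 hz (g2 z hz)).trans ?_
    exact mul_le_mul_of_nonneg_right htw (by positivity)

open Classical in
/-- **the node theorem** -/
theorem tie_off {A δ : ℝ} (hA : 0 ≤ A) (hδ : 0 < δ) (hδ1 : δ ≤ 1) : ∃ K1 : ℝ, 1 ≤ K1 ∧ ∃ C : ℝ,
    1 ≤ C ∧ ∀ N : Skel189.Num, ∃ p₁ : ℕ, ∀ p0 ≥ p₁, ∀ (γ : ℝ) (P₀ : ℕ), 2 ≤ P₀ →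
    ∀ (X : Ctx N γ p0 P₀) (R : ℕ → Finset (X.c.Lam × X.c.Lam)) (Y : Finset (ℕ × ℕ × Finset ℕ))
    (Aa : Finset X.c.Lam) (u : NS) (p : ℕ) (Sp : Finset ℕ) (t₁ t₀ : IT) (ρ₁ ρ₀ : ℕ → ℚ)
    (Lp U0 : ℝ), All (NF X) u (.br p Sp t₁ t₀) → 1 ≤ U0 → (3 + Real.log p) ^ K1 ≤ Lp →
    2 * Real.log p ^ (N.B + N.c2 + 2) ≤ Lp → TieR X R u p t₁ t₀ ρ₁ ρ₀ Lp U0 A δ →
    TieL X R u p t₁ t₀ ρ₁ ρ₀ Lp δ →
    PG R Y Aa u p t₁ t₀ ≤ 1 / (p : ℝ) * (6 * (2 / √U0 + C * Lp ^ (-(δ / 16))) *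
      Real.log p ^ (N.B + 2) * Mn X u (.br p Sp t₁ t₀)) := by
  obtain ⟨K1, hK1, C, hC, h0⟩ := tie_min hA hδ hδ1
  refine ⟨K1, hK1, C, hC, fun N => ?_⟩
  obtain ⟨a, ha⟩ := NcE14.nce N
  obtain ⟨b, hb⟩ := tails N
  refine ⟨a + b + 3, ?_⟩
  intro p0 hp0 γ P₀ hP₀ X R Y Aa u p Sp t₁ t₀ ρ₁ ρ₀ Lp U0 hall hU0 hKL hBL hT hTL
  have hNF := hall.self
  have h := hNF.nd
  have hl : ¬ isL (IT.br p Sp t₁ t₀) := fun h => h
  have hn := ha p0 (by omega) γ P₀ hP₀ X u _ hNF hl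
  obtain ⟨T1, T0⟩ := hb p0 (by omega) γ P₀ X u p Sp t₁ t₀ hall
  have F := tF h
  have hp : (0 : ℝ) < p := by exact_mod_cast F.pr.pos
  have l1 : 1 ≤ Real.log (p : ℝ) := hn.l1
  have l0 : 0 < Real.log (p : ℝ) := by linarith
  have hNB : 0 ≤ N.B := by have := N.hB; have := N.hc2; have := N.hC1; linarith
  have hNc : 0 ≤ N.c2 := by have := N.hc2; linarith
  set FF := t₁.items.filter (· ∈ X.S') with hFF
  set GG := t₀.items.filter (· ∈ X.S') with hGG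
  have hF : ∀ r ∈ FF, r ∈ t₁.items ∧ r ∈ X.S' := fun r hr => Finset.mem_filter.1 hr
  have hG : ∀ q ∈ GG, q ∈ t₀.items ∧ q ∈ X.S' := fun q hq => Finset.mem_filter.1 hq
  have rF : ∀ r ∈ FF, 0 < RB X u r := fun r hr =>
    hn.R0 r (Finset.mem_union_left _ (hF r hr).1) (hF r hr).2
  have rG : ∀ q ∈ GG, 0 < RB X u q := fun q hq =>
    hn.R0 q (Finset.mem_union_right _ (hG q hq).1) (hG q hq).2
  set M : ℝ := Mn X u (.br p Sp t₁ t₀) with hM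
  have M0 : 0 ≤ M := mul_nonneg hn.c0.le (Finset.sum_nonneg fun q _ => hn.w0 q)
  have hfam : Fam FF GG (fun q => q / (u.A * p)) (fun r => r / u.A) (RB X u)
      (fun r => p * RB X u r) :=
    { pF := fun q hq => Nat.div_pos (Nat.le_of_dvd (F.d1 q (hF q hq).1).1 (F.d1 q (hF q hq).1).2)
        (Nat.mul_pos F.a0 F.pr.pos)
      pG := fun r hr => Nat.pos_of_ne_zero (h.div_ne (Finset.mem_union_right _ (hG r hr).1))
      iF := fun q hq q' hq' e => by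
        have d := (F.d1 q (hF q hq).1).2
        have d' := (F.d1 q' (hF q' hq').1).2
        have e' : q / (u.A * p) = q' / (u.A * p) := e
        rw [← Nat.mul_div_cancel' d, ← Nat.mul_div_cancel' d', e']
      iG := fun r hr r' hr' e => by
        have d := (F.d0 r (hG r hr).1).2.1
        have d' := (F.d0 r' (hG r' hr').1).2.1
        have e' : r / u.A = r' / u.A := e
        rw [← Nat.mul_div_cancel' d, ← Nat.mul_div_cancel' d', e']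
      rF := fun r hr => (rF r hr).le
      rG := fun q hq => mul_nonneg hp.le (rG q hq).le }
  have hmn0 : ∀ q ∈ FF, ∀ r ∈ GG, 0 ≤ mn (fun q => q / (u.A * p)) (fun r => r / u.A) (RB X u)
      (fun r => p * RB X u r) q r := fun q hq r hr => RtF28.mn_nn hfam.rF hfam.rG hq hr
  -- masses
  have tpe : tp (IT.br p Sp t₁ t₀) = p := rfl
  have sF : ∑ r ∈ FF, RB X u r ≤ Real.log p ^ 2 * M := by
    have a1 := hn.sumR (F := FF) (fun r hr => Finset.mem_union_left _ (hF r hr).1)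
      (fun r hr => (hF r hr).2)
    rw [tpe] at a1
    have a2 : u.c * Ws (w X.ψ) FF ≤ M := by
      refine mul_le_mul_of_nonneg_left (Finset.sum_le_sum_of_subset_of_nonneg
        (fun r hr => Finset.mem_union_left _ (hF r hr).1) fun q _ _ => hn.w0 q) hn.c0.le
    exact a1.trans (mul_le_mul_of_nonneg_left a2 (by positivity))
  have sG : ∑ r ∈ GG, p * RB X u r ≤ 2 * (Real.log p ^ 2 * Real.log p ^ N.B) * M := by
    have a1 := hn.sumR (F := GG) (fun r hr => Finset.mem_union_right _ (hG r hr).1)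
      (fun r hr => (hG r hr).2)
    rw [tpe] at a1
    have n := h.self.node
    obtain ⟨n1, n2, n3, n4, n5, n6, n7, n8, n9, n10, n11, n12, n13⟩ := n
    have hsg : X.par.sg p = Real.log p ^ N.B / p := rfl
    have a2 : u.c * Ws (w X.ψ) GG ≤ 2 * (Real.log p ^ N.B / p) * M := by
      calc u.c * Ws (w X.ψ) GG ≤ u.c * Ws (w X.ψ) t₀.items :=
            mul_le_mul_of_nonneg_left (Finset.sum_le_sum_of_subset_of_nonneg
              (Finset.filter_subset _ _) fun q _ _ => hn.w0 q) hn.c0.le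
        _ ≤ u.c * (2 * X.par.sg p * Ws (w X.ψ) (t₁.items ∪ t₀.items)) :=
            mul_le_mul_of_nonneg_left n12 hn.c0.le
        _ = 2 * X.par.sg p * (u.c * Ws (w X.ψ) (t₁.items ∪ t₀.items)) := by ring
        _ = 2 * (Real.log p ^ N.B / p) * M := by rw [hsg]; rfl
    have a3 := a1.trans (mul_le_mul_of_nonneg_left a2 (by positivity))
    rw [← Finset.mul_sum]
    calc (p : ℝ) * ∑ r ∈ GG, RB X u r ≤ p * (Real.log p ^ 2 * (2 * (Real.log p ^ N.B / p) * M)) :=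
          mul_le_mul_of_nonneg_left a3 hp.le
      _ = _ := by field_simp
  have bF : ∑ r ∈ FF, RB X u r ≤ Lp := by
    have a1 := hn.sumR' (F := FF) (fun r hr => Finset.mem_union_left _ (hF r hr).1)
      (fun r hr => (hF r hr).2)
    rw [tpe] at a1
    have a2 : Real.log (p:ℝ) ^ (N.c2 + 2) ≤ Real.log p ^ (N.B + N.c2 + 2) :=
      Real.rpow_le_rpow_of_exponent_le l1 (by linarith)
    have a3 : 0 ≤ Real.log (p:ℝ) ^ (N.B + N.c2 + 2) := by positivity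
    linarith
  have bG : ∑ r ∈ GG, p * RB X u r ≤ Lp := by
    have a1 := hn.miss (F := GG) (fun r hr => (hG r hr).1) (fun r hr => (hG r hr).2)
    rw [le_div_iff₀ hp] at a1
    rw [← Finset.mul_sum, mul_comm]
    exact a1.trans hBL
  -- the relation of the pairs
  have hRl : ∀ q ∈ FF, ∀ r ∈ GG, pG R Y Aa u p t₁ t₀ (q, r) ≠ 0 →
      RlT p Lp U0 A δ (fun q => q / (u.A * p)) (fun r => r / u.A) (RB X u) (fun r => p * RB X u r)
        ρ₁ (fun r => p * ρ₀ r) q r := by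
    intro q hq r hr hne
    obtain ⟨x, y, a, a', hx, e1, e2⟩ := rpt_of h hne
    have k1 := hT.ex x y a a' hx
    have k2 := hT.d1 x y a a' hx
    have k3 := hT.d2 x y a a' hx
    have k4 := hT.lt x y a a' hx
    have k5 := hT.sp x y a a' hx
    rw [e1, e2] at k1 k4 k5
    rw [e1] at k2
    rw [e2] at k3
    have k6 := ex_cof F (hF q hq).1 (hG r hr).1 k1
    exact
      { co := by
          refine ⟨a' * (p * (cD u p q r).1 : ℕ) - a * ((cD u p q r).2 : ℕ), ?_⟩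
          show (((cD u p q r).2 : ℕ) : ℚ) * ρ₁ q - ((cD u p q r).1 : ℕ) * (p * ρ₀ r) = _
          push_cast at k6 ⊢
          linear_combination k6
        d1 := k2
        d2 := k3
        lt := k4
        sp := by
          rcases k5 with k5 | k5
          · exact Or.inl ⟨by show (p:ℚ) * ρ₀ r = p * ρ₁ q; rw [k5.1], k5.2⟩
          · exact Or.inr k5 }
  have key := h0 ℕ ℕ p p Lp U0 FF GG (fun q => q / (u.A * p)) (fun r => r / u.A) (RB X u)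
    (fun r => p * RB X u r) ρ₁ (fun r => p * ρ₀ r)
    (fun q r => pG R Y Aa u p t₁ t₀ (q, r) ≠ 0) F.pr.two_le F.pr hU0 hKL bF bG hfam
    (fun r hr => (F.d0 r (hG r hr).1).2.2) T1 T0 hRl
    (by
      rcases hTL with hl | hl
      · refine Or.inl fun q hq r hr hne => ?_
        obtain ⟨x, y, a, a', hx, e1, e2⟩ := rpt_of h hne
        have k := hl x y a a' hx
        rw [e1, e2] at k
        show (p:ℚ) * ρ₀ r = p * ρ₁ q
        rw [k]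
      · exact Or.inr hl)
  -- the sum over the pairs of items
  have hsum : PG R Y Aa u p t₁ t₀ = ∑ e ∈ FF ×ˢ GG, pG R Y Aa u p t₁ t₀ e := by
    unfold PG
    rw [Q_eq_sum (X.c.D.par Y) (PNg R p t₁ t₀) (UP X Y u p t₁ Aa) (UN X Y u p t₀ Aa)
      (E := (X.c.D.par Y).PE (PNg R p t₁ t₀) (UP X Y u p t₁ Aa) (UN X Y u p t₀ Aa) ∪
        FF ×ˢ GG) Finset.subset_union_left, Finset.mul_sum]
    symm
    refine Finset.sum_subset Finset.subset_union_right fun e _ he => ?_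
    by_contra h0
    have h0' : pG R Y Aa u p t₁ t₀ (e.1, e.2) ≠ 0 := h0
    obtain ⟨x, y, a, a', hx, e1, e2⟩ := rpt_of h h0'
    exact he (Finset.mem_product.2 ⟨Finset.mem_filter.2 ⟨e1 ▸ hx.i1, e1 ▸ hx.s1⟩,
      Finset.mem_filter.2 ⟨e2 ▸ hx.i2, e2 ▸ hx.s2⟩⟩)
  have hpair : ∀ q ∈ FF, ∀ r ∈ GG, pG R Y Aa u p t₁ t₀ (q, r) ≤
      2 / p * (ind (pG R Y Aa u p t₁ t₀ (q, r) ≠ 0) *
        mn (fun q => q / (u.A * p)) (fun r => r / u.A) (RB X u) (fun r => p * RB X u r) q r) := by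
    intro q hq r hr
    by_cases h0 : pG R Y Aa u p t₁ t₀ (q, r) = 0
    · rw [h0]
      exact mul_nonneg (by positivity) (mul_nonneg (ind_nn _) (hmn0 q hq r hr))
    · have h1 := pG_off (Y := Y) (Aa := Aa) h hT (hF q hq).1 (hG r hr).1 (hF q hq).2 (hG r hr).2
      rw [ind_t h0, one_mul]
      exact h1
  rw [hsum, Finset.sum_product]
  have hg0 : 0 ≤ 2 / √U0 + C * Lp ^ (-(δ / 16)) := by
    have : 0 < Lp := lt_of_lt_of_le (by positivity) hKL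
    have : 0 ≤ C := by linarith
    positivity
  have e1 : ∑ q ∈ FF, ∑ r ∈ GG, pG R Y Aa u p t₁ t₀ (q, r) ≤ 2 / p *
      ((2 / √U0 + C * Lp ^ (-(δ / 16))) * (∑ q ∈ FF, RB X u q + ∑ r ∈ GG, p * RB X u r)) := by
    refine (Finset.sum_le_sum fun q hq => Finset.sum_le_sum fun r hr => hpair q hq r hr).trans ?_
    have e2 : ∑ q ∈ FF, ∑ r ∈ GG, 2 / (p:ℝ) * (ind (pG R Y Aa u p t₁ t₀ (q, r) ≠ 0) *
        mn (fun q => q / (u.A * p)) (fun r => r / u.A) (RB X u) (fun r => p * RB X u r) q r) =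
        2 / p * ∑ q ∈ FF, ∑ r ∈ GG, ind (pG R Y Aa u p t₁ t₀ (q, r) ≠ 0) *
        mn (fun q => q / (u.A * p)) (fun r => r / u.A) (RB X u) (fun r => p * RB X u r) q r := by
      rw [Finset.mul_sum]
      refine Finset.sum_congr rfl fun q _ => ?_
      rw [Finset.mul_sum]
    rw [e2]
    exact mul_le_mul_of_nonneg_left key (by positivity)
  refine e1.trans ?_
  have hLB : 1 ≤ Real.log (p:ℝ) ^ N.B := Real.one_le_rpow l1 hNB
  have e3 : ∑ q ∈ FF, RB X u q + ∑ r ∈ GG, p * RB X u r ≤ 3 * (Real.log p ^ (N.B + 2) * M) := by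
    have e4 : Real.log (p:ℝ) ^ (N.B + 2) = Real.log p ^ 2 * Real.log p ^ N.B := by
      rw [Real.rpow_add l0, Real.rpow_two]; ring
    rw [e4]
    have e5 : Real.log (p:ℝ) ^ 2 * M ≤ Real.log p ^ 2 * Real.log p ^ N.B * M := by
      refine mul_le_mul_of_nonneg_right ?_ M0
      have : 0 ≤ Real.log (p:ℝ) ^ 2 := by positivity
      nlinarith
    linarith
  calc 2 / (p:ℝ) * ((2 / √U0 + C * Lp ^ (-(δ / 16))) *
        (∑ q ∈ FF, RB X u q + ∑ r ∈ GG, p * RB X u r))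
      ≤ 2 / (p:ℝ) * ((2 / √U0 + C * Lp ^ (-(δ / 16))) * (3 * (Real.log p ^ (N.B + 2) * M))) :=
        mul_le_mul_of_nonneg_left (mul_le_mul_of_nonneg_left e3 hg0) (by positivity)
    _ = _ := by ring

/-- **every tie is good** : sparse labels of denominator `≥ (log p)^c`, cofactors `≥ (log p)^U` -/
theorem tib_off {A δ : ℝ} (hA : 0 ≤ A) (hδ : 0 < δ) (hδ1 : δ ≤ 1) : ∃ K2 : ℝ, 1 ≤ K2 ∧
    ∀ (N : Skel189.Num) (s' c U : ℝ), 2 * (s' + N.B + 3) ≤ U → 0 ≤ U → N.B + N.c2 + 3 ≤ c →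
    K2 ≤ c → 16 / δ * (s' + N.B + 3) ≤ c →
    ∃ p₁ : ℕ, ∀ p0 ≥ p₁, ∀ (γ : ℝ) (P₀ : ℕ), 2 ≤ P₀ →
    ∀ (X : Ctx N γ p0 P₀) (R : ℕ → Finset (X.c.Lam × X.c.Lam)) (Y : Finset (ℕ × ℕ × Finset ℕ))
    (Aa : Finset X.c.Lam),
    (∀ (u : NS) (p : ℕ) (Sp : Finset ℕ) (t₁ t₀ : IT), All (NF X) u (.br p Sp t₁ t₀) →
      ∃ ρ₁ ρ₀ : ℕ → ℚ, TieR X R u p t₁ t₀ ρ₁ ρ₀ (Real.log p ^ c) (Real.log p ^ U) A δ ∧
        TieL X R u p t₁ t₀ ρ₁ ρ₀ (Real.log p ^ c) δ) →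
    TiB X R Y Aa s' := by
  obtain ⟨K1, hK1, C, hC, h0⟩ := tie_off hA hδ hδ1
  refine ⟨2 * K1, by linarith, ?_⟩
  intro N s' c U hU hU0 hc1 hc2 hc3
  obtain ⟨a, ha⟩ := h0 N
  obtain ⟨b, hb⟩ := Crest.Agent.R4.RseN207.log_large (12 + 6 * C + 3)
  refine ⟨a + b + 3, ?_⟩
  intro p0 hp0 γ P₀ hP₀ X R Y Aa hyp u p Sp t₁ t₀ hall
  obtain ⟨ρ₁, ρ₀, hT, hTL⟩ := hyp u p Sp t₁ t₀ hall
  have hNF := hall.self
  have hp0' : p0 < p := hNF.nd.self.node.2.2.1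
  have hL := hb p (by omega)
  set L := Real.log (p : ℝ) with hLd
  have L3 : 3 ≤ L := by linarith
  have L1 : 1 ≤ L := by linarith
  have L0 : 0 < L := by linarith
  have M0 : 0 ≤ Mn X u (.br p Sp t₁ t₀) := Mn_nonneg hNF
  have hp : (0:ℝ) < p := by exact_mod_cast (by omega : 0 < p)
  have hK : (3 + L) ^ K1 ≤ L ^ c := by
    calc (3 + L) ^ K1 ≤ (L ^ (2:ℝ)) ^ K1 :=
          Real.rpow_le_rpow (by linarith) (by rw [Real.rpow_two]; nlinarith) (by linarith)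
      _ = L ^ (2 * K1) := by rw [← Real.rpow_mul L0.le]
      _ ≤ L ^ c := Real.rpow_le_rpow_of_exponent_le L1 hc2
  have hB : 2 * L ^ (N.B + N.c2 + 2) ≤ L ^ c := by
    calc 2 * L ^ (N.B + N.c2 + 2) ≤ L ^ (1:ℝ) * L ^ (N.B + N.c2 + 2) := by
          rw [Real.rpow_one]
          exact mul_le_mul_of_nonneg_right (by linarith) (by positivity)
      _ = L ^ (N.B + N.c2 + 3) := by rw [← Real.rpow_add L0]; congr 1; ring
      _ ≤ L ^ c := Real.rpow_le_rpow_of_exponent_le L1 hc1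
  have key := ha p0 (by omega) γ P₀ hP₀ X R Y Aa u p Sp t₁ t₀ ρ₁ ρ₀ (L ^ c) (L ^ U) hall
    (Real.one_le_rpow L1 hU0) hK hB hT hTL
  refine key.trans ?_
  refine mul_le_mul_of_nonneg_left ?_ (by positivity)
  refine mul_le_mul_of_nonneg_right ?_ M0
  have e1 : 2 / √(L ^ U) ≤ 2 * L ^ (-(s' + N.B + 3)) := by
    have a1 : √(L ^ U) = L ^ (U / 2) := by
      rw [Real.sqrt_eq_rpow, ← Real.rpow_mul L0.le]; congr 1; ring
    rw [a1, Real.rpow_neg L0.le, ← div_eq_mul_inv]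
    refine div_le_div_of_nonneg_left (by norm_num) (by positivity) ?_
    exact Real.rpow_le_rpow_of_exponent_le L1 (by linarith)
  have e2 : (L ^ c) ^ (-(δ / 16)) ≤ L ^ (-(s' + N.B + 3)) := by
    rw [← Real.rpow_mul L0.le]
    refine Real.rpow_le_rpow_of_exponent_le L1 ?_
    have h1 : δ / 16 * (16 / δ * (s' + N.B + 3)) ≤ δ / 16 * c :=
      mul_le_mul_of_nonneg_left hc3 (by positivity)
    have h2 : δ / 16 * (16 / δ * (s' + N.B + 3)) = s' + N.B + 3 := by field_simp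
    linarith
  have e3 : L ^ (-(s' + N.B + 3)) * L ^ (N.B + 2) = L ^ (-s') * L⁻¹ := by
    rw [← Real.rpow_neg_one L, ← Real.rpow_add L0, ← Real.rpow_add L0]
    congr 1; ring
  have e4 : 0 < L ^ (-s') := Real.rpow_pos_of_pos L0 _
  have e5 : 0 < L ^ (N.B + 2) := Real.rpow_pos_of_pos L0 _
  have hC0 : 0 ≤ C := by linarith
  calc 6 * (2 / √(L ^ U) + C * (L ^ c) ^ (-(δ / 16))) * L ^ (N.B + 2)
      ≤ 6 * (2 * L ^ (-(s' + N.B + 3)) + C * L ^ (-(s' + N.B + 3))) * L ^ (N.B + 2) := by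
        refine mul_le_mul_of_nonneg_right ?_ e5.le
        refine mul_le_mul_of_nonneg_left ?_ (by norm_num)
        exact add_le_add e1 (mul_le_mul_of_nonneg_left e2 hC0)
    _ = (12 + 6 * C) * (L ^ (-(s' + N.B + 3)) * L ^ (N.B + 2)) := by ring
    _ = (12 + 6 * C) * L⁻¹ * L ^ (-s') := by rw [e3]; ring
    _ ≤ 1 * L ^ (-s') := by
        refine mul_le_mul_of_nonneg_right ?_ e4.le
        rw [← div_eq_mul_inv, div_le_one L0]
        linarith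
    _ = _ := one_mul _

/-- **automatic large cofactor**: one label of denominator `≥ p U0` -/
lemma cof_auto (F : TF X u p t₁ t₀) {q r : ℕ} (hq : q ∈ t₁.items) (hr : r ∈ t₀.items) {a a' : ℤ}
    {σ : ℚ} (h : ((a : ℚ) + σ) * (r / u.A : ℕ) = (a' + σ) * (q / u.A : ℕ)) {U0 : ℝ}
    (hU : p * U0 ≤ (σ.den : ℝ)) (hU0 : 0 ≤ U0) :
    U0 ≤ ((cD u p q r).1 : ℝ) ∨ U0 ≤ ((cD u p q r).2 : ℝ) := by
  obtain ⟨-, -, c3, c4⟩ := cD_eq F hq hr
  have k := ex_cof F hq hr h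
  have hco : Co (((cD u p q r).2 : ℕ) * σ) ((p * (cD u p q r).1 : ℕ) * σ) := by
    refine ⟨a' * (p * (cD u p q r).1 : ℕ) - a * ((cD u p q r).2 : ℕ), ?_⟩
    push_cast at k ⊢
    linear_combination k
  have hmod : (cD u p q r).2 ≡ p * (cD u p q r).1 [MOD σ.den] := hco.mod (Co.refl _)
  have hne : (cD u p q r).2 ≠ p * (cD u p q r).1 := by
    intro he
    have h1 : p ∣ (cD u p q r).2 := ⟨_, he⟩
    have h2 : (cD u p q r).2 ∣ r / u.A := Nat.div_dvd_of_dvd (Nat.gcd_dvd_right _ _)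
    exact (F.d0 r hr).2.2 (h1.trans h2)
  by_contra hc
  push Not at hc
  have hp : (0:ℝ) < p := by exact_mod_cast F.pr.pos
  have hp1 : (1:ℝ) ≤ p := by exact_mod_cast F.pr.one_le
  have b1 : (cD u p q r).2 < σ.den := by
    have h5 : U0 ≤ p * U0 := by nlinarith
    have : ((cD u p q r).2 : ℝ) < σ.den := hc.2.trans_le (h5.trans hU)
    exact_mod_cast this
  have b2 : p * (cD u p q r).1 < σ.den := by
    have : ((p * (cD u p q r).1 : ℕ) : ℝ) < σ.den := by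
      push_cast
      exact lt_of_lt_of_le (mul_lt_mul_of_pos_left hc.1 hp) hU
    exact_mod_cast this
  exact hne (Nat.ModEq.eq_of_lt_of_lt hmod b1 b2)

/-- **one label per pair** : the hypotheses at a tie -/
structure TieS (X : Ctx N γ p0 P₀) (R : ℕ → Finset (X.c.Lam × X.c.Lam)) (u : NS) (p : ℕ) (t₁ t₀ : IT)
    (ρ : ℕ → ℚ) (Lp U0 A : ℝ) : Prop where
  ex : ∀ x y a a', Rpt X R u p t₁ t₀ x y a a' →
    ((a : ℚ) + ρ x.1.1.1) * (x.2.1.1 / u.A : ℕ) = (a' + ρ x.2.1.1) * (x.1.1.1 / u.A : ℕ)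
  eq : ∀ x y a a', Rpt X R u p t₁ t₀ x y a a' → ρ x.1.1.1 = ρ x.2.1.1
  d1 : ∀ x y a a', Rpt X R u p t₁ t₀ x y a a' → Lp ≤ ((ρ x.1.1.1).den : ℝ)
  lt : ∀ x y a a', Rpt X R u p t₁ t₀ x y a a' →
    1 ≤ ((ρ x.1.1.1).den : ℝ) ^ A * RB X u x.1.1.1 ∨
    1 ≤ ((ρ x.1.1.1).den : ℝ) ^ A * (p * RB X u x.2.1.1)
  sp : ∀ x y a a', Rpt X R u p t₁ t₀ x y a a' → p * U0 ≤ ((ρ x.1.1.1).den : ℝ) ∨
    U0 ≤ (cD u p x.1.1.1 x.2.1.1).1 ∨ U0 ≤ (cD u p x.1.1.1 x.2.1.1).2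

/-- the denominator is not divisible by the tie -/
lemma den_np (F : TF X u p t₁ t₀) {q r : ℕ} (hq : q ∈ t₁.items) (hr : r ∈ t₀.items) {a a' : ℤ}
    {σ : ℚ} (h : ((a : ℚ) + σ) * (r / u.A : ℕ) = (a' + σ) * (q / u.A : ℕ)) :
    ((p : ℚ) * σ).den = σ.den := by
  have k := ex_cof F hq hr h
  have hco : Co (((cD u p q r).2 : ℕ) * σ) ((p * (cD u p q r).1 : ℕ) * σ) := by
    refine ⟨a' * (p * (cD u p q r).1 : ℕ) - a * ((cD u p q r).2 : ℕ), ?_⟩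
    push_cast at k ⊢
    linear_combination k
  have hmod : (cD u p q r).2 ≡ p * (cD u p q r).1 [MOD σ.den] := hco.mod (Co.refl _)
  refine RtE28.den_cop ((Nat.Prime.coprime_iff_not_dvd F.pr).2 fun hd => ?_)
  have h1 : p ∣ (cD u p q r).2 := ((hmod.of_dvd hd).dvd_iff (dvd_refl p)).2 (dvd_mul_right _ _)
  have h2 : (cD u p q r).2 ∣ r / u.A := Nat.div_dvd_of_dvd (Nat.gcd_dvd_right _ _)
  exact (F.d0 r hr).2.2 (h1.trans h2)

/-- one label per pair: all the hypotheses -/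
lemma TieS.tieR {ρ : ℕ → ℚ} (F : TF X u p t₁ t₀) (h : TieS X R u p t₁ t₀ ρ Lp U0 A) (hU0 : 0 ≤ U0)
    (δ : ℝ) : TieR X R u p t₁ t₀ ρ ρ Lp U0 A δ ∧ TieL X R u p t₁ t₀ ρ ρ Lp δ := by
  have hKK : ∀ x y a a', Rpt X R u p t₁ t₀ x y a a' →
      (((p : ℚ) * ρ x.2.1.1).den : ℝ) = ((ρ x.1.1.1).den : ℝ) ∧
      KK (ρ x.1.1.1) (p * ρ x.2.1.1) = ((ρ x.1.1.1).den : ℝ) := by
    intro x y a a' hx
    have k1 := h.ex x y a a' hx
    have k2 := h.eq x y a a' hx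
    rw [← k2] at k1
    have k3 := den_np F hx.i1 hx.i2 k1
    rw [← k2]
    unfold KK
    rw [k3, max_self]
    exact ⟨rfl, rfl⟩
  refine ⟨{ ex := h.ex, d1 := h.d1, d2 := fun x y a a' hx => ?_, lt := fun x y a a' hx => ?_,
            sp := fun x y a a' hx => Or.inl ⟨h.eq x y a a' hx, ?_⟩ }, Or.inl h.eq⟩
  · rw [(hKK x y a a' hx).1]; exact h.d1 x y a a' hx
  · rw [(hKK x y a a' hx).2]; exact h.lt x y a a' hx
  · rcases h.sp x y a a' hx with k | k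
    · have k1 := h.ex x y a a' hx
      have k2 := h.eq x y a a' hx
      rw [← k2] at k1
      exact cof_auto F hx.i1 hx.i2 k1 k hU0
    · exact k

/-- **exact centres of real labels** -/
lemma ex_real (h : NDt X.par (w X.ψ) X.c.t u (.br p Sp t₁ t₀)) (hpt : p ≤ top X.S)
    (hlam : X.c.lam p = 0) {x : X.c.Lam × X.c.Lam} {y : ℝ} {a a' : ℤ}
    (hx : Rpt X R u p t₁ t₀ x y a a') (hix : (X.c.world p x.1.1).1 = (X.c.world p x.2.1).1)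
    {σ σ' : ℚ} (s1 : X.c.st p x.1.1.1 = some σ) (s2 : X.c.st p x.2.1.1 = some σ') :
    ((a : ℚ) + u.B * σ) * (x.2.1.1 / u.A : ℕ) = (a' + u.B * σ') * (x.1.1.1 / u.A : ℕ) := by
  have g1 : x.1.1.1 ∈ (IT.br p Sp t₁ t₀).items := Finset.mem_union_left _ hx.i1
  have g2 : x.2.1.1 ∈ (IT.br p Sp t₁ t₀).items := Finset.mem_union_right _ hx.i2
  have l1 := hx.h1.1
  have l2 := hx.h1.2
  have l3 := hx.h2.1
  have l4 := hx.h2.2
  have k := (RseNd23.rel_some h hpt hlam hix g1 g2 s1 s2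
    (by rw [Nat.cast_one, div_one]; exact l1) (by rw [Nat.cast_one, div_one]; exact l2)
    (by rw [Nat.cast_one, div_one]; exact l3) (by rw [Nat.cast_one, div_one]; exact l4)).2
  have k' : ((a : ℚ) + u.B * σ) * (cof (x.2.1.1 / u.A) (x.1.1.1 / u.A) : ℕ) =
      (a' + u.B * σ') * (cof (x.1.1.1 / u.A) (x.2.1.1 / u.A) : ℕ) := by
    push_cast at k
    exact_mod_cast k
  have ew : ((x.2.1.1 / u.A : ℕ) : ℚ) = ((x.1.1.1 / u.A).gcd (x.2.1.1 / u.A) : ℕ) *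
      (cof (x.2.1.1 / u.A) (x.1.1.1 / u.A) : ℕ) := by
    exact_mod_cast (mul_cof' (w := x.1.1.1 / u.A) (w' := x.2.1.1 / u.A)).symm
  have ew' : ((x.1.1.1 / u.A : ℕ) : ℚ) = ((x.1.1.1 / u.A).gcd (x.2.1.1 / u.A) : ℕ) *
      (cof (x.1.1.1 / u.A) (x.2.1.1 / u.A) : ℕ) := by
    exact_mod_cast (mul_cof (w := x.1.1.1 / u.A) (w' := x.2.1.1 / u.A)).symm
  rw [ew, ew']
  linear_combination (((x.1.1.1 / u.A).gcd (x.2.1.1 / u.A) : ℕ) : ℚ) * k'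

/-- **all the nodes of a context** -/
theorem root_off {A δ : ℝ} (hA : 0 ≤ A) (hδ : 0 < δ) (hδ1 : δ ≤ 1) : ∃ K2 : ℝ, 1 ≤ K2 ∧
    ∀ (N : Skel189.Num) (s A' c U : ℝ), 0 ≤ A' → 2 * (s + A' + N.B + 5) ≤ U → 0 ≤ U →
    N.B + N.c2 + 3 ≤ c → K2 ≤ c → 16 / δ * (s + A' + N.B + 5) ≤ c →
    ∃ p₁ : ℕ, ∀ p0 ≥ p₁, ∀ (γ : ℝ) (P₀ : ℕ), 2 ≤ P₀ →
    ∀ (X : Ctx N γ p0 P₀) (R : ℕ → Finset (X.c.Lam × X.c.Lam)),
    (∀ (u : NS) (p : ℕ) (Sp : Finset ℕ) (t₁ t₀ : IT), All (NF X) u (.br p Sp t₁ t₀) →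
      ∃ ρ₁ ρ₀ : ℕ → ℚ, TieR X R u p t₁ t₀ ρ₁ ρ₀ (Real.log p ^ c) (Real.log p ^ U) A δ ∧
        TieL X R u p t₁ t₀ ρ₁ ρ₀ (Real.log p ^ c) δ) →
    ∀ j₀ : X.c.Lam, All (fun u τ => PrD45.pn (KR R s) (X.self u τ Finset.univ).t ≤
      Real.log p0 ^ (-A') * X.mu j₀ u τ Finset.univ) ⟨top X.S, 1, 1, 1⟩ X.c.t := by
  obtain ⟨K2, hK2, h⟩ := tib_off hA hδ hδ1
  refine ⟨K2, hK2, ?_⟩
  intro N s A' c U hA' hU hU0 hc1 hc2 hc3
  obtain ⟨a, ha⟩ := h N (s + A' + 2) c U (by linarith) hU0 hc1 hc2 (by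
    have e : s + A' + 2 + N.B + 3 = s + A' + N.B + 5 := by ring
    rw [e]; exact hc3)
  obtain ⟨b, hb⟩ := pn_rootT N (s := s) hA'
  refine ⟨a + b, ?_⟩
  intro p0 hp0 γ P₀ hP₀ X R hyp j₀
  exact hb p0 (by omega) γ P₀ hP₀ X R _ le_rfl
    (ha p0 (by omega) γ P₀ hP₀ X R X.Y Finset.univ hyp) j₀

/-- **all the nodes, one label per pair** -/
theorem root_one {A : ℝ} (hA : 0 ≤ A) : ∃ K2 : ℝ, 1 ≤ K2 ∧
    ∀ (N : Skel189.Num) (s A' c U : ℝ), 0 ≤ A' → 2 * (s + A' + N.B + 5) ≤ U → 0 ≤ U →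
    N.B + N.c2 + 3 ≤ c → K2 ≤ c → 16 * (s + A' + N.B + 5) ≤ c →
    ∃ p₁ : ℕ, ∀ p0 ≥ p₁, ∀ (γ : ℝ) (P₀ : ℕ), 2 ≤ P₀ →
    ∀ (X : Ctx N γ p0 P₀) (R : ℕ → Finset (X.c.Lam × X.c.Lam)),
    (∀ (u : NS) (p : ℕ) (Sp : Finset ℕ) (t₁ t₀ : IT), All (NF X) u (.br p Sp t₁ t₀) →
      ∃ ρ : ℕ → ℚ, TieS X R u p t₁ t₀ ρ (Real.log p ^ c) (Real.log p ^ U) A) →
    ∀ j₀ : X.c.Lam, All (fun u τ => PrD45.pn (KR R s) (X.self u τ Finset.univ).t ≤
      Real.log p0 ^ (-A') * X.mu j₀ u τ Finset.univ) ⟨top X.S, 1, 1, 1⟩ X.c.t := by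
  obtain ⟨K2, hK2, h⟩ := root_off hA one_pos le_rfl
  refine ⟨K2, hK2, ?_⟩
  intro N s A' c U hA' hU hU0 hc1 hc2 hc3
  obtain ⟨a, ha⟩ := h N s A' c U hA' hU hU0 hc1 hc2 (by rw [div_one]; exact hc3)
  refine ⟨a, ?_⟩
  intro p0 hp0 γ P₀ hP₀ X R hyp j₀
  refine ha p0 hp0 γ P₀ hP₀ X R (fun u p Sp t₁ t₀ hall => ?_) j₀
  obtain ⟨ρ, hρ⟩ := hyp u p Sp t₁ t₀ hall
  exact ⟨ρ, ρ, hρ.tieR (tF hall.self.nd) (Real.rpow_nonneg (Real.log_natCast_nonneg p) _) 1⟩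

end ctx

end Crest.Agent.R4P.RtH28
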