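import Crest.Agent.R4P.RtV_28

/-!
R4 (S0004), powers pass, helper28: **energies of two families with arbitrary offsets** (over `RtV_28`):
one family late, no smoothness, kernel `min (R / D) (R' / D')`.

* `type_unique` : small types of the relation `D' ρ ≡ D ρ' mod 1` are unique.
* **`any_min`** : one pair of offsets, `K ≤` both denominators, one cofactor `≥ U0` :
  `(1 / √U0 + C K^(-1/16)) (∑ R + ∑ R')`.
* `lab_sum` : from pairs of labels to all the labels, one charge per item.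
* **`labs_min`** : many labels, `K = min` of the denominators; **`labs_diff`** : many labels, ratio of
  the denominators `≥ K^δ`, `K = max`.
-/

set_option autoImplicit false
set_option linter.unusedVariables false

open Finset

namespace Crest.Agent.R4P.RtJ28

open Crest.Agent.R4P.GcdK37 Crest.Agent.R4P.GcdW41 Crest.Agent.R4P.GcdS37 Crest.Agent.R4P.RtE28
open Crest.Agent.R4P.RtF28 Crest.Agent.R4P.RtV28
open Crest.Agent.R4P.AcG41 (Fam dt_spec one_type dt)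
open Crest.Agent.R4P.GcdU37 (Tl late2M)
open Crest.Agent.R4.HVW560 (wn)
open Crest.Agent.R4P.ShR18 (Co)

/-- small solutions of `D' ρ ≡ D ρ' mod 1` -/
lemma type_unique {ρ ρ' : ℚ} {t t' : ℕ × ℕ} (h1 : Co ((t.2 : ℕ) * ρ) ((t.1 : ℕ) * ρ'))
    (h1' : Co ((t'.2 : ℕ) * ρ) ((t'.1 : ℕ) * ρ')) (hc : t.1.Coprime t.2) (hc' : t'.1.Coprime t'.2)
    (hp : 0 < t.1 ∧ 0 < t.2) (hp' : 0 < t'.1 ∧ 0 < t'.2)
    (hs : t'.1 * t.2 < ρ.den) (hs' : t.1 * t'.2 < ρ.den) : t = t' := by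
  have a1 : Co (((t'.1 * t.2 : ℕ) : ℚ) * ρ) (((t.1 * t'.1 : ℕ) : ℚ) * ρ') := by
    have := h1.mul t'.1
    have e1 : (t'.1 : ℚ) * ((t.2 : ℕ) * ρ) = ((t'.1 * t.2 : ℕ) : ℚ) * ρ := by push_cast; ring
    have e2 : (t'.1 : ℚ) * ((t.1 : ℕ) * ρ') = ((t.1 * t'.1 : ℕ) : ℚ) * ρ' := by push_cast; ring
    rwa [e1, e2] at this
  have a2 : Co (((t.1 * t'.2 : ℕ) : ℚ) * ρ) (((t.1 * t'.1 : ℕ) : ℚ) * ρ') := by
    have := h1'.mul t.1
    have e1 : (t.1 : ℚ) * ((t'.2 : ℕ) * ρ) = ((t.1 * t'.2 : ℕ) : ℚ) * ρ := by push_cast; ring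
    have e2 : (t.1 : ℚ) * ((t'.1 : ℕ) * ρ') = ((t.1 * t'.1 : ℕ) : ℚ) * ρ' := by push_cast; ring
    rwa [e1, e2] at this
  have h2 : t'.1 * t.2 ≡ t.1 * t'.2 [MOD ρ.den] := a1.mod a2
  have h3 : t'.1 * t.2 = t.1 * t'.2 := Nat.ModEq.eq_of_lt_of_lt h2 hs hs'
  have d1 : t.1 ∣ t'.1 := by
    have : t.1 ∣ t'.1 * t.2 := by rw [h3]; exact dvd_mul_right _ _
    exact hc.dvd_of_dvd_mul_right this
  have d2 : t'.1 ∣ t.1 := by
    have : t'.1 ∣ t.1 * t'.2 := by rw [← h3]; exact dvd_mul_right _ _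
    exact hc'.dvd_of_dvd_mul_right this
  have e1 : t.1 = t'.1 := Nat.dvd_antisymm d1 d2
  refine Prod.ext e1 ?_
  rw [e1] at h3
  exact Nat.eq_of_mul_eq_mul_left hp'.1 h3

/-- **one pair of offsets, one of the families counted** -/
theorem any_min {A : ℝ} (hA : 0 ≤ A) : ∃ c0 : ℝ, 1 ≤ c0 ∧ ∃ C : ℝ, 1 ≤ C ∧ ∀ (ι κ : Type) (P : ℕ)
    (ρ ρ' : ℚ) (k U0 : ℝ)
    (F : Finset ι) (G : Finset κ) (e : ι → ℕ) (e' : κ → ℕ) (R : ι → ℝ) (R' : κ → ℝ),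
    2 ≤ P → 1 ≤ k → k ≤ ρ.den → k ≤ ρ'.den → 1 ≤ U0 → (3 + Real.log P) ^ c0 ≤ k →
    (((F.card : ℝ) ≤ k ^ A ∧ Tl P (tw P) F e) ∨
      ((G.card : ℝ) ≤ k ^ A ∧ Tl P (tw P) G e')) →
    Fam F G e e' R R' →
    ∑ i ∈ F, ∑ j ∈ G, ind ((U0 ≤ (rd (e i) (e' j)).1 ∨ U0 ≤ (rd (e i) (e' j)).2) ∧
        Co (((rd (e i) (e' j)).2 : ℕ) * ρ) (((rd (e i) (e' j)).1 : ℕ) * ρ')) * mn e e' R R' i j ≤
      (1 / √U0 + C * k ^ (-(1 / 16) : ℝ)) * (∑ i ∈ F, R i + ∑ j ∈ G, R' j) := by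
  classical
  obtain ⟨Ce, hCe, C, hC, h⟩ := late2M (A := 2 * A) (M := 1 / 8) (by linarith) (by norm_num)
  refine ⟨2 * Ce + 4, by linarith, C + 2, by linarith, ?_⟩
  intro ι κ P ρ ρ' k U0 F G e e' R R' hP hk1 hkρ hkρ' hU0 hPk hcard hf
  have hk0 : (0:ℝ) < k := by linarith
  have hS0 : 0 ≤ ∑ i ∈ F, R i := Finset.sum_nonneg hf.rF
  have hT0 : 0 ≤ ∑ j ∈ G, R' j := Finset.sum_nonneg hf.rG
  have hmn : ∀ i ∈ F, ∀ j ∈ G, 0 ≤ mn e e' R R' i j := fun i hi j hj =>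
    mn_nn hf.rF hf.rG hi hj
  set U : ℝ := k ^ (1 / 2 : ℝ) with hU
  have hU1 : 1 ≤ U := Real.one_le_rpow hk1 (by norm_num)
  have hU0' : 0 < U := by linarith
  have hU2 : U * U = k := by
    rw [hU, ← Real.rpow_add hk0]; norm_num
  have hUk : U ≤ k := by nlinarith
  -- the large pairs
  have hlP : 0 ≤ Real.log P := Real.log_natCast_nonneg P
  have h3P : (1:ℝ) ≤ 3 + Real.log P := by linarith
  have hpw : ∀ x : ℝ, 2 * x ≤ 2 * Ce + 4 → (3 + Real.log P) ^ x ≤ U := by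
    intro x hx
    have h2 : ((3 + Real.log P) ^ (2 * x)) ^ (1 / 2 : ℝ) ≤ U := by
      refine Real.rpow_le_rpow (by positivity) ?_ (by norm_num)
      exact (Real.rpow_le_rpow_of_exponent_le h3P hx).trans hPk
    rw [← Real.rpow_mul (by linarith)] at h2
    have e1 : 2 * x * (1 / 2) = x := by ring
    rwa [e1] at h2
  have hbig : ∑ i ∈ F, ∑ j ∈ G, ind ((U ≤ (rd (e i) (e' j)).1 ∨ U ≤ (rd (e i) (e' j)).2) ∧
        Co (((rd (e i) (e' j)).2 : ℕ) * ρ) (((rd (e i) (e' j)).1 : ℕ) * ρ')) * mn e e' R R' i j ≤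
      C * U ^ (-(1 / 8) : ℝ) * (√(∑ i ∈ F, R i) * √(∑ j ∈ G, R' j)) +
        2 * U ^ (-(1 / 8) : ℝ) * (∑ i ∈ F, R i + ∑ j ∈ G, R' j) := by
    refine h ι κ P U (fun t => (U ≤ t.1 ∨ U ≤ t.2) ∧ Co ((t.2 : ℕ) * ρ) ((t.1 : ℕ) * ρ')) F G e e' R R' hP
      (hpw Ce (by linarith)) ?_ (fun z K Q hz hK hq => co_pairs hK hz hU1 (hUk.trans hkρ) (hUk.trans hkρ') Q fun t ht =>
        ⟨(hq t ht).1, (hq t ht).2.2⟩) hf
    have hAA : (k:ℝ) ^ A ≤ U ^ (2 * A) := by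
      rw [hU, ← Real.rpow_mul hk0.le]
      refine le_of_eq ?_
      congr 1; ring
    have htw : tw P ≤ U := hpw 2 (by linarith)
    rcases hcard with ⟨h1, h2⟩ | ⟨h1, h2⟩
    · exact Or.inl ⟨h1.trans hAA, h2.mono htw⟩
    · exact Or.inr ⟨h1.trans hAA, h2.mono htw⟩
  have hUe : U ^ (-(1 / 8) : ℝ) = k ^ (-(1 / 16) : ℝ) := by
    rw [hU, ← Real.rpow_mul hk0.le]
    congr 1; norm_num
  -- the small pairs
  have hsm : ∑ i ∈ F, ∑ j ∈ G, ind ((U0 ≤ (rd (e i) (e' j)).1 ∨ U0 ≤ (rd (e i) (e' j)).2) ∧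
        ((rd (e i) (e' j)).1 : ℝ) < U ∧ ((rd (e i) (e' j)).2 : ℝ) < U ∧
        Co (((rd (e i) (e' j)).2 : ℕ) * ρ) (((rd (e i) (e' j)).1 : ℕ) * ρ')) * mn e e' R R' i j ≤
      1 / √U0 * (√(∑ i ∈ F, R i) * √(∑ j ∈ G, R' j)) := by
    by_cases hex : ∃ i ∈ F, ∃ j ∈ G, (U0 ≤ (rd (e i) (e' j)).1 ∨ U0 ≤ (rd (e i) (e' j)).2) ∧
        ((rd (e i) (e' j)).1 : ℝ) < U ∧ ((rd (e i) (e' j)).2 : ℝ) < U ∧
        Co (((rd (e i) (e' j)).2 : ℕ) * ρ) (((rd (e i) (e' j)).1 : ℕ) * ρ')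
    · obtain ⟨i0, hi0, j0, hj0, b0, b1, b2, b3⟩ := hex
      set t0 := rd (e i0) (e' j0) with ht0
      have s0 := dt_spec (hf.pF i0 hi0) (hf.pG j0 hj0)
      have key := one_type hf t0 ⟨s0.1, s0.2.1⟩
      have hpos : (0:ℝ) < (t0.1 : ℝ) * t0.2 :=
        mul_pos (by exact_mod_cast s0.1) (by exact_mod_cast s0.2.1)
      have hle : U0 ≤ (t0.1 : ℝ) * t0.2 := by
        have c1 : (1:ℝ) ≤ t0.1 := by exact_mod_cast s0.1
        have c2 : (1:ℝ) ≤ t0.2 := by exact_mod_cast s0.2.1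
        rcases b0 with b0 | b0
        · nlinarith
        · nlinarith
      have hst : ∀ i ∈ F, ∀ j ∈ G,
          ind ((U0 ≤ (rd (e i) (e' j)).1 ∨ U0 ≤ (rd (e i) (e' j)).2) ∧
            ((rd (e i) (e' j)).1 : ℝ) < U ∧ ((rd (e i) (e' j)).2 : ℝ) < U ∧
            Co (((rd (e i) (e' j)).2 : ℕ) * ρ) (((rd (e i) (e' j)).1 : ℕ) * ρ')) * mn e e' R R' i j ≤
          1 / √U0 * (ind (dt (e i) (e' j) = t0) * (√(R i) * √(R' j))) := by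
        intro i hi j hj
        by_cases hR : (U0 ≤ (rd (e i) (e' j)).1 ∨ U0 ≤ (rd (e i) (e' j)).2) ∧
            ((rd (e i) (e' j)).1 : ℝ) < U ∧ ((rd (e i) (e' j)).2 : ℝ) < U ∧
            Co (((rd (e i) (e' j)).2 : ℕ) * ρ) (((rd (e i) (e' j)).1 : ℕ) * ρ')
        · rw [ind_t hR, one_mul]
          obtain ⟨-, d1, d2, d3⟩ := hR
          have s1 := dt_spec (hf.pF i hi) (hf.pG j hj)
          have hl : ∀ a b : ℕ, (a:ℝ) < U → (b:ℝ) < U → a * b < ρ.den := by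
            intro a b ha hb
            have h5 : (a:ℝ) * b < k := by
              rw [← hU2]
              exact mul_lt_mul'' ha hb (Nat.cast_nonneg _) (Nat.cast_nonneg _)
            exact_mod_cast h5.trans_le hkρ
          have heq : rd (e i) (e' j) = t0 := type_unique d3 b3 s1.2.2.1 s0.2.2.1
            ⟨s1.1, s1.2.1⟩ ⟨s0.1, s0.2.1⟩ (hl _ _ b1 d2) (hl _ _ d1 b2)
          have heq' : dt (e i) (e' j) = t0 := heq
          rw [ind_t heq', one_mul]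
          refine (mn_le_ov hf.rF hf.rG hi hj).trans ?_
          unfold ov
          rw [heq]
          have r1 := hf.rF i hi
          have r2 := hf.rG j hj
          have e1 : R i / (t0.1 : ℝ) * (R' j / (t0.2 : ℝ)) =
              (R i * R' j) / ((t0.1 : ℝ) * t0.2) := by rw [div_mul_div_comm]
          rw [e1, Real.sqrt_div (mul_nonneg r1 r2), Real.sqrt_mul r1, div_eq_mul_one_div,
            mul_comm]
          refine mul_le_mul_of_nonneg_right ?_ (by positivity)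
          exact one_div_le_one_div_of_le (Real.sqrt_pos.2 (by linarith)) (Real.sqrt_le_sqrt hle)
        · rw [ind_f hR, zero_mul]
          exact mul_nonneg (by positivity) (mul_nonneg (ind_nn _) (by positivity))
      calc _ ≤ ∑ i ∈ F, ∑ j ∈ G, 1 / √U0 * (ind (dt (e i) (e' j) = t0) * (√(R i) * √(R' j))) :=
            Finset.sum_le_sum fun i hi => Finset.sum_le_sum fun j hj => hst i hi j hj
        _ = 1 / √U0 * ∑ i ∈ F, ∑ j ∈ G, ind (dt (e i) (e' j) = t0) * (√(R i) * √(R' j)) := by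
            rw [Finset.mul_sum]
            exact Finset.sum_congr rfl fun i _ => by rw [Finset.mul_sum]
        _ ≤ _ := mul_le_mul_of_nonneg_left key (by positivity)
    · push Not at hex
      rw [Finset.sum_eq_zero]
      · positivity
      · intro i hi
        refine Finset.sum_eq_zero fun j hj => ?_
        rw [ind_f, zero_mul]
        rintro ⟨a1, a2, a3, a4⟩
        exact hex i hi j hj a1 a2 a3 a4
  -- the sum
  have hsplit : ∀ i ∈ F, ∀ j ∈ G,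
      ind ((U0 ≤ (rd (e i) (e' j)).1 ∨ U0 ≤ (rd (e i) (e' j)).2) ∧
        Co (((rd (e i) (e' j)).2 : ℕ) * ρ) (((rd (e i) (e' j)).1 : ℕ) * ρ')) * mn e e' R R' i j ≤
      ind ((U0 ≤ (rd (e i) (e' j)).1 ∨ U0 ≤ (rd (e i) (e' j)).2) ∧
        ((rd (e i) (e' j)).1 : ℝ) < U ∧ ((rd (e i) (e' j)).2 : ℝ) < U ∧
        Co (((rd (e i) (e' j)).2 : ℕ) * ρ) (((rd (e i) (e' j)).1 : ℕ) * ρ')) * mn e e' R R' i j +
      ind ((U ≤ (rd (e i) (e' j)).1 ∨ U ≤ (rd (e i) (e' j)).2) ∧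
        Co (((rd (e i) (e' j)).2 : ℕ) * ρ) (((rd (e i) (e' j)).1 : ℕ) * ρ')) * mn e e' R R' i j := by
    intro i hi j hj
    rw [← add_mul]
    refine mul_le_mul_of_nonneg_right ?_ (hmn i hi j hj)
    by_cases hR : (U0 ≤ (rd (e i) (e' j)).1 ∨ U0 ≤ (rd (e i) (e' j)).2) ∧
        Co (((rd (e i) (e' j)).2 : ℕ) * ρ) (((rd (e i) (e' j)).1 : ℕ) * ρ')
    · rw [ind_t hR]
      by_cases h1 : U ≤ (rd (e i) (e' j)).1 ∨ U ≤ (rd (e i) (e' j)).2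
      · rw [ind_t (⟨h1, hR.2⟩ : _ ∧ _)]
        linarith [ind_nn ((U0 ≤ (rd (e i) (e' j)).1 ∨ U0 ≤ (rd (e i) (e' j)).2) ∧
          ((rd (e i) (e' j)).1 : ℝ) < U ∧ ((rd (e i) (e' j)).2 : ℝ) < U ∧
          Co (((rd (e i) (e' j)).2 : ℕ) * ρ) (((rd (e i) (e' j)).1 : ℕ) * ρ'))]
      · push Not at h1
        rw [ind_t (⟨hR.1, h1.1, h1.2, hR.2⟩ : _ ∧ _ ∧ _ ∧ _)]
        linarith [ind_nn ((U ≤ (rd (e i) (e' j)).1 ∨ U ≤ (rd (e i) (e' j)).2) ∧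
          Co (((rd (e i) (e' j)).2 : ℕ) * ρ) (((rd (e i) (e' j)).1 : ℕ) * ρ'))]
    · rw [ind_f hR]
      exact add_nonneg (ind_nn _) (ind_nn _)
  refine (Finset.sum_le_sum fun i hi => Finset.sum_le_sum fun j hj => hsplit i hi j hj).trans ?_
  simp only [Finset.sum_add_distrib]
  have h6 : 1 / √U0 * (√(∑ i ∈ F, R i) * √(∑ j ∈ G, R' j)) ≤
      1 / √U0 * (∑ i ∈ F, R i + ∑ j ∈ G, R' j) :=
    mul_le_mul_of_nonneg_left (sqrt_le_add hS0 hT0) (by positivity)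
  have h8 : √(∑ i ∈ F, R i) * √(∑ j ∈ G, R' j) ≤ ∑ i ∈ F, R i + ∑ j ∈ G, R' j :=
    sqrt_le_add hS0 hT0
  rw [hUe] at hbig
  have hK0 : 0 ≤ k ^ (-(1 / 16) : ℝ) := by positivity
  have h7 := mul_le_mul_of_nonneg_left h8 (mul_nonneg (by linarith : 0 ≤ C) hK0)
  rw [add_mul]
  nlinarith

/-! ### many labels -/

section labs
variable {ι κ : Type} {F : Finset ι} {G : Finset κ} {e : ι → ℕ} {e' : κ → ℕ} {R : ι → ℝ} {R' : κ → ℝ}
  {ρ : ι → ℚ} {ρ' : κ → ℚ}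

open Classical in
/-- labels of the partners (in `G`) of the label `r` -/
noncomputable def Lb (F : Finset ι) (G : Finset κ) (ρ : ι → ℚ) (ρ' : κ → ℚ) (Rl : ι → κ → Prop)
    (r : ℚ) : Finset ℚ := (G.filter fun j => ∃ i ∈ F, ρ i = r ∧ Rl i j).image ρ'

lemma mem_Lb {Rl : ι → κ → Prop} {r r' : ℚ} :
    r' ∈ Lb F G ρ ρ' Rl r ↔ ∃ i ∈ F, ∃ j ∈ G, ρ i = r ∧ ρ' j = r' ∧ Rl i j := by
  classical
  unfold Lb
  simp only [Finset.mem_image, Finset.mem_filter]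
  constructor
  · rintro ⟨j, ⟨hj, i, hi, h1, h2⟩, h3⟩
    exact ⟨i, hi, j, hj, h1, h3, h2⟩
  · rintro ⟨i, hi, j, hj, h1, h3, h2⟩
    exact ⟨j, ⟨hj, i, hi, h1, h2⟩, h3⟩

lemma Lb_swap {Rl : ι → κ → Prop} {r r' : ℚ} :
    r' ∈ Lb F G ρ ρ' Rl r ↔ r ∈ Lb G F ρ' ρ (fun j i => Rl i j) r' := by
  rw [mem_Lb, mem_Lb]
  constructor
  · rintro ⟨i, hi, j, hj, h1, h2, h3⟩; exact ⟨j, hj, i, hi, h2, h1, h3⟩
  · rintro ⟨j, hj, i, hi, h2, h1, h3⟩; exact ⟨i, hi, j, hj, h1, h2, h3⟩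

open Classical in
/-- **from pairs of labels to one charge per item** -/
theorem lab_sum {Rl : ι → κ → Prop} {m : ι → κ → ℝ} {w : ℚ → ℚ → ℝ}
    (hm : ∀ i ∈ F, ∀ j ∈ G, 0 ≤ m i j)
    (h : ∀ r r', r' ∈ Lb F G ρ ρ' Rl r →
      ∑ i ∈ F.filter (fun i => ρ i = r), ∑ j ∈ G.filter (fun j => ρ' j = r'),
        ind (Rl i j) * m i j ≤ w r r' * (∑ i ∈ F.filter (fun i => ρ i = r), R i +
          ∑ j ∈ G.filter (fun j => ρ' j = r'), R' j)) :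
    ∑ i ∈ F, ∑ j ∈ G, ind (Rl i j) * m i j ≤
      ∑ i ∈ F, (∑ r' ∈ Lb F G ρ ρ' Rl (ρ i), w (ρ i) r') * R i +
      ∑ j ∈ G, (∑ r ∈ Lb G F ρ' ρ (fun j i => Rl i j) (ρ' j), w r (ρ' j)) * R' j := by
  have e1 : ∑ i ∈ F, ∑ j ∈ G, ind (Rl i j) * m i j ≤ ∑ r ∈ F.image ρ, ∑ r' ∈ Lb F G ρ ρ' Rl r,
      ∑ i ∈ F.filter (fun i => ρ i = r), ∑ j ∈ G.filter (fun j => ρ' j = r'),
        ind (Rl i j) * m i j := by
    rw [sum_fib ρ]
    refine Finset.sum_le_sum fun r hr => ?_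
    rw [Finset.sum_comm (s := Lb F G ρ ρ' Rl r)]
    refine Finset.sum_le_sum fun i hi => ?_
    obtain ⟨hi1, hi2⟩ := Finset.mem_filter.1 hi
    rw [← Finset.sum_filter_add_sum_filter_not G (fun j => ρ' j ∈ Lb F G ρ ρ' Rl r)]
    have z2 : ∑ j ∈ G.filter (fun j => ¬ ρ' j ∈ Lb F G ρ ρ' Rl r), ind (Rl i j) * m i j = 0 := by
      refine Finset.sum_eq_zero fun j hj => ?_
      obtain ⟨hj1, hj2⟩ := Finset.mem_filter.1 hj
      rw [ind_f, zero_mul]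
      intro h5
      exact hj2 (mem_Lb.2 ⟨i, hi1, j, hj1, hi2, rfl, h5⟩)
    rw [z2, add_zero]
    refine le_of_eq ?_
    rw [← Finset.sum_fiberwise_of_maps_to (s := G.filter (fun j => ρ' j ∈ Lb F G ρ ρ' Rl r))
      (t := Lb F G ρ ρ' Rl r) (g := ρ') (fun j hj => (Finset.mem_filter.1 hj).2)]
    refine Finset.sum_congr rfl fun r' hr' => ?_
    refine Finset.sum_congr ?_ fun _ _ => rfl
    ext j
    simp only [Finset.mem_filter]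
    constructor
    · rintro ⟨⟨h1, h2⟩, h3⟩; exact ⟨h1, h3⟩
    · rintro ⟨h1, h3⟩; exact ⟨⟨h1, by rw [h3]; exact hr'⟩, h3⟩
  have e2 : ∑ r ∈ F.image ρ, ∑ r' ∈ Lb F G ρ ρ' Rl r,
      ∑ i ∈ F.filter (fun i => ρ i = r), ∑ j ∈ G.filter (fun j => ρ' j = r'),
        ind (Rl i j) * m i j ≤ ∑ r ∈ F.image ρ, ∑ r' ∈ Lb F G ρ ρ' Rl r,
      (w r r' * (∑ i ∈ F.filter (fun i => ρ i = r), R i) +
          w r r' * ∑ j ∈ G.filter (fun j => ρ' j = r'), R' j) :=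
    Finset.sum_le_sum fun r _ => Finset.sum_le_sum fun r' hr' => (h r r' hr').trans
      (le_of_eq (mul_add _ _ _))
  refine e1.trans (e2.trans (le_of_eq ?_))
  simp only [Finset.sum_add_distrib]
  congr 1
  · rw [sum_fib ρ]
    refine Finset.sum_congr rfl fun r hr => ?_
    rw [← Finset.sum_mul]
    rw [Finset.mul_sum]
    refine Finset.sum_congr rfl fun i hi => ?_
    rw [(Finset.mem_filter.1 hi).2]
  · rw [sum_fib ρ']
    rw [Finset.sum_comm' (t' := G.image ρ') (s' := fun r' => Lb G F ρ' ρ (fun j i => Rl i j) r')]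
    · refine Finset.sum_congr rfl fun r' hr' => ?_
      rw [← Finset.sum_mul, Finset.mul_sum]
      refine Finset.sum_congr rfl fun j hj => ?_
      rw [(Finset.mem_filter.1 hj).2]
    · intro r r'
      constructor
      · rintro ⟨h1, h2⟩
        refine ⟨Lb_swap.1 h2, ?_⟩
        obtain ⟨i, hi, j, hj, h3, h4, h5⟩ := mem_Lb.1 h2
        exact Finset.mem_image.2 ⟨j, hj, h4⟩
      · rintro ⟨h1, h2⟩
        refine ⟨?_, Lb_swap.2 h1⟩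
        obtain ⟨j, hj, i, hi, h3, h4, h5⟩ := mem_Lb.1 h1
        exact Finset.mem_image.2 ⟨i, hi, h4⟩

/-- the smaller denominator -/
noncomputable def km (r r' : ℚ) : ℝ := min (r.den : ℝ) r'.den

lemma km_one (r r' : ℚ) : 1 ≤ km r r' :=
  le_min (by exact_mod_cast r.pos) (by exact_mod_cast r'.pos)

/-- **the relation, smaller denominator** -/
structure RlM (Lp A : ℝ) (U : ℚ → ℚ → ℝ) (e : ι → ℕ) (e' : κ → ℕ) (R : ι → ℝ) (R' : κ → ℝ)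
    (ρ : ι → ℚ) (ρ' : κ → ℚ) (i : ι) (j : κ) : Prop where
  co : Co (((rd (e i) (e' j)).2 : ℕ) * ρ i) (((rd (e i) (e' j)).1 : ℕ) * ρ' j)
  dn : Lp ≤ km (ρ i) (ρ' j)
  lt : 1 ≤ km (ρ i) (ρ' j) ^ A * R i ∨ 1 ≤ km (ρ i) (ρ' j) ^ A * R' j
  u1 : 1 ≤ U (ρ i) (ρ' j)
  sp : U (ρ i) (ρ' j) ≤ (rd (e i) (e' j)).1 ∨ U (ρ i) (ρ' j) ≤ (rd (e i) (e' j)).2

/-- **the relation, ratio of the denominators** -/
structure RlD (Lp A δ : ℝ) (e : ι → ℕ) (e' : κ → ℕ) (R : ι → ℝ) (R' : κ → ℝ)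
    (ρ : ι → ℚ) (ρ' : κ → ℚ) (i : ι) (j : κ) : Prop where
  co : Co (((rd (e i) (e' j)).2 : ℕ) * ρ i) (((rd (e i) (e' j)).1 : ℕ) * ρ' j)
  dn : Lp ≤ KK (ρ i) (ρ' j)
  lt : 1 ≤ KK (ρ i) (ρ' j) ^ A * R i ∨ 1 ≤ KK (ρ i) (ρ' j) ^ A * R' j
  sp : KK (ρ i) (ρ' j) ^ δ * (ρ i).den ≤ (ρ' j).den ∨ KK (ρ i) (ρ' j) ^ δ * (ρ' j).den ≤ (ρ i).den

open Classical in
/-- one pair of labels: from counted families to one late side -/
theorem late_pair {Rl : ι → κ → Prop} {r r' : ℚ} {K A Lp B : ℝ} {P : ℕ} (hK : 1 ≤ K) (hLK : Lp ≤ K)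
    (hSR : ∑ i ∈ F, R i ≤ Lp) (hSR' : ∑ j ∈ G, R' j ≤ Lp) (hf : Fam F G e e' R R')
    (hTF : Tl P (tw P) F e) (hTG : Tl P (tw P) G e') (hB0 : 0 ≤ B)
    (hlt : ∀ i ∈ F, ∀ j ∈ G, ρ i = r → ρ' j = r' → Rl i j →
      1 ≤ K ^ A * R i ∨ 1 ≤ K ^ A * R' j)
    (hB : ∀ (F' : Finset ι) (G' : Finset κ), (∀ i ∈ F', i ∈ F ∧ ρ i = r) →
        (∀ j ∈ G', j ∈ G ∧ ρ' j = r') →
        (((F'.card : ℝ) ≤ K ^ (A + 1) ∧ Tl P (tw P) F' e) ∨
          ((G'.card : ℝ) ≤ K ^ (A + 1) ∧ Tl P (tw P) G' e')) →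
        ∑ i ∈ F', ∑ j ∈ G', ind (Rl i j) * mn e e' R R' i j ≤
          B * (∑ i ∈ F', R i + ∑ j ∈ G', R' j)) :
    ∑ i ∈ F.filter (fun i => ρ i = r), ∑ j ∈ G.filter (fun j => ρ' j = r'),
        ind (Rl i j) * mn e e' R R' i j ≤ 2 * B * (∑ i ∈ F.filter (fun i => ρ i = r), R i +
          ∑ j ∈ G.filter (fun j => ρ' j = r'), R' j) := by
  have hK0 : 0 < K := by linarith
  set Fr := F.filter (fun i => ρ i = r) with hFr
  set Gr := G.filter (fun j => ρ' j = r') with hGr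
  have hFF : Fr ⊆ F := Finset.filter_subset _ _
  have hGG : Gr ⊆ G := Finset.filter_subset _ _
  have hFm : ∀ i ∈ Fr, i ∈ F ∧ ρ i = r := fun i hi => Finset.mem_filter.1 hi
  have hGm : ∀ j ∈ Gr, j ∈ G ∧ ρ' j = r' := fun i hi => Finset.mem_filter.1 hi
  have hmn : ∀ i ∈ F, ∀ j ∈ G, 0 ≤ mn e e' R R' i j := fun i hi j hj =>
    mn_nn hf.rF hf.rG hi hj
  have hKA : K ^ A * Lp ≤ K ^ (A + 1) := by
    rw [Real.rpow_add hK0, Real.rpow_one]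
    exact mul_le_mul_of_nonneg_left hLK (by positivity)
  have hsub1 : ∑ i ∈ Fr, R i ≤ Lp :=
    (Finset.sum_le_sum_of_subset_of_nonneg hFF fun i hi _ => hf.rF i hi).trans hSR
  have hsub2 : ∑ j ∈ Gr, R' j ≤ Lp :=
    (Finset.sum_le_sum_of_subset_of_nonneg hGG fun i hi _ => hf.rG i hi).trans hSR'
  have s1 := split3 (F := Fr) (G := Gr) (f := fun i j => ind (Rl i j) * mn e e' R R' i j)
    (fun i hi j hj => mul_nonneg (ind_nn _) (hmn i (hFF hi) j (hGG hj)))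
    (fun i => 1 ≤ K ^ A * R i) (fun j => 1 ≤ K ^ A * R' j)
    (fun i hi j hj h => by
      have h0 : Rl i j := by
        by_contra h6
        apply h
        show ind (Rl i j) * mn e e' R R' i j = 0
        rw [ind_f h6, zero_mul]
      exact hlt i (hFF hi) j (hGG hj) (hFm i hi).2 (hGm j hj).2 h0)
  have k1 := hB (Fr.filter fun i => 1 ≤ K ^ A * R i) Gr
    (fun i hi => hFm i (Finset.mem_filter.1 hi).1) hGm (Or.inl
      ⟨(card_late (fun i hi => hf.rF i (hFF hi)) (by positivity) hsub1).trans hKA,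
        hTF.sub ((Finset.filter_subset _ _).trans hFF)⟩)
  have k2 := hB Fr (Gr.filter fun j => 1 ≤ K ^ A * R' j) hFm
    (fun i hi => hGm i (Finset.mem_filter.1 hi).1) (Or.inr
      ⟨(card_late (fun i hi => hf.rG i (hGG hi)) (by positivity) hsub2).trans hKA,
        hTG.sub ((Finset.filter_subset _ _).trans hGG)⟩)
  have m1 : ∑ i ∈ Fr.filter (fun i => 1 ≤ K ^ A * R i), R i ≤ ∑ i ∈ Fr, R i :=
    Finset.sum_le_sum_of_subset_of_nonneg (Finset.filter_subset _ _)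
      fun i hi _ => hf.rF i (hFF hi)
  have m2 : ∑ j ∈ Gr.filter (fun j => 1 ≤ K ^ A * R' j), R' j ≤ ∑ j ∈ Gr, R' j :=
    Finset.sum_le_sum_of_subset_of_nonneg (Finset.filter_subset _ _)
      fun i hi _ => hf.rG i (hGG hi)
  have n1 := mul_le_mul_of_nonneg_left m1 hB0
  have n2 := mul_le_mul_of_nonneg_left m2 hB0
  have s1' : ∑ i ∈ Fr, ∑ j ∈ Gr, ind (Rl i j) * mn e e' R R' i j ≤
    ∑ i ∈ Fr.filter (fun i => 1 ≤ K ^ A * R i), ∑ j ∈ Gr,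
      ind (Rl i j) * mn e e' R R' i j +
    ∑ i ∈ Fr, ∑ j ∈ Gr.filter (fun j => 1 ≤ K ^ A * R' j),
      ind (Rl i j) * mn e e' R R' i j := by
    convert s1 using 2
  linarith

/-- **many labels, smaller denominator** -/
theorem labs_min {A : ℝ} (hA : 0 ≤ A) : ∃ c0 : ℝ, 1 ≤ c0 ∧ ∃ C : ℝ, 1 ≤ C ∧
    ∀ (ι κ : Type) (P : ℕ) (Lp : ℝ) (U : ℚ → ℚ → ℝ) (F : Finset ι) (G : Finset κ) (e : ι → ℕ)
    (e' : κ → ℕ) (R : ι → ℝ) (R' : κ → ℝ) (ρ : ι → ℚ) (ρ' : κ → ℚ) (Rl : ι → κ → Prop),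
    2 ≤ P → (3 + Real.log P) ^ c0 ≤ Lp → ∑ i ∈ F, R i ≤ Lp → ∑ j ∈ G, R' j ≤ Lp →
    Fam F G e e' R R' → Tl P (tw P) F e → Tl P (tw P) G e' →
    (∀ i ∈ F, ∀ j ∈ G, Rl i j → RlM Lp A U e e' R R' ρ ρ' i j) →
    ∑ i ∈ F, ∑ j ∈ G, ind (Rl i j) * mn e e' R R' i j ≤
      ∑ i ∈ F, (∑ r' ∈ Lb F G ρ ρ' Rl (ρ i),
        2 * (1 / √(U (ρ i) r') + C * km (ρ i) r' ^ (-(1 / 16) : ℝ))) * R i +
      ∑ j ∈ G, (∑ r ∈ Lb G F ρ' ρ (fun j i => Rl i j) (ρ' j),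
        2 * (1 / √(U r (ρ' j)) + C * km r (ρ' j) ^ (-(1 / 16) : ℝ))) * R' j := by
  classical
  obtain ⟨c0, hc0, C, hC, h⟩ := any_min (A := A + 1) (by linarith)
  refine ⟨c0, hc0, C, hC, ?_⟩
  intro ι κ P Lp U F G e e' R R' ρ ρ' Rl hP hPL hSR hSR' hf hTF hTG hRl
  have hmn : ∀ i ∈ F, ∀ j ∈ G, 0 ≤ mn e e' R R' i j := fun i hi j hj =>
    mn_nn hf.rF hf.rG hi hj
  refine lab_sum (w := fun r r' => 2 * (1 / √(U r r') + C * km r r' ^ (-(1 / 16) : ℝ))) hmn ?_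
  intro r r' hr
  obtain ⟨i0, hi0, j0, hj0, q1, q2, q3⟩ := mem_Lb.1 hr
  have D0 := hRl i0 hi0 j0 hj0 q3
  have hK1 := km_one r r'
  have hLK : Lp ≤ km r r' := by have := D0.dn; rwa [q1, q2] at this
  have hU1 : 1 ≤ U r r' := by have := D0.u1; rwa [q1, q2] at this
  have hK0 : 0 < km r r' := by linarith
  refine (late_pair (K := km r r') (A := A) (Lp := Lp) (P := P)
    (B := 1 / √(U r r') + C * km r r' ^ (-(1 / 16) : ℝ)) hK1 hLK hSR hSR' hf hTF hTG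
    (by positivity) ?_ ?_)
  · intro i hi j hj h1 h2 h3
    have := (hRl i hi j hj h3).lt
    rwa [h1, h2] at this
  · intro F' G' hF' hG' hcd
    have key := h ι κ P r r' (km r r') (U r r') F' G' e e' R R' hP hK1 (min_le_left _ _)
      (min_le_right _ _) hU1 (hPL.trans hLK) hcd
      (Fam.subG (hf.sub (fun i hi => (hF' i hi).1)) (fun j hj => (hG' j hj).1))
    refine (Finset.sum_le_sum fun i hi => Finset.sum_le_sum fun j hj => ?_).trans key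
    refine mul_le_mul_of_nonneg_right ?_ (hmn i (hF' i hi).1 j (hG' j hj).1)
    by_cases h5 : Rl i j
    · rw [ind_t h5, ind_t]
      have a1 := hRl i (hF' i hi).1 j (hG' j hj).1 h5
      have a2 := a1.co
      have a3 := a1.sp
      rw [(hF' i hi).2, (hG' j hj).2] at a2 a3
      exact ⟨a3, a2⟩
    · rw [ind_f h5]; exact ind_nn _

/-- **many labels, ratio of the denominators** -/
theorem labs_diff {A δ : ℝ} (hA : 0 ≤ A) (hδ : 0 < δ) : ∃ c0 : ℝ, 1 ≤ c0 ∧ ∃ C : ℝ, 1 ≤ C ∧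
    ∀ (ι κ : Type) (P : ℕ) (Lp : ℝ) (F : Finset ι) (G : Finset κ) (e : ι → ℕ)
    (e' : κ → ℕ) (R : ι → ℝ) (R' : κ → ℝ) (ρ : ι → ℚ) (ρ' : κ → ℚ) (Rl : ι → κ → Prop),
    2 ≤ P → (3 + Real.log P) ^ c0 ≤ Lp → ∑ i ∈ F, R i ≤ Lp → ∑ j ∈ G, R' j ≤ Lp →
    Fam F G e e' R R' → Tl P (tw P) F e → Tl P (tw P) G e' →
    (∀ i ∈ F, ∀ j ∈ G, Rl i j → RlD Lp A δ e e' R R' ρ ρ' i j) →
    ∑ i ∈ F, ∑ j ∈ G, ind (Rl i j) * mn e e' R R' i j ≤
      ∑ i ∈ F, (∑ r' ∈ Lb F G ρ ρ' Rl (ρ i), 2 * (C * KK (ρ i) r' ^ (-(δ / 8) : ℝ))) * R i +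
      ∑ j ∈ G, (∑ r ∈ Lb G F ρ' ρ (fun j i => Rl i j) (ρ' j),
        2 * (C * KK r (ρ' j) ^ (-(δ / 8) : ℝ))) * R' j := by
  classical
  obtain ⟨c0, hc0, C, hC, h⟩ := diff_min (A := A + 1) (by linarith) hδ
  refine ⟨c0, hc0, C, hC, ?_⟩
  intro ι κ P Lp F G e e' R R' ρ ρ' Rl hP hPL hSR hSR' hf hTF hTG hRl
  have hmn : ∀ i ∈ F, ∀ j ∈ G, 0 ≤ mn e e' R R' i j := fun i hi j hj =>
    mn_nn hf.rF hf.rG hi hj
  refine lab_sum (w := fun r r' => 2 * (C * KK r r' ^ (-(δ / 8) : ℝ))) hmn ?_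
  intro r r' hr
  obtain ⟨i0, hi0, j0, hj0, q1, q2, q3⟩ := mem_Lb.1 hr
  have D0 := hRl i0 hi0 j0 hj0 q3
  have hK1 := KK_one r r'
  have hLK : Lp ≤ KK r r' := by have := D0.dn; rwa [q1, q2] at this
  have hrat := D0.sp
  rw [q1, q2] at hrat
  have hK0 : 0 < KK r r' := by linarith
  refine (late_pair (K := KK r r') (A := A) (Lp := Lp) (P := P)
    (B := C * KK r r' ^ (-(δ / 8) : ℝ)) hK1 hLK hSR hSR' hf hTF hTG
    (by positivity) ?_ ?_)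
  · intro i hi j hj h1 h2 h3
    have := (hRl i hi j hj h3).lt
    rwa [h1, h2] at this
  · intro F' G' hF' hG' hcd
    have key := h ι κ P r r' (KK r r') F' G' e e' R R' hP hK1 (hPL.trans hLK) hrat hcd
      (Fam.subG (hf.sub (fun i hi => (hF' i hi).1)) (fun j hj => (hG' j hj).1))
    refine (Finset.sum_le_sum fun i hi => Finset.sum_le_sum fun j hj => ?_).trans key
    refine mul_le_mul_of_nonneg_right ?_ (hmn i (hF' i hi).1 j (hG' j hj).1)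
    by_cases h5 : Rl i j
    · rw [ind_t h5, ind_t]
      have a1 := hRl i (hF' i hi).1 j (hG' j hj).1 h5
      have a2 := a1.co
      rw [(hF' i hi).2, (hG' j hj).2] at a2
      exact a2
    · rw [ind_f h5]; exact ind_nn _

end labs

end Crest.Agent.R4P.RtJ28
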