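import Crest.Agent.R4P.RtJ_28
import Crest.Agent.R4P.XmO_37

/-!
R4 (S0004), powers pass, helper28: **pairs of two nodes, arbitrary offsets, many labels, one side late,
one charge per item** (over `RtJ_28`, helper37's `XmO_37`).

* `Lv X s s' t t' x` : the two pieces of `x` have a common point of nonzero content.
* `prt X s s' t t' R` : pairs of items of `R` with a common point; `Lb1`, `Lb2` : labels of the partners.
* **`two_min`** : `K = min` of the two denominators `≥ (3 + log P)^Ce`, one cofactor `≥ U (ρ q) (ρ' r)` :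
  `Q R (vN s) (vN s') ≤ C (1 + log P) (∑_q (∑_{labels} (1/√U + K^(-1/16))) M_q + ∑_r ..)`.
* **`two_diff`** : ratio of the denominators `≥ K^δ`, `K = max`.
* `oc1`, `oc2` : the alive items which occur; **`two_one`** : one root label per pair (offsets `s.B σ`, `s'.B σ`).
-/

set_option autoImplicit false
set_option linter.unusedSectionVars false
set_option linter.unusedVariables false

open MeasureTheory Filter

namespace Crest.Agent.R4P.RtK28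

open Crest.Agent.R4.Tour104 Crest.Agent.R4.Tour758 Crest.Agent.R4.Avg758 Crest.Agent.R4.Clos758
open Crest.Agent.R4.ClosL758 Crest.Agent.R4.ClosG758 Crest.Agent.R4.ClosR758
open Crest.Agent.R4.HVW560
open Crest.Agent.R4.Fam464 Crest.Agent.R4.Piece464
open Crest.Agent.R4P.Cnt588 Crest.Agent.R4P.Item758 Crest.Agent.R4P.AvgItem710
open Crest.Agent.R4P.Walk560 Crest.Agent.R4P.NodeG33
open Crest.Agent.R4P.Data758 Crest.Agent.R4P.Skel189
open Crest.Agent.R4P.Bld532 (NS All)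
open Crest.Agent.R4P.Step588 (NDt CT CT_pos tot_ge totient_div_prod)
open Crest.Agent.R4.Soft104 (w)
open Crest.Agent.R4P.SameIx30 Crest.Agent.R4P.GPair33
open Crest.Agent.R4P.ShR18 (Co)
open Crest.Agent.R4P.SpM18 Crest.Agent.R4P.XmE18 Crest.Agent.R4P.XmM18 Crest.Agent.R4P.XmG18
open Crest.Agent.R4P.GcdK37 (ind ind_t ind_f ind_nn ind_le)
open Crest.Agent.R4P.GcdS37 (rd)
open Crest.Agent.R4P.GcdU37 (Tl)
open Crest.Agent.R4P.AcG41 (Fam)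
open Crest.Agent.R4P.XmN37 Crest.Agent.R4P.XmO37
open Crest.Agent.R4P.RtE28 (KK KK_one)
open Crest.Agent.R4P.RtF28 (mn)
open Crest.Agent.R4P.RtV28 (tw)
open Crest.Agent.R4P.RtJ28 (km km_one Lb mem_Lb RlM RlD labs_min labs_diff)
open Crest.Agent.R4P

variable {N : Skel189.Num} {γ : ℝ} {p0 P₀ : ℕ} {X : Ctx N γ p0 P₀}

/-- the two pieces have a common point of nonzero content -/
def Lv (X : Ctx N γ p0 P₀) (s s' : NS) (t t' : IT) (x : X.c.Lam × X.c.Lam) : Prop :=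
  ∃ y, vN X (.inl (s, t)) x.1 y * vN X (.inl (s', t')) x.2 y ≠ 0

/-- pairs of items of `R` with a common point -/
def prt (X : Ctx N γ p0 P₀) (s s' : NS) (t t' : IT) (R : Finset (X.c.Lam × X.c.Lam)) (q r : ℕ) :
    Prop := ∃ x ∈ R, it2 x = (q, r) ∧ Lv X s s' t t' x

open Classical in
/-- the alive items -/
noncomputable def al (X : Ctx N γ p0 P₀) (t : IT) : Finset ℕ := t.items.filter (· ∈ X.S')

open Classical in
/-- the items of the first node which occur -/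
noncomputable def oc1 (X : Ctx N γ p0 P₀) (s s' : NS) (t t' : IT) (R : Finset (X.c.Lam × X.c.Lam)) :
    Finset ℕ := (al X t).filter fun q => ∃ r, prt X s s' t t' R q r

open Classical in
/-- the items of the second node which occur -/
noncomputable def oc2 (X : Ctx N γ p0 P₀) (s s' : NS) (t t' : IT) (R : Finset (X.c.Lam × X.c.Lam)) :
    Finset ℕ := (al X t').filter fun r => ∃ q, prt X s s' t t' R q r

/-- labels of the partners of `q` (first node) -/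
noncomputable def Lb1 (X : Ctx N γ p0 P₀) (s s' : NS) (t t' : IT) (R : Finset (X.c.Lam × X.c.Lam))
    (ρ ρ' : ℕ → ℚ) (r : ℚ) : Finset ℚ :=
  Lb (oc1 X s s' t t' R) (oc2 X s s' t t' R) ρ ρ' (prt X s s' t t' R) r

/-- labels of the partners of `r` (second node) -/
noncomputable def Lb2 (X : Ctx N γ p0 P₀) (s s' : NS) (t t' : IT) (R : Finset (X.c.Lam × X.c.Lam))
    (ρ ρ' : ℕ → ℚ) (r : ℚ) : Finset ℚ :=
  Lb (oc2 X s s' t t' R) (oc1 X s s' t t' R) ρ' ρ (fun j i => prt X s s' t t' R i j) r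

lemma mem_al {t : IT} {q : ℕ} : q ∈ al X t ↔ q ∈ t.items ∧ q ∈ X.S' := by
  classical
  unfold al
  rw [Finset.mem_filter]

lemma oc1_sub {s s' : NS} {t t' : IT} {R : Finset (X.c.Lam × X.c.Lam)} :
    oc1 X s s' t t' R ⊆ al X t := by
  classical
  exact Finset.filter_subset _ _

lemma oc2_sub {s s' : NS} {t t' : IT} {R : Finset (X.c.Lam × X.c.Lam)} :
    oc2 X s s' t t' R ⊆ al X t' := by
  classical
  exact Finset.filter_subset _ _

lemma D12 (s s' : NS) (q r : ℕ) : D1 s s' (q, r) = (rd (q / s.A) (r / s'.A)).1 ∧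
    D2 s s' (q, r) = (rd (q / s.A) (r / s'.A)).2 := by
  refine ⟨rfl, ?_⟩
  unfold D2 cof rd
  rw [Nat.gcd_comm]

/-- the items of a related pair -/
lemma prt_al {s s' : NS} {t t' : IT} (h : QX X s t) (h' : QX X s' t')
    {R : Finset (X.c.Lam × X.c.Lam)} {ρ ρ' : ℕ → ℚ} (hE : ExO X s s' t t' R ρ ρ') {q r : ℕ}
    (hp : prt X s s' t t' R q r) : q ∈ oc1 X s s' t t' R ∧ r ∈ oc2 X s s' t t' R ∧
      Co (((rd (q / s.A) (r / s'.A)).2 : ℕ) * ρ q) (((rd (q / s.A) (r / s'.A)).1 : ℕ) * ρ' r) := by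
  classical
  have hp0 := hp
  obtain ⟨x, hx, hi, y, hy⟩ := hp
  obtain ⟨i1, i2, i3, i4, i5⟩ := hE.co h h' hx hy
  have e1 : x.1.1.1 = q := congrArg Prod.fst hi
  have e2 : x.2.1.1 = r := congrArg Prod.snd hi
  rw [hi, e1, e2, (D12 s s' q r).1, (D12 s s' q r).2] at i5
  unfold oc1 oc2
  exact ⟨Finset.mem_filter.2 ⟨mem_al.2 ⟨e1 ▸ i1, e1 ▸ i3⟩, r, hp0⟩,
    Finset.mem_filter.2 ⟨mem_al.2 ⟨e2 ▸ i2, e2 ▸ i4⟩, q, hp0⟩, i5⟩

/-- **energies of a pair of nodes from the number level** -/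
theorem two_core {s s' : NS} {t t' : IT} (h : QX X s t) (h' : QX X s' t')
    {R : Finset (X.c.Lam × X.c.Lam)} {ρ ρ' : ℕ → ℚ} (hE : ExO X s s' t t' R ρ ρ') :
    Q R (vN X (.inl (s, t))) (vN X (.inl (s', t'))) ≤
      2 * ∑ q ∈ oc1 X s s' t t' R, ∑ r ∈ oc2 X s s' t t' R, ind (prt X s s' t t' R q r) *
        mn (fun q => q / s.A) (fun r => r / s'.A) (RB X s) (RB X s') q r := by
  classical
  refine (node_off h h' hE).trans ?_
  rw [Finset.mul_sum]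
  have e0 : ∀ q ∈ oc1 X s s' t t' R, 2 * ∑ r ∈ oc2 X s s' t t' R, ind (prt X s s' t t' R q r) *
        mn (fun q => q / s.A) (fun r => r / s'.A) (RB X s) (RB X s') q r =
      ∑ r ∈ oc2 X s s' t t' R, 2 * (ind (prt X s s' t t' R q r) *
        mn (fun q => q / s.A) (fun r => r / s'.A) (RB X s) (RB X s') q r) := fun q _ => by
    rw [Finset.mul_sum]
  rw [Finset.sum_congr rfl e0]
  rw [← Finset.sum_product' (s := oc1 X s s' t t' R) (t := oc2 X s s' t t' R) (f := fun q r =>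
    2 * (ind (prt X s s' t t' R q r) *
        mn (fun q => q / s.A) (fun r => r / s'.A) (RB X s) (RB X s') q r))]
  have hrr := (X.ok.rad X.Y).pos
  have hB : (0:ℝ) < s.B := by exact_mod_cast h.B_pos
  have hB' : (0:ℝ) < s'.B := by exact_mod_cast h'.B_pos
  have hnn : ∀ q r, 0 ≤ mn (fun q => q / s.A) (fun r => r / s'.A) (RB X s) (RB X s') q r := by
    intro q r
    have a1 := (mul_pos hB (hrr q)).le
    have a2 := (mul_pos hB' (hrr r)).le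
    exact le_min (div_nonneg a1 (Nat.cast_nonneg _)) (div_nonneg a2 (Nat.cast_nonneg _))
  refine le_trans (Finset.sum_le_sum (g := fun e : ℕ × ℕ => 2 * (ind (prt X s s' t t' R e.1 e.2) *
        mn (fun q => q / s.A) (fun r => r / s'.A) (RB X s) (RB X s') e.1 e.2)) fun e he => ?_)
    (Finset.sum_le_sum_of_subset_of_nonneg ?_ fun e _ _ => mul_nonneg (by norm_num)
      (mul_nonneg (ind_nn _) (hnn _ _)))
  · obtain ⟨he1, x, hx, hi, hy⟩ := Finset.mem_filter.1 he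
    have hp : prt X s s' t t' R e.1 e.2 := ⟨x, hx, hi, hy⟩
    rw [ind_t hp, one_mul]
    refine mul_le_mul_of_nonneg_left (le_of_eq ?_) (by norm_num)
    have e1 : ov X s s' e = ov X s s' (e.1, e.2) := rfl
    rw [e1]
    unfold ov
    rw [(D12 s s' e.1 e.2).1, (D12 s s' e.1 e.2).2]
    rfl
  · intro e he
    obtain ⟨he1, x, hx, hi, hy⟩ := Finset.mem_filter.1 he
    have hp : prt X s s' t t' R e.1 e.2 := ⟨x, hx, hi, hy⟩
    obtain ⟨a1, a2, -⟩ := prt_al h h' hE hp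
    exact Finset.mem_product.2 ⟨a1, a2⟩

/-- the family of a pair of nodes -/
lemma fam_two {s s' : NS} {t t' : IT} (h : QX X s t) (h' : QX X s' t')
    (R : Finset (X.c.Lam × X.c.Lam)) :
    Fam (oc1 X s s' t t' R) (oc2 X s s' t t' R) (fun q => q / s.A) (fun r => r / s'.A) (RB X s) (RB X s') :=
  { pF := fun q hq => Nat.pos_of_ne_zero (h.div_ne (mem_al.1 (oc1_sub hq)).1)
    pG := fun r hr => Nat.pos_of_ne_zero (h'.div_ne (mem_al.1 (oc2_sub hr)).1)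
    iF := fun q hq q' hq' e => div_inj h (mem_al.1 (oc1_sub hq)).1 (mem_al.1 (oc1_sub hq')).1 e
    iG := fun q hq q' hq' e => div_inj h' (mem_al.1 (oc2_sub hq)).1 (mem_al.1 (oc2_sub hq')).1 e
    rF := fun q _ => RB_nn h q
    rG := fun q _ => RB_nn h' q }

/-- the tails of a node -/
theorem tail_two (N : Skel189.Num) : ∃ p₁ : ℕ, ∀ p0 ≥ p₁, ∀ (γ : ℝ) (P₀ : ℕ) (X : Ctx N γ p0 P₀)
    (s : NS) (t : IT) (P : ℕ), QX X s t → p0 ≤ P → (∀ r : ℕ, r.Prime → r < s.n → r ≤ P) →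
    Tl P (tw P) (al X t) (fun q => q / s.A) := by
  obtain ⟨p1, h1⟩ := lg_nd N
  obtain ⟨p2, h2⟩ := Crest.Agent.R4.RseN207.log_large (2 * CT)
  refine ⟨p1 + p2 + 3, fun p0 hp0 γ P₀ X s t P h hP hlv => ?_⟩
  have hL := h2 P (by omega)
  have hl0 : 0 ≤ Real.log (P : ℝ) := Real.log_natCast_nonneg P
  have htw : 2 * CT * Real.log P ≤ tw P := by
    unfold tw
    rw [Real.rpow_two]
    nlinarith
  intro q hq z hz
  obtain ⟨hq1, hq2⟩ := mem_al.1 hq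
  obtain ⟨g1, g2⟩ := h1 p0 (by omega) γ P₀ X s t h P hP hlv q hq2 hq1
  refine (tail_nd h hlv hq1 g1 hz (g2 z hz)).trans ?_
  exact mul_le_mul_of_nonneg_right htw (by positivity)

/-- sum of the radii of a node -/
lemma sum_RB {s : NS} {t : IT} {P : ℕ} {A : ℝ} (h : MN X s t) (hP : p0 ≤ P) (hP2 : 2 ≤ P)
    (hlv : ∀ r : ℕ, r.Prime → r < s.n → r ≤ P) {F : Finset ℕ} (hF : F ⊆ al X t)
    (hm : ∑ q ∈ F, MI X s t q ≤ (3 + Real.log P) ^ A) :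
    ∑ q ∈ F, RB X s q ≤ (3 + Real.log P) ^ (4 * CT + 1 + A) := by
  have hCT := CT_pos
  have hlP : 0 ≤ Real.log (P : ℝ) := Real.log_natCast_nonneg P
  have hw0 : 0 < 3 + Real.log (P : ℝ) := by linarith
  calc ∑ q ∈ F, RB X s q ≤ ∑ q ∈ F, 4 * CT * Real.log P * MI X s t q :=
        Finset.sum_le_sum fun q hq => h.lo P hP hlv q (mem_al.1 (hF hq)).2 (mem_al.1 (hF hq)).1
    _ = 4 * CT * Real.log P * ∑ q ∈ F, MI X s t q := by rw [Finset.mul_sum]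
    _ ≤ 4 * CT * Real.log P * (3 + Real.log P) ^ A := mul_le_mul_of_nonneg_left hm (by positivity)
    _ ≤ (3 + Real.log (P : ℝ)) ^ (4 * CT) * (3 + Real.log (P : ℝ)) ^ (1 : ℝ) *
          (3 + Real.log P) ^ A := by
        rw [Real.rpow_one]
        exact mul_le_mul_of_nonneg_right (mul_le_mul const_pow (by linarith) hlP
          (by positivity)) (by positivity)
    _ = (3 + Real.log (P : ℝ)) ^ (4 * CT + 1 + A) := by
        rw [← Real.rpow_add hw0, ← Real.rpow_add hw0]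

/-- **TWO NODES, MANY LABELS, SMALLER DENOMINATOR** -/
theorem two_min {A M : ℝ} (hA : 0 ≤ A) (hM : 0 ≤ M) : ∃ Ce : ℝ, 1 ≤ Ce ∧ ∃ C : ℝ, 1 ≤ C ∧
    ∀ (N : Skel189.Num), ∃ p₁ : ℕ, ∀ p0 ≥ p₁, ∀ (γ : ℝ) (P₀ : ℕ)
    (X : Ctx N γ p0 P₀) (s s' : NS) (t t' : IT) (P : ℕ) (ρ ρ' : ℕ → ℚ) (U : ℚ → ℚ → ℝ)
    (R : Finset (X.c.Lam × X.c.Lam)), MN X s t → MN X s' t' → p0 ≤ P →
    (∀ r : ℕ, r.Prime → r < s.n → r ≤ P) → (∀ r : ℕ, r.Prime → r < s'.n → r ≤ P) →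
    ExO X s s' t t' R ρ ρ' →
    (∀ x ∈ R, Lv X s s' t t' x → (3 + Real.log P) ^ Ce ≤ km (ρ x.1.1.1) (ρ' x.2.1.1)) →
    (∀ x ∈ R, Lv X s s' t t' x → 1 ≤ km (ρ x.1.1.1) (ρ' x.2.1.1) ^ A * RB X s x.1.1.1 ∨
      1 ≤ km (ρ x.1.1.1) (ρ' x.2.1.1) ^ A * RB X s' x.2.1.1) →
    (∀ x ∈ R, Lv X s s' t t' x → 1 ≤ U (ρ x.1.1.1) (ρ' x.2.1.1) ∧
      (U (ρ x.1.1.1) (ρ' x.2.1.1) ≤ (D1 s s' (it2 x) : ℝ) ∨
        U (ρ x.1.1.1) (ρ' x.2.1.1) ≤ (D2 s s' (it2 x) : ℝ))) →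
    ∑ q ∈ oc1 X s s' t t' R, MI X s t q ≤ (3 + Real.log P) ^ M →
    ∑ q ∈ oc2 X s s' t t' R, MI X s' t' q ≤ (3 + Real.log P) ^ M →
    Q R (vN X (.inl (s, t))) (vN X (.inl (s', t'))) ≤ C * (1 + Real.log P) *
      (∑ q ∈ oc1 X s s' t t' R, (∑ r' ∈ Lb1 X s s' t t' R ρ ρ' (ρ q),
        (1 / √(U (ρ q) r') + km (ρ q) r' ^ (-(1 / 16) : ℝ))) * MI X s t q +
       ∑ r ∈ oc2 X s s' t t' R, (∑ r' ∈ Lb2 X s s' t t' R ρ ρ' (ρ' r),
        (1 / √(U r' (ρ' r)) + km r' (ρ' r) ^ (-(1 / 16) : ℝ))) * MI X s' t' r) := by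
  classical
  obtain ⟨c0, hc0, C, hC, h0⟩ := labs_min hA
  have hCT := CT_pos
  refine ⟨c0 + (4 * CT + 1 + M), by linarith, 16 * CT * C + 1, by nlinarith, fun N => ?_⟩
  obtain ⟨p1, h1⟩ := tail_two N
  refine ⟨p1 + 3, ?_⟩
  intro p0 hp0 γ P₀ X s s' t t' P ρ ρ' U R h h' hP hl hl' hE hden hlate hcof hm hm'
  have hlP : 0 ≤ Real.log (P : ℝ) := Real.log_natCast_nonneg P
  have hw1 : 1 ≤ 3 + Real.log (P : ℝ) := by linarith
  have hw0 : 0 < 3 + Real.log (P : ℝ) := by linarith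
  set Lp : ℝ := (3 + Real.log P) ^ (c0 + (4 * CT + 1 + M)) with hLp
  have b1 : (3 + Real.log P) ^ c0 ≤ Lp :=
    Real.rpow_le_rpow_of_exponent_le hw1 (by linarith)
  have b2 : (3 + Real.log P) ^ (4 * CT + 1 + M) ≤ Lp :=
    Real.rpow_le_rpow_of_exponent_le hw1 (by linarith)
  have T1 := h1 p0 (by omega) γ P₀ X s t P h.nd hP hl
  have T2 := h1 p0 (by omega) γ P₀ X s' t' P h'.nd hP hl'
  have key := h0 ℕ ℕ P Lp U (oc1 X s s' t t' R) (oc2 X s s' t t' R) (fun q => q / s.A) (fun r => r / s'.A) (RB X s)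
    (RB X s') ρ ρ' (prt X s s' t t' R) (by omega) b1
    ((sum_RB h hP (by omega) hl oc1_sub hm).trans b2) ((sum_RB h' hP (by omega) hl' oc2_sub hm').trans b2)
    (fam_two h.nd h'.nd R) (T1.sub oc1_sub) (T2.sub oc2_sub) (fun q hq r hr hp => by
      obtain ⟨-, -, hco⟩ := prt_al h.nd h'.nd hE hp
      obtain ⟨x, hx, hi, hy⟩ := hp
      have e1 : x.1.1.1 = q := congrArg Prod.fst hi
      have e2 : x.2.1.1 = r := congrArg Prod.snd hi
      have k1 := hden x hx hy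
      have k2 := hlate x hx hy
      have k3 := hcof x hx hy
      rw [e1, e2] at k1 k2 k3
      rw [hi, (D12 s s' q r).1, (D12 s s' q r).2] at k3
      exact { co := hco, dn := k1, lt := k2, u1 := k3.1, sp := k3.2 })
  refine (two_core h.nd h'.nd hE).trans ?_
  have c1 : ∀ q ∈ oc1 X s s' t t' R, (∑ r' ∈ Lb (oc1 X s s' t t' R) (oc2 X s s' t t' R) ρ ρ' (prt X s s' t t' R) (ρ q),
      2 * (1 / √(U (ρ q) r') + C * km (ρ q) r' ^ (-(1 / 16) : ℝ))) * RB X s q ≤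
      8 * CT * C * Real.log P * ((∑ r' ∈ Lb1 X s s' t t' R ρ ρ' (ρ q),
        (1 / √(U (ρ q) r') + km (ρ q) r' ^ (-(1 / 16) : ℝ))) * MI X s t q) := by
    intro q hq
    have a1 := h.lo P hP hl q (mem_al.1 (oc1_sub hq)).2 (mem_al.1 (oc1_sub hq)).1
    have a2 : ∑ r' ∈ Lb (oc1 X s s' t t' R) (oc2 X s s' t t' R) ρ ρ' (prt X s s' t t' R) (ρ q),
        2 * (1 / √(U (ρ q) r') + C * km (ρ q) r' ^ (-(1 / 16) : ℝ)) ≤
        2 * C * ∑ r' ∈ Lb1 X s s' t t' R ρ ρ' (ρ q),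
        (1 / √(U (ρ q) r') + km (ρ q) r' ^ (-(1 / 16) : ℝ)) := by
      unfold Lb1
      rw [Finset.mul_sum]
      refine Finset.sum_le_sum fun r' _ => ?_
      have a3 : 0 ≤ 1 / √(U (ρ q) r') := by positivity
      nlinarith
    have a4 : 0 ≤ ∑ r' ∈ Lb1 X s s' t t' R ρ ρ' (ρ q),
        (1 / √(U (ρ q) r') + km (ρ q) r' ^ (-(1 / 16) : ℝ)) :=
      Finset.sum_nonneg fun r' _ => by
        have := km_one (ρ q) r'
        positivity
    calc _ ≤ (2 * C * ∑ r' ∈ Lb1 X s s' t t' R ρ ρ' (ρ q),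
        (1 / √(U (ρ q) r') + km (ρ q) r' ^ (-(1 / 16) : ℝ))) * (4 * CT * Real.log P * MI X s t q) :=
          mul_le_mul a2 a1 (RB_nn h.nd q) (by positivity)
      _ = _ := by ring
  have c2 : ∀ r ∈ oc2 X s s' t t' R, (∑ r' ∈ Lb (oc2 X s s' t t' R) (oc1 X s s' t t' R) ρ' ρ (fun j i => prt X s s' t t' R i j) (ρ' r),
      2 * (1 / √(U r' (ρ' r)) + C * km r' (ρ' r) ^ (-(1 / 16) : ℝ))) * RB X s' r ≤
      8 * CT * C * Real.log P * ((∑ r' ∈ Lb2 X s s' t t' R ρ ρ' (ρ' r),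
        (1 / √(U r' (ρ' r)) + km r' (ρ' r) ^ (-(1 / 16) : ℝ))) * MI X s' t' r) := by
    intro r hr
    have a1 := h'.lo P hP hl' r (mem_al.1 (oc2_sub hr)).2 (mem_al.1 (oc2_sub hr)).1
    have a2 : ∑ r' ∈ Lb (oc2 X s s' t t' R) (oc1 X s s' t t' R) ρ' ρ (fun j i => prt X s s' t t' R i j) (ρ' r),
        2 * (1 / √(U r' (ρ' r)) + C * km r' (ρ' r) ^ (-(1 / 16) : ℝ)) ≤
        2 * C * ∑ r' ∈ Lb2 X s s' t t' R ρ ρ' (ρ' r),
        (1 / √(U r' (ρ' r)) + km r' (ρ' r) ^ (-(1 / 16) : ℝ)) := by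
      unfold Lb2
      rw [Finset.mul_sum]
      refine Finset.sum_le_sum fun r' _ => ?_
      have a3 : 0 ≤ 1 / √(U r' (ρ' r)) := by positivity
      nlinarith
    have a4 : 0 ≤ ∑ r' ∈ Lb2 X s s' t t' R ρ ρ' (ρ' r),
        (1 / √(U r' (ρ' r)) + km r' (ρ' r) ^ (-(1 / 16) : ℝ)) :=
      Finset.sum_nonneg fun r' _ => by
        have := km_one r' (ρ' r)
        positivity
    calc _ ≤ (2 * C * ∑ r' ∈ Lb2 X s s' t t' R ρ ρ' (ρ' r),
        (1 / √(U r' (ρ' r)) + km r' (ρ' r) ^ (-(1 / 16) : ℝ))) *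
          (4 * CT * Real.log P * MI X s' t' r) :=
          mul_le_mul a2 a1 (RB_nn h'.nd r) (by positivity)
      _ = _ := by ring
  have c3 := mul_le_mul_of_nonneg_left (key.trans (add_le_add (Finset.sum_le_sum c1)
    (Finset.sum_le_sum c2))) (by norm_num : (0:ℝ) ≤ 2)
  refine c3.trans ?_
  rw [← Finset.mul_sum, ← Finset.mul_sum, ← mul_add]
  set W := ∑ q ∈ oc1 X s s' t t' R, (∑ r' ∈ Lb1 X s s' t t' R ρ ρ' (ρ q),
        (1 / √(U (ρ q) r') + km (ρ q) r' ^ (-(1 / 16) : ℝ))) * MI X s t q +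
       ∑ r ∈ oc2 X s s' t t' R, (∑ r' ∈ Lb2 X s s' t t' R ρ ρ' (ρ' r),
        (1 / √(U r' (ρ' r)) + km r' (ρ' r) ^ (-(1 / 16) : ℝ))) * MI X s' t' r with hW
  have hW0 : 0 ≤ W := by
    refine add_nonneg (Finset.sum_nonneg fun q _ => mul_nonneg (Finset.sum_nonneg fun r' _ => ?_)
      (MI_nonneg h.nd q)) (Finset.sum_nonneg fun q _ => mul_nonneg
      (Finset.sum_nonneg fun r' _ => ?_) (MI_nonneg h'.nd q))
    · have := km_one (ρ q) r'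
      positivity
    · have := km_one r' (ρ' q)
      positivity
  have h5 : 2 * (8 * CT * C * Real.log P * W) ≤ (16 * CT * C + 1) * (1 + Real.log P) * W := by
    have h6 : 2 * (8 * CT * C * Real.log P) ≤ (16 * CT * C + 1) * (1 + Real.log P) := by
      have h7 : 0 ≤ CT * C := by positivity
      nlinarith
    calc 2 * (8 * CT * C * Real.log P * W) = 2 * (8 * CT * C * Real.log P) * W := by ring
      _ ≤ _ := mul_le_mul_of_nonneg_right h6 hW0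
  exact h5

/-- **TWO NODES, MANY LABELS, RATIO OF THE DENOMINATORS** -/
theorem two_diff {A M δ : ℝ} (hA : 0 ≤ A) (hM : 0 ≤ M) (hδ : 0 < δ) : ∃ Ce : ℝ, 1 ≤ Ce ∧
    ∃ C : ℝ, 1 ≤ C ∧ ∀ (N : Skel189.Num), ∃ p₁ : ℕ, ∀ p0 ≥ p₁, ∀ (γ : ℝ) (P₀ : ℕ)
    (X : Ctx N γ p0 P₀) (s s' : NS) (t t' : IT) (P : ℕ) (ρ ρ' : ℕ → ℚ)
    (R : Finset (X.c.Lam × X.c.Lam)), MN X s t → MN X s' t' → p0 ≤ P →
    (∀ r : ℕ, r.Prime → r < s.n → r ≤ P) → (∀ r : ℕ, r.Prime → r < s'.n → r ≤ P) →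
    ExO X s s' t t' R ρ ρ' →
    (∀ x ∈ R, Lv X s s' t t' x → (3 + Real.log P) ^ Ce ≤ KK (ρ x.1.1.1) (ρ' x.2.1.1)) →
    (∀ x ∈ R, Lv X s s' t t' x → 1 ≤ KK (ρ x.1.1.1) (ρ' x.2.1.1) ^ A * RB X s x.1.1.1 ∨
      1 ≤ KK (ρ x.1.1.1) (ρ' x.2.1.1) ^ A * RB X s' x.2.1.1) →
    (∀ x ∈ R, Lv X s s' t t' x →
      KK (ρ x.1.1.1) (ρ' x.2.1.1) ^ δ * (ρ x.1.1.1).den ≤ (ρ' x.2.1.1).den ∨
      KK (ρ x.1.1.1) (ρ' x.2.1.1) ^ δ * (ρ' x.2.1.1).den ≤ (ρ x.1.1.1).den) →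
    ∑ q ∈ oc1 X s s' t t' R, MI X s t q ≤ (3 + Real.log P) ^ M →
    ∑ q ∈ oc2 X s s' t t' R, MI X s' t' q ≤ (3 + Real.log P) ^ M →
    Q R (vN X (.inl (s, t))) (vN X (.inl (s', t'))) ≤ C * (1 + Real.log P) *
      (∑ q ∈ oc1 X s s' t t' R, (∑ r' ∈ Lb1 X s s' t t' R ρ ρ' (ρ q),
        KK (ρ q) r' ^ (-(δ / 8) : ℝ)) * MI X s t q +
       ∑ r ∈ oc2 X s s' t t' R, (∑ r' ∈ Lb2 X s s' t t' R ρ ρ' (ρ' r),
        KK r' (ρ' r) ^ (-(δ / 8) : ℝ)) * MI X s' t' r) := by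
  classical
  obtain ⟨c0, hc0, C, hC, h0⟩ := labs_diff hA hδ
  have hCT := CT_pos
  refine ⟨c0 + (4 * CT + 1 + M), by linarith, 16 * CT * C + 1, by nlinarith, fun N => ?_⟩
  obtain ⟨p1, h1⟩ := tail_two N
  refine ⟨p1 + 3, ?_⟩
  intro p0 hp0 γ P₀ X s s' t t' P ρ ρ' R h h' hP hl hl' hE hden hlate hcof hm hm'
  have hlP : 0 ≤ Real.log (P : ℝ) := Real.log_natCast_nonneg P
  have hw1 : 1 ≤ 3 + Real.log (P : ℝ) := by linarith
  have hw0 : 0 < 3 + Real.log (P : ℝ) := by linarith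
  set Lp : ℝ := (3 + Real.log P) ^ (c0 + (4 * CT + 1 + M)) with hLp
  have b1 : (3 + Real.log P) ^ c0 ≤ Lp :=
    Real.rpow_le_rpow_of_exponent_le hw1 (by linarith)
  have b2 : (3 + Real.log P) ^ (4 * CT + 1 + M) ≤ Lp :=
    Real.rpow_le_rpow_of_exponent_le hw1 (by linarith)
  have T1 := h1 p0 (by omega) γ P₀ X s t P h.nd hP hl
  have T2 := h1 p0 (by omega) γ P₀ X s' t' P h'.nd hP hl'
  have key := h0 ℕ ℕ P Lp (oc1 X s s' t t' R) (oc2 X s s' t t' R) (fun q => q / s.A) (fun r => r / s'.A) (RB X s)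
    (RB X s') ρ ρ' (prt X s s' t t' R) (by omega) b1
    ((sum_RB h hP (by omega) hl oc1_sub hm).trans b2) ((sum_RB h' hP (by omega) hl' oc2_sub hm').trans b2)
    (fam_two h.nd h'.nd R) (T1.sub oc1_sub) (T2.sub oc2_sub) (fun q hq r hr hp => by
      obtain ⟨-, -, hco⟩ := prt_al h.nd h'.nd hE hp
      obtain ⟨x, hx, hi, hy⟩ := hp
      have e1 : x.1.1.1 = q := congrArg Prod.fst hi
      have e2 : x.2.1.1 = r := congrArg Prod.snd hi
      have k1 := hden x hx hy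
      have k2 := hlate x hx hy
      have k3 := hcof x hx hy
      rw [e1, e2] at k1 k2 k3
      exact { co := hco, dn := k1, lt := k2, sp := k3 })
  refine (two_core h.nd h'.nd hE).trans ?_
  have c1 : ∀ q ∈ oc1 X s s' t t' R, (∑ r' ∈ Lb (oc1 X s s' t t' R) (oc2 X s s' t t' R) ρ ρ' (prt X s s' t t' R) (ρ q),
      2 * (C * KK (ρ q) r' ^ (-(δ / 8) : ℝ))) * RB X s q ≤
      8 * CT * C * Real.log P * ((∑ r' ∈ Lb1 X s s' t t' R ρ ρ' (ρ q),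
        KK (ρ q) r' ^ (-(δ / 8) : ℝ)) * MI X s t q) := by
    intro q hq
    have a1 := h.lo P hP hl q (mem_al.1 (oc1_sub hq)).2 (mem_al.1 (oc1_sub hq)).1
    have a4 : 0 ≤ ∑ r' ∈ Lb1 X s s' t t' R ρ ρ' (ρ q), KK (ρ q) r' ^ (-(δ / 8) : ℝ) :=
      Finset.sum_nonneg fun r' _ => by
        have := KK_one (ρ q) r'
        positivity
    have a2 : ∑ r' ∈ Lb (oc1 X s s' t t' R) (oc2 X s s' t t' R) ρ ρ' (prt X s s' t t' R) (ρ q),
        2 * (C * KK (ρ q) r' ^ (-(δ / 8) : ℝ)) =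
        2 * C * ∑ r' ∈ Lb1 X s s' t t' R ρ ρ' (ρ q), KK (ρ q) r' ^ (-(δ / 8) : ℝ) := by
      unfold Lb1
      rw [Finset.mul_sum]
      refine Finset.sum_congr rfl fun r' _ => by ring
    rw [a2]
    calc _ ≤ (2 * C * ∑ r' ∈ Lb1 X s s' t t' R ρ ρ' (ρ q), KK (ρ q) r' ^ (-(δ / 8) : ℝ)) *
        (4 * CT * Real.log P * MI X s t q) := mul_le_mul_of_nonneg_left a1 (by positivity)
      _ = _ := by ring
  have c2 : ∀ r ∈ oc2 X s s' t t' R, (∑ r' ∈ Lb (oc2 X s s' t t' R) (oc1 X s s' t t' R) ρ' ρ (fun j i => prt X s s' t t' R i j) (ρ' r),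
      2 * (C * KK r' (ρ' r) ^ (-(δ / 8) : ℝ))) * RB X s' r ≤
      8 * CT * C * Real.log P * ((∑ r' ∈ Lb2 X s s' t t' R ρ ρ' (ρ' r),
        KK r' (ρ' r) ^ (-(δ / 8) : ℝ)) * MI X s' t' r) := by
    intro r hr
    have a1 := h'.lo P hP hl' r (mem_al.1 (oc2_sub hr)).2 (mem_al.1 (oc2_sub hr)).1
    have a4 : 0 ≤ ∑ r' ∈ Lb2 X s s' t t' R ρ ρ' (ρ' r), KK r' (ρ' r) ^ (-(δ / 8) : ℝ) :=
      Finset.sum_nonneg fun r' _ => by
        have := KK_one r' (ρ' r)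
        positivity
    have a2 : ∑ r' ∈ Lb (oc2 X s s' t t' R) (oc1 X s s' t t' R) ρ' ρ (fun j i => prt X s s' t t' R i j) (ρ' r),
        2 * (C * KK r' (ρ' r) ^ (-(δ / 8) : ℝ)) =
        2 * C * ∑ r' ∈ Lb2 X s s' t t' R ρ ρ' (ρ' r), KK r' (ρ' r) ^ (-(δ / 8) : ℝ) := by
      unfold Lb2
      rw [Finset.mul_sum]
      refine Finset.sum_congr rfl fun r' _ => by ring
    rw [a2]
    calc _ ≤ (2 * C * ∑ r' ∈ Lb2 X s s' t t' R ρ ρ' (ρ' r), KK r' (ρ' r) ^ (-(δ / 8) : ℝ)) *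
        (4 * CT * Real.log P * MI X s' t' r) := mul_le_mul_of_nonneg_left a1 (by positivity)
      _ = _ := by ring
  have c3 := mul_le_mul_of_nonneg_left (key.trans (add_le_add (Finset.sum_le_sum c1)
    (Finset.sum_le_sum c2))) (by norm_num : (0:ℝ) ≤ 2)
  refine c3.trans ?_
  rw [← Finset.mul_sum, ← Finset.mul_sum, ← mul_add]
  set W := ∑ q ∈ oc1 X s s' t t' R, (∑ r' ∈ Lb1 X s s' t t' R ρ ρ' (ρ q),
        KK (ρ q) r' ^ (-(δ / 8) : ℝ)) * MI X s t q +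
       ∑ r ∈ oc2 X s s' t t' R, (∑ r' ∈ Lb2 X s s' t t' R ρ ρ' (ρ' r),
        KK r' (ρ' r) ^ (-(δ / 8) : ℝ)) * MI X s' t' r with hW
  have hW0 : 0 ≤ W := by
    refine add_nonneg (Finset.sum_nonneg fun q _ => mul_nonneg (Finset.sum_nonneg fun r' _ => ?_)
      (MI_nonneg h.nd q)) (Finset.sum_nonneg fun q _ => mul_nonneg
      (Finset.sum_nonneg fun r' _ => ?_) (MI_nonneg h'.nd q))
    · have := KK_one (ρ q) r'
      positivity
    · have := KK_one r' (ρ' q)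
      positivity
  have h6 : 2 * (8 * CT * C * Real.log P) ≤ (16 * CT * C + 1) * (1 + Real.log P) := by
    have h7 : 0 ≤ CT * C := by positivity
    nlinarith
  calc 2 * (8 * CT * C * Real.log P * W) = 2 * (8 * CT * C * Real.log P) * W := by ring
    _ ≤ _ := mul_le_mul_of_nonneg_right h6 hW0

/-! ### bounds of the charges -/

lemma Lb1_sub {s s' : NS} {t t' : IT} {R : Finset (X.c.Lam × X.c.Lam)} {ρ ρ' : ℕ → ℚ} {φ : ℚ → ℚ}
    (hφ : ∀ x ∈ R, Lv X s s' t t' x → ρ' x.2.1.1 = φ (ρ x.1.1.1)) (r : ℚ) :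
    Lb1 X s s' t t' R ρ ρ' r ⊆ {φ r} := by
  intro r' hr'
  obtain ⟨i, hi, j, hj, e1, e2, x, hx, hit, hy⟩ := mem_Lb.1 hr'
  have f1 : x.1.1.1 = i := congrArg Prod.fst hit
  have f2 : x.2.1.1 = j := congrArg Prod.snd hit
  have := hφ x hx hy
  rw [f1, f2, e1, e2] at this
  rw [Finset.mem_singleton]
  exact this

lemma Lb2_sub {s s' : NS} {t t' : IT} {R : Finset (X.c.Lam × X.c.Lam)} {ρ ρ' : ℕ → ℚ} {φ : ℚ → ℚ}
    (hφ : ∀ x ∈ R, Lv X s s' t t' x → ρ x.1.1.1 = φ (ρ' x.2.1.1)) (r : ℚ) :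
    Lb2 X s s' t t' R ρ ρ' r ⊆ {φ r} := by
  intro r' hr'
  obtain ⟨j, hj, i, hi, e1, e2, x, hx, hit, hy⟩ := mem_Lb.1 hr'
  have f1 : x.1.1.1 = i := congrArg Prod.fst hit
  have f2 : x.2.1.1 = j := congrArg Prod.snd hit
  have := hφ x hx hy
  rw [f1, f2, e1, e2] at this
  rw [Finset.mem_singleton]
  exact this

/-- **TWO NODES, ONE LABEL PER PAIR** : the root labels `σ q = σ r` are equal, the offsets are `s.B σ`
and `s'.B σ`; only the items which occur are charged -/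
theorem two_one {A M : ℝ} (hA : 0 ≤ A) (hM : 0 ≤ M) : ∃ Ce : ℝ, 1 ≤ Ce ∧ ∃ C : ℝ, 1 ≤ C ∧
    ∀ (N : Skel189.Num), ∃ p₁ : ℕ, ∀ p0 ≥ p₁, ∀ (γ : ℝ) (P₀ : ℕ)
    (X : Ctx N γ p0 P₀) (s s' : NS) (t t' : IT) (P : ℕ) (σ : ℕ → ℚ) (U : ℚ → ℝ)
    (R : Finset (X.c.Lam × X.c.Lam)), MN X s t → MN X s' t' → p0 ≤ P →
    (∀ r : ℕ, r.Prime → r < s.n → r ≤ P) → (∀ r : ℕ, r.Prime → r < s'.n → r ≤ P) →
    ExO X s s' t t' R (fun q => s.B * σ q) (fun q => s'.B * σ q) →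
    (∀ x ∈ R, Lv X s s' t t' x → σ x.1.1.1 = σ x.2.1.1) →
    (∀ x ∈ R, Lv X s s' t t' x → (3 + Real.log P) ^ Ce ≤
      km (s.B * σ x.1.1.1) (s'.B * σ x.1.1.1)) →
    (∀ x ∈ R, Lv X s s' t t' x →
      1 ≤ km (s.B * σ x.1.1.1) (s'.B * σ x.1.1.1) ^ A * RB X s x.1.1.1 ∨
      1 ≤ km (s.B * σ x.1.1.1) (s'.B * σ x.1.1.1) ^ A * RB X s' x.2.1.1) →
    (∀ x ∈ R, Lv X s s' t t' x → 1 ≤ U (σ x.1.1.1) ∧
      (U (σ x.1.1.1) ≤ (D1 s s' (it2 x) : ℝ) ∨ U (σ x.1.1.1) ≤ (D2 s s' (it2 x) : ℝ))) →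
    ∑ q ∈ oc1 X s s' t t' R, MI X s t q ≤ (3 + Real.log P) ^ M →
    ∑ q ∈ oc2 X s s' t t' R, MI X s' t' q ≤ (3 + Real.log P) ^ M →
    Q R (vN X (.inl (s, t))) (vN X (.inl (s', t'))) ≤ C * (1 + Real.log P) *
      (∑ q ∈ oc1 X s s' t t' R,
        (1 / √(U (σ q)) + km (s.B * σ q) (s'.B * σ q) ^ (-(1 / 16) : ℝ)) * MI X s t q +
       ∑ r ∈ oc2 X s s' t t' R,
        (1 / √(U (σ r)) + km (s.B * σ r) (s'.B * σ r) ^ (-(1 / 16) : ℝ)) * MI X s' t' r) := by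
  obtain ⟨Ce, hCe, C, hC, h0⟩ := two_min hA hM
  refine ⟨Ce, hCe, C, hC, fun N => ?_⟩
  obtain ⟨p1, h1⟩ := h0 N
  refine ⟨p1, ?_⟩
  intro p0 hp0 γ P₀ X s s' t t' P σ U R h h' hP hl hl' hE heq hden hlate hcof hm hm'
  have hB0 : (s.B : ℚ) ≠ 0 := by exact_mod_cast h.nd.B_pos.ne'
  have hB0' : (s'.B : ℚ) ≠ 0 := by exact_mod_cast h'.nd.B_pos.ne'
  have key := h1 p0 hp0 γ P₀ X s s' t t' P (fun q => s.B * σ q) (fun q => s'.B * σ q)
    (fun r _ => U (r / s.B)) R h h' hP hl hl' hE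
    (fun x hx hy => by
      have := hden x hx hy
      show _ ≤ km (s.B * σ x.1.1.1) (s'.B * σ x.2.1.1)
      rw [← heq x hx hy]; exact this)
    (fun x hx hy => by
      have := hlate x hx hy
      show 1 ≤ km (s.B * σ x.1.1.1) (s'.B * σ x.2.1.1) ^ A * _ ∨
        1 ≤ km (s.B * σ x.1.1.1) (s'.B * σ x.2.1.1) ^ A * _
      rw [← heq x hx hy]; exact this)
    (fun x hx hy => by
      have := hcof x hx hy
      show 1 ≤ U (s.B * σ x.1.1.1 / s.B) ∧ (U (s.B * σ x.1.1.1 / s.B) ≤ _ ∨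
        U (s.B * σ x.1.1.1 / s.B) ≤ _)
      rw [mul_div_cancel_left₀ _ hB0]; exact this) hm hm'
  refine key.trans ?_
  have hlP : 0 ≤ Real.log (P : ℝ) := Real.log_natCast_nonneg P
  refine mul_le_mul_of_nonneg_left ?_ (by positivity)
  have s1 := Lb1_sub (X := X) (s := s) (s' := s') (t := t) (t' := t') (R := R)
    (ρ := fun q => s.B * σ q) (ρ' := fun q => s'.B * σ q) (φ := fun r => s'.B * (r / s.B))
    (fun x hx hy => by
      show s'.B * σ x.2.1.1 = s'.B * (s.B * σ x.1.1.1 / s.B)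
      rw [mul_div_cancel_left₀ _ hB0, heq x hx hy])
  have s2 := Lb2_sub (X := X) (s := s) (s' := s') (t := t) (t' := t') (R := R)
    (ρ := fun q => s.B * σ q) (ρ' := fun q => s'.B * σ q) (φ := fun r => s.B * (r / s'.B))
    (fun x hx hy => by
      show s.B * σ x.1.1.1 = s.B * (s'.B * σ x.2.1.1 / s'.B)
      rw [mul_div_cancel_left₀ _ hB0', heq x hx hy])
  have nn : ∀ a b : ℚ, ∀ v : ℝ, 0 ≤ 1 / √v + km a b ^ (-(1 / 16) : ℝ) := fun a b v => by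
    have := km_one a b
    positivity
  refine add_le_add (Finset.sum_le_sum fun q hq => ?_) (Finset.sum_le_sum fun r hr => ?_)
  · refine mul_le_mul_of_nonneg_right ?_ (MI_nonneg h.nd q)
    refine (Finset.sum_le_sum_of_subset_of_nonneg (s1 _) fun r' _ _ => nn _ _ _).trans ?_
    rw [Finset.sum_singleton]
    refine le_of_eq ?_
    rw [mul_div_cancel_left₀ _ hB0]
  · refine mul_le_mul_of_nonneg_right ?_ (MI_nonneg h'.nd r)
    refine (Finset.sum_le_sum_of_subset_of_nonneg (s2 _) fun r' _ _ => nn _ _ _).trans ?_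
    rw [Finset.sum_singleton]
    refine le_of_eq ?_
    rw [mul_div_cancel_left₀ _ hB0', mul_div_cancel_left₀ _ hB0]

end Crest.Agent.R4P.RtK28
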