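import Crest.Agent.R4P.XmQ_37
import Crest.Agent.R4P.GcdW_37

/-!
R4 (S0004) with powers, H-4, helper37: `XmQ37.node_lab` with **separate exponents**: `A` (late side; the
threshold exponent `Ce` depends on `A` only) and `M` (masses of the pieces).

* **`node_labM`** : needs `(3 + log P)^Ce ≤ K` and `(3 + log P)^(M + 4 CT + 1) ≤ K` for every pair.
-/

set_option autoImplicit false
set_option linter.unusedSectionVars false
set_option linter.unusedVariables false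

open MeasureTheory Filter

namespace Crest.Agent.R4P.XmR37

open Crest.Agent.R4.Tour104 Crest.Agent.R4.Tour758 Crest.Agent.R4.Avg758 Crest.Agent.R4.Clos758
open Crest.Agent.R4.ClosL758 Crest.Agent.R4.ClosG758 Crest.Agent.R4.ClosR758
open Crest.Agent.R4.HVW560
open Crest.Agent.R4.Fam464 Crest.Agent.R4.Piece464
open Crest.Agent.R4P.Cnt588 Crest.Agent.R4P.Item758 Crest.Agent.R4P.AvgItem710
open Crest.Agent.R4P.Walk560 Crest.Agent.R4P.NodeG33
open Crest.Agent.R4P.Data758 Crest.Agent.R4P.Skel189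
open Crest.Agent.R4P.Bld532 (NS All)
open Crest.Agent.R4P.Step588 (NDt CT CT_pos tot_ge totient_div_prod)
open Crest.Agent.R4.Soft104 (w)
open Crest.Agent.R4P.SameIx30 Crest.Agent.R4P.GPair33
open Crest.Agent.R4P.ShR18 (Co)
open Crest.Agent.R4P.SpM18 Crest.Agent.R4P.XmE18 Crest.Agent.R4P.XmM18 Crest.Agent.R4P.XmG18
open Crest.Agent.R4P.GcdS37 (rd)
open Crest.Agent.R4P.GcdU37 (Tl)
open Crest.Agent.R4P.XmN37 Crest.Agent.R4P.XmO37
open Crest.Agent.R4P.RtE28 (KK KK_one)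
open Crest.Agent.R4P.GcdV37 hiding rt Lb
open Crest.Agent.R4P.GcdW37 (lab_minM)
open Crest.Agent.R4P.XmQ37
open Crest.Agent.R4P.E3V479 (qe)
open Crest.Agent.R4P.DTp26 (MP)
open Crest.Agent.R4P

open Classical in
/-- **LATE PAIRS OF TWO NODES OF ONE CIRCLE, MANY LABELS, RELATION WITH A POINT**, separate exponents -/
theorem node_labM {A : ℝ} (hA : 0 ≤ A) : ∃ Ce : ℝ, 1 ≤ Ce ∧ ∃ C : ℝ, 1 ≤ C ∧
    ∀ (N : Skel189.Num), ∃ p₁ : ℕ, ∀ p0 ≥ p₁, ∀ (γ : ℝ) (P₀ : ℕ)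
    (X : Ctx N γ p0 P₀) (s s' : NS) (t t' : IT) (P : ℕ) (ρ ρ' : ℕ → ℚ) (Z : ℚ → ℚ → ℝ)
    (R : ℝ → X.c.Lam → X.c.Lam → Prop) (M : ℝ),
    MN X s t → MN X s' t' → p0 ≤ P → (∀ r : ℕ, r.Prime → r < s.n → r ≤ P) →
    (∀ r : ℕ, r.Prime → r < s'.n → r ≤ P) → (∀ j i, MP fun y => R y j i) →
    ExP X s s' t t' R ρ ρ' → 0 ≤ M →
    (∀ e ∈ prs X s s' t t' R, 0 < Z (ρ e.1) (ρ' e.2) ∧
      (Z (ρ e.1) (ρ' e.2) ≤ D1 s s' e ∨ Z (ρ e.1) (ρ' e.2) ≤ D2 s s' e)) →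
    (∀ e ∈ prs X s s' t t' R, (3 + Real.log P) ^ Ce ≤ KK (ρ e.1) (ρ' e.2)) →
    (∀ e ∈ prs X s s' t t' R, (3 + Real.log P) ^ (M + 4 * CT + 1) ≤ KK (ρ e.1) (ρ' e.2)) →
    (∀ e ∈ prs X s s' t t' R, 1 ≤ KK (ρ e.1) (ρ' e.2) ^ A * RB X s e.1 ∨
      1 ≤ KK (ρ e.1) (ρ' e.2) ^ A * RB X s' e.2) →
    ∑ q ∈ (prs X s s' t t' R).image Prod.fst, MI X s t q ≤ (3 + Real.log P) ^ M →
    ∑ q ∈ (prs X s s' t t' R).image Prod.snd, MI X s' t' q ≤ (3 + Real.log P) ^ M →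
    I (qe R (vN X (.inl (s, t))) (vN X (.inl (s', t')))) ≤ C * (1 + Real.log P) *
      (∑ q ∈ (prs X s s' t t' R).image Prod.fst,
        (∑ r ∈ La ρ' (prs X s s' t t' R) q, GcdV37.rt Z (ρ q) r) * MI X s t q +
       ∑ q ∈ (prs X s s' t t' R).image Prod.snd,
        (∑ r ∈ GcdV37.Lb ρ (prs X s s' t t' R) q, GcdV37.rt Z r (ρ' q)) * MI X s' t' q) := by
  have hCT := CT_pos
  set A' : ℝ := A + 2 * CT + 1 with hA'
  obtain ⟨Ce, hCe, C1, hC1, key⟩ := lab_minM (A := A') (by linarith)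
  refine ⟨Ce, hCe, 8 * CT * C1 + 1, by nlinarith, fun N => ?_⟩
  obtain ⟨p1, h1⟩ := lg_nd N
  refine ⟨p1 + 3, ?_⟩
  intro p0 hp0 γ P₀ X s s' t t' P ρ ρ' Z R M h h' hP hl hl' mR hE hM hZ hden hdenM hlate m1 m2
  set E := prs X s s' t t' R with hEd
  have hlP : 0 ≤ Real.log (P : ℝ) := Real.log_natCast_nonneg P
  have hw1 : 1 ≤ 3 + Real.log (P : ℝ) := by linarith
  have hw0 : 0 < 3 + Real.log (P : ℝ) := by linarith
  have al : ∀ e ∈ E, e.1 ∈ t.items ∧ e.1 ∈ X.S' ∧ e.2 ∈ t'.items ∧ e.2 ∈ X.S' := fun e he =>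
    prs_alive h.nd h'.nd he
  set F := E.image Prod.fst with hF
  set G := E.image Prod.snd with hG
  have hFi : ∀ q ∈ F, q ∈ t.items ∧ q ∈ X.S' := by
    intro q hq
    obtain ⟨e, he, rfl⟩ := Finset.mem_image.1 hq
    exact ⟨(al e he).1, (al e he).2.1⟩
  have hGi : ∀ q ∈ G, q ∈ t'.items ∧ q ∈ X.S' := by
    intro q hq
    obtain ⟨e, he, rfl⟩ := Finset.mem_image.1 hq
    exact ⟨(al e he).2.2.1, (al e he).2.2.2⟩
  have hRB : ∀ q, 0 ≤ RB X s q := RB_nn h.nd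
  have hRB' : ∀ q, 0 ≤ RB X s' q := RB_nn h'.nd
  have hlo : ∀ q ∈ F, RB X s q ≤ 4 * CT * Real.log P * MI X s t q := fun q hq =>
    h.lo P hP hl q (hFi q hq).2 (hFi q hq).1
  have hlo' : ∀ q ∈ G, RB X s' q ≤ 4 * CT * Real.log P * MI X s' t' q := fun q hq =>
    h'.lo P hP hl' q (hGi q hq).2 (hGi q hq).1
  have hLM : 4 * CT * Real.log P * (3 + Real.log P) ^ M ≤ (3 + Real.log (P : ℝ)) ^ (M + 4 * CT + 1) := by
    calc 4 * CT * Real.log P * (3 + Real.log P) ^ M ≤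
          (3 + Real.log (P : ℝ)) ^ (4 * CT) * (3 + Real.log (P : ℝ)) ^ (1 : ℝ) *
            (3 + Real.log P) ^ M := by
          rw [Real.rpow_one]
          exact mul_le_mul_of_nonneg_right (mul_le_mul const_pow (by linarith) hlP
            (by positivity)) (by positivity)
      _ = (3 + Real.log (P : ℝ)) ^ (M + 4 * CT + 1) := by
          rw [← Real.rpow_add hw0, ← Real.rpow_add hw0]; congr 1; ring
  have hLT : 2 * CT * Real.log P ≤ (3 + Real.log (P : ℝ)) ^ A' := by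
    calc 2 * CT * Real.log P ≤ (3 + Real.log (P : ℝ)) ^ (2 * CT) * (3 + Real.log (P : ℝ)) ^ (1 : ℝ) := by
          rw [Real.rpow_one]
          exact mul_le_mul const_pow (by linarith) hlP (by positivity)
      _ = (3 + Real.log (P : ℝ)) ^ (2 * CT + 1) := (Real.rpow_add hw0 _ _).symm
      _ ≤ _ := Real.rpow_le_rpow_of_exponent_le hw1 (by rw [hA']; linarith)
  have sF : ∑ q ∈ F, RB X s q ≤ (3 + Real.log (P : ℝ)) ^ (M + 4 * CT + 1) := by
    calc ∑ q ∈ F, RB X s q ≤ ∑ q ∈ F, 4 * CT * Real.log P * MI X s t q := Finset.sum_le_sum hlo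
      _ = 4 * CT * Real.log P * ∑ q ∈ F, MI X s t q := by rw [Finset.mul_sum]
      _ ≤ _ := (mul_le_mul_of_nonneg_left m1 (by positivity)).trans hLM
  have sG : ∑ q ∈ G, RB X s' q ≤ (3 + Real.log (P : ℝ)) ^ (M + 4 * CT + 1) := by
    calc ∑ q ∈ G, RB X s' q ≤ ∑ q ∈ G, 4 * CT * Real.log P * MI X s' t' q := Finset.sum_le_sum hlo'
      _ = 4 * CT * Real.log P * ∑ q ∈ G, MI X s' t' q := by rw [Finset.mul_sum]
      _ ≤ _ := (mul_le_mul_of_nonneg_left m2 (by positivity)).trans hLM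
  have hD : ∀ e : ℕ × ℕ, D1 s s' e = (rd (e.1 / s.A) (e.2 / s'.A)).1 ∧
      D2 s s' e = (rd (e.1 / s.A) (e.2 / s'.A)).2 := by
    intro e
    refine ⟨rfl, ?_⟩
    unfold D2 cof rd
    rw [Nat.gcd_comm]
  have k := key ℕ ℕ P F G (fun q => q / s.A) (fun q => q / s'.A) (fun q => RB X s q)
    (fun q => RB X s' q) ρ ρ' Z E (M + 4 * CT + 1) (by omega) (by linarith)
    ⟨fun q hq => Nat.pos_of_ne_zero (h.nd.div_ne (hFi q hq).1),
      fun q hq => Nat.pos_of_ne_zero (h'.nd.div_ne (hGi q hq).1),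
      fun q hq q' hq' he => div_inj h.nd (hFi q hq).1 (hFi q' hq').1 he,
      fun q hq q' hq' he => div_inj h'.nd (hGi q hq).1 (hGi q' hq').1 he,
      fun q _ => hRB q, fun q _ => hRB' q⟩
    (fun e he => Finset.mem_product.2 ⟨Finset.mem_image_of_mem _ he, Finset.mem_image_of_mem _ he⟩)
    (fun e he => by
      have := hE.co h.nd h'.nd he
      rwa [(hD e).1, (hD e).2] at this)
    (fun e he => by
      have := hZ e he
      rwa [(hD e).1, (hD e).2] at this)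
    hden hdenM (fun e he => by
      have hK1 := KK_one (ρ e.1) (ρ' e.2)
      have hK : KK (ρ e.1) (ρ' e.2) ^ A ≤ KK (ρ e.1) (ρ' e.2) ^ A' :=
        Real.rpow_le_rpow_of_exponent_le hK1 (by rw [hA']; linarith)
      rcases hlate e he with hl | hl
      · exact Or.inl (hl.trans (mul_le_mul_of_nonneg_right hK (hRB _)))
      · exact Or.inr (hl.trans (mul_le_mul_of_nonneg_right hK (hRB' _))))
    (fun q hq z hz => by
      obtain ⟨g1, g2⟩ := h1 p0 (by omega) γ P₀ X s t h.nd P hP hl q (hFi q hq).2 (hFi q hq).1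
      exact (tail_nd h.nd hl (hFi q hq).1 g1 hz (g2 z hz)).trans
        (mul_le_mul_of_nonneg_right hLT (by positivity)))
    (fun q hq z hz => by
      obtain ⟨g1, g2⟩ := h1 p0 (by omega) γ P₀ X s' t' h'.nd P hP hl' q (hGi q hq).2 (hGi q hq).1
      exact (tail_nd h'.nd hl' (hGi q hq).1 g1 hz (g2 z hz)).trans
        (mul_le_mul_of_nonneg_right hLT (by positivity)))
    sF sG
  have hov : ∀ e : ℕ × ℕ, ov X s s' e = min (RB X s e.1 / ((rd (e.1 / s.A) (e.2 / s'.A)).1 : ℕ))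
      (RB X s' e.2 / ((rd (e.1 / s.A) (e.2 / s'.A)).2 : ℕ)) := by
    intro e
    unfold ov
    rw [(hD e).1, (hD e).2]
  have s1 : ∑ e ∈ E, 2 * ov X s s' e = 2 * ∑ e ∈ E, min (RB X s e.1 / ((rd (e.1 / s.A) (e.2 / s'.A)).1 : ℕ))
      (RB X s' e.2 / ((rd (e.1 / s.A) (e.2 / s'.A)).2 : ℕ)) := by
    rw [Finset.mul_sum]
    exact Finset.sum_congr rfl fun e _ => by rw [hov e]
  have hrt : ∀ e ∈ E, 0 ≤ GcdV37.rt Z (ρ e.1) (ρ' e.2) := by
    intro e he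
    have a := (hZ e he).1
    have b : 0 < KK (ρ e.1) (ρ' e.2) := by have := KK_one (ρ e.1) (ρ' e.2); linarith
    unfold GcdV37.rt
    positivity
  have w1 : ∀ q, 0 ≤ ∑ r ∈ La ρ' E q, GcdV37.rt Z (ρ q) r := by
    intro q
    refine Finset.sum_nonneg fun r hr => ?_
    obtain ⟨e, a, b, rfl⟩ := mem_La.1 hr
    have := hrt e a
    rwa [b] at this
  have w2 : ∀ q, 0 ≤ ∑ r ∈ GcdV37.Lb ρ E q, GcdV37.rt Z r (ρ' q) := by
    intro q
    refine Finset.sum_nonneg fun r hr => ?_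
    obtain ⟨e, a, b, rfl⟩ := mem_Lb.1 hr
    have := hrt e a
    rwa [b] at this
  set W1 := ∑ q ∈ F, (∑ r ∈ La ρ' E q, GcdV37.rt Z (ρ q) r) * MI X s t q with hW1
  set W2 := ∑ q ∈ G, (∑ r ∈ GcdV37.Lb ρ E q, GcdV37.rt Z r (ρ' q)) * MI X s' t' q with hW2
  have q1 : ∑ q ∈ F, (∑ r ∈ La ρ' E q, GcdV37.rt Z (ρ q) r) * RB X s q ≤ 4 * CT * Real.log P * W1 := by
    rw [hW1, Finset.mul_sum]
    refine Finset.sum_le_sum fun q hq => ?_
    have := mul_le_mul_of_nonneg_left (hlo q hq) (w1 q)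
    linarith
  have q2 : ∑ q ∈ G, (∑ r ∈ GcdV37.Lb ρ E q, GcdV37.rt Z r (ρ' q)) * RB X s' q ≤ 4 * CT * Real.log P * W2 := by
    rw [hW2, Finset.mul_sum]
    refine Finset.sum_le_sum fun q hq => ?_
    have := mul_le_mul_of_nonneg_left (hlo' q hq) (w2 q)
    linarith
  have W10 : 0 ≤ W1 := Finset.sum_nonneg fun q _ => mul_nonneg (w1 q) (MI_nonneg h.nd q)
  have W20 : 0 ≤ W2 := Finset.sum_nonneg fun q _ => mul_nonneg (w2 q) (MI_nonneg h'.nd q)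
  calc I (qe R (vN X (.inl (s, t))) (vN X (.inl (s', t')))) ≤ ∑ e ∈ E, 2 * ov X s s' e :=
        node_offP h.nd h'.nd mR hE
    _ ≤ 2 * (C1 * (4 * CT * Real.log P * W1 + 4 * CT * Real.log P * W2)) := by
        rw [s1]
        refine mul_le_mul_of_nonneg_left (k.trans ?_) (by norm_num)
        exact mul_le_mul_of_nonneg_left (add_le_add q1 q2) (by linarith)
    _ = 8 * CT * C1 * Real.log P * (W1 + W2) := by ring
    _ ≤ (8 * CT * C1 + 1) * (1 + Real.log P) * (W1 + W2) := by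
        refine mul_le_mul_of_nonneg_right ?_ (add_nonneg W10 W20)
        have h0 : 0 ≤ 8 * CT * C1 := by positivity
        nlinarith

end Crest.Agent.R4P.XmR37
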