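import Crest.Agent.R4P.RtL_28
import Crest.Agent.R4P.XmR_37

/-!
R4 (S0004), powers pass, helper37: **`RtL_28` with separate exponents** (over `XmR37.node_labM`):
the exponent `A` of the lateness hypothesis is no longer coupled with the exponent of the masses of the
nodes; the masses only ask `(3 + log P) ^ (N.B + N.c2 + 2 + 4 * CT + 1) <= KK` (field `dnM`).

* **`pair_lm`**, **`vn_lab`**, **`fb_lab`**, **`fp_lab`** : as in `RtL_28`, constants `Ce`, `C` depend on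
  `A` only.
-/

set_option autoImplicit false
set_option linter.unusedSectionVars false
set_option linter.unusedVariables false

open MeasureTheory Filter

namespace Crest.Agent.R4P.RtN37

open Crest.Agent.R4.Tour104 Crest.Agent.R4.Tour758 Crest.Agent.R4.Avg758 Crest.Agent.R4.Clos758
open Crest.Agent.R4.ClosL758 Crest.Agent.R4.ClosG758 Crest.Agent.R4.ClosR758
open Crest.Agent.R4.HVW560
open Crest.Agent.R4.Fam464 Crest.Agent.R4.Piece464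
open Crest.Agent.R4P.Cnt588 Crest.Agent.R4P.Item758 Crest.Agent.R4P.AvgItem710
open Crest.Agent.R4P.Walk560 Crest.Agent.R4P.NodeG33
open Crest.Agent.R4P.Data758 Crest.Agent.R4P.Skel189
open Crest.Agent.R4P.Bld532 (NS All NodeOk)
open Crest.Agent.R4P.WalkIT579 (tp isL nodeOk_hi)
open Crest.Agent.R4P.Step588 (NDt CT CT_pos)
open Crest.Agent.R4.Soft104 (w)
open Crest.Agent.R4P.SameIx30 Crest.Agent.R4P.GPair33
open Crest.Agent.R4P.ShR18 (Co)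
open Crest.Agent.R4P.SpM18 Crest.Agent.R4P.XmE18 Crest.Agent.R4P.XmM18 Crest.Agent.R4P.XmG18
open Crest.Agent.R4P.XmN37 Crest.Agent.R4P.XmO37 Crest.Agent.R4P.XmQ37
open Crest.Agent.R4P.RtE28 (KK KK_one)
open Crest.Agent.R4P.GcdV37 (La rt)
open Crest.Agent.R4P.E3V479 (qe)
open Crest.Agent.R4P.DTp26 (MP)
open Crest.Agent.R4P.JnE5 (Ker bil)
open Crest.Agent.R4P.PrH45 (RN FB)
open Crest.Agent.R4P.PrK45
open Crest.Agent.R4P.RseNd23 (NF)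
open Crest.Agent.R4P.RtS28 (Mn Mn_nonneg)
open Crest.Agent.R4P.XmR37 (node_labM)
open Crest.Agent.R4P.RtL28 (rl mp_rl bil_qe NL ctx_NL MI_lm MI_tot r1 r2 nN nP mass_nd)
open Crest.Agent.R4P

variable {N : Skel189.Num} {γ : ℝ} {p0 P₀ : ℕ} {X : Ctx N γ p0 P₀}

/-- the exponent of the hypotheses on the masses -/
noncomputable def Mx (N : Skel189.Num) : ℝ := N.B + N.c2 + 2

/-- **hypotheses on the pairs of a kernel** : exact centres, sparse labels, one side late, one large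
cofactor (`L = log P`, exponents `Ce`, `A`, masses `M`) -/
structure LbM (X : Ctx N γ p0 P₀) (s s' : NS) (t t' : IT) (K : X.c.Lam → X.c.Lam → ℝ)
    (ρ ρ' : ℕ → ℚ) (Z : ℚ → ℚ → ℝ) (L Ce A M : ℝ) : Prop where
  ex : ExP X s s' t t' (rl K) ρ ρ'
  z : ∀ e ∈ prs X s s' t t' (rl K), 0 < Z (ρ e.1) (ρ' e.2) ∧
    (Z (ρ e.1) (ρ' e.2) ≤ D1 s s' e ∨ Z (ρ e.1) (ρ' e.2) ≤ D2 s s' e)
  dn : ∀ e ∈ prs X s s' t t' (rl K), (3 + L) ^ Ce ≤ KK (ρ e.1) (ρ' e.2)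
  dnM : ∀ e ∈ prs X s s' t t' (rl K), (3 + L) ^ (M + 4 * CT + 1) ≤ KK (ρ e.1) (ρ' e.2)
  lt : ∀ e ∈ prs X s s' t t' (rl K), 1 ≤ KK (ρ e.1) (ρ' e.2) ^ A * RB X s e.1 ∨
    1 ≤ KK (ρ e.1) (ρ' e.2) ^ A * RB X s' e.2

/-- **A PAIR OF NODES** -/
theorem pair_lm {A : ℝ} (hA : 0 ≤ A) : ∃ Ce : ℝ, 1 ≤ Ce ∧ ∃ C : ℝ, 1 ≤ C ∧
    ∀ (N : Skel189.Num), ∃ p₁ : ℕ, ∀ p0 ≥ p₁, ∀ (γ : ℝ) (P₀ : ℕ)
    (X : Ctx N γ p0 P₀) (s s' : NS) (t t' : IT) (P : ℕ) (ρ ρ' : ℕ → ℚ) (Z : ℚ → ℚ → ℝ)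
    (K : X.c.Lam → X.c.Lam → ℝ) (W M : ℝ) (c c' : X.c.Lam → ℝ), 0 ≤ M →
    NL X s t → NL X s' t' → p0 ≤ P → (∀ r : ℕ, r.Prime → r < s.n → r ≤ P) →
    (∀ r : ℕ, r.Prime → r < s'.n → r ≤ P) → 0 ≤ W → (∀ j i, K j i ≤ W) →
    LbM X s s' t t' K ρ ρ' Z (Real.log P) Ce A M →
    4 * Mn X s t ≤ (3 + Real.log P) ^ M → 4 * Mn X s' t' ≤ (3 + Real.log P) ^ M →
    (∀ j, 0 ≤ c j) → (∀ j, 0 ≤ c' j) →
    (∀ j : X.c.Lam, ∀ e ∈ prs X s s' t t' (rl K), j.1.1 = e.1 →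
      W * (C * (1 + Real.log P) * r1 X s s' t t' K ρ ρ' Z e.1) ≤ c j) →
    (∀ j : X.c.Lam, ∀ e ∈ prs X s s' t t' (rl K), j.1.1 = e.2 →
      W * (C * (1 + Real.log P) * r2 X s s' t t' K ρ ρ' Z e.2) ≤ c' j) →
    bil K (vx X s t) (vx X s' t') ≤ lm X c s t + lm X c' s' t' := by
  classical
  obtain ⟨Ce, hCe, C, hC, h0⟩ := node_labM hA
  refine ⟨Ce, hCe, C, hC, fun N => ?_⟩
  obtain ⟨p1, h1⟩ := h0 N
  refine ⟨p1, fun p0 hp0 γ P₀ X s s' t t' P ρ ρ' Z K W M c c' hM h h' hP hl hl' hW hK hL m1 m2 c0 c0'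
    hc hc' => ?_⟩
  have e1 : vx X s t = vN X (.inl (s, t)) := rfl
  have e2 : vx X s' t' = vN X (.inl (s', t')) := rfl
  have pV := fun j => pb_vx h.rg j
  have pU := fun j => pb_vx h'.rg j
  have k1 := bil_qe hK pV pU
  have k2 := h1 p0 hp0 γ P₀ X s s' t t' P ρ ρ' Z (rl K) M h.mn h'.mn hP hl hl' (mp_rl K) hL.ex hM
    hL.z hL.dn hL.dnM hL.lt ((MI_tot h _).trans m1) ((MI_tot h' _).trans m2)
  refine k1.trans ((mul_le_mul_of_nonneg_left k2 hW).trans ?_)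
  have a1 : ∑ q ∈ (prs X s s' t t' (rl K)).image Prod.fst,
      (W * (C * (1 + Real.log P) * r1 X s s' t t' K ρ ρ' Z q)) * MI X s t q ≤ lm X c s t := by
    refine MI_lm h c0 fun j hj => ?_
    obtain ⟨e, he, h3⟩ := Finset.mem_image.1 hj
    rw [← h3]
    exact hc j e he h3.symm
  have a2 : ∑ q ∈ (prs X s s' t t' (rl K)).image Prod.snd,
      (W * (C * (1 + Real.log P) * r2 X s s' t t' K ρ ρ' Z q)) * MI X s' t' q ≤ lm X c' s' t' := by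
    refine MI_lm h' c0' fun j hj => ?_
    obtain ⟨e, he, h3⟩ := Finset.mem_image.1 hj
    rw [← h3]
    exact hc' j e he h3.symm
  refine le_trans (le_of_eq ?_) (add_le_add a1 a2)
  unfold r1 r2
  rw [mul_add, mul_add, Finset.mul_sum, Finset.mul_sum, Finset.mul_sum, Finset.mul_sum]
  congr 1
  · exact Finset.sum_congr rfl fun q _ => by ring
  · exact Finset.sum_congr rfl fun q _ => by ring

lemma Mx_nonneg (N : Skel189.Num) : 0 ≤ Mx N := by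
  have hB := N.hB
  have hC1 := N.hC1
  have hc2 := N.hc2
  unfold Mx
  linarith

lemma LbM.mono {s s' : NS} {t t' : IT} {K : X.c.Lam → X.c.Lam → ℝ} {ρ ρ' : ℕ → ℚ}
    {Z : ℚ → ℚ → ℝ} {L L' Ce A M : ℝ} (hL : 0 ≤ L') (hLL : L' ≤ L) (hC : 0 ≤ Ce) (hM : 0 ≤ M)
    (H : LbM X s s' t t' K ρ ρ' Z L Ce A M) : LbM X s s' t t' K ρ ρ' Z L' Ce A M where
  ex := H.ex
  z := H.z
  dn := fun e he => (Real.rpow_le_rpow (by linarith) (by linarith) hC).trans (H.dn e he)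
  dnM := fun e he => (Real.rpow_le_rpow (by linarith) (by linarith)
    (by have := CT_pos; linarith)).trans (H.dnM e he)
  lt := H.lt

/-- **REST COLUMNS** : `RN K` at a node which is not a leaf, `q` any column above its top -/
theorem vn_lab (N : Skel189.Num) {A : ℝ} (hA : 0 ≤ A) : ∃ Ce : ℝ, 1 ≤ Ce ∧ ∃ C : ℝ, 1 ≤ C ∧
    ∃ p₁ : ℕ, ∀ p0 ≥ p₁, ∀ (γ : ℝ) (P₀ : ℕ), 2 ≤ P₀ → ∀ (X : Ctx N γ p0 P₀) (u : NS) (τ : IT)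
    (q : ℕ) (ρ : ℕ → ℚ) (Z : ℚ → ℚ → ℝ) (K : X.c.Lam → X.c.Lam → ℝ) (W : ℝ) (ε : X.c.Lam → ℝ),
    NL X u τ → ¬ isL τ → tp τ < q → 0 ≤ W → (∀ j i, K j i ≤ W) →
    LbM X u u τ τ K ρ ρ Z (Real.log q) Ce A (Mx N) → (∀ j, 0 ≤ ε j) →
    (∀ j : X.c.Lam, ∀ e ∈ prs X u u τ τ (rl K), j.1.1 = e.1 →
      W * (C * (1 + Real.log q) * r1 X u u τ τ K ρ ρ Z e.1) ≤ ε j) →
    (∀ j : X.c.Lam, ∀ e ∈ prs X u u τ τ (rl K), j.1.1 = e.2 →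
      W * (C * (1 + Real.log q) * r2 X u u τ τ K ρ ρ Z e.2) ≤ ε j) →
    2 * bil K (vx X u τ) (vx X u τ) ≤ lm X (fun j => 4 * ε j) u τ := by
  obtain ⟨Ce, hCe, C, hC, h0⟩ := pair_lm hA
  obtain ⟨p1, h1⟩ := h0 N
  obtain ⟨p2, h2⟩ := mass_nd N
  refine ⟨Ce, hCe, C, hC, p1 + p2 + 2, ?_⟩
  intro p0 hp0 γ P₀ hP X u τ q ρ Z K W ε h hl hq hW hK hL hε hr hr'
  obtain ⟨k1, k2, k3, k4⟩ := nodeOk_hi h.nf.nd.self.node hl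
  have k2' : p0 < tp τ := k2
  have m1 := (h2 p0 (by omega) γ P₀ hP X u τ h hl).1
  have tp2 : (2:ℝ) ≤ tp τ := by exact_mod_cast (by omega : 2 ≤ tp τ)
  have l0 : 0 ≤ Real.log (tp τ) := Real.log_natCast_nonneg _
  have lq : Real.log (tp τ) ≤ Real.log q :=
    Real.log_le_log (by linarith) (by exact_mod_cast hq.le)
  have m2 : 4 * Mn X u τ ≤ (3 + Real.log (tp τ)) ^ Mx N := m1
  have rr : ∀ (a b : ℝ), 0 ≤ b → W * (C * (1 + Real.log (tp τ)) * b) ≤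
      W * (C * (1 + Real.log q) * b) := fun a b hb => by
    refine mul_le_mul_of_nonneg_left (mul_le_mul_of_nonneg_right ?_ hb) hW
    exact mul_le_mul_of_nonneg_left (by linarith) (by linarith)
  have rt0 : ∀ r r' : ℚ, ∀ e ∈ prs X u u τ τ (rl K), ρ e.1 = r → ρ e.2 = r' → 0 ≤ rt Z r r' := by
    rintro r r' e he rfl rfl
    have a1 := (hL.z e he).1
    have a2 := KK_one (ρ e.1) (ρ e.2)
    unfold GcdV37.rt
    positivity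
  have n1 : ∀ q, 0 ≤ r1 X u u τ τ K ρ ρ Z q := fun q => by
    refine Finset.sum_nonneg fun r hr => ?_
    obtain ⟨e, he, e1, e2⟩ := mem_La.1 hr
    exact rt0 _ _ e he (by rw [e1]) e2
  have n2 : ∀ q, 0 ≤ r2 X u u τ τ K ρ ρ Z q := fun q => by
    refine Finset.sum_nonneg fun r hr => ?_
    obtain ⟨e, he, e1, e2⟩ := mem_Lb.1 hr
    exact rt0 _ _ e he e2 (by rw [e1])
  have key := h1 p0 (by omega) γ P₀ X u u τ τ (tp τ) ρ ρ Z K W (Mx N) ε ε (Mx_nonneg N) h h k2'.le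
    k4 k4 hW hK (hL.mono l0 lq (by linarith) (Mx_nonneg N)) m2 m2 hε hε
    (fun j e he hj => (rr 0 _ (n1 _)).trans (hr j e he hj))
    (fun j e he hj => (rr 0 _ (n2 _)).trans (hr' j e he hj))
  rw [lm_smul]
  linarith

/-- **CHILDREN OF A TIE** : `FB K` -/
theorem fb_lab (N : Skel189.Num) {A : ℝ} (hA : 0 ≤ A) : ∃ Ce : ℝ, 1 ≤ Ce ∧ ∃ C : ℝ, 1 ≤ C ∧
    ∃ p₁ : ℕ, ∀ p0 ≥ p₁, ∀ (γ : ℝ) (P₀ : ℕ), 2 ≤ P₀ → ∀ (X : Ctx N γ p0 P₀) (u : NS) (p : ℕ)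
    (Sp : Finset ℕ) (t₁ t₀ : IT) (ρ₁ ρ₀ : ℕ → ℚ) (Z : ℚ → ℚ → ℝ)
    (K : X.c.Lam → X.c.Lam → ℝ) (W : ℝ) (ε : X.c.Lam → ℝ),
    NL X u (.br p Sp t₁ t₀) → NL X (nP p u) t₁ → NL X (nN p u) t₀ → 0 ≤ W → (∀ j i, K j i ≤ W) →
    LbM X (nP p u) (nP p u) t₁ t₁ K ρ₁ ρ₁ Z (Real.log p) Ce A (Mx N) →
    LbM X (nN p u) (nN p u) t₀ t₀ K ρ₀ ρ₀ Z (Real.log p) Ce A (Mx N) → (∀ j, 0 ≤ ε j) →
    (∀ j : X.c.Lam, ∀ e ∈ prs X (nP p u) (nP p u) t₁ t₁ (rl K), j.1.1 = e.1 →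
      W * (C * (1 + Real.log p) * r1 X (nP p u) (nP p u) t₁ t₁ K ρ₁ ρ₁ Z e.1) ≤ ε j) →
    (∀ j : X.c.Lam, ∀ e ∈ prs X (nP p u) (nP p u) t₁ t₁ (rl K), j.1.1 = e.2 →
      W * (C * (1 + Real.log p) * r2 X (nP p u) (nP p u) t₁ t₁ K ρ₁ ρ₁ Z e.2) ≤ ε j) →
    (∀ j : X.c.Lam, ∀ e ∈ prs X (nN p u) (nN p u) t₀ t₀ (rl K), j.1.1 = e.1 →
      W * (C * (1 + Real.log p) * r1 X (nN p u) (nN p u) t₀ t₀ K ρ₀ ρ₀ Z e.1) ≤ ε j) →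
    (∀ j : X.c.Lam, ∀ e ∈ prs X (nN p u) (nN p u) t₀ t₀ (rl K), j.1.1 = e.2 →
      W * (C * (1 + Real.log p) * r2 X (nN p u) (nN p u) t₀ t₀ K ρ₀ ρ₀ Z e.2) ≤ ε j) →
    FB (fun _ => K) p (vx X (nP p u) t₁) (vx X (nN p u) t₀) ≤
      lm X (fun j => 4 * ε j) u (.br p Sp t₁ t₀) := by
  obtain ⟨Ce, hCe, C, hC, h0⟩ := pair_lm hA
  obtain ⟨p1, h1⟩ := h0 N
  obtain ⟨p2, h2⟩ := mass_nd N
  refine ⟨Ce, hCe, C, hC, p1 + p2 + 2, ?_⟩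
  intro p0 hp0 γ P₀ hP X u p Sp t₁ t₀ ρ₁ ρ₀ Z K W ε h hu1 hu0 hW hK hL1 hL0 hε a1 a2 a3 a4
  have hl : ¬ isL (IT.br p Sp t₁ t₀) := fun h => h
  obtain ⟨-, k2, -, -⟩ := nodeOk_hi h.nf.nd.self.node hl
  have k2' : p0 < p := k2
  obtain ⟨m1, m0⟩ := (h2 p0 (by omega) γ P₀ hP X u _ h hl).2 p Sp t₁ t₀ rfl
  have l0 : 0 ≤ Real.log (p : ℝ) := Real.log_natCast_nonneg p
  have pm : (3 + Real.log (p:ℝ)) ^ (N.B + N.c2 + 2) ≤ (3 + Real.log p) ^ Mx N := le_rfl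
  have hlv : ∀ r : ℕ, r.Prime → r < p → r ≤ p := fun r _ hr => hr.le
  have key1 := h1 p0 (by omega) γ P₀ X _ _ t₁ t₁ p ρ₁ ρ₁ Z K W (Mx N) ε ε (Mx_nonneg N) hu1 hu1 k2'.le hlv hlv hW hK
    hL1 (m1.trans pm) (m1.trans pm) hε hε a1 a2
  have key0 := h1 p0 (by omega) γ P₀ X _ _ t₀ t₀ p ρ₀ ρ₀ Z K W (Mx N) ε ε (Mx_nonneg N) hu0 hu0 k2'.le hlv hlv hW hK
    hL0 (m0.trans pm) (m0.trans pm) hε hε a3 a4
  have hp2 : (2:ℝ) ≤ p := by exact_mod_cast (RtC28.tF h.nf.nd).pr.two_le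
  have hp0' : (0:ℝ) < p := by linarith
  have w1 : (0:ℝ) ≤ 1 - 1 / (p:ℝ) := by
    rw [sub_nonneg, div_le_one hp0']; linarith
  have b := lm_br2 h.rg (c := fun j => 4 * ε j) (c₁ := fun j => 4 * ε j) (c₀ := fun j => 4 * ε j)
    (fun _ _ => le_rfl) (fun _ _ => le_rfl) hu1.rg hu0.rg
  refine le_trans ?_ b
  rw [lm_smul, lm_smul]
  unfold FB
  refine add_le_add (mul_le_mul_of_nonneg_left (by linarith) w1)
    (mul_le_mul_of_nonneg_left (by linarith) (by positivity))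

/-- **P CHILD AGAINST N CHILD** : `1/p * (2 * bil K ..)` (`PrK45.pn_nd`); P items pay `4/p` times the
rate, N items pay twice the rate -/
theorem fp_lab (N : Skel189.Num) {A : ℝ} (hA : 0 ≤ A) : ∃ Ce : ℝ, 1 ≤ Ce ∧ ∃ C : ℝ, 1 ≤ C ∧
    ∃ p₁ : ℕ, ∀ p0 ≥ p₁, ∀ (γ : ℝ) (P₀ : ℕ), 2 ≤ P₀ → ∀ (X : Ctx N γ p0 P₀) (u : NS) (p : ℕ)
    (Sp : Finset ℕ) (t₁ t₀ : IT) (ρ₁ ρ₀ : ℕ → ℚ) (Z : ℚ → ℚ → ℝ)
    (K : X.c.Lam → X.c.Lam → ℝ) (W : ℝ) (ε : X.c.Lam → ℝ),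
    NL X u (.br p Sp t₁ t₀) → NL X (nP p u) t₁ → NL X (nN p u) t₀ → 0 ≤ W → (∀ j i, K j i ≤ W) →
    LbM X (nP p u) (nN p u) t₁ t₀ K ρ₁ ρ₀ Z (Real.log p) Ce A (Mx N) → (∀ j, 0 ≤ ε j) →
    (∀ j : X.c.Lam, ∀ e ∈ prs X (nP p u) (nN p u) t₁ t₀ (rl K), j.1.1 = e.1 →
      4 / (p : ℝ) * (W * (C * (1 + Real.log p) * r1 X (nP p u) (nN p u) t₁ t₀ K ρ₁ ρ₀ Z e.1)) ≤ ε j) →
    (∀ j : X.c.Lam, ∀ e ∈ prs X (nP p u) (nN p u) t₁ t₀ (rl K), j.1.1 = e.2 →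
      2 * (W * (C * (1 + Real.log p) * r2 X (nP p u) (nN p u) t₁ t₀ K ρ₁ ρ₀ Z e.2)) ≤ ε j) →
    1 / (p : ℝ) * (2 * bil K (vx X (nP p u) t₁) (vx X (nN p u) t₀)) ≤
      lm X ε u (.br p Sp t₁ t₀) := by
  classical
  obtain ⟨Ce, hCe, C, hC, h0⟩ := pair_lm hA
  obtain ⟨p1, h1⟩ := h0 N
  obtain ⟨p2, h2⟩ := mass_nd N
  refine ⟨Ce, hCe, C, hC, p1 + p2 + 2, ?_⟩
  intro p0 hp0 γ P₀ hP X u p Sp t₁ t₀ ρ₁ ρ₀ Z K W ε h hu1 hu0 hW hK hL hε a1 a2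
  have hl : ¬ isL (IT.br p Sp t₁ t₀) := fun h => h
  obtain ⟨-, k2, -, -⟩ := nodeOk_hi h.nf.nd.self.node hl
  have k2' : p0 < p := k2
  obtain ⟨m1, m0⟩ := (h2 p0 (by omega) γ P₀ hP X u _ h hl).2 p Sp t₁ t₀ rfl
  have l0 : 0 ≤ Real.log (p : ℝ) := Real.log_natCast_nonneg p
  have pm : (3 + Real.log (p:ℝ)) ^ (N.B + N.c2 + 2) ≤ (3 + Real.log p) ^ Mx N := le_rfl
  have hlv : ∀ r : ℕ, r.Prime → r < p → r ≤ p := fun r _ hr => hr.le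
  have hp2 : (2:ℝ) ≤ p := by exact_mod_cast (RtC28.tF h.nf.nd).pr.two_le
  have hp0' : (0:ℝ) < p := by linarith
  have w1 : (1:ℝ) / 2 ≤ 1 - 1 / (p:ℝ) := by
    rw [le_sub_comm, div_le_iff₀ hp0']
    linarith
  have key := h1 p0 (by omega) γ P₀ X _ _ t₁ t₀ p ρ₁ ρ₀ Z K W (Mx N) (fun j => (p:ℝ) / 4 * ε j)
    (fun j => 1 / 2 * ε j) (Mx_nonneg N) hu1 hu0 k2'.le hlv hlv hW hK hL
    (m1.trans pm) (m0.trans pm) (fun j => mul_nonneg (by positivity) (hε j))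
    (fun j => mul_nonneg (by norm_num) (hε j)) (fun j e he hj => by
      have := a1 j e he hj
      have h5 := mul_le_mul_of_nonneg_left this (by positivity : (0:ℝ) ≤ p / 4)
      refine le_trans (le_of_eq ?_) h5
      field_simp) (fun j e he hj => by
      have := a2 j e he hj
      linarith)
  have b := lm_br2 h.rg (c := ε) (c₁ := ε) (c₀ := ε) (fun _ _ => le_rfl) (fun _ _ => le_rfl)
    hu1.rg hu0.rg
  refine le_trans ?_ b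
  have L1 : 0 ≤ lm X ε (nP p u) t₁ :=
    Finset.sum_nonneg fun j _ => mul_nonneg (hε j) (I_vx_nonneg hu1.rg j)
  have e1 : lm X (fun j => (p:ℝ) / 4 * ε j) (nP p u) t₁ = (p:ℝ) / 4 * lm X ε (nP p u) t₁ :=
    lm_smul _ _ _ _
  have e0 : lm X (fun j => 1 / 2 * ε j) (nN p u) t₀ = 1 / 2 * lm X ε (nN p u) t₀ :=
    lm_smul _ _ _ _
  rw [e1, e0] at key
  have k5 := mul_le_mul_of_nonneg_left key (by positivity : (0:ℝ) ≤ 1 / (p:ℝ) * 2)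
  have e3 : 1 / (p:ℝ) * 2 * ((p:ℝ) / 4 * lm X ε (nP p u) t₁ + 1 / 2 * lm X ε (nN p u) t₀) =
      1 / 2 * lm X ε (nP p u) t₁ + 1 / (p:ℝ) * lm X ε (nN p u) t₀ := by
    field_simp
    ring
  rw [e3] at k5
  have k6 := mul_le_mul_of_nonneg_right w1 L1
  calc 1 / (p : ℝ) * (2 * bil K (vx X (nP p u) t₁) (vx X (nN p u) t₀))
      = 1 / (p : ℝ) * 2 * bil K (vx X (nP p u) t₁) (vx X (nN p u) t₀) := by ring
    _ ≤ _ := k5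
    _ ≤ _ := by linarith

end Crest.Agent.R4P.RtN37
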