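import Crest.Agent.R4P.RtD_28

/-!
R4 (S0004), powers pass, helper28: **the energy of the separated P|N pairs over the whole tree**
(`walk`): one index, different retained parts or tags, one piece at the child where the tie is
present, the other at the child where it is missing.

`GG X Y A f u τ` = expected sum over the ties of the walk of `f p` times `PNe`.
-/

set_option autoImplicit false
set_option linter.unusedSectionVars false
set_option linter.unusedVariables false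

open MeasureTheory Filter

namespace Crest.Agent.R4P.RtS28

open Crest.Agent.R4P.Cnt588 Crest.Agent.R4P.Item758 Crest.Agent.R4P.W363
open Crest.Agent.R4P.Data758 Crest.Agent.R4P.OmSt532 Crest.Agent.R4P.OmData532
open Crest.Agent.R4P.LfDat734 Crest.Agent.R4P.WPex189
open Crest.Agent.R4P.Bld532 (NS All NodeOk Bk)
open Crest.Agent.R4P.Step588 (NDt ND1 ctx_NDt uq_lt)
open Crest.Agent.R4P.WalkIT579 (tp isL nodeOk_hi top_of_nodeOk)
open Crest.Agent.R4P.Skel189 Crest.Agent.R4P.RseSt23 Crest.Agent.R4P.RseNd23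
open Crest.Agent.R4P.RtC28 Crest.Agent.R4P.RtN28 Crest.Agent.R4P.RtD28
open Crest.Agent.R4P.AvgItem710
open Crest.Agent.R4.ClosL758 Crest.Agent.R4.ClosR758 Crest.Agent.R4.Tour104 Crest.Agent.R4.Fam464
open Crest.Agent.R4.Tour758 Crest.Agent.R4.Avg758
open Crest.Agent.R4P.Frame758
open Crest.Agent.R4.Soft104 (w)
open Crest.Agent.R4

section ctx
variable {N : Skel189.Num} {γ : ℝ} {p0 P₀ : ℕ}

/-- **expected sum over the ties of `f p` times the energy of the separated pairs** -/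
noncomputable def GG (X : Ctx N γ p0 P₀) (Y : Finset (ℕ × ℕ × Finset ℕ)) (A : Finset X.c.Lam)
    (f : ℕ → ℝ) : NS → IT → ℝ
  | _, .leaf _ => 0
  | u, .br p _ t₁ t₀ => f p * PNe X Y A u p t₁ t₀ +
      ((1 - 1 / (p : ℝ)) * GG X Y A f ⟨p, u.c / (1 - 1 / (p : ℝ)), u.A * p, u.B⟩ t₁ +
        1 / (p : ℝ) * GG X Y A f ⟨p, u.c * p, u.A, u.B * p⟩ t₀)
  | u, .add b t₁ t₀ => GG X Y A f ⟨b + 1, u.c, u.A, u.B⟩ t₁ +
      GG X Y A f ⟨b + 1, u.c, u.A, u.B⟩ t₀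
  | u, .up b _ t => GG X Y A f ⟨b, u.c, u.A, u.B⟩ t
  | u, .pl b t => GG X Y A f ⟨b + 1, u.c, u.A * b, u.B⟩ t
  | u, .far b t₁ t₀ => GG X Y A f ⟨b + 1, u.c, u.A, u.B⟩ t₁ +
      GG X Y A f ⟨b + 1, u.c, u.A, u.B⟩ t₀

variable {X : Ctx N γ p0 P₀} {Y : Finset (ℕ × ℕ × Finset ℕ)} {A : Finset X.c.Lam} {P : ℕ}

lemma PNe_nonneg {u : NS} {p : ℕ} {t₁ t₀ : IT} (F : TF X u p t₁ t₀) :
    0 ≤ PNe X Y A u p t₁ t₀ := by
  unfold PNe
  refine mul_nonneg (by positivity) ?_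
  unfold Q
  exact Finset.sum_nonneg fun x _ => I_nonneg fun y =>
    mul_nonneg (F.UP_nonneg _ _) (F.UN_nonneg _ _)

/-- the energy of a P-chain is nonnegative -/
lemma HH_nonneg : ∀ (τ : IT) (u : NS), All (NF X) u τ → 0 ≤ HH X Y A P u τ := by
  intro τ
  induction τ with
  | leaf S => intro u h; exact le_rfl
  | br p Sp t₁ t₀ ih₁ ih₀ =>
    intro u h
    show 0 ≤ (if P ≤ p then PNe X Y A u p t₁ t₀ else 0) + HH X Y A P _ t₁
    have h1 : 0 ≤ (if P ≤ p then PNe X Y A u p t₁ t₀ else 0) := by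
      split_ifs
      · exact PNe_nonneg (tF h.1.nd)
      · exact le_rfl
    exact add_nonneg h1 (ih₁ _ h.2.1)
  | add b t₁ t₀ ih₁ ih₀ => intro u h; exact add_nonneg (ih₁ _ h.2.1) (ih₀ _ h.2.2)
  | up b Sp t ih => intro u h; exact ih _ h.2
  | pl b t ih => intro u h; exact ih _ h.2
  | far b t₁ t₀ ih₁ ih₀ => intro u h; exact add_nonneg (ih₁ _ h.2.1) (ih₀ _ h.2.2)

lemma HH_zero : ∀ (τ : IT) (u : NS), All (NF X) u τ → tp τ < P → HH X Y A P u τ = 0 := by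
  intro τ
  induction τ with
  | leaf S => intro u h _; rfl
  | br p Sp t₁ t₀ ih₁ ih₀ =>
    intro u h hP
    have hO := h.1.nd.self.ok
    have hpP : p < P := hP
    show (if P ≤ p then PNe X Y A u p t₁ t₀ else 0) + HH X Y A P _ t₁ = 0
    rw [if_neg (not_le.2 hpP), zero_add]
    exact ih₁ _ h.2.1 ((tp_le hO.2.2.2.2.1 (S := 0) hO.1.pos).trans hpP)
  | add b t₁ t₀ ih₁ ih₀ =>
    intro u h hP
    have hO := h.1.nd.self.ok
    have hbP : b < P := hP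
    have h1 := tp_le hO.2.2.2.1 (S := 0) (Nat.succ_pos b)
    have h0 := tp_le hO.2.2.2.2 (S := 0) (Nat.succ_pos b)
    show HH X Y A P _ t₁ + HH X Y A P _ t₀ = 0
    rw [ih₁ _ h.2.1 (by omega), ih₀ _ h.2.2 (by omega), add_zero]
  | up b Sp t ih =>
    intro u h hP
    have hO := h.1.nd.self.ok
    have hbP : b < P := hP
    have h1 := tp_le hO.2.2.2 (S := 0) hO.1.pos
    exact ih _ h.2 (by omega)
  | pl b t ih =>
    intro u h hP
    have hO := h.1.nd.self.ok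
    have hbP : b < P := hP
    have h1 := tp_le hO.2.2 (S := 0) (Nat.succ_pos b)
    exact ih _ h.2 (by omega)
  | far b t₁ t₀ ih₁ ih₀ =>
    intro u h hP
    have hO := h.1.nd.self.ok
    have hbP : b < P := hP
    have h1 := tp_le hO.2.2.2.1 (S := 0) (Nat.succ_pos b)
    have h0 := tp_le hO.2.2.2.2 (S := 0) (Nat.succ_pos b)
    show HH X Y A P _ t₁ + HH X Y A P _ t₀ = 0
    rw [ih₁ _ h.2.1 (by omega), ih₀ _ h.2.2 (by omega), add_zero]

lemma GG_nonneg {f : ℕ → ℝ} (hf : ∀ p, 0 ≤ f p) : ∀ (τ : IT) (u : NS), All (NF X) u τ →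
    0 ≤ GG X Y A f u τ := by
  intro τ
  induction τ with
  | leaf S => intro u h; exact le_rfl
  | br p Sp t₁ t₀ ih₁ ih₀ =>
    intro u h
    have F := tF h.1.nd
    have hp1 : (1:ℝ) ≤ p := by exact_mod_cast F.pr.one_le
    have h1 : 0 ≤ 1 - 1 / (p:ℝ) := by
      rw [sub_nonneg, div_le_one (by linarith)]; exact hp1
    exact add_nonneg (mul_nonneg (hf p) (PNe_nonneg F))
      (add_nonneg (mul_nonneg h1 (ih₁ _ h.2.1)) (mul_nonneg (by positivity) (ih₀ _ h.2.2)))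
  | add b t₁ t₀ ih₁ ih₀ => intro u h; exact add_nonneg (ih₁ _ h.2.1) (ih₀ _ h.2.2)
  | up b Sp t ih => intro u h; exact ih _ h.2
  | pl b t ih => intro u h; exact ih _ h.2
  | far b t₁ t₀ ih₁ ih₀ => intro u h; exact add_nonneg (ih₁ _ h.2.1) (ih₀ _ h.2.2)

/-- monotone in the weight, only the columns `p0 < p ≤ tp τ` matter -/
lemma GG_mono {f g : ℕ → ℝ} {n : ℕ} (hfg : ∀ p, p.Prime → p0 < p → p ≤ n → f p ≤ g p) :
    ∀ (τ : IT) (u : NS), All (NF X) u τ → tp τ ≤ n → GG X Y A f u τ ≤ GG X Y A g u τ := by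
  intro τ
  induction τ with
  | leaf S => intro u h _; exact le_rfl
  | br p Sp t₁ t₀ ih₁ ih₀ =>
    intro u h hn
    have F := tF h.1.nd
    have hO := h.1.nd.self.ok
    have hp0 : p0 < p := h.1.nd.self.node.2.2.1
    have hpn : p ≤ n := hn
    have hp1 : (1:ℝ) ≤ p := by exact_mod_cast F.pr.one_le
    have h1 : 0 ≤ 1 - 1 / (p:ℝ) := by
      rw [sub_nonneg, div_le_one (by linarith)]; exact hp1
    have t1 := tp_le hO.2.2.2.2.1 (S := 0) hO.1.pos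
    have t0 := tp_le hO.2.2.2.2.2 (S := 0) hO.1.pos
    refine add_le_add (mul_le_mul_of_nonneg_right (hfg p F.pr hp0 hpn) (PNe_nonneg F))
      (add_le_add (mul_le_mul_of_nonneg_left (ih₁ _ h.2.1 (by omega)) h1)
        (mul_le_mul_of_nonneg_left (ih₀ _ h.2.2 (by omega)) (by positivity)))
  | add b t₁ t₀ ih₁ ih₀ =>
    intro u h hn
    have hO := h.1.nd.self.ok
    have hbn : b ≤ n := hn
    have h1 := tp_le hO.2.2.2.1 (S := 0) (Nat.succ_pos b)
    have h0 := tp_le hO.2.2.2.2 (S := 0) (Nat.succ_pos b)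
    exact add_le_add (ih₁ _ h.2.1 (by omega)) (ih₀ _ h.2.2 (by omega))
  | up b Sp t ih =>
    intro u h hn
    have hO := h.1.nd.self.ok
    have hbn : b ≤ n := hn
    have h1 := tp_le hO.2.2.2 (S := 0) hO.1.pos
    exact ih _ h.2 (by omega)
  | pl b t ih =>
    intro u h hn
    have hO := h.1.nd.self.ok
    have hbn : b ≤ n := hn
    have h1 := tp_le hO.2.2 (S := 0) (Nat.succ_pos b)
    exact ih _ h.2 (by omega)
  | far b t₁ t₀ ih₁ ih₀ =>
    intro u h hn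
    have hO := h.1.nd.self.ok
    have hbn : b ≤ n := hn
    have h1 := tp_le hO.2.2.2.1 (S := 0) (Nat.succ_pos b)
    have h0 := tp_le hO.2.2.2.2 (S := 0) (Nat.succ_pos b)
    exact add_le_add (ih₁ _ h.2.1 (by omega)) (ih₀ _ h.2.2 (by omega))

/-- linear in the weight -/
lemma GG_sum {ι : Type*} (K : Finset ι) (a : ι → ℝ) (g : ι → ℕ → ℝ) :
    ∀ (τ : IT) (u : NS), GG X Y A (fun p => ∑ k ∈ K, a k * g k p) u τ =
      ∑ k ∈ K, a k * GG X Y A (g k) u τ := by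
  intro τ
  induction τ with
  | leaf S =>
    intro u
    show (0:ℝ) = ∑ k ∈ K, a k * 0
    simp
  | br p Sp t₁ t₀ ih₁ ih₀ =>
    intro u
    show (∑ k ∈ K, a k * g k p) * PNe X Y A u p t₁ t₀ +
      ((1 - 1 / (p : ℝ)) * GG X Y A _ ⟨p, u.c / (1 - 1 / (p : ℝ)), u.A * p, u.B⟩ t₁ +
        1 / (p : ℝ) * GG X Y A _ ⟨p, u.c * p, u.A, u.B * p⟩ t₀) =
      ∑ k ∈ K, a k * (g k p * PNe X Y A u p t₁ t₀ +
      ((1 - 1 / (p : ℝ)) * GG X Y A (g k) ⟨p, u.c / (1 - 1 / (p : ℝ)), u.A * p, u.B⟩ t₁ +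
        1 / (p : ℝ) * GG X Y A (g k) ⟨p, u.c * p, u.A, u.B * p⟩ t₀))
    rw [ih₁, ih₀, Finset.sum_mul, Finset.mul_sum, Finset.mul_sum, ← Finset.sum_add_distrib,
      ← Finset.sum_add_distrib]
    refine Finset.sum_congr rfl fun k _ => ?_
    ring
  | add b t₁ t₀ ih₁ ih₀ =>
    intro u
    show GG X Y A _ ⟨b + 1, u.c, u.A, u.B⟩ t₁ + GG X Y A _ ⟨b + 1, u.c, u.A, u.B⟩ t₀ =
      ∑ k ∈ K, a k * (GG X Y A (g k) ⟨b + 1, u.c, u.A, u.B⟩ t₁ +
        GG X Y A (g k) ⟨b + 1, u.c, u.A, u.B⟩ t₀)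
    rw [ih₁, ih₀, ← Finset.sum_add_distrib]
    refine Finset.sum_congr rfl fun k _ => ?_
    ring
  | up b Sp t ih => intro u; exact ih _
  | pl b t ih => intro u; exact ih _
  | far b t₁ t₀ ih₁ ih₀ =>
    intro u
    show GG X Y A _ ⟨b + 1, u.c, u.A, u.B⟩ t₁ + GG X Y A _ ⟨b + 1, u.c, u.A, u.B⟩ t₀ =
      ∑ k ∈ K, a k * (GG X Y A (g k) ⟨b + 1, u.c, u.A, u.B⟩ t₁ +
        GG X Y A (g k) ⟨b + 1, u.c, u.A, u.B⟩ t₀)
    rw [ih₁, ih₀, ← Finset.sum_add_distrib]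
    refine Finset.sum_congr rfl fun k _ => ?_
    ring

/-- the weight vanishes on the columns -/
lemma GG_zero {f : ℕ → ℝ} {n : ℕ} (hf : ∀ p, p ≤ n → f p = 0) :
    ∀ (τ : IT) (u : NS), All (NF X) u τ → tp τ ≤ n → GG X Y A f u τ = 0 := by
  intro τ u h hn
  have h1 : GG X Y A f u τ ≤ GG X Y A (fun _ => 0) u τ :=
    GG_mono (fun p _ _ h2 => (hf p h2).le) τ u h hn
  have h2 : GG X Y A (fun _ => 0) u τ ≤ GG X Y A f u τ :=
    GG_mono (fun p _ _ h2 => (hf p h2).ge) τ u h hn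
  have h3 := GG_sum (X := X) (Y := Y) (A := A) (∅ : Finset ℕ) (fun _ => 0) (fun _ _ => 0) τ u
  simp only [Finset.sum_empty] at h3
  rw [h3] at h1 h2
  exact le_antisymm h1 h2

/-! ### one block of columns -/

/-- mass of a node -/
noncomputable abbrev Mn (X : Ctx N γ p0 P₀) (u : NS) (τ : IT) : ℝ := u.c * Ws (w X.ψ) τ.items

/-- weight of one block -/
noncomputable def blk (P : ℕ) : ℕ → ℝ := fun p => if P ≤ p ∧ p < 2 * P then 1 else 0

/-- sum of the share bounds of the columns of `[P, n)` -/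
noncomputable def SS (X : Ctx N γ p0 P₀) (P n : ℕ) : ℝ :=
  ∑ p ∈ (Finset.range n).filter (fun p => p.Prime ∧ P ≤ p), 2 * X.par.sg p

lemma SS_nonneg (n : ℕ) : 0 ≤ SS X P n :=
  Finset.sum_nonneg fun p _ => mul_nonneg (by norm_num) (X.good.sg0 p)

lemma SS_mono {n m : ℕ} (h : n ≤ m) : SS X P n ≤ SS X P m := by
  unfold SS
  refine Finset.sum_le_sum_of_subset_of_nonneg
    (Finset.filter_subset_filter _ (Finset.range_mono h)) fun p _ _ =>
    mul_nonneg (by norm_num) (X.good.sg0 p)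

lemma SS_succ {p : ℕ} (hp : p.Prime) (h : P ≤ p) : SS X P (p + 1) = SS X P p + 2 * X.par.sg p := by
  unfold SS
  rw [Finset.range_add_one, Finset.filter_insert, if_pos ⟨hp, h⟩,
    Finset.sum_insert (by simp)]
  ring

lemma Mn_nonneg {u : NS} {τ : IT} (h : NF X u τ) : 0 ≤ Mn X u τ :=
  mul_nonneg h.c0.le (Bld532.Ws_nonneg X.hW _)

lemma Ws_union {S T : Finset ℕ} (h : Disjoint S T) (W : ℕ → ℝ) :
    Ws W (S ∪ T) = Ws W S + Ws W T := by
  unfold Ws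
  exact Finset.sum_union h

/-- the masses at a tie -/
lemma Mn_br {u : NS} {p : ℕ} {Sp : Finset ℕ} {t₁ t₀ : IT} (F : TF X u p t₁ t₀) :
    (1 - 1 / (p : ℝ)) * Mn X ⟨p, u.c / (1 - 1 / (p : ℝ)), u.A * p, u.B⟩ t₁ =
      u.c * Ws (w X.ψ) t₁.items ∧
    1 / (p : ℝ) * Mn X ⟨p, u.c * p, u.A, u.B * p⟩ t₀ = u.c * Ws (w X.ψ) t₀.items ∧
    Mn X u (.br p Sp t₁ t₀) = u.c * Ws (w X.ψ) t₁.items + u.c * Ws (w X.ψ) t₀.items := by
  have hp2 : (2:ℝ) ≤ p := by exact_mod_cast F.pr.two_le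
  have hp0 : (0:ℝ) < p := by linarith
  have h1 : 0 < 1 - 1 / (p:ℝ) := by
    rw [sub_pos, div_lt_one hp0]; linarith
  refine ⟨?_, ?_, ?_⟩
  · show (1 - 1 / (p : ℝ)) * (u.c / (1 - 1 / (p : ℝ)) * Ws (w X.ψ) t₁.items) = _
    rw [← mul_assoc, mul_div_cancel₀ _ h1.ne']
  · show 1 / (p : ℝ) * (u.c * p * Ws (w X.ψ) t₀.items) = _
    field_simp
  · show u.c * Ws (w X.ψ) (t₁.items ∪ t₀.items) = _
    rw [Ws_union F.ds, mul_add]

/-- **one block, nodes below the top of the block** -/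
theorem blkA {κ : ℝ} (hκ : 0 ≤ κ)
    (hch : ∀ (u : NS) (τ : IT), All (NF X) u τ → ¬ isL τ → P ≤ tp τ → tp τ < 2 * P →
      HH X Y A P u τ ≤ κ * Mn X u τ) :
    ∀ (τ : IT) (u : NS), All (NF X) u τ → tp τ < 2 * P →
      GG X Y A (blk P) u τ ≤ HH X Y A P u τ + κ * SS X P (tp τ + 1) * Mn X u τ := by
  -- the energy of a chain at any node below the top
  have hch' : ∀ (u : NS) (τ : IT), All (NF X) u τ → tp τ < 2 * P →
      HH X Y A P u τ ≤ κ * Mn X u τ := by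
    intro u τ h ht
    by_cases hP : tp τ < P
    · rw [HH_zero τ u h hP]
      exact mul_nonneg hκ (Mn_nonneg h.self)
    · cases τ with
      | leaf S => exact mul_nonneg hκ (Mn_nonneg h.self)
      | br p Sp t₁ t₀ => exact hch u _ h (by simp [isL]) (not_lt.1 hP) ht
      | add b t₁ t₀ => exact hch u _ h (by simp [isL]) (not_lt.1 hP) ht
      | up b Sp t => exact hch u _ h (by simp [isL]) (not_lt.1 hP) ht
      | pl b t => exact hch u _ h (by simp [isL]) (not_lt.1 hP) ht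
      | far b t₁ t₀ => exact hch u _ h (by simp [isL]) (not_lt.1 hP) ht
  have hKS : ∀ n, 0 ≤ κ * SS X P n := fun n => mul_nonneg hκ (SS_nonneg n)
  intro τ
  induction τ with
  | leaf S =>
    intro u h _
    show (0:ℝ) ≤ 0 + _
    rw [zero_add]
    exact mul_nonneg (hKS _) (Mn_nonneg h)
  | br p Sp t₁ t₀ ih₁ ih₀ =>
    intro u h ht
    have F := tF h.1.nd
    have hO := h.1.nd.self.ok
    have hc := h.1.c0
    have hp2 : (2:ℝ) ≤ p := by exact_mod_cast F.pr.two_le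
    have hp0 : (0:ℝ) < p := by linarith
    have hq : 0 ≤ 1 - 1 / (p:ℝ) := by
      rw [sub_nonneg, div_le_one hp0]; linarith
    have hq1 : 1 - 1 / (p:ℝ) ≤ 1 := by
      have : 0 ≤ 1 / (p:ℝ) := by positivity
      linarith
    have hptp : p < 2 * P := ht
    have t1 := tp_le hO.2.2.2.2.1 (S := 0) hO.1.pos
    have t0 := tp_le hO.2.2.2.2.2 (S := 0) hO.1.pos
    obtain ⟨m1, m0, m⟩ := Mn_br (X := X) (Sp := Sp) F
    have i1 := ih₁ _ h.2.1 (by omega)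
    have i0 := ih₀ _ h.2.2 (by omega)
    have j0 := hch' _ _ h.2.2 (by omega)
    have hH1 : 0 ≤ HH X Y A P ⟨p, u.c / (1 - 1 / (p : ℝ)), u.A * p, u.B⟩ t₁ :=
      HH_nonneg t₁ _ h.2.1
    have M1 := Mn_nonneg h.2.1.self
    have M0 := Mn_nonneg h.2.2.self
    set G1 := GG X Y A (blk P) ⟨p, u.c / (1 - 1 / (p : ℝ)), u.A * p, u.B⟩ t₁ with hG1
    set G0 := GG X Y A (blk P) ⟨p, u.c * p, u.A, u.B * p⟩ t₀ with hG0
    set H1 := HH X Y A P ⟨p, u.c / (1 - 1 / (p : ℝ)), u.A * p, u.B⟩ t₁ with hH1'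
    set H0 := HH X Y A P ⟨p, u.c * p, u.A, u.B * p⟩ t₀ with hH0
    set W1 := u.c * Ws (w X.ψ) t₁.items with hW1
    set W0 := u.c * Ws (w X.ψ) t₀.items with hW0
    have W1n : 0 ≤ W1 := mul_nonneg hc.le (Bld532.Ws_nonneg X.hW _)
    have W0n : 0 ≤ W0 := mul_nonneg hc.le (Bld532.Ws_nonneg X.hW _)
    show blk P p * PNe X Y A u p t₁ t₀ + ((1 - 1 / (p : ℝ)) * G1 + 1 / (p : ℝ) * G0) ≤
      ((if P ≤ p then PNe X Y A u p t₁ t₀ else 0) + H1) +
        κ * SS X P (p + 1) * Mn X u (.br p Sp t₁ t₀)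
    rw [m]
    -- the present child
    have k1 : (1 - 1 / (p : ℝ)) * G1 ≤ H1 + κ * SS X P p * W1 := by
      have a1 : G1 ≤ H1 + κ * SS X P p * Mn X ⟨p, u.c / (1 - 1 / (p : ℝ)), u.A * p, u.B⟩ t₁ := by
        refine i1.trans (add_le_add le_rfl (mul_le_mul_of_nonneg_right ?_ M1))
        exact mul_le_mul_of_nonneg_left (SS_mono t1) hκ
      calc (1 - 1 / (p : ℝ)) * G1 ≤ (1 - 1 / (p : ℝ)) * (H1 + κ * SS X P p *
            Mn X ⟨p, u.c / (1 - 1 / (p : ℝ)), u.A * p, u.B⟩ t₁) :=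
            mul_le_mul_of_nonneg_left a1 hq
        _ = (1 - 1 / (p : ℝ)) * H1 + κ * SS X P p * ((1 - 1 / (p : ℝ)) *
            Mn X ⟨p, u.c / (1 - 1 / (p : ℝ)), u.A * p, u.B⟩ t₁) := by ring
        _ ≤ H1 + κ * SS X P p * W1 := by
            rw [m1]
            exact add_le_add (mul_le_of_le_one_left hH1 hq1) le_rfl
    by_cases hP : P ≤ p
    · rw [if_pos hP]
      have hb : blk P p = 1 := by unfold blk; rw [if_pos ⟨hP, hptp⟩]
      rw [hb, one_mul, SS_succ F.pr hP]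
      have k0 : 1 / (p : ℝ) * G0 ≤ κ * W0 + κ * SS X P p * W0 := by
        have a1 : G0 ≤ κ * Mn X ⟨p, u.c * p, u.A, u.B * p⟩ t₀ +
            κ * SS X P p * Mn X ⟨p, u.c * p, u.A, u.B * p⟩ t₀ := by
          refine i0.trans (add_le_add j0 (mul_le_mul_of_nonneg_right ?_ M0))
          exact mul_le_mul_of_nonneg_left (SS_mono t0) hκ
        calc 1 / (p : ℝ) * G0 ≤ 1 / (p : ℝ) * (κ * Mn X ⟨p, u.c * p, u.A, u.B * p⟩ t₀ +
            κ * SS X P p * Mn X ⟨p, u.c * p, u.A, u.B * p⟩ t₀) :=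
              mul_le_mul_of_nonneg_left a1 (by positivity)
          _ = κ * (1 / (p : ℝ) * Mn X ⟨p, u.c * p, u.A, u.B * p⟩ t₀) +
            κ * SS X P p * (1 / (p : ℝ) * Mn X ⟨p, u.c * p, u.A, u.B * p⟩ t₀) := by ring
          _ = κ * W0 + κ * SS X P p * W0 := by rw [m0]
      -- the share of the missing child
      have hsh : W0 ≤ 2 * X.par.sg p * (W1 + W0) := by
        have n7 := h.1.nd.self.node.2.2.2.2.2.2.2.2.2.2.2.1
        have n7' : Ws (w X.ψ) t₀.items ≤ 2 * X.par.sg p * Ws (w X.ψ) (t₁.items ∪ t₀.items) := n7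
        rw [Ws_union F.ds] at n7'
        have := mul_le_mul_of_nonneg_left n7' hc.le
        calc W0 ≤ u.c * (2 * X.par.sg p * (Ws (w X.ψ) t₁.items + Ws (w X.ψ) t₀.items)) := this
          _ = 2 * X.par.sg p * (W1 + W0) := by rw [hW1, hW0]; ring
      have hsh' := mul_le_mul_of_nonneg_left hsh hκ
      have e1 : κ * (SS X P p + 2 * X.par.sg p) * (W1 + W0) =
        κ * SS X P p * W1 + κ * SS X P p * W0 + κ * (2 * X.par.sg p * (W1 + W0)) := by ring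
      rw [e1]
      linarith
    · rw [if_neg hP]
      have hb : blk P p = 0 := by
        unfold blk; rw [if_neg (fun hh => hP hh.1)]
      rw [hb, zero_mul]
      have z0 : H0 = 0 := HH_zero t₀ _ h.2.2 (by omega)
      have k0 : 1 / (p : ℝ) * G0 ≤ κ * SS X P p * W0 := by
        have a1 : G0 ≤ κ * SS X P p * Mn X ⟨p, u.c * p, u.A, u.B * p⟩ t₀ := by
          refine i0.trans ?_
          rw [z0, zero_add]
          refine mul_le_mul_of_nonneg_right ?_ M0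
          exact mul_le_mul_of_nonneg_left (SS_mono t0) hκ
        calc 1 / (p : ℝ) * G0 ≤ 1 / (p : ℝ) *
            (κ * SS X P p * Mn X ⟨p, u.c * p, u.A, u.B * p⟩ t₀) :=
              mul_le_mul_of_nonneg_left a1 (by positivity)
          _ = κ * SS X P p * (1 / (p : ℝ) * Mn X ⟨p, u.c * p, u.A, u.B * p⟩ t₀) := by ring
          _ = κ * SS X P p * W0 := by rw [m0]
      have hS : SS X P p ≤ SS X P (p + 1) := SS_mono (Nat.le_succ p)
      have hS' := mul_le_mul_of_nonneg_right (mul_le_mul_of_nonneg_left hS hκ)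
        (add_nonneg W1n W0n)
      have e1 : κ * SS X P p * (W1 + W0) = κ * SS X P p * W1 + κ * SS X P p * W0 := by ring
      rw [e1] at hS'
      linarith
  | add b t₁ t₀ ih₁ ih₀ =>
    intro u h ht
    have hO := h.1.nd.self.ok
    have hbP : b < 2 * P := ht
    have hds : Disjoint t₁.items t₀.items := hO.2.2.1
    have h1 := tp_le hO.2.2.2.1 (S := 0) (Nat.succ_pos b)
    have h0 := tp_le hO.2.2.2.2 (S := 0) (Nat.succ_pos b)
    have i1 := ih₁ _ h.2.1 (by omega)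
    have i0 := ih₀ _ h.2.2 (by omega)
    have M1 := Mn_nonneg h.2.1.self
    have M0 := Mn_nonneg h.2.2.self
    have em : Mn X u (.add b t₁ t₀) = Mn X ⟨b + 1, u.c, u.A, u.B⟩ t₁ +
        Mn X ⟨b + 1, u.c, u.A, u.B⟩ t₀ := by
      show u.c * Ws (w X.ψ) (t₁.items ∪ t₀.items) = _
      rw [Ws_union hds, mul_add]
    show GG X Y A _ ⟨b + 1, u.c, u.A, u.B⟩ t₁ + GG X Y A _ ⟨b + 1, u.c, u.A, u.B⟩ t₀ ≤
      (HH X Y A P ⟨b + 1, u.c, u.A, u.B⟩ t₁ + HH X Y A P ⟨b + 1, u.c, u.A, u.B⟩ t₀) +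
        κ * SS X P (b + 1) * Mn X u (.add b t₁ t₀)
    rw [em]
    have s1 := mul_le_mul_of_nonneg_right (mul_le_mul_of_nonneg_left
      (SS_mono (X := X) (P := P) (show tp t₁ + 1 ≤ b + 1 by omega)) hκ) M1
    have s0 := mul_le_mul_of_nonneg_right (mul_le_mul_of_nonneg_left
      (SS_mono (X := X) (P := P) (show tp t₀ + 1 ≤ b + 1 by omega)) hκ) M0
    rw [mul_add]
    linarith
  | up b Sp t ih =>
    intro u h ht
    have hO := h.1.nd.self.ok
    have hbP : b < 2 * P := ht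
    have h1 := tp_le hO.2.2.2 (S := 0) hO.1.pos
    have i1 := ih _ h.2 (by omega)
    have M1 := Mn_nonneg h.2.self
    have s1 := mul_le_mul_of_nonneg_right (mul_le_mul_of_nonneg_left
      (SS_mono (X := X) (P := P) (show tp t + 1 ≤ b + 1 by omega)) hκ) M1
    exact i1.trans (add_le_add le_rfl s1)
  | pl b t ih =>
    intro u h ht
    have hO := h.1.nd.self.ok
    have hbP : b < 2 * P := ht
    have h1 := tp_le hO.2.2 (S := 0) (Nat.succ_pos b)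
    have i1 := ih _ h.2 (by omega)
    have M1 := Mn_nonneg h.2.self
    have s1 := mul_le_mul_of_nonneg_right (mul_le_mul_of_nonneg_left
      (SS_mono (X := X) (P := P) (show tp t + 1 ≤ b + 1 by omega)) hκ) M1
    exact i1.trans (add_le_add le_rfl s1)
  | far b t₁ t₀ ih₁ ih₀ =>
    intro u h ht
    have hO := h.1.nd.self.ok
    have hbP : b < 2 * P := ht
    have hds : Disjoint t₁.items t₀.items := hO.2.2.1
    have h1 := tp_le hO.2.2.2.1 (S := 0) (Nat.succ_pos b)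
    have h0 := tp_le hO.2.2.2.2 (S := 0) (Nat.succ_pos b)
    have i1 := ih₁ _ h.2.1 (by omega)
    have i0 := ih₀ _ h.2.2 (by omega)
    have M1 := Mn_nonneg h.2.1.self
    have M0 := Mn_nonneg h.2.2.self
    have em : Mn X u (.far b t₁ t₀) = Mn X ⟨b + 1, u.c, u.A, u.B⟩ t₁ +
        Mn X ⟨b + 1, u.c, u.A, u.B⟩ t₀ := by
      show u.c * Ws (w X.ψ) (t₁.items ∪ t₀.items) = _
      rw [Ws_union hds, mul_add]
    show GG X Y A _ ⟨b + 1, u.c, u.A, u.B⟩ t₁ + GG X Y A _ ⟨b + 1, u.c, u.A, u.B⟩ t₀ ≤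
      (HH X Y A P ⟨b + 1, u.c, u.A, u.B⟩ t₁ + HH X Y A P ⟨b + 1, u.c, u.A, u.B⟩ t₀) +
        κ * SS X P (b + 1) * Mn X u (.far b t₁ t₀)
    rw [em]
    have s1 := mul_le_mul_of_nonneg_right (mul_le_mul_of_nonneg_left
      (SS_mono (X := X) (P := P) (show tp t₁ + 1 ≤ b + 1 by omega)) hκ) M1
    have s0 := mul_le_mul_of_nonneg_right (mul_le_mul_of_nonneg_left
      (SS_mono (X := X) (P := P) (show tp t₀ + 1 ≤ b + 1 by omega)) hκ) M0
    rw [mul_add]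
    linarith

/-- **one block, all the nodes** -/
theorem blkB {κ : ℝ} (hκ : 0 ≤ κ)
    (hch : ∀ (u : NS) (τ : IT), All (NF X) u τ → ¬ isL τ → P ≤ tp τ → tp τ < 2 * P →
      HH X Y A P u τ ≤ κ * Mn X u τ) :
    ∀ (τ : IT) (u : NS), All (NF X) u τ →
      GG X Y A (blk P) u τ ≤ κ * (1 + SS X P (2 * P)) * Mn X u τ := by
  have hK0 : 0 ≤ κ * (1 + SS X P (2 * P)) :=
    mul_nonneg hκ (add_nonneg zero_le_one (SS_nonneg _))
  -- below the top of the block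
  have hlow : ∀ (τ : IT) (u : NS), All (NF X) u τ → tp τ < 2 * P →
      GG X Y A (blk P) u τ ≤ κ * (1 + SS X P (2 * P)) * Mn X u τ := by
    intro τ u h ht
    have M0 := Mn_nonneg h.self
    have i1 := blkA hκ hch τ u h ht
    have hHH : HH X Y A P u τ ≤ κ * Mn X u τ := by
      by_cases hP : tp τ < P
      · rw [HH_zero τ u h hP]
        exact mul_nonneg hκ M0
      · cases τ with
        | leaf S => exact mul_nonneg hκ M0
        | br p Sp t₁ t₀ => exact hch u _ h (by simp [isL]) (not_lt.1 hP) ht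
        | add b t₁ t₀ => exact hch u _ h (by simp [isL]) (not_lt.1 hP) ht
        | up b Sp t => exact hch u _ h (by simp [isL]) (not_lt.1 hP) ht
        | pl b t => exact hch u _ h (by simp [isL]) (not_lt.1 hP) ht
        | far b t₁ t₀ => exact hch u _ h (by simp [isL]) (not_lt.1 hP) ht
    have s1 := mul_le_mul_of_nonneg_right (mul_le_mul_of_nonneg_left
      (SS_mono (X := X) (P := P) (show tp τ + 1 ≤ 2 * P by omega)) hκ) M0
    have e1 : κ * (1 + SS X P (2 * P)) * Mn X u τ = κ * Mn X u τ +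
      κ * SS X P (2 * P) * Mn X u τ := by ring
    rw [e1]
    linarith
  intro τ
  induction τ with
  | leaf S => intro u h; exact mul_nonneg hK0 (Mn_nonneg h)
  | br p Sp t₁ t₀ ih₁ ih₀ =>
    intro u h
    by_cases ht : p < 2 * P
    · exact hlow _ u h ht
    have F := tF h.1.nd
    obtain ⟨m1, m0, m⟩ := Mn_br (X := X) (Sp := Sp) F
    have hp2 : (2:ℝ) ≤ p := by exact_mod_cast F.pr.two_le
    have hp0 : (0:ℝ) < p := by linarith
    have hq : 0 ≤ 1 - 1 / (p:ℝ) := by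
      rw [sub_nonneg, div_le_one hp0]; linarith
    have hb : blk P p = 0 := by
      unfold blk; rw [if_neg (fun hh => ht hh.2)]
    have i1 := mul_le_mul_of_nonneg_left (ih₁ _ h.2.1) hq
    have i0 := mul_le_mul_of_nonneg_left (ih₀ _ h.2.2) (show (0:ℝ) ≤ 1 / (p:ℝ) by positivity)
    show blk P p * PNe X Y A u p t₁ t₀ +
      ((1 - 1 / (p : ℝ)) * GG X Y A (blk P) ⟨p, u.c / (1 - 1 / (p : ℝ)), u.A * p, u.B⟩ t₁ +
        1 / (p : ℝ) * GG X Y A (blk P) ⟨p, u.c * p, u.A, u.B * p⟩ t₀) ≤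
      κ * (1 + SS X P (2 * P)) * Mn X u (.br p Sp t₁ t₀)
    rw [hb, zero_mul, zero_add, m, mul_add]
    refine add_le_add (i1.trans (le_of_eq ?_)) (i0.trans (le_of_eq ?_))
    · rw [← m1]; ring
    · rw [← m0]; ring
  | add b t₁ t₀ ih₁ ih₀ =>
    intro u h
    have hO := h.1.nd.self.ok
    have hds : Disjoint t₁.items t₀.items := hO.2.2.1
    have em : Mn X u (.add b t₁ t₀) = Mn X ⟨b + 1, u.c, u.A, u.B⟩ t₁ +
        Mn X ⟨b + 1, u.c, u.A, u.B⟩ t₀ := by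
      show u.c * Ws (w X.ψ) (t₁.items ∪ t₀.items) = _
      rw [Ws_union hds, mul_add]
    rw [em, mul_add]
    exact add_le_add (ih₁ _ h.2.1) (ih₀ _ h.2.2)
  | up b Sp t ih => intro u h; exact ih _ h.2
  | pl b t ih => intro u h; exact ih _ h.2
  | far b t₁ t₀ ih₁ ih₀ =>
    intro u h
    have hO := h.1.nd.self.ok
    have hds : Disjoint t₁.items t₀.items := hO.2.2.1
    have em : Mn X u (.far b t₁ t₀) = Mn X ⟨b + 1, u.c, u.A, u.B⟩ t₁ +
        Mn X ⟨b + 1, u.c, u.A, u.B⟩ t₀ := by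
      show u.c * Ws (w X.ψ) (t₁.items ∪ t₀.items) = _
      rw [Ws_union hds, mul_add]
    rw [em, mul_add]
    exact add_le_add (ih₁ _ h.2.1) (ih₀ _ h.2.2)

end ctx

/-! ### numbers -/

lemma par_sg_eq (B C1 c2 : ℝ) (p0 k : ℕ) : (Bld532.par B C1 c2 p0).sg k = Real.log k ^ B / k := rfl

/-- the share bounds of one block -/
lemma SS_block {N : Skel189.Num} {γ : ℝ} {p0 P₀ : ℕ} (X : Ctx N γ p0 P₀) {P : ℕ} (hP : 3 ≤ P)
    (hB : 0 ≤ N.B) : SS X P (2 * P) ≤ 2 * (2 * Real.log P) ^ N.B := by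
  have hP0 : (0:ℝ) < P := by exact_mod_cast (by omega : 0 < P)
  have hl : 1 ≤ Real.log (P:ℝ) := Bld532.one_le_log_nat hP
  unfold SS
  have hsub : (Finset.range (2 * P)).filter (fun p => p.Prime ∧ P ≤ p) ⊆ Finset.Ico P (2 * P) := by
    intro p hp
    obtain ⟨h1, h2, h3⟩ := Finset.mem_filter.1 hp
    exact Finset.mem_Ico.2 ⟨h3, Finset.mem_range.1 h1⟩
  calc ∑ p ∈ (Finset.range (2 * P)).filter (fun p => p.Prime ∧ P ≤ p), 2 * X.par.sg p
      ≤ ∑ p ∈ (Finset.range (2 * P)).filter (fun p => p.Prime ∧ P ≤ p),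
        2 * ((2 * Real.log P) ^ N.B / P) := by
        refine Finset.sum_le_sum fun p hp => ?_
        obtain ⟨h1, h2, h3⟩ := Finset.mem_filter.1 hp
        have hp2 := Finset.mem_range.1 h1
        have e1 : X.par.sg p = Real.log p ^ N.B / p := rfl
        have hpR : (P:ℝ) ≤ p := by exact_mod_cast h3
        have hlp := log_two_mul (P := P) (p' := p) (by omega) hp2 (by omega)
        have hlp0 : 0 ≤ Real.log (p:ℝ) := Real.log_nonneg (by linarith [(by exact_mod_cast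
          (by omega : 1 ≤ P) : (1:ℝ) ≤ P)])
        rw [e1]
        refine mul_le_mul_of_nonneg_left ?_ (by norm_num)
        exact div_le_div₀ (by positivity) (Real.rpow_le_rpow hlp0 hlp hB) hP0 hpR
    _ ≤ ∑ p ∈ Finset.Ico P (2 * P), 2 * ((2 * Real.log P) ^ N.B / P) :=
        Finset.sum_le_sum_of_subset_of_nonneg hsub fun _ _ _ => by positivity
    _ = 2 * (2 * Real.log P) ^ N.B := by
        rw [Finset.sum_const, Nat.card_Ico, nsmul_eq_mul,
          show 2 * P - P = P by omega]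
        field_simp

lemma log_two_pow (k : ℕ) : Real.log ((2 ^ k : ℕ) : ℝ) = k * Real.log 2 := by
  push_cast
  rw [Real.log_pow]

/-- sum over the dyadic blocks -/
lemma dyadic (B s A' : ℝ) (hB : 0 ≤ B) (hs : 0 ≤ s) (hA' : 0 ≤ A') : ∃ p₁ : ℕ, ∀ p0 : ℕ, p₁ ≤ p0 →
    ∀ K : ℕ, ∑ k ∈ Finset.Ico (Nat.log 2 p0) K, (2 * Real.log ((2 ^ k : ℕ) : ℝ)) ^ s *
      (Real.log ((2 ^ k : ℕ) : ℝ) ^ (-(s + B + A' + 4)) *
        (1 + 2 * (2 * Real.log ((2 ^ k : ℕ) : ℝ)) ^ B)) ≤ Real.log p0 ^ (-A') := by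
  obtain ⟨p₁, h₁⟩ := Crest.Agent.R4.RseN207.log_large
    (24 * (2:ℝ) ^ (s + B) * (2:ℝ) ^ (A' + 2) + 1)
  refine ⟨p₁ + 16, fun p0 hp0 K => ?_⟩
  have hL := h₁ p0 (by omega)
  set C : ℝ := 24 * (2:ℝ) ^ (s + B) * (2:ℝ) ^ (A' + 2) with hC
  have hC0 : 0 < C := by positivity
  have hlp : 1 ≤ Real.log (p0:ℝ) := by linarith
  have hlp0 : 0 < Real.log (p0:ℝ) := by linarith
  have hp0R : (0:ℝ) < p0 := by exact_mod_cast (by omega : 0 < p0)
  set k0 : ℕ := Nat.log 2 p0 with hk0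
  have hk04 : 4 ≤ k0 := by
    rw [hk0]
    exact (Nat.le_log_iff_pow_le (by norm_num) (by omega)).2 (by norm_num; omega)
  have l2 : (1/2:ℝ) ≤ Real.log 2 := by
    have := Real.log_two_gt_d9
    linarith
  have l2' : 0 < Real.log 2 := by linarith
  -- the first block
  have hLk0 : Real.log p0 / 2 ≤ k0 * Real.log 2 := by
    have h1 : p0 < 2 ^ (k0 + 1) := Nat.lt_pow_succ_log_self (by norm_num) p0
    have h2 : Real.log (p0:ℝ) ≤ (k0 + 1 : ℕ) * Real.log 2 := by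
      rw [← log_two_pow]
      exact Real.log_le_log hp0R (by exact_mod_cast h1.le)
    push_cast at h2
    have h3 : (4:ℝ) ≤ k0 := by exact_mod_cast hk04
    nlinarith
  have hbase : ((k0:ℝ) * Real.log 2) ^ (-(A' + 2)) ≤ (Real.log p0 / 2) ^ (-(A' + 2)) :=
    Real.rpow_le_rpow_of_nonpos (by positivity) hLk0 (by linarith)
  -- one term
  have hterm : ∀ k ∈ Finset.Ico k0 K, (2 * Real.log ((2 ^ k : ℕ) : ℝ)) ^ s *
      (Real.log ((2 ^ k : ℕ) : ℝ) ^ (-(s + B + A' + 4)) *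
        (1 + 2 * (2 * Real.log ((2 ^ k : ℕ) : ℝ)) ^ B)) ≤
      12 * (2:ℝ) ^ (s + B) * (Real.log p0 / 2) ^ (-(A' + 2)) * ((k:ℝ) ^ 2)⁻¹ := by
    intro k hk
    have hkk : k0 ≤ k := (Finset.mem_Ico.1 hk).1
    have hk4 : (4:ℝ) ≤ k := by exact_mod_cast hk04.trans hkk
    have hkR : (k0:ℝ) ≤ k := by exact_mod_cast hkk
    rw [log_two_pow]
    set L : ℝ := (k:ℝ) * Real.log 2 with hLd
    have hL1 : 1 ≤ L := by nlinarith
    have hL0 : 0 < L := by linarith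
    have e1 : (2 * L) ^ s = (2:ℝ) ^ s * L ^ s := Real.mul_rpow (by norm_num) hL0.le
    have e2 : (2 * L) ^ B = (2:ℝ) ^ B * L ^ B := Real.mul_rpow (by norm_num) hL0.le
    have e3 : (1:ℝ) ≤ (2:ℝ) ^ B * L ^ B := by
      have a1 := Real.one_le_rpow (show (1:ℝ) ≤ 2 by norm_num) hB
      have a2 := Real.one_le_rpow hL1 hB
      nlinarith
    have e4 : 1 + 2 * (2 * L) ^ B ≤ 3 * ((2:ℝ) ^ B * L ^ B) := by rw [e2]; linarith
    have e5 : L ^ (-(s + B + A' + 4)) = L ^ (-s) * L ^ (-B) * (L ^ (-(A' + 2)) * L ^ (-(2:ℝ))) := by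
      rw [← Real.rpow_add hL0, ← Real.rpow_add hL0, ← Real.rpow_add hL0]
      congr 1; ring
    have e6 : L ^ s * L ^ (-s) = 1 := by rw [← Real.rpow_add hL0]; simp
    have e7 : L ^ B * L ^ (-B) = 1 := by rw [← Real.rpow_add hL0]; simp
    have e8 : (2:ℝ) ^ (s + B) = (2:ℝ) ^ s * (2:ℝ) ^ B := Real.rpow_add (by norm_num) _ _
    have e9 : L ^ (-(A' + 2)) ≤ (Real.log p0 / 2) ^ (-(A' + 2)) := by
      refine le_trans ?_ hbase
      refine Real.rpow_le_rpow_of_nonpos (by positivity) ?_ (by linarith)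
      exact mul_le_mul_of_nonneg_right hkR l2'.le
    have e10 : L ^ (-(2:ℝ)) ≤ 4 * ((k:ℝ) ^ 2)⁻¹ := by
      rw [Real.rpow_neg hL0.le, show (2:ℝ) = ((2:ℕ):ℝ) by norm_num, Real.rpow_natCast, hLd,
        mul_pow, mul_inv]
      have : (Real.log 2 ^ 2)⁻¹ ≤ 4 := by
        rw [inv_le_comm₀ (by positivity) (by norm_num)]
        nlinarith
      have h9 : 0 ≤ ((k:ℝ) ^ 2)⁻¹ := by positivity
      nlinarith
    have hpos1 : 0 ≤ L ^ (-(A' + 2)) := Real.rpow_nonneg hL0.le _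
    have hpos2 : 0 ≤ L ^ (-(2:ℝ)) := Real.rpow_nonneg hL0.le _
    calc (2 * L) ^ s * (L ^ (-(s + B + A' + 4)) * (1 + 2 * (2 * L) ^ B))
        ≤ (2 * L) ^ s * (L ^ (-(s + B + A' + 4)) * (3 * ((2:ℝ) ^ B * L ^ B))) := by
          refine mul_le_mul_of_nonneg_left (mul_le_mul_of_nonneg_left e4 ?_) ?_
          · exact Real.rpow_nonneg hL0.le _
          · exact Real.rpow_nonneg (by positivity) _
      _ = 3 * ((2:ℝ) ^ s * (2:ℝ) ^ B) * ((L ^ s * L ^ (-s)) * (L ^ B * L ^ (-B))) *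
            (L ^ (-(A' + 2)) * L ^ (-(2:ℝ))) := by
          rw [e1, e5]; ring
      _ = 3 * (2:ℝ) ^ (s + B) * (L ^ (-(A' + 2)) * L ^ (-(2:ℝ))) := by
          rw [e6, e7, e8]; ring
      _ ≤ 3 * (2:ℝ) ^ (s + B) * ((Real.log p0 / 2) ^ (-(A' + 2)) * (4 * ((k:ℝ) ^ 2)⁻¹)) := by
          refine mul_le_mul_of_nonneg_left ?_ (by positivity)
          exact mul_le_mul e9 e10 hpos2 (Real.rpow_nonneg (by positivity) _)
      _ = 12 * (2:ℝ) ^ (s + B) * (Real.log p0 / 2) ^ (-(A' + 2)) * ((k:ℝ) ^ 2)⁻¹ := by ring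
  have hsq : ∑ k ∈ Finset.Ico k0 K, ((k:ℝ) ^ 2)⁻¹ ≤ 2 := by
    have h1 : Finset.Ico k0 K = Finset.Ioo (k0 - 1) K := by
      ext x
      rw [Finset.mem_Ico, Finset.mem_Ioo]
      omega
    rw [h1]
    have h2 := sum_Ioo_inv_sq_le (α := ℝ) (k0 - 1) K
    refine h2.trans ?_
    rw [div_le_iff₀ (by positivity)]
    have : (0:ℝ) ≤ ((k0 - 1 : ℕ) : ℝ) := Nat.cast_nonneg _
    linarith
  refine (Finset.sum_le_sum hterm).trans ?_
  rw [← Finset.mul_sum]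
  have hD0 : 0 ≤ 12 * (2:ℝ) ^ (s + B) * (Real.log p0 / 2) ^ (-(A' + 2)) := by
    have := Real.rpow_nonneg (show 0 ≤ Real.log (p0:ℝ) / 2 by linarith) (-(A' + 2))
    positivity
  have e1 : (Real.log p0 / 2) ^ (-(A' + 2)) = (2:ℝ) ^ (A' + 2) * (Real.log p0 ^ (-A') *
      Real.log p0 ^ (-(2:ℝ))) := by
    rw [Real.div_rpow hlp0.le (by norm_num), Real.rpow_neg (show (0:ℝ) ≤ 2 by norm_num),
      ← Real.rpow_add hlp0]
    rw [div_inv_eq_mul, mul_comm]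
    congr 2
    ring
  have e2 : C * Real.log p0 ^ (-(2:ℝ)) ≤ 1 := by
    rw [Real.rpow_neg hlp0.le, show (2:ℝ) = ((2:ℕ):ℝ) by norm_num, Real.rpow_natCast]
    rw [← div_eq_mul_inv, div_le_one (by positivity)]
    nlinarith
  have hr0 : 0 ≤ Real.log p0 ^ (-A') := Real.rpow_nonneg hlp0.le _
  calc 12 * (2:ℝ) ^ (s + B) * (Real.log p0 / 2) ^ (-(A' + 2)) *
        ∑ k ∈ Finset.Ico k0 K, ((k:ℝ) ^ 2)⁻¹
      ≤ 12 * (2:ℝ) ^ (s + B) * (Real.log p0 / 2) ^ (-(A' + 2)) * 2 :=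
        mul_le_mul_of_nonneg_left hsq hD0
    _ = (C * Real.log p0 ^ (-(2:ℝ))) * Real.log p0 ^ (-A') := by rw [e1, hC]; ring
    _ ≤ 1 * Real.log p0 ^ (-A') := mul_le_mul_of_nonneg_right e2 hr0
    _ = Real.log p0 ^ (-A') := one_mul _

set_option maxHeartbeats 1000000 in
/-- **the energy of the separated P|N pairs over the whole tree** -/
theorem walk (N : Skel189.Num) {s A' : ℝ} (hs : 0 ≤ s) (hA' : 0 ≤ A') : ∃ p₁ : ℕ, ∀ p0 ≥ p₁,
    ∀ (γ : ℝ) (P₀ : ℕ), 2 ≤ P₀ → ∀ X : Ctx N γ p0 P₀, RseH X →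
    ∀ (Y : Finset (ℕ × ℕ × Finset ℕ)) (u : NS) (τ : IT), All (NF X) u τ →
    ∀ A : Finset X.c.Lam, GG X Y A (fun p => Real.log p ^ s) u τ ≤
      Real.log p0 ^ (-A') * (u.c * Ws (w X.ψ) τ.items) := by
  have hB : 0 ≤ N.B := by
    have h1 := N.hB
    have h2 := N.hC1
    have h3 := N.hc2
    linarith
  obtain ⟨p1, h1⟩ := chain N (s + N.B + A' + 4)
  obtain ⟨p2, h2⟩ := dyadic N.B s A' hB hs hA'
  refine ⟨2 * p1 + p2 + 16, fun p0 hp0 γ P₀ hP₀ X hX Y u τ hA A => ?_⟩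
  set K := tp τ + 1 with hK
  set S := Finset.Ico (Nat.log 2 p0) K with hS
  have hlog : ∀ k ∈ S, p1 ≤ 2 ^ k ∧ 8 ≤ 2 ^ k := by
    intro k hk
    have hk1 : Nat.log 2 p0 ≤ k := (Finset.mem_Ico.1 hk).1
    have h3 : p0 < 2 ^ (Nat.log 2 p0 + 1) := Nat.lt_pow_succ_log_self (by norm_num) p0
    have h4 : 2 ^ (Nat.log 2 p0) ≤ 2 ^ k := Nat.pow_le_pow_right (by norm_num) hk1
    rw [pow_succ] at h3
    omega
  have hf : ∀ p, p.Prime → p0 < p → p ≤ tp τ → Real.log p ^ s ≤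
      ∑ k ∈ S, (2 * Real.log ((2 ^ k : ℕ) : ℝ)) ^ s * blk (2 ^ k) p := by
    intro p hp hp0' hpt
    set k := Nat.log 2 p with hk
    have hkp : 2 ^ k ≤ p := Nat.pow_log_le_self 2 hp.ne_zero
    have hpk : p < 2 ^ (k + 1) := Nat.lt_pow_succ_log_self (by norm_num) p
    have hkS : k ∈ S := by
      refine Finset.mem_Ico.2 ⟨Nat.log_mono_right hp0'.le, ?_⟩
      have : k < 2 ^ k := Nat.lt_two_pow_self
      omega
    have hk8 := (hlog k hkS).2
    have hb : blk (2 ^ k) p = 1 := by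
      unfold blk
      rw [if_pos ⟨hkp, by rw [pow_succ] at hpk; omega⟩]
    have hlp : Real.log p ≤ 2 * Real.log ((2 ^ k : ℕ) : ℝ) :=
      log_two_mul (by omega) (by rw [pow_succ] at hpk; omega) hp.pos
    have hlp0 : 0 ≤ Real.log (p:ℝ) := Real.log_natCast_nonneg p
    refine (Real.rpow_le_rpow hlp0 hlp hs).trans ?_
    refine le_trans (le_of_eq ?_) (Finset.single_le_sum (f := fun k =>
      (2 * Real.log ((2 ^ k : ℕ) : ℝ)) ^ s * blk (2 ^ k) p) (fun i _ => ?_) hkS)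
    · show _ = (2 * Real.log ((2 ^ k : ℕ) : ℝ)) ^ s * blk (2 ^ k) p
      rw [hb, mul_one]
    · refine mul_nonneg (Real.rpow_nonneg ?_ _) ?_
      · exact mul_nonneg (by norm_num) (Real.log_natCast_nonneg _)
      · unfold blk; split_ifs <;> norm_num
  have hM0 := Mn_nonneg hA.self
  have e1 := GG_mono (X := X) (Y := Y) (A := A) hf τ u hA le_rfl
  rw [GG_sum (X := X) (Y := Y) (A := A) S (fun k => (2 * Real.log ((2 ^ k : ℕ) : ℝ)) ^ s)
    (fun k => blk (2 ^ k)) τ u] at e1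
  refine e1.trans ?_
  have e2 : ∀ k ∈ S, (2 * Real.log ((2 ^ k : ℕ) : ℝ)) ^ s * GG X Y A (blk (2 ^ k)) u τ ≤
      (2 * Real.log ((2 ^ k : ℕ) : ℝ)) ^ s *
      (Real.log ((2 ^ k : ℕ) : ℝ) ^ (-(s + N.B + A' + 4)) *
        (1 + 2 * (2 * Real.log ((2 ^ k : ℕ) : ℝ)) ^ N.B)) * Mn X u τ := by
    intro k hk
    obtain ⟨hk1, hk8⟩ := hlog k hk
    have hl0 : 0 ≤ Real.log ((2 ^ k : ℕ) : ℝ) := Real.log_natCast_nonneg _
    set κ : ℝ := Real.log ((2 ^ k : ℕ) : ℝ) ^ (-(s + N.B + A' + 4)) with hκ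
    have hκ0 : 0 ≤ κ := Real.rpow_nonneg hl0 _
    have i1 := blkB (X := X) (Y := Y) (A := A) (P := 2 ^ k) hκ0 (fun u' τ' hA' hl' hP' ht' => by
      refine (h1 (2 ^ k) hk1 p0 (by omega) γ P₀ hP₀ X hX Y u' τ' hA' hl' hP' ht' A).trans ?_
      refine mul_le_mul_of_nonneg_left (mul_le_mul_of_nonneg_left ?_ hA'.self.c0.le) hκ0
      unfold al Ws
      exact Finset.sum_le_sum_of_subset_of_nonneg (Finset.filter_subset _ _)
        fun q _ _ => X.hW q) τ u hA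
    have i2 : SS X (2 ^ k) (2 * 2 ^ k) ≤ 2 * (2 * Real.log ((2 ^ k : ℕ) : ℝ)) ^ N.B :=
      SS_block X (by omega) hB
    rw [mul_assoc]
    refine mul_le_mul_of_nonneg_left (i1.trans ?_) (Real.rpow_nonneg (by positivity) _)
    refine mul_le_mul_of_nonneg_right (mul_le_mul_of_nonneg_left ?_ hκ0) hM0
    linarith
  refine (Finset.sum_le_sum e2).trans ?_
  rw [← Finset.sum_mul]
  exact mul_le_mul_of_nonneg_right (h2 p0 (by omega) K) hM0

end Crest.Agent.R4P.RtS28
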