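import Crest.Agent.R4P.RtW_28
import Crest.Agent.R4P.RtD_28

/-!
R4 (S0004), powers pass, helper28: **ALL the unlabelled P|N pairs of one index** (whatever the retained
parts and tags are, in particular the pairs of one real class): at a tie `p` the cofactor of the P piece
is divisible by `p`, so a cofactor is `≥ P` for the ties of a block `[P, 2P)` and `RtN28.rtU'` applies.

* `RU X p` : pairs of pieces of one index with the real state `none` at the column `p`.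
* `BFc`, `blkF` : facts of a node whose column is in `[P, 2P)` (radii, masses, tameness).
* **`chainU`** : `HG (RU X) ≤ (log P)^(-s) * mass` (one P-chain in one block); `chBU : ChB`.
* **`pn_rootU`**, **`tgtPNU`** : `pn (KR (RU X) s) ≤ (log p0)^(-A') mass` at all the nodes.
-/

set_option autoImplicit false
set_option linter.unusedSectionVars false
set_option linter.unusedVariables false

open MeasureTheory Filter

namespace Crest.Agent.R4P.RtU28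

open Crest.Agent.R4P.Cnt588 Crest.Agent.R4P.Item758 Crest.Agent.R4P.W363
open Crest.Agent.R4P.Data758 Crest.Agent.R4P.OmSt532 Crest.Agent.R4P.OmData532
open Crest.Agent.R4P.LfDat734 Crest.Agent.R4P.WPex189
open Crest.Agent.R4P.Bld532 (NS All NodeOk Bk)
open Crest.Agent.R4P.Step588 (NDt ND1 ctx_NDt uq_lt)
open Crest.Agent.R4P.WalkIT579 (tp isL nodeOk_hi top_of_nodeOk)
open Crest.Agent.R4P.Skel189 Crest.Agent.R4P.RseSt23 Crest.Agent.R4P.RseNd23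
open Crest.Agent.R4P.RtC28 (TF tF conv_rel tp_le log_two_mul Q_eq_sum iF_ne cof1 cof2 UP UN num_P
  num_c)
open Crest.Agent.R4P.RtN28
open Crest.Agent.R4.LF363 (Lab)
open Crest.Agent.R4.HVW560 (cof)
open Crest.Agent.R4.AvgItem710 (Dp mul_cof mul_cof' cof_pos cof_coprime exists_of_I_ne)
open Crest.Agent.R4P.AvgItem710
open Crest.Agent.R4.ClosL758 Crest.Agent.R4.ClosR758 Crest.Agent.R4.Tour104 Crest.Agent.R4.Fam464
open Crest.Agent.R4.Tour758 Crest.Agent.R4.Avg758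
open Crest.Agent.R4P.Frame758
open Crest.Agent.R4.Soft104 (w)
open Crest.Agent.R4
open Crest.Agent.R4P.RtS28 (Mn Mn_nonneg Mn_br Ws_union)
open Crest.Agent.R4P.RtG28
open Crest.Agent.R4P.PrD45 (pn)
open Crest.Agent.R4P.Fin5 (CF)
open Crest.Agent.R4P.JnA5 Crest.Agent.R4P.JnB5 Crest.Agent.R4P.JnC5 Crest.Agent.R4P.JnD5
open Crest.Agent.R4P.JnE5 Crest.Agent.R4P.JnH5 Crest.Agent.R4P.JnR5

/-! ### facts of a node whose column is in a block -/

section facts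
variable {N : Skel189.Num} {γ : ℝ} {p0 P₀ : ℕ}

/-- **facts of a node whose column is in `[P, 2P)`**; `T` = alive items of `A` -/
structure BFc (X : Ctx N γ p0 P₀) (u : NS) (τ : IT) (P : ℕ) (A : Finset X.c.Lam) : Prop where
  n1 : 16 ≤ P
  n2 : 5 ≤ Real.log P
  n3 : Real.exp (Real.log P ^ (4/5:ℝ)) ≤ (P:ℝ) ^ (1/4:ℝ)
  k2 : p0 < tp τ
  hpt : tp τ ≤ top X.S
  mem : ∀ q ∈ al X τ A, q ∈ τ.items ∧ q ∈ X.S'
  alf : ∀ q ∈ al X τ A, AlF X u τ q
  lo : ∀ q ∈ al X τ A, RB X u q ≤ 4 * Step588.CT * Real.log P * wA u.A (RB X u) q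
  wA0 : ∀ q ∈ al X τ A, 0 ≤ wA u.A (RB X u) q
  tame : ∀ z : ℝ, ((2 * P : ℕ) : ℝ) ^ 2 ≤ z → ∀ q ∈ al X τ A,
      Crest.Agent.R4.ClsB.Tame z 1 (q / u.A)
  hM : ∑ q ∈ al X τ A, wA u.A (RB X u) q ≤ u.c * ∑ q ∈ al X τ A, w X.ψ q
  hM2 : u.c * ∑ q ∈ al X τ A, w X.ψ q ≤ Real.log P ^ (N.c2 + 1)
  hMn : u.c * ∑ q ∈ al X τ A, w X.ψ q ≤ Mn X u τ

theorem blkF (N : Skel189.Num) : ∃ p₁ : ℕ, ∀ P ≥ p₁, ∀ p0 ≥ p₁, ∀ (γ : ℝ) (P₀ : ℕ), 2 ≤ P₀ →
    ∀ (X : Ctx N γ p0 P₀) (u : NS) (τ : IT), NF X u τ → ¬ isL τ →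
    P ≤ tp τ → tp τ < 2 * P → ∀ A : Finset X.c.Lam, BFc X u τ P A := by
  classical
  have hc2 := N.hc2
  have hCT := Step588.CT_pos
  obtain ⟨p1, h1⟩ := alive_facts N
  obtain ⟨p5, h5⟩ := num_P (N.c2 + 2)
  obtain ⟨p6, h6⟩ := num_c N.c2 hc2
  refine ⟨p1 + p5 + p6, fun P hPp p0 hp0 γ P₀ hP₀ X u τ hN hl hPt htP A => ?_⟩
  have h := hN.nd
  obtain ⟨k1, k2, k3, k4⟩ := nodeOk_hi h.self.node hl
  have k2' : p0 < tp τ := k2
  have hpt : tp τ ≤ top X.S := k3.le.trans hN.lvl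
  obtain ⟨n1, n2, n3, n4, n5⟩ := h5 P (by omega)
  have hPR : (0:ℝ) < P := by exact_mod_cast (by omega : 0 < P)
  have hl0 : 0 < Real.log (P:ℝ) := by linarith
  have hltp : Real.log (tp τ) ≤ 2 * Real.log P := log_two_mul (by omega) htP (by omega)
  have hltp0 : 0 ≤ Real.log (tp τ) := Real.log_nonneg (by exact_mod_cast (by omega : 1 ≤ tp τ))
  have hTm : ∀ q ∈ al X τ A, q ∈ τ.items ∧ q ∈ X.S' := fun q hq => by
    unfold al at hq
    obtain ⟨a1, a2⟩ := Finset.mem_filter.1 hq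
    exact ⟨a1, a2.1⟩
  have hTF : ∀ q ∈ al X τ A, AlF X u τ q := fun q hq =>
    h1 p0 (by omega) γ P₀ hP₀ X u τ hN hl q (hTm q hq).1 (hTm q hq).2
  have hwA0 : ∀ q ∈ al X τ A, 0 ≤ wA u.A (RB X u) q := fun q hq => by
    unfold wA
    have := (hTF q hq).R0.le
    positivity
  refine ⟨n1, n2, n3, k2', hpt, hTm, hTF, fun q hq => ?_, hwA0, fun z hz q hq => ?_, ?_, ?_, ?_⟩
  · refine (hTF q hq).lo.trans ?_
    refine mul_le_mul_of_nonneg_right ?_ (hwA0 q hq)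
    nlinarith
  · refine (hTF q hq).tame z (le_trans ?_ hz)
    have : (tp τ : ℝ) ≤ ((2 * P : ℕ) : ℝ) := by exact_mod_cast htP.le
    exact pow_le_pow_left₀ (Nat.cast_nonneg _) this 2
  · rw [Finset.mul_sum]
    exact Finset.sum_le_sum fun q hq => (hTF q hq).wle
  · have e1 : u.c * ∑ q ∈ al X τ A, w X.ψ q ≤ Real.log (tp τ) ^ N.c2 := by
      refine le_trans ?_ k1
      refine mul_le_mul_of_nonneg_left ?_ hN.c0.le
      unfold Ws
      refine Finset.sum_le_sum_of_subset_of_nonneg (fun q hq => (hTm q hq).1) fun q _ _ => X.hW q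
    exact e1.trans (le_trans (Real.rpow_le_rpow hltp0 hltp hc2) (h6 P (by omega)))
  · refine mul_le_mul_of_nonneg_left ?_ hN.c0.le
    unfold Ws
    exact Finset.sum_le_sum_of_subset_of_nonneg (fun q hq => (hTm q hq).1) fun q _ _ => X.hW q

end facts

/-! ### the relation -/

section rel
variable {N : Skel189.Num} {γ : ℝ} {p0 P₀ : ℕ}

open Classical in
/-- pairs of pieces of one index, real state `none` (no condition on the retained parts) -/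
noncomputable def RU (X : Ctx N γ p0 P₀) (p : ℕ) : Finset (X.c.Lam × X.c.Lam) :=
  Finset.univ.filter fun x => ixf X p x.1 = ixf X p x.2 ∧ X.c.st p x.1.1.1 = none ∧
    X.c.st p x.2.1.1 = none

variable {X : Ctx N γ p0 P₀}

lemma mem_RU {p : ℕ} {x : X.c.Lam × X.c.Lam} : x ∈ RU X p ↔ ixf X p x.1 = ixf X p x.2 ∧
    X.c.st p x.1.1.1 = none ∧ X.c.st p x.2.1.1 = none := by
  classical
  unfold RU
  rw [Finset.mem_filter]
  exact ⟨fun h => h.2, fun h => ⟨Finset.mem_univ _, h⟩⟩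

lemma RU_symm (p : ℕ) (i j : X.c.Lam) (h : (i, j) ∈ RU X p) : (j, i) ∈ RU X p := by
  rw [mem_RU] at h ⊢
  exact ⟨h.1.symm, h.2.2, h.2.1⟩

end rel

set_option maxHeartbeats 4000000 in
/-- **all the unlabelled P|N pairs of one index, one P-chain, one block of columns** -/
theorem chainU (N : Skel189.Num) (s : ℝ) : ∃ p₁ : ℕ, ∀ P ≥ p₁, ∀ p0 ≥ p₁,
    ∀ (γ : ℝ) (P₀ : ℕ), 2 ≤ P₀ → ∀ X : Ctx N γ p0 P₀, RseH X →
    ∀ (Y : Finset (ℕ × ℕ × Finset ℕ)) (u : NS) (τ : IT), All (NF X) u τ → ¬ isL τ →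
    P ≤ tp τ → tp τ < 2 * P → ∀ A : Finset X.c.Lam,
      HG (RU X) Y A P u τ ≤ Real.log P ^ (-s) * (u.c * ∑ q ∈ al X τ A, w X.ψ q) := by
  classical
  have hc2 := N.hc2
  have hCT := Step588.CT_pos
  obtain ⟨p1, h1⟩ := blkF N
  obtain ⟨p2, h2⟩ := rtU' (4 * Step588.CT) (N.c2 + 1) s (by positivity) (by linarith)
  refine ⟨p1 + p2, fun P hPp p0 hp0 γ P₀ hP₀ X hX Y u τ hA hl hPt htP A => ?_⟩
  have hN := hA.self
  have h := hN.nd
  have G := h1 P (by omega) p0 (by omega) γ P₀ hP₀ X u τ hN hl hPt htP A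
  have n1 := G.n1
  have n2 := G.n2
  have n3 := G.n3
  have hPR : (0:ℝ) < P := by exact_mod_cast (by omega : 0 < P)
  have hPR1 : (1:ℝ) ≤ P := by exact_mod_cast (by omega : 1 ≤ P)
  have hl0 : 0 < Real.log (P:ℝ) := by linarith
  set T : Finset ℕ := al X τ A with hT
  have hTm := G.mem
  have hTF := G.alf
  have hrr : ∀ q, 0 < X.c.rr q := (X.ok.rad Y).pos
  set F : ℕ × ℕ → ℝ := FG (RU X) Y A P u τ with hF
  set E : Finset (ℕ × ℕ) := (τ.items ×ˢ τ.items).filter fun e => F e ≠ 0 with hE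
  have hEne : ∀ e ∈ E, F e ≠ 0 := fun e he => (Finset.mem_filter.1 he).2
  have hsum : HG (RU X) Y A P u τ = ∑ e ∈ E, F e := by
    rw [HG_eq τ u _ (Finset.Subset.refl _), hE, Finset.sum_filter]
    refine Finset.sum_congr rfl fun e _ => ?_
    split_ifs with h0
    · rfl
    · exact not_not.1 h0
  have hspec : ∀ e, ∃ (u' : NS) (p : ℕ) (Sp : Finset ℕ) (t₁ t₀ : IT),
      e ∈ E → SG (RU X) Y A P u τ e u' p Sp t₁ t₀ := fun e => by
    by_cases he : e ∈ E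
    · obtain ⟨u', p, Sp, t₁, t₀, S⟩ := FG_spec τ u hA e (hEne e he)
      exact ⟨u', p, Sp, t₁, t₀, fun _ => S⟩
    · exact ⟨u, 0, ∅, .leaf ∅, .leaf ∅, fun h => absurd h he⟩
  choose ue pe Spe te₁ te₀ hSN using hspec
  have hA0 : 0 < u.A := h.A_pos
  have hB0 : 0 < u.B := h.B_pos
  -- facts of the columns
  have hcol : ∀ e ∈ E, P ≤ pe e ∧ pe e < 2 * P ∧ p0 < pe e ∧ pe e ≤ top X.S := fun e he => by
    have S := hSN e he
    obtain ⟨-, g2, -, -⟩ := nodeOk_hi S.nf.nd.self.node (by simp [isL])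
    exact ⟨S.hP, lt_of_le_of_lt S.htp htP, g2, S.htp.trans G.hpt⟩
  have hlink := fun e he => link (R := RU X) (Y := Y) (A := A) (hSN e he).nf.nd (hSN e he).pe
  have hET : ∀ e ∈ E, e.1 ∈ T ∧ e.2 ∈ T := by
    intro e he
    have S := hSN e he
    obtain ⟨j, j', hj, hj', hee, i1, i2, -, y, a, a', o1, o2, -⟩ := hlink e he
    have hs1 : j.1.1 ∈ X.S' := by
      by_contra hc
      exact o1 (X.om_zero hc _ _)
    have hs2 : j'.1.1 ∈ X.S' := by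
      by_contra hc
      exact o2 (X.om_zero hc _ _)
    have m1 : j.1.1 ∈ τ.items := S.sub (Finset.mem_union_left _ i1)
    have m2 : j'.1.1 ∈ τ.items := S.sub (Finset.mem_union_right _ i2)
    rw [hT, hee]
    unfold al
    exact ⟨Finset.mem_filter.2 ⟨m1, hs1, j, hj, rfl⟩, Finset.mem_filter.2 ⟨m2, hs2, j', hj', rfl⟩⟩
  have hmem' : ∀ e ∈ E, e.1 ∈ (IT.br (pe e) (Spe e) (te₁ e) (te₀ e)).items ∧
      e.2 ∈ (IT.br (pe e) (Spe e) (te₁ e) (te₀ e)).items := fun e he =>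
    ⟨Finset.mem_union_left _ (hSN e he).e1, Finset.mem_union_right _ (hSN e he).e2⟩
  have hcofe : ∀ e ∈ E, cof (e.1 / (ue e).A) (e.2 / (ue e).A) = cof (e.1 / u.A) (e.2 / u.A) ∧
      cof (e.2 / (ue e).A) (e.1 / (ue e).A) = cof (e.2 / u.A) (e.1 / u.A) := fun e he =>
    (hSN e he).cofs hA
  have hRBe : ∀ e ∈ E, RB X (ue e) = RB X u := fun e he => (hSN e he).rb
  have hDAe : ∀ e ∈ E, DA (ue e).A (RB X (ue e)) e = DA u.A (RB X u) e := fun e he =>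
    (hSN e he).da hA
  have hlam : ∀ e ∈ E, X.c.lam (pe e) = 0 := fun e he =>
    hX.lam _ (hcol e he).2.2.1 (hcol e he).2.2.2
  have hnone : ∀ e ∈ E, X.c.st (pe e) e.1 = none ∧ X.c.st (pe e) e.2 = none := fun e he => by
    obtain ⟨j, j', hj, hj', hee, i1, i2, hR, -⟩ := hlink e he
    obtain ⟨-, s1, s2⟩ := mem_RU.1 hR
    have q1 : e.1 = j.1.1 := by rw [hee]
    have q2 : e.2 = j'.1.1 := by rw [hee]
    rw [q1, q2]
    exact ⟨s1, s2⟩
  -- a cofactor is `≥ P` : the tie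
  have hcofP : ∀ e ∈ E, P ≤ cof (e.1 / u.A) (e.2 / u.A) := by
    intro e he
    have S := hSN e he
    have TFe := tF S.nf.nd
    obtain ⟨c1, c2⟩ := hcofe e he
    obtain ⟨m1, m2⟩ := hmem' e he
    have q1 : 0 < e.1 / (ue e).A := Nat.pos_of_ne_zero (S.nf.nd.div_ne m1)
    have hd : pe e ∣ cof (e.1 / (ue e).A) (e.2 / (ue e).A) := by
      rw [TFe.div1 S.e1, cof1 TFe.pr (TFe.d0 _ S.e2).2.2]
      exact dvd_mul_right _ _
    rw [← c1]
    exact S.hP.trans (Nat.le_of_dvd (cof_pos q1) hd)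
  set M : ℝ := u.c * ∑ q ∈ T, w X.ψ q with hMd
  have hsub : ∀ T' ⊆ T, ∑ q ∈ T', wA u.A (RB X u) q ≤ M := fun T' hT' =>
    (Finset.sum_le_sum_of_subset_of_nonneg hT' fun q hq _ => G.wA0 q hq).trans G.hM
  set κ : ℝ := Real.log P ^ (-s) with hκ
  have hκ0 : 0 ≤ κ := Real.rpow_nonneg hl0.le _
  rw [hsum]
  -- the numbers
  set η : ℝ := Real.exp (-(Real.log P ^ (4/5:ℝ))) with hη
  have hη0 : 0 < η := Real.exp_pos _
  have hηe : ∀ e ∈ E, etaL X.c.wp (pe e) ≤ η := fun e he => by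
    obtain ⟨g1, g2, g3, g4⟩ := hcol e he
    have hdep := hX.dep (pe e) g3 g4
    have h8 : etaL X.c.wp (pe e) ≤ Real.exp (-(Real.log (pe e) ^ (4/5:ℝ))) := by
      unfold etaL
      rw [Real.exp_neg, ← one_div, div_le_div_iff₀ (by positivity) (Real.exp_pos _)]
      linarith
    refine h8.trans (Real.exp_le_exp.2 (neg_le_neg ?_))
    refine Real.rpow_le_rpow hl0.le ?_ (by norm_num)
    exact Real.log_le_log hPR (by exact_mod_cast g1)
  have hsq0 : 0 < (P:ℝ) ^ (1/4:ℝ) := Real.rpow_pos_of_pos hPR _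
  have hsqp : (P:ℝ) ^ (1/4:ℝ) * (P:ℝ) ^ (3/4:ℝ) = P := by
    rw [← Real.rpow_add hPR]; norm_num
  have hηp' : (P:ℝ) ^ (3/4:ℝ) ≤ η * P := by
    have e1 : η * Real.exp (Real.log P ^ (4/5:ℝ)) = 1 := by
      rw [hη, ← Real.exp_add]; simp
    have h34 : 0 < (P:ℝ) ^ (3/4:ℝ) := Real.rpow_pos_of_pos hPR _
    calc (P:ℝ) ^ (3/4:ℝ) = (η * Real.exp (Real.log P ^ (4/5:ℝ))) * (P:ℝ) ^ (3/4:ℝ) := by
          rw [e1, one_mul]
      _ = η * (Real.exp (Real.log P ^ (4/5:ℝ)) * (P:ℝ) ^ (3/4:ℝ)) := by ring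
      _ ≤ η * ((P:ℝ) ^ (1/4:ℝ) * (P:ℝ) ^ (3/4:ℝ)) :=
          mul_le_mul_of_nonneg_left (mul_le_mul_of_nonneg_right n3 h34.le) hη0.le
      _ = η * P := by rw [hsqp]
  have h2P : ((2 * P : ℕ):ℝ) ^ (1/2:ℝ) ≤ (P:ℝ) ^ (3/4:ℝ) := by
    have h16 : (16:ℝ) ≤ P := by exact_mod_cast n1
    have e1 : (P:ℝ) ^ (3/4:ℝ) = (P:ℝ) ^ (1/4:ℝ) * (P:ℝ) ^ (1/2:ℝ) := by
      rw [← Real.rpow_add hPR]; norm_num
    have e2 : (2:ℝ) ≤ (P:ℝ) ^ (1/4:ℝ) := by
      calc (2:ℝ) = (16:ℝ) ^ (1/4:ℝ) := by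
            rw [show (16:ℝ) = 2 ^ (4:ℝ) by norm_num, ← Real.rpow_mul (by norm_num)]
            norm_num
        _ ≤ (P:ℝ) ^ (1/4:ℝ) := Real.rpow_le_rpow (by norm_num) h16 (by norm_num)
    rw [e1]
    push_cast
    rw [Real.mul_rpow (by norm_num) hPR.le]
    refine mul_le_mul_of_nonneg_right ?_ (Real.rpow_nonneg hPR.le _)
    refine le_trans ?_ e2
    calc (2:ℝ) ^ (1/2:ℝ) ≤ (2:ℝ) ^ (1:ℝ) :=
          Real.rpow_le_rpow_of_exponent_le (by norm_num) (by norm_num)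
      _ = 2 := Real.rpow_one _
  set TU : Finset ℕ := T.filter fun q => ∃ e ∈ E, e.1 = q ∨ e.2 = q with hTU
  have hTUT : TU ⊆ T := Finset.filter_subset _ _
  have hEUT : E ⊆ TU ×ˢ TU := by
    intro e he
    obtain ⟨t1, t2⟩ := hET e he
    exact Finset.mem_product.2 ⟨Finset.mem_filter.2 ⟨t1, e, he, Or.inl rfl⟩,
      Finset.mem_filter.2 ⟨t2, e, he, Or.inr rfl⟩⟩
  refine le_trans (h2 P (by omega) u.A η (u.B * X.c.γ) TU E (RB X u) F
    (fun q hq => (hTF q (hTUT hq)).dvd) hη0 le_rfl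
    (le_trans (Real.one_le_rpow hPR1 (by norm_num)) hηp') hEUT
    (fun q hq => ⟨(hTF q (hTUT hq)).pos, (hTF q (hTUT hq)).R0⟩)
    (fun q hq => G.lo q (hTUT hq))
    (fun z hz q hq => G.tame z hz q (hTUT hq))
    ((hsub TU hTUT).trans G.hM2) ?_ ?_ ?_ ?_) ?_
  · intro e he
    exact Or.inl (hcofP e he)
  · intro e he
    have S := hSN e he
    obtain ⟨s1, s2⟩ := hnone e he
    have hB' : (0 : ℝ) < (ue e).B := by exact_mod_cast S.nf.nd.B_pos
    have hDA : 0 ≤ DA (ue e).A (RB X (ue e)) e := by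
      unfold DA Crest.Agent.R4.AvgItem710.Dp
      refine le_max_of_le_left ?_
      have := (hrr e.1).le
      positivity
    have key := pG_le (R := RU X) (Y := Y) (A := A) S.nf.nd S.e1 S.e2 (C := (ue e).B * X.c.γ)
      (C' := (ue e).B * X.c.γ) (δ := η * DA (ue e).A (RB X (ue e)) e) (mul_nonneg hη0.le hDA)
      fun x hx _ _ i1 i2 y a a' l1 l2 l3 l4 => by
        obtain ⟨r1, r2, r3⟩ := mem_RU.1 (mem_PNg.1 hx).1
        have g1 : x.1.1.1 ∈ (IT.br (pe e) (Spe e) (te₁ e) (te₀ e)).items :=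
          Finset.mem_union_left _ (by rw [i1]; exact S.e1)
        have g2 : x.2.1.1 ∈ (IT.br (pe e) (Spe e) (te₁ e) (te₀ e)).items :=
          Finset.mem_union_right _ (by rw [i2]; exact S.e2)
        rw [← i1] at l1 l2
        rw [← i2] at l3 l4
        have k := rel_none S.nf.nd (hcol e he).2.2.2 (hlam e he) r1 g1 g2 r2 r3 l1 l2 l3 l4
        rw [i1, i2] at k
        exact k.trans (mul_le_mul_of_nonneg_right (hηe e he) hDA)
    rw [hDAe e he, hRBe e he] at key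
    rw [hF, S.eq]
    exact key
  · intro e he _
    have S := hSN e he
    obtain ⟨j, j', hj, hj', hee, i1, i2, hR, y, a, a', o1, o2, l1, l2, l3, l4⟩ := hlink e he
    obtain ⟨hix, s1, s2⟩ := mem_RU.1 hR
    have hDA0 : 0 ≤ DA u.A (RB X u) e := by
      unfold DA Crest.Agent.R4.AvgItem710.Dp
      refine le_max_of_le_left ?_
      have := (hrr e.1).le
      have hB' : (0:ℝ) < u.B := by exact_mod_cast hB0
      positivity
    have g1 : j.1.1 ∈ (IT.br (pe e) (Spe e) (te₁ e) (te₀ e)).items :=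
      Finset.mem_union_left _ i1
    have g2 : j'.1.1 ∈ (IT.br (pe e) (Spe e) (te₁ e) (te₀ e)).items :=
      Finset.mem_union_right _ i2
    have q1 : e.1 = j.1.1 := by rw [hee]
    have q2 : e.2 = j'.1.1 := by rw [hee]
    have k := rel_none S.nf.nd (hcol e he).2.2.2 (hlam e he) hix g1 g2 s1 s2 l1 l2 l3 l4
    obtain ⟨ce1, ce2⟩ := hcofe e he
    have de := hDAe e he
    rw [← q1, ← q2, ce1, ce2, S.hB] at k
    have k2 : etaL X.c.wp (pe e) * DA (ue e).A (fun q => (u.B:ℝ) * X.c.rr q) (e.1, e.2) ≤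
        η * DA u.A (RB X u) e := by
      have e5 : DA (ue e).A (fun q => (u.B:ℝ) * X.c.rr q) (e.1, e.2) = DA u.A (RB X u) e := by
        rw [← de, hRBe e he]
      rw [e5]
      exact mul_le_mul_of_nonneg_right (hηe e he) hDA0
    exact ⟨a, a', k.trans k2⟩
  · intro q hq hthin ρ
    obtain ⟨hq1, e, he, hqe⟩ := Finset.mem_filter.1 hq
    have S := hSN e he
    have hf := hTF q hq1
    obtain ⟨s1, s2⟩ := hnone e he
    obtain ⟨m1, m2⟩ := hmem' e he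
    obtain ⟨c1, c2, c3, c4⟩ := hcol e he
    have hqs : X.c.st (pe e) q = none ∧
        q ∈ (IT.br (pe e) (Spe e) (te₁ e) (te₀ e)).items := by
      rcases hqe with h8 | h8
      · rw [← h8]; exact ⟨s1, m1⟩
      · rw [← h8]; exact ⟨s2, m2⟩
    have hR : RB X u q = u.B * X.c.r q := by
      show (u.B:ℝ) * X.c.rr q = _
      rw [hf.rr]
    have key := st_noneB (τ := .br (pe e) (Spe e) (te₁ e) (te₀ e)) S.nf.nd X.tOk (by simp [isL])
      hqs.2 (wp := X.c.wp) (wpL := X.c.wpL) (lv := X.c.lv) (γ := X.c.γ) (r := X.c.r)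
      (hlam e he) hqs.1 ?_ ρ
    · rw [S.hB, ← hR] at key
      exact key
    · rw [S.hB, ← hR]
      have hthr := hX.thr (pe e) c3
      refine le_trans ?_ hthr
      have h7 : RB X u q * (P:ℝ) ^ (3/4:ℝ) ≤ 1 :=
        (mul_le_mul_of_nonneg_left hηp' hf.R0.le).trans hthin
      have hpeR : (0:ℝ) < (pe e : ℝ) := by exact_mod_cast (by omega : 0 < pe e)
      have h8 : ((pe e : ℕ):ℝ) ^ (1/2:ℝ) ≤ (P:ℝ) ^ (3/4:ℝ) := by
        refine le_trans (Real.rpow_le_rpow hpeR.le ?_ (by norm_num)) h2P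
        exact_mod_cast c2.le
      have h9 : RB X u q * ((pe e : ℕ):ℝ) ^ (1/2:ℝ) ≤ 1 :=
        (mul_le_mul_of_nonneg_left h8 hf.R0.le).trans h7
      rw [Real.rpow_neg hpeR.le, ← one_div, le_div_iff₀ (Real.rpow_pos_of_pos hpeR _)]
      exact h9
  · exact mul_le_mul_of_nonneg_left (hsub TU hTUT) hκ0

/-- the block hypothesis of `RtG28` for the unlabelled pairs -/
theorem chBU (N : Skel189.Num) (s : ℝ) : ∃ p₁ : ℕ, ∀ p0 ≥ p₁, ∀ (γ : ℝ) (P₀ : ℕ), 2 ≤ P₀ →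
    ∀ X : Ctx N γ p0 P₀, RseH X → ∀ (Y : Finset (ℕ × ℕ × Finset ℕ)) (A : Finset X.c.Lam),
    ChB X (RU X) Y A s := by
  obtain ⟨p1, h1⟩ := chainU N s
  obtain ⟨p2, h2⟩ := blkF N
  refine ⟨2 * (p1 + p2), fun p0 hp0 γ P₀ hP₀ X hX Y A P hP u τ hA hl hPt htP => ?_⟩
  have k1 := h1 P (by omega) p0 (by omega) γ P₀ hP₀ X hX Y u τ hA hl hPt htP A
  have G := h2 P (by omega) p0 (by omega) γ P₀ hP₀ X u τ hA.self hl hPt htP A
  exact k1.trans (mul_le_mul_of_nonneg_left G.hMn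
    (Real.rpow_nonneg (Real.log_natCast_nonneg P) _))

/-- **root bound of the kernel** "one index, real state `none`" -/
theorem pn_rootU (N : Skel189.Num) {s A' : ℝ} (hs : 0 ≤ s) (hA' : 0 ≤ A') : ∃ p₁ : ℕ, ∀ p0 ≥ p₁,
    ∀ (γ : ℝ) (P₀ : ℕ), 2 ≤ P₀ → ∀ X : Ctx N γ p0 P₀, RseH X → ∀ j₀ : X.c.Lam,
    All (fun u τ => pn (KR (RU X) s) (X.self u τ Finset.univ).t ≤
      Real.log p0 ^ (-A') * X.mu j₀ u τ Finset.univ) ⟨top X.S, 1, 1, 1⟩ X.c.t := by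
  obtain ⟨p1, h1⟩ := pn_rootG N hs hA'
  obtain ⟨p2, h2⟩ := chBU N (s + N.B + A' + 5)
  refine ⟨p1 + p2, fun p0 hp0 γ P₀ hP₀ X hX j₀ => ?_⟩
  exact h1 p0 (by omega) γ P₀ hP₀ X (RU X) _ le_rfl
    (h2 p0 (by omega) γ P₀ hP₀ X hX X.Y Finset.univ) j₀

/-- **the target** : the unlabelled P|N pairs of one index -/
def TgtPNU (N : Skel189.Num) (γ : ℝ) : Prop :=
  ∀ s A' : ℝ, 0 ≤ s → 0 ≤ A' → Ev N γ fun p0 P₀ (X : Ctx N γ p0 P₀) =>
    CF X → ∀ j₀ : X.c.Lam,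
    All (fun u τ => pn (KR (RU X) s) (X.self u τ Finset.univ).t ≤
      Real.log p0 ^ (-A') * X.mu j₀ u τ Finset.univ) ⟨top X.S, 1, 1, 1⟩ X.c.t

theorem tgtPNU (N : Skel189.Num) (γ : ℝ) : TgtPNU N γ := by
  intro s A' hs hA'
  obtain ⟨p1, h1⟩ := pn_rootU N hs hA'
  exact ⟨p1, fun p0 hp0 => ⟨2, fun P₀ hP₀ X hC j₀ => h1 p0 hp0 γ P₀ hP₀ X hC.rse j₀⟩⟩

end Crest.Agent.R4P.RtU28
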