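import Crest.Agent.R4P.RtF_28
import Crest.Agent.R4P.GcdU_37

/-!
R4 (S0004), powers pass, helper28: **energies of a tie, no smoothness** (over `RtF_28`, `GcdU_37`).

The numbers of a node contain retained primes; the counted family only needs the tail hypothesis
`Tl P ((3 + log P)^2)` of `GcdU_37`.

* `same_min` : one label, one family counted.
* `diff_min` : two labels, one family counted.
* **`tie_min`** : many labels, relation `RtE28.RlT` (one side late), kernel `min (R i / D) (R' j / D')` :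
  `(2 / √U0 + C Lp^(-δ/16)) (∑ R + ∑ R')`.
-/

set_option autoImplicit false
set_option linter.unusedVariables false

open Finset

namespace Crest.Agent.R4P.RtV28

open Crest.Agent.R4P.GcdK37 Crest.Agent.R4P.GcdW41 Crest.Agent.R4P.GcdS37 Crest.Agent.R4P.RtE28
open Crest.Agent.R4P.RtF28
open Crest.Agent.R4P.AcG41 (Fam dt_spec one_type dt)
open Crest.Agent.R4P.GcdU37 (Tl late2M)
open Crest.Agent.R4.HVW560 (wn)
open Crest.Agent.R4P.ShR18 (Co)

/-- the width of the tails -/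
noncomputable def tw (P : ℕ) : ℝ := (3 + Real.log P) ^ (2 : ℝ)

lemma tw_one (P : ℕ) : 1 ≤ tw P :=
  Real.one_le_rpow (by linarith [Real.log_natCast_nonneg P]) (by norm_num)

open Classical in
/-- splitting by two predicates -/
lemma split3 {ι κ : Type} {F : Finset ι} {G : Finset κ} {f : ι → κ → ℝ}
    (hf : ∀ i ∈ F, ∀ j ∈ G, 0 ≤ f i j) (P : ι → Prop)
    (P' : κ → Prop) (h : ∀ i ∈ F, ∀ j ∈ G, f i j ≠ 0 → P i ∨ P' j) :
    ∑ i ∈ F, ∑ j ∈ G, f i j ≤ ∑ i ∈ F.filter P, ∑ j ∈ G, f i j +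
      ∑ i ∈ F, ∑ j ∈ G.filter P', f i j := by
  rw [Finset.sum_filter]
  rw [← Finset.sum_add_distrib]
  refine Finset.sum_le_sum fun i hi => ?_
  rw [Finset.sum_filter]
  by_cases hP : P i
  · rw [if_pos hP]
    have : 0 ≤ ∑ j ∈ G, (if P' j then f i j else 0) := Finset.sum_nonneg fun j hj => by
      split_ifs
      · exact hf i hi j hj
      · exact le_rfl
    linarith
  · rw [if_neg hP, zero_add]
    refine Finset.sum_le_sum fun j hj => ?_
    split_ifs with h1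
    · exact le_rfl
    · by_contra h2
      have h3 : f i j ≠ 0 := fun h0 => h2 h0.le
      rcases h i hi j hj h3 with h4 | h4
      · exact hP h4
      · exact h1 h4

/-- **one label, one of the families counted** -/
theorem same_min {A : ℝ} (hA : 0 ≤ A) : ∃ c0 : ℝ, 1 ≤ c0 ∧ ∃ C : ℝ, 1 ≤ C ∧ ∀ (ι κ : Type) (P c k : ℕ) (U0 : ℝ)
    (F : Finset ι) (G : Finset κ) (e : ι → ℕ) (e' : κ → ℕ) (R : ι → ℝ) (R' : κ → ℝ),
    2 ≤ P → c.Prime → 0 < k → 1 ≤ U0 → (3 + Real.log P) ^ c0 ≤ k →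
    (((F.card : ℝ) ≤ (k : ℝ) ^ A ∧ Tl P (tw P) F e) ∨
      ((G.card : ℝ) ≤ (k : ℝ) ^ A ∧ Tl P (tw P) G e')) →
    Fam F G e e' R R' → (∀ j ∈ G, ¬ c ∣ e' j) →
    ∑ i ∈ F, ∑ j ∈ G, ind ((U0 ≤ (rd (e i) (e' j)).1 ∨ U0 ≤ (rd (e i) (e' j)).2) ∧
        c * (rd (e i) (e' j)).1 ≡ (rd (e i) (e' j)).2 [MOD k]) * mn e e' R R' i j ≤
      (1 / √U0 + C * (k : ℝ) ^ (-(1 / 16) : ℝ)) * (∑ i ∈ F, R i + ∑ j ∈ G, R' j) := by
  classical
  obtain ⟨Ce, hCe, C, hC, h⟩ := late2M (A := 2 * A) (M := 1 / 8) (by linarith) (by norm_num)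
  refine ⟨2 * Ce + 4, by linarith, C + 2, by linarith, ?_⟩
  intro ι κ P c k U0 F G e e' R R' hP hcp hk hU0 hPk hcard hf hcG
  have hk0 : (0:ℝ) < k := by exact_mod_cast hk
  have hk1 : (1:ℝ) ≤ k := by exact_mod_cast hk
  have hS0 : 0 ≤ ∑ i ∈ F, R i := Finset.sum_nonneg hf.rF
  have hT0 : 0 ≤ ∑ j ∈ G, R' j := Finset.sum_nonneg hf.rG
  have hmn : ∀ i ∈ F, ∀ j ∈ G, 0 ≤ mn e e' R R' i j := fun i hi j hj =>
    mn_nn hf.rF hf.rG hi hj
  by_cases hck : c ∣ k
  · rw [Finset.sum_eq_zero]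
    · positivity
    · intro i hi
      refine Finset.sum_eq_zero fun j hj => ?_
      rw [ind_f, zero_mul]
      rintro ⟨-, h2⟩
      have h3 : c ∣ (rd (e i) (e' j)).2 := by
        have := (h2.of_dvd hck).dvd_iff (dvd_refl c)
        exact this.1 (dvd_mul_right _ _)
      exact hcG j hj (h3.trans (Nat.div_dvd_of_dvd (Nat.gcd_dvd_right _ _)))
  have hcop : c.Coprime k := (Nat.Prime.coprime_iff_not_dvd hcp).2 hck
  set U : ℝ := (k : ℝ) ^ (1 / 2 : ℝ) with hU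
  have hU1 : 1 ≤ U := Real.one_le_rpow hk1 (by norm_num)
  have hU0' : 0 < U := by linarith
  have hU2 : U * U = k := by
    rw [hU, ← Real.rpow_add hk0]; norm_num
  have hUk : U ≤ k := by nlinarith
  -- the large pairs
  have hlP : 0 ≤ Real.log P := Real.log_natCast_nonneg P
  have h3P : (1:ℝ) ≤ 3 + Real.log P := by linarith
  have hpw : ∀ x : ℝ, 2 * x ≤ 2 * Ce + 4 → (3 + Real.log P) ^ x ≤ U := by
    intro x hx
    have h2 : ((3 + Real.log P) ^ (2 * x)) ^ (1 / 2 : ℝ) ≤ U := by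
      refine Real.rpow_le_rpow (by positivity) ?_ (by norm_num)
      exact (Real.rpow_le_rpow_of_exponent_le h3P hx).trans hPk
    rw [← Real.rpow_mul (by linarith)] at h2
    have e1 : 2 * x * (1 / 2) = x := by ring
    rwa [e1] at h2
  have hbig : ∑ i ∈ F, ∑ j ∈ G, ind ((U ≤ (rd (e i) (e' j)).1 ∨ U ≤ (rd (e i) (e' j)).2) ∧
        c * (rd (e i) (e' j)).1 ≡ (rd (e i) (e' j)).2 [MOD k]) * mn e e' R R' i j ≤
      C * U ^ (-(1 / 8) : ℝ) * (√(∑ i ∈ F, R i) * √(∑ j ∈ G, R' j)) +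
        2 * U ^ (-(1 / 8) : ℝ) * (∑ i ∈ F, R i + ∑ j ∈ G, R' j) := by
    refine h ι κ P U (fun t => (U ≤ t.1 ∨ U ≤ t.2) ∧ c * t.1 ≡ t.2 [MOD k]) F G e e' R R' hP
      (hpw Ce (by linarith)) ?_ (fun z K Q hz hK hq => lin_pairs hK hz hk hcop hU1 hUk Q fun t ht =>
        ⟨(hq t ht).1, (hq t ht).2.2⟩) hf
    have hAA : (k:ℝ) ^ A ≤ U ^ (2 * A) := by
      rw [hU, ← Real.rpow_mul hk0.le]
      refine le_of_eq ?_
      congr 1; ring
    have htw : tw P ≤ U := hpw 2 (by linarith)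
    rcases hcard with ⟨h1, h2⟩ | ⟨h1, h2⟩
    · exact Or.inl ⟨h1.trans hAA, h2.mono htw⟩
    · exact Or.inr ⟨h1.trans hAA, h2.mono htw⟩
  have hUe : U ^ (-(1 / 8) : ℝ) = (k : ℝ) ^ (-(1 / 16) : ℝ) := by
    rw [hU, ← Real.rpow_mul hk0.le]
    congr 1; norm_num
  -- the small pairs
  have hsm : ∑ i ∈ F, ∑ j ∈ G, ind ((U0 ≤ (rd (e i) (e' j)).1 ∨ U0 ≤ (rd (e i) (e' j)).2) ∧
        ((rd (e i) (e' j)).1 : ℝ) < U ∧ ((rd (e i) (e' j)).2 : ℝ) < U ∧
        c * (rd (e i) (e' j)).1 ≡ (rd (e i) (e' j)).2 [MOD k]) * mn e e' R R' i j ≤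
      1 / √U0 * (√(∑ i ∈ F, R i) * √(∑ j ∈ G, R' j)) := by
    by_cases hex : ∃ i ∈ F, ∃ j ∈ G, (U0 ≤ (rd (e i) (e' j)).1 ∨ U0 ≤ (rd (e i) (e' j)).2) ∧
        ((rd (e i) (e' j)).1 : ℝ) < U ∧ ((rd (e i) (e' j)).2 : ℝ) < U ∧
        c * (rd (e i) (e' j)).1 ≡ (rd (e i) (e' j)).2 [MOD k]
    · obtain ⟨i0, hi0, j0, hj0, b0, b1, b2, b3⟩ := hex
      set t0 := rd (e i0) (e' j0) with ht0
      have s0 := dt_spec (hf.pF i0 hi0) (hf.pG j0 hj0)
      have key := one_type hf t0 ⟨s0.1, s0.2.1⟩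
      have hpos : (0:ℝ) < (t0.1 : ℝ) * t0.2 :=
        mul_pos (by exact_mod_cast s0.1) (by exact_mod_cast s0.2.1)
      have hle : U0 ≤ (t0.1 : ℝ) * t0.2 := by
        have c1 : (1:ℝ) ≤ t0.1 := by exact_mod_cast s0.1
        have c2 : (1:ℝ) ≤ t0.2 := by exact_mod_cast s0.2.1
        rcases b0 with b0 | b0
        · nlinarith
        · nlinarith
      have hst : ∀ i ∈ F, ∀ j ∈ G,
          ind ((U0 ≤ (rd (e i) (e' j)).1 ∨ U0 ≤ (rd (e i) (e' j)).2) ∧
            ((rd (e i) (e' j)).1 : ℝ) < U ∧ ((rd (e i) (e' j)).2 : ℝ) < U ∧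
            c * (rd (e i) (e' j)).1 ≡ (rd (e i) (e' j)).2 [MOD k]) * mn e e' R R' i j ≤
          1 / √U0 * (ind (dt (e i) (e' j) = t0) * (√(R i) * √(R' j))) := by
        intro i hi j hj
        by_cases hR : (U0 ≤ (rd (e i) (e' j)).1 ∨ U0 ≤ (rd (e i) (e' j)).2) ∧
            ((rd (e i) (e' j)).1 : ℝ) < U ∧ ((rd (e i) (e' j)).2 : ℝ) < U ∧
            c * (rd (e i) (e' j)).1 ≡ (rd (e i) (e' j)).2 [MOD k]
        · rw [ind_t hR, one_mul]
          obtain ⟨-, d1, d2, d3⟩ := hR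
          have s1 := dt_spec (hf.pF i hi) (hf.pG j hj)
          have hl : ∀ a b : ℕ, (a:ℝ) < U → (b:ℝ) < U → a * b < k := by
            intro a b ha hb
            have : (a:ℝ) * b < k := by
              rw [← hU2]
              exact mul_lt_mul'' ha hb (Nat.cast_nonneg _) (Nat.cast_nonneg _)
            exact_mod_cast this
          have heq : rd (e i) (e' j) = t0 := small_unique hk d3 b3 s1.2.2.1 s0.2.2.1
            ⟨s1.1, s1.2.1⟩ ⟨s0.1, s0.2.1⟩ (hl _ _ d2 b1) (hl _ _ b2 d1)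
          have heq' : dt (e i) (e' j) = t0 := heq
          rw [ind_t heq', one_mul]
          refine (mn_le_ov hf.rF hf.rG hi hj).trans ?_
          unfold ov
          rw [heq]
          have r1 := hf.rF i hi
          have r2 := hf.rG j hj
          have e1 : R i / (t0.1 : ℝ) * (R' j / (t0.2 : ℝ)) =
              (R i * R' j) / ((t0.1 : ℝ) * t0.2) := by rw [div_mul_div_comm]
          rw [e1, Real.sqrt_div (mul_nonneg r1 r2), Real.sqrt_mul r1, div_eq_mul_one_div,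
            mul_comm]
          refine mul_le_mul_of_nonneg_right ?_ (by positivity)
          exact one_div_le_one_div_of_le (Real.sqrt_pos.2 (by linarith)) (Real.sqrt_le_sqrt hle)
        · rw [ind_f hR, zero_mul]
          exact mul_nonneg (by positivity) (mul_nonneg (ind_nn _) (by positivity))
      calc _ ≤ ∑ i ∈ F, ∑ j ∈ G, 1 / √U0 * (ind (dt (e i) (e' j) = t0) * (√(R i) * √(R' j))) :=
            Finset.sum_le_sum fun i hi => Finset.sum_le_sum fun j hj => hst i hi j hj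
        _ = 1 / √U0 * ∑ i ∈ F, ∑ j ∈ G, ind (dt (e i) (e' j) = t0) * (√(R i) * √(R' j)) := by
            rw [Finset.mul_sum]
            exact Finset.sum_congr rfl fun i _ => by rw [Finset.mul_sum]
        _ ≤ _ := mul_le_mul_of_nonneg_left key (by positivity)
    · push Not at hex
      rw [Finset.sum_eq_zero]
      · positivity
      · intro i hi
        refine Finset.sum_eq_zero fun j hj => ?_
        rw [ind_f, zero_mul]
        rintro ⟨a1, a2, a3, a4⟩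
        exact hex i hi j hj a1 a2 a3 a4
  -- the sum
  have hsplit : ∀ i ∈ F, ∀ j ∈ G,
      ind ((U0 ≤ (rd (e i) (e' j)).1 ∨ U0 ≤ (rd (e i) (e' j)).2) ∧
        c * (rd (e i) (e' j)).1 ≡ (rd (e i) (e' j)).2 [MOD k]) * mn e e' R R' i j ≤
      ind ((U0 ≤ (rd (e i) (e' j)).1 ∨ U0 ≤ (rd (e i) (e' j)).2) ∧
        ((rd (e i) (e' j)).1 : ℝ) < U ∧ ((rd (e i) (e' j)).2 : ℝ) < U ∧
        c * (rd (e i) (e' j)).1 ≡ (rd (e i) (e' j)).2 [MOD k]) * mn e e' R R' i j +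
      ind ((U ≤ (rd (e i) (e' j)).1 ∨ U ≤ (rd (e i) (e' j)).2) ∧
        c * (rd (e i) (e' j)).1 ≡ (rd (e i) (e' j)).2 [MOD k]) * mn e e' R R' i j := by
    intro i hi j hj
    rw [← add_mul]
    refine mul_le_mul_of_nonneg_right ?_ (hmn i hi j hj)
    by_cases hR : (U0 ≤ (rd (e i) (e' j)).1 ∨ U0 ≤ (rd (e i) (e' j)).2) ∧
        c * (rd (e i) (e' j)).1 ≡ (rd (e i) (e' j)).2 [MOD k]
    · rw [ind_t hR]
      by_cases h1 : U ≤ (rd (e i) (e' j)).1 ∨ U ≤ (rd (e i) (e' j)).2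
      · rw [ind_t (⟨h1, hR.2⟩ : _ ∧ _)]
        linarith [ind_nn ((U0 ≤ (rd (e i) (e' j)).1 ∨ U0 ≤ (rd (e i) (e' j)).2) ∧
          ((rd (e i) (e' j)).1 : ℝ) < U ∧ ((rd (e i) (e' j)).2 : ℝ) < U ∧
          c * (rd (e i) (e' j)).1 ≡ (rd (e i) (e' j)).2 [MOD k])]
      · push Not at h1
        rw [ind_t (⟨hR.1, h1.1, h1.2, hR.2⟩ : _ ∧ _ ∧ _ ∧ _)]
        linarith [ind_nn ((U ≤ (rd (e i) (e' j)).1 ∨ U ≤ (rd (e i) (e' j)).2) ∧
          c * (rd (e i) (e' j)).1 ≡ (rd (e i) (e' j)).2 [MOD k])]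
    · rw [ind_f hR]
      exact add_nonneg (ind_nn _) (ind_nn _)
  refine (Finset.sum_le_sum fun i hi => Finset.sum_le_sum fun j hj => hsplit i hi j hj).trans ?_
  simp only [Finset.sum_add_distrib]
  have h6 : 1 / √U0 * (√(∑ i ∈ F, R i) * √(∑ j ∈ G, R' j)) ≤
      1 / √U0 * (∑ i ∈ F, R i + ∑ j ∈ G, R' j) :=
    mul_le_mul_of_nonneg_left (sqrt_le_add hS0 hT0) (by positivity)
  have h8 : √(∑ i ∈ F, R i) * √(∑ j ∈ G, R' j) ≤ ∑ i ∈ F, R i + ∑ j ∈ G, R' j :=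
    sqrt_le_add hS0 hT0
  rw [hUe] at hbig
  have hK0 : 0 ≤ (k : ℝ) ^ (-(1 / 16) : ℝ) := by positivity
  have h7 := mul_le_mul_of_nonneg_left h8 (mul_nonneg (by linarith : 0 ≤ C) hK0)
  rw [add_mul]
  nlinarith

/-- **two labels, one of the families counted** -/
theorem diff_min {A δ : ℝ} (hA : 0 ≤ A) (hδ : 0 < δ) : ∃ c0 : ℝ, 1 ≤ c0 ∧ ∃ C : ℝ, 1 ≤ C ∧
    ∀ (ι κ : Type) (P : ℕ) (ρ ρ' : ℚ) (K : ℝ) (F : Finset ι) (G : Finset κ) (e : ι → ℕ) (e' : κ → ℕ)
    (R : ι → ℝ) (R' : κ → ℝ), 2 ≤ P → 1 ≤ K → (3 + Real.log P) ^ c0 ≤ K →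
    (K ^ δ * ρ.den ≤ ρ'.den ∨ K ^ δ * ρ'.den ≤ ρ.den) →
    (((F.card : ℝ) ≤ K ^ A ∧ Tl P (tw P) F e) ∨ ((G.card : ℝ) ≤ K ^ A ∧ Tl P (tw P) G e')) →
    Fam F G e e' R R' →
    ∑ i ∈ F, ∑ j ∈ G, ind (Co (((rd (e i) (e' j)).2 : ℕ) * ρ) (((rd (e i) (e' j)).1 : ℕ) * ρ')) *
      mn e e' R R' i j ≤
      C * K ^ (-(δ / 8) : ℝ) * (∑ i ∈ F, R i + ∑ j ∈ G, R' j) := by
  classical
  obtain ⟨Ce, hCe, C, hC, h⟩ := late2M (A := A / δ) (M := 1 / 8) (by positivity) (by norm_num)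
  have hc1 : 0 ≤ Ce / δ := by positivity
  have hc2 : 0 ≤ 2 / δ := by positivity
  refine ⟨Ce / δ + 2 / δ + 1, by linarith, C + 2, by linarith, ?_⟩
  intro ι κ P ρ ρ' K F G e e' R R' hP hK hPK hr hcard hf
  have hK0 : 0 < K := by linarith
  have hS0 : 0 ≤ ∑ i ∈ F, R i := Finset.sum_nonneg hf.rF
  have hT0 : 0 ≤ ∑ j ∈ G, R' j := Finset.sum_nonneg hf.rG
  set U : ℝ := K ^ δ with hU
  have hU1 : 1 ≤ U := Real.one_le_rpow hK hδ.le
  have hlP : 0 ≤ Real.log P := Real.log_natCast_nonneg P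
  have h3P : (1:ℝ) ≤ 3 + Real.log P := by linarith
  have hpw : ∀ x : ℝ, x / δ ≤ Ce / δ + 2 / δ + 1 → (3 + Real.log P) ^ x ≤ U := by
    intro x hx
    have h2 : ((3 + Real.log P) ^ (x / δ)) ^ δ ≤ U := by
      refine Real.rpow_le_rpow (by positivity) ?_ hδ.le
      exact (Real.rpow_le_rpow_of_exponent_le h3P hx).trans hPK
    rw [← Real.rpow_mul (by linarith)] at h2
    have e1 : x / δ * δ = x := by field_simp
    rwa [e1] at h2
  have hUA : U ^ (A / δ) = K ^ A := by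
    rw [hU, ← Real.rpow_mul hK0.le]; congr 1; field_simp
  have hUe : U ^ (-(1 / 8) : ℝ) = K ^ (-(δ / 8) : ℝ) := by
    rw [hU, ← Real.rpow_mul hK0.le]; congr 1; ring
  have key := h ι κ P U (fun t => Co ((t.2 : ℕ) * ρ) ((t.1 : ℕ) * ρ')) F G e e' R R' hP
    (hpw Ce (by linarith)) ?_
    (fun z K Q hz hK hq => diff_pairs hK hz hU1 hr Q fun t ht => ⟨(hq t ht).1, (hq t ht).2.2⟩) hf
  · rw [hUe] at key
    refine key.trans ?_
    have h8 : √(∑ i ∈ F, R i) * √(∑ j ∈ G, R' j) ≤ ∑ i ∈ F, R i + ∑ j ∈ G, R' j :=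
      sqrt_le_add hS0 hT0
    have hKp : 0 ≤ K ^ (-(δ / 8) : ℝ) := by positivity
    have h7 := mul_le_mul_of_nonneg_left h8 (mul_nonneg (by linarith : 0 ≤ C) hKp)
    nlinarith
  · have htw : tw P ≤ U := hpw 2 (by linarith)
    rw [hUA]
    rcases hcard with ⟨h1, h2⟩ | ⟨h1, h2⟩
    · exact Or.inl ⟨h1, h2.mono htw⟩
    · exact Or.inr ⟨h1, h2.mono htw⟩

/-! ### many labels -/

/-- **energies of the relation of a tie, no smoothness** -/
theorem tie_min {A δ : ℝ} (hA : 0 ≤ A) (hδ : 0 < δ) (hδ1 : δ ≤ 1) : ∃ c0 : ℝ, 1 ≤ c0 ∧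
    ∃ C : ℝ, 1 ≤ C ∧ ∀ (ι κ : Type) (P c : ℕ) (Lp U0 : ℝ) (F : Finset ι) (G : Finset κ) (e : ι → ℕ) (e' : κ → ℕ)
    (R : ι → ℝ) (R' : κ → ℝ) (ρ : ι → ℚ) (ρ' : κ → ℚ) (Rl : ι → κ → Prop),
    2 ≤ P → c.Prime → 1 ≤ U0 → (3 + Real.log P) ^ c0 ≤ Lp →
    ∑ i ∈ F, R i ≤ Lp → ∑ j ∈ G, R' j ≤ Lp →
    Fam F G e e' R R' → (∀ j ∈ G, ¬ c ∣ e' j) → Tl P (tw P) F e → Tl P (tw P) G e' →
    (∀ i ∈ F, ∀ j ∈ G, Rl i j → RlT c Lp U0 A δ e e' R R' ρ ρ' i j) →
    ((∀ i ∈ F, ∀ j ∈ G, Rl i j → ρ' j = c * ρ i) ∨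
      (∑ r ∈ (F.image ρ).filter (fun r => Lp ≤ r.den), (r.den : ℝ) ^ (-(δ / 16)) ≤ 1 ∧
        ∑ r ∈ (G.image ρ').filter (fun r => Lp ≤ r.den), (r.den : ℝ) ^ (-(δ / 16)) ≤ 1)) →
    ∑ i ∈ F, ∑ j ∈ G, ind (Rl i j) * mn e e' R R' i j ≤
      (2 / √U0 + C * Lp ^ (-(δ / 16))) * (∑ i ∈ F, R i + ∑ j ∈ G, R' j) := by
  classical
  obtain ⟨c1, hc1, C1, hC1, h1⟩ := same_min (A := A + 1) (by linarith)
  obtain ⟨c2, hc2, C2, hC2, h2⟩ := diff_min (A := A + 1) (by linarith) hδ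
  refine ⟨c1 + c2, by linarith, 2 * C1 + 2 * C2, by linarith, ?_⟩
  intro ι κ P c Lp U0 F G e e' R R' ρ ρ' Rl hP hc hU0 hPL hSR hSR' hf hcG hTF hTG hRl hlac
  have hlP : 0 ≤ Real.log P := Real.log_natCast_nonneg P
  have h3P : (1:ℝ) ≤ 3 + Real.log P := by linarith
  have hP1 : (3 + Real.log P) ^ c1 ≤ Lp :=
    (Real.rpow_le_rpow_of_exponent_le h3P (by linarith)).trans hPL
  have hP2 : (3 + Real.log P) ^ c2 ≤ Lp :=
    (Real.rpow_le_rpow_of_exponent_le h3P (by linarith)).trans hPL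
  have hLp1 : 1 < Lp := by
    have e1 : (3 + Real.log P) ^ (1:ℝ) ≤ Lp :=
      (Real.rpow_le_rpow_of_exponent_le h3P (by linarith)).trans hPL
    rw [Real.rpow_one] at e1
    linarith
  have hLp0 : 0 < Lp := by linarith
  set S := ∑ i ∈ F, R i with hS
  set T := ∑ j ∈ G, R' j with hT
  have hS0 : 0 ≤ S := Finset.sum_nonneg hf.rF
  have hT0 : 0 ≤ T := Finset.sum_nonneg hf.rG
  set Fr : ℚ → Finset ι := fun r => F.filter fun i => ρ i = r with hFr
  set Gr : ℚ → Finset κ := fun r => G.filter fun j => ρ' j = r with hGr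
  have hFrF : ∀ r, Fr r ⊆ F := fun r => Finset.filter_subset _ _
  have hGrG : ∀ r, Gr r ⊆ G := fun r => Finset.filter_subset _ _
  have hmn : ∀ i ∈ F, ∀ j ∈ G, 0 ≤ mn e e' R R' i j := fun i hi j hj =>
    mn_nn hf.rF hf.rG hi hj
  have hSr0 : ∀ r, 0 ≤ ∑ i ∈ Fr r, R i := fun r => Finset.sum_nonneg fun i hi => hf.rF i (hFrF r hi)
  have hTr0 : ∀ r, 0 ≤ ∑ j ∈ Gr r, R' j := fun r => Finset.sum_nonneg fun j hj =>
    hf.rG j (hGrG r hj)
  -- one pair of labels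
  have hone : ∀ r r' : ℚ, Lp ≤ r.den → ∀ g : ι → κ → Prop,
      (∀ i ∈ Fr r, ∀ j ∈ Gr r', g i j → Rl i j) → ∀ B : ℝ, 0 ≤ B →
      (∀ (F' : Finset ι) (G' : Finset κ), F' ⊆ Fr r → G' ⊆ Gr r' →
        (((F'.card : ℝ) ≤ KK r r' ^ (A + 1) ∧ Tl P (tw P) F' e) ∨
          ((G'.card : ℝ) ≤ KK r r' ^ (A + 1) ∧ Tl P (tw P) G' e')) →
        ∑ i ∈ F', ∑ j ∈ G', ind (g i j) * mn e e' R R' i j ≤
          B * (∑ i ∈ F', R i + ∑ j ∈ G', R' j)) →
      ∑ i ∈ Fr r, ∑ j ∈ Gr r', ind (g i j) * mn e e' R R' i j ≤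
        2 * B * (∑ i ∈ Fr r, R i + ∑ j ∈ Gr r', R' j) := by
    intro r r' hr g hgR B hB0 hB
    have hK1 := KK_one r r'
    have hK0 : 0 < KK r r' := by linarith
    have hKL : Lp ≤ KK r r' := hr.trans (le_max_left _ _)
    have hKA : KK r r' ^ A * Lp ≤ KK r r' ^ (A + 1) := by
      rw [Real.rpow_add hK0, Real.rpow_one]
      exact mul_le_mul_of_nonneg_left hKL (by positivity)
    have hsub1 : ∑ i ∈ Fr r, R i ≤ Lp :=
      (Finset.sum_le_sum_of_subset_of_nonneg (hFrF r) fun i hi _ => hf.rF i hi).trans hSR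
    have hsub2 : ∑ j ∈ Gr r', R' j ≤ Lp :=
      (Finset.sum_le_sum_of_subset_of_nonneg (hGrG r') fun i hi _ => hf.rG i hi).trans hSR'
    have s1 := split3 (F := Fr r) (G := Gr r') (f := fun i j => ind (g i j) * mn e e' R R' i j)
      (fun i hi j hj => mul_nonneg (ind_nn _) (hmn i (hFrF r hi) j (hGrG r' hj)))
      (fun i => 1 ≤ KK r r' ^ A * R i) (fun j => 1 ≤ KK r r' ^ A * R' j)
      (fun i hi j hj h => by
        have h0 : g i j := by
          by_contra h6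
          apply h
          show ind (g i j) * mn e e' R R' i j = 0
          rw [ind_f h6, zero_mul]
        have a2 := (hRl i (hFrF r hi) j (hGrG r' hj) (hgR i hi j hj h0)).lt
        have e1 : ρ i = r := (Finset.mem_filter.1 hi).2
        have e2 : ρ' j = r' := (Finset.mem_filter.1 hj).2
        rwa [e1, e2] at a2)
    have k1 := hB ((Fr r).filter fun i => 1 ≤ KK r r' ^ A * R i) (Gr r')
      (Finset.filter_subset _ _) (Finset.Subset.refl _) (Or.inl
        ⟨(card_late (fun i hi => hf.rF i (hFrF r hi)) (by positivity) hsub1).trans hKA,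
          hTF.sub ((Finset.filter_subset _ _).trans (hFrF r))⟩)
    have k2 := hB (Fr r) ((Gr r').filter fun j => 1 ≤ KK r r' ^ A * R' j)
      (Finset.Subset.refl _) (Finset.filter_subset _ _) (Or.inr
        ⟨(card_late (fun i hi => hf.rG i (hGrG r' hi)) (by positivity) hsub2).trans hKA,
          hTG.sub ((Finset.filter_subset _ _).trans (hGrG r'))⟩)
    have m1 : ∑ i ∈ (Fr r).filter (fun i => 1 ≤ KK r r' ^ A * R i), R i ≤ ∑ i ∈ Fr r, R i :=
      Finset.sum_le_sum_of_subset_of_nonneg (Finset.filter_subset _ _)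
        fun i hi _ => hf.rF i (hFrF r hi)
    have m2 : ∑ j ∈ (Gr r').filter (fun j => 1 ≤ KK r r' ^ A * R' j), R' j ≤
        ∑ j ∈ Gr r', R' j :=
      Finset.sum_le_sum_of_subset_of_nonneg (Finset.filter_subset _ _)
        fun i hi _ => hf.rG i (hGrG r' hi)
    have n1 := mul_le_mul_of_nonneg_left m1 hB0
    have n2 := mul_le_mul_of_nonneg_left m2 hB0
    have s1' : ∑ i ∈ Fr r, ∑ j ∈ Gr r', ind (g i j) * mn e e' R R' i j ≤
      ∑ i ∈ (Fr r).filter (fun i => 1 ≤ KK r r' ^ A * R i), ∑ j ∈ Gr r',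
        ind (g i j) * mn e e' R R' i j +
      ∑ i ∈ Fr r, ∑ j ∈ (Gr r').filter (fun j => 1 ≤ KK r r' ^ A * R' j),
        ind (g i j) * mn e e' R R' i j := by
      convert s1 using 2
    linarith
  have hVS : ∀ V ⊆ F.image ρ, ∑ r ∈ V, ∑ i ∈ Fr r, R i ≤ S := fun V hV => by
    rw [hS, sum_fib ρ]
    exact Finset.sum_le_sum_of_subset_of_nonneg hV fun r _ _ => hSr0 r
  have hVT : ∀ V ⊆ G.image ρ', ∑ r ∈ V, ∑ j ∈ Gr r, R' j ≤ T := fun V hV => by
    rw [hT, sum_fib ρ']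
    exact Finset.sum_le_sum_of_subset_of_nonneg hV fun r _ _ => hTr0 r
  -- the pairs with one label
  have hsame : ∑ i ∈ F, ∑ j ∈ G, ind (ρ' j = c * ρ i ∧ Rl i j) * mn e e' R R' i j ≤
      2 * (1 / √U0 + C1 * Lp ^ (-(1 / 16) : ℝ)) * (S + T) := by
    set V : Finset ℚ := (F.image ρ).filter (fun r => Lp ≤ r.den) with hV
    set B : ℝ := 1 / √U0 + C1 * Lp ^ (-(1 / 16) : ℝ) with hB
    have hB0 : 0 ≤ B := by positivity
    have e1 : ∑ i ∈ F, ∑ j ∈ G, ind (ρ' j = c * ρ i ∧ Rl i j) * mn e e' R R' i j ≤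
        ∑ r ∈ V, ∑ i ∈ Fr r, ∑ j ∈ Gr (c * r), ind (ρ' j = c * ρ i ∧ Rl i j) *
          mn e e' R R' i j := by
      rw [sum_fib ρ, ← Finset.sum_filter_add_sum_filter_not (F.image ρ) (fun r => Lp ≤ r.den)]
      have z1 : ∑ r ∈ (F.image ρ).filter (fun r => ¬ Lp ≤ (r.den:ℝ)), ∑ i ∈ F.filter (fun i => ρ i = r),
          ∑ j ∈ G, ind (ρ' j = c * ρ i ∧ Rl i j) * mn e e' R R' i j = 0 := by
        refine Finset.sum_eq_zero fun r hr => Finset.sum_eq_zero fun i hi =>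
          Finset.sum_eq_zero fun j hj => ?_
        rw [ind_f, zero_mul]
        rintro ⟨-, h5⟩
        obtain ⟨hi1, hi2⟩ := Finset.mem_filter.1 hi
        have := (hRl i hi1 j hj h5).d1
        rw [hi2] at this
        exact (Finset.mem_filter.1 hr).2 this
      rw [z1, add_zero]
      refine Finset.sum_le_sum fun r hr => Finset.sum_le_sum fun i hi => ?_
      have hi2 := (Finset.mem_filter.1 hi).2
      rw [← Finset.sum_filter_add_sum_filter_not G (fun j => ρ' j = c * r)]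
      have z2 : ∑ j ∈ G.filter (fun j => ¬ ρ' j = c * r), ind (ρ' j = c * ρ i ∧ Rl i j) *
          mn e e' R R' i j = 0 := by
        refine Finset.sum_eq_zero fun j hj => ?_
        rw [ind_f, zero_mul]
        rintro ⟨h5, -⟩
        rw [hi2] at h5
        exact (Finset.mem_filter.1 hj).2 h5
      rw [z2, add_zero]
    have e2 : ∀ r ∈ V, ∑ i ∈ Fr r, ∑ j ∈ Gr (c * r), ind (ρ' j = c * ρ i ∧ Rl i j) *
        mn e e' R R' i j ≤ 2 * B * (∑ i ∈ Fr r, R i + ∑ j ∈ Gr (c * r), R' j) := by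
      intro r hr
      have hrd : Lp ≤ (r.den : ℝ) := (Finset.mem_filter.1 hr).2
      refine hone r (c * r) hrd (fun i j => ρ' j = c * ρ i ∧ Rl i j) (fun i hi j hj h => h.2) B hB0
        (fun F' G' hF' hG' hcd => ?_)
      have hKd : KK r (c * r) = r.den := by
        unfold KK
        refine max_eq_left ?_
        have := den_mul_le c r
        exact_mod_cast this
      rw [hKd] at hcd
      have key := h1 ι κ P c r.den U0 F' G' e e' R R' hP hc r.pos hU0 (hP1.trans hrd) hcd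
        (Fam.subG (hf.sub (hF'.trans (hFrF r))) (hG'.trans (hGrG _)))
        (fun j hj => hcG j (hGrG _ (hG' hj)))
      refine (Finset.sum_le_sum fun i hi => Finset.sum_le_sum fun j hj => ?_).trans
        (key.trans ?_)
      · refine mul_le_mul_of_nonneg_right ?_ (hmn i (hFrF r (hF' hi)) j (hGrG _ (hG' hj)))
        by_cases h5 : ρ' j = c * ρ i ∧ Rl i j
        · rw [ind_t h5, ind_t]
          have hi1 := hFrF r (hF' hi)
          have hj1 := hGrG _ (hG' hj)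
          have a1 := hRl i hi1 j hj1 h5.2
          have e5 : ρ i = r := (Finset.mem_filter.1 (hF' hi)).2
          have e6 : ρ' j = c * r := (Finset.mem_filter.1 (hG' hj)).2
          have a2 := a1.co
          rw [e5, e6] at a2
          refine ⟨?_, co_cong a2⟩
          rcases a1.sp with a3 | a3
          · exact a3.2
          · exfalso
            rw [e5, e6] at a3
            have hcg := co_cong a2
            have hcd' : ¬ c ∣ r.den := by
              intro hh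
              have h8 : c ∣ (rd (e i) (e' j)).2 :=
                ((hcg.of_dvd hh).dvd_iff (dvd_refl c)).1 (dvd_mul_right _ _)
              exact hcG j hj1 (h8.trans (Nat.div_dvd_of_dvd (Nat.gcd_dvd_right _ _)))
            have hde := den_cop ((Nat.Prime.coprime_iff_not_dvd hc).2 hcd')
            rw [hKd, hde] at a3
            have b0 : (1:ℝ) < r.den := lt_of_lt_of_le hLp1 hrd
            have b2 : (1:ℝ) < (r.den:ℝ) ^ δ := Real.one_lt_rpow b0 hδ
            rcases a3 with a3 | a3 <;> nlinarith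
        · rw [ind_f h5]; exact ind_nn _
      · refine mul_le_mul_of_nonneg_right ?_ (add_nonneg
          (Finset.sum_nonneg fun i hi => hf.rF i (hFrF r (hF' hi)))
          (Finset.sum_nonneg fun j hj => hf.rG j (hGrG _ (hG' hj))))
        rw [hB]
        have b1 : (r.den : ℝ) ^ (-(1 / 16) : ℝ) ≤ Lp ^ (-(1 / 16) : ℝ) :=
          Real.rpow_le_rpow_of_nonpos hLp0 hrd (by norm_num)
        have b2 : 0 ≤ C1 := by linarith
        have b3 := mul_le_mul_of_nonneg_left b1 b2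
        linarith
    refine e1.trans ((Finset.sum_le_sum e2).trans ?_)
    rw [← Finset.mul_sum]
    refine mul_le_mul_of_nonneg_left ?_ (by positivity)
    rw [Finset.sum_add_distrib]
    refine add_le_add (hVS V (Finset.filter_subset _ _)) ?_
    have hc0 : (c:ℚ) ≠ 0 := by exact_mod_cast hc.ne_zero
    have hinj : ∀ r ∈ V, ∀ r' ∈ V, (c:ℚ) * r = c * r' → r = r' := fun r _ r' _ h =>
      mul_left_cancel₀ hc0 h
    rw [← Finset.sum_image (f := fun r' => ∑ j ∈ Gr r', R' j) hinj]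
    set W := V.image fun r => (c:ℚ) * r with hW
    rw [← Finset.sum_filter_add_sum_filter_not W (fun r => r ∈ G.image ρ')]
    have z3 : ∑ r ∈ W.filter (fun r => ¬ r ∈ G.image ρ'), ∑ j ∈ Gr r, R' j = 0 := by
      refine Finset.sum_eq_zero fun r hr => Finset.sum_eq_zero fun j hj => ?_
      obtain ⟨h5, h6⟩ := Finset.mem_filter.1 hj
      exact absurd (h6 ▸ Finset.mem_image_of_mem ρ' h5) (Finset.mem_filter.1 hr).2
    rw [z3, add_zero]
    exact hVT _ fun r hr => (Finset.mem_filter.1 hr).2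
  -- the pairs with two labels
  have hdiff : ∑ i ∈ F, ∑ j ∈ G, ind (ρ' j ≠ c * ρ i ∧ Rl i j) * mn e e' R R' i j ≤
      2 * C2 * Lp ^ (-(δ / 16)) * (S + T) := by
    rcases hlac with hl | ⟨hl1, hl2⟩
    · rw [Finset.sum_eq_zero]
      · positivity
      · intro i hi
        refine Finset.sum_eq_zero fun j hj => ?_
        rw [ind_f, zero_mul]
        rintro ⟨h5, h6⟩
        exact h5 (hl i hi j hj h6)
    set V : Finset ℚ := (F.image ρ).filter (fun r => Lp ≤ r.den) with hV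
    set V' : Finset ℚ := (G.image ρ').filter (fun r => Lp ≤ r.den) with hV'
    have e1 : ∑ i ∈ F, ∑ j ∈ G, ind (ρ' j ≠ c * ρ i ∧ Rl i j) * mn e e' R R' i j ≤
        ∑ r ∈ V, ∑ r' ∈ V', ∑ i ∈ Fr r, ∑ j ∈ Gr r', ind (ρ' j ≠ c * ρ i ∧ Rl i j) *
          mn e e' R R' i j := by
      rw [sum_fib ρ, ← Finset.sum_filter_add_sum_filter_not (F.image ρ) (fun r => Lp ≤ r.den)]
      have z1 : ∑ r ∈ (F.image ρ).filter (fun r => ¬ Lp ≤ (r.den:ℝ)), ∑ i ∈ F.filter (fun i => ρ i = r),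
          ∑ j ∈ G, ind (ρ' j ≠ c * ρ i ∧ Rl i j) * mn e e' R R' i j = 0 := by
        refine Finset.sum_eq_zero fun r hr => Finset.sum_eq_zero fun i hi =>
          Finset.sum_eq_zero fun j hj => ?_
        rw [ind_f, zero_mul]
        rintro ⟨-, h5⟩
        obtain ⟨hi1, hi2⟩ := Finset.mem_filter.1 hi
        have := (hRl i hi1 j hj h5).d1
        rw [hi2] at this
        exact (Finset.mem_filter.1 hr).2 this
      rw [z1, add_zero]
      refine Finset.sum_le_sum fun r hr => ?_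
      rw [Finset.sum_comm (s := V')]
      refine Finset.sum_le_sum fun i hi => ?_
      rw [sum_fib ρ', ← Finset.sum_filter_add_sum_filter_not (G.image ρ') (fun r => Lp ≤ r.den)]
      have z2 : ∑ r ∈ (G.image ρ').filter (fun r => ¬ Lp ≤ (r.den:ℝ)),
          ∑ j ∈ G.filter (fun j => ρ' j = r), ind (ρ' j ≠ c * ρ i ∧ Rl i j) *
          mn e e' R R' i j = 0 := by
        refine Finset.sum_eq_zero fun r hr => Finset.sum_eq_zero fun j hj => ?_
        rw [ind_f, zero_mul]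
        rintro ⟨-, h5⟩
        obtain ⟨hj1, hj2⟩ := Finset.mem_filter.1 hj
        have := (hRl i (Finset.mem_filter.1 hi).1 j hj1 h5).d2
        rw [hj2] at this
        exact (Finset.mem_filter.1 hr).2 this
      rw [z2, add_zero]
    set wt : ℚ → ℝ := fun r => (r.den : ℝ) ^ (-(δ / 16)) with hwt
    have hwt0 : ∀ r, 0 ≤ wt r := fun r => by positivity
    have hwL : ∀ r : ℚ, Lp ≤ r.den → wt r ≤ Lp ^ (-(δ / 16)) := fun r hr =>
      Real.rpow_le_rpow_of_nonpos hLp0 hr (by linarith)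
    have e2 : ∀ r ∈ V, ∀ r' ∈ V', ∑ i ∈ Fr r, ∑ j ∈ Gr r', ind (ρ' j ≠ c * ρ i ∧ Rl i j) *
        mn e e' R R' i j ≤ 2 * C2 * (wt r * wt r') * (∑ i ∈ Fr r, R i + ∑ j ∈ Gr r', R' j) := by
      intro r hr r' hr'
      have hrd : Lp ≤ (r.den : ℝ) := (Finset.mem_filter.1 hr).2
      have hrd' : Lp ≤ (r'.den : ℝ) := (Finset.mem_filter.1 hr').2
      have hK1 := KK_one r r'
      have hK0 : 0 < KK r r' := by linarith
      have hBle : 2 * (C2 * KK r r' ^ (-(δ / 8))) ≤ 2 * C2 * (wt r * wt r') := by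
        rw [← mul_assoc]
        refine mul_le_mul_of_nonneg_left ?_ (by linarith)
        have d1 : (0:ℝ) < r.den := by exact_mod_cast r.pos
        have d2 : (0:ℝ) < r'.den := by exact_mod_cast r'.pos
        have f1 : KK r r' ^ (-(δ / 16)) ≤ wt r :=
          Real.rpow_le_rpow_of_nonpos d1 (le_max_left _ _) (by linarith)
        have f2 : KK r r' ^ (-(δ / 16)) ≤ wt r' :=
          Real.rpow_le_rpow_of_nonpos d2 (le_max_right _ _) (by linarith)
        have f3 : KK r r' ^ (-(δ / 8)) = KK r r' ^ (-(δ / 16)) * KK r r' ^ (-(δ / 16)) := by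
          rw [← Real.rpow_add hK0]; congr 1; ring
        rw [f3]
        exact mul_le_mul f1 f2 (by positivity) (hwt0 r)
      by_cases hrat : KK r r' ^ δ * r.den ≤ r'.den ∨ KK r r' ^ δ * r'.den ≤ r.den
      · refine (hone r r' hrd (fun i j => ρ' j ≠ c * ρ i ∧ Rl i j) (fun i hi j hj h => h.2)
          (C2 * KK r r' ^ (-(δ / 8))) (by positivity) (fun F' G' hF' hG' hcd => ?_)).trans
          (mul_le_mul_of_nonneg_right hBle (add_nonneg (hSr0 r) (hTr0 r')))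
        have key := h2 ι κ P r r' (KK r r') F' G' e e' R R' hP hK1
          (hP2.trans (hrd.trans (le_max_left _ _))) hrat hcd
          (Fam.subG (hf.sub (hF'.trans (hFrF r))) (hG'.trans (hGrG _)))
        refine (Finset.sum_le_sum fun i hi => Finset.sum_le_sum fun j hj => ?_).trans key
        refine mul_le_mul_of_nonneg_right ?_ (hmn i (hFrF r (hF' hi)) j (hGrG _ (hG' hj)))
        by_cases h5 : ρ' j ≠ c * ρ i ∧ Rl i j
        · rw [ind_t h5, ind_t]
          have a1 := (hRl i (hFrF r (hF' hi)) j (hGrG _ (hG' hj)) h5.2).co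
          have e5 : ρ i = r := (Finset.mem_filter.1 (hF' hi)).2
          have e6 : ρ' j = r' := (Finset.mem_filter.1 (hG' hj)).2
          rwa [e5, e6] at a1
        · rw [ind_f h5]; exact ind_nn _
      · rw [Finset.sum_eq_zero]
        · have a1 := hwt0 r
          have a2 := hwt0 r'
          have a3 := hSr0 r
          have a4 := hTr0 r'
          positivity
        · intro i hi
          refine Finset.sum_eq_zero fun j hj => ?_
          rw [ind_f, zero_mul]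
          rintro ⟨h5, h6⟩
          have a1 := (hRl i (hFrF r hi) j (hGrG _ hj) h6).sp
          have e5 : ρ i = r := (Finset.mem_filter.1 hi).2
          have e6 : ρ' j = r' := (Finset.mem_filter.1 hj).2
          rcases a1 with a1 | a1
          · exact h5 a1.1
          · rw [e5, e6] at a1
            exact hrat a1
    refine e1.trans ((Finset.sum_le_sum fun r hr => Finset.sum_le_sum fun r' hr' =>
      e2 r hr r' hr').trans ?_)
    have c1 : ∑ r ∈ V, ∑ r' ∈ V', 2 * C2 * (wt r * wt r') *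
          (∑ i ∈ Fr r, R i + ∑ j ∈ Gr r', R' j) ≤
        ∑ r ∈ V, ∑ r' ∈ V', (2 * C2 * (Lp ^ (-(δ / 16)) * wt r') * (∑ i ∈ Fr r, R i) +
          2 * C2 * (Lp ^ (-(δ / 16)) * wt r) * ∑ j ∈ Gr r', R' j) := by
      refine Finset.sum_le_sum fun r hr => Finset.sum_le_sum fun r' hr' => ?_
      have w1 := hwL r (Finset.mem_filter.1 hr).2
      have w2 := hwL r' (Finset.mem_filter.1 hr').2
      have m1 : wt r * wt r' ≤ Lp ^ (-(δ / 16)) * wt r' :=
        mul_le_mul_of_nonneg_right w1 (hwt0 r')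
      have m2 : wt r * wt r' ≤ Lp ^ (-(δ / 16)) * wt r := by
        rw [mul_comm (wt r)]
        exact mul_le_mul_of_nonneg_right w2 (hwt0 r)
      have hC20 : 0 ≤ 2 * C2 := by linarith
      rw [mul_add]
      exact add_le_add
        (mul_le_mul_of_nonneg_right (mul_le_mul_of_nonneg_left m1 hC20) (hSr0 r))
        (mul_le_mul_of_nonneg_right (mul_le_mul_of_nonneg_left m2 hC20) (hTr0 r'))
    refine c1.trans ?_
    simp only [Finset.sum_add_distrib]
    have hL0 : 0 ≤ Lp ^ (-(δ / 16)) := by positivity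
    have hC20 : 0 ≤ 2 * C2 := by linarith
    have p1 : ∑ r ∈ V, ∑ r' ∈ V', 2 * C2 * (Lp ^ (-(δ / 16)) * wt r') * (∑ i ∈ Fr r, R i) =
        2 * C2 * Lp ^ (-(δ / 16)) * ((∑ r' ∈ V', wt r') * ∑ r ∈ V, ∑ i ∈ Fr r, R i) := by
      rw [Finset.sum_mul_sum, Finset.sum_comm, Finset.mul_sum]
      refine Finset.sum_congr rfl fun r' _ => ?_
      rw [Finset.mul_sum]
      refine Finset.sum_congr rfl fun r _ => ?_
      ring
    have p2 : ∑ r ∈ V, ∑ r' ∈ V', 2 * C2 * (Lp ^ (-(δ / 16)) * wt r) * ∑ j ∈ Gr r', R' j =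
        2 * C2 * Lp ^ (-(δ / 16)) * ((∑ r ∈ V, wt r) * ∑ r' ∈ V', ∑ j ∈ Gr r', R' j) := by
      rw [Finset.sum_mul_sum, Finset.mul_sum]
      refine Finset.sum_congr rfl fun r' _ => ?_
      rw [Finset.mul_sum]
      refine Finset.sum_congr rfl fun r _ => ?_
      ring
    rw [p1, p2, ← mul_add]
    refine mul_le_mul_of_nonneg_left ?_ (mul_nonneg hC20 hL0)
    refine add_le_add ?_ ?_
    · calc (∑ r' ∈ V', wt r') * ∑ r ∈ V, ∑ i ∈ Fr r, R i ≤ 1 * S :=
            mul_le_mul hl2 (hVS V (Finset.filter_subset _ _))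
              (Finset.sum_nonneg fun r _ => hSr0 r) zero_le_one
        _ = S := one_mul _
    · calc (∑ r ∈ V, wt r) * ∑ r' ∈ V', ∑ j ∈ Gr r', R' j ≤ 1 * T :=
            mul_le_mul hl1 (hVT V' (Finset.filter_subset _ _))
              (Finset.sum_nonneg fun r _ => hTr0 r) zero_le_one
        _ = T := one_mul _
  -- the sum
  have hsum : ∀ i ∈ F, ∀ j ∈ G, ind (Rl i j) * mn e e' R R' i j =
      ind (ρ' j = c * ρ i ∧ Rl i j) * mn e e' R R' i j +
      ind (ρ' j ≠ c * ρ i ∧ Rl i j) * mn e e' R R' i j := by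
    intro i _ j _
    rw [← add_mul]
    congr 1
    by_cases h5 : Rl i j
    · by_cases h6 : ρ' j = c * ρ i
      · rw [ind_t h5, ind_t (⟨h6, h5⟩ : _ ∧ _), ind_f (fun h7 => h7.1 h6), add_zero]
      · rw [ind_t h5, ind_f (fun h7 => h6 h7.1), ind_t (⟨h6, h5⟩ : _ ∧ _), zero_add]
    · rw [ind_f h5, ind_f (fun h7 => h5 h7.2), ind_f (fun h7 => h5 h7.2), add_zero]
  rw [Finset.sum_congr rfl fun i hi => Finset.sum_congr rfl fun j hj => hsum i hi j hj]
  simp only [Finset.sum_add_distrib]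
  refine (add_le_add hsame hdiff).trans ?_
  have hM : 0 ≤ S + T := by positivity
  rw [← add_mul]
  refine mul_le_mul_of_nonneg_right ?_ hM
  have b1 : Lp ^ (-(1 / 16) : ℝ) ≤ Lp ^ (-(δ / 16)) :=
    Real.rpow_le_rpow_of_exponent_le hLp1.le (by linarith)
  have b2 : 0 ≤ C1 := by linarith
  have b3 := mul_le_mul_of_nonneg_left b1 b2
  have e7 : 2 / √U0 = 2 * (1 / √U0) := by ring
  rw [e7]
  linarith

end Crest.Agent.R4P.RtV28
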