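import Crest.Agent.R4P.AsL_407

/-!
R4 (S0004) with powers, T3, helper9: **the rule of the real index** (no names, no codes, all tags `1`).

* `RL X` : rule `RNX X (stL X.c) 0 2`; `tgL`; **`ty_iff`** : types are equal iff the real indices are;
  **`ty_tie`** : at a tie the low type is the type above.
* **`rL P : RF X`** : rule with flags, maps of types: identity; `sta : StaR`, `ty : TyR`, `tyL : TyL`,
  **`lt_tp`** (ties), **`not_EvT`**, `evN : EvN`, **`KBr_zero`** (no separated pairs at the ties);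
* **`EvR_iff`**, **`EvR_list`** : events of the rest: entrance, or the real state changes, or `none` at a grid
  column (`dep` changes).
* pairs of the rest: **`SpN_list`** (one node, equal indices above, different below), **`join_list`** (two
  members: equal indices below, different above).
-/

set_option autoImplicit false
set_option linter.unusedSectionVars false
set_option linter.unusedVariables false
open MeasureTheory Filter Set

namespace Crest.Agent.R4P.RuL9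

open Crest.Agent.R4P.Cnt588 Crest.Agent.R4P.Item758 Crest.Agent.R4P.W363
open Crest.Agent.R4P.Data758
open Crest.Agent.R4P.Bld532 (NS All NodeOk Bk)
open Crest.Agent.R4P.WalkIT579 (tp isL)
open Crest.Agent.R4P.StratN36 (ex)
open Crest.Agent.R4P.Step588 Crest.Agent.R4P.RseSt23
open Crest.Agent.R4P.DTp26 Crest.Agent.R4P.DTm407
open Crest.Agent.R4P.TYI47 Crest.Agent.R4P.TYJ47 Crest.Agent.R4P.TYK47
open Crest.Agent.R4P.TYP9 Crest.Agent.R4P.RsT47
open Crest.Agent.R4P.StM6 Crest.Agent.R4P.StM246 Crest.Agent.R4P.StE6 Crest.Agent.R4P.StF6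
open Crest.Agent.R4P.StG6 Crest.Agent.R4P.StJ6
open Crest.Agent.R4P.StB21 (bt TH LvF)
open Crest.Agent.R4P.RuN9 Crest.Agent.R4P.CrZ41
open Crest.Agent.R4P.RuF9 hiding TyR
open Crest.Agent.R4P.Skel189 Crest.Agent.R4P.Frame758
open Crest.Agent.R4.Soft104 Crest.Agent.R4.Fam464
open Crest.Agent.R4P.StratX36 Crest.Agent.R4P.TopX36
open Crest.Agent.R4P.GWa343 Crest.Agent.R4P.GWb343 Crest.Agent.R4P.GWc343 Crest.Agent.R4P.GWf343
open Crest.Agent.R4P.GWg343 (FX ctx_BI)
open Crest.Agent.R4P.TrR343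
open Crest.Agent.R4P.Walk560 (DT WrN)
open Crest.Agent.R4P.AsC407 Crest.Agent.R4P.AsI407 Crest.Agent.R4P.PrL45 Crest.Agent.R4P.PrM45
open Crest.Agent.R4P.JnP5 (TyR tyR_of)
open Crest.Agent.R4P.PrK45 (vx)

variable {N : Skel189.Num} {γ : ℝ} {p0 P₀ : ℕ} {X : Ctx N γ p0 P₀} {Q : NS → IT → Prop}
  {C : ℝ} {p p' : ℕ} {b : Me × List (DT X.c.Lam (LbX X))} {i j : X.c.Lam} {x y x' : ℝ} {m m' : Me}

/-! ### the rule -/

variable (X) in
/-- **the rule of the real index** : label = real state, no code -/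
noncomputable abbrev RL : Rule X.c := RNX X (stL X.c) (fun _ _ _ => 0) (fun _ => 2)

/-- all tags are one -/
lemma tgL {M : Finset ℕ} {T : ℕ} : (RL X).tg p M T x j = 1 := by
  show nm (fun _ => 2) p (M ∩ X.c.t.mt j.1.1) j.1.1 0 = 1
  exact nm_zero

lemma lbL {M : Finset ℕ} : (RL X).lb p M x j = X.c.st p j.1.1 := rfl

/-- **real index of a piece** at the column `p`, memory `m`, point `x` -/
noncomputable abbrev ixr (X : Ctx N γ p0 P₀) (p : ℕ) (m : Me) (x : ℝ) (j : X.c.Lam) : Bool × ℕ :=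
  ixp X.c p (X.c.st p j.1.1) (pm X.c.t p m j.1.1) m.2 x j

/-- **types are equal iff the real indices are** -/
theorem ty_iff (hp : p ≤ Skel189.top X.S) (hp' : p' ≤ Skel189.top X.S) :
    tyS (RL X) p m x i = tyS (RL X) p' m' x' j ↔ ixr X p m x i = ixr X p' m' x' j := by
  have key := mkT_inj (K := (RL X).K)
    (ixp_le hp (X.c.st p i.1.1) (pm X.c.t p m i.1.1) m.2 x i)
    (ixp_le hp' (X.c.st p' j.1.1) (pm X.c.t p' m' j.1.1) m'.2 x' j)
    (RNX_le (lb := stL X.c) (cd := fun _ _ _ => 0) (Z := fun _ => 2) hp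
      (pm X.c.t p m i.1.1) m.2 x i)
    (RNX_le (lb := stL X.c) (cd := fun _ _ _ => 0) (Z := fun _ => 2) hp'
      (pm X.c.t p' m' j.1.1) m'.2 x' j)
  refine key.trans ⟨fun h => h.1, fun h => ⟨h, ?_⟩⟩
  rw [tgL, tgL]

/-- **at a tie the low type is the type above** -/
theorem ty_tie (h : TieP X p m j x) : tyS (RL X) p (tuM p m) (p * x) j = tyS (RL X) p m x j := by
  unfold tyS Rule.it
  rw [tgL, tgL]
  show mkT _ _ (ixp X.c p (X.c.st p j.1.1) (pm X.c.t p (tuM p m) j.1.1) (tuM p m).2 (p * x) j) 1 =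
    mkT _ _ (ixp X.c p (X.c.st p j.1.1) (pm X.c.t p m j.1.1) m.2 x j) 1
  rw [h.ix]

/-! ### the rule with flags -/

/-- parameters: flags, active class -/
structure PrL (X : Ctx N γ p0 P₀) where
  F : ℕ → Finset ℕ → Prop
  mon : FMon F
  act : LbX X

namespace PrL
variable (P : PrL X)

/-- **the rule with flags** : the maps of types are the identity -/
noncomputable def rL : RF X where
  R := RL X
  le := fun h M T x j => RNX_le h M T x j
  F := P.F
  mon := P.mon
  fr := fun _ _ _ z => z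
  ft := fun _ _ _ z => z
  act := P.act

/-- labels and tags are static -/
theorem sta : StaR P.rL := ⟨fun _ _ _ _ _ => rfl, fun _ _ _ _ _ _ => rfl⟩

lemma tp_none : P.rL.D.tp p m x j = none ↔ flg P.F X.c p j.1.1 := tpF_none

lemma tp_some {z : P.rL.ζ} : P.rL.D.tp p m x j = some z ↔
    ¬ flg P.F X.c p j.1.1 ∧ tyS (RL X) p m x j = z := by
  refine (tpF_some (F := P.F)).trans (and_congr_right fun _ => ?_)
  constructor
  · intro h
    exact Option.some.inj h
  · rintro rfl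
    rfl

lemma tp_not (h : ¬ flg P.F X.c p j.1.1) : P.rL.D.tp p m x j = some (tyS (RL X) p m x j) :=
  P.tp_some.2 ⟨h, rfl⟩

/-- **ties: the low type is the type above** -/
theorem lt_tp (h : TieP X p m j x) : P.rL.D.lt p m (p * x) j = P.rL.D.tp p m x j := by
  by_cases hf : flg P.F X.c p j.1.1
  · have e1 : P.rL.D.lt p m (p * x) j = none := lt_none.2 hf
    rw [e1, P.tp_none.2 hf]
  · have e1 : P.rL.D.lt p m (p * x) j = some (tyS (RL X) p (tuM p m) (p * x) j) := tpF_not hf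
    rw [e1, P.tp_not hf, ty_tie h]

/-- **two pieces of a tie: equal low types iff equal types above** -/
theorem lt_iff (hi : TieP X p m i x) (hj : TieP X p m j x) :
    P.rL.D.lt p m (p * x) i = P.rL.D.lt p m (p * x) j ↔ P.rL.D.tp p m x i = P.rL.D.tp p m x j := by
  rw [P.lt_tp hi, P.lt_tp hj]

/-- **no event at a tie** -/
theorem not_EvT (h : TieP X p m j x) : ¬ P.rL.EvT p m x j := by
  rintro ⟨z, h1, h2⟩
  exact h2 ((P.lt_tp h).trans h1)

theorem evN : EvN X P.rL := fun h h1 => absurd h1 (P.not_EvT h)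

/-- **a type determines the real index** -/
theorem ty (cf : CtxF X Q) : TyR X Q C P.rL.D := tyR_of cf P.rL fun _ _ _ _ _ => rfl

/-- **a low type determines the real index** -/
theorem tyL (cf : CtxF X Q) : TyL X Q C P.rL.D := TyL.of cf P.rL fun _ _ _ _ _ _ => rfl

/-- **no separated pairs at the ties** -/
theorem not_SpT : ¬ SpT X Q P.rL p i j := by
  rintro ⟨m, s, Sp, t₁, t₀, x, -, h1, h2, -, -, -, h3, h4⟩
  exact h4 ((P.lt_iff h1 h2).2 h3)

theorem KBr_zero : KBr X Q P.rL p i j = 0 := by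
  unfold KBr
  rw [if_neg]
  rintro (h | h)
  · exact P.not_SpT h
  · exact P.not_SpT h

/-! ### the rest -/

/-- **events of the rest** -/
theorem EvR_iff : P.rL.EvR p m x j ↔ ¬ flg P.F X.c p j.1.1 ∧ (flg P.F X.c (p - 1) j.1.1 ∨
    (¬ flg P.F X.c (p - 1) j.1.1 ∧ tyS (RL X) (p - 1) m x j ≠ tyS (RL X) p m x j)) := by
  constructor
  · rintro ⟨z, h1, h2⟩
    obtain ⟨f1, e1⟩ := P.tp_some.1 h1
    refine ⟨f1, ?_⟩
    by_cases f2 : flg P.F X.c (p - 1) j.1.1
    · exact Or.inl f2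
    · refine Or.inr ⟨f2, fun e => h2 (P.tp_some.2 ⟨f2, ?_⟩)⟩
      show _ = z
      rw [e, e1]
  · rintro ⟨f1, h⟩
    refine ⟨_, P.tp_not f1, fun e => ?_⟩
    obtain ⟨f2, e2⟩ := P.tp_some.1 e
    rcases h with h | h
    · exact f2 h
    · exact h.2 e2

/-- **the index stays** unless the real state changes or the piece is unlabelled at a grid column -/
theorem ix_stay {c : Cf} {p : ℕ} {M : Finset ℕ} {T : ℕ} {x : ℝ} {j : c.Lam}
    (h : c.st (p - 1) j.1.1 = c.st p j.1.1)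
    (hd : c.st p j.1.1 = none → c.wp.dep (p - 1) = c.wp.dep p) :
    ixp c (p - 1) (c.st (p - 1) j.1.1) M T x j = ixp c p (c.st p j.1.1) M T x j := by
  rw [h]
  rcases hs : c.st p j.1.1 with _ | κ
  · unfold ixp WP.ix WP.E
    simp only [hd hs]
  · exact ixp_col

/-- **events of the rest** of a piece with content: entrance, change of the real state, grid column -/
theorem EvR_list (cf : CtxF X Q) (h : InvM X Q C p b) (hp : p ≠ 0) (hj : jv (bN p b.2) j x ≠ 0)
    (hE : P.rL.EvR p b.1 x j) : ¬ flg P.F X.c p j.1.1 ∧ (Ent P.F X.c p j.1.1 ∨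
      (¬ flg P.F X.c (p - 1) j.1.1 ∧ ixr X (p - 1) b.1 x j ≠ ixr X p b.1 x j ∧
        (X.c.st (p - 1) j.1.1 ≠ X.c.st p j.1.1 ∨
          (X.c.st (p - 1) j.1.1 = none ∧ X.c.st p j.1.1 = none ∧
            X.c.wp.dep (p - 1) ≠ X.c.wp.dep p)))) := by
  obtain ⟨f1, h1⟩ := P.EvR_iff.1 hE
  refine ⟨f1, ?_⟩
  rcases h1 with f2 | ⟨f2, h2⟩
  · exact Or.inl ⟨f1, f2⟩
  · obtain ⟨e1, hl⟩ := rest_pmX cf.hQ h hp hj
    have h3 : ixr X (p - 1) b.1 x j ≠ ixr X p b.1 x j := fun e =>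
      h2 ((ty_iff (by omega) hl).2 e)
    refine Or.inr ⟨f2, h3, ?_⟩
    by_contra hc
    push Not at hc
    obtain ⟨c1, c2⟩ := hc
    refine h3 ?_
    unfold ixr
    rw [e1]
    exact ix_stay c1 fun e => c2 (c1.trans e) e

/-- **separated pairs of the rest** : one node, contents at one point, equal real indices above; the first
piece enters the game or the real indices below are different -/
theorem SpN_list (cf : CtxF X Q) (hp : p ≠ 0) (h : SpN X Q P.rL p i j) :
    ∃ (m : Me) (u : NS) (τ : IT) (x : ℝ), RtX X Q p m u τ ∧ tp τ < p ∧ ¬ isL τ ∧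
      i.1.1 ∈ τ.items ∧ j.1.1 ∈ τ.items ∧ vx X u τ i x ≠ 0 ∧ vx X u τ j x ≠ 0 ∧
      RestP X p m i.1.1 ∧ RestP X p m j.1.1 ∧
      ¬ flg P.F X.c p i.1.1 ∧ ¬ flg P.F X.c p j.1.1 ∧ ixr X p m x i = ixr X p m x j ∧
      (flg P.F X.c (p - 1) i.1.1 ∨ flg P.F X.c (p - 1) j.1.1 ∨
        ixr X (p - 1) m x i ≠ ixr X (p - 1) m x j) := by
  obtain ⟨m, u, τ, x, hs, ht, hl, hi, hj, h1, h2, h3⟩ := h
  have hn := cf.hQ _ _ hs.1.rm.all.self
  have ci : ((X.c.D.par X.Y).toDT X.c.sp u.B u.A τ).g.val i x ≠ 0 := by rwa [← vx_val hn]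
  have cj : ((X.c.D.par X.Y).toDT X.c.sp u.B u.A τ).g.val j x ≠ 0 := by rwa [← vx_val hn]
  have qi := (ctx_supp hn ci).1
  have qj := (ctx_supp hn cj).1
  have key : ∀ {l : X.c.Lam}, l.1.1 ∈ τ.items →
      ((X.c.D.par X.Y).toDT X.c.sp u.B u.A τ).g.val l x ≠ 0 → RestP X p m l.1.1 := by
    intro l hq hv
    have k := cf.hLv u τ hs.1.rm.all.self hl l.1.1 hq
    exact ⟨Nat.pos_of_ne_zero hp, alive_of hn hv, k.1, k.2.trans_lt ht,
      rest_lo cf.hQ X.tOk hp hs.1 ht hl hq⟩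
  have f1 : ¬ flg P.F X.c p i.1.1 := fun h => h1 (P.tp_none.2 h)
  have f2 : ¬ flg P.F X.c p j.1.1 := fun h => h1 (h2.trans (P.tp_none.2 h))
  have e1 : tyS (RL X) p m x i = tyS (RL X) p m x j := by
    rw [P.tp_not f1, P.tp_not f2] at h2
    exact Option.some.inj h2
  refine ⟨m, u, τ, x, hs, ht, hl, qi, qj, hi, hj, key qi ci, key qj cj, f1, f2,
    (ty_iff hs.2 hs.2).1 e1, ?_⟩
  by_cases g1 : flg P.F X.c (p - 1) i.1.1
  · exact Or.inl g1
  by_cases g2 : flg P.F X.c (p - 1) j.1.1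
  · exact Or.inr (Or.inl g2)
  refine Or.inr (Or.inr fun e => ?_)
  have e2 := (ty_iff ((Nat.sub_le _ _).trans hs.2) ((Nat.sub_le _ _).trans hs.2)).2 e
  rw [P.tp_not g1, P.tp_not g2, e2] at h3
  rcases h3 with h3 | h3
  · exact h3 rfl
  · exact absurd h3 (by simp)

/-- **joins of the rest** : equal types below, different types above, in terms of the real indices; at
least one of the two pieces changes its index -/
theorem join_list (hp : p ≤ Skel189.top X.S)
    (h1 : P.rL.D.tp (p - 1) m x i = P.rL.D.tp (p - 1) m x j)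
    (h2 : P.rL.D.tp (p - 1) m x i ≠ none) (h3 : P.rL.D.tp p m x i ≠ P.rL.D.tp p m x j) :
    ¬ flg P.F X.c (p - 1) i.1.1 ∧ ¬ flg P.F X.c (p - 1) j.1.1 ∧
      ¬ flg P.F X.c p i.1.1 ∧ ¬ flg P.F X.c p j.1.1 ∧
      ixr X (p - 1) m x i = ixr X (p - 1) m x j ∧ ixr X p m x i ≠ ixr X p m x j ∧
      (ixr X (p - 1) m x i ≠ ixr X p m x i ∨ ixr X (p - 1) m x j ≠ ixr X p m x j) := by
  have g1 : ¬ flg P.F X.c (p - 1) i.1.1 := fun h => h2 (P.tp_none.2 h)
  have g2 : ¬ flg P.F X.c (p - 1) j.1.1 := fun h => h2 (h1.trans (P.tp_none.2 h))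
  have f1 : ¬ flg P.F X.c p i.1.1 := fun h => g1 (flg_dn P.mon h)
  have f2 : ¬ flg P.F X.c p j.1.1 := fun h => g2 (flg_dn P.mon h)
  have e1 : ixr X (p - 1) m x i = ixr X (p - 1) m x j := by
    rw [P.tp_not g1, P.tp_not g2] at h1
    exact (ty_iff ((Nat.sub_le _ _).trans hp) ((Nat.sub_le _ _).trans hp)).1 (Option.some.inj h1)
  have e2 : ixr X p m x i ≠ ixr X p m x j := by
    intro e
    rw [P.tp_not f1, P.tp_not f2, (ty_iff hp hp).2 e] at h3
    exact h3 rfl
  refine ⟨g1, g2, f1, f2, e1, e2, ?_⟩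
  by_contra hc
  push Not at hc
  exact e2 (by rw [← hc.1, ← hc.2, e1])

end PrL

end Crest.Agent.R4P.RuL9
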