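import Crest.Agent.R4P.ShR_18

/-!
R4 (S0004) with powers, helper18: **the congruence kernel of the gcd-sum lemma**, for two members.

`ρ`, `ρ'` = labels of the two members; the cofactors `(x, y)` of an exact pair satisfy
`y ρ ≡ x ρ' (mod 1)` (`ShR18.Co`).

* `card_class` : `#{n ≤ M, n in one class mod k} ≤ M / k + 1`;
* `kap_sq` : all pairs `x, y ≤ Y` with `max > √K`, `K ≤ den ρ` :
  `∑ 1 / max (x, y) ^ 2 ≤ 6 / √K + (2 + log Y) ^ 2 / K`;
* `kap_sq'` : the same with `K ≤ den ρ'`;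
* `max_in` : `ρ = ρ'`, `x ≠ y` : `max > K`;  `kap_in` : then
  `∑ 1 / max ^ 2 ≤ (6 + (2 + log Y) ^ 2) / K`.
-/

set_option autoImplicit false

namespace Crest.Agent.R4P.ShK18

open Finset ShR18

/-- numbers of one residue class below `M` -/
lemma card_class {k : ℕ} {M : ℝ} (hM : 0 ≤ M) {F : Finset ℕ} {r : ℕ}
    (hF : ∀ n ∈ F, (n : ℝ) ≤ M ∧ n % k = r) : (F.card : ℝ) ≤ M / k + 1 := by
  classical
  have h1 : F.card ≤ (Finset.range (⌊M⌋₊ / k + 1)).card := by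
    refine Finset.card_le_card_of_injOn (fun n => n / k) ?_ ?_
    · intro n hn
      have h2 := (hF n (Finset.mem_coe.1 hn)).1
      rw [Finset.coe_range, Set.mem_Iio]
      exact Nat.lt_succ_of_le (Nat.div_le_div_right (Nat.le_floor h2))
    · intro n hn m hm h
      have h2 := (hF n (Finset.mem_coe.1 hn)).2
      have h3 := (hF m (Finset.mem_coe.1 hm)).2
      have h4 : n / k = m / k := h
      rw [← Nat.div_add_mod n k, ← Nat.div_add_mod m k, h4, h2, h3]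
  rw [Finset.card_range] at h1
  have h2 : (F.card : ℝ) ≤ ((⌊M⌋₊ / k : ℕ) : ℝ) + 1 := by exact_mod_cast h1
  have h3 : ((⌊M⌋₊ / k : ℕ) : ℝ) ≤ M / k :=
    Nat.cast_div_le.trans (div_le_div_of_nonneg_right (Nat.floor_le hM) (Nat.cast_nonneg k))
  linarith

/-- tail of `∑ 1 / x ^ 2` -/
lemma sq_tail {t : ℝ} (ht : 1 ≤ t) {F : Finset ℕ} (hF : ∀ x ∈ F, t < (x : ℝ)) :
    ∑ x ∈ F, 1 / (x : ℝ) ^ 2 ≤ 2 / t := by
  classical
  have ht0 : 0 < t := by linarith
  set n : ℕ := F.sup id + 1 with hn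
  have hsub : F ⊆ Finset.Ioo ⌊t⌋₊ n := by
    intro x hx
    rw [Finset.mem_Ioo]
    refine ⟨(Nat.floor_lt ht0.le).2 (hF x hx), ?_⟩
    have : x ≤ F.sup id := Finset.le_sup (f := id) hx
    omega
  have h1 := sum_Ioo_inv_sq_le (α := ℝ) ⌊t⌋₊ n
  have h2 : ∑ x ∈ F, 1 / (x : ℝ) ^ 2 ≤ ∑ x ∈ Finset.Ioo ⌊t⌋₊ n, ((x : ℝ) ^ 2)⁻¹ := by
    refine (Finset.sum_le_sum_of_subset_of_nonneg hsub fun x _ _ => by positivity).trans
      (le_of_eq (Finset.sum_congr rfl fun x _ => by rw [one_div]))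
  refine h2.trans (h1.trans ?_)
  exact div_le_div_of_nonneg_left (by norm_num) ht0 (Nat.lt_floor_add_one t).le

/-- sums over `x` of `1 / max (t, x) ^ 2` and `1 / max (t, x)` -/
lemma sums_x {t : ℝ} (ht1 : 1 ≤ t) (Y : ℕ) :
    ∑ x ∈ Finset.Icc 1 Y, 2 / (max t (x : ℝ)) ^ 2 ≤ 6 / t ∧
    ∑ x ∈ Finset.Icc 1 Y, 1 / max t (x : ℝ) ≤ 2 + Real.log Y := by
  classical
  have ht0 : 0 < t := by linarith
  have hlY : 0 ≤ Real.log (Y : ℝ) := Real.log_natCast_nonneg Y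
  have b0 : (((Finset.Icc 1 Y).filter (fun x : ℕ => (x : ℝ) ≤ t)).card : ℝ) ≤ t := by
    have : ((Finset.Icc 1 Y).filter (fun x : ℕ => (x : ℝ) ≤ t)).card ≤ (Finset.Icc 1 ⌊t⌋₊).card :=
      Finset.card_le_card fun x hx => by
        obtain ⟨b1, b2⟩ := Finset.mem_filter.1 hx
        exact Finset.mem_Icc.2 ⟨(Finset.mem_Icc.1 b1).1, Nat.le_floor b2⟩
    rw [Nat.card_Icc, Nat.add_sub_cancel] at this
    exact (by exact_mod_cast this : ((((Finset.Icc 1 Y).filter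
      (fun x : ℕ => (x : ℝ) ≤ t)).card : ℕ) : ℝ) ≤ (⌊t⌋₊ : ℝ)).trans (Nat.floor_le ht0.le)
  constructor
  · rw [← Finset.sum_filter_add_sum_filter_not (Finset.Icc 1 Y) (fun x : ℕ => (x : ℝ) ≤ t)]
    have a1 : ∑ x ∈ (Finset.Icc 1 Y).filter (fun x : ℕ => (x : ℝ) ≤ t), 2 / (max t (x : ℝ)) ^ 2 ≤
        2 / t := by
      calc ∑ x ∈ (Finset.Icc 1 Y).filter (fun x : ℕ => (x : ℝ) ≤ t), 2 / (max t (x : ℝ)) ^ 2
          ≤ ((Finset.Icc 1 Y).filter (fun x : ℕ => (x : ℝ) ≤ t)).card • (2 / t ^ 2) := by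
            refine Finset.sum_le_card_nsmul _ _ _ fun x hx => ?_
            rw [max_eq_left (Finset.mem_filter.1 hx).2]
        _ = ((Finset.Icc 1 Y).filter (fun x : ℕ => (x : ℝ) ≤ t)).card * (2 / t ^ 2) := by
            rw [nsmul_eq_mul]
        _ ≤ t * (2 / t ^ 2) := mul_le_mul_of_nonneg_right b0 (by positivity)
        _ = 2 / t := by field_simp
    have a2 : ∑ x ∈ (Finset.Icc 1 Y).filter (fun x : ℕ => ¬ (x : ℝ) ≤ t),
        2 / (max t (x : ℝ)) ^ 2 ≤ 4 / t := by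
      have b1 := sq_tail ht1 (F := (Finset.Icc 1 Y).filter (fun x : ℕ => ¬ (x : ℝ) ≤ t))
        fun x hx => not_le.1 (Finset.mem_filter.1 hx).2
      calc ∑ x ∈ (Finset.Icc 1 Y).filter (fun x : ℕ => ¬ (x : ℝ) ≤ t), 2 / (max t (x : ℝ)) ^ 2
          = 2 * ∑ x ∈ (Finset.Icc 1 Y).filter (fun x : ℕ => ¬ (x : ℝ) ≤ t), 1 / (x : ℝ) ^ 2 := by
            rw [Finset.mul_sum]
            refine Finset.sum_congr rfl fun x hx => ?_
            rw [max_eq_right (not_le.1 (Finset.mem_filter.1 hx).2).le, mul_one_div]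
        _ ≤ 2 * (2 / t) := mul_le_mul_of_nonneg_left b1 (by norm_num)
        _ = 4 / t := by ring
    have e2 : 6 / t = 2 / t + 4 / t := by ring
    rw [e2]
    exact add_le_add a1 a2
  · rw [← Finset.sum_filter_add_sum_filter_not (Finset.Icc 1 Y) (fun x : ℕ => (x : ℝ) ≤ t)]
    have a1 : ∑ x ∈ (Finset.Icc 1 Y).filter (fun x : ℕ => (x : ℝ) ≤ t), 1 / max t (x : ℝ) ≤ 1 := by
      calc ∑ x ∈ (Finset.Icc 1 Y).filter (fun x : ℕ => (x : ℝ) ≤ t), 1 / max t (x : ℝ)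
          ≤ ((Finset.Icc 1 Y).filter (fun x : ℕ => (x : ℝ) ≤ t)).card • (1 / t) := by
            refine Finset.sum_le_card_nsmul _ _ _ fun x hx => ?_
            rw [max_eq_left (Finset.mem_filter.1 hx).2]
        _ = ((Finset.Icc 1 Y).filter (fun x : ℕ => (x : ℝ) ≤ t)).card * (1 / t) := by
            rw [nsmul_eq_mul]
        _ ≤ t * (1 / t) := mul_le_mul_of_nonneg_right b0 (by positivity)
        _ = 1 := by field_simp
    have a2 : ∑ x ∈ (Finset.Icc 1 Y).filter (fun x : ℕ => ¬ (x : ℝ) ≤ t), 1 / max t (x : ℝ) ≤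
        1 + Real.log Y := by
      have e3 : ∑ x ∈ (Finset.Icc 1 Y).filter (fun x : ℕ => ¬ (x : ℝ) ≤ t), 1 / max t (x : ℝ) =
          ∑ x ∈ (Finset.Icc 1 Y).filter (fun x : ℕ => ¬ (x : ℝ) ≤ t), 1 / (x : ℝ) :=
        Finset.sum_congr rfl fun x hx => by
          rw [max_eq_right (not_le.1 (Finset.mem_filter.1 hx).2).le]
      rw [e3]
      rcases le_or_gt t (Y : ℝ) with htY | htY
      · have b1 := BTs18.ap_triv (k := 1) (a := 0) le_rfl ht0 htY
          (F := (Finset.Icc 1 Y).filter (fun x : ℕ => ¬ (x : ℝ) ≤ t)) (fun n hn => by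
            obtain ⟨c1, c2⟩ := Finset.mem_filter.1 hn
            exact ⟨not_le.1 c2, by exact_mod_cast (Finset.mem_Icc.1 c1).2, by
              rw [Nat.mod_one, Nat.mod_one]⟩)
        refine b1.trans ?_
        have c3 : 1 / t ≤ 1 := by rw [div_le_one ht0]; exact ht1
        have c4 : Real.log (Y / t) ≤ Real.log Y := by
          have hY0 : (0 : ℝ) < Y := by linarith
          rw [Real.log_div hY0.ne' ht0.ne']
          have := Real.log_nonneg ht1
          linarith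
        rw [Nat.cast_one, div_one]
        linarith
      · rw [Finset.filter_eq_empty_iff.2, Finset.sum_empty]
        · positivity
        · intro x hx
          rw [not_not]
          exact (by exact_mod_cast (Finset.mem_Icc.1 hx).2 : (x : ℝ) ≤ Y).trans htY.le
    linarith

/-- one residue class, kernel `1 / max (M, y) ^ 2` -/
lemma inner {ρ θ : ℚ} {K : ℕ} (hK : 1 ≤ K) (hρ : K ≤ ρ.den) {M : ℝ} (hM : 1 ≤ M) {Y : ℕ}
    (hY : 1 ≤ Y) {F : Finset ℕ} (hF : ∀ y ∈ F, y ≤ Y ∧ Co ((y : ℕ) * ρ) θ) :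
    ∑ y ∈ F, 1 / (max M (y : ℝ)) ^ 2 ≤ 2 / M ^ 2 + (1 + Real.log Y) / K * (1 / M) := by
  classical
  have hM0 : 0 < M := by linarith
  have hK0 : (0 : ℝ) < K := by exact_mod_cast hK
  have hd0 : (0 : ℝ) < ρ.den := by exact_mod_cast ρ.pos
  have hKd : (K : ℝ) ≤ ρ.den := by exact_mod_cast hρ
  have hlY : 0 ≤ Real.log (Y : ℝ) := Real.log_natCast_nonneg Y
  rw [← Finset.sum_filter_add_sum_filter_not F (fun y : ℕ => (y : ℝ) ≤ M)]
  have h1 : ∑ y ∈ F.filter (fun y : ℕ => (y : ℝ) ≤ M), 1 / (max M (y : ℝ)) ^ 2 ≤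
      1 / M ^ 2 + 1 / K * (1 / M) := by
    rcases (F.filter (fun y : ℕ => (y : ℝ) ≤ M)).eq_empty_or_nonempty with h | ⟨a, ha⟩
    · rw [h, Finset.sum_empty]; positivity
    · have hc : ((F.filter (fun y : ℕ => (y : ℝ) ≤ M)).card : ℝ) ≤ M / ρ.den + 1 := by
        refine card_class hM0.le (r := a % ρ.den) fun n hn => ?_
        obtain ⟨b1, b2⟩ := Finset.mem_filter.1 hn
        exact ⟨b2, (hF n b1).2.mod (hF a (Finset.mem_filter.1 ha).1).2⟩
      have h2 : ∑ y ∈ F.filter (fun y : ℕ => (y : ℝ) ≤ M), 1 / (max M (y : ℝ)) ^ 2 ≤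
          ((F.filter (fun y : ℕ => (y : ℝ) ≤ M)).card : ℝ) * (1 / M ^ 2) := by
        rw [← nsmul_eq_mul]
        refine Finset.sum_le_card_nsmul _ _ _ fun y hy => ?_
        rw [max_eq_left (Finset.mem_filter.1 hy).2]
      refine h2.trans ?_
      calc ((F.filter (fun y : ℕ => (y : ℝ) ≤ M)).card : ℝ) * (1 / M ^ 2)
          ≤ (M / ρ.den + 1) * (1 / M ^ 2) := mul_le_mul_of_nonneg_right hc (by positivity)
        _ = 1 / M ^ 2 + 1 / ρ.den * (1 / M) := by field_simp; ring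
        _ ≤ _ := by
          have := one_div_le_one_div_of_le hK0 hKd
          have := mul_le_mul_of_nonneg_right this (by positivity : (0:ℝ) ≤ 1 / M)
          linarith
  have h2 : ∑ y ∈ F.filter (fun y : ℕ => ¬ (y : ℝ) ≤ M), 1 / (max M (y : ℝ)) ^ 2 ≤
      1 / M ^ 2 + Real.log Y / K * (1 / M) := by
    rcases le_or_gt M (Y : ℝ) with hMY | hMY
    · have h3 : ∀ y ∈ F.filter (fun y : ℕ => ¬ (y : ℝ) ≤ M), 1 / (max M (y : ℝ)) ^ 2 ≤
          1 / M * (1 / y) := by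
        intro y hy
        have hy1 : M < y := not_le.1 (Finset.mem_filter.1 hy).2
        have hy0 : (0 : ℝ) < y := by linarith
        rw [max_eq_right hy1.le, pow_two, ← one_div_mul_one_div]
        exact mul_le_mul_of_nonneg_right (one_div_le_one_div_of_le hM0 hy1.le) (by positivity)
      refine (Finset.sum_le_sum h3).trans ?_
      rw [← Finset.mul_sum]
      have h4 := class_sum (ρ := ρ) (θ := θ) hM0 hMY
        (F := F.filter (fun y : ℕ => ¬ (y : ℝ) ≤ M)) (fun n hn => by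
          obtain ⟨b1, b2⟩ := Finset.mem_filter.1 hn
          exact ⟨not_le.1 b2, by exact_mod_cast (hF n b1).1, (hF n b1).2⟩)
      have h5 : Real.log (Y / M) ≤ Real.log Y := by
        rw [Real.log_div (by positivity) hM0.ne']
        have := Real.log_nonneg hM
        linarith
      have h6 : Real.log (Y / M) / ρ.den ≤ Real.log Y / K := div_le_div₀ hlY h5 hK0 hKd
      calc 1 / M * ∑ y ∈ F.filter (fun y : ℕ => ¬ (y : ℝ) ≤ M), 1 / (y : ℝ)
          ≤ 1 / M * (1 / M + Real.log Y / K) :=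
            mul_le_mul_of_nonneg_left (h4.trans (by linarith)) (by positivity)
        _ = _ := by rw [pow_two, ← one_div_mul_one_div]; ring
    · rw [Finset.filter_eq_empty_iff.2, Finset.sum_empty]
      · positivity
      · intro y hy
        rw [not_not]
        exact (by exact_mod_cast (hF y hy).1 : (y : ℝ) ≤ Y).trans hMY.le
  have e : 2 / M ^ 2 + (1 + Real.log Y) / K * (1 / M) =
      (1 / M ^ 2 + 1 / K * (1 / M)) + (1 / M ^ 2 + Real.log Y / K * (1 / M)) := by ring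
  rw [e]
  exact add_le_add h1 h2

/-- **the congruence kernel of two members** -/
theorem kap_sq {ρ ρ' : ℚ} {K : ℕ} (hK : 1 ≤ K) (hρ : K ≤ ρ.den) {Y : ℕ} {G : Finset (ℕ × ℕ)}
    (hG : ∀ e ∈ G, 1 ≤ e.1 ∧ e.1 ≤ Y ∧ e.2 ≤ Y ∧
      (Real.sqrt K < e.1 ∨ Real.sqrt K < e.2) ∧ Co ((e.2 : ℕ) * ρ) ((e.1 : ℕ) * ρ')) :
    ∑ e ∈ G, 1 / (max (e.1 : ℝ) e.2) ^ 2 ≤ 6 / Real.sqrt K + (2 + Real.log Y) ^ 2 / K := by
  classical
  have hK1 : (1 : ℝ) ≤ K := by exact_mod_cast hK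
  have hK0 : (0 : ℝ) < K := by linarith
  set t : ℝ := Real.sqrt K with htd
  have ht1 : 1 ≤ t := by rw [htd]; exact Real.one_le_sqrt.2 hK1
  have ht0 : 0 < t := by linarith
  have htt : t * t = K := Real.mul_self_sqrt hK0.le
  have hlY : 0 ≤ Real.log (Y : ℝ) := Real.log_natCast_nonneg Y
  rcases Nat.eq_zero_or_pos Y with hY | hY
  · rw [show G = ∅ from Finset.eq_empty_of_forall_notMem fun e he => by
      have := hG e he; omega, Finset.sum_empty]
    positivity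
  rw [← Finset.sum_fiberwise_of_maps_to (s := G) (t := Finset.Icc 1 Y) (g := Prod.fst)
    fun e he => Finset.mem_Icc.2 ⟨(hG e he).1, (hG e he).2.1⟩]
  -- fixed `x`
  have h1 : ∀ x ∈ Finset.Icc 1 Y, ∑ e ∈ G.filter (fun e => e.1 = x), 1 / (max (e.1 : ℝ) e.2) ^ 2 ≤
      2 / (max t x) ^ 2 + (1 + Real.log Y) / K * (1 / max t x) := by
    intro x hx
    have hinj : Set.InjOn (Prod.snd : ℕ × ℕ → ℕ) (G.filter (fun e => e.1 = x) : Set (ℕ × ℕ)) := by
      intro e he e' he' h2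
      have h3 := (Finset.mem_filter.1 (Finset.mem_coe.1 he)).2
      have h4 := (Finset.mem_filter.1 (Finset.mem_coe.1 he')).2
      exact Prod.ext (h3.trans h4.symm) h2
    have h2 : ∀ e ∈ G.filter (fun e => e.1 = x), 1 / (max (e.1 : ℝ) e.2) ^ 2 ≤
        1 / (max (max t x) (e.2 : ℝ)) ^ 2 := by
      intro e he
      obtain ⟨he1, he2⟩ := Finset.mem_filter.1 he
      have hm : max (max t (x : ℝ)) (e.2 : ℝ) = max (e.1 : ℝ) e.2 := by
        rw [he2]
        rcases (hG e he1).2.2.2.1 with h3 | h3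
        · rw [he2] at h3
          rw [max_eq_right h3.le]
        · rw [max_assoc, max_eq_right (h3.le.trans (le_max_right _ _))]
      rw [hm]
    refine (Finset.sum_le_sum h2).trans ?_
    have e1 : ∑ e ∈ G.filter (fun e => e.1 = x), 1 / (max (max t (x : ℝ)) (e.2 : ℝ)) ^ 2 =
        ∑ y ∈ (G.filter (fun e => e.1 = x)).image Prod.snd, 1 / (max (max t (x : ℝ)) (y : ℝ)) ^ 2 := by
      rw [Finset.sum_image hinj]
    rw [e1]
    refine inner hK hρ (θ := (x : ℕ) * ρ') (ht1.trans (le_max_left _ _)) hY fun y hy => ?_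
    obtain ⟨e, he, rfl⟩ := Finset.mem_image.1 hy
    obtain ⟨he1, he2⟩ := Finset.mem_filter.1 he
    have := hG e he1
    rw [he2] at this
    exact ⟨this.2.2.1, this.2.2.2.2⟩
  refine (Finset.sum_le_sum h1).trans ?_
  rw [Finset.sum_add_distrib, ← Finset.mul_sum]
  obtain ⟨h3, h4⟩ := sums_x ht1 Y
  have h5 : (1 + Real.log Y) / K * ∑ x ∈ Finset.Icc 1 Y, 1 / max t (x : ℝ) ≤
      (2 + Real.log Y) ^ 2 / K := by
    calc (1 + Real.log Y) / K * ∑ x ∈ Finset.Icc 1 Y, 1 / max t (x : ℝ)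
        ≤ (1 + Real.log Y) / K * (2 + Real.log Y) := mul_le_mul_of_nonneg_left h4 (by positivity)
      _ = (1 + Real.log Y) * (2 + Real.log Y) / K := by ring
      _ ≤ (2 + Real.log Y) ^ 2 / K := by
          refine div_le_div_of_nonneg_right ?_ hK0.le
          nlinarith
  linarith

/-- the same with the denominator of the second member -/
theorem kap_sq' {ρ ρ' : ℚ} {K : ℕ} (hK : 1 ≤ K) (hρ : K ≤ ρ'.den) {Y : ℕ} {G : Finset (ℕ × ℕ)}
    (hG : ∀ e ∈ G, 1 ≤ e.2 ∧ e.1 ≤ Y ∧ e.2 ≤ Y ∧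
      (Real.sqrt K < e.1 ∨ Real.sqrt K < e.2) ∧ Co ((e.2 : ℕ) * ρ) ((e.1 : ℕ) * ρ')) :
    ∑ e ∈ G, 1 / (max (e.1 : ℝ) e.2) ^ 2 ≤ 6 / Real.sqrt K + (2 + Real.log Y) ^ 2 / K := by
  classical
  have e1 : ∑ e ∈ G, 1 / (max (e.1 : ℝ) e.2) ^ 2 =
      ∑ e ∈ G.image Prod.swap, 1 / (max (e.1 : ℝ) e.2) ^ 2 := by
    rw [Finset.sum_image (fun a _ b _ hab => Prod.swap_injective hab)]
    exact Finset.sum_congr rfl fun e _ => by
      simp only [Prod.fst_swap, Prod.snd_swap, max_comm]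
  rw [e1]
  refine kap_sq (ρ := ρ') (ρ' := ρ) hK hρ fun e he => ?_
  obtain ⟨e', he', rfl⟩ := Finset.mem_image.1 he
  obtain ⟨a1, a2, a3, a4, a5⟩ := hG e' he'
  exact ⟨a1, a3, a2, a4.symm, a5.symm⟩

/-- one member: different cofactors are large -/
lemma max_in {ρ : ℚ} {x y : ℕ} (h : Co ((y : ℕ) * ρ) ((x : ℕ) * ρ)) (hxy : x ≠ y) (hx : 1 ≤ x)
    (hy : 1 ≤ y) : ρ.den < x ∨ ρ.den < y := by
  have h1 := h.den_dvd (Co.refl _)
  by_contra hc
  push Not at hc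
  have h2 : ((y : ℤ) - x) = 0 := by
    refine Int.eq_zero_of_abs_lt_dvd h1 ?_
    rw [abs_lt]
    constructor <;> omega
  omega

/-- **one member** -/
theorem kap_in {ρ : ℚ} {Y : ℕ} {G : Finset (ℕ × ℕ)}
    (hG : ∀ e ∈ G, 1 ≤ e.1 ∧ 1 ≤ e.2 ∧ e.1 ≤ Y ∧ e.2 ≤ Y ∧ e.1 ≠ e.2 ∧
      Co ((e.2 : ℕ) * ρ) ((e.1 : ℕ) * ρ)) :
    ∑ e ∈ G, 1 / (max (e.1 : ℝ) e.2) ^ 2 ≤ (6 + (2 + Real.log Y) ^ 2) / ρ.den := by
  classical
  have hd1 : (1 : ℝ) ≤ ρ.den := by exact_mod_cast ρ.pos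
  have hd0 : (0 : ℝ) < ρ.den := by linarith
  have hlY : 0 ≤ Real.log (Y : ℝ) := Real.log_natCast_nonneg Y
  rcases Nat.eq_zero_or_pos Y with hY | hY
  · rw [show G = ∅ from Finset.eq_empty_of_forall_notMem fun e he => by
      have := hG e he; omega, Finset.sum_empty]
    positivity
  set t : ℝ := (ρ.den : ℝ) with htd
  rw [← Finset.sum_fiberwise_of_maps_to (s := G) (t := Finset.Icc 1 Y) (g := Prod.fst)
    fun e he => Finset.mem_Icc.2 ⟨(hG e he).1, (hG e he).2.2.1⟩]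
  -- fixed `x` : the class of `x`, at least `max (den, x)`
  have h1 : ∀ x ∈ Finset.Icc 1 Y, ∑ e ∈ G.filter (fun e => e.1 = x), 1 / (max (e.1 : ℝ) e.2) ^ 2 ≤
      2 / (max t x) ^ 2 + (1 + Real.log Y) / ρ.den * (1 / max t x) := by
    intro x hx
    have hinj : Set.InjOn (Prod.snd : ℕ × ℕ → ℕ) (G.filter (fun e => e.1 = x) : Set (ℕ × ℕ)) := by
      intro e he e' he' h2
      have h3 := (Finset.mem_filter.1 (Finset.mem_coe.1 he)).2
      have h4 := (Finset.mem_filter.1 (Finset.mem_coe.1 he')).2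
      exact Prod.ext (h3.trans h4.symm) h2
    have h2 : ∀ e ∈ G.filter (fun e => e.1 = x), 1 / (max (e.1 : ℝ) e.2) ^ 2 ≤
        1 / (max (max t x) (e.2 : ℝ)) ^ 2 := by
      intro e he
      obtain ⟨he1, he2⟩ := Finset.mem_filter.1 he
      obtain ⟨b1, b2, b3, b4, b5, b6⟩ := hG e he1
      have hm : max (max t (x : ℝ)) (e.2 : ℝ) = max (e.1 : ℝ) e.2 := by
        rw [he2]
        rcases max_in b6 b5 b1 b2 with h3 | h3
        · rw [he2] at h3
          have h4 : t ≤ (x : ℝ) := by rw [htd]; exact_mod_cast h3.le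
          rw [max_eq_right h4]
        · have h4 : t ≤ (e.2 : ℝ) := by rw [htd]; exact_mod_cast h3.le
          rw [max_assoc, max_eq_right (h4.trans (le_max_right _ _))]
      rw [hm]
    refine (Finset.sum_le_sum h2).trans ?_
    have e1 : ∑ e ∈ G.filter (fun e => e.1 = x), 1 / (max (max t (x : ℝ)) (e.2 : ℝ)) ^ 2 =
        ∑ y ∈ (G.filter (fun e => e.1 = x)).image Prod.snd, 1 / (max (max t (x : ℝ)) (y : ℝ)) ^ 2 := by
      rw [Finset.sum_image hinj]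
    rw [e1]
    refine inner ρ.pos le_rfl (θ := (x : ℕ) * ρ) (hd1.trans (le_max_left _ _)) hY fun y hy => ?_
    obtain ⟨e, he, rfl⟩ := Finset.mem_image.1 hy
    obtain ⟨he1, he2⟩ := Finset.mem_filter.1 he
    have := hG e he1
    rw [he2] at this
    exact ⟨this.2.2.2.1, this.2.2.2.2.2⟩
  refine (Finset.sum_le_sum h1).trans ?_
  rw [Finset.sum_add_distrib, ← Finset.mul_sum]
  obtain ⟨h3, h4⟩ := sums_x hd1 Y
  have h5 : (1 + Real.log Y) / ρ.den * ∑ x ∈ Finset.Icc 1 Y, 1 / max t (x : ℝ) ≤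
      (2 + Real.log Y) ^ 2 / ρ.den := by
    calc (1 + Real.log Y) / ρ.den * ∑ x ∈ Finset.Icc 1 Y, 1 / max t (x : ℝ)
        ≤ (1 + Real.log Y) / ρ.den * (2 + Real.log Y) := mul_le_mul_of_nonneg_left h4 (by positivity)
      _ = (1 + Real.log Y) * (2 + Real.log Y) / ρ.den := by ring
      _ ≤ (2 + Real.log Y) ^ 2 / ρ.den := by
          refine div_le_div_of_nonneg_right ?_ hd0.le
          nlinarith
  have e : (6 + (2 + Real.log Y) ^ 2) / t = 6 / t + (2 + Real.log Y) ^ 2 / (ρ.den : ℝ) := by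
    rw [htd, add_div]
  rw [e]
  exact add_le_add h3 h5

end Crest.Agent.R4P.ShK18
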