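import Crest.Agent.R4P.CrZ_41
import Crest.Agent.R4P.SameIx_30
import Crest.Agent.R4P.PrD_45

/-!
R4 (S0004) with powers, T3, helper48: **the sheet lemma**.

* `exact_node3` : `SameIx30.exact_node2` for labels of two columns (`LbE` : label of some column, e.g.
  a sticky label).
* `NL_node` : a lift (`pG ≠ 0`) of a bundle of a context: the node of the tie, the N child, the tooth.
* **`sheet`** : two bundles of one memory, missing pieces `j`, `j'` with lifts above `y` on the sheets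
  `i`, `i'`, labels `σ`, `σ'` with one index at `y` (below the tie) and `p ∤ den (B σ)`,
  `p ∤ den (B' σ')` (`B` above the tie) ⟹ `i = i'`.
-/

set_option autoImplicit false
set_option linter.unusedSectionVars false
set_option linter.unusedVariables false
open MeasureTheory Filter Set

namespace Crest.Agent.R4P.ShL48

open Crest.Agent.R4.Tour104 Crest.Agent.R4.Clos758
open Crest.Agent.R4P.Cnt588 Crest.Agent.R4P.Item758 Crest.Agent.R4P.W363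
open Crest.Agent.R4.W363 (off off_circle cell grd grd_close snapped_eq)
open Crest.Agent.R4P.WPex189
open Crest.Agent.R4P.Data758
open Crest.Agent.R4P.Bld532 (NS All NodeOk Bk dv nd)
open Crest.Agent.R4P.WalkIT579 (tp isL toDT_top toDT_leaf)
open Crest.Agent.R4P.StratN36 (ex)
open Crest.Agent.R4P.Step588 Crest.Agent.R4P.RseSt23
open Crest.Agent.R4P.DTp26 Crest.Agent.R4P.DTm407
open Crest.Agent.R4P.TYI47 Crest.Agent.R4P.TYJ47 Crest.Agent.R4P.TYK47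
open Crest.Agent.R4P.TYP9 Crest.Agent.R4P.RsT47 Crest.Agent.R4P.CrZ41
open Crest.Agent.R4P.Walk560 (DT WrN)
open Crest.Agent.R4P.Skel189 Crest.Agent.R4P.Frame758
open Crest.Agent.R4.Soft104 Crest.Agent.R4.Fam464
open Crest.Agent.R4P.StratX36 Crest.Agent.R4P.TopX36
open Crest.Agent.R4P.GWa343 Crest.Agent.R4P.GWb343 Crest.Agent.R4P.GWc343 Crest.Agent.R4P.GWf343
open Crest.Agent.R4P.TrR343
open Crest.Agent.R4P.Grp36 Crest.Agent.R4P.Bp407 Crest.Agent.R4P.VR407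
open Crest.Agent.R4P.SameIx30 (circle2 BB_le)

/-- `σ` is a label (state or own label) of `q` at some column `≤ n` -/
def LbE (P : WP) (γ : ℝ) (r : ℕ → ℝ) (t : IT) (n q : ℕ) (σ : ℚ) : Prop :=
  ∃ p ≤ n, LbAt P γ r t p q σ

/-- **same index, both labelled: exact centres on the common circle**, labels of any columns -/
theorem exact_node3 {wp : WP} {γ : ℝ} {r : ℕ → ℝ} {t : IT} {S : Finset ℕ} {n K : ℕ}
    (h : Fine wp γ r t S n K) {p p' q q' : ℕ} (hq : q ∈ S) (hq' : q' ∈ S)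
    (hq0 : 0 < q) (hq0' : 0 < q') {σ σ' : ℚ} (hσ : LbE wp γ r t n q σ)
    (hσ' : LbE wp γ r t n q' σ') {A B W A' B' W' : ℕ} (hA : 0 < A) (hB : 0 < B)
    (hA' : 0 < A') (hW : 0 < W) (hW' : 0 < W') (e : q = A * W) (e' : q' = A' * W')
    (hAB : A * B = A' * B') (hBK : B ≤ K * A') {y z z' : ℝ} {a a' : ℤ}
    (hz : (B:ℝ) * z = W * y - B * γ - a) (hz' : (B':ℝ) * z' = W' * y - B' * γ - a')
    (h1 : |z| ≤ r q) (h2 : |z'| ≤ r q')
    (hix : wp.ix γ p q (some σ) z = wp.ix γ p' q' (some σ') z') :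
    ((a:ℝ) + ((B * σ : ℚ) : ℝ)) / W = (a' + ((B' * σ' : ℚ) : ℝ)) / W' := by
  obtain ⟨p₁, hp₁, hσ⟩ := hσ
  obtain ⟨p₂, hp₂, hσ'⟩ := hσ'
  have hWr : (0:ℝ) < W := by exact_mod_cast hW
  have hWr' : (0:ℝ) < W' := by exact_mod_cast hW'
  have hABp : (0:ℝ) < ((A * B : ℕ) : ℝ) := by exact_mod_cast Nat.mul_pos hA hB
  have h3 : cell (grd wp.δ₀ wp.n₁) (off γ σ q z) = cell (grd wp.δ₀ wp.n₁) (off γ σ' q' z') :=
    congrArg Prod.snd hix
  have h4 := grd_close h.δ0 (h.offB p₁ hp₁ q hq hq0 σ hσ z h1)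
    (h.offB p₂ hp₂ q' hq' hq0' σ' hσ' z' h2) h3
  have f1 := off_circle (γ := γ) (c := σ) (z := z) hA hW e (B := B)
  have f2 := off_circle (γ := γ) (c := σ') (z := z') hA' hW' e' (B := B')
  rw [hz] at f1
  rw [hz', ← hAB] at f2
  have g1 : ((A * B : ℕ) : ℝ) * off γ σ q z = y - ((a:ℝ) + ((B * σ : ℚ) : ℝ)) / W := by
    rw [f1]; push_cast; field_simp; ring
  have g2 : ((A * B : ℕ) : ℝ) * off γ σ' q' z' = y - ((a':ℝ) + ((B' * σ' : ℚ) : ℝ)) / W' := by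
    rw [f2]; push_cast; field_simp; ring
  have h5 : |((a:ℝ) + ((B * σ : ℚ) : ℝ)) / W - (a' + ((B' * σ' : ℚ) : ℝ)) / W'| <
      ((A * B : ℕ) : ℝ) * wp.δ₀ := by
    have e1 : ((a:ℝ) + ((B * σ : ℚ) : ℝ)) / W - (a' + ((B' * σ' : ℚ) : ℝ)) / W' =
        -(((A * B : ℕ) : ℝ) * (off γ σ q z - off γ σ' q' z')) := by
      rw [mul_sub, g1, g2]; ring
    rw [e1, abs_neg, abs_mul, abs_of_pos hABp]
    exact mul_lt_mul_of_pos_left h4 hABp
  have h6 := circle2 h hp₁ hp₂ hq hq' hσ hσ' e e' hBK (B' := B')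
  exact snapped_eq (q := W) (r := W') hW hW' (σ := (B : ℚ) * σ)
    (τ := (B' : ℚ) * σ') (a := a) (a' := a') (δ := ((A * B : ℕ) : ℝ) * wp.δ₀) (by
      refine le_trans (le_of_eq ?_) h6
      push_cast; ring) h5

/-! ### arithmetic -/

/-- two rationals `(a + ρ)/w - (a' + ρ')/w' = n / p` with denominators prime to `p`: `p ∣ n` -/
lemma p_dvd {p : ℕ} (hp : p.Prime) {w w' : ℕ} (hw : ¬ p ∣ w) (hw' : ¬ p ∣ w') {ρ ρ' : ℚ}
    (hk : ¬ p ∣ ρ.den) (hk' : ¬ p ∣ ρ'.den) {a a' n : ℤ}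
    (h : (p : ℚ) * (((a : ℚ) + ρ) / w - (a' + ρ') / w') = n) : (p : ℤ) ∣ n := by
  have w0 : (w : ℚ) ≠ 0 := by
    have : w ≠ 0 := fun h0 => hw (h0 ▸ dvd_zero p)
    exact_mod_cast this
  have w0' : (w' : ℚ) ≠ 0 := by
    have : w' ≠ 0 := fun h0 => hw' (h0 ▸ dvd_zero p)
    exact_mod_cast this
  have k0 : (ρ.den : ℚ) ≠ 0 := by exact_mod_cast ρ.den_ne_zero
  have k0' : (ρ'.den : ℚ) ≠ 0 := by exact_mod_cast ρ'.den_ne_zero
  have e1 : ρ = ρ.num / ρ.den := (Rat.num_div_den ρ).symm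
  have e2 : ρ' = ρ'.num / ρ'.den := (Rat.num_div_den ρ').symm
  have key : (p : ℤ) * ((a * ρ.den + ρ.num) * (w' * ρ'.den) - (a' * ρ'.den + ρ'.num) *
      (w * ρ.den)) = n * (w * w' * (ρ.den * ρ'.den)) := by
    have : (p : ℚ) * ((a * ρ.den + ρ.num) * (w' * ρ'.den) - (a' * ρ'.den + ρ'.num) *
      (w * ρ.den)) = n * (w * w' * (ρ.den * ρ'.den)) := by
      rw [← h]
      have h1 : (a : ℚ) + ρ = (a * ρ.den + ρ.num) / ρ.den := by
        rw [add_div, mul_div_cancel_right₀ _ k0, ← e1]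
      have h2 : (a' : ℚ) + ρ' = (a' * ρ'.den + ρ'.num) / ρ'.den := by
        rw [add_div, mul_div_cancel_right₀ _ k0', ← e2]
      rw [h1, h2]
      field_simp
    exact_mod_cast this
  have hd : (p : ℤ) ∣ n * (w * w' * (ρ.den * ρ'.den)) := ⟨_, key.symm⟩
  have hpp : Prime (p : ℤ) := Nat.prime_iff_prime_int.1 hp
  rcases hpp.dvd_or_dvd hd with h1 | h1
  · exact h1
  · exfalso
    rcases hpp.dvd_or_dvd h1 with h2 | h2
    · rcases hpp.dvd_or_dvd h2 with h3 | h3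
      · exact hw (by exact_mod_cast h3)
      · exact hw' (by exact_mod_cast h3)
    · rcases hpp.dvd_or_dvd h2 with h3 | h3
      · exact hk (by exact_mod_cast h3)
      · exact hk' (by exact_mod_cast h3)

/-- the centre below a tie -/
lemma cen {p w i B : ℕ} {a : ℤ} {σ : ℚ} (hw : (w : ℝ) ≠ 0) :
    (((p * a - w * i : ℤ) : ℝ) + (((B * p : ℕ) * σ : ℚ) : ℝ)) / (w : ℝ) =
      p * (((a : ℝ) + ((((B : ℕ) : ℚ) * σ : ℚ) : ℝ)) / w) - i := by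
  push_cast
  field_simp
  ring

/-- the tooth below a tie -/
lemma ezl {p w i B : ℕ} {a : ℤ} {z y γ : ℝ} (hp : (p : ℝ) ≠ 0)
    (h : (B : ℝ) * z = (w : ℝ) * ((y + i) / p) - B * γ - a) :
    ((B * p : ℕ) : ℝ) * z = (w : ℝ) * y - ((B * p : ℕ) : ℝ) * γ - ((p * a - w * i : ℤ) : ℝ) := by
  have e : ((B * p : ℕ) : ℝ) * z = p * (B * z) := by push_cast; ring
  rw [e, h]
  push_cast
  field_simp
  ring

/-! ### a lift of a bundle -/

section ctx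
variable {N : Skel189.Num} {γ : ℝ} {p0 P₀ : ℕ} {X : Ctx N γ p0 P₀} {Q : NS → IT → Prop} {C : ℝ}
  {p : ℕ} {b : Me × List (DT X.c.Lam (LbX X))} {j : X.c.Lam} {x : ℝ}

/-- **node data of a lift**: tie node above, child N below, the tooth above -/
structure NL (X : Ctx N γ p0 P₀) (Q : NS → IT → Prop) (p : ℕ) (m : Me) (j : X.c.Lam) (x : ℝ)
    (s : NS) (Sp : Finset ℕ) (t₁ t₀ : IT) (a : ℤ) : Prop where
  hs : RtX X Q p m s (.br p Sp t₁ t₀)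
  hN : RtX X Q p (tuM p m) ⟨p, s.c * p, s.A, s.B * p⟩ t₀
  mem : j.1.1 ∈ t₀.items
  pr : p.Prime
  ez : (s.B : ℝ) * zb X.c p m x j = ((j.1.1 / s.A : ℕ) : ℝ) * x - s.B * X.c.γ - a
  z1 : X.c.bp j.1.1 j.1.2 ≤ zb X.c p m x j
  z2 : zb X.c p m x j < X.c.bp j.1.1 (j.1.2 + 1)
  nw : ¬ p ∣ j.1.1 / s.A

/-- content on the P side or of a pull: the exponent is too large -/
lemma ex_ne (hQ : ∀ u τ, Q u τ → NDt X.par (w X.ψ) X.c.t u τ) {m : Me} {s : NS} {t₁ : IT}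
    {c : ℝ} {n' : ℕ} (hpr : p.Prime) (hA : 0 < s.A)
    (hx : ex p s.A = TYJ47.cnt p m.1) (hP : RtX X Q p (tuM p m) ⟨n', c, s.A * p, s.B⟩ t₁)
    (hq : j.1.1 ∈ t₁.items) :
    ex p j.1.1 ≠ TYJ47.cnt p m.1 := by
  have hn1 := hQ _ _ hP.1.rm.all.self
  have h5 : ex p (s.A * p) ≤ ex p j.1.1 :=
    Crest.Agent.R4P.StratN36.ex_le (hn1.bk.pos _ hq) (hn1.bk.dvd _ hq)
  rw [ex_mul hpr hA, hx] at h5
  omega

/-- missing in the tie: the exponent -/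
lemma ex_eq (hQ : ∀ u τ, Q u τ → NDt X.par (w X.ψ) X.c.t u τ) {m : Me} {s : NS} {Sp : Finset ℕ}
    {t₁ t₀ : IT} (hs : RtX X Q p m s (.br p Sp t₁ t₀)) (hq0 : j.1.1 ∈ t₀.items) :
    ex p j.1.1 = TYJ47.cnt p m.1 := by
  have H := carX hQ
  have hn := hQ _ _ hs.1.rm.all.self
  have hp : p.Prime := prime_of_br hn.self.node
  have hl : ¬ isL (IT.br p Sp t₁ t₀) := fun h => h
  have hhi := hs.1.hi hQ hl rfl (Finset.mem_union_right _ hq0)
  obtain ⟨hP, hN⟩ := H.br hs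
  have hn0 := hQ _ _ hN.1.rm.all.self
  have e2 := hN.1.rm.pf hQ X.tOk hq0
  have hpB : p ∈ (s.B * p).primeFactors :=
    Nat.mem_primeFactors.2 ⟨hp, Dvd.intro_left _ rfl, hn0.bk.sfB.ne_zero⟩
  by_contra h5
  have e3 : pm X.c.t p (tuM p m) j.1.1 = pm X.c.t p m j.1.1 := by
    rw [pm_tu, if_neg h5]
  have h6 : p ∈ pm X.c.t p (tuM p m) j.1.1 := by
    show p ∈ prm X.c.t p (tuM p m).1 j.1.1
    rw [← e2]; exact hpB
  rw [e3, hhi] at h6
  exact absurd (Finset.mem_filter.1 h6).2 (lt_irrefl p)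

/-- **node data of a lift** -/
theorem NL_node (hQ : ∀ u τ, Q u τ → NDt X.par (w X.ψ) X.c.t u τ) (hd1 : X.c.d1 * Kc X.S ≤ 1)
    (h : InvM X Q C p b) (hp0 : p ≠ 0) {kd : X.c.Lam → LbX X} (hK : KOk kd p (bB p b.2))
    (hG : pG (bB p b.2) j x ≠ 0) :
    ∃ s Sp t₁ t₀ a, NL X Q p b.1 j x s Sp t₁ t₀ a := by
  have H := carX hQ
  have hp1 : 0 < p := Nat.pos_of_ne_zero hp0
  -- the content above
  have hB := pG_supp hK hp1 hG
  have hv : jv (bB p b.2) j x ≠ 0 := by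
    have h2 : 0 < pG (bB p b.2) j x := lt_of_le_of_ne ((PB_pG _ j).nonneg x) (Ne.symm hG)
    have h3 : pG (bB p b.2) j x ≤ vT p (bB p b.2) j x := by
      rw [vT_eq hK, PrD45.vF_eq]
      have h1 := (PrD45.TD.qf01 (PrD45.td hK hp1) kd (kd j) x).1
      have h4 := (hK.PA j).nonneg (p * x)
      nlinarith
    have h5 := vT_le hK j x
    exact (lt_of_lt_of_le h2 (h3.trans h5)).ne'
  -- the item is missing
  obtain ⟨s', Sp', t₁', t₀', hs', hN', hv'⟩ := pB_node H hp0 h.mi hB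
  have hq' : j.1.1 ∈ t₀'.items := (ctx_supp (hQ _ _ hN'.1.rm.all.self) hv').1
  have hex := ex_eq hQ hs' hq'
  rcases jv_bB_node H h.mi hv with ⟨s, Sp, t₁, t₀, hs, h1⟩ | ⟨s, t₁, hs, h1⟩
  · have hn := hQ _ _ hs.1.rm.all.self
    have hp : p.Prime := prime_of_br hn.self.node
    obtain ⟨hq, g1, g2, a, ez⟩ := node_zb hQ hd1 hs h1
    have hl : ¬ isL (IT.br p Sp t₁ t₀) := fun h => h
    have hx := hs.1.rm.exA hl rfl
    obtain ⟨hP, hN⟩ := H.br hs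
    rcases Finset.mem_union.1 hq with hq1 | hq0
    · exact absurd hex (ex_ne hQ hp hn.bk.Apos hx hP hq1)
    · refine ⟨s, Sp, t₁, t₀, a, hs, hN, hq0, hp, ez, g1, g2, fun hd => ?_⟩
      obtain ⟨k, hk⟩ := hn.bk.dvd _ hq
      have hA0 := hn.bk.Apos
      rw [hk, Nat.mul_div_cancel_left _ hA0] at hd
      obtain ⟨l, hl'⟩ := hd
      have h6 : s.A * p ∣ j.1.1 := ⟨l, by rw [hk, hl']; ring⟩
      have h7 : ex p (s.A * p) ≤ ex p j.1.1 :=
        Crest.Agent.R4P.StratN36.ex_le (hn.bk.pos _ hq) h6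
      rw [ex_mul hp hA0, hx] at h7
      omega
  · exfalso
    have hn := hQ _ _ hs.1.rm.all.self
    have hp : p.Prime := prime_of_pl hn.self.node
    have hl : ¬ isL (IT.pl p t₁) := fun h => h
    have hx := hs.1.rm.exA hl rfl
    have hP := H.pl hs
    obtain ⟨hq, -⟩ := node_zb hQ hd1 hs h1
    exact ex_ne hQ hp hn.bk.Apos hx hP hq hex

variable {s : NS} {Sp : Finset ℕ} {t₁ t₀ : IT} {a : ℤ}

lemma NL.nd (hQ : ∀ u τ, Q u τ → NDt X.par (w X.ψ) X.c.t u τ) {m : Me}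
    (h : NL X Q p m j x s Sp t₁ t₀ a) : NDt X.par (w X.ψ) X.c.t s (.br p Sp t₁ t₀) :=
  hQ _ _ h.hs.1.rm.all.self

lemma NL.nd0 (hQ : ∀ u τ, Q u τ → NDt X.par (w X.ψ) X.c.t u τ) {m : Me}
    (h : NL X Q p m j x s Sp t₁ t₀ a) : NDt X.par (w X.ψ) X.c.t ⟨p, s.c * p, s.A, s.B * p⟩ t₀ :=
  hQ _ _ h.hN.1.rm.all.self

lemma NL.B_eq (hQ : ∀ u τ, Q u τ → NDt X.par (w X.ψ) X.c.t u τ) {m : Me}
    (h : NL X Q p m j x s Sp t₁ t₀ a) : Bm (pm X.c.t p m j.1.1) = s.B :=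
  h.hs.1.B_eq hQ X.tOk (Finset.mem_union_right _ h.mem)

lemma NL.zr {m : Me} (h : NL X Q p m j x s Sp t₁ t₀ a) : |zb X.c p m x j| ≤ X.c.r j.1.1 := by
  have h3 := X.ok.bp_ge j j.1.2
  have h4 := X.ok.bp_le j (Cf.k_lt j)
  have h1 := h.z1
  have h2 := h.z2
  rw [abs_le]
  exact ⟨by linarith, by linarith⟩

/-- the index below is the index at the point of the arc -/
lemma NL.ixp (hQ : ∀ u τ, Q u τ → NDt X.par (w X.ψ) X.c.t u τ) (hd1 : X.c.d1 * Kc X.S ≤ 1) {m : Me}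
    (h : NL X Q p m j x s Sp t₁ t₀ a) (σ : Option ℚ) :
    ixp X.c p σ (pm X.c.t p (tuM p m) j.1.1) (tuM p m).2 (p * x) j =
      X.c.wp.ix X.c.γ p j.1.1 σ (zb X.c p m x j) := by
  have hn := h.nd hQ
  have hn0 := h.nd0 hQ
  have hq := Finset.mem_union_right t₁.items h.mem
  have hB0 : 0 < s.B * p := Nat.pos_of_ne_zero hn0.bk.sfB.ne_zero
  have hwl := AddNode7.win_len hd1 hn0 (j := j) h.mem
  have e4 : ((⟨p, s.c * p, s.A, s.B * p⟩ : NS).B : ℝ) = ((s.B * p : ℕ) : ℝ) := rfl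
  rw [e4, Nat.cast_one, div_one, ← mul_sub] at hwl
  have hBp : (0 : ℝ) < ((s.B * p : ℕ) : ℝ) := by exact_mod_cast hB0
  have h1 := h.z1
  have h2 := h.z2
  refine ixp_eq (a := p * a) ?_ ?_ h1 ?_
  · rw [h.hN.1.B_eq hQ X.tOk h.mem]; exact hB0
  · rw [h.hN.1.B_eq hQ X.tOk h.mem, h.hN.1.w_eq hQ X.tOk h.mem]
    have e : ((s.B * p : ℕ) : ℝ) * zb X.c p m x j = p * (s.B * zb X.c p m x j) := by
      push_cast; ring
    show ((s.B * p : ℕ) : ℝ) * zb X.c p m x j = _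
    rw [e, h.ez]
    push_cast
    ring
  · rw [h.hN.1.B_eq hQ X.tOk h.mem]
    exact lt_of_lt_of_le (mul_lt_mul_of_pos_left (by linarith) hBp) hwl

/-- **the sheet lemma** -/
theorem sheet (hQ : ∀ u τ, Q u τ → NDt X.par (w X.ψ) X.c.t u τ) (hd1 : X.c.d1 * Kc X.S ≤ 1)
    {m : Me} {j j' : X.c.Lam} {y : ℝ} {i i' : ℕ} (hi : i < p) (hi' : i' < p)
    {s s' : NS} {Sp Sp' : Finset ℕ} {t₁ t₀ t₁' t₀' : IT} {a a' : ℤ}
    (h : NL X Q p m j ((y + i) / p) s Sp t₁ t₀ a)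
    (h' : NL X Q p m j' ((y + i') / p) s' Sp' t₁' t₀' a') {σ σ' : ℚ}
    (hσ : LbE X.c.wp X.c.γ X.c.r X.c.t (top X.S) j.1.1 σ)
    (hσ' : LbE X.c.wp X.c.γ X.c.r X.c.t (top X.S) j'.1.1 σ')
    (hk : ¬ p ∣ (((Bm (pm X.c.t p m j.1.1) : ℕ) : ℚ) * σ).den)
    (hk' : ¬ p ∣ (((Bm (pm X.c.t p m j'.1.1) : ℕ) : ℚ) * σ').den)
    (hix : ixp X.c p (some σ) (pm X.c.t p (tuM p m) j.1.1) (tuM p m).2 y j =
      ixp X.c p (some σ') (pm X.c.t p (tuM p m) j'.1.1) (tuM p m).2 y j') : i = i' := by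
  have hp := h.pr
  have hp0 : (p : ℝ) ≠ 0 := by exact_mod_cast hp.ne_zero
  have hn := h.nd hQ
  have hn' := h'.nd hQ
  have hn0 := h.nd0 hQ
  have hn0' := h'.nd0 hQ
  have e1 : (p : ℝ) * ((y + i) / p) = y + i := by field_simp
  have e1' : (p : ℝ) * ((y + i') / p) = y + i' := by field_simp
  -- the index at the points of the arcs
  have k1 := h.ixp hQ hd1 (some σ)
  have k1' := h'.ixp hQ hd1 (some σ')
  rw [e1, (MP_ixp0 _ _ _ _ _ _).per_nat] at k1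
  rw [e1', (MP_ixp0 _ _ _ _ _ _).per_nat] at k1'
  rw [k1, k1'] at hix
  have hq := Finset.mem_union_right t₁.items h.mem
  have hq' := Finset.mem_union_right t₁'.items h'.mem
  have hw : 0 < j.1.1 / s.A := Nat.pos_of_ne_zero (hn.div_ne hq)
  have hw' : 0 < j'.1.1 / s'.A := Nat.pos_of_ne_zero (hn'.div_ne hq')
  have hA : 0 < s.A := hn.A_pos
  have hA' : 0 < s'.A := hn'.A_pos
  have hB : 0 < s.B := hn.B_pos
  have hB' : 0 < s'.B := hn'.B_pos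
  have hAB : s.A * s.B = s'.A * s'.B := by rw [h.hs.1.T, h'.hs.1.T]
  have hBB := BB_le (X := X) hn0 hn0' h.mem h'.mem
  have eB := ezl hp0 h.ez
  have eB' := ezl hp0 h'.ez
  have key := exact_node3 (p := p) (p' := p) X.fine (Cf.mem_S j) (Cf.mem_S j')
    (X.sys.pos _ (X.mem_S j)) (X.sys.pos _ (X.mem_S j')) hσ hσ' (A := s.A) (B := s.B * p)
    (W := j.1.1 / s.A) (A' := s'.A) (B' := s'.B * p) (W' := j'.1.1 / s'.A) hA
    (Nat.mul_pos hB hp.pos) hA' hw hw' (Nat.mul_div_cancel' (hn.bk.dvd _ hq)).symm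
    (Nat.mul_div_cancel' (hn'.bk.dvd _ hq')).symm (by rw [← mul_assoc, ← mul_assoc, hAB]) (by
      have h1 : s.B * p ≤ (s.B * p) * (s'.B * p) :=
        Nat.le_mul_of_pos_right _ (Nat.mul_pos hB' hp.pos)
      exact (h1.trans hBB).trans (Nat.le_mul_of_pos_right _ hA')) eB eB' h.zr h'.zr hix
  -- the difference of the sheets
  rw [h.B_eq hQ] at hk
  rw [h'.B_eq hQ] at hk'
  have hwq : ((j.1.1 / s.A : ℕ) : ℝ) ≠ 0 := by exact_mod_cast hw.ne'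
  have hwq' : ((j'.1.1 / s'.A : ℕ) : ℝ) ≠ 0 := by exact_mod_cast hw'.ne'
  have key2 : (p : ℝ) * (((a : ℝ) + ((((s.B : ℕ) : ℚ) * σ : ℚ) : ℝ)) / ((j.1.1 / s.A : ℕ) : ℝ) -
      (a' + ((((s'.B : ℕ) : ℚ) * σ' : ℚ) : ℝ)) / ((j'.1.1 / s'.A : ℕ) : ℝ)) = (i : ℝ) - i' := by
    rw [cen hwq, cen hwq'] at key
    rw [mul_sub]
    linarith
  have key3 : (p : ℚ) * (((a : ℚ) + ((s.B : ℕ) : ℚ) * σ) / ((j.1.1 / s.A : ℕ) : ℚ) -
      (a' + ((s'.B : ℕ) : ℚ) * σ') / ((j'.1.1 / s'.A : ℕ) : ℚ)) = (((i : ℤ) - i' : ℤ) : ℚ) := by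
    have : ((((p : ℚ) * (((a : ℚ) + ((s.B : ℕ) : ℚ) * σ) / ((j.1.1 / s.A : ℕ) : ℚ) -
      (a' + ((s'.B : ℕ) : ℚ) * σ') / ((j'.1.1 / s'.A : ℕ) : ℚ)) : ℚ)) : ℝ) =
      ((((i : ℤ) - i' : ℤ) : ℚ) : ℝ) := by
      push_cast
      push_cast at key2
      exact key2
    exact_mod_cast this
  have hd := p_dvd hp h.nw h'.nw hk hk' key3
  have h3 : |((i : ℤ) - i')| < p := by
    rw [abs_lt]
    constructor <;> omega
  have h4 := Int.eq_zero_of_abs_lt_dvd hd h3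
  omega

end ctx

end Crest.Agent.R4P.ShL48
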