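import Crest.Agent.R4P.ShR_18

/-!
R4 (S0004) with powers, helper18: **explicit exponents for the shares of ShR_18**.

* `Kf_small` : `Kf C Z k ≤ k ^ η` for `Z ≥ exp ((log k) ^ a)`, `k ≥ k₀(C, a, η)`;
* `B2_small` : `B2 U ≤ k ^ (1/100) / U + k ^ (-4/5)` if `log P ≤ k ^ c`, `(C + 1) c ≤ 1/10`;
* `class_small`, `piece_small`, `pair_small` : the shares of `sum_gt`, `piece_sum`, `pair_sum`.
-/

set_option autoImplicit false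

namespace Crest.Agent.R4P.ShX18

open Finset ShR18

/-- `c ≤ k ^ ε` for `k` large -/
lemma const_le (c : ℝ) {ε : ℝ} (hε : 0 < ε) : ∃ k₀ : ℕ, 1 ≤ k₀ ∧ ∀ k : ℕ, k₀ ≤ k →
    c ≤ (k : ℝ) ^ ε := by
  have h := (tendsto_rpow_atTop hε).comp (tendsto_natCast_atTop_atTop (R := ℝ))
  have h1 := (h.eventually_ge_atTop c)
  obtain ⟨k₀, hk⟩ := Filter.eventually_atTop.1 h1
  exact ⟨max k₀ 1, le_max_right _ _, fun k hk' => hk k (le_trans (le_max_left _ _) hk')⟩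

/-- `c ≤ (log k) ^ ε` for `k` large -/
lemma const_le_log (c : ℝ) {ε : ℝ} (hε : 0 < ε) : ∃ k₀ : ℕ, 1 ≤ k₀ ∧ ∀ k : ℕ, k₀ ≤ k →
    c ≤ (Real.log k) ^ ε := by
  have h := (tendsto_rpow_atTop hε).comp
    (Real.tendsto_log_atTop.comp (tendsto_natCast_atTop_atTop (R := ℝ)))
  have h1 := (h.eventually_ge_atTop c)
  obtain ⟨k₀, hk⟩ := Filter.eventually_atTop.1 h1
  exact ⟨max k₀ 1, le_max_right _ _, fun k hk' => hk k (le_trans (le_max_left _ _) hk')⟩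

/-- `log k ≤ k ^ ε` for `k` large -/
lemma log_le_rpow {ε : ℝ} (hε : 0 < ε) : ∃ k₀ : ℕ, 1 ≤ k₀ ∧ ∀ k : ℕ, k₀ ≤ k →
    Real.log k ≤ (k : ℝ) ^ ε := by
  obtain ⟨k₀, h1, h2⟩ := const_le (2 / ε) (half_pos hε)
  refine ⟨k₀, h1, fun k hk => ?_⟩
  have hk0 : (0 : ℝ) ≤ k := Nat.cast_nonneg k
  have h3 := Real.log_le_rpow_div hk0 (half_pos hε)
  have h4 := h2 k hk
  have hkp : (0 : ℝ) < k := by exact_mod_cast (h1.trans hk)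
  calc Real.log k ≤ (k : ℝ) ^ (ε / 2) / (ε / 2) := h3
    _ = (2 / ε) * (k : ℝ) ^ (ε / 2) := by field_simp
    _ ≤ (k : ℝ) ^ (ε / 2) * (k : ℝ) ^ (ε / 2) := mul_le_mul_of_nonneg_right h4 (by positivity)
    _ = (k : ℝ) ^ ε := by rw [← Real.rpow_add hkp, add_halves]

/-- **`K` is a small power** -/
theorem Kf_small {C a η : ℝ} (hC : 1 ≤ C) (ha : 0 < a) (hη : 0 < η) : ∃ k₀ : ℕ, 1 ≤ k₀ ∧
    ∀ k : ℕ, k₀ ≤ k → ∀ Z : ℝ, Real.exp (Real.log k ^ a) ≤ Z → Kf C Z k ≤ (k : ℝ) ^ η := by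
  obtain ⟨k₀, h1, h2⟩ := const_le_log (Real.log (1 + C) / η) ha
  refine ⟨max k₀ 2, by omega, fun k hk Z hZ => ?_⟩
  have hk1 : k₀ ≤ k := le_trans (le_max_left _ _) hk
  have hk2 : 2 ≤ k := le_trans (le_max_right _ _) hk
  have hkp : (0 : ℝ) < k := by exact_mod_cast (show 0 < k by omega)
  have hlk : 0 < Real.log k := Real.log_pos (by exact_mod_cast hk2)
  have hL : 0 < Real.log (1 + C) := Real.log_pos (by linarith)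
  have h3 : Real.log k ^ a ≤ Real.log Z := by
    rw [Real.le_log_iff_exp_le ((Real.exp_pos _).trans_le hZ)]
    exact hZ
  have h4 : 0 < Real.log k ^ a := Real.rpow_pos_of_pos hlk a
  have h5 := h2 k hk1
  rw [div_le_iff₀ hη] at h5
  unfold Kf
  rw [Real.rpow_def_of_pos (by linarith), Real.rpow_def_of_pos hkp, Real.exp_le_exp]
  rw [← mul_div_assoc, div_le_iff₀ (h4.trans_le h3)]
  have h6 : Real.log (1 + C) ≤ Real.log Z * η := h5.trans (mul_le_mul_of_nonneg_right h3 hη.le)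
  nlinarith

lemma Kf_two {C Z : ℝ} (hC : 1 ≤ C) (hZ : 1 < Z) {k₁ k₂ : ℕ} (h0 : 1 ≤ k₂) (h : k₂ ≤ k₁ ^ 2) :
    Kf C Z k₂ ≤ Kf C Z k₁ ^ 2 := by
  refine (Kf_mono hC hZ h0 h).trans (le_of_eq ?_)
  unfold Kf
  rw [← Real.rpow_natCast, ← Real.rpow_mul (by linarith)]
  congr 1
  push_cast
  rw [Real.log_pow]
  push_cast
  ring

/-- **explicit exponents of the bound** -/
theorem B2_small {C a c : ℝ} (hC : 1 ≤ C) (ha : 0 < a) (hc : 0 ≤ c) (hcC : (C + 1) * c ≤ 1 / 10) :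
    ∃ k₀ : ℕ, 1 ≤ k₀ ∧ ∀ (S : Finset ℕ) (w : ℕ → ℝ) (Z : ℝ) (P : ℕ), Ws S w C Z P → 2 ≤ P →
    ∀ k₁ k₂ : ℕ, k₀ ≤ k₁ → 1 ≤ k₂ → k₂ ≤ k₁ ^ 2 → Real.log P ≤ (k₁ : ℝ) ^ c →
    Real.exp (Real.log k₁ ^ a) ≤ Z →
    Wt S w ≤ (k₁ : ℝ) ^ (11 / 100 : ℝ) ∧
    ∀ U : ℝ, 0 < U → B2 S w C Z P U k₁ k₂ ≤ (k₁ : ℝ) ^ (1 / 100 : ℝ) / U + (k₁ : ℝ) ^ (-(4 / 5) : ℝ) := by
  obtain ⟨n1, a1, b1⟩ := Kf_small hC ha (show (0 : ℝ) < 1 / 400 by norm_num)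
  obtain ⟨n2, a2, b2⟩ := log_le_rpow (show (0 : ℝ) < 1 / 100 by norm_num)
  obtain ⟨n3, a3, b3⟩ := const_le (Real.exp (C * Zone11.cD)) (show (0 : ℝ) < 1 / 100 by norm_num)
  obtain ⟨n4, a4, b4⟩ := const_le (6 * C) (show (0 : ℝ) < 1 / 100 by norm_num)
  refine ⟨max (max n1 n2) (max n3 n4), by omega, fun S w Z P h hP k₁ k₂ hk h2 h12 hlP hZ => ?_⟩
  have hn1 : n1 ≤ k₁ := by omega
  have hn2 : n2 ≤ k₁ := by omega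
  have hn3 : n3 ≤ k₁ := by omega
  have hn4 : n4 ≤ k₁ := by omega
  have hk1 : (1 : ℝ) ≤ k₁ := by exact_mod_cast (a1.trans hn1)
  have hk0 : (0 : ℝ) < k₁ := by linarith
  have c1 := b1 k₁ hn1 Z hZ
  have c2 := b2 k₁ hn2
  have c3 := b3 k₁ hn3
  have c4 := b4 k₁ hn4
  have hC0 : 0 < C := by linarith
  have hK1 : 1 ≤ Kf C Z k₁ := Kf_ge hC h.Z1 k₁
  have hK2 : 1 ≤ Kf C Z k₂ := Kf_ge hC h.Z1 k₂
  have hK : Kf C Z k₂ ≤ (k₁ : ℝ) ^ (1 / 200 : ℝ) := by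
    refine (Kf_two hC h.Z1 h2 h12).trans ?_
    calc Kf C Z k₁ ^ 2 ≤ ((k₁ : ℝ) ^ (1 / 400 : ℝ)) ^ 2 := pow_le_pow_left₀ (by linarith) c1 2
      _ = (k₁ : ℝ) ^ (1 / 200 : ℝ) := by
        rw [← Real.rpow_natCast, ← Real.rpow_mul hk0.le]; norm_num
  have hW0 := Wt_ge h.w0
  have hP1 : (1 : ℝ) < P := by exact_mod_cast hP
  have hlP0 : 0 ≤ Real.log P := Real.log_nonneg hP1.le
  -- the total weight
  have hW : Wt S w ≤ (k₁ : ℝ) ^ (11 / 100 : ℝ) := by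
    refine (W_le h hP).trans ?_
    have e1 : Real.log P ^ C ≤ (k₁ : ℝ) ^ (1 / 10 : ℝ) := by
      calc Real.log P ^ C ≤ ((k₁ : ℝ) ^ c) ^ C := Real.rpow_le_rpow hlP0 hlP hC0.le
        _ = (k₁ : ℝ) ^ (c * C) := by rw [← Real.rpow_mul hk0.le]
        _ ≤ (k₁ : ℝ) ^ (1 / 10 : ℝ) := by
            refine Real.rpow_le_rpow_of_exponent_le hk1 ?_
            nlinarith
    calc Real.exp (C * Zone11.cD) * Real.log P ^ C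
        ≤ (k₁ : ℝ) ^ (1 / 100 : ℝ) * (k₁ : ℝ) ^ (1 / 10 : ℝ) :=
          mul_le_mul c3 e1 (Real.rpow_nonneg hlP0 _) (by positivity)
      _ = (k₁ : ℝ) ^ (11 / 100 : ℝ) := by
          rw [← Real.rpow_add hk0]; norm_num
  refine ⟨hW, fun U hU => ?_⟩
  unfold B2
  refine add_le_add (div_le_div_of_nonneg_right ?_ hU.le) ?_
  · calc Kf C Z k₂ ^ 2 ≤ ((k₁ : ℝ) ^ (1 / 200 : ℝ)) ^ 2 := pow_le_pow_left₀ (by linarith) hK 2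
      _ = (k₁ : ℝ) ^ (1 / 100 : ℝ) := by
        rw [← Real.rpow_natCast, ← Real.rpow_mul hk0.le]; norm_num
  · -- the second term
    have hlk2 : Real.log k₂ ≤ 2 * (k₁ : ℝ) ^ (1 / 100 : ℝ) := by
      have : Real.log k₂ ≤ Real.log ((k₁ : ℝ) ^ 2) :=
        Real.log_le_log (by exact_mod_cast h2) (by exact_mod_cast h12)
      rw [Real.log_pow] at this
      push_cast at this
      linarith
    have hc1 : c ≤ 1 / 20 := by nlinarith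
    have e3 : 1 + Real.log P + 2 * Real.log k₂ ≤ 6 * (k₁ : ℝ) ^ (5 / 100 : ℝ) := by
      have d1 : (1 : ℝ) ≤ (k₁ : ℝ) ^ (5 / 100 : ℝ) := Real.one_le_rpow hk1 (by norm_num)
      have d2 : (k₁ : ℝ) ^ c ≤ (k₁ : ℝ) ^ (5 / 100 : ℝ) :=
        Real.rpow_le_rpow_of_exponent_le hk1 (by linarith)
      have d3 : (k₁ : ℝ) ^ (1 / 100 : ℝ) ≤ (k₁ : ℝ) ^ (5 / 100 : ℝ) :=
        Real.rpow_le_rpow_of_exponent_le hk1 (by norm_num)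
      linarith
    have hk3 : Kf C Z k₂ ^ 3 ≤ (k₁ : ℝ) ^ (3 / 200 : ℝ) := by
      calc Kf C Z k₂ ^ 3 ≤ ((k₁ : ℝ) ^ (1 / 200 : ℝ)) ^ 3 := pow_le_pow_left₀ (by linarith) hK 3
        _ = (k₁ : ℝ) ^ (3 / 200 : ℝ) := by
          rw [← Real.rpow_natCast, ← Real.rpow_mul hk0.le]; norm_num
    have hl2 : 0 ≤ Real.log (k₂ : ℝ) := Real.log_natCast_nonneg k₂
    rw [div_le_iff₀ hk0]
    calc C * Kf C Z k₂ ^ 3 * Wt S w * (1 + Real.log P + 2 * Real.log k₂)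
        ≤ C * (k₁ : ℝ) ^ (3 / 200 : ℝ) * (k₁ : ℝ) ^ (11 / 100 : ℝ) *
            (6 * (k₁ : ℝ) ^ (5 / 100 : ℝ)) := by
          refine mul_le_mul (mul_le_mul (mul_le_mul_of_nonneg_left hk3 hC0.le) hW (by linarith)
            (by positivity)) e3 (by linarith) (by positivity)
      _ = (6 * C) * ((k₁ : ℝ) ^ (3 / 200 : ℝ) * (k₁ : ℝ) ^ (11 / 100 : ℝ) *
            (k₁ : ℝ) ^ (5 / 100 : ℝ)) := by ring
      _ = (6 * C) * (k₁ : ℝ) ^ (175 / 1000 : ℝ) := by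
          rw [← Real.rpow_add hk0, ← Real.rpow_add hk0]
          norm_num
      _ ≤ (k₁ : ℝ) ^ (1 / 100 : ℝ) * (k₁ : ℝ) ^ (175 / 1000 : ℝ) :=
          mul_le_mul_of_nonneg_right c4 (by positivity)
      _ = (k₁ : ℝ) ^ (185 / 1000 : ℝ) := by
          rw [← Real.rpow_add hk0]; norm_num
      _ ≤ (k₁ : ℝ) ^ (1 / 5 : ℝ) := Real.rpow_le_rpow_of_exponent_le hk1 (by norm_num)
      _ = (k₁ : ℝ) ^ (-(4 / 5) : ℝ) * k₁ := by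
          nth_rewrite 3 [← Real.rpow_one (k₁ : ℝ)]
          rw [← Real.rpow_add hk0]; norm_num

/-- **one residue class**, explicit -/
theorem class_small {C a c : ℝ} (hC : 1 ≤ C) (ha : 0 < a) (hc : 0 ≤ c)
    (hcC : (C + 1) * c ≤ 1 / 10) :
    ∃ k₀ : ℕ, 1 ≤ k₀ ∧ ∀ (S : Finset ℕ) (w : ℕ → ℝ) (Z : ℝ) (P : ℕ), Ws S w C Z P → 2 ≤ P →
    ∀ ρ θ : ℚ, k₀ ≤ ρ.den → Real.log P ≤ (ρ.den : ℝ) ^ c → Real.exp (Real.log ρ.den ^ a) ≤ Z →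
    ∀ U : ℝ, 1 ≤ U → ∀ F : Finset (Finset ℕ),
    (∀ E ∈ F, E ⊆ S ∧ U < ((∏ p ∈ E, p : ℕ) : ℝ) ∧ Co ((∏ p ∈ E, p : ℕ) * ρ) θ) →
    ∑ E ∈ F, ∏ p ∈ E, w p ≤ (ρ.den : ℝ) ^ (1 / 100 : ℝ) / U + (ρ.den : ℝ) ^ (-(4 / 5) : ℝ) := by
  obtain ⟨k₀, h0, hb⟩ := B2_small hC ha hc hcC
  refine ⟨k₀, h0, fun S w Z P h hP ρ θ hk hlP hZ U hU F hF => ?_⟩
  have h1 := (hb S w Z P h hP ρ.den ρ.den hk ρ.pos (by
    rw [pow_two]; exact Nat.le_mul_of_pos_left _ ρ.pos) hlP hZ).2 U (by linarith)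
  refine (sum_gt h (by omega) hU hF).trans (le_trans ?_ h1)
  exact Bd_le h (by linarith) ρ.pos le_rfl le_rfl

/-- **per piece form**, explicit -/
theorem piece_small {C a c : ℝ} (hC : 1 ≤ C) (ha : 0 < a) (hc : 0 ≤ c)
    (hcC : (C + 1) * c ≤ 1 / 10) :
    ∃ k₀ : ℕ, 1 ≤ k₀ ∧ ∀ (S : Finset ℕ) (w : ℕ → ℝ) (Z : ℝ) (P : ℕ), Ws S w C Z P → 2 ≤ P →
    ∀ ρ ρ' : ℚ, k₀ ≤ ρ.den → Real.log P ≤ (ρ.den : ℝ) ^ c → Real.exp (Real.log ρ.den ^ a) ≤ Z →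
    ∀ U : ℝ, 1 ≤ U → ∀ (T : Finset ℕ) (G : Finset (Finset ℕ × Finset ℕ)),
    (∀ e ∈ G, e.1 ⊆ S ∧ e.2 ⊆ T ∧ U < ((∏ p ∈ e.1, p : ℕ) : ℝ) ∧
      Co ((∏ p ∈ e.1, p : ℕ) * ρ) ((∏ p ∈ e.2, p : ℕ) * ρ')) →
    ∑ e ∈ G, (∏ p ∈ e.1, w p) ≤
      2 ^ T.card * ((ρ.den : ℝ) ^ (1 / 100 : ℝ) / U + (ρ.den : ℝ) ^ (-(4 / 5) : ℝ)) := by
  obtain ⟨k₀, h0, hb⟩ := B2_small hC ha hc hcC
  refine ⟨k₀, h0, fun S w Z P h hP ρ ρ' hk hlP hZ U hU T G hG => ?_⟩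
  have h1 := (hb S w Z P h hP ρ.den ρ.den hk ρ.pos (by
    rw [pow_two]; exact Nat.le_mul_of_pos_left _ ρ.pos) hlP hZ).2 U (by linarith)
  refine (piece_sum h (by omega) hU hG).trans ?_
  refine mul_le_mul_of_nonneg_left (le_trans ?_ h1) (by positivity)
  exact Bd_le h (by linarith) ρ.pos le_rfl le_rfl

/-- **share of the primitive pairs of cofactors**, explicit -/
theorem pair_small {C a c : ℝ} (hC : 1 ≤ C) (ha : 0 < a) (hc : 0 ≤ c)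
    (hcC : (C + 1) * c ≤ 1 / 10) :
    ∃ k₀ : ℕ, 1 ≤ k₀ ∧ ∀ (S : Finset ℕ) (w : ℕ → ℝ) (Z : ℝ) (P : ℕ), Ws S w C Z P → 2 ≤ P →
    C ≤ Z → ∀ (ρ ρ' : ℚ) (k₁ k₂ : ℕ), k₀ ≤ k₁ → k₂ ≤ k₁ ^ 2 → k₁ ≤ ρ.den → ρ.den ≤ k₂ →
    k₁ ≤ ρ'.den → ρ'.den ≤ k₂ → Real.log P ≤ (k₁ : ℝ) ^ c → Real.exp (Real.log k₁ ^ a) ≤ Z →
    ∀ G : Finset (Finset ℕ × Finset ℕ),
    (∀ e ∈ G, e.1 ⊆ S ∧ e.2 ⊆ S ∧ Disjoint e.1 e.2 ∧ (e.1 ∪ e.2).Nonempty ∧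
      Co ((∏ p ∈ e.1, p : ℕ) * ρ) ((∏ p ∈ e.2, p : ℕ) * ρ')) →
    ∑ e ∈ G, (∏ p ∈ e.1, w p) * ∏ p ∈ e.2, w p ≤ C / Z + (k₁ : ℝ) ^ (-(1 / 3) : ℝ) := by
  obtain ⟨k₀, h0, hb⟩ := B2_small hC ha hc hcC
  obtain ⟨n1, a1, b1⟩ := const_le 4 (show (0 : ℝ) < 4 / 100 by norm_num)
  refine ⟨max k₀ n1, by omega, fun S w Z P h hP hCZ ρ ρ' k₁ k₂ hk hk2 h1 h2 h1' h2' hlP hZ G hG => ?_⟩
  have hk1 : 1 ≤ k₁ := by omega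
  have hk1r : (1 : ℝ) ≤ k₁ := by exact_mod_cast hk1
  have hk0 : (0 : ℝ) < k₁ := by linarith
  have hs : 0 < Real.sqrt k₁ := Real.sqrt_pos.2 hk0
  obtain ⟨hW, hB⟩ := hb S w Z P h hP k₁ k₂ (by omega) (hk1.trans (h1.trans h2)) hk2 hlP hZ
  have hB := hB (Real.sqrt k₁) hs
  refine (pair_sum h (by omega) hCZ hk1 h1 h2 h1' h2' hG).trans ?_
  refine add_le_add_right ?_ _
  have hW0 := Wt_ge h.w0
  have e1 : (k₁ : ℝ) ^ (1 / 100 : ℝ) / Real.sqrt k₁ = (k₁ : ℝ) ^ (-(49 / 100) : ℝ) := by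
    rw [Real.sqrt_eq_rpow, ← Real.rpow_sub hk0]; norm_num
  have e2 : (k₁ : ℝ) ^ (-(4 / 5) : ℝ) ≤ (k₁ : ℝ) ^ (-(49 / 100) : ℝ) :=
    Real.rpow_le_rpow_of_exponent_le hk1r (by norm_num)
  rw [e1] at hB
  have hBn := B2_nonneg h hs k₁ k₂
  calc 2 * Wt S w * B2 S w C Z P (Real.sqrt k₁) k₁ k₂
      ≤ 2 * (k₁ : ℝ) ^ (11 / 100 : ℝ) * (2 * (k₁ : ℝ) ^ (-(49 / 100) : ℝ)) := by
        refine mul_le_mul (by linarith) (by linarith) hBn (by positivity)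
    _ = 4 * (k₁ : ℝ) ^ (-(38 / 100) : ℝ) := by
        have : (k₁ : ℝ) ^ (11 / 100 : ℝ) * (k₁ : ℝ) ^ (-(49 / 100) : ℝ) =
            (k₁ : ℝ) ^ (-(38 / 100) : ℝ) := by rw [← Real.rpow_add hk0]; norm_num
        rw [← this]; ring
    _ ≤ (k₁ : ℝ) ^ (4 / 100 : ℝ) * (k₁ : ℝ) ^ (-(38 / 100) : ℝ) :=
        mul_le_mul_of_nonneg_right (b1 k₁ (by omega)) (by positivity)
    _ = (k₁ : ℝ) ^ (-(34 / 100) : ℝ) := by rw [← Real.rpow_add hk0]; norm_num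
    _ ≤ (k₁ : ℝ) ^ (-(1 / 3) : ℝ) := Real.rpow_le_rpow_of_exponent_le hk1r (by norm_num)

end Crest.Agent.R4P.ShX18
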