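import Crest.Agent.R4P.World2_363

/-!
(Port of `R4/WPex189` to the item tree with powers, `R4P/Cnt588`; helper746.)
R4 (S0004), helper189: **existence of the world parameters** `W363.WP`.

For any thinness `thr` and depth `dep`, any tree, radii, levels `≤ n` and any constant `K` there is a
`P : WP` with these `thr`, `dep` which is FINE for the finite set `S`: the logarithmic cells cover all
arcs and their central cell is negligible, the exact grid separates all snapped centres (also on the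
circles `A B` with `B ≤ K`) and covers all offsets.
-/

set_option autoImplicit false

namespace Crest.Agent.R4P.WPex189

open Crest.Agent.R4P.W363 Crest.Agent.R4P.Cnt588

/-- `σ` is the state of `q` at the level `p`, or the label of `q` at the present stage -/
def LbAt (P : WP) (γ : ℝ) (r : ℕ → ℝ) (t : IT) (p q : ℕ) (σ : ℚ) : Prop :=
  P.st γ r t p q = some σ ∨ lab0 γ (r q) (lst (t.mt q) p).prod = some σ

/-- **a rational of small height** against the root radius `ψ` : all the labels of a piece (real,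
permissive, sticky, at an effective radius, ...) are of this kind -/
def LbW (γ ψ : ℝ) (σ : ℚ) : Prop := 0 < ψ ∧ (σ.den : ℝ) * ψ ≤ 1 ∧ |γ - σ| ≤ 1

/-- **fineness** of the world parameters `P` for the items `S` (radii `r`) at the levels `≤ n` -/
structure Fine (P : WP) (γ : ℝ) (r : ℕ → ℝ) (t : IT) (S : Finset ℕ) (n K : ℕ) : Prop where
  ρ0 : 0 < P.ρ₀
  n0 : 0 < P.n₀
  /-- the cells cover the arcs -/
  cover : ∀ q ∈ S, r q / q < P.ρ₀ * Real.exp P.n₀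
  /-- the central cell is negligible -/
  tiny : ∀ p ≤ n, ∀ q ∈ S, 0 < q → 0 < r q →
    6 * P.ρ₀ ≤ (Real.exp (1 / 2 ^ P.dep p) - 1) * (r q / q)
  δ0 : 0 < P.δ₀
  /-- the grid separates the snapped centres -/
  grid : ∀ p ≤ n, ∀ p' ≤ n, ∀ q ∈ S, ∀ q' ∈ S, ∀ σ τ : ℚ, P.st γ r t p q = some σ →
    P.st γ r t p' q' = some τ → P.δ₀ * (K * ((σ.den * q) * (τ.den * q'))) ≤ 1
  /-- the grid covers the offsets -/
  off : ∀ p ≤ n, ∀ q ∈ S, 0 < q → ∀ σ : ℚ, P.st γ r t p q = some σ → ∀ z : ℝ, |z| ≤ r q →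
    |W363.off γ σ q z| < P.n₁ * P.δ₀
  /-- the grid separates the snapped centres of all the labels (states or present labels) -/
  gridB : ∀ p ≤ n, ∀ p' ≤ n, ∀ q ∈ S, ∀ q' ∈ S, ∀ σ τ : ℚ, LbAt P γ r t p q σ →
    LbAt P γ r t p' q' τ → P.δ₀ * (K * ((σ.den * q) * (τ.den * q'))) ≤ 1
  /-- the grid covers the offsets of all the labels -/
  offB : ∀ p ≤ n, ∀ q ∈ S, 0 < q → ∀ σ : ℚ, LbAt P γ r t p q σ → ∀ z : ℝ, |z| ≤ r q →
    |W363.off γ σ q z| < P.n₁ * P.δ₀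
  /-- the grid separates the snapped centres of all the rationals of small height -/
  gridW : ∀ q ∈ S, ∀ q' ∈ S, ∀ σ τ : ℚ, LbW γ (r q) σ → LbW γ (r q') τ →
    P.δ₀ * (K * ((σ.den * q) * (τ.den * q'))) ≤ 1
  /-- the grid covers the offsets of all the rationals of small height -/
  offW : ∀ q ∈ S, 0 < q → ∀ σ : ℚ, LbW γ (r q) σ → ∀ z : ℝ, |z| ≤ r q →
    |W363.off γ σ q z| < P.n₁ * P.δ₀

/-! ### elementary bounds over finite sets -/

lemma exists_pos_lb {ι : Type*} (s : Finset ι) (f : ι → ℝ) (hf : ∀ i ∈ s, 0 < f i) :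
    ∃ ε : ℝ, 0 < ε ∧ ∀ i ∈ s, ε ≤ f i := by
  classical
  induction s using Finset.induction_on with
  | empty => exact ⟨1, one_pos, by simp⟩
  | insert a s ha ih =>
    obtain ⟨ε, hε, h⟩ := ih fun i hi => hf i (Finset.mem_insert_of_mem hi)
    refine ⟨min ε (f a), lt_min hε (hf a (Finset.mem_insert_self _ _)), ?_⟩
    intro i hi
    rcases Finset.mem_insert.1 hi with rfl | hi
    · exact min_le_right _ _
    · exact (min_le_left _ _).trans (h i hi)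

lemma exists_ub {ι : Type*} (s : Finset ι) (f : ι → ℝ) :
    ∃ M : ℝ, 0 < M ∧ ∀ i ∈ s, f i ≤ M := by
  classical
  induction s using Finset.induction_on with
  | empty => exact ⟨1, one_pos, by simp⟩
  | insert a s ha ih =>
    obtain ⟨M, hM, h⟩ := ih
    refine ⟨max M (f a), lt_max_of_lt_left hM, ?_⟩
    intro i hi
    rcases Finset.mem_insert.1 hi with rfl | hi
    · exact le_max_right _ _
    · exact (h i hi).trans (le_max_left _ _)

lemma st_congr {P P' : WP} (h : P.thr = P'.thr) (γ : ℝ) (r : ℕ → ℝ) (t : IT) (p q : ℕ) :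
    P.st γ r t p q = P'.st γ r t p q := by
  unfold WP.st
  rw [h]

lemma lbAt_congr {P P' : WP} (h : P.thr = P'.thr) (γ : ℝ) (r : ℕ → ℝ) (t : IT) (p q : ℕ) (σ : ℚ) :
    LbAt P γ r t p q σ ↔ LbAt P' γ r t p q σ := by
  unfold LbAt
  rw [st_congr h]

/-- `Fine` from its parts (the fields `grid`, `off` are special cases of `gridB`, `offB`) -/
lemma Fine.mk' {P : WP} {γ : ℝ} {r : ℕ → ℝ} {t : IT} {S : Finset ℕ} {n K : ℕ} (h1 : 0 < P.ρ₀)
    (h2 : 0 < P.n₀) (h3 : ∀ q ∈ S, r q / q < P.ρ₀ * Real.exp P.n₀)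
    (h4 : ∀ p ≤ n, ∀ q ∈ S, 0 < q → 0 < r q →
      6 * P.ρ₀ ≤ (Real.exp (1 / 2 ^ P.dep p) - 1) * (r q / q))
    (h5 : 0 < P.δ₀)
    (h6 : ∀ p ≤ n, ∀ p' ≤ n, ∀ q ∈ S, ∀ q' ∈ S, ∀ σ τ : ℚ, LbAt P γ r t p q σ →
      LbAt P γ r t p' q' τ → P.δ₀ * (K * ((σ.den * q) * (τ.den * q'))) ≤ 1)
    (h7 : ∀ p ≤ n, ∀ q ∈ S, 0 < q → ∀ σ : ℚ, LbAt P γ r t p q σ → ∀ z : ℝ, |z| ≤ r q →
      |W363.off γ σ q z| < P.n₁ * P.δ₀)
    (h8 : ∀ q ∈ S, ∀ q' ∈ S, ∀ σ τ : ℚ, LbW γ (r q) σ → LbW γ (r q') τ →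
      P.δ₀ * (K * ((σ.den * q) * (τ.den * q'))) ≤ 1)
    (h9 : ∀ q ∈ S, 0 < q → ∀ σ : ℚ, LbW γ (r q) σ → ∀ z : ℝ, |z| ≤ r q →
      |W363.off γ σ q z| < P.n₁ * P.δ₀) : Fine P γ r t S n K where
  ρ0 := h1
  n0 := h2
  cover := h3
  tiny := h4
  δ0 := h5
  grid := fun p hp p' hp' q hq q' hq' σ τ hσ hτ =>
    h6 p hp p' hp' q hq q' hq' σ τ (Or.inl hσ) (Or.inl hτ)
  off := fun p hp q hq hq0 σ hσ => h7 p hp q hq hq0 σ (Or.inl hσ)
  gridB := h6
  offB := h7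
  gridW := h8
  offW := h9

open Classical in
/-- **existence of fine world parameters**, for two thresholds and depths at once (same cells and
same grid) -/
theorem exists_fine2 (thr thr' : ℕ → ℝ) (dep dep' : ℕ → ℕ) (γ : ℝ) (r : ℕ → ℝ) (t : IT)
    (S : Finset ℕ) (n K : ℕ) : ∃ P P' : WP, P.thr = thr ∧ P.dep = dep ∧ P'.thr = thr' ∧
      P'.dep = dep' ∧ P.ρ₀ = P'.ρ₀ ∧ P.n₀ = P'.n₀ ∧ P.δ₀ = P'.δ₀ ∧ P.n₁ = P'.n₁ ∧
      Fine P γ r t S n K ∧ Fine P' γ r t S n K := by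
  set P₁ : WP := ⟨thr, dep, 1, 1, 1, 1⟩ with hP₁
  set P₂ : WP := ⟨thr', dep', 1, 1, 1, 1⟩ with hP₂
  -- the scale `ρ₀`
  have hexp : ∀ k : ℕ, 0 < Real.exp (1 / 2 ^ k) - 1 := by
    intro k
    have h1 : (0 : ℝ) < 1 / 2 ^ k := by positivity
    have := Real.add_one_lt_exp h1.ne'
    linarith
  have hpos : ∀ dp : ℕ → ℕ, ∀ x ∈ (Finset.range (n + 1)) ×ˢ (S.filter fun q => 0 < q ∧ 0 < r q),
      0 < (Real.exp (1 / 2 ^ dp x.1) - 1) * (r x.2 / x.2) / 6 := by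
    rintro dp ⟨p, q⟩ h
    obtain ⟨-, h3⟩ := Finset.mem_product.1 h
    obtain ⟨-, h4, h5⟩ := Finset.mem_filter.1 h3
    have h6 := hexp (dp p)
    have h7 : (0 : ℝ) < q := by exact_mod_cast h4
    have h5' : 0 < r q := h5
    show 0 < (Real.exp (1 / 2 ^ dp p) - 1) * (r q / q) / 6
    positivity
  obtain ⟨ε₁, hε₁, h1a⟩ := exists_pos_lb
    ((Finset.range (n + 1)) ×ˢ (S.filter fun q => 0 < q ∧ 0 < r q))
    (fun x => (Real.exp (1 / 2 ^ dep x.1) - 1) * (r x.2 / x.2) / 6) (hpos dep)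
  obtain ⟨ε₂, hε₂, h1b⟩ := exists_pos_lb
    ((Finset.range (n + 1)) ×ˢ (S.filter fun q => 0 < q ∧ 0 < r q))
    (fun x => (Real.exp (1 / 2 ^ dep' x.1) - 1) * (r x.2 / x.2) / 6) (hpos dep')
  obtain ⟨ε, hεe⟩ : ∃ ε, ε = min ε₁ ε₂ := ⟨_, rfl⟩
  have hε : 0 < ε := by rw [hεe]; exact lt_min hε₁ hε₂
  have hεa : ε ≤ ε₁ := by rw [hεe]; exact min_le_left _ _
  have hεb : ε ≤ ε₂ := by rw [hεe]; exact min_le_right _ _
  -- the range `n₀`
  obtain ⟨M₀, hM₀, h2⟩ := exists_ub S (fun q => r q / q)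
  obtain ⟨k₀, hk₀⟩ := exists_nat_gt (M₀ / ε)
  -- the grid: all the labels
  set L : ℕ → ℕ → Finset ℚ := fun p q =>
    (P₁.st γ r t p q).toFinset ∪ (P₂.st γ r t p q).toFinset ∪
      (lab0 γ (r q) (lst (t.mt q) p).prod).toFinset with hL
  have hLa : ∀ p q σ, LbAt P₁ γ r t p q σ → σ ∈ L p q := by
    rintro p q σ (h | h)
    · exact Finset.mem_union_left _ (Finset.mem_union_left _ (by rw [h]; simp))
    · exact Finset.mem_union_right _ (by rw [h]; simp)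
  have hLb : ∀ p q σ, LbAt P₂ γ r t p q σ → σ ∈ L p q := by
    rintro p q σ (h | h)
    · exact Finset.mem_union_left _ (Finset.mem_union_right _ (by rw [h]; simp))
    · exact Finset.mem_union_right _ (by rw [h]; simp)
  set T : Finset (ℕ × ℚ) := ((Finset.range (n + 1)) ×ˢ S).biUnion
    (fun x => (L x.1 x.2).image fun σ => (x.2, σ)) with hT
  have hmT : ∀ p ≤ n, ∀ q ∈ S, ∀ σ ∈ L p q, (q, σ) ∈ T := by
    intro p hp q hq σ hσ
    rw [hT, Finset.mem_biUnion]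
    exact ⟨(p, q), Finset.mem_product.2 ⟨Finset.mem_range.2 (Nat.lt_succ_of_le hp), hq⟩,
      Finset.mem_image.2 ⟨σ, hσ, rfl⟩⟩
  obtain ⟨Ma, hMa, h3a⟩ := exists_ub (T ×ˢ T)
    (fun x => (K : ℝ) * ((x.1.2.den * x.1.1) * (x.2.2.den * x.2.1)))
  obtain ⟨Mb, hMb, h4a⟩ := exists_ub T (fun x => (r x.1 + |γ - x.2|) / x.1)
  obtain ⟨Mc, hMc, h3c⟩ := exists_ub (S ×ˢ S)
    (fun x => (K : ℝ) * ((1 / r x.1 * x.1) * (1 / r x.2 * x.2)))
  obtain ⟨Md, hMd, h4c⟩ := exists_ub S (fun q => (r q + 1) / q)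
  obtain ⟨M₁, hM₁e⟩ : ∃ M, M = max Ma Mc := ⟨_, rfl⟩
  obtain ⟨M₂, hM₂e⟩ : ∃ M, M = max Mb Md := ⟨_, rfl⟩
  have hM₁ : 0 < M₁ := by rw [hM₁e]; exact lt_max_of_lt_left hMa
  have h3 : ∀ x ∈ T ×ˢ T, (K : ℝ) * ((x.1.2.den * x.1.1) * (x.2.2.den * x.2.1)) ≤ M₁ :=
    fun x hx => (h3a x hx).trans (by rw [hM₁e]; exact le_max_left _ _)
  have h4 : ∀ x ∈ T, (r x.1 + |γ - x.2|) / x.1 ≤ M₂ :=
    fun x hx => (h4a x hx).trans (by rw [hM₂e]; exact le_max_left _ _)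
  have h3' : ∀ q ∈ S, ∀ q' ∈ S, (K : ℝ) * ((1 / r q * q) * (1 / r q' * q')) ≤ M₁ :=
    fun q hq q' hq' => (h3c (q, q') (Finset.mem_product.2 ⟨hq, hq'⟩)).trans
      (by rw [hM₁e]; exact le_max_right _ _)
  have h4' : ∀ q ∈ S, (r q + 1) / q ≤ M₂ :=
    fun q hq => (h4c q hq).trans (by rw [hM₂e]; exact le_max_right _ _)
  obtain ⟨k₁, hk₁⟩ := exists_nat_gt (M₂ * M₁)
  have key : ∀ (th : ℕ → ℝ) (dp : ℕ → ℕ),
      (∀ p q σ, LbAt ⟨th, dp, 1, 1, 1, 1⟩ γ r t p q σ → σ ∈ L p q) →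
      (∀ p ≤ n, ∀ q ∈ S, 0 < q → 0 < r q →
        ε ≤ (Real.exp (1 / 2 ^ dp p) - 1) * (r q / q) / 6) →
      Fine ⟨th, dp, ε, k₀ + 1, 1 / M₁, k₁⟩ γ r t S n K := by
    intro th dp hin h1
    have hlb : ∀ p q σ, LbAt ⟨th, dp, ε, k₀ + 1, 1 / M₁, k₁⟩ γ r t p q σ → σ ∈ L p q :=
      fun p q σ h => hin p q σ ((lbAt_congr rfl γ r t p q σ).1 h)
    refine Fine.mk' hε (Nat.succ_pos _) ?_ ?_ (by show 0 < 1 / M₁; positivity) ?_ ?_ ?_ ?_
    · intro q hq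
      refine lt_of_le_of_lt (h2 q hq) ?_
      show M₀ < ε * Real.exp ((k₀ + 1 : ℕ) : ℝ)
      have h5 : ((k₀ + 1 : ℕ) : ℝ) + 1 ≤ Real.exp ((k₀ + 1 : ℕ) : ℝ) := Real.add_one_le_exp _
      have h6 : M₀ < k₀ * ε := by rwa [div_lt_iff₀ hε] at hk₀
      push_cast at h5 ⊢
      nlinarith
    · intro p hp q hq hq0 hr
      have h6 := h1 p hp q hq hq0 hr
      show 6 * ε ≤ (Real.exp (1 / 2 ^ dp p) - 1) * (r q / q)
      linarith
    · intro p hp p' hp' q hq q' hq' σ τ hσ hτ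
      have h5 := h3 ((q, σ), (q', τ)) (Finset.mem_product.2
        ⟨hmT p hp q hq σ (hlb p q σ hσ), hmT p' hp' q' hq' τ (hlb p' q' τ hτ)⟩)
      have h8 : (K : ℝ) * ((σ.den * q) * (τ.den * q')) ≤ M₁ := h5
      show 1 / M₁ * ((K : ℝ) * ((σ.den * q) * (τ.den * q'))) ≤ 1
      rw [one_div, inv_mul_le_iff₀ hM₁, mul_one]
      exact h8
    · intro p hp q hq hq0 σ hσ z hz
      have h7 : (r q + |γ - σ|) / q ≤ M₂ := h4 (q, σ) (hmT p hp q hq σ (hlb p q σ hσ))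
      have h8 : |W363.off γ σ q z| ≤ (r q + |γ - σ|) / q := by
        unfold W363.off
        rw [abs_div, Nat.abs_cast]
        exact div_le_div_of_nonneg_right ((abs_add_le _ _).trans (by linarith)) (Nat.cast_nonneg _)
      show |W363.off γ σ q z| < (k₁ : ℝ) * (1 / M₁)
      refine lt_of_le_of_lt (h8.trans h7) ?_
      rw [mul_one_div, lt_div_iff₀ hM₁]
      exact hk₁
    · intro q hq q' hq' σ τ hσ hτ
      obtain ⟨a1, a2, -⟩ := hσ
      obtain ⟨b1, b2, -⟩ := hτ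
      have c1 : (σ.den : ℝ) ≤ 1 / r q := by rw [le_div_iff₀ a1]; exact a2
      have c2 : (τ.den : ℝ) ≤ 1 / r q' := by rw [le_div_iff₀ b1]; exact b2
      have h8 : (K : ℝ) * ((σ.den * q) * (τ.den * q')) ≤ M₁ := by
        refine le_trans ?_ (h3' q hq q' hq')
        refine mul_le_mul_of_nonneg_left ?_ (Nat.cast_nonneg _)
        refine mul_le_mul (mul_le_mul_of_nonneg_right c1 (Nat.cast_nonneg _))
          (mul_le_mul_of_nonneg_right c2 (Nat.cast_nonneg _)) (by positivity) ?_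
        exact mul_nonneg (one_div_nonneg.2 a1.le) (Nat.cast_nonneg _)
      show 1 / M₁ * ((K : ℝ) * ((σ.den * q) * (τ.den * q'))) ≤ 1
      rw [one_div, inv_mul_le_iff₀ hM₁, mul_one]
      exact h8
    · intro q hq hq0 σ hσ z hz
      have h8 : |W363.off γ σ q z| ≤ (r q + 1) / q := by
        unfold W363.off
        rw [abs_div, Nat.abs_cast]
        refine div_le_div_of_nonneg_right ((abs_add_le _ _).trans ?_) (Nat.cast_nonneg _)
        have := hσ.2.2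
        linarith
      show |W363.off γ σ q z| < (k₁ : ℝ) * (1 / M₁)
      refine lt_of_le_of_lt (h8.trans (h4' q hq)) ?_
      rw [mul_one_div, lt_div_iff₀ hM₁]
      exact hk₁
  refine ⟨⟨thr, dep, ε, k₀ + 1, 1 / M₁, k₁⟩, ⟨thr', dep', ε, k₀ + 1, 1 / M₁, k₁⟩, rfl, rfl, rfl,
    rfl, rfl, rfl, rfl, rfl, key thr dep hLa ?_, key thr' dep' hLb ?_⟩
  · intro p hp q hq hq0 hr
    exact hεa.trans (h1a (p, q) (Finset.mem_product.2 ⟨Finset.mem_range.2 (Nat.lt_succ_of_le hp),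
      Finset.mem_filter.2 ⟨hq, hq0, hr⟩⟩))
  · intro p hp q hq hq0 hr
    exact hεb.trans (h1b (p, q) (Finset.mem_product.2 ⟨Finset.mem_range.2 (Nat.lt_succ_of_le hp),
      Finset.mem_filter.2 ⟨hq, hq0, hr⟩⟩))

/-- **existence of fine world parameters** -/
theorem exists_fine (thr : ℕ → ℝ) (dep : ℕ → ℕ) (γ : ℝ) (r : ℕ → ℝ) (t : IT) (S : Finset ℕ)
    (n K : ℕ) : ∃ P : WP, P.thr = thr ∧ P.dep = dep ∧ Fine P γ r t S n K := by
  obtain ⟨P, -, h1, h2, -, -, -, -, -, -, h3, -⟩ := exists_fine2 thr thr dep dep γ r t S n K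
  exact ⟨P, h1, h2, h3⟩

/-! ### consequences in circle coordinates -/

/-- the denominator of `B σ` is at most the one of `σ` -/
lemma den_mul_le (B : ℕ) (σ : ℚ) : ((B : ℚ) * σ).den ≤ σ.den := by
  have h : ((B : ℚ) * σ).den ∣ (B : ℚ).den * σ.den := Rat.mul_den_dvd _ _
  have h1 : ((B : ℚ)).den = 1 := Rat.den_natCast _
  rw [h1, one_mul] at h
  exact Nat.le_of_dvd σ.den_pos h

/-- the separation on the circle `A B` (`q = A w`, `q' = A' w'`, `B ≤ K`): denominators of the root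
labels -/
theorem Fine.circle {P : WP} {γ : ℝ} {r : ℕ → ℝ} {t : IT} {S : Finset ℕ} {n K : ℕ}
    (h : Fine P γ r t S n K) {p p' q q' : ℕ} (hp : p ≤ n) (hp' : p' ≤ n) (hq : q ∈ S)
    (hq' : q' ∈ S) (hq0 : 0 < q') {σ τ : ℚ} (hσ : P.st γ r t p q = some σ)
    (hτ : P.st γ r t p' q' = some τ) {A A' B w w' : ℕ} (e : q = A * w) (e' : q' = A' * w')
    (hB : B ≤ K) :
    P.δ₀ * (((A * B : ℕ) : ℝ) * ((σ.den * w) * (τ.den * w'))) ≤ 1 := by
  refine le_trans ?_ (h.grid p hp p' hp' q hq q' hq' σ τ hσ hτ)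
  refine mul_le_mul_of_nonneg_left ?_ h.δ0.le
  have hw' : w' ≤ q' := Nat.le_of_dvd hq0 ⟨A', by rw [e', mul_comm]⟩
  have key : (A * B) * ((σ.den * w) * (τ.den * w')) ≤ K * ((σ.den * q) * (τ.den * q')) := by
    calc (A * B) * ((σ.den * w) * (τ.den * w')) = B * ((σ.den * (A * w)) * (τ.den * w')) := by ring
      _ = B * ((σ.den * q) * (τ.den * w')) := by rw [e]
      _ ≤ K * ((σ.den * q) * (τ.den * q')) := by
          refine Nat.mul_le_mul hB (Nat.mul_le_mul_left _ (Nat.mul_le_mul_left _ hw'))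
  exact_mod_cast key

/-- the same with the denominators of the labels on the circles -/
theorem Fine.circle' {P : WP} {γ : ℝ} {r : ℕ → ℝ} {t : IT} {S : Finset ℕ} {n K : ℕ}
    (h : Fine P γ r t S n K) {p p' q q' : ℕ} (hp : p ≤ n) (hp' : p' ≤ n) (hq : q ∈ S)
    (hq' : q' ∈ S) (hq0 : 0 < q') {σ τ : ℚ} (hσ : P.st γ r t p q = some σ)
    (hτ : P.st γ r t p' q' = some τ) {A A' B B' w w' : ℕ} (e : q = A * w) (e' : q' = A' * w')
    (hB : B ≤ K) :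
    P.δ₀ * (((A * B : ℕ) : ℝ) * ((((B : ℚ) * σ).den * w) * ((((B' : ℚ) * τ).den) * w'))) ≤ 1 := by
  refine le_trans ?_ (h.circle hp hp' hq hq' hq0 hσ hτ e e' hB)
  refine mul_le_mul_of_nonneg_left ?_ h.δ0.le
  have key : (A * B) * (((((B : ℚ) * σ)).den * w) * ((((B' : ℚ) * τ)).den * w')) ≤
      (A * B) * ((σ.den * w) * (τ.den * w')) :=
    Nat.mul_le_mul_left _ (Nat.mul_le_mul (Nat.mul_le_mul_right _ (den_mul_le B σ))
      (Nat.mul_le_mul_right _ (den_mul_le B' τ)))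
  exact_mod_cast key

/-- the separation on the circle `A B` for all the labels (states or present labels) -/
theorem Fine.circleB {P : WP} {γ : ℝ} {r : ℕ → ℝ} {t : IT} {S : Finset ℕ} {n K : ℕ}
    (h : Fine P γ r t S n K) {p p' q q' : ℕ} (hp : p ≤ n) (hp' : p' ≤ n) (hq : q ∈ S)
    (hq' : q' ∈ S) (hq0 : 0 < q') {σ τ : ℚ} (hσ : LbAt P γ r t p q σ)
    (hτ : LbAt P γ r t p' q' τ) {A A' B w w' : ℕ} (e : q = A * w) (e' : q' = A' * w')
    (hB : B ≤ K) :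
    P.δ₀ * (((A * B : ℕ) : ℝ) * ((σ.den * w) * (τ.den * w'))) ≤ 1 := by
  refine le_trans ?_ (h.gridB p hp p' hp' q hq q' hq' σ τ hσ hτ)
  refine mul_le_mul_of_nonneg_left ?_ h.δ0.le
  have hw' : w' ≤ q' := Nat.le_of_dvd hq0 ⟨A', by rw [e', mul_comm]⟩
  have key : (A * B) * ((σ.den * w) * (τ.den * w')) ≤ K * ((σ.den * q) * (τ.den * q')) := by
    calc (A * B) * ((σ.den * w) * (τ.den * w')) = B * ((σ.den * (A * w)) * (τ.den * w')) := by ring
      _ = B * ((σ.den * q) * (τ.den * w')) := by rw [e]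
      _ ≤ K * ((σ.den * q) * (τ.den * q')) := by
          refine Nat.mul_le_mul hB (Nat.mul_le_mul_left _ (Nat.mul_le_mul_left _ hw'))
  exact_mod_cast key

/-- the same with the denominators of the labels on the circles -/
theorem Fine.circleB' {P : WP} {γ : ℝ} {r : ℕ → ℝ} {t : IT} {S : Finset ℕ} {n K : ℕ}
    (h : Fine P γ r t S n K) {p p' q q' : ℕ} (hp : p ≤ n) (hp' : p' ≤ n) (hq : q ∈ S)
    (hq' : q' ∈ S) (hq0 : 0 < q') {σ τ : ℚ} (hσ : LbAt P γ r t p q σ)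
    (hτ : LbAt P γ r t p' q' τ) {A A' B B' w w' : ℕ} (e : q = A * w) (e' : q' = A' * w')
    (hB : B ≤ K) :
    P.δ₀ * (((A * B : ℕ) : ℝ) * ((((B : ℚ) * σ).den * w) * ((((B' : ℚ) * τ).den) * w'))) ≤ 1 := by
  refine le_trans ?_ (h.circleB hp hp' hq hq' hq0 hσ hτ e e' hB)
  refine mul_le_mul_of_nonneg_left ?_ h.δ0.le
  have key : (A * B) * (((((B : ℚ) * σ)).den * w) * ((((B' : ℚ) * τ)).den * w')) ≤
      (A * B) * ((σ.den * w) * (τ.den * w')) :=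
    Nat.mul_le_mul_left _ (Nat.mul_le_mul (Nat.mul_le_mul_right _ (den_mul_le B σ))
      (Nat.mul_le_mul_right _ (den_mul_le B' τ)))
  exact_mod_cast key

/-- **exact centres from equal labelled worlds** (root coordinates) -/
theorem Fine.exact {P : WP} {γ : ℝ} {r : ℕ → ℝ} {t : IT} {S : Finset ℕ} {n K : ℕ}
    (h : Fine P γ r t S n K) (hK : 0 < K) {p q q' : ℕ} (hp : p ≤ n) (hq : q ∈ S)
    (hq' : q' ∈ S) (hq0 : 0 < q) (hq0' : 0 < q') {σ τ : ℚ} (hσ : P.st γ r t p q = some σ)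
    (hτ : P.st γ r t p q' = some τ) {x z z' : ℝ} {a a' : ℤ} (hz : z = q * x - γ - a)
    (hz' : z' = q' * x - γ - a') (h1 : |z| ≤ r q) (h2 : |z'| ≤ r q')
    (hix : P.ix γ p q (some σ) z = P.ix γ p q' (some τ) z') :
    ((a : ℝ) + σ) / q = (a' + τ) / q' := by
  refine P.exact_of_same hq0 hq0' h.δ0 ?_ hz hz' (h.off p hp q hq hq0 σ hσ z h1)
    (h.off p hp q' hq' hq0' τ hτ z' h2) hix
  refine le_trans ?_ (h.grid p hp p hp q hq q' hq' σ τ hσ hτ)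
  refine mul_le_mul_of_nonneg_left ?_ h.δ0.le
  have key : (σ.den * q) * (τ.den * q') ≤ K * ((σ.den * q) * (τ.den * q')) :=
    Nat.le_mul_of_pos_left _ hK
  have key' : ((σ.den : ℝ) * q * (τ.den * q')) ≤ K * ((σ.den * q) * (τ.den * q')) := by
    exact_mod_cast key
  exact key'

/-- **exact centres from equal labelled worlds** (root coordinates), all the labels -/
theorem Fine.exactB {P : WP} {γ : ℝ} {r : ℕ → ℝ} {t : IT} {S : Finset ℕ} {n K : ℕ}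
    (h : Fine P γ r t S n K) (hK : 0 < K) {p q q' : ℕ} (hp : p ≤ n) (hq : q ∈ S)
    (hq' : q' ∈ S) (hq0 : 0 < q) (hq0' : 0 < q') {σ τ : ℚ} (hσ : LbAt P γ r t p q σ)
    (hτ : LbAt P γ r t p q' τ) {x z z' : ℝ} {a a' : ℤ} (hz : z = q * x - γ - a)
    (hz' : z' = q' * x - γ - a') (h1 : |z| ≤ r q) (h2 : |z'| ≤ r q')
    (hix : P.ix γ p q (some σ) z = P.ix γ p q' (some τ) z') :
    ((a : ℝ) + σ) / q = (a' + τ) / q' := by
  refine P.exact_of_same hq0 hq0' h.δ0 ?_ hz hz' (h.offB p hp q hq hq0 σ hσ z h1)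
    (h.offB p hp q' hq' hq0' τ hτ z' h2) hix
  refine le_trans ?_ (h.gridB p hp p hp q hq q' hq' σ τ hσ hτ)
  refine mul_le_mul_of_nonneg_left ?_ h.δ0.le
  have key : (σ.den * q) * (τ.den * q') ≤ K * ((σ.den * q) * (τ.den * q')) :=
    Nat.le_mul_of_pos_left _ hK
  have key' : ((σ.den : ℝ) * q * (τ.den * q')) ≤ K * ((σ.den * q) * (τ.den * q')) := by
    exact_mod_cast key
  exact key'

/-- **close centres from equal unlabelled worlds** -/
theorem Fine.close {P : WP} {γ : ℝ} {r : ℕ → ℝ} {t : IT} {S : Finset ℕ} {n K : ℕ}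
    (h : Fine P γ r t S n K) {p q q' : ℕ} (hp : p ≤ n) (hq : q ∈ S)
    (hq' : q' ∈ S) (hq0 : 0 < q) (hq0' : 0 < q') {z z' : ℝ} (h1 : |z| ≤ r q)
    (h2 : |z'| ≤ r q') (hr : 0 < r q) (hr' : 0 < r q')
    (hix : P.ix γ p q none z = P.ix γ p q' none z') :
    |W363.off γ γ q z - W363.off γ γ q' z'| ≤
      (Real.exp (1 / 2 ^ (P.dep p)) - 1) * min (r q / q) (r q' / q') := by
  refine (P.close_of_same h.ρ0 h.n0 hq0 hq0' h1 h2 (h.cover q hq) (h.cover q' hq') hix).trans ?_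
  refine max_le le_rfl ?_
  rw [mul_min_of_nonneg _ _ (by
    have := Real.add_one_le_exp (1 / 2 ^ (P.dep p) : ℝ)
    have h5 : (0 : ℝ) ≤ 1 / 2 ^ (P.dep p) := by positivity
    linarith)]
  exact le_min (h.tiny p hp q hq hq0 hr) (h.tiny p hp q' hq' hq0' hr')

end Crest.Agent.R4P.WPex189
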