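import Crest.Agent.R4P.SkelF_29
import Crest.Agent.R4P.FrameE_26

/-!
R4 (S0004), POWERS, helper26, [W-eSHR]: **the skeleton for any error functional, with absorption**: copy
of `SkelT_26`; the error functional of a node may contain `1/8` of its own energy (`nE`).
-/

set_option autoImplicit false
set_option linter.unusedSectionVars false
set_option linter.unusedVariables false
open MeasureTheory Filter

namespace Crest.Agent.R4P.SkelE26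

open Crest.Agent.R4.Tour104 Crest.Agent.R4.Tour758 Crest.Agent.R4.Avg758 Crest.Agent.R4.Clos758
open Crest.Agent.R4.ClosL758 Crest.Agent.R4.ClosG758 Crest.Agent.R4.ClosR758
open Crest.Agent.R4.Fam464 Crest.Agent.R4P.Cnt588 Crest.Agent.R4P.Walk560 Crest.Agent.R4P.Item758
open Crest.Agent.R4.Soft104 Crest.Agent.R4.Max709 Crest.Agent.R4P.Asm532 Crest.Agent.R4P.Bld532
open Crest.Agent.R4.Piece464 Crest.Agent.R4P.Frame758 Crest.Agent.R4P.W363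
open Crest.Agent.R4.Fin532 (MAIN)
open Crest.Agent.R4P.Data758 Crest.Agent.R4P.FrameF29 Crest.Agent.R4P.Strip29
open Crest.Agent.R4P.PrunePar33 Crest.Agent.R4P.PruneSep532
open Crest.Agent.R4P.OmData532 Crest.Agent.R4P.LfDat734 Crest.Agent.R4P.WPex189
open Crest.Agent.R4P.Step588 Crest.Agent.R4P.Chi464
open Crest.Agent.R4P.Om532 Crest.Agent.R4P.OmSt532 Crest.Agent.R4.Ovl560 Crest.Agent.R4.LF363
open Crest.Agent.R4P.Fac393 (Fac)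
open Crest.Agent.R4P.ClosP542 (PulG)
open Crest.Agent.R4.Item758 (AdI AdI_univ IL)
open Crest.Agent.R4P.Skel189 Crest.Agent.R4P.FrameE26
open Crest.Agent.R4P.FrameT26 (SelfE)
open Crest.Agent.R4P.SkelF29 (BootF PartF)

/-- what the energy modules must supply for the concrete data (`X` = leaf data of the tree) -/
structure OutsE (c : Cf) (n : ℕ) (C C₀ η B δ₀ : ℝ) (j₀ : c.Lam)
    (ER : DT c.Lam (Lb (WL c.Lam) (leafs 1 1 c.t)) → Finset c.Lam → ℝ)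
    (δ : TrG c.Lam (Lb (WL c.Lam) (leafs 1 1 c.t)) → Finset c.Lam → ℝ) : Prop where
  self : SelfE (c.D.par (leafs 1 1 c.t)).rho AdF (tM c.D (wt c.D) (clf c.t 1) j₀ (leafs 1 1 c.t))
    (tN c.D (wt c.D) (clf c.t 1) j₀ (leafs 1 1 c.t)) B ER
  slack : (tG c.D (leafs 1 1 c.t) 1 1 c.t).All (SlackR AdF δ)
  slack0 : δ (tG c.D (leafs 1 1 c.t) 1 1 c.t) Finset.univ ≤ δ₀
  leafE : LeafAll (LeafE c.D (wt c.D) C) 1 1 1 c.t
  leafI : LeafAll (LeafI c.D (wt c.D) C₀) 1 1 1 c.t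
  node : Bld532.All (fun s t' =>
    NodeEE c.D (leafs 1 1 c.t) c.sp (wt c.D) (clf c.t 1) j₀ ER δ η
      (16 * (C + C₀ + η + B + 1)) s.B s.A t')
      ⟨n, 1, 1, 1⟩ c.t

/-- **MAIN FROM THE CONCRETE DATA**: choose `P`, `n`, the pruned set `S'`, the world parameters
`wp`, the leaf levels `lv`, the weights `om`; for every configuration `c` with these data (any
adapted breakpoints) the energy modules must supply `Outs`. -/
theorem MAIN_of_dataE {γ c₀ C C₀ η B δ₀ : ℝ} (hc₀ : 0 < c₀) (hC : 0 ≤ C) (hC₀ : 0 ≤ C₀)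
    (hη : 0 ≤ η) (hB : 0 ≤ B) (hδ₀ : 0 ≤ δ₀) (P₀ : ℕ)
    (H : ∀ (ψ : ℕ → ℝ) (S : Finset ℕ), SysM P₀ ψ S →
      ∃ (P : Bld532.Par) (n : ℕ) (S' : Finset ℕ) (wp wpL : WP) (lv : ℕ → ℕ) (om : ℕ → ℝ → ℤ → ℝ)
        (d1 : ℝ) (lam : ℕ → ℝ) (bx : ℕ → Finset ℝ) (tg : ℕ → ℕ → ℕ) (tgL : ℕ → ℕ),
        P.Good ∧ 0 < d1 ∧ S' ⊆ S ∧ (∀ q ∈ S', 0 < ψ q) ∧ 1 / 4 ≤ ∑ q ∈ S', w ψ q ∧
        (∀ q ∈ S', ∑ p ∈ (bld P (w ψ) n 1 1 S).uq q, 1 / (p : ℝ) ≤ 1 / 2) ∧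
        (∀ q ∈ S, ∀ z, Wt (q / pp (bld P (w ψ) n 1 1 S) q) (om q z)) ∧
        (∀ q ∈ S, ∀ z a, om q z a ≤ 1) ∧
        (∀ q ∈ S, pp (bld P (w ψ) n 1 1 S) q = 1 → ∀ z, TopW q (om q z)) ∧
        (∀ q ∈ S', ∀ z, c₀ * (((q / pp (bld P (w ψ) n 1 1 S) q).totient : ℝ) /
          ((q / pp (bld P (w ψ) n 1 1 S) q : ℕ) : ℝ)) ≤
          mnw (q / pp (bld P (w ψ) n 1 1 S) q) (om q z)) ∧
        ∀ c : Cf, c.γ = γ → (∀ q, c.r q = ψ q / 2) → c.S = S → c.S' = S' →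
          c.t = bld P (w ψ) n 1 1 S → c.wp = wp → c.wpL = wpL → c.lv = lv → c.om = om →
          c.d1 = d1 → c.lam = lam → c.bx = bx → c.tg = tg → c.tgL = tgL → c.Ok n →
          ∀ j₀ : c.Lam, ∃ ER δ, OutsE c n C C₀ η B δ₀ j₀ ER δ) : MAIN γ := by
  refine MAIN_of_modulesE (c₀ := c₀) (C := C) (C₀ := C₀) (η := η) (B := B) (δ₀ := δ₀) hc₀ hC hC₀
    hη hB hδ₀ P₀ fun ψ S hS => ?_
  obtain ⟨P, n, S', wp, wpL, lv, om, d1, lam, bx, tg, tgL, hPG, hd1, hsub, hpos, hbig, huq, hwt, hle, htop,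
    hmean, hc⟩ := H ψ S hS
  have hW : ∀ q, 0 ≤ w ψ q := w_nonneg hS.nonneg
  have hAll := bld_All_root P (w ψ) hW hPG n S hS.pos
  have hBk := Bk.root S hS.pos n
  set t := bld P (w ψ) n 1 1 S with ht
  have hO : t.Ok n := bld_Ok P (w ψ) hW hPG n 1 1 1 S hBk
  have hit : t.items = S := bld_items P (w ψ) hW hPG n 1 1 1 S hBk
  have hF : Fit 1 1 t := Fit_of_NodeOk hAll
  obtain ⟨K, bp, hK, hbp⟩ := exists_bp2 S (fun q => ψ q / 2)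
    (fun q => zbB wp wpL lam γ (fun q => ψ q / 2) t lv (Finset.range (n + 1)) q ∪
      (wpL.zb γ (fun q => ψ q / 2) t (Finset.range (n + 1)) q ∪ bx q)) hd1
  set c : Cf := ⟨γ, fun q => ψ q / 2, S, S', K, bp, wp, wpL, t, lv, om, d1, lam, bx,
    tg, tgL⟩ with hcdef
  have hcOk : c.Ok n :=
    { tOk := hO
      items := hit
      pos := hS.pos
      sub := hsub
      r' := fun q hq => half_pos (hpos q hq)
      bp0 := fun q hq hr => (hbp q hq hr).1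
      bpK := fun q hq hr => (hbp q hq hr).2.1
      bpm := fun q hq hr => (hbp q hq hr).2.2.1
      bpz := fun q hq hr z hz => (hbp q hq hr).2.2.2.1 z (Finset.mem_union_left _ hz)
      bpL := fun q hq hr z hz => (hbp q hq hr).2.2.2.1 z
        (Finset.mem_union_right _ (Finset.mem_union_left _ hz))
      bpx := fun q hq hr z hz => (hbp q hq hr).2.2.2.1 z
        (Finset.mem_union_right _ (Finset.mem_union_right _ hz))
      fine := fun q hq hr => (hbp q hq hr).2.2.2.2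
      dvd := fun q hq => by
        have := (BldF542.pp_dvd t 1 1 hF q (by rw [hit]; exact hq)).2.1
        rwa [one_mul] at this
      wt := hwt
      le1 := hle }
  have hne : S'.Nonempty := by
    rw [Finset.nonempty_iff_ne_empty]
    rintro rfl
    rw [Finset.sum_empty] at hbig
    norm_num at hbig
  obtain ⟨q₀, hq₀⟩ := hne
  let j₀ : c.Lam := ⟨(q₀, 0), Finset.mem_product.2 ⟨Finset.mem_filter.2 ⟨hsub hq₀,
    half_pos (hpos q₀ hq₀)⟩, Finset.mem_range.2 hK⟩⟩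
  obtain ⟨ER, δ, h⟩ := hc c rfl (fun _ => rfl) rfl rfl rfl rfl rfl rfl rfl rfl rfl rfl rfl rfl hcOk j₀
  have hphi : ∀ q ∈ S', (q.totient : ℝ) / q ≤
      2 * (prf t q * (((q / pp t q).totient : ℝ) / ((q / pp t q : ℕ) : ℝ))) := fun q hq =>
    Phi542.phi_le_two t hO hF (All_UqN hAll) (by rw [hit]; exact hsub hq)
      (fun p hp => (rt_prime t hO q p hp).1) (huq q hq)
  refine ⟨t, n, S', c.Lam, inferInstance, inferInstance, WL c.Lam, inferInstance, inferInstance,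
    inferInstance, c.D, c.sp, j₀, 1, ER, δ, hit, hO, hF, ?_⟩
  exact
    { good := hcOk.good (fun _ => rfl) hbig hphi htop hmean _
      disj := hcOk.disj
      self := h.self
      slack := h.slack
      slack0 := h.slack0
      leafE := h.leafE
      leafI := h.leafI
      node := h.node }



/-- **MAIN from the contexts** -/
theorem MAIN_of_ctxE (N : Skel189.Num) {γ : ℝ} (hS2 : HS2 N)
    (H : ∀ p₁ : ℕ, ∃ p0 ≥ p₁, ∃ C C₀ η B δ₀ : ℝ, 0 ≤ C ∧ 0 ≤ C₀ ∧ 0 ≤ η ∧ 0 ≤ B ∧ 0 ≤ δ₀ ∧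
      ∃ Q₁ : ℕ, ∀ P₀ ≥ Q₁, ∀ X : Ctx N γ p0 P₀, ∀ j₀ : X.c.Lam,
        ∃ ER δ, OutsE X.c (top X.S) C C₀ η B δ₀ j₀ ER δ) : MAIN γ := by
  classical
  obtain ⟨p1, h1⟩ := omT_cond4 N.B N.C1 N.c2 N.hC1 N.hc2 N.hB
  obtain ⟨p2, h2⟩ := exists_pruned N.B N.C1 N.c2 N.a N.a' N.A N.hC1 N.hc2 N.ha N.hA N.hB' N.ha'
  obtain ⟨p3, h3⟩ := hS2
  obtain ⟨p4, h4⟩ := ctx_card N
  obtain ⟨p5, h5⟩ := LeafA734.rt_half N.B (N.C1 + N.c2) (by
    have := N.hB; have := N.hC1; have := N.hc2; linarith)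
  obtain ⟨p0, hp0, C, C₀, η, B, δ₀, hC, hC₀, hη, hB, hδ₀, Q₁, hX⟩ := H (p1 + p2 + p3 + p4 + p5)
  obtain ⟨Q3, h3'⟩ := h3 p0 (by omega)
  obtain ⟨P₀, hP₀⟩ : ∃ P₀, P₀ = 2 + Q₁ + Q3 := ⟨_, rfl⟩
  refine MAIN_of_dataE (c₀ := 1 / 2) (C := C) (C₀ := C₀) (η := η) (B := B) (δ₀ := δ₀)
    (by norm_num) hC hC₀ hη hB hδ₀ P₀ fun ψ S hS => ?_
  obtain ⟨k1, k2⟩ := h3' P₀ (by omega) ψ S hS
  obtain ⟨hgood, h2'⟩ := h2 p0 (by omega)
  obtain ⟨S', hsub2, hpos, hmass, hPr, hpth⟩ := h2' ψ S P₀ hS (top S)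
    (N.S2 p0 ψ S) k1 k2
  have hsub : S' ⊆ S := hsub2.trans k1
  have hprn : Prn N p0 ψ S S' := ⟨hsub, hsub2, hpos, hmass, hPr,
    fun q hq P hP => (hpth q hq P hP).1, fun q hq P hP => (hpth q hq P hP).2⟩
  set t := N.tree p0 ψ S with ht
  obtain ⟨wp, wpL, hthr, hdep, hthrL, hdepL, hsm1, hsm2, hsm3, hsm4, hfine, hfineL⟩ :=
    exists_fine2 (N.thr p0 ψ S) (N.thrL p0) (N.dep p0 ψ S) (N.depL p0) γ (fun q => ψ q / 2) t S
      (top S) (Kc S)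
  set lv := LfDat734.lv t (top S) with hlv
  set om : ℕ → ℝ → ℤ → ℝ := fun q z =>
    omXL (N.fac p0 ψ S) wp wpL γ (fun q => ψ q / 2) t lv S' q z with hom
  have hW : ∀ q, 0 ≤ w ψ q := fun q => w_nonneg hS.nonneg q
  have hAll : All (NodeOk (Bld532.par N.B N.C1 N.c2 p0) (w ψ)) ⟨top S, 1, 1, 1⟩ t :=
    bld_All_root _ (w ψ) hW hgood (top S) S hS.pos
  have hcols : ∀ q b, (b ∈ t.mt q ∨ b ∈ t.sp q ∨ b ∈ t.uq q) → p0 < b :=
    fun q b hb => (cols_of_All _ _ _ _ hAll q b hb).2.1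
  -- the number of the classes
  have hcard : ∀ (z : ℝ), ∀ q ∈ S', ∀ b ∈ t.uq q,
      ((Chi464.Tz (N.fac p0 ψ S) γ (rrf fun q => ψ q / 2) S'
        (TcL wp wpL γ (fun q => ψ q / 2) t lv) t PPb z
        q b).card : ℝ) ≤ (b : ℝ) ^ (1 / 4 : ℝ) := by
    intro z q hq b hb
    obtain ⟨X, x1, x1', x2, x3, x4, x5, x6, x7⟩ :=
      exists_ctx (P₀ := P₀) hgood hS hprn hthr hdep hfine hthrL hdepL hfineL
        ⟨hsm1, hsm2, hsm3, hsm4⟩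
    have key := h4 p0 (by omega) γ P₀ (by omega) X z q (by rw [x1]; exact hq) b
      (by rw [x4]; exact hb)
    have e : X.Tz z = Chi464.Tz (N.fac p0 ψ S) γ (rrf fun q => ψ q / 2) S'
        (TcL wp wpL γ (fun q => ψ q / 2) t lv) t PPb z := by
      show Chi464.Tz X.fac X.c.γ (rrf X.c.r) X.S' (TcL X.c.wp X.c.wpL X.c.γ X.c.r X.c.t X.c.lv)
        X.c.t PPb z = _
      rw [x1, x1', x2, x3, x4, x5, x6, x7]
    rw [e] at key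
    exact key
  have hcond : ∀ z : ℝ, _ := fun z => h1 p0 (by omega) ψ S P₀ (by omega) hS (top S) S' hsub hPr
    (Chi464.Tz (N.fac p0 ψ S) γ (rrf fun q => ψ q / 2) S'
      (TcL wp wpL γ (fun q => ψ q / 2) t lv) t PPb z)
    (thL γ t) (phL wpL γ (fun q => ψ q / 2) t lv) (labL wpL γ (fun q => ψ q / 2) t lv)
    (fun q hq b hb => hcard z q hq b hb)
  refine ⟨Bld532.par N.B N.C1 N.c2 p0, top S, S', wp, wpL, lv, om, N.d1 p0 ψ S,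
    N.lam p0 ψ S, bxL (N.fac p0 ψ S) γ (fun q => ψ q / 2) t, N.tg p0 ψ S, N.tgL p0 ψ S,
    hgood, N.hd1 p0 ψ S, hsub, hpos, hmass, ?_,
    fun q hq z => (hcond z).1 q hq, fun q hq z => (hcond z).2.1 q hq,
    fun q hq h z => (hcond z).2.2.1 q hq h, fun q hq z => (hcond z).2.2.2.1 q hq, ?_⟩
  · intro q hq
    exact (h5 p0 (by omega) t q (hPr q hq) fun b hb => hcols q b hb).1
  intro c e1 e2 e3 e4 e5 e6 e7 e8 e9 e10 e11 e12 e13 e14 hok j₀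
  have e2' : c.r = fun q => ψ q / 2 := funext e2
  exact hX P₀ (by omega)
    { ψ := ψ
      S := S
      S' := S'
      sys := hS
      good := hgood
      prn := hprn
      c := c
      hγ := e1
      hr := e2
      hS := e3
      hS' := e4
      ht := e5
      thr := by rw [e6, hthr]
      dep := by rw [e6, hdep]
      lam := e11
      thrL := by rw [e7, hthrL]
      depL := by rw [e7, hdepL]
      fine := by
        rw [e6, e1, e2', e3, show c.t = t from e5]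
        exact hfine
      fineL := by
        rw [e7, e1, e2', e3, show c.t = t from e5]
        exact hfineL
      same := by
        rw [e6, e7]
        exact ⟨hsm1, hsm2, hsm3, hsm4⟩
      lv := by rw [e8, hlv, show c.t = t from e5]
      om := by rw [e9, hom, e6, e7, e1, e2', e8, show c.t = t from e5]
      bx := by rw [e12, e1, e2', show c.t = t from e5]
      d1 := e10
      tg := e13
      tgL := e14
      ok := hok } j₀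

/-- **the obligations, one by one** (every owner: prove yours for every context). All the constants
may depend on `p0` (but not on `P₀` and the system). -/
theorem MAIN_of_partsE (N : Skel189.Num) {γ : ℝ} (hS2 : HS2 N)
    {C C₀ η B δ₀ : ℕ → ℝ} (hC : ∀ p, 0 ≤ C p)
    (hC₀ : ∀ p, 0 ≤ C₀ p) (hη : ∀ p, 0 ≤ η p) (hB : ∀ p, 0 ≤ B p) (hδ₀ : ∀ p, 0 ≤ δ₀ p)
    (leafE : ∃ p₁ : ℕ, ∀ p0 ≥ p₁, ∃ Q₁ : ℕ, ∀ P₀ ≥ Q₁, ∀ X : Ctx N γ p0 P₀,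
      LeafAll (LeafE X.c.D (wt X.c.D) (C p0)) 1 1 1 X.c.t)
    (leafI : ∃ p₁ : ℕ, ∀ p0 ≥ p₁, ∃ Q₁ : ℕ, ∀ P₀ ≥ Q₁, ∀ X : Ctx N γ p0 P₀,
      LeafAll (LeafI X.c.D (wt X.c.D) (C₀ p0)) 1 1 1 X.c.t)
    (node : ∃ p₁ : ℕ, ∀ p0 ≥ p₁, ∃ Q₁ : ℕ, ∀ P₀ ≥ Q₁, ∀ X : Ctx N γ p0 P₀, ∀ j₀ : X.c.Lam,
      ∃ ER δ, SelfE (X.c.D.par (leafs 1 1 X.c.t)).rho AdF
          (tM X.c.D (wt X.c.D) (clf X.c.t 1) j₀ (leafs 1 1 X.c.t))
          (tN X.c.D (wt X.c.D) (clf X.c.t 1) j₀ (leafs 1 1 X.c.t)) (B p0) ER ∧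
        (tG X.c.D (leafs 1 1 X.c.t) 1 1 X.c.t).All
          (Crest.Agent.R4.ClosR758.SlackR AdF δ) ∧
        δ (tG X.c.D (leafs 1 1 X.c.t) 1 1 X.c.t) Finset.univ ≤ δ₀ p0 ∧
        Bld532.All (fun s t' => NodeEE X.c.D (leafs 1 1 X.c.t) X.c.sp (wt X.c.D) (clf X.c.t 1) j₀ ER δ
          (η p0) (16 * (C p0 + C₀ p0 + η p0 + B p0 + 1)) s.B s.A t') ⟨top X.S, 1, 1, 1⟩ X.c.t) :
    MAIN γ := by
  refine MAIN_of_ctxE N hS2 fun p₁ => ?_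
  obtain ⟨p1, h1⟩ := leafE
  obtain ⟨p2, h2⟩ := leafI
  obtain ⟨p3, h3⟩ := node
  obtain ⟨p0, hp⟩ : ∃ p0, p0 = p₁ + p1 + p2 + p3 := ⟨_, rfl⟩
  refine ⟨p0, by omega, C p0, C₀ p0, η p0, B p0, δ₀ p0, hC _, hC₀ _, hη _, hB _, hδ₀ _, ?_⟩
  obtain ⟨Q1, k1⟩ := h1 p0 (by omega)
  obtain ⟨Q2, k2⟩ := h2 p0 (by omega)
  obtain ⟨Q3, k3⟩ := h3 p0 (by omega)
  refine ⟨Q1 + Q2 + Q3, fun P₀ hP X j₀ => ?_⟩
  obtain ⟨ER, δ, b1, a2, a3, a4⟩ := k3 P₀ (by omega) X j₀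
  exact ⟨ER, δ,
    { self := b1
      slack := a2
      slack0 := a3
      leafE := k1 _ (by omega) X
      leafI := k2 _ (by omega) X
      node := a4 }⟩

/-! ### parts -/

section part
variable {N : Skel189.Num} {γ : ℝ} {p0 P₀ : ℕ}

/-- **the errors of the nodes from three parts** -/
theorem nodeEE_of_parts {X : Ctx N γ p0 P₀} {j₀ : X.c.Lam}
    {δ : TrG X.c.Lam (Lb (WL X.c.Lam) X.Y) → Finset X.c.Lam → ℝ}
    (hδ : ∀ u τ, 0 ≤ δ (X.g u τ) Finset.univ)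
    {ER : DT X.c.Lam (Lb (WL X.c.Lam) X.Y) → Finset X.c.Lam → ℝ} {η Kb a₁ a₂ a₃ : ℝ}
    (ha : a₁ + a₂ + a₃ ≤ η)
    (h1 : PartF X j₀ (BootF X j₀ δ Kb) (fun u τ A => dseR A (X.g u τ)) a₁)
    (h2 : PartF X j₀ (BootF X j₀ δ Kb) (fun u τ A => rseR A (X.g u τ)) a₂)
    (h3 : PartF X j₀ (BootF X j₀ δ Kb) (fun u τ A => ER (X.self u τ A).t A -
      1 / 8 * I (fun x => tt A (X.g u τ) x ^ 2)) a₃) :
    All (fun s t' => NodeEE X.c.D (leafs 1 1 X.c.t) X.c.sp (wt X.c.D) (clf X.c.t 1) j₀ ER δ η Kb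
      s.B s.A t') ⟨top X.S, 1, 1, 1⟩ X.c.t := by
  have k := ((h1.add h2).add h3).mono (η' := η) (by linarith)
  refine All.mono (fun u τ hh hp hb => ?_) k
  have key := hh hp hb
  have e0 := hδ u τ
  have key' : dseR Finset.univ (X.g u τ) + rseR Finset.univ (X.g u τ) +
      (ER (X.self u τ Finset.univ).t Finset.univ -
        1 / 8 * I (fun x => tt Finset.univ (X.g u τ) x ^ 2)) ≤
      η * (X.tn j₀ (X.g u τ) + X.tn j₀ (X.g u τ) * X.tn j₀ (X.g u τ)) := key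
  show dseR Finset.univ (X.g u τ) + rseR Finset.univ (X.g u τ) +
      ER (X.self u τ Finset.univ).t Finset.univ ≤
      η * (X.tn j₀ (X.g u τ) + X.tn j₀ (X.g u τ) * X.tn j₀ (X.g u τ)) + δ (X.g u τ) Finset.univ +
        1 / 8 * I (fun x => tt Finset.univ (X.g u τ) x ^ 2)
  linarith

end part

/-- **MAIN from the leaves and the node errors, any error functional** -/
theorem MAIN_of_nodeE (N : Skel189.Num) {γ : ℝ} (hS2 : HS2 N)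
    {C C₀ η B : ℕ → ℝ} (hC : ∀ p, 0 ≤ C p) (hC₀ : ∀ p, 0 ≤ C₀ p) (hη : ∀ p, 0 ≤ η p)
    (hB : ∀ p, 0 ≤ B p)
    (leafE : ∃ p₁ : ℕ, ∀ p0 ≥ p₁, ∃ Q₁ : ℕ, ∀ P₀ ≥ Q₁, ∀ X : Ctx N γ p0 P₀,
      LeafAll (LeafE X.c.D (wt X.c.D) (C p0)) 1 1 1 X.c.t)
    (leafI : ∃ p₁ : ℕ, ∀ p0 ≥ p₁, ∃ Q₁ : ℕ, ∀ P₀ ≥ Q₁, ∀ X : Ctx N γ p0 P₀,
      LeafAll (LeafI X.c.D (wt X.c.D) (C₀ p0)) 1 1 1 X.c.t)
    (node : ∃ p₁ : ℕ, ∀ p0 ≥ p₁, ∃ Q₁ : ℕ, ∀ P₀ ≥ Q₁, ∀ X : Ctx N γ p0 P₀, ∀ j₀ : X.c.Lam,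
      ∃ ER : DT X.c.Lam (Lb (WL X.c.Lam) X.Y) → Finset X.c.Lam → ℝ,
        SelfE (X.c.D.par X.Y).rho AdF (X.tm j₀) (X.tn j₀) (B p0) ER ∧
        ∃ a₁ a₂ a₃ : ℝ, a₁ + a₂ + a₃ ≤ η p0 ∧
        PartF X j₀ (BootF X j₀ (fun _ _ => 0) (16 * (C p0 + C₀ p0 + η p0 + B p0 + 1)))
          (fun u τ A => dseR A (X.g u τ)) a₁ ∧
        PartF X j₀ (BootF X j₀ (fun _ _ => 0) (16 * (C p0 + C₀ p0 + η p0 + B p0 + 1)))
          (fun u τ A => rseR A (X.g u τ)) a₂ ∧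
        PartF X j₀ (BootF X j₀ (fun _ _ => 0) (16 * (C p0 + C₀ p0 + η p0 + B p0 + 1)))
          (fun u τ A => ER (X.self u τ A).t A - 1 / 8 * I (fun x => tt A (X.g u τ) x ^ 2)) a₃) :
    MAIN γ := by
  refine MAIN_of_partsE N hS2 (δ₀ := fun _ => 0) hC hC₀ hη hB (fun _ => le_rfl) leafE leafI ?_
  obtain ⟨p₁, h⟩ := node
  refine ⟨p₁, fun p0 hp0 => ?_⟩
  obtain ⟨Q₁, h1⟩ := h p0 hp0
  refine ⟨Q₁, fun P₀ hP X j₀ => ?_⟩
  obtain ⟨ER, b1, a₁, a₂, a₃, ha, m1, m2, m3⟩ := h1 P₀ hP X j₀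
  exact ⟨ER, fun _ _ => 0, b1, slack_zero _ _, le_rfl,
    nodeEE_of_parts (fun _ _ => le_rfl) ha m1 m2 m3⟩

/-- **MAIN from three parts, leaves plugged in**: `ER` = error functional of a context (depends on the
constant `B` of the product terms), `a i` = constants (functions of `p0`). -/
theorem MAIN_of_nodesE (N : Skel189.Num) {γ : ℝ} (hS2 : HS2 N) {C₀ : ℝ} (hC₀ : 0 ≤ C₀)
    (hL : LeafNum N C₀)
    (ER : ∀ {p0 P₀ : ℕ} (X : Ctx N γ p0 P₀), X.c.Lam → ℝ →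
      DT X.c.Lam (Lb (WL X.c.Lam) X.Y) → Finset X.c.Lam → ℝ)
    {B a₁ a₂ a₃ : ℕ → ℝ} (hB : ∀ p, 0 ≤ B p) (h1 : ∀ p, 0 ≤ a₁ p) (h2 : ∀ p, 0 ≤ a₂ p)
    (h3 : ∀ p, 0 ≤ a₃ p)
    (hER : Ev N γ fun p0 _ X => ∀ j₀ : X.c.Lam,
      SelfE (X.c.D.par X.Y).rho AdF (X.tm j₀) (X.tn j₀) (B p0) (ER X j₀ (B p0)))
    (node : ∀ K : ℝ, 0 ≤ K → ∀ Kb : ℕ → ℝ,
      Kb = Kbt N K C₀ (fun p => a₁ p + a₂ p + a₃ p) B →
      Ev N γ fun p0 _ X => ∀ j₀ : X.c.Lam,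
      PartF X j₀ (BootF X j₀ (fun _ _ => 0) (Kb p0)) (fun u τ A => dseR A (X.g u τ)) (a₁ p0) ∧
      PartF X j₀ (BootF X j₀ (fun _ _ => 0) (Kb p0)) (fun u τ A => rseR A (X.g u τ)) (a₂ p0) ∧
      PartF X j₀ (BootF X j₀ (fun _ _ => 0) (Kb p0))
        (fun u τ A => ER X j₀ (B p0) (X.self u τ A).t A -
          1 / 8 * I (fun x => tt A (X.g u τ) x ^ 2)) (a₃ p0)) :
    MAIN γ := by
  obtain ⟨K, hK, pE, hE⟩ := hL.E
  obtain ⟨pI, hI⟩ := hL.I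
  have hC : ∀ p : ℕ, 0 ≤ K * Real.log p ^ N.c2 := fun p =>
    mul_nonneg hK (Real.rpow_nonneg (Real.log_natCast_nonneg p) _)
  refine MAIN_of_nodeE N hS2 (C := fun p0 => K * Real.log p0 ^ N.c2) (C₀ := fun _ => C₀)
    (η := fun p => a₁ p + a₂ p + a₃ p) (B := B) hC (fun _ => hC₀)
    (fun p => by
      have := h1 p; have := h2 p; have := h3 p
      show 0 ≤ a₁ p + a₂ p + a₃ p
      positivity) hB
    ⟨pE, fun p0 hp => ⟨2, fun P₀ hP X => hE p0 hp γ P₀ hP X⟩⟩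
    ⟨pI, fun p0 hp => ⟨2, fun P₀ hP X => hI p0 hp γ P₀ hP X⟩⟩ ?_
  refine (hER.and (node K hK _ rfl)).mono ?_
  intro p0 P₀ X hh j₀
  obtain ⟨k0, k3⟩ := hh
  obtain ⟨m1, m2, m3⟩ := k3 j₀
  exact ⟨ER X j₀ (B p0), k0 j₀, a₁ p0, a₂ p0, a₃ p0, le_rfl, m1, m2, m3⟩

end Crest.Agent.R4P.SkelE26
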