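import Crest.Agent.R4P.SkelNode_3
import Crest.Agent.R4P.FrameF_29

/-!
R4 (S0004), POWERS, helper29: **the skeleton for full populations** (`FrameF_29`): copies of
`Data758.MAIN_of_data`, `SkelMain_2.MAIN_of_ctx`, `MAIN_of_parts`, `SkelNode_3.MAIN_of_nodeParts`,
`MAIN_of_seven` with node errors only for the population `univ`.

* `PartF`, `PartWF` : `Part`, `PartW` for `A = univ` only; `Part.toF`.
* `Ctx.BootF` : the bootstrap hypothesis (second moments of the nodes strictly below, `univ` only).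
* `MAIN_of_sevenF`.
-/

set_option autoImplicit false
set_option linter.unusedSectionVars false
set_option linter.unusedVariables false
open MeasureTheory Filter

namespace Crest.Agent.R4P.SkelF29

open Crest.Agent.R4.Tour104 Crest.Agent.R4.Tour758 Crest.Agent.R4.Avg758 Crest.Agent.R4.Clos758
open Crest.Agent.R4.ClosL758 Crest.Agent.R4.ClosG758 Crest.Agent.R4.ClosR758
open Crest.Agent.R4.Fam464 Crest.Agent.R4P.Cnt588 Crest.Agent.R4P.Walk560 Crest.Agent.R4P.Item758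
open Crest.Agent.R4.Soft104 Crest.Agent.R4.Max709 Crest.Agent.R4P.Asm532 Crest.Agent.R4P.Bld532
open Crest.Agent.R4.Piece464 Crest.Agent.R4P.Frame758 Crest.Agent.R4P.W363
open Crest.Agent.R4.Fin532 (MAIN)
open Crest.Agent.R4P.Data758 Crest.Agent.R4P.FrameF29 Crest.Agent.R4P.Strip29
open Crest.Agent.R4P.PrunePar33 Crest.Agent.R4P.PruneSep532
open Crest.Agent.R4P.OmData532 Crest.Agent.R4P.LfDat734 Crest.Agent.R4P.WPex189
open Crest.Agent.R4P.Step588 Crest.Agent.R4P.Chi464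
open Crest.Agent.R4P.Om532 Crest.Agent.R4P.OmSt532 Crest.Agent.R4.Ovl560 Crest.Agent.R4.LF363
open Crest.Agent.R4P.Fac393 (Fac)
open Crest.Agent.R4P.ClosP542 (PulG)
open Crest.Agent.R4.Item758 (AdI AdI_univ IL)
open Crest.Agent.R4P.Skel189

/-- what the energy modules must supply for the concrete data (`X` = leaf data of the tree) -/
structure OutsF (c : Cf) (n : ℕ) (C C₀ η B δ₀ : ℝ) (j₀ : c.Lam)
    (stp : Stp c.Lam (Lb (WL c.Lam) (leafs 1 1 c.t)))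
    (δ : TrG c.Lam (Lb (WL c.Lam) (leafs 1 1 c.t)) → Finset c.Lam → ℝ) : Prop where
  blind : Blind stp
  nosplit : NoSplit stp
  stp0 : ∀ s : St c.Lam (Lb (WL c.Lam) (leafs 1 1 c.t)), s.O = ∅ → s.O' = ∅ → ¬ stp s
  jt0 : ∀ (d : DT c.Lam (Lb (WL c.Lam) (leafs 1 1 c.t))) (A : Finset c.Lam), stp.jt (selfSt d A)
  slack : (tG c.D (leafs 1 1 c.t) 1 1 c.t).All (SlackR AdF δ)
  slack0 : δ (tG c.D (leafs 1 1 c.t) 1 1 c.t) Finset.univ ≤ δ₀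
  leafE : LeafAll (LeafE c.D (wt c.D) C) 1 1 1 c.t
  leafI : LeafAll (LeafI c.D (wt c.D) C₀) 1 1 1 c.t
  node : Bld532.All (fun s t' =>
    NodeEF c.D (leafs 1 1 c.t) c.sp (wt c.D) (clf c.t 1) j₀ stp δ B η
      (16 * (C + C₀ + η + B + 1)) s.B s.A t')
      ⟨n, 1, 1, 1⟩ c.t

/-- **MAIN FROM THE CONCRETE DATA**: choose `P`, `n`, the pruned set `S'`, the world parameters
`wp`, the leaf levels `lv`, the weights `om`; for every configuration `c` with these data (any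
adapted breakpoints) the energy modules must supply `Outs`. -/
theorem MAIN_of_dataF {γ c₀ C C₀ η B δ₀ : ℝ} (hc₀ : 0 < c₀) (hC : 0 ≤ C) (hC₀ : 0 ≤ C₀)
    (hη : 0 ≤ η) (hB : 0 ≤ B) (hδ₀ : 0 ≤ δ₀) (P₀ : ℕ)
    (H : ∀ (ψ : ℕ → ℝ) (S : Finset ℕ), SysM P₀ ψ S →
      ∃ (P : Bld532.Par) (n : ℕ) (S' : Finset ℕ) (wp wpL : WP) (lv : ℕ → ℕ) (om : ℕ → ℝ → ℤ → ℝ)
        (d1 : ℝ) (lam : ℕ → ℝ) (bx : ℕ → Finset ℝ) (tg : ℕ → ℕ → ℕ) (tgL : ℕ → ℕ),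
        P.Good ∧ 0 < d1 ∧ S' ⊆ S ∧ (∀ q ∈ S', 0 < ψ q) ∧ 1 / 4 ≤ ∑ q ∈ S', w ψ q ∧
        (∀ q ∈ S', ∑ p ∈ (bld P (w ψ) n 1 1 S).uq q, 1 / (p : ℝ) ≤ 1 / 2) ∧
        (∀ q ∈ S, ∀ z, Wt (q / pp (bld P (w ψ) n 1 1 S) q) (om q z)) ∧
        (∀ q ∈ S, ∀ z a, om q z a ≤ 1) ∧
        (∀ q ∈ S, pp (bld P (w ψ) n 1 1 S) q = 1 → ∀ z, TopW q (om q z)) ∧
        (∀ q ∈ S', ∀ z, c₀ * (((q / pp (bld P (w ψ) n 1 1 S) q).totient : ℝ) /
          ((q / pp (bld P (w ψ) n 1 1 S) q : ℕ) : ℝ)) ≤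
          mnw (q / pp (bld P (w ψ) n 1 1 S) q) (om q z)) ∧
        ∀ c : Cf, c.γ = γ → (∀ q, c.r q = ψ q / 2) → c.S = S → c.S' = S' →
          c.t = bld P (w ψ) n 1 1 S → c.wp = wp → c.wpL = wpL → c.lv = lv → c.om = om →
          c.d1 = d1 → c.lam = lam → c.bx = bx → c.tg = tg → c.tgL = tgL → c.Ok n →
          ∀ j₀ : c.Lam, ∃ stp δ, OutsF c n C C₀ η B δ₀ j₀ stp δ) : MAIN γ := by
  refine MAIN_of_modulesF (c₀ := c₀) (C := C) (C₀ := C₀) (η := η) (B := B) (δ₀ := δ₀) hc₀ hC hC₀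
    hη hB hδ₀ P₀ fun ψ S hS => ?_
  obtain ⟨P, n, S', wp, wpL, lv, om, d1, lam, bx, tg, tgL, hPG, hd1, hsub, hpos, hbig, huq, hwt, hle, htop,
    hmean, hc⟩ := H ψ S hS
  have hW : ∀ q, 0 ≤ w ψ q := w_nonneg hS.nonneg
  have hAll := bld_All_root P (w ψ) hW hPG n S hS.pos
  have hBk := Bk.root S hS.pos n
  set t := bld P (w ψ) n 1 1 S with ht
  have hO : t.Ok n := bld_Ok P (w ψ) hW hPG n 1 1 1 S hBk
  have hit : t.items = S := bld_items P (w ψ) hW hPG n 1 1 1 S hBk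
  have hF : Fit 1 1 t := Fit_of_NodeOk hAll
  obtain ⟨K, bp, hK, hbp⟩ := exists_bp2 S (fun q => ψ q / 2)
    (fun q => zbB wp wpL lam γ (fun q => ψ q / 2) t lv (Finset.range (n + 1)) q ∪
      (wpL.zb γ (fun q => ψ q / 2) t (Finset.range (n + 1)) q ∪ bx q)) hd1
  set c : Cf := ⟨γ, fun q => ψ q / 2, S, S', K, bp, wp, wpL, t, lv, om, d1, lam, bx,
    tg, tgL⟩ with hcdef
  have hcOk : c.Ok n :=
    { tOk := hO
      items := hit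
      pos := hS.pos
      sub := hsub
      r' := fun q hq => half_pos (hpos q hq)
      bp0 := fun q hq hr => (hbp q hq hr).1
      bpK := fun q hq hr => (hbp q hq hr).2.1
      bpm := fun q hq hr => (hbp q hq hr).2.2.1
      bpz := fun q hq hr z hz => (hbp q hq hr).2.2.2.1 z (Finset.mem_union_left _ hz)
      bpL := fun q hq hr z hz => (hbp q hq hr).2.2.2.1 z
        (Finset.mem_union_right _ (Finset.mem_union_left _ hz))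
      bpx := fun q hq hr z hz => (hbp q hq hr).2.2.2.1 z
        (Finset.mem_union_right _ (Finset.mem_union_right _ hz))
      fine := fun q hq hr => (hbp q hq hr).2.2.2.2
      dvd := fun q hq => by
        have := (BldF542.pp_dvd t 1 1 hF q (by rw [hit]; exact hq)).2.1
        rwa [one_mul] at this
      wt := hwt
      le1 := hle }
  have hne : S'.Nonempty := by
    rw [Finset.nonempty_iff_ne_empty]
    rintro rfl
    rw [Finset.sum_empty] at hbig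
    norm_num at hbig
  obtain ⟨q₀, hq₀⟩ := hne
  let j₀ : c.Lam := ⟨(q₀, 0), Finset.mem_product.2 ⟨Finset.mem_filter.2 ⟨hsub hq₀,
    half_pos (hpos q₀ hq₀)⟩, Finset.mem_range.2 hK⟩⟩
  obtain ⟨stp, δ, h⟩ := hc c rfl (fun _ => rfl) rfl rfl rfl rfl rfl rfl rfl rfl rfl rfl rfl rfl hcOk j₀
  have hphi : ∀ q ∈ S', (q.totient : ℝ) / q ≤
      2 * (prf t q * (((q / pp t q).totient : ℝ) / ((q / pp t q : ℕ) : ℝ))) := fun q hq =>
    Phi542.phi_le_two t hO hF (All_UqN hAll) (by rw [hit]; exact hsub hq)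
      (fun p hp => (rt_prime t hO q p hp).1) (huq q hq)
  refine ⟨t, n, S', c.Lam, inferInstance, inferInstance, WL c.Lam, inferInstance, inferInstance,
    inferInstance, c.D, c.sp, j₀, 1, stp, δ, hit, hO, hF, ?_⟩
  exact
    { good := hcOk.good (fun _ => rfl) hbig hphi htop hmean _
      disj := hcOk.disj
      blind := h.blind
      nosplit := h.nosplit
      stp0 := h.stp0
      jt0 := h.jt0
      slack := h.slack
      slack0 := h.slack0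
      leafE := h.leafE
      leafI := h.leafI
      node := h.node }



/-- **MAIN from the contexts** -/
theorem MAIN_of_ctxF (N : Skel189.Num) {γ : ℝ} (hS2 : HS2 N)
    (H : ∀ p₁ : ℕ, ∃ p0 ≥ p₁, ∃ C C₀ η B δ₀ : ℝ, 0 ≤ C ∧ 0 ≤ C₀ ∧ 0 ≤ η ∧ 0 ≤ B ∧ 0 ≤ δ₀ ∧
      ∃ Q₁ : ℕ, ∀ P₀ ≥ Q₁, ∀ X : Ctx N γ p0 P₀, ∀ j₀ : X.c.Lam,
        ∃ stp δ, OutsF X.c (top X.S) C C₀ η B δ₀ j₀ stp δ) : MAIN γ := by
  classical
  obtain ⟨p1, h1⟩ := omT_cond4 N.B N.C1 N.c2 N.hC1 N.hc2 N.hB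
  obtain ⟨p2, h2⟩ := exists_pruned N.B N.C1 N.c2 N.a N.a' N.A N.hC1 N.hc2 N.ha N.hA N.hB' N.ha'
  obtain ⟨p3, h3⟩ := hS2
  obtain ⟨p4, h4⟩ := ctx_card N
  obtain ⟨p5, h5⟩ := LeafA734.rt_half N.B (N.C1 + N.c2) (by
    have := N.hB; have := N.hC1; have := N.hc2; linarith)
  obtain ⟨p0, hp0, C, C₀, η, B, δ₀, hC, hC₀, hη, hB, hδ₀, Q₁, hX⟩ := H (p1 + p2 + p3 + p4 + p5)
  obtain ⟨Q3, h3'⟩ := h3 p0 (by omega)
  obtain ⟨P₀, hP₀⟩ : ∃ P₀, P₀ = 2 + Q₁ + Q3 := ⟨_, rfl⟩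
  refine MAIN_of_dataF (c₀ := 1 / 2) (C := C) (C₀ := C₀) (η := η) (B := B) (δ₀ := δ₀)
    (by norm_num) hC hC₀ hη hB hδ₀ P₀ fun ψ S hS => ?_
  obtain ⟨k1, k2⟩ := h3' P₀ (by omega) ψ S hS
  obtain ⟨hgood, h2'⟩ := h2 p0 (by omega)
  obtain ⟨S', hsub2, hpos, hmass, hPr, hpth⟩ := h2' ψ S P₀ hS (top S)
    (N.S2 p0 ψ S) k1 k2
  have hsub : S' ⊆ S := hsub2.trans k1
  have hprn : Prn N p0 ψ S S' := ⟨hsub, hsub2, hpos, hmass, hPr,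
    fun q hq P hP => (hpth q hq P hP).1, fun q hq P hP => (hpth q hq P hP).2⟩
  set t := N.tree p0 ψ S with ht
  obtain ⟨wp, wpL, hthr, hdep, hthrL, hdepL, hsm1, hsm2, hsm3, hsm4, hfine, hfineL⟩ :=
    exists_fine2 (N.thr p0 ψ S) (N.thrL p0) (N.dep p0 ψ S) (N.depL p0) γ (fun q => ψ q / 2) t S
      (top S) (Kc S)
  set lv := LfDat734.lv t (top S) with hlv
  set om : ℕ → ℝ → ℤ → ℝ := fun q z =>
    omXL (N.fac p0 ψ S) wp wpL γ (fun q => ψ q / 2) t lv S' q z with hom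
  have hW : ∀ q, 0 ≤ w ψ q := fun q => w_nonneg hS.nonneg q
  have hAll : All (NodeOk (Bld532.par N.B N.C1 N.c2 p0) (w ψ)) ⟨top S, 1, 1, 1⟩ t :=
    bld_All_root _ (w ψ) hW hgood (top S) S hS.pos
  have hcols : ∀ q b, (b ∈ t.mt q ∨ b ∈ t.sp q ∨ b ∈ t.uq q) → p0 < b :=
    fun q b hb => (cols_of_All _ _ _ _ hAll q b hb).2.1
  -- the number of the classes
  have hcard : ∀ (z : ℝ), ∀ q ∈ S', ∀ b ∈ t.uq q,
      ((Chi464.Tz (N.fac p0 ψ S) γ (rrf fun q => ψ q / 2) S'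
        (TcL wp wpL γ (fun q => ψ q / 2) t lv) t PPb z
        q b).card : ℝ) ≤ (b : ℝ) ^ (1 / 4 : ℝ) := by
    intro z q hq b hb
    obtain ⟨X, x1, x1', x2, x3, x4, x5, x6, x7⟩ :=
      exists_ctx (P₀ := P₀) hgood hS hprn hthr hdep hfine hthrL hdepL hfineL
        ⟨hsm1, hsm2, hsm3, hsm4⟩
    have key := h4 p0 (by omega) γ P₀ (by omega) X z q (by rw [x1]; exact hq) b
      (by rw [x4]; exact hb)
    have e : X.Tz z = Chi464.Tz (N.fac p0 ψ S) γ (rrf fun q => ψ q / 2) S'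
        (TcL wp wpL γ (fun q => ψ q / 2) t lv) t PPb z := by
      show Chi464.Tz X.fac X.c.γ (rrf X.c.r) X.S' (TcL X.c.wp X.c.wpL X.c.γ X.c.r X.c.t X.c.lv)
        X.c.t PPb z = _
      rw [x1, x1', x2, x3, x4, x5, x6, x7]
    rw [e] at key
    exact key
  have hcond : ∀ z : ℝ, _ := fun z => h1 p0 (by omega) ψ S P₀ (by omega) hS (top S) S' hsub hPr
    (Chi464.Tz (N.fac p0 ψ S) γ (rrf fun q => ψ q / 2) S'
      (TcL wp wpL γ (fun q => ψ q / 2) t lv) t PPb z)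
    (thL γ t) (phL wpL γ (fun q => ψ q / 2) t lv) (labL wpL γ (fun q => ψ q / 2) t lv)
    (fun q hq b hb => hcard z q hq b hb)
  refine ⟨Bld532.par N.B N.C1 N.c2 p0, top S, S', wp, wpL, lv, om, N.d1 p0 ψ S,
    N.lam p0 ψ S, bxL (N.fac p0 ψ S) γ (fun q => ψ q / 2) t, N.tg p0 ψ S, N.tgL p0 ψ S,
    hgood, N.hd1 p0 ψ S, hsub, hpos, hmass, ?_,
    fun q hq z => (hcond z).1 q hq, fun q hq z => (hcond z).2.1 q hq,
    fun q hq h z => (hcond z).2.2.1 q hq h, fun q hq z => (hcond z).2.2.2.1 q hq, ?_⟩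
  · intro q hq
    exact (h5 p0 (by omega) t q (hPr q hq) fun b hb => hcols q b hb).1
  intro c e1 e2 e3 e4 e5 e6 e7 e8 e9 e10 e11 e12 e13 e14 hok j₀
  have e2' : c.r = fun q => ψ q / 2 := funext e2
  exact hX P₀ (by omega)
    { ψ := ψ
      S := S
      S' := S'
      sys := hS
      good := hgood
      prn := hprn
      c := c
      hγ := e1
      hr := e2
      hS := e3
      hS' := e4
      ht := e5
      thr := by rw [e6, hthr]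
      dep := by rw [e6, hdep]
      lam := e11
      thrL := by rw [e7, hthrL]
      depL := by rw [e7, hdepL]
      fine := by
        rw [e6, e1, e2', e3, show c.t = t from e5]
        exact hfine
      fineL := by
        rw [e7, e1, e2', e3, show c.t = t from e5]
        exact hfineL
      same := by
        rw [e6, e7]
        exact ⟨hsm1, hsm2, hsm3, hsm4⟩
      lv := by rw [e8, hlv, show c.t = t from e5]
      om := by rw [e9, hom, e6, e7, e1, e2', e8, show c.t = t from e5]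
      bx := by rw [e12, e1, e2', show c.t = t from e5]
      d1 := e10
      tg := e13
      tgL := e14
      ok := hok } j₀

/-- **the obligations, one by one** (every owner: prove yours for every context). All the constants
may depend on `p0` (but not on `P₀` and the system). -/
theorem MAIN_of_partsF (N : Skel189.Num) {γ : ℝ} (hS2 : HS2 N)
    {C C₀ η B δ₀ : ℕ → ℝ} (hC : ∀ p, 0 ≤ C p)
    (hC₀ : ∀ p, 0 ≤ C₀ p) (hη : ∀ p, 0 ≤ η p) (hB : ∀ p, 0 ≤ B p) (hδ₀ : ∀ p, 0 ≤ δ₀ p)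
    (leafE : ∃ p₁ : ℕ, ∀ p0 ≥ p₁, ∃ Q₁ : ℕ, ∀ P₀ ≥ Q₁, ∀ X : Ctx N γ p0 P₀,
      LeafAll (LeafE X.c.D (wt X.c.D) (C p0)) 1 1 1 X.c.t)
    (leafI : ∃ p₁ : ℕ, ∀ p0 ≥ p₁, ∃ Q₁ : ℕ, ∀ P₀ ≥ Q₁, ∀ X : Ctx N γ p0 P₀,
      LeafAll (LeafI X.c.D (wt X.c.D) (C₀ p0)) 1 1 1 X.c.t)
    (node : ∃ p₁ : ℕ, ∀ p0 ≥ p₁, ∃ Q₁ : ℕ, ∀ P₀ ≥ Q₁, ∀ X : Ctx N γ p0 P₀, ∀ j₀ : X.c.Lam,
      ∃ stp δ, Blind stp ∧ NoSplit stp ∧ (∀ s : St X.c.Lam (Lb (WL X.c.Lam) (leafs 1 1 X.c.t)), s.O = ∅ → s.O' = ∅ → ¬ stp s) ∧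
        (∀ (d : DT X.c.Lam (Lb (WL X.c.Lam) (leafs 1 1 X.c.t))) (A : Finset X.c.Lam),
          stp.jt (selfSt d A)) ∧
        (tG X.c.D (leafs 1 1 X.c.t) 1 1 X.c.t).All
          (Crest.Agent.R4.ClosR758.SlackR AdF δ) ∧
        δ (tG X.c.D (leafs 1 1 X.c.t) 1 1 X.c.t) Finset.univ ≤ δ₀ p0 ∧
        Bld532.All (fun s t' => NodeEF X.c.D (leafs 1 1 X.c.t) X.c.sp (wt X.c.D) (clf X.c.t 1) j₀ stp δ
          (B p0) (η p0) (16 * (C p0 + C₀ p0 + η p0 + B p0 + 1)) s.B s.A t') ⟨top X.S, 1, 1, 1⟩ X.c.t) :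
    MAIN γ := by
  refine MAIN_of_ctxF N hS2 fun p₁ => ?_
  obtain ⟨p1, h1⟩ := leafE
  obtain ⟨p2, h2⟩ := leafI
  obtain ⟨p3, h3⟩ := node
  obtain ⟨p0, hp⟩ : ∃ p0, p0 = p₁ + p1 + p2 + p3 := ⟨_, rfl⟩
  refine ⟨p0, by omega, C p0, C₀ p0, η p0, B p0, δ₀ p0, hC _, hC₀ _, hη _, hB _, hδ₀ _, ?_⟩
  obtain ⟨Q1, k1⟩ := h1 p0 (by omega)
  obtain ⟨Q2, k2⟩ := h2 p0 (by omega)
  obtain ⟨Q3, k3⟩ := h3 p0 (by omega)
  refine ⟨Q1 + Q2 + Q3, fun P₀ hP X j₀ => ?_⟩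
  obtain ⟨stp, δ, b1, b2, a1, a1', a2, a3, a4⟩ := k3 P₀ (by omega) X j₀
  exact ⟨stp, δ,
    { blind := b1
      nosplit := b2
      stp0 := a1
      jt0 := a1'
      slack := a2
      slack0 := a3
      leafE := k1 _ (by omega) X
      leafI := k2 _ (by omega) X
      node := a4 }⟩



/-! ### parts at `A = univ` -/

section part
variable {N : Skel189.Num} {γ : ℝ} {p0 P₀ : ℕ}

/-- the bootstrap hypothesis of a node, `univ` only -/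
def BootF (X : Ctx N γ p0 P₀) (j₀ : X.c.Lam)
    (δ : TrG X.c.Lam (Lb (WL X.c.Lam) X.Y) → Finset X.c.Lam → ℝ) (Kb : ℝ) (u : NS) (τ : IT) : Prop :=
  Below (SMR AdF (X.tm j₀) (X.tn j₀) δ Kb) (X.g u τ)

/-- **a part of the error of the nodes, population `univ`** -/
def PartF (X : Ctx N γ p0 P₀) (j₀ : X.c.Lam) (Hb : NS → IT → Prop)
    (E : NS → IT → Finset X.c.Lam → ℝ) (η : ℝ) : Prop :=
  All (fun u τ => ¬ PulG (X.g u τ) → Hb u τ →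
    E u τ Finset.univ ≤ η * (X.mu j₀ u τ Finset.univ +
      X.mu j₀ u τ Finset.univ * X.mu j₀ u τ Finset.univ))
    ⟨top X.S, 1, 1, 1⟩ X.c.t

/-- a part of the walk error, population `univ` -/
def PartWF (X : Ctx N γ p0 P₀) (j₀ : X.c.Lam) (Hb : NS → IT → Prop)
    (stp : X.STP) (loc : X.Sta → ℝ) (η : ℝ) : Prop :=
  PartF X j₀ Hb (fun u τ A => WS stp loc (X.self u τ A)) η

variable {X : Ctx N γ p0 P₀} {j₀ : X.c.Lam} {Hb Hb' : NS → IT → Prop}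
  {E E' : NS → IT → Finset X.c.Lam → ℝ} {η η' : ℝ} {stp : X.STP} {loc loc' : X.Sta → ℝ}

lemma _root_.Crest.Agent.R4P.Skel189.Part.toF (h : Part X j₀ Hb E η) : PartF X j₀ Hb E η :=
  All.mono (fun u τ hh hp hb => hh hp hb Finset.univ (AdI_univ _ _)
    ⟨j₀, Finset.mem_univ _⟩) h

lemma _root_.Crest.Agent.R4P.Skel189.PartW.toF (h : PartW X j₀ Hb stp loc η) :
    PartWF X j₀ Hb stp loc η := Part.toF h

lemma PartF.add (h : PartF X j₀ Hb E η) (h' : PartF X j₀ Hb E' η') :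
    PartF X j₀ Hb (fun u τ A => E u τ A + E' u τ A) (η + η') :=
  All.mono (fun u τ hh hp hb => by
    have h1 := hh.1 hp hb
    have h2 := hh.2 hp hb
    rw [add_mul]
    exact add_le_add h1 h2) (All.and h h')

lemma PartF.mono (h : PartF X j₀ Hb E η) (hη : η ≤ η') : PartF X j₀ Hb E η' :=
  All.mono (fun u τ hh hp hb => by
    refine (hh.1 hp hb).trans (mul_le_mul_of_nonneg_right hη ?_)
    exact add_nonneg (hh.2 _).1 (hh.2 _).2) (All.and h (ctx_mumu X j₀))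

/-- smaller errors, stronger hypothesis -/
lemma PartF.weaken (h : PartF X j₀ Hb E η) (hH : ∀ u τ, Hb' u τ → Hb u τ)
    (hE : ∀ u τ A, E' u τ A ≤ E u τ A) : PartF X j₀ Hb' E' η :=
  All.mono (fun u τ hh hp hb => (hE u τ _).trans (hh hp (hH u τ hb))) h

lemma PartWF.add (h : PartWF X j₀ Hb stp loc η) (h' : PartWF X j₀ Hb stp loc' η') :
    PartWF X j₀ Hb stp (fun s => loc s + loc' s) (η + η') := by
  have k := PartF.add h h'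
  refine All.mono (fun u τ hh hp hb => ?_) k
  have := hh hp hb
  have e : WS stp (fun s => loc s + loc' s) (X.self u τ Finset.univ) =
      WS stp loc (X.self u τ Finset.univ) + WS stp loc' (X.self u τ Finset.univ) :=
    W_add (fun s => nxt_rank stp s) loc loc' _
  show WS stp (fun s => loc s + loc' s) (X.self u τ Finset.univ) ≤ _
  rw [e]; exact this

end part

/-- **the seven errors of the nodes of a context, `univ`** -/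
structure NodePartsF {N : Skel189.Num} {γ : ℝ} {p0 P₀ : ℕ} (X : Ctx N γ p0 P₀) (j₀ : X.c.Lam)
    (Hb : NS → IT → Prop) (stp : X.STP) (B η : ℝ) : Prop where
  parts : ∃ a₁ a₂ a₃ a₄ a₅ a₆ a₇ : ℝ, a₁ + a₂ + a₃ + a₄ + a₅ + a₆ + a₇ ≤ η ∧
    PartF X j₀ Hb (fun u τ A => dseR A (X.g u τ)) a₁ ∧
    PartF X j₀ Hb (fun u τ A => rseR A (X.g u τ)) a₂ ∧
    PartWF X j₀ Hb stp (eNM stp) a₃ ∧
    PartWF X j₀ Hb stp (eOS stp) a₄ ∧
    PartWF X j₀ Hb stp (eSHR stp) a₅ ∧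
    PartWF X j₀ Hb stp (eX stp (X.tm j₀) B) a₆ ∧
    PartWF X j₀ Hb stp (eSTOP stp (X.tm j₀) (X.tn j₀) B) a₇

/-- **the errors of the nodes from the seven parts** -/
theorem nodeEF_of_parts {N : Skel189.Num} {γ : ℝ} {p0 P₀ : ℕ} {X : Ctx N γ p0 P₀} {j₀ : X.c.Lam}
    {δ : TrG X.c.Lam (Lb (WL X.c.Lam) X.Y) → Finset X.c.Lam → ℝ}
    (hδ : ∀ u τ, 0 ≤ δ (X.g u τ) Finset.univ)
    {stp : X.STP} {B η Kb : ℝ} (h : NodePartsF X j₀ (BootF X j₀ δ Kb) stp B η) :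
    All (fun s t' => NodeEF X.c.D (leafs 1 1 X.c.t) X.c.sp (wt X.c.D) (clf X.c.t 1) j₀ stp δ B η Kb
      s.B s.A t') ⟨top X.S, 1, 1, 1⟩ X.c.t := by
  obtain ⟨a₁, a₂, a₃, a₄, a₅, a₆, a₇, ha, h1, h2, h3, h4, h5, h6, h7⟩ := h.parts
  have k := ((h1.add h2).add ((((h3.add h4).add h5).add h6).add h7)).mono
    (η' := η) (by linarith)
  refine All.mono (fun u τ hh hp hb => ?_) k
  have key := hh hp hb
  have e0 := hδ u τ
  refine le_trans ?_ (le_add_of_nonneg_right e0)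
  exact key

/-- **MAIN FROM THE LEAVES AND THE SEVEN PARTS OF THE NODE ERRORS, full populations** -/
theorem MAIN_of_nodePartsF (N : Skel189.Num) {γ : ℝ} (hS2 : HS2 N)
    {C C₀ η B : ℕ → ℝ} (hC : ∀ p, 0 ≤ C p) (hC₀ : ∀ p, 0 ≤ C₀ p) (hη : ∀ p, 0 ≤ η p)
    (hB : ∀ p, 0 ≤ B p)
    (leafE : ∃ p₁ : ℕ, ∀ p0 ≥ p₁, ∃ Q₁ : ℕ, ∀ P₀ ≥ Q₁, ∀ X : Ctx N γ p0 P₀,
      LeafAll (LeafE X.c.D (wt X.c.D) (C p0)) 1 1 1 X.c.t)
    (leafI : ∃ p₁ : ℕ, ∀ p0 ≥ p₁, ∃ Q₁ : ℕ, ∀ P₀ ≥ Q₁, ∀ X : Ctx N γ p0 P₀,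
      LeafAll (LeafI X.c.D (wt X.c.D) (C₀ p0)) 1 1 1 X.c.t)
    (node : ∃ p₁ : ℕ, ∀ p0 ≥ p₁, ∃ Q₁ : ℕ, ∀ P₀ ≥ Q₁, ∀ X : Ctx N γ p0 P₀, ∀ j₀ : X.c.Lam,
      ∃ stp : X.STP, Blind stp ∧ NoSplit stp ∧ (∀ s : X.Sta, s.O = ∅ → s.O' = ∅ → ¬ stp s) ∧
        (∀ (d : DT X.c.Lam (Lb (WL X.c.Lam) X.Y)) (A : Finset X.c.Lam), stp.jt (selfSt d A)) ∧
        NodePartsF X j₀ (BootF X j₀ (fun _ _ => 0) (16 * (C p0 + C₀ p0 + η p0 + B p0 + 1)))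
          stp (B p0) (η p0)) :
    MAIN γ := by
  refine MAIN_of_partsF N hS2 (δ₀ := fun _ => 0) hC hC₀ hη hB (fun _ => le_rfl) leafE leafI ?_
  obtain ⟨p₁, h⟩ := node
  refine ⟨p₁, fun p0 hp0 => ?_⟩
  obtain ⟨Q₁, h1⟩ := h p0 hp0
  refine ⟨Q₁, fun P₀ hP X j₀ => ?_⟩
  obtain ⟨stp, b1, b2, k1, k2, k3⟩ := h1 P₀ hP X j₀
  exact ⟨stp, fun _ _ => 0, b1, b2, k1, k2, slack_zero _ _, le_rfl,
    nodeEF_of_parts (fun _ _ => le_rfl) k3⟩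

/-- **MAIN from the seven parts, full populations**: `σ` = walk rule of a context, `a i` = constants
(functions of `p0`).  The parts which hold for all populations are used through `Part.toF`,
`PartW.toF`. -/
theorem MAIN_of_sevenF (N : Skel189.Num) {γ : ℝ} (hS2 : HS2 N) {C₀ : ℝ} (hC₀ : 0 ≤ C₀) (hL : LeafNum N C₀)
    (σ : ∀ {p0 P₀ : ℕ} (X : Ctx N γ p0 P₀), X.c.Lam → X.STP)
    (hσb : Ev N γ fun _ _ X => ∀ j₀, Blind (σ X j₀) ∧ NoSplit (σ X j₀))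
    (hσ0 : Ev N γ fun _ _ X => ∀ j₀, ∀ s : X.Sta, s.O = ∅ → s.O' = ∅ → ¬ (σ X j₀) s)
    (hσj : Ev N γ fun _ _ X => ∀ j₀, ∀ (d : DT X.c.Lam (Lb (WL X.c.Lam) X.Y)) (A : Finset X.c.Lam),
      (σ X j₀).jt (selfSt d A))
    {B a₁ a₂ a₃ a₄ a₅ a₆ a₇ : ℕ → ℝ} (hB : ∀ p, 0 ≤ B p) (h1 : ∀ p, 0 ≤ a₁ p) (h2 : ∀ p, 0 ≤ a₂ p)
    (h3 : ∀ p, 0 ≤ a₃ p) (h4 : ∀ p, 0 ≤ a₄ p) (h5 : ∀ p, 0 ≤ a₅ p) (h6 : ∀ p, 0 ≤ a₆ p)
    (h7 : ∀ p, 0 ≤ a₇ p)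
    (node : ∀ K : ℝ, 0 ≤ K → ∀ Kb : ℕ → ℝ,
      Kb = Kbt N K C₀ (fun p => a₁ p + a₂ p + a₃ p + a₄ p + a₅ p + a₆ p + a₇ p) B →
      Ev N γ fun p0 _ X => ∀ j₀ : X.c.Lam,
      PartF X j₀ (BootF X j₀ (fun _ _ => 0) (Kb p0)) (fun u τ A => dseR A (X.g u τ)) (a₁ p0) ∧
      PartF X j₀ (BootF X j₀ (fun _ _ => 0) (Kb p0)) (fun u τ A => rseR A (X.g u τ)) (a₂ p0) ∧
      PartWF X j₀ (BootF X j₀ (fun _ _ => 0) (Kb p0)) (σ X j₀) (eNM (σ X j₀)) (a₃ p0) ∧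
      PartWF X j₀ (BootF X j₀ (fun _ _ => 0) (Kb p0)) (σ X j₀) (eOS (σ X j₀)) (a₄ p0) ∧
      PartWF X j₀ (BootF X j₀ (fun _ _ => 0) (Kb p0)) (σ X j₀) (eSHR (σ X j₀)) (a₅ p0) ∧
      PartWF X j₀ (BootF X j₀ (fun _ _ => 0) (Kb p0)) (σ X j₀) (eX (σ X j₀) (X.tm j₀) (B p0))
        (a₆ p0) ∧
      PartWF X j₀ (BootF X j₀ (fun _ _ => 0) (Kb p0)) (σ X j₀)
        (eSTOP (σ X j₀) (X.tm j₀) (X.tn j₀) (B p0)) (a₇ p0)) :
    MAIN γ := by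
  obtain ⟨K, hK, pE, hE⟩ := hL.E
  obtain ⟨pI, hI⟩ := hL.I
  have hC : ∀ p : ℕ, 0 ≤ K * Real.log p ^ N.c2 := fun p =>
    mul_nonneg hK (Real.rpow_nonneg (Real.log_natCast_nonneg p) _)
  refine MAIN_of_nodePartsF N hS2 (C := fun p0 => K * Real.log p0 ^ N.c2) (C₀ := fun _ => C₀)
    (η := fun p => a₁ p + a₂ p + a₃ p + a₄ p + a₅ p + a₆ p + a₇ p) (B := B) hC (fun _ => hC₀)
    (fun p => by
      have := h1 p; have := h2 p; have := h3 p; have := h4 p; have := h5 p; have := h6 p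
      have := h7 p
      show 0 ≤ a₁ p + a₂ p + a₃ p + a₄ p + a₅ p + a₆ p + a₇ p
      positivity) hB
    ⟨pE, fun p0 hp => ⟨2, fun P₀ hP X => hE p0 hp γ P₀ hP X⟩⟩
    ⟨pI, fun p0 hp => ⟨2, fun P₀ hP X => hI p0 hp γ P₀ hP X⟩⟩ ?_
  refine (((hσb.and hσ0).and hσj).and (node K hK _ rfl)).mono ?_
  intro p0 P₀ X hh j₀
  obtain ⟨⟨⟨k0, k1⟩, k2⟩, k3⟩ := hh
  obtain ⟨m1, m2, m3, m4, m5, m6, m7⟩ := k3 j₀
  exact ⟨σ X j₀, (k0 j₀).1, (k0 j₀).2, k1 j₀, k2 j₀, ⟨a₁ p0, a₂ p0, a₃ p0, a₄ p0, a₅ p0, a₆ p0,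
    a₇ p0, le_rfl, m1, m2, m3, m4, m5, m6, m7⟩⟩

end Crest.Agent.R4P.SkelF29
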