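import Crest.Agent.R4P.LwW_36

/-!
R4 (S0004), dual potential, helper36: **special ties of a pair of words, counts on dyadic blocks**
(45's `hD`, 18417 / 19459).

* `NumL` : the pigeonhole lemma (one `θ`, one `θ'`, accuracy `δ`);
* **`Sp γ K L d n l W b`** : the tie `l` is special for the word `W` of the other member (letters above `l`)
  and the word product `b` of the mate : near relation with cofactors `≤ K`, accuracy `d`, and no fraction of
  denominator `≤ L` near `D2 ∏ W γ`;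
* **`card_Sp`** : `≤ K^2 · #(values of b) · (n / L + 3)` special `l` in `[n, 2n)`;
* `card_up` : the product of the letters above `l` takes at most `1 + #letters` values on a block;
* **`sum_Sp`** : the weighted sum over a block; `sum_blk` : the sum over the blocks.
-/

set_option autoImplicit false

namespace Crest.Agent.R4P.SpD36

open Finset

/-- **pigeonhole lemma** -/
def NumL : Prop := ∀ (θ θ' δ : ℝ) (L n : ℕ) (T : Finset ℕ), 1 ≤ L → 1 ≤ n → 0 ≤ δ → 16 * L * δ ≤ 1 →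
  (∀ s ∈ T, n ≤ s ∧ s < 2 * n) → (∀ s ∈ T, ∃ t : ℤ, |(s : ℝ) * θ - θ' - t| ≤ δ) →
  (n : ℝ) / L + 3 < T.card → ∃ m : ℕ, 1 ≤ m ∧ m ≤ L ∧ ∃ a : ℤ, (m : ℝ) * |θ - a / m| ≤ 8 * L * δ / n

/-- **the tie `l` is special** for the word `W` of the other member (above `l`) and the word product `b` of
the mate: cofactors `≤ K`, accuracy `d`; `n` = bottom of the dyadic block of `l` -/
def Sp (γ : ℝ) (K L : ℕ) (d : ℝ) (n l : ℕ) (W : Finset ℕ) (b : ℝ) : Prop :=
  ∃ D1 D2 : ℕ, 1 ≤ D1 ∧ D1 ≤ K ∧ 1 ≤ D2 ∧ D2 ≤ K ∧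
    (∃ t : ℤ, |(l : ℝ) * ((D2 : ℝ) * ((∏ x ∈ W, x : ℕ) : ℝ) * γ) - (D1 : ℝ) * b * γ - t| ≤ d) ∧
    (∀ m : ℕ, 1 ≤ m → m ≤ L → ∀ a : ℤ,
      8 * L * d / n < (m : ℝ) * |(D2 : ℝ) * ((∏ x ∈ W, x : ℕ) : ℝ) * γ - a / m|)

open Classical in
/-- the `l` of the block with the near relation for `θ`, `θ'` -/
noncomputable def nr (n : ℕ) (θ θ' d : ℝ) : Finset ℕ :=
  (Ico n (2 * n)).filter fun l : ℕ => ∃ t : ℤ, |(l : ℝ) * θ - θ' - t| ≤ d

/-- no fraction of small denominator near `θ` -/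
def NLc (L n : ℕ) (d θ : ℝ) : Prop :=
  ∀ m : ℕ, 1 ≤ m → m ≤ L → ∀ a : ℤ, 8 * L * d / n < (m : ℝ) * |θ - a / m|

/-- one pair of cofactors, one value of the mate -/
lemma card_fix (hN : NumL) {θ θ' d : ℝ} {L n : ℕ} (hL : 1 ≤ L) (hn : 1 ≤ n) (hd : 0 ≤ d)
    (h16 : 16 * L * d ≤ 1) (hNL : NLc L n d θ) : ((nr n θ θ' d).card : ℝ) ≤ (n : ℝ) / L + 3 := by
  classical
  by_contra hcon
  push Not at hcon
  obtain ⟨m, m1, m2, a, ha⟩ := hN θ θ' d L n (nr n θ θ' d) hL hn hd h16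
    (fun s hs => by
      have := (Finset.mem_filter.1 hs).1
      rw [Finset.mem_Ico] at this
      exact this)
    (fun s hs => (Finset.mem_filter.1 hs).2) hcon
  exact absurd ha (not_le.2 (hNL m m1 m2 a))

open Classical in
/-- the pieces of the union -/
noncomputable def Tv (γ : ℝ) (L : ℕ) (d : ℝ → ℝ) (n : ℕ) (W : Finset ℕ) (v : (ℕ × ℕ) × ℝ) : Finset ℕ :=
  if NLc L n (d v.2) ((v.1.2 : ℝ) * ((∏ x ∈ W, x : ℕ) : ℝ) * γ) then
    nr n ((v.1.2 : ℝ) * ((∏ x ∈ W, x : ℕ) : ℝ) * γ) ((v.1.1 : ℝ) * v.2 * γ) (d v.2) else ∅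

lemma card_Tv (hN : NumL) {γ : ℝ} {L n : ℕ} (hL : 1 ≤ L) (hn : 1 ≤ n) {d : ℝ → ℝ} {W : Finset ℕ}
    {v : (ℕ × ℕ) × ℝ} (hd : 0 ≤ d v.2) (h16 : 16 * L * d v.2 ≤ 1) :
    ((Tv γ L d n W v).card : ℝ) ≤ (n : ℝ) / L + 3 := by
  unfold Tv
  split_ifs with h
  · exact card_fix hN hL hn hd h16 h
  · have h0 : (0 : ℝ) ≤ (n : ℝ) / L + 3 := by positivity
    rw [Finset.card_empty, Nat.cast_zero]
    exact h0

open Classical in
/-- **the number of the special ties of a block** -/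
theorem card_Sp (hN : NumL) {γ : ℝ} {K L n : ℕ} (hL : 1 ≤ L) (hn : 1 ≤ n) {d : ℝ → ℝ} {B : ℕ → ℝ}
    (hd : ∀ b, 0 ≤ d b) (h16 : ∀ l ∈ Ico n (2 * n), 16 * L * d (B l) ≤ 1) (W : Finset ℕ) :
    (((Ico n (2 * n)).filter fun l => Sp γ K L (d (B l)) n l W (B l)).card : ℝ) ≤
      (K : ℝ) ^ 2 * (((Ico n (2 * n)).image B).card : ℝ) * ((n : ℝ) / L + 3) := by
  have hsub : ((Ico n (2 * n)).filter fun l => Sp γ K L (d (B l)) n l W (B l)) ⊆
      ((Icc 1 K ×ˢ Icc 1 K) ×ˢ (Ico n (2 * n)).image B).biUnion (Tv γ L d n W) := by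
    intro l hl
    obtain ⟨hl1, D1, D2, a1, a2, a3, a4, hnear, hNL⟩ := Finset.mem_filter.1 hl
    refine Finset.mem_biUnion.2 ⟨((D1, D2), B l), ?_, ?_⟩
    · exact Finset.mem_product.2 ⟨Finset.mem_product.2 ⟨Finset.mem_Icc.2 ⟨a1, a2⟩,
        Finset.mem_Icc.2 ⟨a3, a4⟩⟩, Finset.mem_image_of_mem B hl1⟩
    · have hq : NLc L n (d (B l)) ((D2 : ℝ) * ((∏ x ∈ W, x : ℕ) : ℝ) * γ) := hNL
      unfold Tv
      rw [if_pos hq]
      unfold nr
      exact Finset.mem_filter.2 ⟨hl1, hnear⟩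
  have hb : ∀ v ∈ (Icc 1 K ×ˢ Icc 1 K) ×ˢ (Ico n (2 * n)).image B,
      ((Tv γ L d n W v).card : ℝ) ≤ (n : ℝ) / L + 3 := by
    intro v hv
    obtain ⟨-, hv2⟩ := Finset.mem_product.1 hv
    obtain ⟨l, hl, hl2⟩ := Finset.mem_image.1 hv2
    exact card_Tv hN hL hn (hd _) (by rw [← hl2]; exact h16 l hl)
  have h1 : (((Ico n (2 * n)).filter fun l => Sp γ K L (d (B l)) n l W (B l)).card : ℝ) ≤
      ∑ v ∈ (Icc 1 K ×ˢ Icc 1 K) ×ˢ (Ico n (2 * n)).image B, ((Tv γ L d n W v).card : ℝ) := by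
    have := (Finset.card_le_card hsub).trans Finset.card_biUnion_le
    exact_mod_cast this
  refine h1.trans ((Finset.sum_le_sum hb).trans ?_)
  rw [Finset.sum_const, nsmul_eq_mul]
  have hc : ((((Icc 1 K ×ˢ Icc 1 K) ×ˢ (Ico n (2 * n)).image B).card : ℕ) : ℝ) =
      (K : ℝ) ^ 2 * (((Ico n (2 * n)).image B).card : ℝ) := by
    rw [Finset.card_product, Finset.card_product, Nat.card_Icc]
    push_cast
    ring
  rw [hc]

/-- the sets of the letters above `l` form a chain: at most `1 + #letters` values on a block -/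
lemma card_up (S : Finset ℕ) (a b : ℕ) :
    ((Ico a b).image fun l => S.filter (l < ·)).card ≤ (S.filter fun x => a < x ∧ x < b).card + 1 := by
  classical
  set c0 := (S.filter (fun x => b ≤ x)).card with hc0
  set k := (S.filter fun x => a < x ∧ x < b).card with hk
  have hmap : ∀ F ∈ (Ico a b).image fun l => S.filter (l < ·), F.card ∈ Icc c0 (c0 + k) := by
    intro F hF
    obtain ⟨l, hl, rfl⟩ := Finset.mem_image.1 hF
    rw [Finset.mem_Ico] at hl
    rw [Finset.mem_Icc]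
    constructor
    · exact Finset.card_le_card fun x hx => by
        obtain ⟨h1, h2⟩ := Finset.mem_filter.1 hx
        exact Finset.mem_filter.2 ⟨h1, by omega⟩
    · rw [hc0, hk, ← Finset.card_union_of_disjoint]
      · refine Finset.card_le_card fun x hx => ?_
        obtain ⟨h1, h2⟩ := Finset.mem_filter.1 hx
        rcases le_or_gt b x with h3 | h3
        · exact Finset.mem_union_left _ (Finset.mem_filter.2 ⟨h1, h3⟩)
        · exact Finset.mem_union_right _ (Finset.mem_filter.2 ⟨h1, by omega, h3⟩)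
      · refine Finset.disjoint_filter.2 fun x _ h1 h2 => ?_
        omega
  have hinj : Set.InjOn Finset.card
      (((Ico a b).image fun l => S.filter (l < ·) : Finset (Finset ℕ)) : Set (Finset ℕ)) := by
    intro F hF F' hF' he
    obtain ⟨l, -, rfl⟩ := Finset.mem_image.1 (Finset.mem_coe.1 hF)
    obtain ⟨l', -, rfl⟩ := Finset.mem_image.1 (Finset.mem_coe.1 hF')
    rcases le_total l l' with h | h
    · exact (Finset.eq_of_subset_of_card_le (fun x hx => by
        obtain ⟨h1, h2⟩ := Finset.mem_filter.1 hx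
        exact Finset.mem_filter.2 ⟨h1, by omega⟩) (le_of_eq he)).symm
    · exact Finset.eq_of_subset_of_card_le (fun x hx => by
        obtain ⟨h1, h2⟩ := Finset.mem_filter.1 hx
        exact Finset.mem_filter.2 ⟨h1, by omega⟩) (le_of_eq he.symm)
  have := Finset.card_le_card_of_injOn Finset.card hmap hinj
  rw [Nat.card_Icc] at this
  omega

/-- a function of the letters above `l` -/
lemma card_fun (S : Finset ℕ) (f : Finset ℕ → ℝ) (a b : ℕ) :
    ((Ico a b).image fun l => f (S.filter (l < ·))).card ≤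
      (S.filter fun x => a < x ∧ x < b).card + 1 := by
  classical
  have : ((Ico a b).image fun l => f (S.filter (l < ·))) =
      ((Ico a b).image fun l => S.filter (l < ·)).image f := by
    rw [Finset.image_image]
    rfl
  rw [this]
  exact Finset.card_image_le.trans (card_up S a b)

open Classical in
/-- **the weighted sum over a block**, `B l = f (letters of the mate above l)` -/
theorem sum_Sp (hN : NumL) {γ : ℝ} {K L m : ℕ} (hL : 1 ≤ L) {d : ℝ → ℝ} (S : Finset ℕ)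
    (f : Finset ℕ → ℝ) (hd : ∀ b, 0 ≤ d b)
    (h16 : ∀ l ∈ Ico (2 ^ m) (2 ^ (m + 1)), 16 * L * d (f (S.filter (l < ·))) ≤ 1)
    {G : ℕ → ℝ} {g : ℝ} (hG : ∀ l ∈ Ico (2 ^ m) (2 ^ (m + 1)), G l ≤ g) (hg : 0 ≤ g)
    (W : Finset ℕ) (p : ℕ) :
    ∑ l ∈ (Finset.Ico (2 ^ m) (2 ^ (m + 1))).filter (· ≤ p), 1 / (l : ℝ) *
      (if Sp γ K L (d (f (S.filter (l < ·)))) (2 ^ m) l W (f (S.filter (l < ·))) then G l else 0) ≤
      g * ((K : ℝ) ^ 2 * (1 + ((S.filter fun x => 2 ^ m < x ∧ x < 2 ^ (m + 1)).card : ℝ)) *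
        (1 / L + 3 / 2 ^ m)) := by
  have e2 : 2 ^ (m + 1) = 2 * 2 ^ m := by rw [pow_succ]; ring
  have h2 : (0 : ℝ) < (2 : ℝ) ^ m := by positivity
  have hc := card_Sp hN (γ := γ) (K := K) (L := L) (n := 2 ^ m) hL (Nat.one_le_two_pow) (d := d)
    (B := fun l => f (S.filter (l < ·))) hd (by rw [← e2]; exact h16) W
  rw [← e2] at hc
  have hi := card_fun S f (2 ^ m) (2 ^ (m + 1))
  have hLr : (1 : ℝ) ≤ L := by exact_mod_cast hL
  calc ∑ l ∈ (Finset.Ico (2 ^ m) (2 ^ (m + 1))).filter (· ≤ p), 1 / (l : ℝ) *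
        (if Sp γ K L (d (f (S.filter (l < ·)))) (2 ^ m) l W (f (S.filter (l < ·))) then G l else 0)
      ≤ ∑ l ∈ (Finset.Ico (2 ^ m) (2 ^ (m + 1))).filter (· ≤ p),
        (if Sp γ K L (d (f (S.filter (l < ·)))) (2 ^ m) l W (f (S.filter (l < ·))) then
          g / 2 ^ m else 0) := by
        refine Finset.sum_le_sum fun l hl => ?_
        have hl1 := (Finset.mem_filter.1 hl).1
        have hl2 := (Finset.mem_Ico.1 hl1).1
        have h3 : ((2 : ℝ) ^ m) ≤ l := by exact_mod_cast hl2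
        split_ifs with h
        · calc 1 / (l : ℝ) * G l ≤ 1 / (l : ℝ) * g :=
                mul_le_mul_of_nonneg_left (hG l hl1) (by positivity)
            _ ≤ 1 / 2 ^ m * g :=
                mul_le_mul_of_nonneg_right (one_div_le_one_div_of_le h2 h3) hg
            _ = g / 2 ^ m := by ring
        · rw [mul_zero]
    _ ≤ ∑ l ∈ Finset.Ico (2 ^ m) (2 ^ (m + 1)),
        (if Sp γ K L (d (f (S.filter (l < ·)))) (2 ^ m) l W (f (S.filter (l < ·))) then
          g / 2 ^ m else 0) := by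
        refine Finset.sum_le_sum_of_subset_of_nonneg (Finset.filter_subset _ _) fun l _ _ => ?_
        split_ifs
        · positivity
        · exact le_rfl
    _ = (((Ico (2 ^ m) (2 ^ (m + 1))).filter fun l =>
          Sp γ K L (d (f (S.filter (l < ·)))) (2 ^ m) l W (f (S.filter (l < ·)))).card : ℝ) *
          (g / 2 ^ m) := by
        rw [← Finset.sum_filter, Finset.sum_const, nsmul_eq_mul]
    _ ≤ ((K : ℝ) ^ 2 * (((Ico (2 ^ m) (2 ^ (m + 1))).image fun l => f (S.filter (l < ·))).card : ℝ) *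
          (((2 ^ m : ℕ) : ℝ) / L + 3)) * (g / 2 ^ m) :=
        mul_le_mul_of_nonneg_right hc (by positivity)
    _ ≤ ((K : ℝ) ^ 2 * (1 + ((S.filter fun x => 2 ^ m < x ∧ x < 2 ^ (m + 1)).card : ℝ)) *
          (((2 ^ m : ℕ) : ℝ) / L + 3)) * (g / 2 ^ m) := by
        refine mul_le_mul_of_nonneg_right (mul_le_mul_of_nonneg_right
          (mul_le_mul_of_nonneg_left ?_ (by positivity)) (by positivity)) (by positivity)
        have : ((((Ico (2 ^ m) (2 ^ (m + 1))).image fun l => f (S.filter (l < ·))).card : ℕ) : ℝ) ≤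
          (((S.filter fun x => 2 ^ m < x ∧ x < 2 ^ (m + 1)).card + 1 : ℕ) : ℝ) := by exact_mod_cast hi
        push_cast at this
        linarith
    _ = _ := by
        push_cast
        field_simp

end Crest.Agent.R4P.SpD36
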