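import Crest.Agent.R4P.LeafFam_28

/-!
R4 (S0004) with powers, helper18: **mass of a piece at the special points of a coarser circle** (E3a,
H-1; mass form, no loss of `φ(q)/q`, no polylog).

* `sp_mass` : the piece `j` of the item `q` at the node `(b, pr, t)`; `pp t q` = product of its present
  ties and pulls below the node; `N` contains `pp t q` up to powers of the prime `s`, but not `pp t q`
  itself. Then `I (U_j(x) H(N x)) ≤ β / (1 - 1/s) I (U_j)` for every `H` with fibre averages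
  `Ep s H ≤ β`.
* `Ep_arc1` : `Ep s (arc θ r 1) ≤ 1/s + 2 r`;  `arc_up` : an arc of modulus `w` is below the arc of
  modulus `k w`.
* `sp_arc` : **`∑_j I (U_j * arc θ' r' w') ≤ 2 (1/s + 2 k r') ∑_j I (U_j)`** if `s` divides `pp t q` more
  often than `w' k`, `pp t q ∣ w' k s^m`.
-/

set_option autoImplicit false
set_option linter.unusedSectionVars false
set_option linter.unusedVariables false
open MeasureTheory Filter

namespace Crest.Agent.R4P.SpM18

open Crest.Agent.R4.Tour104 Crest.Agent.R4.Tour758 Crest.Agent.R4.Avg758 Crest.Agent.R4.Clos758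
open Crest.Agent.R4.ClosL758 Crest.Agent.R4.ClosG758 Crest.Agent.R4.Lam368
open Crest.Agent.R4.Piece464 Crest.Agent.R4.Fam464 Crest.Agent.R4P.Cnt588
open Crest.Agent.R4P.Item758 Crest.Agent.R4.AvgItem710
open Crest.Agent.R4.Ovl560 (LW nw nw_nonneg nw_add exw dens dens_pos)
open Crest.Agent.R4P.LeafFam28 Crest.Agent.R4P.AwNw28

variable {Λ κ : Type*} [Fintype Λ] [DecidableEq Λ] [Fintype κ] [DecidableEq κ]

/-- scaled periodic functions -/
lemma PB_scale {H : ℝ → ℝ} (hH : PB H) (N : ℕ) : PB fun x => H (N * x) := hH.pull N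

/-- fibre averages of a function pulled by a number prime to `s` -/
lemma Ep_pull_coprime {s N : ℕ} (hs : 0 < s) (hc : Nat.Coprime N s) {H : ℝ → ℝ} (hH : PB H) (y : ℝ) :
    Ep s (fun x => H (N * x)) y = Ep s H (N * y) := by
  unfold Ep
  congr 1
  exact sum_push_coprime hs hc hH.per y

/-- a nonnegative function times a function with values at most one -/
lemma I_mul_le_one {f g h : ℝ → ℝ} (hf : PB f) (hg : PB g) (hh : PB h) (h1 : ∀ x, g x ≤ 1) :
    I (fun x => f x * g x * h x) ≤ I (fun x => f x * h x) := by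
  refine I_mono ((hf.mul hg).mul hh).integrableOn (hf.mul hh).integrableOn fun x => ?_
  refine mul_le_mul_of_nonneg_right ?_ (hh.nonneg x)
  calc f x * g x ≤ f x * 1 := mul_le_mul_of_nonneg_left (h1 x) (hf.nonneg x)
    _ = f x := mul_one _

/-! ### leaves -/

/-- the leaf weight of the piece `j` is below a product weight of comparable mean -/
def LfW (D : Par Λ κ) (j : Λ) (w : ℕ) (K : ℝ) : Prop := ∃ (P : Finset ℕ) (u : ℕ → ℤ → ℝ),
  (∀ l ∈ P, l.Prime) ∧ (∀ l ∈ P, l ∣ w) ∧ (∀ l ∈ P, ExF l (u l)) ∧ (∀ a, D.om j a ≤ nw P u a) ∧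
    dens P ≤ K * mnw w (D.om j)

/-- a product weight on a class modulo a power of a prime -/
lemma ret_pow_le {s d g : ℕ} (hs : s.Prime) (hg : 0 < g) {P : Finset ℕ} {u : ℕ → ℤ → ℝ}
    (hP : ∀ l ∈ P, l.Prime) (hu : ∀ l ∈ P, ExF l (u l)) (hPw : ∀ l ∈ P, l ∣ g * s ^ d) (a : ℤ) :
    ret (s ^ d) g (nw P u) a ≤ 2 * dens P := by
  classical
  rw [ret_nw hg (LW_of hP hu) hP hPw]
  have s2 : (2 : ℝ) ≤ s := by exact_mod_cast hs.two_le
  have s1 : (1 : ℝ) / s ≤ 1 / 2 := one_div_le_one_div_of_le (by norm_num) s2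
  have h1 : ∀ p ∈ P, 0 < 1 - 1 / (p : ℝ) := fun p hp => by
    have p2 : (2 : ℝ) ≤ p := by exact_mod_cast (hP p hp).two_le
    have p1 : (1 : ℝ) / p ≤ 1 / 2 := one_div_le_one_div_of_le (by norm_num) p2
    linarith
  have h2 : ∏ p ∈ P, (if p ∣ s ^ d then u p a else Crest.Agent.R4.Item464.mn u p) ≤
      ∏ p ∈ P, (if p = s then 1 else 1 - 1 / (p : ℝ)) := by
    refine Finset.prod_le_prod (fun p hp => ?_) fun p hp => ?_
    · split_ifs
      · exact (hu p hp).nonneg (hP p hp) a
      · rw [ExF.mn (hP p hp) (hu p hp)]; exact (h1 p hp).le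
    · by_cases h : p ∣ s ^ d
      · rw [if_pos h, if_pos ((Nat.prime_dvd_prime_iff_eq (hP p hp) hs).1
          ((hP p hp).dvd_of_dvd_pow h))]
        exact (hu p hp).le_one a
      · rw [if_neg h, ExF.mn (hP p hp) (hu p hp)]
        split_ifs with h3
        · have : (0:ℝ) ≤ 1 / p := by positivity
          linarith
        · exact le_rfl
  refine h2.trans ?_
  by_cases hsP : s ∈ P
  · have e1 : dens P = (1 - 1 / (s : ℝ)) * ∏ p ∈ P.erase s, (1 - 1 / (p : ℝ)) := by
      unfold dens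
      exact (Finset.mul_prod_erase P (fun p : ℕ => 1 - 1 / (p : ℝ)) hsP).symm
    have e2 : ∏ p ∈ P, (if p = s then 1 else 1 - 1 / (p : ℝ)) =
        ∏ p ∈ P.erase s, (1 - 1 / (p : ℝ)) := by
      rw [← Finset.mul_prod_erase P (fun p : ℕ => if p = s then (1:ℝ) else 1 - 1 / (p : ℝ)) hsP,
        if_pos rfl, one_mul]
      exact Finset.prod_congr rfl fun p hp => if_neg (Finset.ne_of_mem_erase hp)
    have h3 : 0 ≤ ∏ p ∈ P.erase s, (1 - 1 / (p : ℝ)) :=
      Finset.prod_nonneg fun p hp => (h1 p (Finset.mem_of_mem_erase hp)).le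
    rw [e1, e2]
    nlinarith
  · have e2 : ∏ p ∈ P, (if p = s then 1 else 1 - 1 / (p : ℝ)) = dens P := by
      unfold dens
      refine Finset.prod_congr rfl fun p hp => if_neg fun h => ?_
      rw [h] at hp
      exact hsP hp
    rw [e2]
    have : 0 ≤ dens P := (dens_pos hP).le
    linarith

/-- fibre averages over the powers of `s` -/
lemma Ep_pow_le {s : ℕ} (hs : 0 < s) {H : ℝ → ℝ} {β : ℝ} (hβ : ∀ y, Ep s H y ≤ β) {d : ℕ}
    (hd : 0 < d) (y : ℝ) : Ep (s ^ d) H y ≤ β := by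
  obtain ⟨e, rfl⟩ : ∃ e, d = e + 1 := ⟨d - 1, by omega⟩
  have hse : 0 < s ^ e := Nat.pow_pos hs
  rw [pow_succ, ← Ep_mul hse hs]
  have hse' : (0 : ℝ) < (s ^ e : ℕ) := by exact_mod_cast hse
  unfold Ep
  rw [div_le_iff₀ hse']
  calc ∑ i ∈ Finset.range (s ^ e), (∑ k ∈ Finset.range s, H (((y + i) / (s ^ e : ℕ) + k) / s)) / s
      ≤ ∑ _i ∈ Finset.range (s ^ e), β := Finset.sum_le_sum fun i _ => hβ _
    _ = β * (s ^ e : ℕ) := by rw [Finset.sum_const, Finset.card_range, nsmul_eq_mul, mul_comm]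

lemma leaf_sp (D : Par Λ κ) (hab : ∀ j, D.al j ≤ D.be j) {K : ℝ} {b pr c : ℕ} {S : Finset ℕ}
    (hb : 0 < b) (hF : Fit b pr (.leaf S)) (hW : D.Wts pr (.leaf S)) (hc : c ∣ b) {j : Λ}
    (hj : D.it j ∈ S) (hL : LfW D j (D.it j / pr) K) {s m N : ℕ} (hs : s.Prime)
    (h1 : ¬ D.it j / pr ∣ N) (h2 : D.it j / pr ∣ N * s ^ m) {H : ℝ → ℝ} (hH : PB H) {β : ℝ}
    (hβ : ∀ y, Ep s H y ≤ β) :
    I (fun x => (D.toFT b pr (.leaf S)).U c j x * H (N * x)) ≤
      2 * K * β * I ((D.toFT b pr (.leaf S)).U c j) := by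
  have β0 : 0 ≤ β := by
    refine le_trans ?_ (hβ 0)
    unfold Ep
    exact div_nonneg (Finset.sum_nonneg fun i _ => hH.nonneg _) (Nat.cast_nonneg _)
  have eI := D.I_U hab (.leaf S) b pr c hb hF hW hc j hj
  obtain ⟨a1, a2, a3⟩ := hF _ hj
  have hWj := hW j hj
  have e0 : pr * pp (.leaf S) (D.it j) = pr := by show pr * 1 = pr; ring
  have e0' : prf (.leaf S) (D.it j) = 1 := rfl
  rw [e0] at hWj
  rw [e0, e0', mul_one] at eI
  set w := D.it j / pr with hw
  have w0 : 0 < w := Nat.div_pos (Nat.le_of_dvd a1 a2) (Nat.pos_of_dvd_of_pos a2 a1)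
  have hc0 : 0 < c := Nat.pos_of_dvd_of_pos hc hb
  have hcR : (0 : ℝ) < c := by exact_mod_cast hc0
  have hbR : (0 : ℝ) < b := by exact_mod_cast hb
  have hN0 : 0 < N := Nat.pos_of_ne_zero fun h => h1 (h ▸ dvd_zero _)
  -- the moduli
  set g := w.gcd N with hg
  have g0 : 0 < g := Nat.gcd_pos_of_pos_left _ w0
  obtain ⟨w₁, hw₁⟩ := Nat.gcd_dvd_left w N
  obtain ⟨n', hn'⟩ := Nat.gcd_dvd_right w N
  rw [← hg] at hw₁ hn'
  have hcop : Nat.Coprime w₁ n' := by
    have h3 := Nat.coprime_div_gcd_div_gcd (m := w) (n := N) (Nat.gcd_pos_of_pos_left _ w0)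
    rw [← hg] at h3
    have e1 : w / g = w₁ := by rw [hw₁]; exact Nat.mul_div_cancel_left _ g0
    have e2 : N / g = n' := by rw [hn']; exact Nat.mul_div_cancel_left _ g0
    rwa [e1, e2] at h3
  have hdv : w₁ ∣ s ^ m := by
    have h3 : g * w₁ ∣ g * (n' * s ^ m) := by
      rw [← hw₁, ← mul_assoc, ← hn']; exact h2
    exact hcop.dvd_of_dvd_mul_left (Nat.dvd_of_mul_dvd_mul_left g0 h3)
  obtain ⟨d, -, hd⟩ := (Nat.dvd_prime_pow hs).1 hdv
  have d0 : 0 < d := by
    rcases Nat.eq_zero_or_pos d with h | h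
    · exfalso
      rw [h, pow_zero] at hd
      apply h1
      rw [hw₁, hd, mul_one, hn']
      exact Dvd.intro _ rfl
    · exact h
  have hsd : 0 < s ^ d := Nat.pow_pos hs.pos
  have hcn : Nat.Coprime n' (s ^ d) := by rw [← hd]; exact hcop.symm
  obtain ⟨P, u, p1, p2, p3, p4, p5⟩ := hL
  set θ := (b : ℝ) / c * D.γ with hθ
  set α := (b : ℝ) / c * D.al j with hα
  set β' := (b : ℝ) / c * D.be j with hβ'
  have hle : α ≤ β' := mul_le_mul_of_nonneg_left (hab j) (by positivity)
  have hWc : Wt w fun a => D.om j (c * a) := Wt_scale hWj _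
  have eL : (D.toFT b pr (.leaf S)).U c j = pc θ α β' w (fun a => D.om j (c * a)) := by
    funext x
    show D.L b pr S c j x = _
    unfold Par.L; rw [if_pos (show D.it j ∈ S from hj)]; rfl
  have hco : Nat.Coprime c w := (a3.coprime_dvd_right hc).symm
  -- the product weight on the scaled classes
  have hnc : ∀ l ∈ P, ¬ (l : ℤ) ∣ ((c : ℕ) : ℤ) := fun l hl h => by
    have h3 : l ∣ c := by exact_mod_cast h
    exact (p1 l hl).one_lt.ne' (Nat.eq_one_of_dvd_coprimes hco h3 (p2 l hl))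
  have hu' : ∀ l ∈ P, ExF l (fun a => u l (a * ((c : ℕ) : ℤ))) := fun l hl =>
    (p3 l hl).comp_mul (p1 l hl) (hnc l hl)
  have hom : ∀ a : ℤ, D.om j (c * a) ≤ nw P (fun l a => u l (a * ((c : ℕ) : ℤ))) a := by
    intro a
    refine (p4 _).trans (le_of_eq ?_)
    unfold nw
    exact Finset.prod_congr rfl fun l _ => by rw [mul_comm]
  have hPw : ∀ l ∈ P, l ∣ g * s ^ d := fun l hl => by rw [← hd, ← hw₁]; exact p2 l hl
  have hret : ∀ a, ret (s ^ d) g (fun a => D.om j (c * a)) a ≤ 2 * dens P := by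
    intro a
    refine le_trans ?_ (ret_pow_le hs g0 p1 hu' hPw a)
    unfold ret
    exact div_le_div_of_nonneg_right (Finset.sum_le_sum fun i _ => hom _) (Nat.cast_nonneg _)
  have d1 : 0 ≤ dens P := (dens_pos p1).le
  -- the computation
  have hHn : PB fun x => H (n' * x) := hH.pull n'
  have hpc : PB (pc θ α β' w fun a => D.om j (c * a)) := PB_pc w0 hWc
  have hW1 : Wt (s ^ d) (fun _ : ℤ => (1 : ℝ)) := Wt_one
  have hp1 : PB (pc θ α β' 1 fun _ => (1:ℝ)) := PB_pc one_pos Wt_one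
  have hpd : PB (pc θ α β' (s ^ d) fun _ => (1:ℝ)) := PB_pc hsd Wt_one
  have e4 : I (fun x => (D.toFT b pr (.leaf S)).U c j x * H (N * x)) =
      I (fun y => H (n' * y) * pc θ α β' (s ^ d) (ret (s ^ d) g fun a => D.om j (c * a)) y) := by
    have e5 : (fun x => (D.toFT b pr (.leaf S)).U c j x * H (N * x)) =
        fun x => (fun z => H (n' * z)) (g * x) * pc θ α β' w (fun a => D.om j (c * a)) x := by
      funext x
      rw [eL]
      have : ((N : ℕ) : ℝ) * x = n' * (g * x) := by rw [hn']; push_cast; ring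
      rw [this, mul_comm]
    rw [e5, push_left g0 hHn hpc]
    congr 1
    funext y
    congr 1
    have h5 := Ep_pc_ret (θ := θ) (α := α) (β := β') (w₁ := s ^ d) (z := g) g0
      (κ := fun a => D.om j (c * a)) y
    rw [← hd, ← hw₁] at h5
    rw [h5, hd]
  rw [e4]
  have hWr : Wt (s ^ d) (ret (s ^ d) g fun a => D.om j (c * a)) := by
    refine ret_Wt ?_
    rw [← hd, ← hw₁]; exact hWc
  have k1 : I (fun y => H (n' * y) * pc θ α β' (s ^ d) (ret (s ^ d) g fun a => D.om j (c * a)) y) ≤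
      I (fun y => 2 * dens P * (pc θ α β' 1 (fun _ => 1) ((s ^ d : ℕ) * y) * H (n' * y))) := by
    refine I_mono (hHn.mul (PB_pc hsd hWr)).integrableOn
      (((hp1.pull (s ^ d)).mul hHn).smul (by positivity : (0:ℝ) ≤ 2 * dens P)).integrableOn
      fun y => ?_
    have h5 : pc θ α β' (s ^ d) (ret (s ^ d) g fun a => D.om j (c * a)) y ≤
        2 * dens P * pc θ α β' 1 (fun _ => 1) ((s ^ d : ℕ) * y) := by
      rw [← pc_push, mul_one, ← Crest.Agent.R4.Piece464.pc_smul]
      refine pc_mono (fun a => ?_) y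
      rw [mul_one]
      exact hret a
    have h6 := mul_le_mul_of_nonneg_left h5 (hHn.nonneg y)
    refine h6.trans (le_of_eq ?_)
    ring
  refine k1.trans ?_
  rw [I_smul, push_left hsd hp1 hHn]
  have hEp : PB (Ep (s ^ d) fun x => H (n' * x)) := hHn.Ep hsd
  have k2 : I (fun y => pc θ α β' 1 (fun _ => 1) y * Ep (s ^ d) (fun x => H (n' * x)) y) ≤
      I (fun y => β * pc θ α β' 1 (fun _ => 1) y) := by
    refine I_mono (hp1.mul hEp).integrableOn (hp1.smul β0).integrableOn fun y => ?_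
    rw [mul_comm β]
    refine mul_le_mul_of_nonneg_left ?_ (hp1.nonneg y)
    rw [Ep_pull_coprime hsd hcn hH]
    exact Ep_pow_le hs.pos hβ d0 _
  rw [I_smul, I_pc hle one_pos Wt_one, mnw_const one_pos, mul_one] at k2
  have k3 := mul_le_mul_of_nonneg_left k2 (by positivity : (0:ℝ) ≤ 2 * dens P)
  refine k3.trans ?_
  rw [eI]
  have hlen : 0 ≤ β' - α := by linarith
  have e6 : (b : ℝ) / c * (D.be j - D.al j) = β' - α := by rw [hα, hβ']; ring
  rw [e6]
  have k4 := mul_le_mul_of_nonneg_left p5 (by positivity : (0:ℝ) ≤ 2 * β * (β' - α))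
  calc 2 * dens P * (β * (β' - α)) = 2 * β * (β' - α) * dens P := by ring
    _ ≤ 2 * β * (β' - α) * (K * mnw w (D.om j)) := k4
    _ = _ := by ring

/-- **mass at special points** -/
theorem sp_mass (D : Par Λ κ) (hab : ∀ j, D.al j ≤ D.be j) {K : ℝ} (hK : 1 ≤ K) {s : ℕ}
    (hs : s.Prime) {m : ℕ}
    {H : ℝ → ℝ} (hH : PB H) {β : ℝ} (hβ : ∀ y, Ep s H y ≤ β) (t : IT) : ∀ b pr c N : ℕ, 0 < b →
    Fit b pr t → D.Wts pr t → c ∣ b → ∀ j, D.it j ∈ t.items →
    LfW D j (D.it j / (pr * pp t (D.it j))) K → ¬ D.it j / pr ∣ N →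
    D.it j / pr ∣ N * s ^ m →
    I (fun x => (D.toFT b pr t).U c j x * H (N * x)) ≤
      2 * K * β * I ((D.toFT b pr t).U c j) := by
  have β0 : 0 ≤ β := by
    refine le_trans ?_ (hβ 0)
    unfold Ep
    exact div_nonneg (Finset.sum_nonneg fun i _ => hH.nonneg _) (Nat.cast_nonneg _)
  have hC1 : β ≤ 2 * K * β := by nlinarith
  have hC0 : 0 ≤ 2 * K * β := by positivity
  induction t with
  | leaf S =>
    intro b pr c N hb hF hW hc j hj hL h1 h2
    have e0 : pr * pp (.leaf S) (D.it j) = pr := by show pr * 1 = pr; ring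
    rw [e0] at hL
    exact leaf_sp D hab hb hF hW hc hj hL hs h1 h2 hH hβ
  | br p Sp t₁ t₀ ih₁ ih₀ =>
    intro b pr c N hb hF hW hc j hj hL h1 h2
    have hA : (D.toFT b pr (.br p Sp t₁ t₀)).Adm b := D.toFT_Adm _ b pr hb hF hW
    have hdat := FT.dat hb hA
    obtain ⟨hp, hpb, hd, k1, k0⟩ := hF
    have hbp : 0 < b * p := Nat.mul_pos hb hp.pos
    have hpR : (p : ℝ) ≠ 0 := by exact_mod_cast hp.ne_zero
    by_cases hj0 : D.it j ∈ t₀.items
    · have hj1 : D.it j ∉ t₁.items := Finset.disjoint_right.1 hd hj0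
      have eU : (D.toFT b pr (.br p Sp t₁ t₀)).U c j = (D.toFT (b * p) pr t₀).U (c * p) j := by
        funext x
        show mult p _ _ _ _ _ j (c * x) * (D.toFT b (pr * p) t₁).U c j (p * x) +
          (D.toFT (b * p) pr t₀).U (c * p) j x = _
        rw [D.U_zero t₁ _ _ _ j hj1, mul_zero, zero_add]
      have e : pp (.br p Sp t₁ t₀) (D.it j) = pp t₀ (D.it j) := if_pos hj0
      rw [e] at hL
      rw [eU]
      exact ih₀ (b * p) pr (c * p) N hbp k0 hW.br₀ (mul_dvd_mul_right hc p) j hj0 hL h1 h2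
    · have hj1 : D.it j ∈ t₁.items := (Finset.mem_union.1 hj).resolve_right hj0
      set M := mult p (fun j => (D.toFT b (pr * p) t₁).U 1 j)
        (fun j => (D.toFT (b * p) pr t₀).U p j) (fun j => (D.toFT (b * p) pr t₀).U 1 j)
        (fun _ => D.rho p) (0 + 1) j with hM
      have hMpb : PB M := PB_mult hdat j
      have hM1 : ∀ x, M x ≤ 1 := fun x => (mult_bounds (c := fun _ => D.rho p) (n := 0 + 1) hdat j x).2
      have hUpb : PB ((D.toFT b (pr * p) t₁).U c j) := FT.pb hb hA.2.2.2.1 hc j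
      have eU : (D.toFT b pr (.br p Sp t₁ t₀)).U c j = fun x =>
          (D.toFT b (pr * p) t₁).U c j (p * x) * M (c * x) := by
        funext x
        show M (c * x) * (D.toFT b (pr * p) t₁).U c j (p * x) +
          (D.toFT (b * p) pr t₀).U (c * p) j x = _
        rw [D.U_zero t₀ _ _ _ j hj0, add_zero, mul_comm]
      have hcp : Nat.Coprime c p := (hpb.coprime_dvd_right hc).symm
      have hEM : ∀ y, Ep p (fun x => M (c * x)) y = 1 - 1 / (p : ℝ) := by
        intro y
        have h3 := Ep_mult (c := fun _ => D.rho p) (n := 0 + 1) hdat j (c * y)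
        rw [← h3]
        exact Ep_pull_coprime hp.pos hcp hMpb y
      -- the mass
      have eI : I ((D.toFT b pr (.br p Sp t₁ t₀)).U c j) =
          (1 - 1 / (p : ℝ)) * I ((D.toFT b (pr * p) t₁).U c j) := by
        rw [eU, push_left hp.pos hUpb (hMpb.pull c)]
        have e3 : (fun y => (D.toFT b (pr * p) t₁).U c j y * Ep p (fun x => M (c * x)) y) =
            fun y => (1 - 1 / (p : ℝ)) * (D.toFT b (pr * p) t₁).U c j y := by
          funext y; rw [hEM]; ring
        rw [e3, I_smul]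
      have e : pp (.br p Sp t₁ t₀) (D.it j) = p * pp t₁ (D.it j) := if_neg hj0
      rw [e, ← mul_assoc] at hL
      obtain ⟨b1, b2, b3⟩ := k1.item _ hj1
      rw [div_step b1 b2] at h1 h2
      have hUN : 0 ≤ I ((D.toFT b (pr * p) t₁).U c j) := I_nonneg fun x => hUpb.nonneg x
      by_cases hpN : p ∣ N
      · obtain ⟨N₁, rfl⟩ := hpN
        have h1' : ¬ D.it j / (pr * p) ∣ N₁ := fun h => h1 (mul_dvd_mul_left p h)
        have h2' : D.it j / (pr * p) ∣ N₁ * s ^ m := by
          rw [mul_assoc] at h2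
          exact Nat.dvd_of_mul_dvd_mul_left hp.pos h2
        have key := ih₁ b (pr * p) c N₁ hb k1 (hW.br₁ hd) hc j hj1 hL h1' h2'
        have hHN : PB fun x => H (N₁ * x) := hH.pull N₁
        have e4 : (fun x => (D.toFT b pr (.br p Sp t₁ t₀)).U c j x * H (((p * N₁ : ℕ) : ℝ) * x)) =
            fun x => (fun z => (D.toFT b (pr * p) t₁).U c j z * H (N₁ * z)) (p * x) * M (c * x) := by
          funext x
          rw [eU]
          have : ((p * N₁ : ℕ) : ℝ) * x = N₁ * (p * x) := by push_cast; ring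
          rw [this]
          ring
        rw [e4, push_left hp.pos (hUpb.mul hHN) (hMpb.pull c), eI]
        have e3 : (fun y => (fun z => (D.toFT b (pr * p) t₁).U c j z * H (N₁ * z)) y *
            Ep p (fun x => M (c * x)) y) =
            fun y => (1 - 1 / (p : ℝ)) * ((D.toFT b (pr * p) t₁).U c j y * H (N₁ * y)) := by
          funext y; rw [hEM]; ring
        rw [e3, I_smul]
        have p1 : (1 : ℝ) / p ≤ 1 := by
          rw [div_le_one (by exact_mod_cast hp.pos)]
          exact_mod_cast hp.one_lt.le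
        calc (1 - 1 / (p : ℝ)) * I (fun y => (D.toFT b (pr * p) t₁).U c j y * H (N₁ * y))
            ≤ (1 - 1 / (p : ℝ)) * (2 * K * β * I ((D.toFT b (pr * p) t₁).U c j)) :=
              mul_le_mul_of_nonneg_left key (by linarith)
          _ = _ := by ring
      · -- the averaging step
        have hps : p = s := by
          have h3 : p ∣ N * s ^ m := (Dvd.intro _ rfl).trans h2
          rcases (Nat.Prime.dvd_mul hp).1 h3 with h4 | h4
          · exact absurd h4 hpN
          · exact (Nat.prime_dvd_prime_iff_eq hp hs).1 (hp.dvd_of_dvd_pow h4)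
        subst hps
        have hcN : Nat.Coprime N p := (Nat.Prime.coprime_iff_not_dvd hp).2 hpN |>.symm
        have hHN : PB fun x => H (N * x) := hH.pull N
        have e4 : (fun x => (D.toFT b pr (.br p Sp t₁ t₀)).U c j x * H (N * x)) =
            fun x => (D.toFT b (pr * p) t₁).U c j (p * x) * M (c * x) * H (N * x) := by
          funext x
          rw [eU]
        rw [e4]
        refine (I_mul_le_one (hUpb.pull p) (hMpb.pull c) hHN fun x => hM1 _).trans ?_
        rw [push_left hp.pos hUpb hHN]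
        have hEp : PB (Ep p fun x => H (N * x)) := hHN.Ep hp.pos
        have k5 : I (fun y => (D.toFT b (pr * p) t₁).U c j y * Ep p (fun x => H (N * x)) y) ≤
            I (fun y => β * (D.toFT b (pr * p) t₁).U c j y) := by
          refine I_mono (hUpb.mul hEp).integrableOn (hUpb.smul β0).integrableOn fun y => ?_
          rw [mul_comm β]
          refine mul_le_mul_of_nonneg_left ?_ (hUpb.nonneg y)
          rw [Ep_pull_coprime hp.pos hcN hH]
          exact hβ _
        refine k5.trans ?_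
        rw [I_smul, eI]
        have s2 : (2 : ℝ) ≤ p := by exact_mod_cast hp.two_le
        have s1 : (1 : ℝ) / p ≤ 1 / 2 := one_div_le_one_div_of_le (by norm_num) s2
        have h7 : (1:ℝ) ≤ 2 * K * (1 - 1 / (p : ℝ)) := by nlinarith
        have h8 := mul_le_mul_of_nonneg_right h7 (mul_nonneg β0 hUN)
        calc β * I ((D.toFT b (pr * p) t₁).U c j) =
            1 * (β * I ((D.toFT b (pr * p) t₁).U c j)) := (one_mul _).symm
          _ ≤ 2 * K * (1 - 1 / (p : ℝ)) * (β * I ((D.toFT b (pr * p) t₁).U c j)) := h8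
          _ = _ := by ring
  | add b' t₁ t₀ ih₁ ih₀ =>
    intro b pr c N hb hF hW hc j hj hL h1 h2
    obtain ⟨hd, k1, k0⟩ := hF
    by_cases hj0 : D.it j ∈ t₀.items
    · have hj1 : D.it j ∉ t₁.items := Finset.disjoint_right.1 hd hj0
      have eU : (D.toFT b pr (.add b' t₁ t₀)).U c j = (D.toFT b pr t₀).U c j := by
        funext x
        show (D.toFT b pr t₁).U c j x + (D.toFT b pr t₀).U c j x = _
        rw [D.U_zero t₁ _ _ _ j hj1, zero_add]
      have e : pp (.add b' t₁ t₀) (D.it j) = pp t₀ (D.it j) := if_pos hj0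
      rw [e] at hL
      rw [eU]
      exact ih₀ b pr c N hb k0 hW.add₀ hc j hj0 hL h1 h2
    · have hj1 : D.it j ∈ t₁.items := (Finset.mem_union.1 hj).resolve_right hj0
      have eU : (D.toFT b pr (.add b' t₁ t₀)).U c j = (D.toFT b pr t₁).U c j := by
        funext x
        show (D.toFT b pr t₁).U c j x + (D.toFT b pr t₀).U c j x = _
        rw [D.U_zero t₀ _ _ _ j hj0, add_zero]
      have e : pp (.add b' t₁ t₀) (D.it j) = pp t₁ (D.it j) := if_neg hj0
      rw [e] at hL
      rw [eU]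
      exact ih₁ b pr c N hb k1 (hW.add₁ hd) hc j hj1 hL h1 h2
  | up b' Sp t ih =>
    intro b pr c N hb hF hW hc j hj hL h1 h2
    exact ih b pr c N hb hF hW hc j hj hL h1 h2
  | pl p t ih =>
    intro b pr c N hb hF hW hc j hj hL h1 h2
    obtain ⟨hp, hpb, k1⟩ := hF
    have hA : (D.toFT b (pr * p) t).Adm b := D.toFT_Adm _ b (pr * p) hb k1 hW.pl
    have hUpb : PB ((D.toFT b (pr * p) t).U c j) := FT.pb hb hA hc j
    have eU : (D.toFT b pr (.pl p t)).U c j = fun x => (D.toFT b (pr * p) t).U c j (p * x) := by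
      funext x
      rfl
    have hone : PB (fun _ : ℝ => (1 : ℝ)) := PB.const zero_le_one
    have eI : I ((D.toFT b pr (.pl p t)).U c j) = I ((D.toFT b (pr * p) t).U c j) := by
      have e0 : (D.toFT b pr (.pl p t)).U c j =
          fun x => (D.toFT b (pr * p) t).U c j (p * x) * 1 := by
        funext x
        rw [eU, mul_one]
      rw [e0, push_left hp.pos hUpb hone]
      congr 1
      funext y; rw [Ep_const hp.pos, mul_one]
    have e : pp (.pl p t) (D.it j) = p * pp t (D.it j) := rfl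
    rw [e, ← mul_assoc] at hL
    obtain ⟨b1, b2, b3⟩ := k1.item _ hj
    rw [div_step b1 b2] at h1 h2
    by_cases hpN : p ∣ N
    · obtain ⟨N₁, rfl⟩ := hpN
      have h1' : ¬ D.it j / (pr * p) ∣ N₁ := fun h => h1 (mul_dvd_mul_left p h)
      have h2' : D.it j / (pr * p) ∣ N₁ * s ^ m := by
        rw [mul_assoc] at h2
        exact Nat.dvd_of_mul_dvd_mul_left hp.pos h2
      have key := ih b (pr * p) c N₁ hb k1 hW.pl hc j hj hL h1' h2'
      have hHN : PB fun x => H (N₁ * x) := hH.pull N₁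
      have e4 : (fun x => (D.toFT b pr (.pl p t)).U c j x * H (((p * N₁ : ℕ) : ℝ) * x)) =
          fun x => (fun z => (D.toFT b (pr * p) t).U c j z * H (N₁ * z)) (p * x) * 1 := by
        funext x
        rw [eU]
        have : ((p * N₁ : ℕ) : ℝ) * x = N₁ * (p * x) := by push_cast; ring
        rw [this]
        ring
      rw [e4, push_left hp.pos (hUpb.mul hHN) hone, eI]
      have e3 : (fun y => (fun z => (D.toFT b (pr * p) t).U c j z * H (N₁ * z)) y *
          Ep p (fun _ => (1 : ℝ)) y) =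
          fun y => (D.toFT b (pr * p) t).U c j y * H (N₁ * y) := by
        funext y; rw [Ep_const hp.pos, mul_one]
      rw [e3]
      exact key
    · have hps : p = s := by
        have h3 : p ∣ N * s ^ m := (Dvd.intro _ rfl).trans h2
        rcases (Nat.Prime.dvd_mul hp).1 h3 with h4 | h4
        · exact absurd h4 hpN
        · exact (Nat.prime_dvd_prime_iff_eq hp hs).1 (hp.dvd_of_dvd_pow h4)
      subst hps
      have hcN : Nat.Coprime N p := (Nat.Prime.coprime_iff_not_dvd hp).2 hpN |>.symm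
      have hHN : PB fun x => H (N * x) := hH.pull N
      have e4 : (fun x => (D.toFT b pr (.pl p t)).U c j x * H (N * x)) =
          fun x => (D.toFT b (pr * p) t).U c j (p * x) * H (N * x) := by
        funext x
        rw [eU]
      rw [e4, push_left hp.pos hUpb hHN]
      have hEp : PB (Ep p fun x => H (N * x)) := hHN.Ep hp.pos
      have k5 : I (fun y => (D.toFT b (pr * p) t).U c j y * Ep p (fun x => H (N * x)) y) ≤
          I (fun y => β * (D.toFT b (pr * p) t).U c j y) := by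
        refine I_mono (hUpb.mul hEp).integrableOn (hUpb.smul β0).integrableOn fun y => ?_
        rw [mul_comm β]
        refine mul_le_mul_of_nonneg_left ?_ (hUpb.nonneg y)
        rw [Ep_pull_coprime hp.pos hcN hH]
        exact hβ _
      refine k5.trans ?_
      rw [I_smul, eI]
      exact mul_le_mul_of_nonneg_right hC1 (I_nonneg fun x => hUpb.nonneg x)
  | far b' t₁ t₀ ih₁ ih₀ =>
    intro b pr c N hb hF hW hc j hj hL h1 h2
    obtain ⟨hd, k1, k0⟩ := hF
    by_cases hj0 : D.it j ∈ t₀.items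
    · have hj1 : D.it j ∉ t₁.items := Finset.disjoint_right.1 hd hj0
      have eU : (D.toFT b pr (.far b' t₁ t₀)).U c j = (D.toFT b pr t₀).U c j := by
        funext x
        show (D.toFT b pr t₁).U c j x + (D.toFT b pr t₀).U c j x = _
        rw [D.U_zero t₁ _ _ _ j hj1, zero_add]
      have e : pp (.far b' t₁ t₀) (D.it j) = pp t₀ (D.it j) := if_pos hj0
      rw [e] at hL
      rw [eU]
      exact ih₀ b pr c N hb k0 hW.far₀ hc j hj0 hL h1 h2
    · have hj1 : D.it j ∈ t₁.items := (Finset.mem_union.1 hj).resolve_right hj0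
      have eU : (D.toFT b pr (.far b' t₁ t₀)).U c j = (D.toFT b pr t₁).U c j := by
        funext x
        show (D.toFT b pr t₁).U c j x + (D.toFT b pr t₀).U c j x = _
        rw [D.U_zero t₀ _ _ _ j hj0, add_zero]
      have e : pp (.far b' t₁ t₀) (D.it j) = pp t₁ (D.it j) := if_neg hj0
      rw [e] at hL
      rw [eU]
      exact ih₁ b pr c N hb k1 (hW.far₁ hd) hc j hj1 hL h1 h2

/-! ### arcs -/

/-- number of the points of an arc -/
lemma arc_le_count {θ r : ℝ} (hr : 0 ≤ r) {w : ℕ} (x : ℝ) : arc θ r w x ≤ 2 * r + 1 := by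
  have h := pc_le (θ := θ) (α := -r) (β := r) (w := w) (κ := fun _ => (1:ℝ)) (B := 1)
    (by linarith) zero_le_one (fun _ => le_rfl) x
  unfold arc
  linarith

/-- the fibre averages of an arc of modulus one -/
lemma Ep_arc1 {θ r : ℝ} (hr : 0 ≤ r) {s : ℕ} (hs : 0 < s) (y : ℝ) :
    Ep s (arc θ r 1) y ≤ 1 / (s : ℝ) + 2 * r := by
  have hs' : (0 : ℝ) < s := by exact_mod_cast hs
  have h := Ep_pc_raise (θ := θ) (α := -r) (β := r) (w := 1) (m := s) hs (Nat.coprime_one_right s)
    (κ := fun _ => (1:ℝ)) Wt_one y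
  have h0 : Ep s (arc θ r 1) y = Ep s (pc θ (-r) r 1 fun _ => 1) y := rfl
  rw [h0, h]
  have h1 := pc_le (θ := s * θ) (α := s * -r) (β := s * r) (w := 1)
    (κ := rs 1 s fun _ => (1:ℝ)) (B := 1) (by nlinarith) zero_le_one
    (rs_le (fun _ => le_rfl)) y
  calc 1 / (s:ℝ) * pc (s * θ) (s * -r) (s * r) 1 (rs 1 s fun _ => (1:ℝ)) y
      ≤ 1 / (s:ℝ) * ((s * r - s * -r + 1) * 1) := by
        refine mul_le_mul_of_nonneg_left ?_ (by positivity)
        linarith
    _ = 1 / (s:ℝ) + 2 * r := by field_simp; ring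

/-- an arc is below the arc of a multiple of the modulus -/
lemma arc_up {θ r : ℝ} {w k : ℕ} (hk : 0 < k) (x : ℝ) :
    arc θ r w x ≤ arc (k * θ) (k * r) 1 ((w * k : ℕ) * x) := by
  have hk' : (0 : ℝ) < k := by exact_mod_cast hk
  unfold arc pc
  have hinj : Set.InjOn (fun a : ℤ => (k : ℤ) * a)
      (Finset.Ioc ⌊(w : ℝ) * x - θ - r⌋ ⌊(w : ℝ) * x - θ - -r⌋ : Set ℤ) := by
    intro a _ a' _ h
    have hkz : (k : ℤ) ≠ 0 := by exact_mod_cast hk.ne'
    exact mul_left_cancel₀ hkz h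
  rw [Finset.sum_const, Finset.sum_const, nsmul_eq_mul, nsmul_eq_mul, mul_one, mul_one]
  rw [← Finset.card_image_of_injOn hinj]
  refine Nat.cast_le.2 (Finset.card_le_card ?_)
  intro b hb
  obtain ⟨a, ha, rfl⟩ := Finset.mem_image.1 hb
  have h1 := mem_pw.1 ha
  refine mem_pw.2 ⟨?_, ?_⟩
  · have := mul_le_mul_of_nonneg_left h1.1 hk'.le
    push_cast
    nlinarith
  · have := mul_lt_mul_of_pos_left h1.2 hk'
    push_cast
    nlinarith

/-- **the mass of a piece at the arcs of another item** -/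
theorem sp_arc (D : Par Λ κ) (hab : ∀ j, D.al j ≤ D.be j) {K : ℝ} (hK : 1 ≤ K) {s : ℕ}
    (hs : s.Prime) {m : ℕ} {t : IT} {b pr c : ℕ} (hb : 0 < b)
    (hF : Fit b pr t) (hW : D.Wts pr t) (hc : c ∣ b) {j : Λ} (hj : D.it j ∈ t.items)
    (hL : LfW D j (D.it j / (pr * pp t (D.it j))) K)
    {θ r : ℝ} (hr : 0 ≤ r) {w k : ℕ} (hw : 0 < w) (hk : 0 < k) (h1 : ¬ D.it j / pr ∣ w * k)
    (h2 : D.it j / pr ∣ w * k * s ^ m) :
    I (fun x => (D.toFT b pr t).U c j x * arc θ r w x) ≤
      2 * K * (1 / (s : ℝ) + 2 * (k * r)) * I ((D.toFT b pr t).U c j) := by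
  have hkr : 0 ≤ (k : ℝ) * r := mul_nonneg (Nat.cast_nonneg _) hr
  have hH : PB (arc (k * θ) (k * r) 1) := PB_arc _ _ one_pos
  have hU : PB ((D.toFT b pr t).U c j) := FT.pb hb (D.toFT_Adm t b pr hb hF hW) hc j
  have key := sp_mass D hab hK hs (m := m) hH (fun y => Ep_arc1 hkr hs.pos y) t b pr c (w * k) hb
    hF hW hc j hj hL h1 h2
  refine le_trans ?_ key
  refine I_mono (hU.mul (PB_arc θ r hw)).integrableOn
    (hU.mul (hH.pull (w * k))).integrableOn fun x => ?_
  exact mul_le_mul_of_nonneg_left (arc_up hk x) (hU.nonneg x)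

end Crest.Agent.R4P.SpM18
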