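import Crest.Agent.R4P.StG_6
import Crest.Agent.R4P.LabD_33

/-!
R4 (S0004) with powers, C1, helper6: **the state machine of the permissive labels** (`LabD_33`,
`e : UV`), over `StMc_46`, `StM1_42`, `StG_6`. The real states are unchanged.

* `grP e`, `ghiP e`, `glowP e` : game label of an item (processed missing ties `M`), of the state, of the
  low state; `grP_hi grP_lo grP_dn`.
* `KindP e`, `kindP` : the kinds of changes of the game label at an own missing tie; `glowP_kind`.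
* `DenP e`, `AccP e` : the static events; **`glowP_ev`**.
* the rule `RG (g5 c (grP e c))` of `StG_6`: **`ctx_SEGp`, `ctx_MEGp`**.
-/

set_option autoImplicit false
set_option linter.unusedSectionVars false
set_option linter.unusedVariables false
open MeasureTheory Filter Set

namespace Crest.Agent.R4P.StH6

open Crest.Agent.R4P.Cnt588 Crest.Agent.R4P.Item758 Crest.Agent.R4P.W363
open Crest.Agent.R4P.Data758
open Crest.Agent.R4P.Bld532 (NS All NodeOk Bk)
open Crest.Agent.R4P.WalkIT579 (tp isL)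
open Crest.Agent.R4P.StratN36 (ex)
open Crest.Agent.R4P.Step588 Crest.Agent.R4P.RseSt23
open Crest.Agent.R4P.DTp26 Crest.Agent.R4P.DTm407
open Crest.Agent.R4P.TYI47 Crest.Agent.R4P.TYJ47 Crest.Agent.R4P.TYK47
open Crest.Agent.R4P.TYP9 Crest.Agent.R4P.RsT47
open Crest.Agent.R4P.StM6 (d5 dense d5_pos one_le_d5 d5_anti dense_anti)
open Crest.Agent.R4P.StM246 Crest.Agent.R4P.StE6 Crest.Agent.R4P.StF6
open Crest.Agent.R4P.StG6
open Crest.Agent.R4P.StB21 (bt TH LvF)
open Crest.Agent.R4P.PosP33 (UV)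
open Crest.Agent.R4P.LabD33

/-! ### own missing ties, pure level -/

section pure
variable {e : UV} {γ ψ t t' : ℝ} {b s : ℕ} {ρ κ τ : ℚ} {L : List ℕ} {st st' : Option ℚ}

/-- a label which is the own-radius label at `s b` and not at `b` was dead at `b` by its
denominator -/
lemma born_gt (hs : 0 < s) (hb : 0 < b) (h : lab0P e γ ψ (s * b) = some ρ)
    (hne : lab0P e γ ψ b ≠ some ρ) : 1 < d5 b ρ * (b * ψ) ^ (1 + e.u) := by
  have hsb := Nat.mul_pos hs hb
  obtain ⟨h0, h1, h2, h3⟩ := own_spec hsb h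
  have hb' : (0 : ℝ) < b := by exact_mod_cast hb
  have hs1 : (1 : ℝ) ≤ s := by exact_mod_cast hs
  have h4 : (b : ℝ) * ψ ≤ 1 / 10 := by
    refine le_trans ?_ h1
    push_cast
    have : (b : ℝ) * ψ ≤ s * ((b : ℝ) * ψ) := le_mul_of_one_le_left (by positivity) hs1
    linarith
  rcases not_own hb h0 h4 hne with h5 | h5
  · exact h5
  · exact absurd (acc_anti hs h3) h5

/-- **a label born at the missing tie `s`** -/
theorem born_den (hs : s.Prime) (hb : 0 < b) (h : lab0P e γ ψ (s * b) = some ρ)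
    (hne : lab0P e γ ψ b ≠ some ρ) :
    ((b : ℚ) * ρ).den = s * (((s * b : ℕ) : ℚ) * ρ).den := by
  have h1 := born_gt hs.pos hb h hne
  have hsb := Nat.mul_pos hs.pos hb
  obtain ⟨h0, -, h2, -⟩ := own_spec hsb h
  rcases StM042.den_up hs b ρ with h3 | h3
  · exfalso
    have e1 : d5 b ρ = d5 (s * b) ρ := by
      unfold d5
      rw [h3]
    have hb' : (0 : ℝ) < b := by exact_mod_cast hb
    have hs1 : (1 : ℝ) ≤ s := by exact_mod_cast hs.pos
    have e2 : ((b : ℝ) * ψ) ^ (1 + e.u) ≤ (((s * b : ℕ) : ℝ) * ψ) ^ (1 + e.u) := by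
      refine Real.rpow_le_rpow (by positivity) ?_ (by linarith [e.u0])
      push_cast
      have : (b : ℝ) * ψ ≤ s * ((b : ℝ) * ψ) := le_mul_of_one_le_left (by positivity) hs1
      linarith
    rw [e1] at h1
    have := mul_le_mul_of_nonneg_left e2 (d5_pos (s * b) ρ).le
    linarith
  · exact h3

/-- **the kinds of changes** of the game label from `g` (above) to `g'` (below) at the own missing
tie `s`, permissive labels -/
inductive KindP (e : UV) (γ ψ : ℝ) (s : ℕ) (L : List ℕ) (g g' : Option ℚ) : Prop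
  /-- nothing changes -/
  | same : g' = g → KindP e γ ψ s L g g'
  /-- a new own-radius label `ρ`; nothing above -/
  | birth (ρ : ℚ) : g = none → g' = some ρ → own e γ ψ (s :: L) = some ρ →
      ((L.prod : ℚ) * ρ).den = s * (((s * L.prod : ℕ) : ℚ) * ρ).den →
      1 < d5 L.prod ρ * (L.prod * ψ) ^ (1 + e.u) → KindP e γ ψ s L g g'
  /-- a new own-radius label `ρ`; the old label `κ` is accurate and dead by its denominator -/
  | new (κ ρ : ℚ) : g = some κ → g' = some ρ → κ ≠ ρ → own e γ ψ (s :: L) = some ρ →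
      acc e γ ψ (s * L.prod) κ →
      ((L.prod : ℚ) * ρ).den = s * (((s * L.prod : ℕ) : ℚ) * ρ).den →
      1 < d5 L.prod ρ * (L.prod * ψ) ^ (1 + e.u) →
      1 < d5 (s * L.prod) κ * ((s * L.prod : ℕ) * ψ) ^ (1 + e.u) →
      d5 (s * L.prod) ρ < d5 (s * L.prod) κ →
      1 ≤ 32 * ((s * L.prod : ℕ) * ψ) ^ (4 * (1 - e.v)) *
        (d5 (s * L.prod) ρ * d5 (s * L.prod) κ) →
      1 ≤ 32 * ((s * L.prod : ℕ) * ψ) ^ (11 / 4 : ℝ) * d5 (s * L.prod) κ →
      KindP e γ ψ s L g g'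
  /-- accuracy death of `κ`, a new own-radius label `ρ` -/
  | accnew (κ ρ : ℚ) : g = some κ → g' = some ρ → κ ≠ ρ → own e γ ψ (s :: L) = some ρ →
      acc e γ ψ L.prod κ → ¬ acc e γ ψ (s * L.prod) κ →
      ((L.prod : ℚ) * ρ).den = s * (((s * L.prod : ℕ) : ℚ) * ρ).den →
      1 < d5 L.prod ρ * (L.prod * ψ) ^ (1 + e.u) → KindP e γ ψ s L g g'
  /-- accuracy death of `κ` without a new label -/
  | acc (κ : ℚ) : g = some κ → g' = none → own e γ ψ (s :: L) = none →
      acc e γ ψ L.prod κ → ¬ acc e γ ψ (s * L.prod) κ → KindP e γ ψ s L g g'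

lemma own_ne_of_sla (hL : 0 < L.prod) (h : sla e γ ψ L ≠ some ρ) :
    lab0P e γ ψ L.prod ≠ some ρ := fun h1 => h (sla_of_own hL h1)

/-- **the kinds at an own missing tie**, permissive labels -/
theorem kindP (e : UV) (h : StM142.Step γ ψ t t' s L st st') :
    KindP e γ ψ s L (gl e st t γ ψ L) (gl e st' t' γ ψ (s :: L)) := by
  have e0 : gl e st t γ ψ L = sla e γ ψ L := gl_own h.pos h.hst
  have hs := h.sp
  rcases miss_cases (e := e) (t := t) (t' := t') hs.pos h.pos h.hst h.opts with h1 |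
      ⟨ρ, h1, h2⟩ | ⟨h1, h2, κ, h3, h4⟩
  · exact KindP.same h1
  · by_cases e1 : gl e st t γ ψ L = some ρ
    · exact KindP.same (by rw [h2, e1])
    · have h1' : lab0P e γ ψ (s * L.prod) = some ρ := by
        have := h1; simpa [own, List.prod_cons] using this
      rw [e0] at e1
      have hn := own_ne_of_sla h.pos e1
      have b1 := born_den hs h.pos h1' hn
      have b2 := born_gt hs.pos h.pos h1' hn
      cases hg : gl e st t γ ψ L with
      | none =>
        rw [← hg]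
        exact KindP.birth ρ hg h2 h1 b1 b2
      | some κ =>
        rw [← hg]
        have hk : κ ≠ ρ := by
          rintro rfl
          rw [e0] at hg
          exact e1 hg
        have ha0 : acc e γ ψ L.prod κ := by
          rw [e0] at hg
          exact (sla_some.1 hg).2
        by_cases ha : acc e γ ψ (s * L.prod) κ
        · obtain ⟨c1, c2, c3⟩ := birth_ineq (Nat.mul_pos hs.pos h.pos) h1' hk ha
          have c4 : d5 (s * L.prod) ρ < d5 (s * L.prod) κ := by
            obtain ⟨p0, p1, p2, p3⟩ := own_spec (Nat.mul_pos hs.pos h.pos) h1'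
            have hR : 0 < ((s * L.prod : ℕ) : ℝ) * ψ := by
              have : (0 : ℝ) < ((s * L.prod : ℕ) : ℝ) := by
                exact_mod_cast Nat.mul_pos hs.pos h.pos
              positivity
            exact lt_of_mul_lt_mul_right (p2.trans_lt c3) (Real.rpow_nonneg hR.le _)
          exact KindP.new κ ρ hg h2 hk h1 ha b1 b2 c3 c4 c1 c2
        · exact KindP.accnew κ ρ hg h2 hk h1 ha0 ha b1 b2
  · have ha0 : acc e γ ψ L.prod κ := by
      have hg := h3
      rw [e0] at hg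
      exact (sla_some.1 hg).2
    exact KindP.acc κ h3 h2 h1 ha0 h4

/-- the label below a change is the sparse label (new own-radius label, or `none`) -/
lemma KindP.below {g g' : Option ℚ} (h : KindP e γ ψ s L g g') (hne : g' ≠ g) :
    (∃ ρ, g' = some ρ ∧ own e γ ψ (s :: L) = some ρ) ∨ (g' = none ∧ own e γ ψ (s :: L) = none) := by
  cases h with
  | same h => exact absurd h hne
  | birth ρ h1 h2 h3 _ _ => exact Or.inl ⟨ρ, h2, h3⟩
  | new κ ρ h1 h2 _ h3 _ _ _ _ _ _ _ => exact Or.inl ⟨ρ, h2, h3⟩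
  | accnew κ ρ h1 h2 _ h3 _ _ _ _ => exact Or.inl ⟨ρ, h2, h3⟩
  | acc κ h1 h2 h3 _ _ => exact Or.inr ⟨h2, h3⟩

end pure

/-! ### Cf level -/

section cf
variable {e : UV} {c : Cf} {n p q : ℕ} {κ : ℚ} {M : Finset ℕ}

/-- **game label** of the item `q`, processed missing ties `M` -/
noncomputable def grP (e : UV) (c : Cf) (p : ℕ) (M : Finset ℕ) (q : ℕ) : Option ℚ :=
  gl e (rs c p M q) (c.wp.thr p) c.γ (c.r q) (Ls M)

/-- **game label of the low state** -/
noncomputable def glowP (e : UV) (c : Cf) (p q : ℕ) : Option ℚ :=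
  gl e (low c p q) (c.wp.thr p) c.γ (c.r q) (ms c (p - 1) q)

/-- **game label of the state** -/
noncomputable def ghiP (e : UV) (c : Cf) (p q : ℕ) : Option ℚ :=
  gl e (c.st p q) (c.wp.thr p) c.γ (c.r q) (ms c p q)

theorem grP_hi (hl : c.lam p = 0) : grP e c p (Mhi c p q) q = ghiP e c p q := by
  show gl e (rs c p ((c.t.mt q).filter (p < ·)) q) _ _ _ (Ls ((c.t.mt q).filter (p < ·))) = _
  rw [rs_hi hl, Ls_hi]
  rfl

theorem grP_lo (hp : 0 < p) : grP e c p (Mlo c p q) q = glowP e c p q := by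
  show gl e (rs c p ((c.t.mt q).filter (p ≤ ·)) q) _ _ _ (Ls ((c.t.mt q).filter (p ≤ ·))) = _
  rw [rs_lo hp, Ls_lo c hp]
  rfl

lemma grP_dn (hp : 0 < p) (hl : c.lam (p - 1) = 0) :
    grP e c (p - 1) (Mlo c p q) q = ghiP e c (p - 1) q := by
  rw [Mlo_hi hp]; exact grP_hi hl

lemma glowP_eq (hl : c.lam p = 0) (h : p ∉ c.t.mt q) : glowP e c p q = ghiP e c p q := by
  unfold glowP ghiP ms
  rw [low_eq hl h, lst_pred h]

/-- **game label at an own missing tie `p`** -/
theorem glowP_kind (e : UV) (hO : c.t.Ok n) (hl : c.lam p = 0) (hm : p ∈ c.t.mt q)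
    (hthin : ((ms c p q).prod : ℝ) * c.r q ≤ c.wp.thr p) :
    KindP e c.γ (c.r q) p (ms c p q) (ghiP e c p q) (glowP e c p q) := by
  have h := kindP e (low_step hO hl hm hthin)
  have hp := (BldF542.mt_lt c.t n hO q p hm).1
  have e1 : ms c (p - 1) q = p :: ms c p q := lst_pred_cons hp.pos hm
  unfold glowP ghiP
  rw [e1]
  exact h

/-- **den event** : the kept label `κ` at its column `P*`; below it the permissive sparse label, which is
not `κ` -/
structure DenP (e : UV) (c : Cf) (p q : ℕ) (κ : ℚ) : Prop where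
  low : low c p q = some κ
  kept : ∃ s M, ms c (p - 1) q = s :: M ∧ StM6.own c.γ (c.r q) M = some κ
  fat : c.wp.thr p < (bl c p q : ℝ) * c.r q
  pst : Pst c p (bl c p q) κ
  ne : own e c.γ (c.r q) (ms c (p - 1) q) ≠ some κ
  up : glowP e c p q = some κ
  down : ghiP e c (p - 1) q = sla e c.γ (c.r q) (ms c (p - 1) q)
  new : (∃ τ, own e c.γ (c.r q) (ms c (p - 1) q) = some τ ∧ τ ≠ κ ∧
      sla e c.γ (c.r q) (ms c (p - 1) q) = some τ) ∨
    (own e c.γ (c.r q) (ms c (p - 1) q) = none ∧ sla e c.γ (c.r q) (ms c (p - 1) q) = none ∧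
      ¬ acc e c.γ (c.r q) (bl c p q) κ)

/-- **accuracy event**: the kept dense label `κ` is dead by permissive accuracy, crossing column -/
structure AccP (e : UV) (c : Cf) (p q : ℕ) (κ : ℚ) : Prop where
  low : low c p q = some κ
  kept : ∃ s M, ms c (p - 1) q = s :: M ∧ StM6.own c.γ (c.r q) M = some κ
  fat : c.wp.thr p < (bl c p q : ℝ) * c.r q
  thin : (bl c p q : ℝ) * c.r q ≤ c.wp.thr (p - 1)
  dns : dense (c.wp.thr p) (bl c p q) κ
  dns' : dense (c.wp.thr (p - 1)) (bl c p q) κ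
  alive : d5 (bl c p q) κ * ((bl c p q : ℝ) * c.r q) ≤ 1
  nacc : ¬ acc e c.γ (c.r q) (bl c p q) κ
  up : glowP e c p q = some κ
  st : c.st (p - 1) q = StM6.own c.γ (c.r q) (ms c (p - 1) q)
  down : ghiP e c (p - 1) q = own e c.γ (c.r q) (ms c (p - 1) q)

/-- **the game label changes at a static column: den event or accuracy event** -/
theorem glowP_ev (e : UV) (hO : c.t.Ok n) (hl : c.lam (p - 1) = 0)
    (hthr : c.wp.thr p ≤ c.wp.thr (p - 1)) (hL' : c.wp.thr (p - 1) ≤ c.wpL.thr (c.lv q))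
    (h10 : c.wp.thr (p - 1) ≤ 1 / 10) (h0 : 0 < c.r q)
    (hT : TLl c.wp.thr (c.r q) (ms c (p - 1) q)) (hne : ghiP e c (p - 1) q ≠ glowP e c p q) :
    (∃ κ, DenP e c p q κ) ∨ ∃ κ, AccP e c p q κ := by
  have hb : 0 < (ms c (p - 1) q).prod := ms_pos hO _ _
  have hst : c.st (p - 1) q = low c p q ∨
      c.st (p - 1) q = StM6.own c.γ (c.r q) (ms c (p - 1) q) := by
    by_cases h : c.st (p - 1) q = low c p q
    · exact Or.inl h
    · obtain ⟨κ, hc⟩ := low_next hO hl hthr hL' hT h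
      right
      rw [Cf_st hl]
      exact (hc.st (a := True) hT).2 _
  obtain ⟨κ, h1, h2, h3, h4, h5, h6⟩ := static_cases (e := e) hb hst hne hthr
  have hr : StM6.own c.γ (c.r q) (ms c (p - 1) q) ≠ some κ := fun h => h3 (own_of_real hb h)
  have h1' : stl c.wp.thr c.γ (c.r q) (bt c (p - 1) q) (ms c (p - 1) q) p = some κ := h1
  obtain ⟨s, M, k1, k2, k3⟩ : ∃ s M, ms c (p - 1) q = s :: M ∧
      c.wp.thr p < ((ms c (p - 1) q).prod : ℝ) * c.r q ∧ StM6.own c.γ (c.r q) M = some κ := by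
    rcases stl_two hT h1' with h | h
    · exact absurd h hr
    · exact h
  have hM : 0 < M.prod := by
    have := hb
    rw [k1, List.prod_cons] at this
    exact Nat.pos_of_mul_pos_left this
  have hsl : sl e c.γ (c.r q) (ms c (p - 1) q) =
      (own e c.γ (c.r q) (ms c (p - 1) q)).or (some κ) := by
    rw [k1, sl_cons, sl_of_own (own_of_real hM k3)]
    simp only [own, List.prod_cons]
  have hnew : (∃ τ, own e c.γ (c.r q) (ms c (p - 1) q) = some τ ∧ τ ≠ κ ∧
        sla e c.γ (c.r q) (ms c (p - 1) q) = some τ) ∨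
      (own e c.γ (c.r q) (ms c (p - 1) q) = none ∧ sla e c.γ (c.r q) (ms c (p - 1) q) = none ∧
        ¬ acc e c.γ (c.r q) (bl c p q) κ) := by
    cases ho : own e c.γ (c.r q) (ms c (p - 1) q) with
    | some τ =>
      exact Or.inl ⟨τ, rfl, fun h => h3 (by rw [ho, h]), sla_of_own hb ho⟩
    | none =>
      right
      rw [ho, Option.none_or] at hsl
      have ha : ¬ acc e c.γ (c.r q) (bl c p q) κ := fun ha => by
        have h7 : sla e c.γ (c.r q) (ms c (p - 1) q) = some κ := sla_some.2 ⟨hsl, ha⟩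
        apply hne
        have e1 : ghiP e c (p - 1) q = sla e c.γ (c.r q) (ms c (p - 1) q) := h5
        have e2 : glowP e c p q = some κ := h4
        rw [e1, e2, h7]
      refine ⟨rfl, sla_none.2 fun τ h7 h8 => ?_, ha⟩
      rw [hsl] at h7
      rw [← Option.some.inj h7] at h8
      exact ha h8
  by_cases hd : dense (c.wp.thr (p - 1)) (bl c p q) κ
  · right
    have hs' : c.st (p - 1) q = StM6.own c.γ (c.r q) (ms c (p - 1) q) := by
      rcases h6 with h6 | h6
      · exact h6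
      · exact absurd hd h6
    have hthin : (bl c p q : ℝ) * c.r q ≤ c.wp.thr (p - 1) := by
      by_contra hc
      push Not at hc
      have h7 := stl_fat_const (γ := c.γ) (a := bt c (p - 1) q) hthr hc
      rw [Cf_st hl, h7, h1'] at hs'
      exact hr hs'.symm
    have hR : (0 : ℝ) < (bl c p q : ℝ) * c.r q :=
      mul_pos (by exact_mod_cast hb) h0
    have hal : d5 (bl c p q) κ * ((bl c p q : ℝ) * c.r q) ≤ 1 := by
      have h8 : d5 (bl c p q) κ * c.wp.thr (p - 1) ≤ 1 := hd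
      exact (mul_le_mul_of_nonneg_left hthin (d5_pos _ _).le).trans h8
    have hna : ¬ acc e c.γ (c.r q) (bl c p q) κ := by
      rcases not_own hb h0 (hthin.trans h10) h3 with h8 | h8
      · exfalso
        have h9 : ((bl c p q : ℝ) * c.r q) ^ (1 + e.u) ≤ (bl c p q : ℝ) * c.r q :=
          PosP33.rp_le_one hR ((hthin.trans h10).trans (by norm_num))
        have h11 := mul_le_mul_of_nonneg_left h9 (d5_pos (bl c p q) κ).le
        have h12 : 1 < d5 (bl c p q) κ * ((bl c p q : ℝ) * c.r q) ^ (1 + e.u) := h8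
        linarith
      · exact h8
    refine ⟨κ, h1, ⟨s, M, k1, k3⟩, k2, hthin, h2, hd, hal, hna, h4, hs', ?_⟩
    have e1 : ghiP e c (p - 1) q = sla e c.γ (c.r q) (ms c (p - 1) q) := h5
    rw [e1]
    rcases hnew with ⟨τ, m1, -, m3⟩ | ⟨m1, m2, -⟩
    · rw [m1, m3]
    · rw [m1, m2]
  · exact Or.inl ⟨κ, h1, ⟨s, M, k1, k3⟩, k2, ⟨h2, hd⟩, h3, h4, h5, hnew⟩

end cf

/-! ### contexts -/

section ctxr
open Crest.Agent.R4P.Skel189 Crest.Agent.R4P.Frame758
open Crest.Agent.R4.Soft104 Crest.Agent.R4.Fam464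
open Crest.Agent.R4P.StratX36 Crest.Agent.R4P.TopX36
open Crest.Agent.R4P.GWa343 Crest.Agent.R4P.GWb343 Crest.Agent.R4P.GWc343 Crest.Agent.R4P.GWf343
open Crest.Agent.R4P.GWg343 (FX ctx_BI)
open Crest.Agent.R4P.TrR343
open Crest.Agent.R4P.Walk560 (DT WrN)

-- product of the C-steps of a stage
variable {Tc : ℕ}
variable {N : Skel189.Num} {γ : ℝ} {p0 P₀ : ℕ} {X : Ctx N γ p0 P₀} {Q : NS → IT → Prop}
  {C : ℝ} {p : ℕ} {b : Me × List (DT X.c.Lam (LbX X))} {Z : ℕ → ℝ} {G : ℕ → ℕ → Prop}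

/-- the game label changes at a static column, context -/
theorem ctx_glowP_ev (e : UV) (hT : TH X)
    (hR : All (Step588.RdOk X) ⟨Skel189.top X.S, 1, 1, 1⟩ X.c.t)
    (h10 : X.c.wp.thr (p - 1) ≤ 1 / 10) {q : ℕ} {m : Me} (h : RestP X p m q)
    (hne : ghiP e X.c (p - 1) q ≠ glowP e X.c p q) :
    (∃ κ, DenP e X.c p q κ) ∨ ∃ κ, AccP e X.c p q κ :=
  glowP_ev e X.tOk (hT.lam _)
    (hT.anti _ _ (by have := h.lv0; have := h.lv; omega) (Nat.sub_le p 1))
    (hT.leL _ _ h.lv0 (by have := h.lv; omega)) h10 (X.rpos h.al) (ctx_TLl hT hR h.al _) hne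

/-- **(SEG, context, permissive game labels)** -/
theorem ctx_SEGp (e : UV) (h2 : ∀ k, 2 ≤ Z k) (hT : TH X)
    (hR : All (Step588.RdOk X) ⟨Skel189.top X.S, 1, 1, 1⟩ X.c.t)
    (h10 : X.c.wp.thr (p - 1) ≤ 1 / 10)
    {j : X.c.Lam} {x : ℝ} {m : Me} (h : RestP X p m j.1.1)
    (hS : SEG (RGX X (g5 X.c (grP e X.c)) Z G) (gR p) p (pm X.c.t p m j.1.1) Tc x j) :
    ((∃ s ∈ X.c.t.mt j.1.1, s < p) ∧
        ((∃ κ, DenP e X.c p j.1.1 κ) ∨ ∃ κ, AccP e X.c p j.1.1 κ)) ∨
      ClsR X.c p j.1.1 ∨ ∃ κ, PstG X.c (g5 X.c (grP e X.c)) G p (Mlo X.c p j.1.1) j.1.1 κ := by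
  rcases ctx_SEG5 h2 hT hR h hS with ⟨h3, h4⟩ | h3
  · rw [grP_dn h.pr (hT.lam _), grP_lo h.pr] at h4
    exact Or.inl ⟨h3, ctx_glowP_ev e hT hR h10 h h4⟩
  · exact Or.inr h3

/-- **(MEG, context, permissive game labels)** the events of the pieces of a tie: only N pieces -/
theorem ctx_MEGp (e : UV) (h2 : ∀ k, 2 ≤ Z k) (hT : TH X)
    (hR : All (Step588.RdOk X) ⟨Skel189.top X.S, 1, 1, 1⟩ X.c.t)
    {j : X.c.Lam} {x y : ℝ} {m : Me} (h : TieP X p m j x) (ha : j.1.1 ∈ X.S')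
    (hM : MEG (RGX X (g5 X.c (grP e X.c)) Z G) (gT Z p (TYJ47.cnt p m.1)) p
      (pm X.c.t p m j.1.1) (pm X.c.t p (tuM p m) j.1.1) Tc x y j) :
    p ∈ X.c.t.mt j.1.1 ∧ ex p j.1.1 = TYJ47.cnt p m.1 ∧
      (((∃ s ∈ X.c.t.mt j.1.1, s < p) ∧ glowP e X.c p j.1.1 ≠ ghiP e X.c p j.1.1 ∧
          KindP e X.c.γ (X.c.r j.1.1) p (ms X.c p j.1.1) (ghiP e X.c p j.1.1)
            (glowP e X.c p j.1.1)) ∨
        ClsT X.c p j.1.1 ∨
        ∃ κ, DrpG X.c (g5 X.c (grP e X.c)) p (Mhi X.c p j.1.1) (Mlo X.c p j.1.1) j.1.1 κ) := by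
  obtain ⟨h3, h4, h5⟩ := ctx_MEG5 h2 h hM
  refine ⟨h3, h4, ?_⟩
  rcases h5 with ⟨h6, h7⟩ | h6
  · rw [grP_hi (hT.lam _), grP_lo h.pr] at h7
    exact Or.inl ⟨h6, h7, glowP_kind e X.tOk (hT.lam _) h3 (ctx_thin hT hR ha h3)⟩
  · exact Or.inr h6

end ctxr

end Crest.Agent.R4P.StH6
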