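import Crest.Agent.R4P.StG_6
import Crest.Agent.R4P.StG_32

/-!
R4 (S0004) with powers, C1, helper6: **the events of the abstract game labels** (`StG_32`,
`G : ℕ → GLb`) for the final rule `RG (g5 c (grG c G)) Z D` of `StG_6` (`D` = static guard).

* `grG_up`, `grG_low`, `grG_dn` : the label functions of `StG_6` above / below a tie, next column.
* `DenG`, `AccG` : den event (kept label, column `P*`), accuracy event (crossing column); **`glowG_ev`**,
  `DenG.unique`, `AccG.unique`: each item has at most one of each for fixed missing ties.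
* **`SEG_g`**, **`MEG_g`** (Cf level), **`ctx_SEGg`**, **`ctx_MEGg`** (contexts, rule `RGX`).
-/

set_option autoImplicit false
set_option linter.unusedSectionVars false
set_option linter.unusedVariables false
open MeasureTheory Filter Set

namespace Crest.Agent.R4P.StI6

open Crest.Agent.R4P.Cnt588 Crest.Agent.R4P.Item758 Crest.Agent.R4P.W363
open Crest.Agent.R4P.Data758
open Crest.Agent.R4P.Bld532 (NS All NodeOk Bk)
open Crest.Agent.R4P.WalkIT579 (tp isL)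
open Crest.Agent.R4P.StratN36 (ex)
open Crest.Agent.R4P.Step588 Crest.Agent.R4P.RseSt23
open Crest.Agent.R4P.DTp26 Crest.Agent.R4P.DTm407
open Crest.Agent.R4P.TYI47 Crest.Agent.R4P.TYJ47 Crest.Agent.R4P.TYK47
open Crest.Agent.R4P.TYP9 Crest.Agent.R4P.RsT47
open Crest.Agent.R4P.StM6 (d5 dense own acc d5_pos)
open Crest.Agent.R4P.StM246 Crest.Agent.R4P.StE6 Crest.Agent.R4P.StF6
open Crest.Agent.R4P.StG6
open Crest.Agent.R4P.StB21 (bt TH LvF)
open Crest.Agent.R4P.StG32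

/-! ### Cf level -/

section cf
variable {c : Cf} {n p q : ℕ} {κ : ℚ} {M : Finset ℕ} {G : ℕ → GLb}

theorem grG_up (hl : c.lam p = 0) : grG c G p (Mhi c p q) q = ghiG c G p q := grG_hi hl

theorem grG_low (hp : 0 < p) : grG c G p (Mlo c p q) q = glowG c G p q := grG_lo hp

lemma grG_dn (hp : 0 < p) (hl : c.lam (p - 1) = 0) :
    grG c G (p - 1) (Mlo c p q) q = ghiG c G (p - 1) q := by
  rw [Mlo_hi hp]; exact grG_hi hl

/-- **den event** : the kept label `κ` at its column `P*`; below it the sparse label, which is not `κ` -/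
structure DenG (c : Cf) (G : ℕ → GLb) (p q : ℕ) (κ : ℚ) : Prop where
  low : low c p q = some κ
  kept : ∃ s M, ms c (p - 1) q = s :: M ∧ own c.γ (c.r q) M = some κ
  fat : c.wp.thr p < (bl c p q : ℝ) * c.r q
  pst : Pst c p (bl c p q) κ
  ne : own c.γ (c.r q) (ms c (p - 1) q) ≠ some κ
  up : glowG c G p q = some κ
  down : ghiG c G (p - 1) q = (G q).sla (ms c (p - 1) q)
  new : (∃ τ, (G q).ow (bl c p q) = some τ ∧ τ ≠ κ ∧ (G q).sla (ms c (p - 1) q) = some τ) ∨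
    ((G q).ow (bl c p q) = none ∧ (G q).sla (ms c (p - 1) q) = none ∧ ¬ (G q).ac (bl c p q) κ)

/-- **accuracy event**: the kept dense label `κ` is not the sparse label, crossing column -/
structure AccG (c : Cf) (G : ℕ → GLb) (p q : ℕ) (κ : ℚ) : Prop where
  low : low c p q = some κ
  kept : ∃ s M, ms c (p - 1) q = s :: M ∧ own c.γ (c.r q) M = some κ
  fat : c.wp.thr p < (bl c p q : ℝ) * c.r q
  thin : (bl c p q : ℝ) * c.r q ≤ c.wp.thr (p - 1)
  dns : dense (c.wp.thr p) (bl c p q) κ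
  dns' : dense (c.wp.thr (p - 1)) (bl c p q) κ
  ne : own c.γ (c.r q) (ms c (p - 1) q) ≠ some κ
  up : glowG c G p q = some κ
  st : c.st (p - 1) q = own c.γ (c.r q) (ms c (p - 1) q)
  down : ghiG c G (p - 1) q = (G q).sla (ms c (p - 1) q)
  new : (∃ τ, (G q).ow (bl c p q) = some τ ∧ τ ≠ κ ∧ (G q).sla (ms c (p - 1) q) = some τ) ∨
    ((G q).ow (bl c p q) = none ∧ (G q).sla (ms c (p - 1) q) = none ∧ ¬ (G q).ac (bl c p q) κ)

/-- the old label is alive by its real denominator -/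
lemma AccG.alive (h : AccG c G p q κ) :
    d5 (bl c p q) κ * ((bl c p q : ℝ) * c.r q) ≤ 1 :=
  (mul_le_mul_of_nonneg_left h.thin (d5_pos _ _).le).trans h.dns'

lemma DenG.gne (h : DenG c G p q κ) : glowG c G p q ≠ ghiG c G (p - 1) q := by
  rw [h.up, h.down]
  rcases h.new with ⟨τ, -, h2, h3⟩ | ⟨-, h2, -⟩
  · rw [h3]; exact fun e => h2 (Option.some.inj e).symm
  · rw [h2]; simp

lemma AccG.gne (h : AccG c G p q κ) : glowG c G p q ≠ ghiG c G (p - 1) q := by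
  rw [h.up, h.down]
  rcases h.new with ⟨τ, -, h2, h3⟩ | ⟨-, h2, -⟩
  · rw [h3]; exact fun e => h2 (Option.some.inj e).symm
  · rw [h2]; simp

/-- **the game label changes at a static column: den event or accuracy event** -/
theorem glowG_ev (hG : (G q).OK c.γ (c.r q)) (hO : c.t.Ok n) (hl : c.lam (p - 1) = 0)
    (hthr : c.wp.thr p ≤ c.wp.thr (p - 1)) (hL' : c.wp.thr (p - 1) ≤ c.wpL.thr (c.lv q))
    (hT : TLl c.wp.thr (c.r q) (ms c (p - 1) q)) (hne : ghiG c G (p - 1) q ≠ glowG c G p q) :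
    (∃ κ, DenG c G p q κ) ∨ ∃ κ, AccG c G p q κ := by
  obtain ⟨κ, h1, h2, h3, h4, h5, h6, h7, h8, h9⟩ := glowG_next hG hO hl hthr hL' hT hne
  by_cases hd : dense (c.wp.thr (p - 1)) (bl c p q) κ
  · rcases h9 with ⟨h9, h10⟩ | ⟨-, -, h9, -⟩
    · exact Or.inr ⟨κ, h1, h2, h3, h9, h4, hd, h5, h6, h10, h7, h8⟩
    · exact absurd hd h9
  · exact Or.inl ⟨κ, h1, h2, h3, ⟨h4, hd⟩, h5, h6, h7, h8⟩

end cf

/-! ### contexts -/

section ctxr
open Crest.Agent.R4P.Skel189 Crest.Agent.R4P.Frame758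
open Crest.Agent.R4.Soft104 Crest.Agent.R4.Fam464
open Crest.Agent.R4P.StratX36 Crest.Agent.R4P.TopX36
open Crest.Agent.R4P.GWa343 Crest.Agent.R4P.GWb343 Crest.Agent.R4P.GWc343 Crest.Agent.R4P.GWf343
open Crest.Agent.R4P.GWg343 (FX ctx_BI)
open Crest.Agent.R4P.TrR343
open Crest.Agent.R4P.Walk560 (DT WrN)

-- product of the C-steps of a stage
variable {Tc : ℕ}
variable {N : Skel189.Num} {γ : ℝ} {p0 P₀ : ℕ} {X : Ctx N γ p0 P₀} {Q : NS → IT → Prop}
  {C : ℝ} {p : ℕ} {b : Me × List (DT X.c.Lam (LbX X))} {Z : ℕ → ℝ} {D : ℕ → ℕ → Prop}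
  {G : ℕ → GLb}

/-- the game label changes at a static column, context -/
theorem ctx_glowG_ev (hT : TH X)
    (hR : All (Step588.RdOk X) ⟨Skel189.top X.S, 1, 1, 1⟩ X.c.t) {q : ℕ}
    (hG : (G q).OK X.c.γ (X.c.r q)) {m : Me} (h : RestP X p m q)
    (hne : ghiG X.c G (p - 1) q ≠ glowG X.c G p q) :
    (∃ κ, DenG X.c G p q κ) ∨ ∃ κ, AccG X.c G p q κ :=
  glowG_ev hG X.tOk (hT.lam _)
    (hT.anti _ _ (by have := h.lv0; have := h.lv; omega) (Nat.sub_le p 1))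
    (hT.leL _ _ h.lv0 (by have := h.lv; omega)) (ctx_TLl hT hR h.al _) hne

/-- **(SEG, context, abstract game labels)** -/
theorem ctx_SEGg (h2 : ∀ k, 2 ≤ Z k) (hT : TH X)
    (hR : All (Step588.RdOk X) ⟨Skel189.top X.S, 1, 1, 1⟩ X.c.t)
    {j : X.c.Lam} {x : ℝ} {m : Me} (h : RestP X p m j.1.1)
    (hG : (G j.1.1).OK X.c.γ (X.c.r j.1.1))
    (hS : SEG (RGX X (g5 X.c (grG X.c G)) Z D) (gR p) p (pm X.c.t p m j.1.1) Tc x j) :
    ((∃ s ∈ X.c.t.mt j.1.1, s < p) ∧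
        ((∃ κ, DenG X.c G p j.1.1 κ) ∨ ∃ κ, AccG X.c G p j.1.1 κ)) ∨
      ClsR X.c p j.1.1 ∨ ∃ κ, PstG X.c (g5 X.c (grG X.c G)) D p (Mlo X.c p j.1.1) j.1.1 κ := by
  rcases ctx_SEG5 h2 hT hR h hS with ⟨h3, h4⟩ | h3
  · rw [grG_dn h.pr (hT.lam _), grG_low h.pr] at h4
    exact Or.inl ⟨h3, ctx_glowG_ev hT hR hG h h4⟩
  · exact Or.inr h3

/-- **(MEG, context, abstract game labels)** the events of the pieces of a tie: only N pieces -/
theorem ctx_MEGg (h2 : ∀ k, 2 ≤ Z k) (hT : TH X)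
    (hR : All (Step588.RdOk X) ⟨Skel189.top X.S, 1, 1, 1⟩ X.c.t)
    {j : X.c.Lam} {x y : ℝ} {m : Me} (h : TieP X p m j x) (ha : j.1.1 ∈ X.S')
    (hG : (G j.1.1).OK X.c.γ (X.c.r j.1.1))
    (hM : MEG (RGX X (g5 X.c (grG X.c G)) Z D) (gT Z p (TYJ47.cnt p m.1)) p
      (pm X.c.t p m j.1.1) (pm X.c.t p (tuM p m) j.1.1) Tc x y j) :
    p ∈ X.c.t.mt j.1.1 ∧ ex p j.1.1 = TYJ47.cnt p m.1 ∧
      (((∃ s ∈ X.c.t.mt j.1.1, s < p) ∧ glowG X.c G p j.1.1 ≠ ghiG X.c G p j.1.1 ∧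
          GLb.KindG (G j.1.1) (X.c.wp.thr p) p (ms X.c p j.1.1) (low X.c p j.1.1)
            (ghiG X.c G p j.1.1) (glowG X.c G p j.1.1)) ∨
        ClsT X.c p j.1.1 ∨
        ∃ κ, DrpG X.c (g5 X.c (grG X.c G)) p (Mhi X.c p j.1.1) (Mlo X.c p j.1.1) j.1.1 κ) := by
  obtain ⟨h3, h4, h5⟩ := ctx_MEG5 h2 h hM
  refine ⟨h3, h4, ?_⟩
  rcases h5 with ⟨h6, h7⟩ | h6
  · rw [grG_up (hT.lam _), grG_low h.pr] at h7
    exact Or.inl ⟨h6, h7, ctx_glowG_kind hT hR hG ha h3⟩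
  · exact Or.inr h6

end ctxr

end Crest.Agent.R4P.StI6
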