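import Crest.Agent.R4P.StI_6
import Crest.Agent.R4P.StJ_6

/-!
R4 (S0004) with powers, C1, helper6: **the rule with an arbitrary tag predicate**.

`RK c lb Z T n` : game labels `lb p M q`; tag `vtag Z p M q k` (virtual exponents, `StG_6`), `k` = denominator
of the label, iff `T p M q κ`; else tag `1`. Instances:
* `Tgd c G` (sparse label and static guard `G k q`): the rule `RG` of `StG_6` (`RK_Tgd`);
* **`Tal G`** : static guard only, dense or sparse: "poor classes have their full name for the whole era"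
  (helper36 2064). Its only events are changes of the label and `DrpG` (den drops at an own missing tie);
  nothing happens at `P*`.
* thresholds, random forgetting (`T` with a threshold): events `TchR` (rest), `TchT` (ties).

Results: `SEG_RK`, `MEG_RK`, `MEG_PK`, `SEG_K5`, `MEG_K5`, contexts `ctx_SEGK5`, `ctx_MEGK5`, and with abstract
game labels `ctx_SEGKg`, `ctx_MEGKg`; **`ctx_SEGA`**, **`ctx_MEGA`** for `Tal G`; types: `tagK_inj`,
`tagK_fun`; rates `rest_RK`, `tie_RK`.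
-/

set_option autoImplicit false
set_option linter.unusedSectionVars false
set_option linter.unusedVariables false
open MeasureTheory Filter Set

namespace Crest.Agent.R4P.StK6

open Crest.Agent.R4P.Cnt588 Crest.Agent.R4P.Item758 Crest.Agent.R4P.W363
open Crest.Agent.R4P.Data758
open Crest.Agent.R4P.Bld532 (NS All NodeOk Bk)
open Crest.Agent.R4P.WalkIT579 (tp isL)
open Crest.Agent.R4P.StratN36 (ex)
open Crest.Agent.R4P.Step588 Crest.Agent.R4P.RseSt23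
open Crest.Agent.R4P.DTp26 Crest.Agent.R4P.DTm407
open Crest.Agent.R4P.TYI47 Crest.Agent.R4P.TYJ47 Crest.Agent.R4P.TYK47
open Crest.Agent.R4P.TYP9 Crest.Agent.R4P.RsT47
open Crest.Agent.R4P.StM6 (d5 dense own acc d5_pos dense_anti)
open Crest.Agent.R4P.StM246 Crest.Agent.R4P.StE6 Crest.Agent.R4P.StF6
open Crest.Agent.R4P.StG6 Crest.Agent.R4P.StI6 Crest.Agent.R4P.StJ6
open Crest.Agent.R4P.StB21 (bt TH LvF)
open Crest.Agent.R4P.StG32

-- product of the C-steps of a stage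
variable {Tc : ℕ}

/-- tag predicates: column, processed missing ties, item, label -/
abbrev TPr : Type := ℕ → Finset ℕ → ℕ → ℚ → Prop

section rule
variable {c : Cf} {n p q : ℕ} {Z : ℕ → ℝ} {T : TPr} {M M' : Finset ℕ}
  {lb : ℕ → Finset ℕ → ℕ → Option ℚ}

open Classical in
/-- tag of an item with the label `s` -/
noncomputable def tagK (Z : ℕ → ℝ) (T : TPr) (p : ℕ) (s : Option ℚ) (M : Finset ℕ) (q : ℕ) : ℕ :=
  if h : ∃ κ : ℚ, s = some κ ∧ T p M q κ then vtag Z p M q (((Bm M : ℕ) : ℚ) * h.choose).den else 1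

lemma tagK_yes {κ : ℚ} (hd : T p M q κ) :
    tagK Z T p (some κ) M q = vtag Z p M q (((Bm M : ℕ) : ℚ) * κ).den := by
  have hex : ∃ κ' : ℚ, some κ = some κ' ∧ T p M q κ' := ⟨κ, rfl, hd⟩
  unfold tagK
  rw [dif_pos hex]
  have e : hex.choose = κ := Option.some.inj hex.choose_spec.1.symm
  rw [e]

lemma tagK_no {κ : ℚ} (hd : ¬ T p M q κ) : tagK Z T p (some κ) M q = 1 := by
  unfold tagK
  rw [dif_neg]
  rintro ⟨κ', h1, h2⟩
  rw [← Option.some.inj h1] at h2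
  exact hd h2

lemma tagK_none : tagK Z T p none M q = 1 := by
  unfold tagK
  rw [dif_neg]
  rintro ⟨κ', h1, h2⟩
  exact absurd h1 (by simp)

/-- the tag is not `1` iff the label has a tag -/
lemma tagK_one (h2 : ∀ k, 2 ≤ Z k) {κ : ℚ} : tagK Z T p (some κ) M q = 1 ↔ ¬ T p M q κ := by
  constructor
  · intro h hd
    rw [tagK_yes hd] at h
    exact vtag_ne_one (h2 _) (Rat.den_nz _) h
  · exact tagK_no

/-- **equal tags**: equal denominators and equal virtual exponents -/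
theorem tagK_inj (h2 : ∀ k, 2 ≤ Z k) {κ κ' : ℚ} {q' : ℕ} (hd : T p M q κ)
    (h : tagK Z T p (some κ) M q = tagK Z T p (some κ') M' q') :
    (((Bm M : ℕ) : ℚ) * κ).den = (((Bm M' : ℕ) : ℚ) * κ').den ∧ T p M' q' κ' ∧
      ∀ l : ℕ, l.Prime → l ≤ p → Z (((Bm M : ℕ) : ℚ) * κ).den < (l : ℝ) →
        vex l M q = vex l M' q' := by
  by_cases hd' : T p M' q' κ'
  · rw [tagK_yes hd, tagK_yes hd'] at h
    obtain ⟨h3, h4⟩ := vtag_inj h2 h
    exact ⟨h3, hd', h4⟩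
  · rw [tagK_no hd', tagK_yes hd] at h
    exact absurd h (vtag_ne_one (h2 _) (Rat.den_nz _))

/-- **the tag is a function of the modulus and of the exact centre**, if the predicate is -/
theorem tagK_fun {κ κ' : ℚ} {q' : ℕ} (hq : 0 < q) (hq' : 0 < q') (hM : ∀ l ∈ M, l.Prime)
    (hM' : ∀ l ∈ M', l.Prime) (h : q * Bm M = q' * Bm M')
    (hk : (((Bm M : ℕ) : ℚ) * κ).den = (((Bm M' : ℕ) : ℚ) * κ').den)
    (ht : T p M q κ ↔ T p M' q' κ') :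
    tagK Z T p (some κ) M q = tagK Z T p (some κ') M' q' := by
  by_cases hd : T p M q κ
  · rw [tagK_yes hd, tagK_yes (ht.1 hd), hk]
    exact vtag_mul hq hq' hM hM' h
  · rw [tagK_no hd, tagK_no (fun h' => hd (ht.2 h'))]

lemma tagK_Tgd {G : ℕ → ℕ → Prop} (s : Option ℚ) :
    tagK Z (Tgd c G) p s M q = tagV c Z G p s M q := by
  rcases Option.eq_none_or_eq_some s with rfl | ⟨κ, rfl⟩
  · rw [tagK_none, tagV_none]
  · by_cases h : Tgd c G p M q κ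
    · rw [tagK_yes h, tagV_yes h]
    · rw [tagK_no h, tagV_no h]

variable (lb) in
/-- tag of the rule -/
noncomputable def tgK (c : Cf) (Z : ℕ → ℝ) (T : TPr) (p : ℕ) (M : Finset ℕ) (q : ℕ) : ℕ :=
  tagK Z T p (lb p (M ∩ c.t.mt q) q) (M ∩ c.t.mt q) q

lemma tgK_sub (h : M ⊆ c.t.mt q) : tgK lb c Z T p M q = tagK Z T p (lb p M q) M q := by
  unfold tgK
  rw [Finset.inter_eq_left.2 h]

variable (lb) in
/-- a bound of the tags -/
noncomputable def KK (c : Cf) (Z : ℕ → ℝ) (T : TPr) (n : ℕ) : ℕ :=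
  c.S.sup fun q => (c.t.mt q).powerset.sup fun M => (Finset.range (n + 1)).sup fun p =>
    tagK Z T p (lb p M q) M q

lemma tgK_le (hq : q ∈ c.S) (hp : p ≤ n) : tgK lb c Z T p M q ≤ KK lb c Z T n := by
  unfold tgK KK
  have h1 : M ∩ c.t.mt q ∈ (c.t.mt q).powerset := Finset.mem_powerset.2 Finset.inter_subset_right
  have h2 : p ∈ Finset.range (n + 1) := Finset.mem_range.2 (Nat.lt_succ_of_le hp)
  refine le_trans ?_ (Finset.le_sup (f := fun q => (c.t.mt q).powerset.sup fun M =>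
    (Finset.range (n + 1)).sup fun p => tagK Z T p (lb p M q) M q) hq)
  refine le_trans ?_ (Finset.le_sup (f := fun M => (Finset.range (n + 1)).sup fun p =>
    tagK Z T p (lb p M q) M q) h1)
  exact Finset.le_sup (f := fun p => tagK Z T p (lb p (M ∩ c.t.mt q) q) (M ∩ c.t.mt q) q) h2

variable (c lb) in
/-- **the rule with the tag predicate `T`** -/
noncomputable def RK (Z : ℕ → ℝ) (T : TPr) (n : ℕ) : Rule c :=
  RC c lb (tgK lb c Z T) (KK lb c Z T n)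

lemma RK_le (hp : p ≤ n) (M : Finset ℕ) (T₀ : ℕ) (x : ℝ) (j : c.Lam) :
    (RK c lb Z T n).tg p M T₀ x j ≤ (RK c lb Z T n).K := tgK_le (Cf.mem_S j) hp

/-- the rule `RG` of `StG_6` -/
theorem RK_Tgd {G : ℕ → ℕ → Prop} : RK c lb Z (Tgd c G) n = RG c lb Z G n := by
  have e1 : tgK lb c Z (Tgd c G) = tgG lb c Z G := by
    funext p M q
    unfold tgK tgG
    rw [tagK_Tgd]
  have e2 : KK lb c Z (Tgd c G) n = KG lb c Z G n := by
    unfold KK KG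
    simp only [tagK_Tgd]
  unfold RK RG
  rw [e1, e2]

/-- **the predicate changes in the rest**, the label stays -/
structure TchR (lb : ℕ → Finset ℕ → ℕ → Option ℚ) (T : TPr) (p : ℕ) (M : Finset ℕ) (q : ℕ)
    (κ : ℚ) : Prop where
  up : lb p M q = some κ
  down : lb (p - 1) M q = some κ
  ch : ¬ (T p M q κ ↔ T (p - 1) M q κ)

/-- **the predicate changes at an own missing tie**, the label and its denominator stay -/
structure TchT (lb : ℕ → Finset ℕ → ℕ → Option ℚ) (T : TPr) (p : ℕ) (M M' : Finset ℕ) (q : ℕ)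
    (κ : ℚ) : Prop where
  up : lb p M q = some κ
  down : lb p M' q = some κ
  den : (((Bm M' : ℕ) : ℚ) * κ).den = (((Bm M : ℕ) : ℚ) * κ).den
  ch : ¬ (T p M q κ ↔ T p M' q κ)

/-- **den drop at an own missing tie**, with a tag above or below -/
structure DrpK (lb : ℕ → Finset ℕ → ℕ → Option ℚ) (T : TPr) (p : ℕ) (M M' : Finset ℕ) (q : ℕ)
    (κ : ℚ) : Prop where
  up : lb p M q = some κ
  down : lb p M' q = some κ
  den : (((Bm M : ℕ) : ℚ) * κ).den = p * (((Bm M' : ℕ) : ℚ) * κ).den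
  tg : T p M q κ ∨ T p M' q κ

/-- **the static events of the rule** -/
theorem SEG_RK (h2 : ∀ k, 2 ≤ Z k) (hp : 0 < p) {x : ℝ} {j : c.Lam} (hM : M ⊆ c.t.mt j.1.1)
    (h : SEG (RK c lb Z T n) (gR p) p M Tc x j) :
    lb (p - 1) M j.1.1 ≠ lb p M j.1.1 ∨ ∃ κ, TchR lb T p M j.1.1 κ := by
  have h' : lb (p - 1) M j.1.1 ≠ lb p M j.1.1 ∨
    tgK lb c Z T (p - 1) M j.1.1 ≠ gR p (tgK lb c Z T p M j.1.1) := h
  rw [tgK_sub hM, tgK_sub hM] at h'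
  by_cases h1 : lb (p - 1) M j.1.1 = lb p M j.1.1
  · rcases h' with h' | h'
    · exact absurd h1 h'
    · right
      rw [h1] at h'
      rcases Option.eq_none_or_eq_some (lb p M j.1.1) with hg | ⟨κ, hg⟩
      · rw [hg, tagK_none, tagK_none, gR_one] at h'
        exact absurd rfl h'
      · rw [hg] at h'
        refine ⟨κ, hg, by rw [h1, hg], fun hi => h' ?_⟩
        by_cases hd : T p M j.1.1 κ
        · rw [tagK_yes hd, tagK_yes (hi.1 hd), vtag_rest h2 hp]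
        · rw [tagK_no hd, tagK_no (fun h'' => hd (hi.2 h'')), gR_one]
  · exact Or.inl h1

/-- **the events of a tie, N pieces** -/
theorem MEG_RK (h2 : ∀ k, 2 ≤ Z k) (hp : p.Prime) {k0 : ℕ} {x y : ℝ} {j : c.Lam}
    (hM : M ⊆ c.t.mt j.1.1) (hM' : M' ⊆ c.t.mt j.1.1) (h1 : p ∈ M') (h0 : p ∉ M)
    (hs : ∀ s, s ≠ p → (s ∈ M' ↔ s ∈ M)) (hx : ex p j.1.1 = k0)
    (h : MEG (RK c lb Z T n) (gT Z p k0) p M M' Tc x y j) :
    lb p M' j.1.1 ≠ lb p M j.1.1 ∨ (∃ κ, DrpK lb T p M M' j.1.1 κ) ∨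
      ∃ κ, TchT lb T p M M' j.1.1 κ := by
  have h' : lb p M' j.1.1 ≠ lb p M j.1.1 ∨
    tgK lb c Z T p M' j.1.1 ≠ gT Z p k0 (tgK lb c Z T p M j.1.1) := h
  rw [tgK_sub hM, tgK_sub hM'] at h'
  have eB : Bm M' = p * Bm M := by
    have e : M' = insert p M := by
      ext s
      by_cases hsp : s = p
      · subst hsp; simp [h1]
      · simp [hs s hsp, hsp]
    unfold Bm
    rw [e, Finset.prod_insert h0]
  by_cases hl : lb p M' j.1.1 = lb p M j.1.1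
  · rcases h' with h' | h'
    · exact absurd hl h'
    · right
      rw [hl] at h'
      rcases Option.eq_none_or_eq_some (lb p M j.1.1) with hg | ⟨κ, hg⟩
      · rw [hg, tagK_none, tagK_none, gT_one] at h'
        exact absurd rfl h'
      · rw [hg] at h'
        rcases StM042.den_up hp (Bm M) κ with h3 | h3
        · rw [← eB] at h3
          refine Or.inr ⟨κ, hg, by rw [hl, hg], h3.symm, fun hi => ?_⟩
          by_cases hd : T p M j.1.1 κ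
          · rw [tagK_yes hd, tagK_yes (hi.1 hd), h3] at h'
            exact h' (vtag_N h2 (Rat.den_nz _) hp h1 h0 hs hx)
          · rw [tagK_no hd, tagK_no (fun h'' => hd (hi.2 h'')), gT_one] at h'
            exact absurd rfl h'
        · rw [← eB] at h3
          refine Or.inl ⟨κ, hg, by rw [hl, hg], h3, ?_⟩
          by_contra hc
          push Not at hc
          rw [tagK_no hc.1, tagK_no hc.2, gT_one] at h'
          exact absurd rfl h'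
  · exact Or.inl hl

/-- **no event of P pieces and pulls** -/
theorem MEG_PK (h2 : ∀ k, 2 ≤ Z k) {k0 : ℕ} {x y : ℝ} {j : c.Lam} (h0 : p ∉ M)
    (hM : M ⊆ c.t.mt j.1.1) (hx : ex p j.1.1 ≠ k0) :
    ¬ MEG (RK c lb Z T n) (gT Z p k0) p M M Tc x y j := by
  have h' : MEG (RK c lb Z T n) (gT Z p k0) p M M Tc x y j ↔ (lb p M j.1.1 ≠ lb p M j.1.1 ∨
    tgK lb c Z T p M j.1.1 ≠ gT Z p k0 (tgK lb c Z T p M j.1.1)) := Iff.rfl
  rw [h', tgK_sub hM]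
  push Not
  refine ⟨rfl, ?_⟩
  rcases Option.eq_none_or_eq_some (lb p M j.1.1) with hg | ⟨κ, hg⟩
  · rw [hg, tagK_none, gT_one]
  · rw [hg]
    by_cases hd : T p M j.1.1 κ
    · rw [tagK_yes hd, vtag_P h2 h0 hx]
    · rw [tagK_no hd, gT_one]

/-- the N pieces of an own missing tie -/
theorem MEG_tieK (h2 : ∀ k, 2 ≤ Z k) (hO : c.t.Ok n) {n' k0 : ℕ} {x y : ℝ} {j : c.Lam}
    (hm : p ∈ c.t.mt j.1.1) (hx : ex p j.1.1 = k0)
    (h : MEG (RK c lb Z T n') (gT Z p k0) p (Mhi c p j.1.1) (Mlo c p j.1.1) Tc x y j) :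
    lb p (Mlo c p j.1.1) j.1.1 ≠ lb p (Mhi c p j.1.1) j.1.1 ∨
      (∃ κ, DrpK lb T p (Mhi c p j.1.1) (Mlo c p j.1.1) j.1.1 κ) ∨
        ∃ κ, TchT lb T p (Mhi c p j.1.1) (Mlo c p j.1.1) j.1.1 κ :=
  MEG_RK h2 (BldF542.mt_lt c.t n hO j.1.1 p hm).1 Mhi_sub Mlo_sub (mem_lo_of hm) not_mem_hi
    (fun s hs => lo_iff_hi hs) hx h

/-! #### closed items -/

variable {gg : ℕ → Finset ℕ → ℕ → Option ℚ}

/-- **(SEG, `g5 gg`)** -/
theorem SEG_K5 (h2 : ∀ k, 2 ≤ Z k) (hO : c.t.Ok n) (hp : 0 < p) (hl : c.lam (p - 1) = 0)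
    (hthr : c.wp.thr p ≤ c.wp.thr (p - 1)) {x : ℝ} {j : c.Lam}
    (hL' : c.wp.thr (p - 1) ≤ c.wpL.thr (c.lv j.1.1))
    (hT : TLl c.wp.thr (c.r j.1.1) (ms c (p - 1) j.1.1)) {n' : ℕ}
    (h : SEG (RK c (g5 c gg) Z T n') (gR p) p (Mlo c p j.1.1) Tc x j) :
    ((∃ s ∈ c.t.mt j.1.1, s < p) ∧
        gg (p - 1) (Mlo c p j.1.1) j.1.1 ≠ gg p (Mlo c p j.1.1) j.1.1) ∨
      ClsR c p j.1.1 ∨ ∃ κ, TchR (g5 c gg) T p (Mlo c p j.1.1) j.1.1 κ := by
  rcases SEG_RK h2 hp Mlo_sub h with h1 | h1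
  · by_cases ho : ∃ s ∈ c.t.mt j.1.1, s ∉ Mlo c p j.1.1
    · rw [g5_open ho, g5_open ho] at h1
      exact Or.inl ⟨open_lo_iff.1 ho, h1⟩
    · rw [g5_closed ho, g5_closed ho, rs_dn hp hl, rs_lo hp] at h1
      refine Or.inr (Or.inl ⟨fun s hs => ?_, h1, low_next hO hl hthr hL' hT h1⟩)
      by_contra hc
      exact ho (open_lo_iff.2 ⟨s, hs, not_le.1 hc⟩)
  · exact Or.inr (Or.inr h1)

/-- **(MEG, `g5 gg`)** -/
theorem MEG_K5 (h2 : ∀ k, 2 ≤ Z k) (hO : c.t.Ok n) {x y : ℝ} {j : c.Lam}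
    (hm : p ∈ c.t.mt j.1.1) {n' k0 : ℕ} (hx : ex p j.1.1 = k0)
    (h : MEG (RK c (g5 c gg) Z T n') (gT Z p k0) p (Mhi c p j.1.1) (Mlo c p j.1.1) Tc x y j) :
    ((∃ s ∈ c.t.mt j.1.1, s < p) ∧
        gg p (Mlo c p j.1.1) j.1.1 ≠ gg p (Mhi c p j.1.1) j.1.1) ∨
      ClsT c p j.1.1 ∨ (∃ κ, DrpK (g5 c gg) T p (Mhi c p j.1.1) (Mlo c p j.1.1) j.1.1 κ) ∨
        ∃ κ, TchT (g5 c gg) T p (Mhi c p j.1.1) (Mlo c p j.1.1) j.1.1 κ := by
  rcases MEG_tieK h2 hO hm hx h with h1 | h1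
  · by_cases ho : ∃ s ∈ c.t.mt j.1.1, s ∉ Mlo c p j.1.1
    · rw [g5_open ho, g5_open (open_hi hm)] at h1
      exact Or.inl ⟨open_lo_iff.1 ho, h1⟩
    · refine Or.inr (Or.inl ⟨hm, fun s hs => ?_⟩)
      by_contra hc
      exact ho (open_lo_iff.2 ⟨s, hs, not_le.1 hc⟩)
  · exact Or.inr (Or.inr h1)

/-! #### static guard only -/

/-- **the guard for the whole era** (dense and sparse): `G` (denominator, item) -/
def Tal (G : ℕ → ℕ → Prop) : TPr := fun _ M q κ => G (((Bm M : ℕ) : ℚ) * κ).den q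

lemma not_TchR_Tal {G : ℕ → ℕ → Prop} {κ : ℚ} : ¬ TchR lb (Tal G) p M q κ := fun h =>
  h.ch Iff.rfl

lemma not_TchT_Tal {G : ℕ → ℕ → Prop} {κ : ℚ} : ¬ TchT lb (Tal G) p M M' q κ := fun h => by
  apply h.ch
  show G _ q ↔ G _ q
  rw [h.den]

end rule

/-! ### contexts -/

section ctxr
open Crest.Agent.R4P.Skel189 Crest.Agent.R4P.Frame758
open Crest.Agent.R4.Soft104 Crest.Agent.R4.Fam464
open Crest.Agent.R4P.StratX36 Crest.Agent.R4P.TopX36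
open Crest.Agent.R4P.GWa343 Crest.Agent.R4P.GWb343 Crest.Agent.R4P.GWc343 Crest.Agent.R4P.GWf343
open Crest.Agent.R4P.GWg343 (FX ctx_BI)
open Crest.Agent.R4P.TrR343
open Crest.Agent.R4P.Walk560 (DT WrN)

variable {N : Skel189.Num} {γ : ℝ} {p0 P₀ : ℕ} {X : Ctx N γ p0 P₀} {Q : NS → IT → Prop}
  {C : ℝ} {p : ℕ} {b : Me × List (DT X.c.Lam (LbX X))} {Z : ℕ → ℝ} {T : TPr}
  {lb gg : ℕ → Finset ℕ → ℕ → Option ℚ} {G : ℕ → GLb} {D : ℕ → ℕ → Prop}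

variable (X) in
/-- **the rule of a context** : label function `lb`, widths `Z`, tag predicate `T` -/
noncomputable abbrev RKX (lb : ℕ → Finset ℕ → ℕ → Option ℚ) (Z : ℕ → ℝ) (T : TPr) :
    Rule X.c := RK X.c lb Z T (Skel189.top X.S)

lemma RKX_le : p ≤ Skel189.top X.S → ∀ M T₀ x j, (RKX X lb Z T).tg p M T₀ x j ≤ (RKX X lb Z T).K :=
  fun h M T₀ x j => RK_le h M T₀ x j

/-- **(SEG, context)** any label function with the guard of closed items -/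
theorem ctx_SEGK5 (h2 : ∀ k, 2 ≤ Z k) (hT : TH X)
    (hR : All (Step588.RdOk X) ⟨Skel189.top X.S, 1, 1, 1⟩ X.c.t)
    {j : X.c.Lam} {x : ℝ} {m : Me} (h : RestP X p m j.1.1)
    (hS : SEG (RKX X (g5 X.c gg) Z T) (gR p) p (pm X.c.t p m j.1.1) Tc x j) :
    ((∃ s ∈ X.c.t.mt j.1.1, s < p) ∧
        gg (p - 1) (Mlo X.c p j.1.1) j.1.1 ≠ gg p (Mlo X.c p j.1.1) j.1.1) ∨
      ClsR X.c p j.1.1 ∨ ∃ κ, TchR (g5 X.c gg) T p (Mlo X.c p j.1.1) j.1.1 κ := by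
  rw [h.lo] at hS
  exact SEG_K5 h2 X.tOk h.pr (hT.lam _)
    (hT.anti _ _ (by have := h.lv0; have := h.lv; omega) (Nat.sub_le p 1))
    (hT.leL _ _ h.lv0 (by have := h.lv; omega)) (ctx_TLl hT hR h.al _) hS

/-- **(MEG, context)** the events of the pieces of a tie: only N pieces -/
theorem ctx_MEGK5 (h2 : ∀ k, 2 ≤ Z k) {j : X.c.Lam} {x y : ℝ} {m : Me} (h : TieP X p m j x)
    (hM : MEG (RKX X (g5 X.c gg) Z T) (gT Z p (TYJ47.cnt p m.1)) p (pm X.c.t p m j.1.1)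
      (pm X.c.t p (tuM p m) j.1.1) Tc x y j) :
    p ∈ X.c.t.mt j.1.1 ∧ ex p j.1.1 = TYJ47.cnt p m.1 ∧
      (((∃ s ∈ X.c.t.mt j.1.1, s < p) ∧
          gg p (Mlo X.c p j.1.1) j.1.1 ≠ gg p (Mhi X.c p j.1.1) j.1.1) ∨
        ClsT X.c p j.1.1 ∨
        (∃ κ, DrpK (g5 X.c gg) T p (Mhi X.c p j.1.1) (Mlo X.c p j.1.1) j.1.1 κ) ∨
        ∃ κ, TchT (g5 X.c gg) T p (Mhi X.c p j.1.1) (Mlo X.c p j.1.1) j.1.1 κ) := by
  rcases h.side with ⟨h1, h3⟩ | ⟨h1, h3, h4⟩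
  · rw [h1, h.hi] at hM
    exact absurd hM (MEG_PK h2 not_mem_hi Mhi_sub h3)
  · rw [h1, h.hi] at hM
    exact ⟨h3, h4, MEG_K5 h2 X.tOk h3 h4 hM⟩

/-- **(SEG, context, abstract game labels)** -/
theorem ctx_SEGKg (h2 : ∀ k, 2 ≤ Z k) (hT : TH X)
    (hR : All (Step588.RdOk X) ⟨Skel189.top X.S, 1, 1, 1⟩ X.c.t)
    {j : X.c.Lam} {x : ℝ} {m : Me} (h : RestP X p m j.1.1)
    (hG : (G j.1.1).OK X.c.γ (X.c.r j.1.1))
    (hS : SEG (RKX X (g5 X.c (grG X.c G)) Z T) (gR p) p (pm X.c.t p m j.1.1) Tc x j) :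
    ((∃ s ∈ X.c.t.mt j.1.1, s < p) ∧
        ((∃ κ, DenG X.c G p j.1.1 κ) ∨ ∃ κ, AccG X.c G p j.1.1 κ)) ∨
      ClsR X.c p j.1.1 ∨ ∃ κ, TchR (g5 X.c (grG X.c G)) T p (Mlo X.c p j.1.1) j.1.1 κ := by
  rcases ctx_SEGK5 h2 hT hR h hS with ⟨h3, h4⟩ | h3
  · rw [grG_dn h.pr (hT.lam _), grG_low h.pr] at h4
    exact Or.inl ⟨h3, ctx_glowG_ev hT hR hG h h4⟩
  · exact Or.inr h3

/-- **(MEG, context, abstract game labels)** -/
theorem ctx_MEGKg (h2 : ∀ k, 2 ≤ Z k) (hT : TH X)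
    (hR : All (Step588.RdOk X) ⟨Skel189.top X.S, 1, 1, 1⟩ X.c.t)
    {j : X.c.Lam} {x y : ℝ} {m : Me} (h : TieP X p m j x) (ha : j.1.1 ∈ X.S')
    (hG : (G j.1.1).OK X.c.γ (X.c.r j.1.1))
    (hM : MEG (RKX X (g5 X.c (grG X.c G)) Z T) (gT Z p (TYJ47.cnt p m.1)) p
      (pm X.c.t p m j.1.1) (pm X.c.t p (tuM p m) j.1.1) Tc x y j) :
    p ∈ X.c.t.mt j.1.1 ∧ ex p j.1.1 = TYJ47.cnt p m.1 ∧
      (((∃ s ∈ X.c.t.mt j.1.1, s < p) ∧ glowG X.c G p j.1.1 ≠ ghiG X.c G p j.1.1 ∧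
          GLb.KindG (G j.1.1) (X.c.wp.thr p) p (ms X.c p j.1.1) (low X.c p j.1.1)
            (ghiG X.c G p j.1.1) (glowG X.c G p j.1.1)) ∨
        ClsT X.c p j.1.1 ∨
        (∃ κ, DrpK (g5 X.c (grG X.c G)) T p (Mhi X.c p j.1.1) (Mlo X.c p j.1.1) j.1.1 κ) ∨
        ∃ κ, TchT (g5 X.c (grG X.c G)) T p (Mhi X.c p j.1.1) (Mlo X.c p j.1.1) j.1.1 κ) := by
  obtain ⟨h3, h4, h5⟩ := ctx_MEGK5 h2 h hM
  refine ⟨h3, h4, ?_⟩
  rcases h5 with ⟨h6, h7⟩ | h6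
  · rw [grG_up (hT.lam _), grG_low h.pr] at h7
    exact Or.inl ⟨h6, h7, ctx_glowG_kind hT hR hG ha h3⟩
  · exact Or.inr h6

/-- **(SEG, guard for the whole era)** : nothing happens at `P*` -/
theorem ctx_SEGA (h2 : ∀ k, 2 ≤ Z k) (hT : TH X)
    (hR : All (Step588.RdOk X) ⟨Skel189.top X.S, 1, 1, 1⟩ X.c.t)
    {j : X.c.Lam} {x : ℝ} {m : Me} (h : RestP X p m j.1.1)
    (hG : (G j.1.1).OK X.c.γ (X.c.r j.1.1))
    (hS : SEG (RKX X (g5 X.c (grG X.c G)) Z (Tal D)) (gR p) p (pm X.c.t p m j.1.1) Tc x j) :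
    ((∃ s ∈ X.c.t.mt j.1.1, s < p) ∧
        ((∃ κ, DenG X.c G p j.1.1 κ) ∨ ∃ κ, AccG X.c G p j.1.1 κ)) ∨ ClsR X.c p j.1.1 := by
  rcases ctx_SEGKg h2 hT hR h hG hS with h3 | h3 | ⟨κ, h3⟩
  · exact Or.inl h3
  · exact Or.inr h3
  · exact absurd h3 not_TchR_Tal

/-- **(MEG, guard for the whole era)** -/
theorem ctx_MEGA (h2 : ∀ k, 2 ≤ Z k) (hT : TH X)
    (hR : All (Step588.RdOk X) ⟨Skel189.top X.S, 1, 1, 1⟩ X.c.t)
    {j : X.c.Lam} {x y : ℝ} {m : Me} (h : TieP X p m j x) (ha : j.1.1 ∈ X.S')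
    (hG : (G j.1.1).OK X.c.γ (X.c.r j.1.1))
    (hM : MEG (RKX X (g5 X.c (grG X.c G)) Z (Tal D)) (gT Z p (TYJ47.cnt p m.1)) p
      (pm X.c.t p m j.1.1) (pm X.c.t p (tuM p m) j.1.1) Tc x y j) :
    p ∈ X.c.t.mt j.1.1 ∧ ex p j.1.1 = TYJ47.cnt p m.1 ∧
      (((∃ s ∈ X.c.t.mt j.1.1, s < p) ∧ glowG X.c G p j.1.1 ≠ ghiG X.c G p j.1.1 ∧
          GLb.KindG (G j.1.1) (X.c.wp.thr p) p (ms X.c p j.1.1) (low X.c p j.1.1)
            (ghiG X.c G p j.1.1) (glowG X.c G p j.1.1)) ∨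
        ClsT X.c p j.1.1 ∨
        ∃ κ, DrpK (g5 X.c (grG X.c G)) (Tal D) p (Mhi X.c p j.1.1) (Mlo X.c p j.1.1) j.1.1 κ) := by
  obtain ⟨h3, h4, h5⟩ := ctx_MEGKg h2 hT hR h ha hG hM
  refine ⟨h3, h4, ?_⟩
  rcases h5 with h6 | h6 | h6 | ⟨κ, h6⟩
  · exact Or.inl h6
  · exact Or.inr (Or.inl h6)
  · exact Or.inr (Or.inr h6)
  · exact absurd h6 not_TchT_Tal

end ctxr

end Crest.Agent.R4P.StK6
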