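import Crest.Agent.R4P.StMc_46

/-!
R4 (S0004) with powers, [B8], helper46: **state machine of a piece**, part 5: leaves and edges of the
tree.

* `Ed u τ u' τ'` : edges of the tree (`br` present / missing, `add`, `up`, `pl`, `far`);
* `Ed.all`, `Ed.items`, `Ed.nl`, `Ed.ndt`, `Ed.cases` : either `u'.B = u.B` (and `u'.A = u.A` or
  `u.A * tp τ`) or the own missing tie `u'.B = u.B * tp τ`; `Ed.tp_le`, `Ed.mem_mt`, `Ed.ms_eq`;
* `leaf_sta`, `cf_leaf` : the state of the leaf against the state of a column of the same stage;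
* `edge_real` : **the real state along an edge** : same / crossing event / own missing tie (`Step`);
* `edge_leaf` : the same if the child is a leaf;
* so `add`, `far`, `up`, `pl` and present children never change the list, `own`, `sl`, `sla`.
-/

set_option autoImplicit false
set_option linter.unusedSectionVars false
set_option linter.unusedVariables false

namespace Crest.Agent.R4P.StM246

open Crest.Agent.R4P.Cnt588 Crest.Agent.R4P.Item758 Crest.Agent.R4P.W363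
open Crest.Agent.R4P.Data758 Crest.Agent.R4P.OmSt532 Crest.Agent.R4P.OmData532
open Crest.Agent.R4P.LfDat734 Crest.Agent.R4P.WPex189
open Crest.Agent.R4P.Bld532 (NS All NodeOk Bk)
open Crest.Agent.R4P.Step588 (NDt ND1 ctx_NDt uq_lt)
open Crest.Agent.R4P.WalkIT579 (tp isL nodeOk_hi top_of_nodeOk)
open Crest.Agent.R4P.Skel189 Crest.Agent.R4P.RseSt23 Crest.Agent.R4P.StB21
open Crest.Agent.R4P.Link758 (Bl)
open Crest.Agent.R4.Soft104 (w)
open Crest.Agent.R4P.StM6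

/-! ### edges -/

/-- **edges of the tree** -/
inductive Ed : NS → IT → NS → IT → Prop
  | brP (u : NS) (p : ℕ) (Sp : Finset ℕ) (t₁ t₀ : IT) :
      Ed u (.br p Sp t₁ t₀) ⟨p, u.c / (1 - 1 / (p : ℝ)), u.A * p, u.B⟩ t₁
  | brN (u : NS) (p : ℕ) (Sp : Finset ℕ) (t₁ t₀ : IT) :
      Ed u (.br p Sp t₁ t₀) ⟨p, u.c * p, u.A, u.B * p⟩ t₀
  | add1 (u : NS) (b : ℕ) (t₁ t₀ : IT) : Ed u (.add b t₁ t₀) ⟨b + 1, u.c, u.A, u.B⟩ t₁
  | add0 (u : NS) (b : ℕ) (t₁ t₀ : IT) : Ed u (.add b t₁ t₀) ⟨b + 1, u.c, u.A, u.B⟩ t₀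
  | up (u : NS) (b : ℕ) (Sp : Finset ℕ) (t : IT) : Ed u (.up b Sp t) ⟨b, u.c, u.A, u.B⟩ t
  | pl (u : NS) (b : ℕ) (t : IT) : Ed u (.pl b t) ⟨b + 1, u.c, u.A * b, u.B⟩ t
  | far1 (u : NS) (b : ℕ) (t₁ t₀ : IT) : Ed u (.far b t₁ t₀) ⟨b + 1, u.c, u.A, u.B⟩ t₁
  | far0 (u : NS) (b : ℕ) (t₁ t₀ : IT) : Ed u (.far b t₁ t₀) ⟨b + 1, u.c, u.A, u.B⟩ t₀

section ed
variable {u u' : NS} {τ τ' : IT}

theorem Ed.all {Q : NS → IT → Prop} (e : Ed u τ u' τ') (h : All Q u τ) : All Q u' τ' := by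
  cases e with
  | brP p Sp t₀ => exact h.2.1
  | brN p Sp t₁ => exact h.2.2
  | add1 b t₀ => exact h.2.1
  | add0 b t₁ => exact h.2.2
  | up b Sp => exact h.2
  | pl b => exact h.2
  | far1 b t₀ => exact h.2.1
  | far0 b t₁ => exact h.2.2

theorem Ed.items (e : Ed u τ u' τ') : τ'.items ⊆ τ.items := by
  cases e with
  | brP p Sp t₀ => exact Finset.subset_union_left
  | brN p Sp t₁ => exact Finset.subset_union_right
  | add1 b t₀ => exact Finset.subset_union_left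
  | add0 b t₁ => exact Finset.subset_union_right
  | up b Sp => exact Finset.Subset.refl _
  | pl b => exact Finset.Subset.refl _
  | far1 b t₀ => exact Finset.subset_union_left
  | far0 b t₁ => exact Finset.subset_union_right

theorem Ed.nl (e : Ed u τ u' τ') : ¬ isL τ := by
  cases e <;> exact id

/-- **no change of `B`, or the own missing tie** -/
theorem Ed.cases (e : Ed u τ u' τ') :
    (u'.B = u.B ∧ u'.n ≤ tp τ + 1 ∧ (u'.A = u.A ∨ u'.A = u.A * tp τ)) ∨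
      (u'.B = u.B * tp τ ∧ u'.n = tp τ ∧ u'.A = u.A) := by
  cases e with
  | brP p Sp t₀ => exact Or.inl ⟨rfl, Nat.le_succ _, Or.inr rfl⟩
  | brN p Sp t₁ => exact Or.inr ⟨rfl, rfl, rfl⟩
  | add1 b t₀ => exact Or.inl ⟨rfl, le_rfl, Or.inl rfl⟩
  | add0 b t₁ => exact Or.inl ⟨rfl, le_rfl, Or.inl rfl⟩
  | up b Sp => exact Or.inl ⟨rfl, Nat.le_succ _, Or.inl rfl⟩
  | pl b => exact Or.inl ⟨rfl, le_rfl, Or.inr rfl⟩
  | far1 b t₀ => exact Or.inl ⟨rfl, le_rfl, Or.inl rfl⟩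
  | far0 b t₁ => exact Or.inl ⟨rfl, le_rfl, Or.inl rfl⟩

theorem Ed.ndt {P : Bld532.Par} {W : ℕ → ℝ} {t' : IT} (e : Ed u τ u' τ')
    (h : NDt P W t' u τ) : NDt P W t' u' τ' := ⟨e.all h.all, h.dvd, h.pos, h.rd, h.rd1⟩

/-- the column of the child -/
theorem Ed.tp_le {P : Bld532.Par} {W : ℕ → ℝ} (e : Ed u τ u' τ') (h' : NodeOk P W u' τ')
    (hl' : ¬ isL τ') : (u'.B = u.B ∧ tp τ' ≤ tp τ) ∨ (u'.B = u.B * tp τ ∧ tp τ' < tp τ) := by
  have k := (top_of_nodeOk h' hl').2.1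
  rcases e.cases with ⟨h1, h2, -⟩ | ⟨h1, h2, -⟩
  · exact Or.inl ⟨h1, by omega⟩
  · exact Or.inr ⟨h1, by omega⟩

end ed

/-! ### leaves: pure level -/

section pure
variable {thr thrL : ℕ → ℝ} {γ ψ : ℝ} {L : List ℕ} {p l : ℕ} {a : Prop}

/-- **the state of the leaf** (`sta` with the threshold `thrL l`, no anticipated births) against the
state of a column `p` of the same stage: same, or a crossing event -/
theorem leaf_sta (hthr : thr p ≤ thrL l) (hT : TLl thr ψ L) (hTL : TLl thrL ψ L)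
    (ha : a ↔ (L.prod : ℝ) * ψ ≤ thrL l)
    (hne : sta thrL γ ψ L l ≠ stl thr γ ψ a L p) :
    ∃ κ, CrsT (thr p) (thrL l) γ ψ L κ ∧ stl thr γ ψ a L p = some κ ∧
      sta thrL γ ψ L l = own γ ψ L := by
  rcases lt_or_ge (thrL l) ((L.prod : ℝ) * ψ) with hf | hf
  · -- fat at the leaf: the same state
    exfalso
    have hna : ¬ a := fun h => absurd (ha.1 h) (not_le.2 hf)
    have hf' : thr p < (L.prod : ℝ) * ψ := lt_of_le_of_lt hthr hf
    refine hne ?_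
    cases L with
    | nil => exact stl_nil.symm
    | cons s M =>
      rw [sta_fat hTL hf]
      cases hM : own γ ψ M with
      | some κ => rw [stl_fat_some hT hf' hM]
      | none => rw [stl_fat_none' hT hf' hM hna]
  · have hb : a := ha.2 hf
    have e : sta thrL γ ψ L l = own γ ψ L := sta_thin hf
    rcases stl_cases (a := a) (p := p) (γ := γ) hT with h | ⟨s, M, κ, h1, h2, h3, h4⟩ | ⟨h, -⟩
    · exact absurd (by rw [e, h]) hne
    · refine ⟨κ, ⟨h2, hf, ⟨s, M, h1, h3⟩, fun h5 => hne ?_⟩, h4, e⟩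
      rw [e, h4, h5]
    · exact absurd hb h

end pure

section cf
variable {c : Cf} {n p q : ℕ}

/-- **the state of the leaf against the state of a column `p` of the same stage** -/
theorem cf_leaf (hO : c.t.Ok n) (hl : c.lam p = 0) (hm : ∀ l ∈ c.t.mt q, c.lv q < l)
    (hm' : ∀ l ∈ c.t.mt q, p < l) (hthr : c.wp.thr p ≤ c.wpL.thr (c.lv q))
    (hT : TLl c.wp.thr (c.r q) (ms c p q)) (hTL : TLl c.wpL.thr (c.r q) (ms c p q))
    (hne : lfst c q ≠ c.st p q) :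
    ∃ κ, CrsT (c.wp.thr p) (c.wpL.thr (c.lv q)) c.γ (c.r q) (ms c p q) κ ∧
      c.st p q = some κ ∧ lfst c q = own c.γ (c.r q) (ms c p q) := by
  have e : lst (c.t.mt q) (c.lv q) = lst (c.t.mt q) p := by
    unfold Crest.Agent.R4.W363.lst
    rw [Finset.filter_true_of_mem hm, Finset.filter_true_of_mem hm']
  have e1 : lfst c q = sta c.wpL.thr c.γ (c.r q) (ms c p q) (c.lv q) := by
    show sta c.wpL.thr c.γ (c.r q) (lst (c.t.mt q) (c.lv q)) (c.lv q) = _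
    rw [e]
  rw [e1, Cf_st hl] at hne
  rw [e1, Cf_st hl]
  refine leaf_sta hthr hT hTL ?_ hne
  have e2 : (ms c p q).prod = mp c.t q := Bl_all hO hm'
  rw [e2]
  constructor
  · rintro (⟨s, h1, h2⟩ | h)
    · exact absurd (hm' s h1) (not_lt.2 h2)
    · exact h
  · exact fun h => Or.inr h

/-- **the low version**: the low state of the last column `p` against the leaf -/
theorem cf_leaf_low (hO : c.t.Ok n) (hm : ∀ l ∈ c.t.mt q, c.lv q < l)
    (hm' : ∀ l ∈ c.t.mt q, p ≤ l) (hp : 0 < p) (hthr : c.wp.thr p ≤ c.wpL.thr (c.lv q))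
    (hT : TLl c.wp.thr (c.r q) (ms c (p - 1) q)) (hTL : TLl c.wpL.thr (c.r q) (ms c (p - 1) q))
    (hne : lfst c q ≠ low c p q) :
    ∃ κ, CrsT (c.wp.thr p) (c.wpL.thr (c.lv q)) c.γ (c.r q) (ms c (p - 1) q) κ ∧
      low c p q = some κ ∧ lfst c q = own c.γ (c.r q) (ms c (p - 1) q) := by
  have hm2 : ∀ l ∈ c.t.mt q, p - 1 < l := fun l h => by
    have := hm' l h
    omega
  have e : lst (c.t.mt q) (c.lv q) = lst (c.t.mt q) (p - 1) := by
    unfold Crest.Agent.R4.W363.lst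
    rw [Finset.filter_true_of_mem hm, Finset.filter_true_of_mem hm2]
  have e1 : lfst c q = sta c.wpL.thr c.γ (c.r q) (ms c (p - 1) q) (c.lv q) := by
    show sta c.wpL.thr c.γ (c.r q) (lst (c.t.mt q) (c.lv q)) (c.lv q) = _
    rw [e]
  unfold low at *
  rw [e1] at hne ⊢
  refine leaf_sta hthr hT hTL ?_ hne
  have e2 : (ms c (p - 1) q).prod = mp c.t q := Bl_all hO hm2
  rw [e2]
  constructor
  · rintro (⟨s, h1, h2⟩ | h)
    · exact absurd (hm2 s h1) (not_lt.2 h2)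
    · exact h
  · exact fun h => Or.inr h

end cf

/-! ### edges of a context -/

section ctx
variable {N : Skel189.Num} {γ : ℝ} {p0 P₀ : ℕ} {X : Ctx N γ p0 P₀} {u u' : NS} {τ τ' : IT}

/-- (TL) for the thresholds of the leaves -/
theorem ctx_TLL (hT : TH X) (hR : All (Step588.RdOk X) ⟨top X.S, 1, 1, 1⟩ X.c.t) {q : ℕ}
    (hq : q ∈ X.S') (p : ℕ) : TLl X.c.wpL.thr (X.c.r q) (ms X.c p q) := by
  intro s M h
  obtain ⟨h1, h2, -⟩ := lst_tail h
  have h3 := (Bld532.cols_of_All _ _ _ _ X.nodes q s (Or.inl h2)).2.1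
  rw [h1]
  exact (ctx_thin hT hR hq h2).trans (hT.leL _ _ (le_of_lt h3) le_rfl)

/-- the list at a node -/
lemma ms_node (h : NDt X.par (w X.ψ) X.c.t u τ) (hl : ¬ isL τ) {q : ℕ} (hq : q ∈ τ.items) :
    ms X.c (tp τ) q = LB u.B := lst_node h X.tOk hl hq

/-- **an edge without change of `B` does not change the list of the missing ties** -/
theorem Ed.ms_eq (e : Ed u τ u' τ') (h : NDt X.par (w X.ψ) X.c.t u τ) (hl' : ¬ isL τ')
    (hB : u'.B = u.B) {q : ℕ} (hq : q ∈ τ'.items) : ms X.c (tp τ') q = ms X.c (tp τ) q := by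
  rw [ms_node h e.nl (e.items hq), ms_node (e.ndt h) hl' hq, hB]

/-- **the own missing tie of an edge** -/
theorem Ed.ms_cons (e : Ed u τ u' τ') (h : NDt X.par (w X.ψ) X.c.t u τ) (hl' : ¬ isL τ')
    (hB : u'.B = u.B * tp τ) {q : ℕ} (hq : q ∈ τ'.items) :
    ms X.c (tp τ') q = tp τ :: ms X.c (tp τ) q :=
  lst_miss h (e.ndt h) e.nl hl' (e.items hq) hq hB

/-- **the real state along an edge** -/
theorem edge_real (hT : TH X) (hR : All (Step588.RdOk X) ⟨top X.S, 1, 1, 1⟩ X.c.t)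
    (h : NDt X.par (w X.ψ) X.c.t u τ) (hr : All (Step588.RdOk X) u τ) (e : Ed u τ u' τ')
    (hl' : ¬ isL τ') {q : ℕ} (hq : q ∈ τ'.items) (hqs : q ∈ X.S') (hlv : p0 ≤ X.c.lv q)
    (hlv' : X.c.lv q ≤ tp τ') :
    (u'.B = u.B ∧ tp τ' ≤ tp τ ∧ ms X.c (tp τ') q = ms X.c (tp τ) q ∧
      (X.c.st (tp τ') q = X.c.st (tp τ) q ∨
        ∃ κ, Crs X.c.wp.thr X.c.γ (X.c.r q) (ms X.c (tp τ) q) (tp τ) (tp τ') κ ∧
          X.c.st (tp τ) q = some κ ∧
          X.c.st (tp τ') q = own X.c.γ (X.c.r q) (ms X.c (tp τ) q))) ∨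
    (u'.B = u.B * tp τ ∧ tp τ' < tp τ ∧ ms X.c (tp τ') q = tp τ :: ms X.c (tp τ) q ∧
      StM142.Step X.c.γ (X.c.r q) (X.c.wp.thr (tp τ)) (X.c.wp.thr (tp τ')) (tp τ)
        (ms X.c (tp τ) q) (X.c.st (tp τ) q) (X.c.st (tp τ') q)) := by
  have h' := e.ndt h
  rcases e.tp_le h'.self.node hl' with ⟨hB, hp⟩ | ⟨hB, hp⟩
  · left
    have em := e.ms_eq h hl' hB hq
    refine ⟨hB, hp, em, ?_⟩
    by_cases hne : X.c.st (tp τ') q = X.c.st (tp τ) q
    · exact Or.inl hne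
    · right
      have k := (nodeOk_hi h'.self.node hl').2.1
      have hm := mt_same h h' e.nl hl' (e.items hq) hq hB
      obtain ⟨κ, hc⟩ := st_next X.tOk (hT.lam _) (hT.lam _) hp hm
        (hT.anti _ _ (le_of_lt k) hp) (hT.leL _ _ hlv hlv') (ctx_TLl hT hR hqs _) hne
      refine ⟨κ, hc, ?_, ?_⟩
      · rw [Cf_st (hT.lam _)]
        exact (hc.st (ctx_TLl hT hR hqs _)).1
      · rw [Cf_st (hT.lam _), em]
        exact (hc.st (a := True) (ctx_TLl hT hR hqs _)).2 _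
  · right
    exact ⟨hB, hp, e.ms_cons h hl' hB hq,
      StM142.node_step hT h h' (e.all hr).self e.nl hl' (e.items hq) hq hqs hB⟩

/-- **the leaf below an edge** -/
theorem edge_leaf (hT : TH X) (hR : All (Step588.RdOk X) ⟨top X.S, 1, 1, 1⟩ X.c.t)
    (h : NDt X.par (w X.ψ) X.c.t u τ) (hr : All (Step588.RdOk X) u τ) {S : Finset ℕ} {G : ℕ}
    (e : Ed u τ u' (.leaf S)) (hL : LeafF X.par (w X.ψ) X.c.t (top X.S) u' S G)
    {q : ℕ} (hq : q ∈ S) (hqs : q ∈ X.S') (hlv : p0 ≤ X.c.lv q) (hlv' : X.c.lv q ≤ tp τ) :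
    (u'.B = u.B ∧ (lfst X.c q = X.c.st (tp τ) q ∨
      ∃ κ, CrsT (X.c.wp.thr (tp τ)) (X.c.wpL.thr (X.c.lv q)) X.c.γ (X.c.r q)
          (ms X.c (tp τ) q) κ ∧ X.c.st (tp τ) q = some κ ∧
        lfst X.c q = own X.c.γ (X.c.r q) (ms X.c (tp τ) q))) ∨
    (u'.B = u.B * tp τ ∧
      StM142.Step X.c.γ (X.c.r q) (X.c.wp.thr (tp τ)) (X.c.wpL.thr (X.c.lv q)) (tp τ)
        (ms X.c (tp τ) q) (X.c.st (tp τ) q) (lfst X.c q)) := by
  have h' := e.ndt h
  have hq0 : q ∈ τ.items := e.items hq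
  rcases e.cases with ⟨hB, -, -⟩ | ⟨hB, -, -⟩
  · left
    refine ⟨hB, ?_⟩
    by_cases hne : lfst X.c q = X.c.st (tp τ) q
    · exact Or.inl hne
    · right
      exact cf_leaf X.tOk (hT.lam _) (leaf_mt hL hq).1 (leaf_mt_same h e.nl hL hq0 hq hB)
        (hT.leL _ _ hlv hlv') (ctx_TLl hT hR hqs _) (ctx_TLL hT hR hqs _) hne
  · right
    exact ⟨hB, StM142.leaf_step hT h e.nl hL h' (e.all hr).self hq0 hq hqs hB⟩

end ctx

end Crest.Agent.R4P.StM246
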