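import Crest.Agent.R4P.Tele_28
import Crest.Agent.R4P.SecO_25

/-!
R4 (S0004) with powers, TgtTop, helper45: **static-map telescoping of the group walk** (Theorem A).

For ANY pair sets `S p = {(i,j) : i, j ∈ A p, kd p i = kd p j}` (no relation to the classes of the
ties; the population `A p` contains the pieces which are in the missing child of a tie at `p`):

`GS cost ≤ PE (S p) g + (jumps of PE (S ·)) + 4 GS SN + 3 GS (NN)`

* `alg_le` : the pointwise inequality.
* `PcD`, `TieP`, `toDT_TieP` : piece data of the ties.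
* `GcD` : the same for a group.
* `loc_le` : one column: cost `≤ CovP (S) + 4 SN + 3 NNe`, `NNe` = energy of the pairs which are both in
  missing children and have different `kd`.
* `tele_S` : the telescoping, `GW_le` : the result.
-/

set_option autoImplicit false
set_option linter.unusedSectionVars false
set_option linter.unusedVariables false
open MeasureTheory Filter Set

namespace Crest.Agent.R4P.ThA45

open Crest.Agent.R4.Tour104 Crest.Agent.R4.Tour758 Crest.Agent.R4.Avg758 Crest.Agent.R4.Clos758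
open Crest.Agent.R4.ClosL758 Crest.Agent.R4.ClosG758 Crest.Agent.R4.ClosR758
open Crest.Agent.R4.Fam464 Crest.Agent.R4.Lam368
open Crest.Agent.R4P.ClosR442 Crest.Agent.R4P.Grp36
open Crest.Agent.R4P.Xfer36 Crest.Agent.R4P.TopC36 Crest.Agent.R4P.PN36 Crest.Agent.R4P.SecO25
open Crest.Agent.R4P.Tele28
open Crest.Agent.R4P.Walk560 (DT WrN)

/-! ### the pointwise inequality -/

section alg
variable {Λ : Type*} [Fintype Λ] {ζ δ : Type*} [Fintype ζ] [DecidableEq ζ] [Fintype δ]
  [DecidableEq δ]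

/-- positive parts of a row -/
lemma row_le {δ : Type*} [Fintype δ] [DecidableEq δ] (D g : δ → ℝ) (hg : ∀ k, 0 ≤ g k)
    (hD : ∀ k, D k ≤ g k) (hs : 0 ≤ ∑ k, D k) :
    (∑ k, D k) ^ 2 ≤ ∑ k, max (D k) 0 ^ 2 + ∑ k, ∑ k' ∈ Finset.univ.erase k, g k * g k' := by
  have h1 : ∑ k, D k ≤ ∑ k, max (D k) 0 := Finset.sum_le_sum fun k _ => le_max_left _ _
  have h2 : (∑ k, D k) ^ 2 ≤ (∑ k, max (D k) 0) ^ 2 := pow_le_pow_left₀ hs h1 2
  refine h2.trans ?_
  rw [sq (∑ k, max (D k) 0), Finset.sum_mul_sum, ← Finset.sum_add_distrib]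
  refine Finset.sum_le_sum fun k _ => ?_
  rw [← Finset.add_sum_erase _ _ (Finset.mem_univ k), ← sq]
  refine add_le_add le_rfl (Finset.sum_le_sum fun k' _ => ?_)
  exact mul_le_mul (max_le (hD k) (hg k)) (max_le (hD k') (hg k')) (le_max_right _ _) (hg k)

/-- **the pointwise inequality**, matrix form -/
lemma alg_mat (D g : ζ → δ → ℝ) (hg : ∀ z k, 0 ≤ g z k) (hD : ∀ z k, D z k ≤ g z k)
    (hs : ∀ z, 0 ≤ ∑ k, D z k) :
    ∑ z, (∑ k, D z k) ^ 2 ≤ ∑ k, (∑ z, D z k) ^ 2 +
      3 * ∑ k, ∑ k' ∈ Finset.univ.erase k, (∑ z, g z k) * ∑ z, g z k' := by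
  classical
  have h1 : ∑ z, (∑ k, D z k) ^ 2 ≤ ∑ z, (∑ k, max (D z k) 0 ^ 2 +
      ∑ k, ∑ k' ∈ Finset.univ.erase k, g z k * g z k') :=
    Finset.sum_le_sum fun z _ => row_le (D z) (g z) (hg z) (hD z) (hs z)
  rw [Finset.sum_add_distrib] at h1
  set E : ℝ := ∑ k, ∑ k' ∈ Finset.univ.erase k, (∑ z, g z k) * ∑ z, g z k' with hE
  -- the off-diagonal row terms
  have h2 : ∑ z, ∑ k, ∑ k' ∈ Finset.univ.erase k, g z k * g z k' ≤ E := by
    rw [Finset.sum_comm, hE]
    refine Finset.sum_le_sum fun k _ => ?_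
    rw [Finset.sum_comm]
    refine Finset.sum_le_sum fun k' _ => ?_
    rw [Finset.sum_mul]
    refine Finset.sum_le_sum fun z _ => mul_le_mul_of_nonneg_left ?_ (hg z k)
    exact Finset.single_le_sum (f := fun z => g z k') (fun z _ => hg z k') (Finset.mem_univ z)
  -- the squares of the positive parts
  have h3 : ∑ z, ∑ k, max (D z k) 0 ^ 2 ≤ ∑ k, (∑ z, D z k) ^ 2 + 2 * E := by
    rw [Finset.sum_comm, hE, Finset.mul_sum, ← Finset.sum_add_distrib]
    refine Finset.sum_le_sum fun k _ => ?_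
    set P : ℝ := ∑ z, max (D z k) 0 with hP
    set Nn : ℝ := ∑ z, max (-(D z k)) 0 with hN
    have p0 : 0 ≤ P := Finset.sum_nonneg fun z _ => le_max_right _ _
    have n0 : 0 ≤ Nn := Finset.sum_nonneg fun z _ => le_max_right _ _
    have e1 : ∑ z, D z k = P - Nn := by
      rw [hP, hN, ← Finset.sum_sub_distrib]
      refine Finset.sum_congr rfl fun z _ => ?_
      rcases le_total 0 (D z k) with h | h
      · rw [max_eq_left h, max_eq_right (by linarith)]; ring
      · rw [max_eq_right h, max_eq_left (by linarith)]; ring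
    have e2 : ∑ z, max (D z k) 0 ^ 2 ≤ P ^ 2 := by
      rw [sq P, hP, Finset.sum_mul]
      refine Finset.sum_le_sum fun z _ => ?_
      rw [sq]
      exact mul_le_mul_of_nonneg_left (Finset.single_le_sum (f := fun z => max (D z k) 0)
        (fun z _ => le_max_right _ _) (Finset.mem_univ z)) (le_max_right _ _)
    have e3 : P ≤ ∑ z, g z k := Finset.sum_le_sum fun z _ => max_le (hD z k) (hg z k)
    have e4 : Nn ≤ ∑ k' ∈ Finset.univ.erase k, ∑ z, g z k' := by
      rw [Finset.sum_comm]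
      refine Finset.sum_le_sum fun z _ => max_le ?_
        (Finset.sum_nonneg fun k' _ => hg z k')
      have := hs z
      rw [← Finset.add_sum_erase _ _ (Finset.mem_univ k)] at this
      have h5 : ∑ k' ∈ Finset.univ.erase k, D z k' ≤ ∑ k' ∈ Finset.univ.erase k, g z k' :=
        Finset.sum_le_sum fun k' _ => hD z k'
      linarith
    have e5 : P * Nn ≤ ∑ k' ∈ Finset.univ.erase k, (∑ z, g z k) * ∑ z, g z k' := by
      rw [← Finset.mul_sum]
      exact mul_le_mul e3 e4 n0 (p0.trans e3)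
    rw [e1]
    nlinarith
  linarith

/-- **the pointwise inequality** -/
theorem alg_le (ix : Λ → ζ) (kd : Λ → δ) (A : Finset Λ) (g R : Λ → ℝ) (hg : ∀ j, 0 ≤ g j)
    (hR : ∀ j, 0 ≤ R j) (hA : ∀ j, j ∉ A → g j = 0)
    (hs : ∀ z, 0 ≤ ∑ j ∈ Finset.univ.filter (fun j => ix j = z), (g j - R j)) :
    ∑ z, (∑ j ∈ Finset.univ.filter (fun j => ix j = z), (g j - R j)) ^ 2 ≤
      ∑ d, (∑ j ∈ A.filter (fun j => kd j = d), (g j - R j)) ^ 2 +
      3 * ∑ e ∈ Finset.univ.filter (fun e : Λ × Λ => kd e.1 ≠ kd e.2), g e.1 * g e.2 := by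
  classical
  set D : ζ → δ → ℝ := fun z k => ∑ j ∈ A.filter (fun j => ix j = z ∧ kd j = k), (g j - R j) with hDd
  set G : ζ → δ → ℝ := fun z k => ∑ j ∈ A.filter (fun j => ix j = z ∧ kd j = k), g j with hGd
  have hG0 : ∀ z k, 0 ≤ G z k := fun z k => Finset.sum_nonneg fun j _ => hg j
  have hDG : ∀ z k, D z k ≤ G z k := fun z k =>
    Finset.sum_le_sum fun j _ => by linarith [hR j]
  -- rows
  have eR : ∀ z, ∑ k, D z k = ∑ j ∈ A.filter (fun j => ix j = z), (g j - R j) := by
    intro z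
    rw [hDd]
    simp only
    rw [← Finset.sum_fiberwise (A.filter fun j => ix j = z) kd]
    refine Finset.sum_congr rfl fun k _ => Finset.sum_congr ?_ fun _ _ => rfl
    ext j
    simp only [Finset.mem_filter]
    tauto
  have hRle : ∀ z, ∑ j ∈ Finset.univ.filter (fun j => ix j = z), (g j - R j) ≤ ∑ k, D z k := by
    intro z
    rw [eR z]
    have hsub : A.filter (fun j => ix j = z) ⊆ Finset.univ.filter (fun j => ix j = z) := by
      intro j hj
      simp only [Finset.mem_filter, Finset.mem_univ, true_and] at hj ⊢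
      exact hj.2
    rw [← Finset.sum_sdiff hsub]
    have : ∑ j ∈ (Finset.univ.filter (fun j => ix j = z)) \ (A.filter fun j => ix j = z),
        (g j - R j) ≤ 0 := by
      refine Finset.sum_nonpos fun j hj => ?_
      simp only [Finset.mem_sdiff, Finset.mem_filter, Finset.mem_univ, true_and, not_and] at hj
      have : j ∉ A := fun h => hj.2 h hj.1
      rw [hA j this]
      linarith [hR j]
    linarith
  -- columns
  have eC : ∀ k, ∑ z, D z k = ∑ j ∈ A.filter (fun j => kd j = k), (g j - R j) := by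
    intro k
    rw [hDd]
    simp only
    rw [← Finset.sum_fiberwise (A.filter fun j => kd j = k) ix]
    refine Finset.sum_congr rfl fun z _ => Finset.sum_congr ?_ fun _ _ => rfl
    ext j
    simp only [Finset.mem_filter]
    tauto
  have eCg : ∀ k, ∑ z, G z k = ∑ j ∈ A.filter (fun j => kd j = k), g j := by
    intro k
    rw [hGd]
    simp only
    rw [← Finset.sum_fiberwise (A.filter fun j => kd j = k) ix]
    refine Finset.sum_congr rfl fun z _ => Finset.sum_congr ?_ fun _ _ => rfl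
    ext j
    simp only [Finset.mem_filter]
    tauto
  have key := alg_mat D G hG0 hDG fun z => (hs z).trans (hRle z)
  have h1 : ∑ z, (∑ j ∈ Finset.univ.filter (fun j => ix j = z), (g j - R j)) ^ 2 ≤
      ∑ z, (∑ k, D z k) ^ 2 :=
    Finset.sum_le_sum fun z _ => pow_le_pow_left₀ (hs z) (hRle z) 2
  refine h1.trans (key.trans ?_)
  refine add_le_add (le_of_eq (Finset.sum_congr rfl fun k _ => by rw [eC k])) ?_
  refine mul_le_mul_of_nonneg_left ?_ (by norm_num)
  have e1 : ∑ k, ∑ k' ∈ Finset.univ.erase k, (∑ z, G z k) * ∑ z, G z k' =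
      ∑ e ∈ Finset.univ.filter (fun e : Λ × Λ => e.1 ∈ A ∧ e.2 ∈ A ∧ kd e.1 ≠ kd e.2),
        g e.1 * g e.2 := by
    simp only [eCg]
    have e2 : ∀ k, ∑ k' ∈ Finset.univ.erase k, (∑ j ∈ A.filter (fun j => kd j = k), g j) *
        ∑ j ∈ A.filter (fun j => kd j = k'), g j =
        ∑ i ∈ A.filter (fun i => kd i = k), ∑ j ∈ A.filter (fun j => kd j ≠ k), g i * g j := by
      intro k
      rw [← Finset.mul_sum, ← Finset.sum_mul_sum]
      congr 1
      rw [← Finset.sum_fiberwise_of_maps_to (s := A.filter (fun j => kd j ≠ k))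
        (t := Finset.univ.erase k) (g := kd) (fun j hj => by
          simp only [Finset.mem_filter] at hj
          exact Finset.mem_erase.2 ⟨hj.2, Finset.mem_univ _⟩)]
      refine Finset.sum_congr rfl fun k' hk' => Finset.sum_congr ?_ fun _ _ => rfl
      ext j
      simp only [Finset.mem_filter, Finset.mem_erase, Finset.mem_univ, and_true] at hk' ⊢
      constructor
      · rintro ⟨h1, h2⟩; exact ⟨⟨h1, by rw [h2]; exact hk'⟩, h2⟩
      · rintro ⟨⟨h1, _⟩, h2⟩; exact ⟨h1, h2⟩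
    rw [Finset.sum_congr rfl fun k _ => e2 k]
    have e3 : ∀ k, ∑ i ∈ A.filter (fun i => kd i = k), ∑ j ∈ A.filter (fun j => kd j ≠ k),
        g i * g j = ∑ i ∈ A.filter (fun i => kd i = k), ∑ j ∈ A.filter (fun j => kd j ≠ kd i),
        g i * g j := by
      intro k
      refine Finset.sum_congr rfl fun i hi => ?_
      rw [(Finset.mem_filter.1 hi).2]
    rw [Finset.sum_congr rfl fun k _ => e3 k, Finset.sum_fiberwise]
    rw [Finset.sum_sigma']
    refine Finset.sum_bij' (fun e _ => (e.1, e.2)) (fun e _ => ⟨e.1, e.2⟩) ?_ ?_ ?_ ?_ ?_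
    · rintro ⟨i, j⟩ h
      simp only [Finset.mem_sigma, Finset.mem_filter] at h
      simp only [Finset.mem_filter, Finset.mem_univ, true_and]
      exact ⟨h.1, h.2.1, fun h' => h.2.2 h'.symm⟩
    · rintro ⟨i, j⟩ h
      simp only [Finset.mem_filter, Finset.mem_univ, true_and] at h
      simp only [Finset.mem_sigma, Finset.mem_filter]
      exact ⟨h.1, h.2.1, fun h' => h.2.2 h'.symm⟩
    · intro e _; rfl
    · intro e _; rfl
    · intro e _; rfl
  rw [e1]
  refine Finset.sum_le_sum_of_subset_of_nonneg ?_ fun e _ _ => mul_nonneg (hg _) (hg _)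
  intro e he
  simp only [Finset.mem_filter, Finset.mem_univ, true_and] at he ⊢
  exact he.2.2

end alg

/-! ### piece data of the ties -/

section tie
variable {Λ κ : Type} [Fintype Λ] [DecidableEq Λ] [Fintype κ] [DecidableEq κ]

/-- piece data of a tie: part which is constant on the fibres, lifted missing part, reduction -/
structure PcD (p : ℕ) (r : Λ → κ) (b v : Λ → ℝ → ℝ) (G : κ → ℝ → ℝ)
    (bb gg rr : Λ → ℝ → ℝ) : Prop where
  ev : ∀ j x, v j x = bb j (p * x) + gg j x - rr j x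
  pb : ∀ j, PB (bb j)
  pg : ∀ j, PB (gg j)
  pr : ∀ j, PB (rr j)
  gv : ∀ j x, gg j x ≤ v j x
  g0 : ∀ j, (∀ y, b j y = 0) → ∀ x, gg j x = 0
  eG : ∀ c x, G c x = ∑ j ∈ Finset.univ.filter (fun j => r j = c), (gg j x - rr j x)
  mg : ∀ y, Ep p (fun x => ∑ j, gg j x) y ≤ 1 / (p : ℝ) * ∑ j, b j y

/-- the ties have piece data -/
def TieP : DT Λ κ → Prop
  | .br p _ r _ t₀ v _ G => ∃ bb gg rr : Λ → ℝ → ℝ, PcD p r t₀.g.val v G bb gg rr
  | _ => True

lemma pcD_lam {p n : ℕ} {f g G : Λ → ℝ → ℝ} (hd : Dat p f g G) {c : ℕ → Λ → κ} :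
    PcD p (c n) G (fun j => lamF p f g G c (n + 1) j)
      (fun a => DW p f g G c (n + 1) (clz (c n) a))
      (fun j y => (1 - 1 / (p : ℝ)) * f j y + Ep p (lamR p f g G c (n + 1) j) y) g
      (fun j => lamR p f g G c (n + 1) j) where
  ev := fun j x => by unfold lamF; ring
  pb := fun j => ((hd.hf j).smul (one_sub_inv_nonneg hd.hp)).add ((PB_lamR hd j).Ep hd.hp)
  pg := hd.hg
  pr := fun j => PB_lamR hd j
  gv := fun j x => by
    rw [lamF_eq_mult hd]
    have := mul_nonneg (mult_nonneg (c := c) (n := n + 1) hd j x) ((hd.hf j).nonneg (p * x))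
    linarith
  g0 := fun j h0 x => by
    have h1 := lift_le hd.hp (hd.hg j).nonneg (hd.hl j) x
    rw [h0] at h1
    exact le_antisymm h1 ((hd.hg j).nonneg x)
  eG := fun a x => by
    unfold DW fW RW
    rw [← Finset.sum_sub_distrib]
    rfl
  mg := fun y => by
    rw [Ep_sum']
    rw [Finset.mul_sum]
    refine Finset.sum_le_sum fun j _ => le_of_eq ?_
    unfold Ep
    rw [hd.hl j y, div_eq_inv_mul, ← one_div]

/-- **all nodes of `toDT`** -/
theorem toDT_TieP (D : Item758.Par Λ κ) (sp : ℕ → Finset Λ) (t : Cnt588.IT) : ∀ b pr : ℕ, 0 < b →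
    (D.toFT b pr t).Adm b → (D.toDT sp b pr t).All TieP := by
  induction t with
  | leaf S => intro b pr hb h; exact trivial
  | br p Sp t₁ t₀ ih₁ ih₀ =>
    intro b pr hb h
    have hd := FT.dat hb h
    obtain ⟨hp, hpb, hN, a1, a0⟩ := h
    have hbp : 0 < b * p := Nat.mul_pos hb hp
    refine ⟨?_, ih₁ b (pr * p) hb a1, ih₀ (b * p) pr hbp a0⟩
    have v0 : (D.toDT sp (b * p) pr t₀).g.val = fun j => (D.toFT (b * p) pr t₀).U 1 j := by
      rw [D.toDT_g]; exact FT.toG_val _ _ hbp a0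
    show ∃ bb gg rr : Λ → ℝ → ℝ, PcD p (D.rho p) (D.toDT sp (b * p) pr t₀).g.val _ _ bb gg rr
    rw [v0]
    exact ⟨_, _, _, pcD_lam (n := 0) (c := fun _ => D.rho p) hd⟩
  | add p t₁ t₀ ih₁ ih₀ =>
    intro b pr hb h
    exact ⟨trivial, ih₁ b pr hb h.1, ih₀ b pr hb h.2⟩
  | up b' Sp t ih =>
    intro b pr hb h
    exact ⟨trivial, ih b pr hb h⟩
  | pl p t ih =>
    intro b pr hb h
    obtain ⟨hp, hpb, a1⟩ := h
    refine ⟨?_, ih b (pr * p) hb a1, trivial⟩
    have pbv : ∀ j, PB ((D.toFT b (pr * p) t).U 1 j) := fun j => FT.pb hb a1 (one_dvd _) j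
    refine ⟨fun j => (D.toFT b (pr * p) t).U 1 j, fun _ _ => 0, fun _ _ => 0, fun j x => ?_,
      pbv, fun _ => PB.const le_rfl, fun _ => PB.const le_rfl, fun j x => ?_, fun _ _ _ => rfl,
      fun c x => ?_, fun y => ?_⟩
    · show (D.toFT b (pr * p) t).U 1 j (p * x) = (D.toFT b (pr * p) t).U 1 j (p * x) + 0 - 0
      ring
    · exact (pbv j).nonneg _
    · show (0 : ℝ) = ∑ j ∈ Finset.univ.filter (fun j => D.rho p j = c), ((0 : ℝ) - 0)
      simp
    · rw [Ep_sum', Finset.mul_sum]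
      refine Finset.sum_le_sum fun j _ => ?_
      rw [Ep_const hp]
      exact mul_nonneg (by positivity) le_rfl
  | far p t₁ t₀ ih₁ ih₀ =>
    intro b pr hb h
    exact ⟨trivial, ih₁ b pr hb h.1, ih₀ b pr hb h.2⟩

/-- `j` is a piece of the missing child -/
def NSd : DT Λ κ → Λ → Prop
  | .br _ _ _ _ t₀ _ _ _ => fun j => ∃ y, t₀.g.val j y ≠ 0
  | _ => fun _ => False

/-- `j` is a piece of a missing child of the group -/
def NSg (g : Gp Λ κ) (j : Λ) : Prop := ∃ m ∈ g, NSd m.2 j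

/-- the same for a group -/
structure GcD (p : ℕ) (r : Λ → κ) (g : Gp Λ κ) (bb gg rr : Λ → ℝ → ℝ) : Prop where
  ev : ∀ j x, gval g j x = bb j (p * x) + gg j x - rr j x
  pb : ∀ j, PB (bb j)
  pg : ∀ j, PB (gg j)
  pr : ∀ j, PB (rr j)
  gv : ∀ j x, gg j x ≤ gval g j x
  g0 : ∀ j, ¬ NSg g j → ∀ x, gg j x = 0
  eG : ∀ c x, GmG g c x = ∑ j ∈ Finset.univ.filter (fun j => r j = c), (gg j x - rr j x)
  mg : ∀ y, Ep p (fun x => ∑ j, gg j x) y ≤ 1 / (p : ℝ) * (g.map fun m => m.1 * n0 m.2 y).sum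

/-- **the piece data of a group of ties** -/
theorem gcD [WRel κ] {wr : ℕ → Λ → κ} {p : ℕ} {g : Gp Λ κ} (hp : 0 < p) (hw : ∀ m ∈ g, 0 ≤ m.1)
    (hg : ∀ m ∈ g, NOk m.2) (hP : ∀ m ∈ g, TieP m.2) (hb : ∀ m ∈ g, isB p m.2 = true)
    (hr : ∀ m ∈ g, WrN wr m.2) : ∃ bb gg rr : Λ → ℝ → ℝ, GcD p (wr p) g bb gg rr := by
  induction g with
  | nil =>
    refine ⟨fun _ _ => 0, fun _ _ => 0, fun _ _ => 0, fun j x => ?_, fun _ => PB.const le_rfl,
      fun _ => PB.const le_rfl, fun _ => PB.const le_rfl, fun j x => le_rfl, fun _ _ _ => rfl,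
      fun c x => ?_, fun y => ?_⟩
    · show (0 : ℝ) = 0 + 0 - 0
      ring
    · simp [GmG]
    · rw [Ep_sum']
      simp only [Ep_const hp]
      simp
  | cons m g ih =>
    obtain ⟨bb', gg', rr', h'⟩ := ih (fun a ha => hw a (List.mem_cons_of_mem _ ha))
      (fun a ha => hg a (List.mem_cons_of_mem _ ha)) (fun a ha => hP a (List.mem_cons_of_mem _ ha))
      (fun a ha => hb a (List.mem_cons_of_mem _ ha)) (fun a ha => hr a (List.mem_cons_of_mem _ ha))
    obtain ⟨w, r, t₁, t₀, v, B, G, e⟩ := isB_eq (hb m (by simp))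
    have hm0 : 0 ≤ m.1 := hw m (by simp)
    have hm := hg m (by simp)
    have hr' := hr m (by simp)
    have hPm := hP m (by simp)
    rw [e] at hm hr' hPm
    have hrr : r = wr p := hr'
    obtain ⟨bb, gg, rr, h⟩ := hPm
    have hG : ∀ c, PB (G c) := fun c => (hm.2.2.2.col c).pG
    refine ⟨fun j x => m.1 * bb j x + bb' j x, fun j x => m.1 * gg j x + gg' j x,
      fun j x => m.1 * rr j x + rr' j x, fun j x => ?_, fun j => ((h.pb j).smul hm0).add (h'.pb j),
      fun j => ((h.pg j).smul hm0).add (h'.pg j), fun j => ((h.pr j).smul hm0).add (h'.pr j),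
      fun j x => ?_, fun j hj x => ?_, fun c x => ?_, fun y => ?_⟩
    · rw [gval_cons, h'.ev, e]
      show m.1 * v j x + _ = _
      rw [h.ev]; ring
    · rw [gval_cons, e]
      show m.1 * gg j x + gg' j x ≤ m.1 * v j x + gval g j x
      exact add_le_add (mul_le_mul_of_nonneg_left (h.gv j x) hm0) (h'.gv j x)
    · have h1 : ¬ NSg g j := fun ⟨a, ha, h2⟩ => hj ⟨a, List.mem_cons_of_mem _ ha, h2⟩
      have h2 : ∀ y, t₀.g.val j y = 0 := by
        intro y
        by_contra h3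
        exact hj ⟨m, by simp, by rw [e]; exact ⟨y, h3⟩⟩
      show m.1 * gg j x + gg' j x = 0
      rw [h.g0 j h2, h'.g0 j h1]; ring
    · rw [GmG_cons]
      show m.1 * Gm m.2 c x + GmG g c x = _
      have h1 : Gm m.2 c = G c := by
        rw [e]
        funext x
        unfold Gm
        simp only [if_pos hG]
      rw [h1, h'.eG, h.eG, hrr, Finset.mul_sum, ← Finset.sum_add_distrib]
      exact Finset.sum_congr rfl fun j _ => by ring
    · have e1 : (fun x => ∑ j, (m.1 * gg j x + gg' j x)) =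
          fun x => m.1 * ∑ j, gg j x + ∑ j, gg' j x := by
        funext x
        rw [Finset.sum_add_distrib, Finset.mul_sum]
      rw [e1, Ep_add, Ep_smul, List.map_cons, List.sum_cons, mul_add]
      refine add_le_add ?_ (h'.mg y)
      have h2 := mul_le_mul_of_nonneg_left (h.mg y) hm0
      have h3 : n0 m.2 y = ∑ j, t₀.g.val j y := by rw [e]; rfl
      rw [h3]
      refine h2.trans (le_of_eq ?_)
      ring

end tie

/-! ### one column -/

section col
variable {Λ κ : Type} [Fintype Λ] [DecidableEq Λ] [Fintype κ] [DecidableEq κ]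
  {ι δ : Type} [Fintype ι] [DecidableEq ι] [Fintype δ] [DecidableEq δ]

/-- the pairs of a class map on a population -/
def SA (A : Finset Λ) (kd : Λ → δ) : Finset (Λ × Λ) :=
  Finset.univ.filter fun e : Λ × Λ => e.1 ∈ A ∧ e.2 ∈ A ∧ kd e.1 = kd e.2

lemma mem_SA {A : Finset Λ} {kd : Λ → δ} {e : Λ × Λ} :
    e ∈ SA A kd ↔ e.1 ∈ A ∧ e.2 ∈ A ∧ kd e.1 = kd e.2 := by simp [SA]

lemma sum_cls (A : Finset Λ) (kd : Λ → δ) (a : Λ → ℝ) :
    ∑ d, (∑ j ∈ A.filter (fun j => kd j = d), a j) ^ 2 = ∑ e ∈ SA A kd, a e.1 * a e.2 := by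
  have e1 : ∀ d, (∑ j ∈ A.filter (fun j => kd j = d), a j) ^ 2 =
      ∑ e ∈ (SA A kd).filter (fun e => kd e.1 = d), a e.1 * a e.2 := by
    intro d
    rw [sq, Finset.sum_mul_sum, ← Finset.sum_product']
    refine Finset.sum_congr ?_ fun e _ => rfl
    ext e
    simp only [Finset.mem_product, Finset.mem_filter, mem_SA]
    constructor
    · rintro ⟨⟨h1, h2⟩, h3, h4⟩; exact ⟨⟨h1, h3, h2.trans h4.symm⟩, h2⟩
    · rintro ⟨⟨h1, h3, h4⟩, h2⟩; exact ⟨⟨h1, h2⟩, h3, h4 ▸ h2⟩
  rw [Finset.sum_congr rfl fun d _ => e1 d]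
  exact Finset.sum_fiberwise (SA A kd) (fun e => kd e.1) fun e => a e.1 * a e.2

/-- covariance of a pair set -/
noncomputable def CovP (S : Finset (Λ × Λ)) (p : ℕ) (g : Gp Λ κ) : ℝ :=
  ∑ e ∈ S, (I (fun x => gval g e.1 x * gval g e.2 x) -
    I (fun y => Ep p (gval g e.1) y * Ep p (gval g e.2) y))

/-- second order term -/
noncomputable def SN (p : ℕ) (g : Gp Λ κ) : ℝ :=
  I (fun y => (1 / (p : ℝ) * (g.map fun m => m.1 * n0 m.2 y).sum) ^ 2)

open Classical in
/-- pairs of pieces of missing children with different classes -/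
noncomputable def NNs (kd : Λ → δ) (g : Gp Λ κ) : Finset (Λ × Λ) :=
  Finset.univ.filter fun e : Λ × Λ => NSg g e.1 ∧ NSg g e.2 ∧ kd e.1 ≠ kd e.2

lemma PB_n0 {p : ℕ} {g : Gp Λ κ} (hw : ∀ m ∈ g, 0 ≤ m.1) (hg : ∀ m ∈ g, m.2.g.Ok)
    (hb : ∀ m ∈ g, isB p m.2 = true) : PB (fun y => (g.map fun m => m.1 * n0 m.2 y).sum) :=
  (I_list g n0 (fun m hm => n0_PB (hg m hm) (hb m hm)) hw).1

/-- variance identity on a fibre -/
lemma var_fib {p : ℕ} (hp : 0 < p) (F D b : ℝ → ℝ) (hb : ∀ x, b (x + 1) = b x)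
    (h : ∀ x, F x = b (p * x) + D x) (y : ℝ) :
    Ep p (fun x => D x ^ 2) y = Ep p (fun x => F x ^ 2) y - Ep p F y ^ 2 + Ep p D y ^ 2 := by
  have e1 : ∀ i : ℕ, F ((y + i) / p) = b y + D ((y + i) / p) := fun i => by
    rw [h, pull_fibre hp hb y i]
  have hp' : (p : ℝ) ≠ 0 := by exact_mod_cast hp.ne'
  unfold Ep
  simp only [e1]
  have e2 : ∑ i ∈ Finset.range p, (b y + D ((y + i) / p)) ^ 2 =
      p * b y ^ 2 + 2 * b y * ∑ i ∈ Finset.range p, D ((y + i) / p) +
        ∑ i ∈ Finset.range p, D ((y + i) / p) ^ 2 := by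
    rw [Finset.mul_sum]
    have : (p : ℝ) * b y ^ 2 = ∑ i ∈ Finset.range p, b y ^ 2 := by simp
    rw [this, ← Finset.sum_add_distrib, ← Finset.sum_add_distrib]
    exact Finset.sum_congr rfl fun i _ => by ring
  have e3 : ∑ i ∈ Finset.range p, (b y + D ((y + i) / p)) =
      p * b y + ∑ i ∈ Finset.range p, D ((y + i) / p) := by
    rw [Finset.sum_add_distrib]; simp
  rw [e2, e3]
  field_simp
  ring

/-- **one column, on the fibre** -/
theorem loc_pt [WRel κ] {ix : κ → ι} {wr : ℕ → Λ → κ} {p : ℕ} {g : Gp Λ κ} (hp : 0 < p)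
    (hw : Wg g) (hG : GOk g) (hg : ∀ m ∈ g, NOk m.2) (hP : ∀ m ∈ g, TieP m.2)
    (hb : ∀ m ∈ g, isB p m.2 = true) (hr : ∀ m ∈ g, WrN wr m.2)
    (kd : Λ → δ) (A : Finset Λ) (hA : ∀ j, NSg g j → j ∈ A) (y : ℝ) :
    Ep p (fun x => ∑ z, ixF ix (GmG g) z x ^ 2) y ≤
      (Ep p (fun x => ∑ e ∈ SA A kd, gval g e.1 x * gval g e.2 x) y -
        ∑ e ∈ SA A kd, Ep p (gval g e.1) y * Ep p (gval g e.2) y) +
      4 * (1 / (p : ℝ) * (g.map fun m => m.1 * n0 m.2 y).sum) ^ 2 +
      3 * Ep p (fun x => ∑ e ∈ NNs kd g, gval g e.1 x * gval g e.2 x) y := by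
  classical
  obtain ⟨bb, gg, rr, h⟩ := gcD hp (fun m hm => (hw m hm).1) hg hP hb hr
  have hGm : ∀ c x, 0 ≤ GmG g c x := fun c => (PB_GmG hw c).nonneg
  -- index functions
  have eix : ∀ z x, ixF ix (GmG g) z x =
      ∑ j ∈ Finset.univ.filter (fun j => ix (wr p j) = z), (gg j x - rr j x) := by
    intro z x
    unfold ixF
    rw [Finset.sum_congr rfl fun c _ => h.eG c x]
    rw [← Finset.sum_fiberwise_of_maps_to (t := Finset.univ.filter (fun c => ix c = z))
      (s := Finset.univ.filter (fun j => ix (wr p j) = z)) (g := fun j => wr p j)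
      (fun j hj => by simpa using hj)]
    refine Finset.sum_congr rfl fun c hc => Finset.sum_congr ?_ fun j _ => rfl
    ext j
    simp only [Finset.mem_filter, Finset.mem_univ, true_and] at hc ⊢
    constructor
    · intro h2; exact ⟨by rw [h2]; exact hc, h2⟩
    · rintro ⟨_, h2⟩; exact h2
  have ix0 : ∀ z x, 0 ≤ ixF ix (GmG g) z x := fun z x =>
    Finset.sum_nonneg fun c _ => hGm c x
  have g0 : ∀ j x, 0 ≤ gg j x := fun j => (h.pg j).nonneg
  have r0 : ∀ j x, 0 ≤ rr j x := fun j => (h.pr j).nonneg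
  -- total of the reductions
  have htot : ∀ x, ∑ j, rr j x ≤ ∑ j, gg j x := by
    intro x
    have h1 : 0 ≤ ∑ c, GmG g c x := Finset.sum_nonneg fun c _ => hGm c x
    have h2 : ∑ c, GmG g c x = ∑ j, (gg j x - rr j x) := by
      rw [Finset.sum_congr rfl fun c _ => h.eG c x]
      exact Finset.sum_fiberwise Finset.univ (wr p) fun j => gg j x - rr j x
    rw [h2, Finset.sum_sub_distrib] at h1
    linarith
  -- pointwise
  have hpt : ∀ x, ∑ z, ixF ix (GmG g) z x ^ 2 ≤
      ∑ d, (∑ j ∈ A.filter (fun j => kd j = d), (gg j x - rr j x)) ^ 2 +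
      3 * ∑ e ∈ NNs kd g, gval g e.1 x * gval g e.2 x := by
    intro x
    have k1 := alg_le (fun j => ix (wr p j)) kd A (fun j => gg j x) (fun j => rr j x)
      (fun j => g0 j x) (fun j => r0 j x) (fun j hj => h.g0 j (fun h' => hj (hA j h')) x)
      (fun z => by rw [← eix z x]; exact ix0 z x)
    simp only [← eix] at k1
    refine k1.trans (add_le_add le_rfl (mul_le_mul_of_nonneg_left ?_ (by norm_num)))
    have e1 : ∑ e ∈ Finset.univ.filter (fun e : Λ × Λ => kd e.1 ≠ kd e.2), gg e.1 x * gg e.2 x =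
        ∑ e ∈ NNs kd g, gg e.1 x * gg e.2 x := by
      symm
      refine Finset.sum_subset ?_ ?_
      · intro e he
        simp only [NNs, Finset.mem_filter, Finset.mem_univ, true_and] at he ⊢
        exact he.2.2
      · intro e he hne
        simp only [NNs, Finset.mem_filter, Finset.mem_univ, true_and, not_and] at he hne
        by_cases h1 : NSg g e.1
        · by_cases h2 : NSg g e.2
          · exact absurd he (hne h1 h2)
          · rw [h.g0 e.2 h2, mul_zero]
        · rw [h.g0 e.1 h1, zero_mul]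
    rw [e1]
    exact Finset.sum_le_sum fun e _ => mul_le_mul (h.gv _ x) (h.gv _ x) (g0 _ x)
      ((g0 _ x).trans (h.gv _ x))
  -- average
  have h1 : Ep p (fun x => ∑ z, ixF ix (GmG g) z x ^ 2) y ≤
      Ep p (fun x => ∑ d, (∑ j ∈ A.filter (fun j => kd j = d), (gg j x - rr j x)) ^ 2 +
      3 * ∑ e ∈ NNs kd g, gval g e.1 x * gval g e.2 x) y := Ep_mono hpt y
  have hrw : Ep p (fun x => ∑ d, (∑ j ∈ A.filter (fun j => kd j = d), (gg j x - rr j x)) ^ 2 +
      3 * ∑ e ∈ NNs kd g, gval g e.1 x * gval g e.2 x) y =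
      ∑ d, Ep p (fun x => (∑ j ∈ A.filter (fun j => kd j = d), (gg j x - rr j x)) ^ 2) y +
      3 * Ep p (fun x => ∑ e ∈ NNs kd g, gval g e.1 x * gval g e.2 x) y := by
    rw [Ep_add, Ep_smul]
    congr 1
    rw [Ep_sum']
  refine (h1.trans_eq hrw).trans (add_le_add ?_ le_rfl)
  -- variances
  have h2 : ∀ d, Ep p (fun x => (∑ j ∈ A.filter (fun j => kd j = d), (gg j x - rr j x)) ^ 2) y =
      Ep p (fun x => (∑ j ∈ A.filter (fun j => kd j = d), gval g j x) ^ 2) y -
      (∑ j ∈ A.filter (fun j => kd j = d), Ep p (gval g j) y) ^ 2 +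
      (Ep p (fun x => ∑ j ∈ A.filter (fun j => kd j = d), (gg j x - rr j x)) y) ^ 2 := by
    intro d
    have := var_fib hp (fun x => ∑ j ∈ A.filter (fun j => kd j = d), gval g j x)
      (fun x => ∑ j ∈ A.filter (fun j => kd j = d), (gg j x - rr j x))
      (fun x => ∑ j ∈ A.filter (fun j => kd j = d), bb j x)
      (fun x => Finset.sum_congr rfl fun j _ => (h.pb j).per x) (fun x => by
        rw [← Finset.sum_add_distrib]
        exact Finset.sum_congr rfl fun j _ => by rw [h.ev]; ring) y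
    rw [this, Ep_sum']
  rw [Finset.sum_congr rfl fun d _ => h2 d, Finset.sum_add_distrib, Finset.sum_sub_distrib]
  refine add_le_add (le_of_eq ?_) ?_
  · rw [sum_cls A kd fun j => Ep p (gval g j) y]
    congr 1
    rw [← Ep_sum']
    congr 1
    funext x
    exact sum_cls A kd fun j => gval g j x
  · -- second order term
    have p0 : (0 : ℝ) < p := by exact_mod_cast hp
    set a : δ → ℝ := fun d =>
      |Ep p (fun x => ∑ j ∈ A.filter (fun j => kd j = d), (gg j x - rr j x)) y| with ha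
    have h3 : ∑ d, (Ep p (fun x => ∑ j ∈ A.filter (fun j => kd j = d), (gg j x - rr j x)) y) ^ 2 ≤
        (∑ d, a d) ^ 2 := by
      refine le_trans (le_of_eq ?_) (sum_sq_le Finset.univ a fun d _ => abs_nonneg _)
      exact Finset.sum_congr rfl fun d _ => by rw [ha]; simp only [sq_abs]
    have h4 : ∑ d, a d ≤ 2 * Ep p (fun x => ∑ j, gg j x) y := by
      have h5 : ∀ d, a d ≤ Ep p (fun x => ∑ j ∈ A.filter (fun j => kd j = d),
          (gg j x + rr j x)) y := by
        intro d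
        rw [ha]
        simp only
        rw [abs_le]
        constructor
        · have : -Ep p (fun x => ∑ j ∈ A.filter (fun j => kd j = d), (gg j x + rr j x)) y =
              Ep p (fun x => -(∑ j ∈ A.filter (fun j => kd j = d), (gg j x + rr j x))) y := by
            unfold Ep
            rw [Finset.sum_neg_distrib, neg_div]
          rw [this]
          refine Ep_mono (fun x => ?_) y
          rw [← Finset.sum_neg_distrib]
          exact Finset.sum_le_sum fun j _ => by linarith [g0 j x]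
        · refine Ep_mono (fun x => ?_) y
          exact Finset.sum_le_sum fun j _ => by linarith [r0 j x]
      refine (Finset.sum_le_sum fun d _ => h5 d).trans ?_
      rw [← Ep_sum', ← Ep_smul]
      refine Ep_mono (fun x => ?_) y
      have h6 : ∑ d, ∑ j ∈ A.filter (fun j => kd j = d), (gg j x + rr j x) =
          ∑ j ∈ A, (gg j x + rr j x) := Finset.sum_fiberwise A kd fun j => gg j x + rr j x
      rw [h6]
      have h7 : ∑ j ∈ A, (gg j x + rr j x) ≤ ∑ j, (gg j x + rr j x) :=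
        Finset.sum_le_sum_of_subset_of_nonneg (Finset.subset_univ A) fun j _ _ =>
          add_nonneg (g0 j x) (r0 j x)
      have h7' : ∑ j, (gg j x + rr j x) = ∑ j, gg j x + ∑ j, rr j x := Finset.sum_add_distrib
      linarith [htot x]
    have h8 : 0 ≤ ∑ d, a d := Finset.sum_nonneg fun d _ => abs_nonneg _
    have h9 := h4.trans (mul_le_mul_of_nonneg_left (h.mg y) (by norm_num : (0 : ℝ) ≤ 2))
    refine h3.trans ((pow_le_pow_left₀ h8 h9 2).trans (le_of_eq ?_))
    ring

/-- **one column** -/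
theorem loc_le [WRel κ] {ix : κ → ι} {wr : ℕ → Λ → κ} {p : ℕ} {g : Gp Λ κ} (hp : 0 < p)
    (hw : Wg g) (hG : GOk g) (hg : ∀ m ∈ g, NOk m.2) (hP : ∀ m ∈ g, TieP m.2)
    (hb : ∀ m ∈ g, isB p m.2 = true) (hr : ∀ m ∈ g, WrN wr m.2)
    (kd : Λ → δ) (A : Finset Λ) (hA : ∀ j, NSg g j → j ∈ A) :
    I (fun x => ∑ z, ixF ix (GmG g) z x ^ 2) ≤ CovP (SA A kd) p g + 4 * SN p g +
      3 * PE (NNs kd g) g := by
  have pv : ∀ j, PB (gval g j) := fun j => PB_gval hG j
  have pe : ∀ e : Λ × Λ, PB (fun x => gval g e.1 x * gval g e.2 x) := fun e =>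
    (pv e.1).mul (pv e.2)
  have pE : ∀ j, PB (Ep p (gval g j)) := fun j => (pv j).Ep hp
  have pL : PB (fun x => ∑ z, ixF ix (GmG g) z x ^ 2) :=
    PB.sum _ fun z _ => PBsq (PB_ixF (PB_GmG hw) z)
  have p1 : ∀ S : Finset (Λ × Λ), PB (fun x => ∑ e ∈ S, gval g e.1 x * gval g e.2 x) :=
    fun S => PB.sum _ fun e _ => pe e
  have p2 : PB (fun y => ∑ e ∈ SA A kd, Ep p (gval g e.1) y * Ep p (gval g e.2) y) :=
    PB.sum _ fun e _ => (pE e.1).mul (pE e.2)
  have pn : PB (fun y => (1 / (p : ℝ) * (g.map fun m => m.1 * n0 m.2 y).sum) ^ 2) :=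
    PBsq ((PB_n0 (fun m hm => (hw m hm).1) (fun m hm => (hg m hm).2) hb).smul (by positivity))
  have i1 := ((p1 (SA A kd)).Ep hp).integrableOn
  have i2 := p2.integrableOn
  have i3 := (pn.smul (by norm_num : (0 : ℝ) ≤ 4)).integrableOn
  have i4 := (((p1 (NNs kd g)).Ep hp).smul (by norm_num : (0 : ℝ) ≤ 3)).integrableOn
  rw [← I_Ep hp pL.integrableOn]
  have i12 : IntegrableOn (fun y => Ep p (fun x => ∑ e ∈ SA A kd, gval g e.1 x * gval g e.2 x) y -
      ∑ e ∈ SA A kd, Ep p (gval g e.1) y * Ep p (gval g e.2) y) (Ico (0 : ℝ) 1) := i1.sub i2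
  have i123 : IntegrableOn (fun y => (Ep p (fun x => ∑ e ∈ SA A kd, gval g e.1 x * gval g e.2 x) y -
      ∑ e ∈ SA A kd, Ep p (gval g e.1) y * Ep p (gval g e.2) y) +
      4 * (1 / (p : ℝ) * (g.map fun m => m.1 * n0 m.2 y).sum) ^ 2) (Ico (0 : ℝ) 1) := i12.add i3
  refine (I_mono (pL.Ep hp).integrableOn (i123.add i4)
    (loc_pt (ix := ix) hp hw hG hg hP hb hr kd A hA)).trans (le_of_eq ?_)
  have e1 := I_add i123 i4
  have e2 := I_add i12 i3
  have e3 := I_sub i1 i2
  refine e1.trans ?_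
  rw [e2, e3, I_smul, I_smul, I_Ep hp (p1 _).integrableOn, I_Ep hp (p1 _).integrableOn]
  unfold CovP SN PE
  rw [I_sum _ fun e _ => (pe e).integrableOn, I_sum _ fun e _ => (pe e).integrableOn,
    I_sum _ fun e _ => ((pE e.1).mul (pE e.2)).integrableOn, Finset.sum_sub_distrib]

end col

/-! ### the telescoping -/

section tele
variable {Λ κ : Type} [Fintype Λ] [DecidableEq Λ] [Fintype κ] [DecidableEq κ]
  {ι δ : Type} [Fintype ι] [DecidableEq ι] [Fintype δ] [DecidableEq δ]

/-- the mean step of the energy of a pair set -/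
lemma PE_gB {p : ℕ} {g : Gp Λ κ} (h : GOk g) (S : Finset (Λ × Λ)) :
    PE S (gB p g) = CovP S p (gB p g) + PE S (gC p g) := by
  unfold PE CovP
  rw [← Finset.sum_add_distrib]
  refine Finset.sum_congr rfl fun e _ => ?_
  have e1 : (fun y => Ep p (gval (gB p g) e.1) y * Ep p (gval (gB p g) e.2) y) =
      fun x => gval (gC p g) e.1 x * gval (gC p g) e.2 x := by
    funext y
    rw [Ep_gB h, Ep_gB h]
  rw [e1]; ring

/-- sum of the jumps `PE (S (p-1)) - PE (S p)` over the walk (new minus lost pairs) -/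
noncomputable def JS (S : ℕ → Finset (Λ × Λ)) : ℕ → ℕ → Gp Λ κ → ℝ
  | 0, _, _ => 0
  | n + 1, p, g => if p = 0 then 0 else
      (PE (S (p - 1)) (gR p g) - PE (S p) (gR p g)) + JS S n p (gC p g) + JS S n (p - 1) (gR p g)

/-- **the telescoping of the energies of pair sets which depend on the column** -/
theorem tele_S (S : ℕ → Finset (Λ × Λ)) : ∀ (n p : ℕ) (g : Gp Λ κ), GOk g →
    GS (fun p g => CovP (S p) p g) n p g ≤ PE (S p) g + JS S n p g := by
  intro n
  induction n with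
  | zero =>
    intro p g hg
    have := PE_nonneg hg (S p)
    simp only [GS, JS]
    linarith
  | succ n ih =>
    intro p g hg
    have h0 := PE_nonneg hg (S p)
    unfold GS JS
    split_ifs with hp
    · linarith
    · have h1 := ih p _ (hg.gC (p := p))
      have h2 := ih (p - 1) _ (hg.gR (p := p))
      have h3 := PE_gB (p := p) hg (S p)
      have h4 := PE_split (p := p) hg (S p)
      linarith

/-- sum of the energies of the new pairs over the walk -/
noncomputable def NwS (S : ℕ → Finset (Λ × Λ)) : ℕ → ℕ → Gp Λ κ → ℝ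
  | 0, _, _ => 0
  | n + 1, p, g => if p = 0 then 0 else
      PE (S (p - 1) \ S p) (gR p g) + NwS S n p (gC p g) + NwS S n (p - 1) (gR p g)

/-- the jumps are at most the new pairs -/
theorem JS_le (S : ℕ → Finset (Λ × Λ)) : ∀ (n p : ℕ) (g : Gp Λ κ), GOk g →
    JS S n p g ≤ NwS S n p g := by
  intro n
  induction n with
  | zero => intro p g hg; exact le_rfl
  | succ n ih =>
    intro p g hg
    unfold JS NwS
    split_ifs with hp
    · exact le_rfl
    · have h1 := ih p _ (hg.gC (p := p))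
      have h2 := ih (p - 1) _ (hg.gR (p := p))
      have h3 : PE (S (p - 1)) (gR p g) ≤ PE (S (p - 1) \ S p) (gR p g) + PE (S p) (gR p g) := by
        refine PE_union_le (hg.gR (p := p)) ?_
        intro e he
        by_cases h : e ∈ S p
        · exact Finset.mem_union_right _ h
        · exact Finset.mem_union_left _ (Finset.mem_sdiff.2 ⟨he, h⟩)
      linarith

/-- the missing children at the column `p` are in the population `A p` -/
def PopN (A : ℕ → Finset Λ) : DT Λ κ → Prop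
  | .br p _ _ _ t₀ _ _ _ => ∀ j, (∃ y, t₀.g.val j y ≠ 0) → j ∈ A p
  | _ => True

/-- good nodes for Theorem A -/
structure AOk (wr : ℕ → Λ → κ) (A : ℕ → Finset Λ) (t : DT Λ κ) : Prop where
  nok : NOk t
  tp : TieP t
  im : IMean t
  wr : WrN wr t
  pop : PopN A t

lemma popN_of {A : ℕ → Finset Λ} {p : ℕ} {g : Gp Λ κ} (hb : ∀ m ∈ g, isB p m.2 = true)
    (h : ∀ m ∈ g, PopN A m.2) (j : Λ) (hj : NSg g j) : j ∈ A p := by
  obtain ⟨m, hm, h1⟩ := hj
  obtain ⟨w, r, t₁, t₀, v, B, G, e⟩ := isB_eq (hb m hm)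
  have h2 := h m hm
  rw [e] at h1 h2
  exact h2 j h1

lemma gOk_of {wr : ℕ → Λ → κ} {A : ℕ → Finset Λ} {g : Gp Λ κ} (hw : Wg g)
    (h : GAll (AOk wr A) g) : GOk g :=
  ⟨fun m hm => (hw m hm).1, fun m hm => (h m hm).mono fun _ h => h.im,
    fun m hm => (h m hm).mono fun _ h j => h.nok.2.pb j⟩

/-- **THEOREM A** (static-map telescoping): the costs of the group walk are bounded by the energy of
the pairs `SA (A p) (kd p)` of the start, the jumps of this energy, the second order term and the pairs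
which are in missing children at one column and have different `kd`. -/
theorem GW_le [WRel κ] (ix : ℕ → κ → ι) {wr : ℕ → Λ → κ} (A : ℕ → Finset Λ) (kd : ℕ → Λ → δ)
    (n p : ℕ) {g : Gp Λ κ} (hw : Wg g) (hA : GAll (AOk wr A) g) :
    GS (fun p g => I (fun x => ∑ z, ixF (ix p) (GmG g) z x ^ 2)) n p g ≤
      PE (SA (A p) (kd p)) g + JS (fun p => SA (A p) (kd p)) n p g + 4 * GS SN n p g +
        3 * GS (fun p g => PE (NNs (kd p) g) g) n p g := by
  have h1 := GS_monoF (F := AOk wr A)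
    (loc := fun p g => I (fun x => ∑ z, ixF (ix p) (GmG g) z x ^ 2))
    (loc' := fun p g => CovP (SA (A p) (kd p)) p g + (4 * SN p g + 3 * PE (NNs (kd p) g) g))
    (fun p g hp hw hF hb => by
      have hs : ∀ m ∈ g, AOk wr A m.2 := fun m hm => (hF m hm).self
      have := loc_le (ix := ix p) (wr := wr) (Nat.pos_of_ne_zero hp) hw (gOk_of hw hF)
        (fun m hm => (hs m hm).nok) (fun m hm => (hs m hm).tp) hb (fun m hm => (hs m hm).wr)
        (kd p) (A p) (fun j hj => popN_of hb (fun m hm => (hs m hm).pop) j hj)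
      linarith) n p g hw hA
  have h2 := GS_add (fun p (g : Gp Λ κ) => CovP (SA (A p) (kd p)) p g)
    (fun p g => 4 * SN p g + 3 * PE (NNs (kd p) g) g) n p g
  have h3 := GS_add (fun p (g : Gp Λ κ) => 4 * SN p g) (fun p g => 3 * PE (NNs (kd p) g) g) n p g
  have h4 := GS_smul 4 (fun p (g : Gp Λ κ) => SN p g) n p g
  have h5 := GS_smul 3 (fun p (g : Gp Λ κ) => PE (NNs (kd p) g) g) n p g
  have h6 := tele_S (fun p => SA (A p) (kd p)) n p g (gOk_of hw hA)
  rw [h2, h3, h4, h5] at h1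
  linarith

end tele

end Crest.Agent.R4P.ThA45
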