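import Crest.Agent.R4P.UU2_24

/-!
R4 (S0004), powers pass, helper24: **`UU2_24` without the class of the labelled pairs**: the hypothesis "one
side has no label" of `two_UU`, `rtUU`, `rtUU'` is replaced by "no pair is exact for super-accurate labels of
both centres" (`FF`, the third class of `classify_num`). The exact pairs are left to `UN2_24`.

* `two_UN`, **`rtUN`**, **`rtUN'`**.
-/

set_option autoImplicit false
set_option linter.unusedSectionVars false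
set_option linter.unusedVariables false
open Finset

namespace Crest.Agent.R4P.UN24

open Crest.Agent.R4.HVW560 Crest.Agent.R4.HVWX793
open Crest.Agent.R4.StopAsm709 Crest.Agent.R4.StopHvw709
open Crest.Agent.R4.Schur709
open Crest.Agent.R4.InX944
open Crest.Agent.R4.ClsS (eps1)
open Crest.Agent.R4.LF363 (Lab)
open Crest.Agent.R4.LF11 (DD ew)
open Crest.Agent.R4.Dich579 (FF)
open Crest.Agent.R4
open Crest.Agent.R4P.UU24 (sub_trX sum_trX DX DX_eq)

/-- **the pair is exact for super-accurate labels** of both centres -/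
def FX (η θ θ' : ℝ) (x y : ℕ) (r r' : ℝ) : Prop :=
  ∃ (t : ℝ) (ρ ρ' : ℚ), (2:ℝ)^400 ≤ t ∧ max ((y:ℝ) * (η * r)) ((x:ℝ) * (η * r')) ≤ 1/t ∧
    FF θ θ' t (η * r) (η * r') x y ρ ρ' ∧
    ∃ m m' : ℤ, ((m:ℝ) + ρ) * y = (m' + ρ') * x

set_option maxHeartbeats 1000000 in
/-- **same cell, two nodes, no exact pair, large cofactor or radius ratio** -/
theorem two_UN : ∃ C c0 : ℝ, 1 ≤ C ∧ 0 < c0 ∧ ∀ c1 : ℝ, 0 < c1 → c1 ≤ c0 → ∃ T0 : ℝ, 1 ≤ T0 ∧
    ∀ (X L η K θ θ' : ℝ) (n G : ℕ) (V W : Finset ℕ) (E : Finset (ℕ × ℕ)) (R R' : ℕ → ℝ)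
    (F : ℕ × ℕ → ℝ),
    400 ≤ n → T0 ≤ (2:ℝ)^n → X ≤ Real.exp (((2:ℝ)^n)^c1) → 0 < G →
    0 < η → η ≤ 1 → 0 < K → 0 ≤ L → E ⊆ V ×ˢ W →
    (∀ w ∈ V, 0 < w ∧ 0 < R w) → (∀ w ∈ W, 0 < w ∧ 0 < R' w) →
    (∀ w ∈ V, R w ≤ L * wt R w) → (∀ w ∈ W, R' w ≤ L * wt R' w) →
    (∀ z : ℝ, X ≤ z → ∀ w ∈ V, Crest.Agent.R4.ClsB.Tame z G w) →
    (∀ z : ℝ, X ≤ z → ∀ w ∈ W, Crest.Agent.R4.ClsB.Tame z G w) →
    (∀ e ∈ E, K ≤ (cof e.1 e.2 : ℕ) ∨ K ≤ (cof e.2 e.1 : ℕ) ∨ K * R e.1 ≤ R' e.2 ∨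
      K * R' e.2 ≤ R e.1) →
    (∀ e ∈ E, F e ≤ 2 * ((R e.1 * R' e.2) / DP R R' e) * (2 * η * DP R R' e + 1)) →
    (∀ e ∈ E, 0 < F e → ∃ m m' : ℤ,
      |(m + θ) * (cof e.2 e.1 : ℕ) - (m' + θ') * (cof e.1 e.2 : ℕ)| ≤ η * DP R R' e) →
    (∀ e ∈ E, 0 < F e → ¬ FX η θ θ' (cof e.1 e.2) (cof e.2 e.1) (R e.1) (R' e.2)) →
    ∑ e ∈ E, F e ≤
      6 * η * L^2 * ((∑ q ∈ V, wt R q) * (∑ r ∈ W, wt R' r)) +
      6 * L^2 * (n * (2 * KH 1 0 eps1 * (2:ℝ)^(2*eps1*n)) + C * ((2:ℝ)^n)^(-(1/1000):ℝ)) *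
        (η^(2*eps1) * ((∑ q ∈ V, wt R q) * (∑ r ∈ W, wt R' r))^(1/2+eps1)) +
      6 * (L / K) * (∑ q ∈ V, wt R q + ∑ r ∈ W, wt R' r) := by
  classical
  obtain ⟨C, c0, hC1, hc0, hC⟩ := ClsT2.deepHyp_Gen3
  refine ⟨C, c0, hC1, hc0, ?_⟩
  intro c1 hc1 hc10
  obtain ⟨T0, hT01, hT0⟩ := hC c1 hc1 hc10
  refine ⟨T0, hT01, ?_⟩
  intro X L η K θ θ' n G V W E R R' F hn hTn hX hG hη hη1 hK hL hES hV hW hLV hLW hVt hWt hbig hF
    hrel hU
  have he1 : eps1 = 1/1000 := rfl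
  have h2n : (0:ℝ) < (2:ℝ)^n := by positivity
  set Re : ℕ → ℝ := fun w => η * R w with hRe
  set Re' : ℕ → ℝ := fun w => η * R' w with hRe'
  set D : ℕ × ℕ → ℝ := DP Re Re' with hDdef
  have hDe : ∀ e, D e = η * DP R R' e := by
    intro e
    rw [hDdef]; unfold DP
    rw [mul_max_of_nonneg _ _ hη.le, hRe, hRe']
    congr 1 <;> ring
  have hDc : ∀ e, Dc ∅ ∅ Re Re' e = D e := fun e => Dc_empty Re Re' e
  have hmem : ∀ e ∈ E, e.1 ∈ V ∧ e.2 ∈ W := fun e he => Finset.mem_product.1 (hES he)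
  have hDpos0 : ∀ e ∈ E, 0 < DP R R' e := fun e he => DP_pos (hW _ (hmem e he).2).1 (hV _ (hmem e he).1).2
  have hDpos : ∀ e ∈ E, 0 < D e := fun e he => by rw [hDe]; exact mul_pos hη (hDpos0 e he)
  have hmuV : ∀ q ∈ V, 0 ≤ wt R q := fun q hq => by
    unfold wt; exact mul_nonneg (hV q hq).2.le (by positivity)
  have hmuW : ∀ q ∈ W, 0 ≤ wt R' q := fun q hq => by
    unfold wt; exact mul_nonneg (hW q hq).2.le (by positivity)
  have hMV0 := Finset.sum_nonneg hmuV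
  have hMW0 := Finset.sum_nonneg hmuW
  have hwe : ∀ q, wt Re q = η * wt R q := fun q => by unfold wt; rw [hRe]; ring
  have hwe' : ∀ q, wt Re' q = η * wt R' q := fun q => by unfold wt; rw [hRe']; ring
  have hsumV : ∑ q ∈ V, wt Re q = η * ∑ q ∈ V, wt R q := by
    rw [Finset.mul_sum]; exact Finset.sum_congr rfl fun q _ => hwe q
  have hsumW : ∑ q ∈ W, wt Re' q = η * ∑ q ∈ W, wt R' q := by
    rw [Finset.mul_sum]; exact Finset.sum_congr rfl fun q _ => hwe' q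
  have hsmuV : ∑ q ∈ V, mu ∅ Re q = η * ∑ q ∈ V, wt R q := by
    rw [← hsumV]; exact Finset.sum_congr rfl fun q _ => mu_empty Re q
  have hsmuW : ∑ q ∈ W, mu ∅ Re' q = η * ∑ q ∈ W, wt R' q := by
    rw [← hsumW]; exact Finset.sum_congr rfl fun q _ => mu_empty Re' q
  -- bounds
  have hF6 : ∀ e ∈ E, D e ≤ 1 → F e ≤ 6 * ((R e.1 * R' e.2) / DP R R' e) := by
    intro e he hD1
    rw [hDe] at hD1
    have hD := hDpos0 e he
    have hR := (hV _ (hmem e he).1).2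
    have hR' := (hW _ (hmem e he).2).2
    calc F e ≤ 2 * ((R e.1 * R' e.2) / DP R R' e) * (2 * η * DP R R' e + 1) := hF e he
      _ ≤ 2 * ((R e.1 * R' e.2) / DP R R' e) * 3 := by
          apply mul_le_mul_of_nonneg_left _ (by positivity)
          nlinarith
      _ = _ := by ring
  have hRR : ∀ e ∈ E, R e.1 * R' e.2 ≤ L^2 * (wt R e.1 * wt R' e.2) := by
    intro e he
    have h1 := hLV _ (hmem e he).1
    have h2 := hLW _ (hmem e he).2
    have h5 : 0 ≤ L * wt R e.1 := (hV _ (hmem e he).1).2.le.trans h1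
    calc R e.1 * R' e.2 ≤ (L * wt R e.1) * (L * wt R' e.2) :=
          mul_le_mul h1 h2 (hW _ (hmem e he).2).2.le h5
      _ = _ := by ring
  have hFmu : ∀ e ∈ E, D e ≤ 1 → F e ≤ (6/η) * L^2 * ((wt Re e.1 * wt Re' e.2) / D e) := by
    intro e he hD1
    have hD := hDpos0 e he
    calc F e ≤ 6 * ((R e.1 * R' e.2) / DP R R' e) := hF6 e he hD1
      _ ≤ 6 * ((L^2 * (wt R e.1 * wt R' e.2)) / DP R R' e) :=
          mul_le_mul_of_nonneg_left (div_le_div_of_nonneg_right (hRR e he) hD.le) (by norm_num)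
      _ = _ := by rw [hDe, hwe, hwe']; field_simp
  set PA : ℕ × ℕ → Prop := fun e => AltS n θ θ' (cof e.1 e.2) (cof e.2 e.1) (Re e.1) (Re' e.2) with hPA
  set PE : ℕ × ℕ → Prop := fun e => ES θ θ' (cof e.1 e.2) (cof e.2 e.1) (Re e.1) (Re' e.2) with hPE
  set P1 : ℕ × ℕ → Prop := fun e => K ≤ (cof e.1 e.2 : ℕ) ∨ K * R' e.2 ≤ R e.1 with hP1
  set EN := E.filter (fun e => D e ≤ 1) with hEN
  set EM := E.filter (fun e => ¬ D e ≤ 1) with hEM
  set EY := EN.filter (fun e => (1/2:ℝ)^n < D e) with hEY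
  set EX' := EN.filter (fun e => ¬ (1/2:ℝ)^n < D e) with hEX'
  set EG' := EX'.filter (fun e => PA e) with hEG'
  set EH := EX'.filter (fun e => ¬ PA e) with hEH
  set EE := EH.filter (fun e => PE e) with hEE
  set ER := EH.filter (fun e => ¬ PE e) with hER
  set E1 := EE.filter (fun e => P1 e) with hE1
  set E2 := EE.filter (fun e => ¬ P1 e) with hE2
  have hsplit : ∑ e ∈ E, F e = (∑ e ∈ EY, F e +
      (∑ e ∈ EG', F e + ((∑ e ∈ E1, F e + ∑ e ∈ E2, F e) + ∑ e ∈ ER, F e))) + ∑ e ∈ EM, F e := by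
    rw [hE1, hE2, Finset.sum_filter_add_sum_filter_not, hEE, hER,
      Finset.sum_filter_add_sum_filter_not, hEG', hEH,
      Finset.sum_filter_add_sum_filter_not, hEY, hEX', Finset.sum_filter_add_sum_filter_not, hEN,
      hEM, Finset.sum_filter_add_sum_filter_not]
  have hENP : ∀ e ∈ EN, e ∈ E ∧ D e ≤ 1 := fun e he => Finset.mem_filter.1 he
  have hEYP : ∀ e ∈ EY, e ∈ EN := fun e he => (Finset.mem_filter.1 he).1
  have hEXP : ∀ e ∈ EX', e ∈ EN := fun e he => (Finset.mem_filter.1 he).1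
  have hEGP : ∀ e ∈ EG', e ∈ EX' := fun e he => (Finset.mem_filter.1 he).1
  have hEHP : ∀ e ∈ EH, e ∈ EX' := fun e he => (Finset.mem_filter.1 he).1
  have hEEP : ∀ e ∈ EE, e ∈ EH := fun e he => (Finset.mem_filter.1 he).1
  have hERP : ∀ e ∈ ER, e ∈ EH := fun e he => (Finset.mem_filter.1 he).1
  have hE1P : ∀ e ∈ E1, e ∈ EE := fun e he => (Finset.mem_filter.1 he).1
  have hE2P : ∀ e ∈ E2, e ∈ EE := fun e he => (Finset.mem_filter.1 he).1
  have hpow : (1/2:ℝ)^n = 1/2^n := by rw [div_pow, one_pow]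
  have hEXD : ∀ e ∈ EX', D e ≤ 1/2^n := by
    intro e he
    have := not_lt.1 (Finset.mem_filter.1 he).2
    rw [hpow] at this
    exact this
  have hOe : ∀ p ∈ (∅ : Finset ℕ), p.Prime ∧ 0 ≤ p := fun p hp => absurd hp (Finset.notMem_empty p)
  have hVe : ∀ w ∈ V, 0 < w ∧ 0 < Re w := fun w hw => ⟨(hV w hw).1, mul_pos hη (hV w hw).2⟩
  have hWe : ∀ w ∈ W, 0 < w ∧ 0 < Re' w := fun w hw => ⟨(hW w hw).1, mul_pos hη (hW w hw).2⟩
  -- dyadic part
  have boundY := mid_dyadic (ε := eps1) (by rw [he1]; norm_num) (by rw [he1]; norm_num) (N := 0)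
    (O := ∅) (O' := ∅) (V := V) (W := W) (R := Re) (R' := Re') hOe hOe hVe hWe (c := 0) (c' := 0)
    (fun r _ => by simp) (fun r _ => by simp) (K := (6/η) * L^2) (by positivity) (F := F) n EY
    (fun e he => hES (hENP e (hEYP e he)).1)
    (fun e he => by rw [hDc]; exact (hENP e (hEYP e he)).2)
    (fun e he => by rw [hDc]; exact (Finset.mem_filter.1 he).2)
    (fun e he => by
      rw [hDc, mu_empty, mu_empty]
      exact hFmu e (hENP e (hEYP e he)).1 (hENP e (hEYP e he)).2)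
  -- deep part
  have hDD : ∀ e, DD Re Re' e = D e := fun e => by unfold DD; rfl
  have boundG := hT0 θ θ' ((2:ℝ)^n) X ((6/η) * L^2) V W EG' Re Re' F G hTn hX (by positivity) hG hVe hWe
    hVt hWt (fun e he => hES (hENP e (hEXP e (hEGP e he))).1)
    (fun e he => by rw [hDD]; exact hEXD e (hEGP e he))
    (fun e he => by
      rw [hDD]
      have h := hENP e (hEXP e (hEGP e he))
      refine (hFmu e h.1 h.2).trans ?_
      apply mul_le_mul_of_nonneg_left _ (by positivity)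
      apply div_le_div_of_nonneg_right _ (hDpos e h.1).le
      unfold ew
      have f1 := Crest.Agent.R4.ClsS.one_le_Af (cof e.1 e.2)
      have f2 := Crest.Agent.R4.ClsS.one_le_Af (cof e.2 e.1)
      have f4 : 0 ≤ wt Re e.1 * wt Re' e.2 := by
        rw [hwe, hwe']
        exact mul_nonneg (mul_nonneg hη.le (hmuV _ (hmem e h.1).1)) (mul_nonneg hη.le (hmuW _ (hmem e h.1).2))
      exact le_mul_of_one_le_right f4 (by nlinarith))
    (by
      intro e he t ht h1 h2 hFe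
      rw [hDD] at h1 h2
      obtain ⟨m, m', hm⟩ := hrel e (hENP e (hEXP e (hEGP e he))).1 hFe
      refine gen3_of (m := m) (m' := m') ?_ (Finset.mem_filter.1 he).2 ht h1 h2
      have h3 : max ((cof e.2 e.1 : ℝ) * Re e.1) ((cof e.1 e.2 : ℝ) * Re' e.2) = D e := rfl
      rw [h3, hDe]
      have h4 : 0 < η * DP R R' e := mul_pos hη (hDpos0 e (hENP e (hEXP e (hEGP e he))).1)
      linarith)
  -- the partner parts
  have hEpair : ∀ e ∈ EE, Dich579.EPair (fun t => t^(1/20:ℝ)) θ θ' Re Re' e.1 e.2 := by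
    intro e he
    exact (Finset.mem_filter.1 he).2
  have boundE1 : ∑ e ∈ E1, F e ≤ 6 * (L / K) * ∑ q ∈ V, wt R q := by
    have hinj : Set.InjOn Prod.fst (E1 : Set (ℕ × ℕ)) := by
      intro e he f hf h1
      have ae := hEpair e (hE1P e (Finset.mem_coe.1 he))
      have af := hEpair f (hE1P f (Finset.mem_coe.1 hf))
      rw [← h1] at af
      exact Prod.ext h1 (Dich579.partner ae af)
    have hone : ∀ e ∈ E1, F e ≤ 6 * (L / K) * wt R e.1 := by
      intro e he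
      have heN := hENP e (hEXP e (hEHP e (hEEP e (hE1P e he))))
      have h := hmem e heN.1
      have hR' := (hW _ h.2).2
      have hR := (hV _ h.1).2
      have hD0 := hDpos0 e heN.1
      have hDx : (R e.1 * R' e.2) / DP R R' e ≤ R e.1 / K := by
        rw [div_le_div_iff₀ hD0 hK]
        rcases (Finset.mem_filter.1 he).2 with hx | hx
        · have h1 : K * R' e.2 ≤ DP R R' e :=
            (mul_le_mul_of_nonneg_right hx hR'.le).trans (le_max_right _ _)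
          calc R e.1 * R' e.2 * K = R e.1 * (K * R' e.2) := by ring
            _ ≤ R e.1 * DP R R' e := mul_le_mul_of_nonneg_left h1 hR.le
        · have hc : (1:ℝ) ≤ (cof e.2 e.1 : ℕ) := by
            exact_mod_cast (cof_pos (hW _ h.2).1 : 0 < cof e.2 e.1)
          have h1 : R e.1 ≤ DP R R' e := by
            calc R e.1 = 1 * R e.1 := (one_mul _).symm
              _ ≤ (cof e.2 e.1 : ℕ) * R e.1 := mul_le_mul_of_nonneg_right hc hR.le
              _ ≤ DP R R' e := le_max_left _ _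
          calc R e.1 * R' e.2 * K = R e.1 * (K * R' e.2) := by ring
            _ ≤ R e.1 * R e.1 := mul_le_mul_of_nonneg_left hx hR.le
            _ ≤ R e.1 * DP R R' e := mul_le_mul_of_nonneg_left h1 hR.le
      calc F e ≤ 6 * ((R e.1 * R' e.2) / DP R R' e) := hF6 e heN.1 heN.2
        _ ≤ 6 * (R e.1 / K) := mul_le_mul_of_nonneg_left hDx (by norm_num)
        _ ≤ 6 * ((L * wt R e.1) / K) :=
            mul_le_mul_of_nonneg_left (div_le_div_of_nonneg_right (hLV _ h.1) hK.le) (by norm_num)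
        _ = _ := by ring
    calc ∑ e ∈ E1, F e ≤ ∑ e ∈ E1, 6 * (L / K) * wt R e.1 := Finset.sum_le_sum hone
      _ = ∑ q ∈ E1.image Prod.fst, 6 * (L / K) * wt R q := by rw [Finset.sum_image hinj]
      _ ≤ ∑ q ∈ V, 6 * (L / K) * wt R q := by
          apply Finset.sum_le_sum_of_subset_of_nonneg
          · intro q hq
            obtain ⟨e, he, rfl⟩ := Finset.mem_image.1 hq
            exact (hmem e (hENP e (hEXP e (hEHP e (hEEP e (hE1P e he))))).1).1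
          · intro q hq _
            have := hmuV q hq
            positivity
      _ = _ := by rw [Finset.mul_sum]
  have boundE2 : ∑ e ∈ E2, F e ≤ 6 * (L / K) * ∑ q ∈ W, wt R' q := by
    have hinj : Set.InjOn Prod.snd (E2 : Set (ℕ × ℕ)) := by
      intro e he f hf h1
      have ae := hEpair e (hE2P e (Finset.mem_coe.1 he))
      have af := hEpair f (hE2P f (Finset.mem_coe.1 hf))
      rw [← h1] at af
      exact Prod.ext (Dich579.partner' ae af) h1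
    have hone : ∀ e ∈ E2, F e ≤ 6 * (L / K) * wt R' e.2 := by
      intro e he
      have heN := hENP e (hEXP e (hEHP e (hEEP e (hE2P e he))))
      have h := hmem e heN.1
      have hn1 : ¬ (K ≤ (cof e.1 e.2 : ℕ) ∨ K * R' e.2 ≤ R e.1) := (Finset.mem_filter.1 he).2
      have hy : K ≤ (cof e.2 e.1 : ℕ) ∨ K * R e.1 ≤ R' e.2 := by
        rcases hbig e heN.1 with h3 | h3 | h3 | h3
        · exact absurd (Or.inl h3) hn1
        · exact Or.inl h3
        · exact Or.inr h3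
        · exact absurd (Or.inr h3) hn1
      have hR' := (hW _ h.2).2
      have hR := (hV _ h.1).2
      have hD0 := hDpos0 e heN.1
      have hDx : (R e.1 * R' e.2) / DP R R' e ≤ R' e.2 / K := by
        rw [div_le_div_iff₀ hD0 hK]
        rcases hy with hx | hx
        · have h1 : K * R e.1 ≤ DP R R' e :=
            (mul_le_mul_of_nonneg_right hx hR.le).trans (le_max_left _ _)
          calc R e.1 * R' e.2 * K = R' e.2 * (K * R e.1) := by ring
            _ ≤ R' e.2 * DP R R' e := mul_le_mul_of_nonneg_left h1 hR'.le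
        · have hc : (1:ℝ) ≤ (cof e.1 e.2 : ℕ) := by
            exact_mod_cast (cof_pos (hV _ h.1).1 : 0 < cof e.1 e.2)
          have h1 : R' e.2 ≤ DP R R' e := by
            calc R' e.2 = 1 * R' e.2 := (one_mul _).symm
              _ ≤ (cof e.1 e.2 : ℕ) * R' e.2 := mul_le_mul_of_nonneg_right hc hR'.le
              _ ≤ DP R R' e := le_max_right _ _
          calc R e.1 * R' e.2 * K = R' e.2 * (K * R e.1) := by ring
            _ ≤ R' e.2 * R' e.2 := mul_le_mul_of_nonneg_left hx hR'.le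
            _ ≤ R' e.2 * DP R R' e := mul_le_mul_of_nonneg_left h1 hR'.le
      calc F e ≤ 6 * ((R e.1 * R' e.2) / DP R R' e) := hF6 e heN.1 heN.2
        _ ≤ 6 * (R' e.2 / K) := mul_le_mul_of_nonneg_left hDx (by norm_num)
        _ ≤ 6 * ((L * wt R' e.2) / K) :=
            mul_le_mul_of_nonneg_left (div_le_div_of_nonneg_right (hLW _ h.2) hK.le) (by norm_num)
        _ = _ := by ring
    calc ∑ e ∈ E2, F e ≤ ∑ e ∈ E2, 6 * (L / K) * wt R' e.2 := Finset.sum_le_sum hone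
      _ = ∑ q ∈ E2.image Prod.snd, 6 * (L / K) * wt R' q := by rw [Finset.sum_image hinj]
      _ ≤ ∑ q ∈ W, 6 * (L / K) * wt R' q := by
          apply Finset.sum_le_sum_of_subset_of_nonneg
          · intro q hq
            obtain ⟨e, he, rfl⟩ := Finset.mem_image.1 hq
            exact (hmem e (hENP e (hEXP e (hEHP e (hEEP e (hE2P e he))))).1).2
          · intro q hq _
            have := hmuW q hq
            positivity
      _ = _ := by rw [Finset.mul_sum]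
  -- the rest is not positive
  have boundR : ∑ e ∈ ER, F e ≤ 0 := by
    refine Finset.sum_nonpos fun e he => ?_
    by_contra hpos
    push Not at hpos
    have heX := hEHP e (hERP e he)
    have heP := (hENP e (hEXP e heX)).1
    have h := hmem e heP
    obtain ⟨m, m', hm⟩ := hrel e heP hpos
    have hcl := classify_num hn (θ := θ) (θ' := θ') (x := cof e.1 e.2)
      (y := cof e.2 e.1) (r := Re e.1) (r' := Re' e.2) (m := m) (m' := m')
      (cof_pos (hV _ h.1).1) (cof_pos (hW _ h.2).1) (hVe _ h.1).2 (hWe _ h.2).2 (by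
        have h3 : max ((cof e.2 e.1 : ℝ) * Re e.1) ((cof e.1 e.2 : ℝ) * Re' e.2) = D e := rfl
        rw [h3, hDe]
        have h4 : 0 < η * DP R R' e := mul_pos hη (hDpos0 e heP)
        linarith)
    rcases hcl with h3 | h3 | h3
    · exact (Finset.mem_filter.1 (hERP e he)).2 h3
    · exact (Finset.mem_filter.1 he).2 h3
    · obtain ⟨t, m1, m1', ρ, ρ', ht, -, hDt, -, hFF, hex⟩ := h3
      have ht400 : (2:ℝ)^400 ≤ t := le_trans (pow_le_pow_right₀ (by norm_num) hn) ht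
      exact hU e heP hpos ⟨t, ρ, ρ', ht400, hDt, hFF, m1, m1', hex⟩
  -- generic part
  have boundM : ∑ e ∈ EM, F e ≤ 6 * η * L^2 * ((∑ q ∈ V, wt R q) * (∑ r ∈ W, wt R' r)) := by
    have h1 : ∀ e ∈ EM, F e ≤ 6 * η * L^2 * (wt R e.1 * wt R' e.2) := by
      intro e he
      obtain ⟨heP, hD1⟩ := Finset.mem_filter.1 he
      rw [hDe] at hD1
      have hD1' := (not_le.1 hD1).le
      have hD := hDpos0 e heP
      have h := hmem e heP
      have hR := (hV _ h.1).2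
      have hR' := (hW _ h.2).2
      calc F e ≤ 2 * ((R e.1 * R' e.2) / DP R R' e) * (2 * η * DP R R' e + 1) := hF e heP
        _ ≤ 2 * ((R e.1 * R' e.2) / DP R R' e) * (3 * (η * DP R R' e)) := by
            apply mul_le_mul_of_nonneg_left _ (by positivity)
            linarith
        _ = 6 * η * (R e.1 * R' e.2) := by field_simp; ring
        _ ≤ 6 * η * (L^2 * (wt R e.1 * wt R' e.2)) :=
            mul_le_mul_of_nonneg_left (hRR e heP) (by positivity)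
        _ = _ := by ring
    calc ∑ e ∈ EM, F e ≤ ∑ e ∈ EM, 6 * η * L^2 * (wt R e.1 * wt R' e.2) := Finset.sum_le_sum h1
      _ ≤ ∑ e ∈ V ×ˢ W, 6 * η * L^2 * (wt R e.1 * wt R' e.2) := by
          apply Finset.sum_le_sum_of_subset_of_nonneg
            ((Finset.filter_subset _ _).trans hES)
          intro e he _
          have h := Finset.mem_product.1 he
          have := hmuV _ h.1
          have := hmuW _ h.2
          positivity
      _ = _ := by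
          rw [← Finset.mul_sum, Finset.sum_product, Finset.sum_mul_sum]
  rw [hsmuV, hsmuW] at boundY
  rw [hsumV, hsumW] at boundG
  set M := ∑ q ∈ V, wt R q with hM
  set M' := ∑ q ∈ W, wt R' q with hM'
  have z1 : Real.exp ((1/2-eps1) * (-(((0:ℕ):ℝ) * 0) + 3 * (∑ p ∈ (∅ : Finset ℕ), 1/(p:ℝ)) +
      (-(((0:ℕ):ℝ) * 0) + 3 * ∑ p ∈ (∅ : Finset ℕ), 1/(p:ℝ)))) = 1 := by
    simp
  rw [z1] at boundY
  have e3 : (η * M * (η * M'))^(1/2+eps1) = η * (η^(2*eps1) * (M * M')^(1/2+eps1)) := by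
    have h1 : η * M * (η * M') = η^(2:ℝ) * (M * M') := by
      rw [Real.rpow_two]; ring
    rw [h1, Real.mul_rpow (by positivity) (mul_nonneg hMV0 hMW0), ← Real.rpow_mul hη.le]
    have h2 : (2:ℝ) * (1/2+eps1) = 1 + 2 * eps1 := by ring
    rw [h2, Real.rpow_add hη, Real.rpow_one]
    ring
  rw [e3] at boundY boundG
  rw [hsplit]
  set Y1 := η^(2*eps1) * (M * M')^(1/2+eps1) with hY1
  have hfin : 6 * L^2 * (n * (2 * KH 1 0 eps1 * (2:ℝ)^(2*eps1*n)) + C * ((2:ℝ)^n)^(-(1/1000):ℝ)) * Y1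
      = n * (2 * ((6/η) * L^2) * KH 1 0 eps1 * (2:ℝ)^(2*eps1*n)) * (1 * (η * Y1)) +
        C * ((6/η) * L^2) * ((2:ℝ)^n)^(-(1/1000):ℝ) * (η * Y1) := by
    field_simp
  rw [hfin]
  have e5 : 6 * (L / K) * (M + M') = 6 * (L / K) * M + 6 * (L / K) * M' := by ring
  rw [e5]
  linarith

set_option maxHeartbeats 1000000 in
/-- **same cell, two nodes, no exact pair**: numbers with a rate, `K` = lower bound of the cofactors
or of the radius ratio -/
theorem rtUN (CL C2 s : ℝ) (hCL : 0 ≤ CL) (hC2 : 0 ≤ C2) :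
    ∃ p₁ : ℕ, ∀ p : ℕ, p₁ ≤ p →
    ∀ (η K θ θ' : ℝ) (V W : Finset ℕ) (E : Finset (ℕ × ℕ)) (R R' : ℕ → ℝ) (F : ℕ × ℕ → ℝ),
    0 < η → η ≤ Real.exp (-(Real.log p ^ (4/5:ℝ))) → 0 < K → E ⊆ V ×ˢ W →
    (∀ w ∈ V, 0 < w ∧ 0 < R w) → (∀ w ∈ W, 0 < w ∧ 0 < R' w) →
    (∀ w ∈ V, R w ≤ CL * Real.log p * wt R w) → (∀ w ∈ W, R' w ≤ CL * Real.log p * wt R' w) →
    (∀ z : ℝ, ((2 * p : ℕ):ℝ)^2 ≤ z → ∀ w ∈ V, Crest.Agent.R4.ClsB.Tame z 1 w) →
    (∀ z : ℝ, ((2 * p : ℕ):ℝ)^2 ≤ z → ∀ w ∈ W, Crest.Agent.R4.ClsB.Tame z 1 w) →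
    ∑ w ∈ V, wt R w ≤ Real.log p ^ C2 → ∑ w ∈ W, wt R' w ≤ Real.log p ^ C2 →
    (∀ e ∈ E, K ≤ (cof e.1 e.2 : ℕ) ∨ K ≤ (cof e.2 e.1 : ℕ) ∨ K * R e.1 ≤ R' e.2 ∨
      K * R' e.2 ≤ R e.1) →
    (∀ e ∈ E, F e ≤ 2 * ((R e.1 * R' e.2) / DP R R' e) * (2 * η * DP R R' e + 1)) →
    (∀ e ∈ E, 0 < F e → ∃ m m' : ℤ,
      |(m + θ) * (cof e.2 e.1 : ℕ) - (m' + θ') * (cof e.1 e.2 : ℕ)| ≤ η * DP R R' e) →
    (∀ e ∈ E, 0 < F e → ¬ FX η θ θ' (cof e.1 e.2) (cof e.2 e.1) (R e.1) (R' e.2)) →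
    ∑ e ∈ E, F e ≤ (Real.log p ^ (-s) + 6 * (CL * Real.log p / K)) *
      (∑ w ∈ V, wt R w + ∑ w ∈ W, wt R' w) := by
  classical
  obtain ⟨C, c0, hC1, hc0, H⟩ := two_UN
  obtain ⟨T0, hT01, H⟩ := H c0 hc0 le_rfl
  have hKH := (KH_pos 1 0 eps1).le
  obtain ⟨pa, hpa⟩ := RseN207.exists_scale (c1 := c0) (T0 := T0) hc0
  obtain ⟨pb, hpb⟩ := RseN207.log_large 1
  obtain ⟨p1, hp1⟩ := RtN28.small_s (6 * CL^2) (2 + C2) s (δ := 1/4) (by positivity)
  obtain ⟨p2, hp2⟩ := RtN28.small_s (2 * (6 * CL^2 * (2 * KH 1 0 eps1 + C) * (2 * 4^(1/c0))^2))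
    (2 + 2/c0 + C2) s (δ := 1/4) (by positivity)
  refine ⟨pa + pb + p1 + p2 + 3, fun p hp => ?_⟩
  obtain ⟨n, hn400, hnT, hnX, hnU⟩ := hpa (2 * p) (by omega)
  intro η K θ θ' V W E R R' F hη hη1 hK hES hV hW hLV hLW hVt hWt hMV hMW hbig hF hrel hU
  have hl1 := hpb p (by omega)
  set ℓ := Real.log (p:ℝ) with hℓ
  have hℓ0 : 0 < ℓ := by linarith
  have hpN : 0 < p := by omega
  have hp0 : (0:ℝ) < p := by exact_mod_cast hpN
  set κ : ℝ := ℓ ^ (-s) with hκd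
  have hκ : 0 < κ := Real.rpow_pos_of_pos hℓ0 _
  set L := CL * ℓ with hL
  have hL0 : 0 ≤ L := by positivity
  set M := ∑ w ∈ V, wt R w with hM
  set M' := ∑ w ∈ W, wt R' w with hM'
  have hM0 : 0 ≤ M := Finset.sum_nonneg fun q hq => by
    unfold wt; exact mul_nonneg (hV q hq).2.le (by positivity)
  have hM0' : 0 ≤ M' := Finset.sum_nonneg fun q hq => by
    unfold wt; exact mul_nonneg (hW q hq).2.le (by positivity)
  set S := M + M' with hS
  have hS0 : 0 ≤ S := by positivity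
  have hlC : 1 ≤ ℓ^C2 := Real.one_le_rpow hl1 hC2
  have hSb : S ≤ 2 * ℓ^C2 := by linarith
  have hMC : ∀ x : ℝ, 0 ≤ x → x ≤ 1 → S^(1+x) ≤ S * (2 * ℓ^C2) := by
    intro x hx0 hx1
    rcases hS0.eq_or_lt with h0 | h0
    · rw [← h0, Real.zero_rpow (by linarith)]; simp
    · rw [Real.rpow_add h0, Real.rpow_one]
      apply mul_le_mul_of_nonneg_left _ hS0
      calc S^x ≤ (2 * ℓ^C2)^x := Real.rpow_le_rpow hS0 hSb hx0
        _ ≤ (2 * ℓ^C2)^(1:ℝ) := Real.rpow_le_rpow_of_exponent_le (by linarith) hx1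
        _ = 2 * ℓ^C2 := Real.rpow_one _
  set Y := Real.exp (-(1/500) * ℓ^(4/5:ℝ)) with hY
  have hY0 : 0 < Y := Real.exp_pos _
  have hx45 : 0 ≤ ℓ^(4/5:ℝ) := by positivity
  have hηY : η ≤ Y := hη1.trans (Real.exp_le_exp.2 (by nlinarith))
  have hη_one : η ≤ 1 := by
    refine hη1.trans ?_
    rw [Real.exp_le_one_iff]
    linarith
  have hηe : η^(2*eps1) ≤ Y := by
    have he1 : eps1 = 1/1000 := rfl
    calc η^(2*eps1) ≤ (Real.exp (-(ℓ^(4/5:ℝ))))^(2*eps1) :=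
          Real.rpow_le_rpow hη.le hη1 (by rw [he1]; norm_num)
      _ = Real.exp (-(ℓ^(4/5:ℝ)) * (2*eps1)) := by rw [← Real.exp_mul]
      _ = Y := by rw [hY, he1]; congr 1; ring
  have bG := H (((2 * p : ℕ):ℝ)^2) L η K θ θ' n 1 V W E R R' F hn400 hnT hnX one_pos hη hη_one hK hL0
    hES hV hW hLV hLW hVt hWt hbig hF hrel hU
  -- term 1
  have t1 : 6 * η * L^2 * (M * M') ≤ 1/4 * κ * S := by
    have h := hp1 p (by omega)
    have h1 : M * M' ≤ ℓ^C2 * S := by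
      calc M * M' ≤ ℓ^C2 * M' := mul_le_mul_of_nonneg_right hMV hM0'
        _ ≤ ℓ^C2 * S := mul_le_mul_of_nonneg_left (by rw [hS]; linarith) (by linarith)
    calc 6 * η * L^2 * (M * M') ≤ 6 * Y * L^2 * (ℓ^C2 * S) := by gcongr
      _ = (6 * CL^2) * (ℓ^(2:ℝ) * ℓ^C2) * Y * S := by rw [hL, Real.rpow_two]; ring
      _ = (6 * CL^2) * ℓ^(2 + C2) * Y * S := by rw [Real.rpow_add hℓ0]
      _ ≤ 1/4 * κ * S := mul_le_mul_of_nonneg_right h hS0
  -- term 2
  have hn2 : (n:ℝ) ≤ (2:ℝ)^n := by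
    exact_mod_cast (Nat.lt_two_pow_self (n := n)).le
  set T := (2:ℝ)^n with hT
  have hT1 : 1 ≤ T := one_le_pow₀ (by norm_num)
  have hTT : (2:ℝ)^(2*eps1*n) ≤ T := by
    have he1 : eps1 = 1/1000 := rfl
    rw [hT, ← Real.rpow_natCast]
    apply Real.rpow_le_rpow_of_exponent_le (by norm_num)
    rw [he1]
    have : (0:ℝ) ≤ n := Nat.cast_nonneg _
    linarith
  have hTC : T^(-(1/1000):ℝ) ≤ 1 := Real.rpow_le_one_of_one_le_of_nonpos hT1 (by norm_num)
  have hB : n * (2 * KH 1 0 eps1 * (2:ℝ)^(2*eps1*n)) + C * T^(-(1/1000):ℝ) ≤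
      (2 * KH 1 0 eps1 + C) * T^2 := by
    have h1 : n * (2 * KH 1 0 eps1 * (2:ℝ)^(2*eps1*n)) ≤ T * (2 * KH 1 0 eps1 * T) := by
      gcongr
    have h2 : C * T^(-(1/1000):ℝ) ≤ C * T^2 := by
      apply mul_le_mul_of_nonneg_left _ (by linarith)
      nlinarith
    nlinarith
  have hl2p : Real.log ((2 * p : ℕ):ℝ) ≤ 2 * ℓ := by
    have h2 : (2:ℝ) ≤ p := by
      have : 2 ≤ p := by omega
      exact_mod_cast this
    have h5 : ((2 * p : ℕ) : ℝ) ≤ (p : ℝ) ^ 2 := by push_cast; nlinarith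
    have h6 : (0 : ℝ) < ((2 * p : ℕ) : ℝ) := by push_cast; linarith
    have h7 := Real.log_le_log h6 h5
    rw [Real.log_pow] at h7
    exact_mod_cast h7
  have hl2p0 : 0 ≤ Real.log ((2 * p : ℕ):ℝ) := Real.log_nonneg (by exact_mod_cast (by omega : 1 ≤ 2 * p))
  have hT2 : T^2 ≤ (2 * 4^(1/c0))^2 * ℓ^(2/c0) := by
    have hU2 : T ≤ 2 * (4*ℓ)^(1/c0) := by
      refine hnU.trans ?_
      refine mul_le_mul_of_nonneg_left ?_ (by norm_num)
      exact Real.rpow_le_rpow (by positivity) (by linarith) (by positivity)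
    calc T^2 ≤ (2 * (4*ℓ)^(1/c0))^2 := pow_le_pow_left₀ (by positivity) hU2 2
      _ = (2 * 4^(1/c0))^2 * (ℓ^(1/c0) * ℓ^(1/c0)) := by
          rw [Real.mul_rpow (by norm_num) hℓ0.le]; ring
      _ = _ := by
          rw [← Real.rpow_add hℓ0]
          congr 2
          ring
  have t2 : 6 * L^2 * (n * (2 * KH 1 0 eps1 * (2:ℝ)^(2*eps1*n)) +
        C * T^(-(1/1000):ℝ)) * (η^(2*eps1) * (M * M')^(1/2+eps1)) ≤ 1/4 * κ * S := by
    have h := hp2 p (by omega)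
    have he1 : eps1 = 1/1000 := rfl
    have h1 : (M * M')^(1/2+eps1) ≤ S * (2 * ℓ^C2) := by
      have e1 : (S * S)^(1/2+eps1) = S^(1+2*eps1) := by
        rw [← sq, ← Real.rpow_natCast S 2, ← Real.rpow_mul hS0]
        congr 1
        push_cast
        ring
      have e2 : (M * M')^(1/2+eps1) ≤ (S * S)^(1/2+eps1) := by
        apply Real.rpow_le_rpow (by positivity) _ (by rw [he1]; norm_num)
        apply mul_le_mul _ _ hM0' hS0
        · rw [hS]; linarith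
        · rw [hS]; linarith
      refine e2.trans ?_
      rw [e1]
      exact hMC (2*eps1) (by rw [he1]; norm_num) (by rw [he1]; norm_num)
    have h0 : 0 ≤ (M * M')^(1/2+eps1) := by positivity
    have hηp' : 0 ≤ η^(2*eps1) := by positivity
    calc 6 * L^2 * (n * (2 * KH 1 0 eps1 * (2:ℝ)^(2*eps1*n)) +
          C * T^(-(1/1000):ℝ)) * (η^(2*eps1) * (M * M')^(1/2+eps1))
        ≤ 6 * L^2 * ((2 * KH 1 0 eps1 + C) * ((2 * 4^(1/c0))^2 * ℓ^(2/c0))) *
          (Y * (S * (2 * ℓ^C2))) := by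
          have h2 := hB.trans (mul_le_mul_of_nonneg_left hT2 (by linarith : 0 ≤ 2 * KH 1 0 eps1 + C))
          gcongr
      _ = (2 * (6 * CL^2 * (2 * KH 1 0 eps1 + C) * (2 * 4^(1/c0))^2)) *
          (ℓ^(2:ℝ) * ℓ^(2/c0) * ℓ^C2) * Y * S := by
          rw [hL, Real.rpow_two]; ring
      _ = (2 * (6 * CL^2 * (2 * KH 1 0 eps1 + C) * (2 * 4^(1/c0))^2)) *
          ℓ^(2 + 2/c0 + C2) * Y * S := by
          rw [← Real.rpow_add hℓ0, ← Real.rpow_add hℓ0]
      _ ≤ 1/4 * κ * S := mul_le_mul_of_nonneg_right h hS0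
  have hκM := mul_nonneg hκ.le hS0
  have e9 : (κ + 6 * (L / K)) * S = κ * S + 6 * (L / K) * S := by ring
  rw [e9]
  linarith

/-! ### item coordinates -/

section tr
open Crest.Agent.R4P.RseNd23 (wA wt_tr R_tr sum_tr1)

variable {A A' : ℕ} {T T' : Finset ℕ}

/-- `rtUN` in item coordinates: node `A` (items `T`), node `A'` (items `T'`) -/
theorem rtUN' (CL C2 s : ℝ) (hCL : 0 ≤ CL) (hC2 : 0 ≤ C2) :
    ∃ p₁ : ℕ, ∀ p : ℕ, p₁ ≤ p →
    ∀ (A A' : ℕ) (η K θ θ' : ℝ) (T T' : Finset ℕ) (E : Finset (ℕ × ℕ)) (R R' : ℕ → ℝ)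
    (F : ℕ × ℕ → ℝ), (∀ q ∈ T, A ∣ q) → (∀ q ∈ T', A' ∣ q) →
    0 < η → η ≤ Real.exp (-(Real.log p ^ (4/5:ℝ))) → 0 < K → E ⊆ T ×ˢ T' →
    (∀ q ∈ T, 0 < q / A ∧ 0 < R q) → (∀ q ∈ T', 0 < q / A' ∧ 0 < R' q) →
    (∀ q ∈ T, R q ≤ CL * Real.log p * wA A R q) → (∀ q ∈ T', R' q ≤ CL * Real.log p * wA A' R' q) →
    (∀ z : ℝ, ((2 * p : ℕ):ℝ)^2 ≤ z → ∀ q ∈ T, Crest.Agent.R4.ClsB.Tame z 1 (q / A)) →
    (∀ z : ℝ, ((2 * p : ℕ):ℝ)^2 ≤ z → ∀ q ∈ T', Crest.Agent.R4.ClsB.Tame z 1 (q / A')) →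
    ∑ q ∈ T, wA A R q ≤ Real.log p ^ C2 → ∑ q ∈ T', wA A' R' q ≤ Real.log p ^ C2 →
    (∀ e ∈ E, K ≤ (cof (e.1 / A) (e.2 / A') : ℕ) ∨ K ≤ (cof (e.2 / A') (e.1 / A) : ℕ) ∨
      K * R e.1 ≤ R' e.2 ∨ K * R' e.2 ≤ R e.1) →
    (∀ e ∈ E, F e ≤ 2 * ((R e.1 * R' e.2) / DX A A' R R' e) * (2 * (η * DX A A' R R' e) + 1)) →
    (∀ e ∈ E, 0 < F e → ∃ m m' : ℤ,
      |(m + θ) * (cof (e.2 / A') (e.1 / A) : ℕ) - (m' + θ') * (cof (e.1 / A) (e.2 / A') : ℕ)| ≤
        η * DX A A' R R' e) →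
    (∀ e ∈ E, 0 < F e → ¬ FX η θ θ' (cof (e.1 / A) (e.2 / A')) (cof (e.2 / A') (e.1 / A)) (R e.1)
      (R' e.2)) →
    ∑ e ∈ E, F e ≤ (Real.log p ^ (-s) + 6 * (CL * Real.log p / K)) *
      (∑ q ∈ T, wA A R q + ∑ q ∈ T', wA A' R' q) := by
  obtain ⟨p₁, H⟩ := rtUN CL C2 s hCL hC2
  refine ⟨p₁, fun p hp A A' η K θ θ' T T' E R R' F hA hA' hη hη1 hK hE hT hT' hL hL' htm htm' hM hM'
    hbig hF hrel hlab => ?_⟩
  have key := H p hp η K θ θ' (T.image (· / A)) (T'.image (· / A'))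
    (E.image fun e => (e.1 / A, e.2 / A'))
    (fun v => R (A * v)) (fun v => R' (A' * v)) (fun e => F (A * e.1, A' * e.2)) hη hη1 hK (sub_trX hE)
    (fun v hv => by
      obtain ⟨q, hq, rfl⟩ := Finset.mem_image.1 hv
      have h1 := hT q hq
      exact ⟨h1.1, by rw [Nat.mul_div_cancel' (hA q hq)]; exact h1.2⟩)
    (fun v hv => by
      obtain ⟨q, hq, rfl⟩ := Finset.mem_image.1 hv
      have h1 := hT' q hq
      exact ⟨h1.1, by rw [Nat.mul_div_cancel' (hA' q hq)]; exact h1.2⟩)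
    (fun v hv => by
      obtain ⟨q, hq, rfl⟩ := Finset.mem_image.1 hv
      have h1 := hL q hq
      rw [wt_tr A R (hA q hq)]
      exact (R_tr A R (hA q hq)).le.trans h1)
    (fun v hv => by
      obtain ⟨q, hq, rfl⟩ := Finset.mem_image.1 hv
      have h1 := hL' q hq
      rw [wt_tr A' R' (hA' q hq)]
      exact (R_tr A' R' (hA' q hq)).le.trans h1)
    (fun z hz v hv => by
      obtain ⟨q, hq, rfl⟩ := Finset.mem_image.1 hv
      exact htm z hz q hq)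
    (fun z hz v hv => by
      obtain ⟨q, hq, rfl⟩ := Finset.mem_image.1 hv
      exact htm' z hz q hq)
    (by
      rw [sum_tr1 hA]
      exact le_trans (le_of_eq (Finset.sum_congr rfl fun q hq => wt_tr A R (hA q hq))) hM)
    (by
      rw [sum_tr1 hA']
      exact le_trans (le_of_eq (Finset.sum_congr rfl fun q hq => wt_tr A' R' (hA' q hq))) hM')
    (fun x hx => by
      obtain ⟨e, he, rfl⟩ := Finset.mem_image.1 hx
      obtain ⟨a1, a2⟩ := Finset.mem_product.1 (hE he)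
      simp only [Nat.mul_div_cancel' (hA _ a1), Nat.mul_div_cancel' (hA' _ a2)]
      exact hbig e he)
    (fun x hx => by
      obtain ⟨e, he, rfl⟩ := Finset.mem_image.1 hx
      obtain ⟨a1, a2⟩ := Finset.mem_product.1 (hE he)
      have d1 := hA _ a1
      have d2 := hA' _ a2
      have h1 := hF e he
      rw [DX_eq A A' R R' d1 d2]
      simp only [Nat.mul_div_cancel' d1, Nat.mul_div_cancel' d2]
      refine h1.trans (le_of_eq ?_)
      ring)
    (fun x hx h0 => by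
      obtain ⟨e, he, rfl⟩ := Finset.mem_image.1 hx
      obtain ⟨a1, a2⟩ := Finset.mem_product.1 (hE he)
      have d1 := hA _ a1
      have d2 := hA' _ a2
      rw [DX_eq A A' R R' d1 d2]
      simp only [Nat.mul_div_cancel' d1, Nat.mul_div_cancel' d2] at h0
      exact hrel e he h0)
    (fun x hx h0 => by
      obtain ⟨e, he, rfl⟩ := Finset.mem_image.1 hx
      obtain ⟨a1, a2⟩ := Finset.mem_product.1 (hE he)
      simp only [Nat.mul_div_cancel' (hA _ a1), Nat.mul_div_cancel' (hA' _ a2)] at h0 ⊢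
      exact hlab e he h0)
  rw [sum_trX hA hA' hE, sum_tr1 hA, sum_tr1 hA'] at key
  have e1 : ∑ e ∈ E, F e = ∑ e ∈ E, F (A * (e.1 / A), A' * (e.2 / A')) := by
    refine Finset.sum_congr rfl fun e he => ?_
    obtain ⟨a1, a2⟩ := Finset.mem_product.1 (hE he)
    rw [Nat.mul_div_cancel' (hA _ a1), Nat.mul_div_cancel' (hA' _ a2)]
  rw [e1]
  refine key.trans (le_of_eq ?_)
  congr 2
  · exact Finset.sum_congr rfl fun q hq => wt_tr A R (hA q hq)
  · exact Finset.sum_congr rfl fun q hq => wt_tr A' R' (hA' q hq)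

end tr

end Crest.Agent.R4P.UN24
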