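import Crest.Agent.R4P.UN1_24
import Crest.Agent.R4P.GcdW_37

/-!
R4 (S0004), powers pass, helper24: **exact pairs for super-accurate labels** (third class of `classify_num`).

* `FXr η θ θ' x y r r' ρ ρ'` : the pair is exact for the labels `ρ`, `ρ'`; `FXr.acc`, `FXr.pow`, `FXr.co`;
  **`FXr.same`** : one node (`θ = θ'`): `ρ = ρ'`, the denominator divides `y - x`;
* `lac_sum` : the labels of one centre are lacunary, `∑ den^(-1/256) ≤ CL`;
* **`fx_sum`** : sum over exact pairs with a late side, `K ≤ KK ρ ρ'`, a cofactor `≥ KK^(1/64)` :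
  `≤ C K^(-1/128) (∑ R + ∑ R')` (over helper37's `lab_minM`, for each pair of labels).
-/

set_option autoImplicit false
set_option linter.unusedSectionVars false
set_option linter.unusedVariables false
open Finset

namespace Crest.Agent.R4P.UN24

open Crest.Agent.R4.HVW560
open Crest.Agent.R4.LF363 (Lab)
open Crest.Agent.R4.Dich579 (FF)
open Crest.Agent.R4P.ShR18 (Co)
open Crest.Agent.R4P.GcdS37 (rd)
open Crest.Agent.R4P.GcdU37 (Tl)
open Crest.Agent.R4P.AcG41 (Fam)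
open Crest.Agent.R4P.RtE28 (KK KK_one)
open Crest.Agent.R4P.GcdV37 (La rt)
open Crest.Agent.R4P.GcdW37 (lab_minM)
open Crest.Agent.R4

/-- **the pair is exact for the super-accurate labels `ρ`, `ρ'`** -/
def FXr (η θ θ' : ℝ) (x y : ℕ) (r r' : ℝ) (ρ ρ' : ℚ) : Prop :=
  ∃ t : ℝ, (2:ℝ)^400 ≤ t ∧ max ((y:ℝ) * (η * r)) ((x:ℝ) * (η * r')) ≤ 1/t ∧
    FF θ θ' t (η * r) (η * r') x y ρ ρ' ∧
    ∃ m m' : ℤ, ((m:ℝ) + ρ) * y = (m' + ρ') * x

lemma FX.ex {η θ θ' : ℝ} {x y : ℕ} {r r' : ℝ} (h : FX η θ θ' x y r r') :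
    ∃ ρ ρ' : ℚ, FXr η θ θ' x y r r' ρ ρ' := by
  obtain ⟨t, ρ, ρ', h1, h2, h3, h4⟩ := h
  exact ⟨ρ, ρ', t, h1, h2, h3, h4⟩

namespace FXr
variable {η θ θ' : ℝ} {x y : ℕ} {r r' : ℝ} {ρ ρ' : ℚ}

lemma acc (h : FXr η θ θ' x y r r' ρ ρ') : |θ - ρ| ^ 5 ≤ (η * r) ^ 4 := by
  obtain ⟨t, -, -, hF, -⟩ := h
  exact hF.lab.near

lemma acc' (h : FXr η θ θ' x y r r' ρ ρ') : |θ' - ρ'| ^ 5 ≤ (η * r') ^ 4 := by
  obtain ⟨t, -, -, hF, -⟩ := h
  exact hF.lab'.near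

lemma pow (h : FXr η θ θ' x y r r' ρ ρ') : |θ - ρ| * (ρ.den:ℝ) ^ 8 ≤ 1 := by
  obtain ⟨t, -, -, hF, -⟩ := h
  exact hF.pow

lemma pow' (h : FXr η θ θ' x y r r' ρ ρ') : |θ' - ρ'| * (ρ'.den:ℝ) ^ 8 ≤ 1 := by
  obtain ⟨t, -, -, hF, -⟩ := h
  exact hF.pow'

lemma near_of_acc {a b : ℝ} (ha : 0 ≤ a) (hb : 0 < b) (hb1 : b ≤ 1 / 10) (h : a ^ 5 ≤ b ^ 4) :
    a ≤ 1 / 6 := by
  by_contra hc
  push Not at hc
  have h1 : b ^ 4 ≤ (1 / 10) ^ 4 := pow_le_pow_left₀ hb.le hb1 4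
  have h2 : (1 / 6 : ℝ) ^ 5 ≤ a ^ 5 := pow_le_pow_left₀ (by norm_num) hc.le 5
  norm_num at h1 h2
  linarith

lemma near (h : FXr η θ θ' x y r r' ρ ρ') : |θ - ρ| ≤ 1 / 6 := by
  obtain ⟨t, -, -, hF, -⟩ := h
  exact near_of_acc (abs_nonneg _) hF.lab.pos hF.lab.le hF.lab.near

lemma near' (h : FXr η θ θ' x y r r' ρ ρ') : |θ' - ρ'| ≤ 1 / 6 := by
  obtain ⟨t, -, -, hF, -⟩ := h
  exact near_of_acc (abs_nonneg _) hF.lab'.pos hF.lab'.le hF.lab'.near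

/-- the exact relation -/
lemma co (h : FXr η θ θ' x y r r' ρ ρ') : Co ((y : ℕ) * ρ) ((x : ℕ) * ρ') := by
  obtain ⟨t, -, -, -, m, m', e⟩ := h
  refine ⟨m' * x - m * y, ?_⟩
  have e1 : ((m:ℚ) + ρ) * y = (m' + ρ') * x := by exact_mod_cast e
  push_cast
  linarith

end FXr

/-- two different rationals -/
lemma one_le_dist {ρ ρ' : ℚ} (h : ρ ≠ ρ') : 1 ≤ |(ρ:ℝ) - ρ'| * ((ρ.den:ℝ) * ρ'.den) := by
  have h1 : (ρ:ℝ) * ρ.den = ρ.num := by exact_mod_cast Rat.mul_den_eq_num ρ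
  have h2 : (ρ':ℝ) * ρ'.den = ρ'.num := by exact_mod_cast Rat.mul_den_eq_num ρ'
  have e : ((ρ:ℝ) - ρ') * (ρ.den * ρ'.den) = ((ρ.num * ρ'.den - ρ'.num * ρ.den : ℤ) : ℝ) := by
    push_cast
    linear_combination (ρ'.den:ℝ) * h1 - (ρ.den:ℝ) * h2
  have d1 : (0:ℝ) < ρ.den := by exact_mod_cast ρ.pos
  have d2 : (0:ℝ) < ρ'.den := by exact_mod_cast ρ'.pos
  have hz : (ρ.num * ρ'.den - ρ'.num * ρ.den : ℤ) ≠ 0 := by
    intro h0
    rw [h0, Int.cast_zero] at e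
    rcases mul_eq_zero.1 e with h3 | h3
    · exact h (by exact_mod_cast (sub_eq_zero.1 h3))
    · exact absurd h3 (mul_pos d1 d2).ne'
  have e2 : |(ρ:ℝ) - ρ'| * ((ρ.den:ℝ) * ρ'.den) = |((ρ:ℝ) - ρ') * (ρ.den * ρ'.den)| := by
    rw [abs_mul, abs_of_pos (mul_pos d1 d2)]
  rw [e2, e, ← Int.cast_abs]
  exact_mod_cast Int.one_le_abs hz

/-- **one centre**: one label -/
lemma FXr.same {η θ : ℝ} {x y : ℕ} {r r' : ℝ} {ρ ρ' : ℚ} (h : FXr η θ θ x y r r' ρ ρ')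
    (hη : 0 < η) (hx : 0 < x) (hy : 0 < y) (hr : 0 < r) (hr' : 0 < r') : ρ = ρ' := by
  obtain ⟨t, ht, hD, hF, -⟩ := h
  by_contra hne
  have ht0 : 0 < t := lt_of_lt_of_le (by positivity) ht
  have hx1 : (1:ℝ) ≤ x := by exact_mod_cast hx
  have hy1 : (1:ℝ) ≤ y := by exact_mod_cast hy
  have a1 : η * r ≤ 1/t := (le_mul_of_one_le_left (mul_pos hη hr).le hy1).trans
    ((le_max_left _ _).trans hD)
  have a2 : η * r' ≤ 1/t := (le_mul_of_one_le_left (mul_pos hη hr').le hx1).trans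
    ((le_max_right _ _).trans hD)
  set u : ℝ := t^(39/200:ℝ) with hu
  have hu0 : 0 < u := Real.rpow_pos_of_pos ht0 _
  have n1 : |θ - ρ| ≤ u * (1/t) := hF.near.trans (mul_le_mul_of_nonneg_left a1 hu0.le)
  have n2 : |θ - ρ'| ≤ u * (1/t) := hF.near'.trans (mul_le_mul_of_nonneg_left a2 hu0.le)
  have n3 : |(ρ:ℝ) - ρ'| ≤ 2 * (u * (1/t)) := by
    have := abs_sub_le (ρ:ℝ) θ ρ'
    rw [abs_sub_comm (ρ:ℝ) θ] at this
    linarith
  have h4 := one_le_dist hne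
  have d1 : (0:ℝ) ≤ ρ.den := Nat.cast_nonneg _
  have d2 : (0:ℝ) ≤ ρ'.den := Nat.cast_nonneg _
  have h5 : (ρ.den:ℝ) * ρ'.den ≤ t^(21/200:ℝ) * t^(21/200:ℝ) :=
    mul_le_mul hF.den hF.den' d2 (by positivity)
  have h6 : (1:ℝ) ≤ 2 * (u * (1/t)) * (t^(21/200:ℝ) * t^(21/200:ℝ)) :=
    h4.trans (mul_le_mul n3 h5 (by positivity) (by positivity))
  have h7 : 2 * (u * (1/t)) * (t^(21/200:ℝ) * t^(21/200:ℝ)) = 2 * t^(-(119/200):ℝ) := by
    rw [hu, one_div, ← Real.rpow_neg_one t]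
    have : t^(39/200:ℝ) * t^(-1:ℝ) * (t^(21/200:ℝ) * t^(21/200:ℝ)) = t^(-(119/200):ℝ) := by
      rw [← Real.rpow_add ht0, ← Real.rpow_add ht0, ← Real.rpow_add ht0]
      norm_num
    rw [← this]
    ring
  rw [h7] at h6
  have h8 : t^(-(119/200):ℝ) ≤ ((2:ℝ)^400)^(-(119/200):ℝ) :=
    Real.rpow_le_rpow_of_nonpos (by positivity) ht (by norm_num)
  have h9 : ((2:ℝ)^400)^(-(119/200):ℝ) = (2:ℝ)^(-(238:ℝ)) := by
    rw [← Real.rpow_natCast 2 400, ← Real.rpow_mul (by norm_num)]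
    norm_num
  have h10 : (2:ℝ)^(-(238:ℝ)) ≤ (2:ℝ)^(-(2:ℝ)) :=
    Real.rpow_le_rpow_of_exponent_le (by norm_num) (by norm_num)
  have h11 : (2:ℝ)^(-(2:ℝ)) = 1/4 := by
    rw [Real.rpow_neg (by norm_num)]
    norm_num
  linarith

/-- **one label**: the denominator divides the difference of the cofactors -/
lemma den_le_of_co {x y : ℕ} {ρ : ℚ} (h : Co ((y : ℕ) * ρ) ((x : ℕ) * ρ)) (hxy : x ≠ y) :
    ρ.den ≤ max x y := by
  obtain ⟨z, hz⟩ := h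
  have e : (((y:ℤ) - x : ℤ) : ℚ) * ρ = z := by
    push_cast
    linarith
  have e2 : ((y:ℤ) - x) * ρ.num = z * ρ.den := by
    have h1 : ρ * ρ.den = ρ.num := Rat.mul_den_eq_num ρ
    have h2 : (((y:ℤ) - x : ℤ) : ℚ) * ρ.num = (z : ℚ) * ρ.den := by
      rw [← h1, ← e]
      ring
    exact_mod_cast h2
  have h3 : (ρ.den : ℤ) ∣ ((y:ℤ) - x) * ρ.num := ⟨z, by rw [e2]; ring⟩
  have h4 : (ρ.den : ℤ) ∣ ((y:ℤ) - x) := by
    have hc : IsCoprime (ρ.den : ℤ) ρ.num := by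
      rw [Int.isCoprime_iff_gcd_eq_one, Int.gcd_comm]
      have := ρ.reduced
      unfold Nat.Coprime at this
      simpa [Int.gcd] using this
    exact hc.dvd_of_dvd_mul_right h3
  have h5 : ((y:ℤ) - x) ≠ 0 := by omega
  have h6 := Int.le_of_dvd (abs_pos.2 h5) ((dvd_abs _ _).2 h4)
  have h7 : |(y:ℤ) - x| ≤ max x y := by
    rw [abs_le]
    constructor <;> omega
  omega

/-! ### lacunary labels -/

/-- the dyadic block of the denominator determines the label -/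
lemma lac_inj {S : Finset ℚ} {θ : ℝ} (h1 : ∀ ρ ∈ S, |θ - ρ| * (ρ.den:ℝ) ^ 8 ≤ 1)
    (h2 : ∀ ρ ∈ S, |θ - ρ| ≤ 1 / 6) :
    Set.InjOn (fun ρ : ℚ => Nat.log 2 ρ.den) (S : Set ℚ) := by
  have key : ∀ a ∈ S, ∀ b ∈ S, Nat.log 2 a.den = Nat.log 2 b.den → a.den ≤ b.den → a = b := by
    intro a ha b hb he hle
    by_contra hne
    have h3 := one_le_dist hne
    have ha0 : (1:ℝ) ≤ a.den := by exact_mod_cast a.pos
    have hb0 : (1:ℝ) ≤ b.den := by exact_mod_cast b.pos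
    have hab : (a.den:ℝ) ≤ b.den := by exact_mod_cast hle
    have tri : |(a:ℝ) - b| ≤ |θ - a| + |θ - b| := by
      have := abs_sub_le (a:ℝ) θ b
      rwa [abs_sub_comm (a:ℝ) θ] at this
    have hb2 : b.den < 2 * a.den := by
      have k1 : b.den < 2 ^ (Nat.log 2 b.den + 1) := Nat.lt_pow_succ_log_self (by norm_num) _
      have k2 : 2 ^ (Nat.log 2 a.den) ≤ a.den := Nat.pow_log_le_self 2 a.pos.ne'
      rw [← he, pow_succ] at k1
      omega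
    have hb2' : (b.den:ℝ) ≤ 2 * a.den := by exact_mod_cast hb2.le
    rcases Nat.eq_or_lt_of_le (show 1 ≤ a.den from a.pos) with h4 | h4
    · have hb1 : b.den = 1 := by have := b.pos; omega
      rw [← h4, hb1] at h3
      have := h2 a ha
      have := h2 b hb
      norm_num at h3
      linarith
    · have ha2 : (2:ℝ) ≤ a.den := by exact_mod_cast h4
      have q1 : |θ - a| ≤ 1 / (a.den:ℝ) ^ 8 := by
        rw [le_div_iff₀ (by positivity)]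
        exact h1 a ha
      have q2 : |θ - b| ≤ 1 / (a.den:ℝ) ^ 8 := by
        have : |θ - b| ≤ 1 / (b.den:ℝ) ^ 8 := by
          rw [le_div_iff₀ (by positivity)]
          exact h1 b hb
        exact this.trans (one_div_le_one_div_of_le (by positivity)
          (pow_le_pow_left₀ (by linarith) hab 8))
      have q3 : |(a:ℝ) - b| * ((a.den:ℝ) * b.den) ≤ (2 / (a.den:ℝ) ^ 8) * (2 * (a.den:ℝ) ^ 2) := by
        refine mul_le_mul (by
          have : 2 / (a.den:ℝ) ^ 8 = 1 / (a.den:ℝ) ^ 8 + 1 / (a.den:ℝ) ^ 8 := by ring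
          rw [this]
          linarith) (by nlinarith) (by positivity) (by positivity)
      have q4 : (2 / (a.den:ℝ) ^ 8) * (2 * (a.den:ℝ) ^ 2) = 4 / (a.den:ℝ) ^ 6 := by
        field_simp
        ring
      have q5 : (4:ℝ) / (a.den:ℝ) ^ 6 ≤ 4 / 2 ^ 6 :=
        div_le_div_of_nonneg_left (by norm_num) (by norm_num) (pow_le_pow_left₀ (by norm_num) ha2 6)
      norm_num at q5
      linarith
  intro a ha b hb he
  rcases le_total a.den b.den with h | h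
  · exact key a ha b hb he h
  · exact (key b hb a ha he.symm h).symm

/-- the ratio of the layers -/
noncomputable def r256 : ℝ := (2:ℝ) ^ (-(1/256):ℝ)

lemma r256_pos : 0 < r256 := Real.rpow_pos_of_pos (by norm_num) _

lemma r256_lt : r256 < 1 := Real.rpow_lt_one_of_one_lt_of_neg (by norm_num) (by norm_num)

/-- the constant of the lacunary sums -/
noncomputable def CL : ℝ := 1 / (1 - r256)

lemma CL_pos : 0 < CL := by
  have := r256_lt
  unfold CL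
  exact div_pos one_pos (by linarith)

lemma one_le_CL : 1 ≤ CL := by
  have h1 := r256_lt
  have h2 := r256_pos
  unfold CL
  rw [le_div_iff₀ (by linarith)]
  linarith

/-- **the labels of one centre are lacunary** -/
theorem lac_sum {S : Finset ℚ} {θ : ℝ} (h1 : ∀ ρ ∈ S, |θ - ρ| * (ρ.den:ℝ) ^ 8 ≤ 1)
    (h2 : ∀ ρ ∈ S, |θ - ρ| ≤ 1 / 6) : ∑ ρ ∈ S, (ρ.den:ℝ) ^ (-(1/256):ℝ) ≤ CL := by
  classical
  have hi := lac_inj h1 h2
  have h3 : ∑ ρ ∈ S, (ρ.den:ℝ) ^ (-(1/256):ℝ) ≤ ∑ ρ ∈ S, r256 ^ (Nat.log 2 ρ.den) := by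
    refine Finset.sum_le_sum fun ρ _ => ?_
    have k1 : (2:ℝ) ^ (Nat.log 2 ρ.den) ≤ ρ.den := by
      exact_mod_cast Nat.pow_log_le_self 2 ρ.pos.ne'
    have k2 : (ρ.den:ℝ) ^ (-(1/256):ℝ) ≤ ((2:ℝ) ^ (Nat.log 2 ρ.den)) ^ (-(1/256):ℝ) :=
      Real.rpow_le_rpow_of_nonpos (by positivity) k1 (by norm_num)
    refine k2.trans (le_of_eq ?_)
    unfold r256
    rw [← Real.rpow_natCast, ← Real.rpow_mul (by norm_num), ← Real.rpow_natCast,
      ← Real.rpow_mul (by norm_num)]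
    congr 1
    ring
  refine h3.trans ?_
  have h4 : ∑ ρ ∈ S, r256 ^ (Nat.log 2 ρ.den) =
      ∑ i ∈ S.image (fun ρ : ℚ => Nat.log 2 ρ.den), r256 ^ i := by
    rw [Finset.sum_image hi]
  rw [h4]
  have hs := summable_geometric_of_lt_one r256_pos.le r256_lt
  refine (hs.sum_le_tsum _ fun i _ => pow_nonneg r256_pos.le i).trans (le_of_eq ?_)
  rw [tsum_geometric_of_lt_one r256_pos.le r256_lt]
  unfold CL
  rw [one_div]

open Classical in
/-- **EXACT PAIRS FOR SUPER-ACCURATE LABELS**, a late side, a large denominator, a cofactor `≥ KK^(1/64)` -/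
theorem fx_sum {A : ℝ} (hA : 0 ≤ A) : ∃ Ce : ℝ, 1 ≤ Ce ∧ ∃ C : ℝ, 1 ≤ C ∧ ∀ (P : ℕ) (F G : Finset ℕ)
    (e e' : ℕ → ℕ) (R R' : ℕ → ℝ) (η θ θ' : ℝ) (E : Finset (ℕ × ℕ)) (M K : ℝ)
    (ρ ρ' : ℕ × ℕ → ℚ), 2 ≤ P → 0 ≤ M → Fam F G e e' R R' → E ⊆ F ×ˢ G →
    (3 + Real.log P) ^ Ce ≤ K → (3 + Real.log P) ^ M ≤ K →
    (∀ x ∈ E, FXr η θ θ' (rd (e x.1) (e' x.2)).1 (rd (e x.1) (e' x.2)).2 (R x.1) (R' x.2)
      (ρ x) (ρ' x)) →
    (∀ x ∈ E, K ≤ KK (ρ x) (ρ' x) ∧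
      (KK (ρ x) (ρ' x) ^ (1/64:ℝ) ≤ (rd (e x.1) (e' x.2)).1 ∨
        KK (ρ x) (ρ' x) ^ (1/64:ℝ) ≤ (rd (e x.1) (e' x.2)).2) ∧
      (1 ≤ KK (ρ x) (ρ' x) ^ A * R x.1 ∨ 1 ≤ KK (ρ x) (ρ' x) ^ A * R' x.2)) →
    Tl P ((3 + Real.log P) ^ A) F e → Tl P ((3 + Real.log P) ^ A) G e' →
    ∑ i ∈ F, R i ≤ (3 + Real.log P) ^ M → ∑ j ∈ G, R' j ≤ (3 + Real.log P) ^ M →
    ∑ x ∈ E, min (R x.1 / ((rd (e x.1) (e' x.2)).1 : ℕ)) (R' x.2 / ((rd (e x.1) (e' x.2)).2 : ℕ)) ≤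
      C * K ^ (-(1/128):ℝ) * (∑ i ∈ F, R i + ∑ j ∈ G, R' j) := by
  obtain ⟨Ce, hCe, C, hC, key⟩ := lab_minM hA
  have hCL := one_le_CL
  refine ⟨Ce, hCe, 2 * C * CL ^ 2, by nlinarith, ?_⟩
  intro P F G e e' R R' η θ θ' E M K ρ ρ' hP hM hf hE hKe hKM hX hH tF tG mF mG
  have hlP : 0 ≤ Real.log (P : ℝ) := Real.log_natCast_nonneg P
  have hw1 : 1 ≤ 3 + Real.log (P : ℝ) := by linarith
  have hK1 : 1 ≤ K := (Real.one_le_rpow hw1 (by linarith)).trans hKe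
  have hK0 : 0 < K := by linarith
  set S := ∑ i ∈ F, R i + ∑ j ∈ G, R' j with hS
  have hS0 : 0 ≤ S := add_nonneg (Finset.sum_nonneg hf.rF) (Finset.sum_nonneg hf.rG)
  set f : ℕ × ℕ → ℝ := fun x => min (R x.1 / ((rd (e x.1) (e' x.2)).1 : ℕ))
    (R' x.2 / ((rd (e x.1) (e' x.2)).2 : ℕ)) with hfd
  set PP : Finset (ℚ × ℚ) := E.image fun x => (ρ x, ρ' x) with hPP
  rw [← Finset.sum_fiberwise_of_maps_to (s := E) (t := PP) (g := fun x => (ρ x, ρ' x))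
    (fun x hx => Finset.mem_image_of_mem _ hx)]
  -- one pair of labels
  have one : ∀ b ∈ PP, ∑ x ∈ E.filter (fun x => (ρ x, ρ' x) = b), f x ≤
      2 * C * S * K ^ (-(1/128):ℝ) * ((b.1.den:ℝ) ^ (-(1/256):ℝ) * (b.2.den:ℝ) ^ (-(1/256):ℝ)) := by
    intro b hb
    obtain ⟨x₀, hx₀, rfl⟩ := Finset.mem_image.1 hb
    set a := ρ x₀ with ha
    set a' := ρ' x₀ with ha'
    have hKK1 := KK_one a a'
    have hKK0 : 0 < KK a a' := by linarith
    have hKK : K ≤ KK a a' := (hH x₀ hx₀).1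
    set E' := E.filter (fun x => (ρ x, ρ' x) = (a, a')) with hE'
    have hm : ∀ x ∈ E', x ∈ E ∧ ρ x = a ∧ ρ' x = a' := fun x hx => by
      obtain ⟨h1, h2⟩ := Finset.mem_filter.1 hx
      exact ⟨h1, congrArg Prod.fst h2, congrArg Prod.snd h2⟩
    set Z : ℚ → ℚ → ℝ := fun r r' => KK r r' ^ (1/64:ℝ) with hZ
    have k := key ℕ ℕ P F G e e' R R' (fun _ => a) (fun _ => a') Z E' M hP hM hf
      ((Finset.filter_subset _ _).trans hE)
      (fun x hx => by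
        obtain ⟨h1, h2, h3⟩ := hm x hx
        have := (hX x h1).co
        rw [h2, h3] at this
        exact this)
      (fun x hx => by
        obtain ⟨h1, h2, h3⟩ := hm x hx
        have := (hH x h1).2.1
        rw [h2, h3] at this
        exact ⟨Real.rpow_pos_of_pos hKK0 _, this⟩)
      (fun x _ => hKe.trans hKK) (fun x _ => hKM.trans hKK)
      (fun x hx => by
        obtain ⟨h1, h2, h3⟩ := hm x hx
        have := (hH x h1).2.2
        rw [h2, h3] at this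
        exact this) tF tG mF mG
    set c : ℝ := rt Z a a' with hc
    have ec : c = 2 * KK a a' ^ (-(1/64):ℝ) := by
      rw [hc]
      unfold GcdV37.rt
      rw [hZ]
      simp only
      rw [one_div, ← Real.rpow_neg hKK0.le]
      ring
    have c0 : 0 ≤ c := by rw [ec]; positivity
    have s1 : ∀ i, ∑ r ∈ La (fun _ : ℕ => a') E' i, rt Z a r ≤ c := by
      intro i
      have hs : La (fun _ : ℕ => a') E' i ⊆ {a'} := by
        intro r hr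
        obtain ⟨x, -, rfl⟩ := Finset.mem_image.1 hr
        exact Finset.mem_singleton_self _
      refine (Finset.sum_le_sum_of_subset_of_nonneg hs fun r hr _ => ?_).trans (le_of_eq ?_)
      · rw [Finset.mem_singleton.1 hr]; exact c0
      · rw [Finset.sum_singleton]
    have s2 : ∀ j, ∑ r ∈ GcdV37.Lb (fun _ : ℕ => a) E' j, rt Z r a' ≤ c := by
      intro j
      have hs : GcdV37.Lb (fun _ : ℕ => a) E' j ⊆ {a} := by
        intro r hr
        obtain ⟨x, -, rfl⟩ := Finset.mem_image.1 hr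
        exact Finset.mem_singleton_self _
      refine (Finset.sum_le_sum_of_subset_of_nonneg hs fun r hr _ => ?_).trans (le_of_eq ?_)
      · rw [Finset.mem_singleton.1 hr]; exact c0
      · rw [Finset.sum_singleton]
    have k2 : ∑ x ∈ E', f x ≤ C * (c * S) := by
      refine k.trans (mul_le_mul_of_nonneg_left ?_ (by linarith))
      rw [hS, mul_add, Finset.mul_sum, Finset.mul_sum]
      exact add_le_add (Finset.sum_le_sum fun i hi => mul_le_mul_of_nonneg_right (s1 i) (hf.rF i hi))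
        (Finset.sum_le_sum fun j hj => mul_le_mul_of_nonneg_right (s2 j) (hf.rG j hj))
    refine k2.trans ?_
    rw [ec]
    have e1 : KK a a' ^ (-(1/64):ℝ) = KK a a' ^ (-(1/128):ℝ) *
        (KK a a' ^ (-(1/256):ℝ) * KK a a' ^ (-(1/256):ℝ)) := by
      rw [← Real.rpow_add hKK0, ← Real.rpow_add hKK0]
      norm_num
    have da : (1:ℝ) ≤ a.den := by exact_mod_cast a.pos
    have da' : (1:ℝ) ≤ a'.den := by exact_mod_cast a'.pos
    have e2 : KK a a' ^ (-(1/256):ℝ) ≤ (a.den:ℝ) ^ (-(1/256):ℝ) :=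
      Real.rpow_le_rpow_of_nonpos (by linarith) (le_max_left _ _) (by norm_num)
    have e3 : KK a a' ^ (-(1/256):ℝ) ≤ (a'.den:ℝ) ^ (-(1/256):ℝ) :=
      Real.rpow_le_rpow_of_nonpos (by linarith) (le_max_right _ _) (by norm_num)
    have e4 : KK a a' ^ (-(1/128):ℝ) ≤ K ^ (-(1/128):ℝ) :=
      Real.rpow_le_rpow_of_nonpos hK0 hKK (by norm_num)
    have e5 : KK a a' ^ (-(1/64):ℝ) ≤ K ^ (-(1/128):ℝ) *
        ((a.den:ℝ) ^ (-(1/256):ℝ) * (a'.den:ℝ) ^ (-(1/256):ℝ)) := by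
      rw [e1]
      exact mul_le_mul e4 (mul_le_mul e2 e3 (by positivity) (by positivity)) (by positivity)
        (by positivity)
    have h0 : 0 ≤ 2 * C * S := by positivity
    calc C * (2 * KK a a' ^ (-(1/64):ℝ) * S) = 2 * C * S * KK a a' ^ (-(1/64):ℝ) := by ring
      _ ≤ 2 * C * S * (K ^ (-(1/128):ℝ) *
          ((a.den:ℝ) ^ (-(1/256):ℝ) * (a'.den:ℝ) ^ (-(1/256):ℝ))) :=
          mul_le_mul_of_nonneg_left e5 h0
      _ = _ := by ring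
  refine (Finset.sum_le_sum one).trans ?_
  rw [← Finset.mul_sum]
  set S1 : Finset ℚ := E.image ρ with hS1
  set S2 : Finset ℚ := E.image ρ' with hS2
  have l1 : ∑ r ∈ S1, (r.den:ℝ) ^ (-(1/256):ℝ) ≤ CL := by
    refine lac_sum (θ := θ) (fun r hr => ?_) fun r hr => ?_
    · obtain ⟨x, hx, rfl⟩ := Finset.mem_image.1 hr
      exact (hX x hx).pow
    · obtain ⟨x, hx, rfl⟩ := Finset.mem_image.1 hr
      exact (hX x hx).near
  have l2 : ∑ r ∈ S2, (r.den:ℝ) ^ (-(1/256):ℝ) ≤ CL := by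
    refine lac_sum (θ := θ') (fun r hr => ?_) fun r hr => ?_
    · obtain ⟨x, hx, rfl⟩ := Finset.mem_image.1 hr
      exact (hX x hx).pow'
    · obtain ⟨x, hx, rfl⟩ := Finset.mem_image.1 hr
      exact (hX x hx).near'
  have l3 : ∑ b ∈ PP, ((b.1.den:ℝ) ^ (-(1/256):ℝ) * (b.2.den:ℝ) ^ (-(1/256):ℝ)) ≤ CL * CL := by
    have hsub : PP ⊆ S1 ×ˢ S2 := by
      intro b hb
      obtain ⟨x, hx, rfl⟩ := Finset.mem_image.1 hb
      exact Finset.mem_product.2 ⟨Finset.mem_image_of_mem _ hx, Finset.mem_image_of_mem _ hx⟩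
    refine (Finset.sum_le_sum_of_subset_of_nonneg hsub fun b _ _ => by positivity).trans ?_
    rw [Finset.sum_product]
    simp only
    rw [← Finset.sum_mul_sum]
    exact mul_le_mul l1 l2 (Finset.sum_nonneg fun _ _ => by positivity) CL_pos.le
  have h0 : 0 ≤ 2 * C * S * K ^ (-(1/128):ℝ) := by positivity
  refine (mul_le_mul_of_nonneg_left l3 h0).trans (le_of_eq ?_)
  ring

end Crest.Agent.R4P.UN24
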