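import Crest.Agent.R4P.XmE_18
import Crest.Agent.R4P.SpM_18
import Crest.Agent.R4P.LeafCtx_28
import Crest.Agent.R4P.OSCtxB_14

/-!
R4 (S0004) with powers, helper18: **pairs of two nodes, small cofactors, in terms of the masses** (E3a).

* `row_le` (abstract) : a piece `j` of `q` against all the pieces of `r`, a prime `ℓ` in the reduced
  cofactor of `q` : `≤ 2 K (1/ℓ + 2 D R) I(U_j)`.
* `MI X s t q` : mass of the item `q` at the node; `MN X u τ` : facts (leaf weights; `R_q ≤ C log p M_q`),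
  **`ctx_MN`** : all the nodes of a context.
* `row_N` : `row_le` at a node of a context.
-/

set_option autoImplicit false
set_option linter.unusedSectionVars false
set_option linter.unusedVariables false

open MeasureTheory Filter

namespace Crest.Agent.R4P.XmM18

open Crest.Agent.R4.Tour104 Crest.Agent.R4.Tour758 Crest.Agent.R4.Avg758 Crest.Agent.R4.Clos758
open Crest.Agent.R4.ClosL758 Crest.Agent.R4.ClosG758 Crest.Agent.R4.ClosR758
open Crest.Agent.R4.HVW560
open Crest.Agent.R4.Fam464 Crest.Agent.R4.Piece464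
open Crest.Agent.R4P.Cnt588 Crest.Agent.R4P.Item758 Crest.Agent.R4P.AvgItem710
open Crest.Agent.R4P.Walk560 Crest.Agent.R4P.NodeG33
open Crest.Agent.R4P.Data758 Crest.Agent.R4P.Skel189
open Crest.Agent.R4P.Bld532 (NS All)
open Crest.Agent.R4P.Step588 (NDt CT CT_pos ctx_NDt)
open Crest.Agent.R4.Soft104 (w)
open Crest.Agent.R4P.SameIx30 Crest.Agent.R4P.GPair33
open Crest.Agent.R4P.ShR18 (Co)
open Crest.Agent.R4P.SpM18
open Crest.Agent.R4.Ovl560 (LW nw dens dens_pos)
open Crest.Agent.R4P.LeafCtx28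
open Crest.Agent.R4.DeepSt579 (tq tq_nonneg)
open Crest.Agent.R4P.LfDat734 Crest.Agent.R4P.OmData532
open Crest.Agent.R4P

/-! ### two items -/

section abs
variable {Λ κ : Type*} [Fintype Λ] [DecidableEq Λ] [Fintype κ] [DecidableEq κ]
  {D : Par Λ κ} {ρ : ℕ → ℝ}

/-- all the pieces of an item are below its arc -/
lemma sum_le_arc (hR : D.Rad ρ) {b pr : ℕ} {t : IT} (hb : 0 < b) (hF : Fit b pr t)
    (hW : D.Wts pr t) {r : ℕ} (hr : r ∈ t.items) (A : Finset Λ) (y : ℝ) :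
    ∑ i ∈ A.filter (fun i => D.it i = r), (D.toFT b pr t).U 1 i y ≤
      arc (b * D.γ) (b * ρ r) (r / pr) y := by
  have h := (fam_node hR hb hF hW (one_dvd b) hr A).Ep_le (M := 1) one_pos y
  have e1 : ∀ i, Ep 1 ((D.toFT b pr t).U 1 i) y = (D.toFT b pr t).U 1 i y := fun i => by
    rw [Ep_one]
  simp only [e1] at h
  have e2 : rf (r / pr) 1 = 1 := by unfold rf; simp
  rw [e2, Nat.gcd_one_left, Nat.div_one] at h
  simpa using h

/-- **a piece against all the pieces of another item** -/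
theorem row_le (hR : D.Rad ρ) (hab : ∀ j, D.al j ≤ D.be j) {K : ℝ} (hK : 1 ≤ K)
    {b pr b' pr' : ℕ} {t t' : IT} (hb : 0 < b) (hb' : 0 < b') (hF : Fit b pr t)
    (hF' : Fit b' pr' t') (hW : D.Wts pr t) (hW' : D.Wts pr' t') {j : Λ}
    (hj : D.it j ∈ t.items) (hL : LfW D j (D.it j / (pr * pp t (D.it j))) K) {r : ℕ}
    (hr : r ∈ t'.items) {l : ℕ} (hl : l.Prime) (hd : l ∣ cof (D.it j / pr) (r / pr'))
    (A : Finset Λ) :
    ∑ i ∈ A.filter (fun i => D.it i = r), I (fun y => (D.toFT b pr t).U 1 j y *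
      (D.toFT b' pr' t').U 1 i y) ≤
      2 * K * (1 / (l : ℝ) + 2 * (cof (D.it j / pr) (r / pr') * (b' * ρ r))) *
        I ((D.toFT b pr t).U 1 j) := by
  obtain ⟨q1, q2, q3⟩ := hF.item _ hj
  obtain ⟨r1, r2, r3⟩ := hF'.item _ hr
  set v := D.it j / pr with hv
  set v' := r / pr' with hv'
  have v0 : 0 < v := Nat.div_pos (Nat.le_of_dvd q1 q2) (Nat.pos_of_dvd_of_pos q2 q1)
  have v0' : 0 < v' := Nat.div_pos (Nat.le_of_dvd r1 r2) (Nat.pos_of_dvd_of_pos r2 r1)
  have hU : PB ((D.toFT b pr t).U 1 j) := FT.pb hb (D.toFT_Adm t b pr hb hF hW) (one_dvd _) j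
  have hU' : ∀ i, PB ((D.toFT b' pr' t').U 1 i) := fun i =>
    FT.pb hb' (D.toFT_Adm t' b' pr' hb' hF' hW') (one_dvd _) i
  have hI : 0 ≤ I ((D.toFT b pr t).U 1 j) := I_nonneg fun x => hU.nonneg x
  have hρ : 0 ≤ (b' : ℝ) * ρ r := mul_nonneg (Nat.cast_nonneg _) (hR.pos r).le
  -- the sum is below the arc
  have h1 : ∑ i ∈ A.filter (fun i => D.it i = r), I (fun y => (D.toFT b pr t).U 1 j y *
      (D.toFT b' pr' t').U 1 i y) ≤
      I (fun y => (D.toFT b pr t).U 1 j y * arc (b' * D.γ) (b' * ρ r) v' y) := by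
    have e : ∑ i ∈ A.filter (fun i => D.it i = r), I (fun y => (D.toFT b pr t).U 1 j y *
        (D.toFT b' pr' t').U 1 i y) = I (fun y => ∑ i ∈ A.filter (fun i => D.it i = r),
        (D.toFT b pr t).U 1 j y * (D.toFT b' pr' t').U 1 i y) := by
      unfold I
      rw [MeasureTheory.integral_finsetSum]
      intro i _
      exact (hU.mul (hU' i)).integrableOn
    rw [e]
    refine I_mono (PB.sum _ fun i _ => hU.mul (hU' i)).integrableOn
      (hU.mul (PB_arc _ _ v0')).integrableOn fun y => ?_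
    rw [← Finset.mul_sum]
    exact mul_le_mul_of_nonneg_left (sum_le_arc hR hb' hF' hW' hr A y) (hU.nonneg y)
  refine h1.trans ?_
  -- the prime `l`
  set x := cof v v' with hx
  have x0 : 0 < x := Crest.Agent.R4.AvgItem710.cof_pos v0
  obtain ⟨e, k, hk, hxe⟩ := Nat.exists_eq_pow_mul_and_not_dvd x0.ne' l hl.one_lt.ne'
  have k0 : 0 < k := Nat.pos_of_ne_zero fun h => hk (h ▸ dvd_zero l)
  have e0 : 0 < e := by
    rcases Nat.eq_zero_or_pos e with h | h
    · rw [h, pow_zero, one_mul] at hxe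
      rw [hxe] at hd
      exact absurd hd hk
    · exact h
  have hg : 0 < v.gcd v' := Nat.gcd_pos_of_pos_left _ v0
  have ev : v.gcd v' * x = v := Crest.Agent.R4.AvgItem710.mul_cof
  have ev' : v.gcd v' * cof v' v = v' := Crest.Agent.R4.AvgItem710.mul_cof'
  have hcop : Nat.Coprime x (cof v' v) := Crest.Agent.R4.AvgItem710.cof_coprime v0
  have h2 : ¬ v ∣ v' * k := by
    intro h
    have h' : v.gcd v' * x ∣ v.gcd v' * (cof v' v * k) := by
      rw [ev, ← mul_assoc, ev']; exact h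
    have h3 := Nat.dvd_of_mul_dvd_mul_left hg h'
    have h4 : x ∣ k := hcop.dvd_of_dvd_mul_left h3
    rw [hxe] at h4
    have h5 : l ∣ k := (dvd_pow_self l e0.ne').trans ((Dvd.intro _ rfl).trans h4)
    exact hk h5
  have h3 : v ∣ v' * k * l ^ e := by
    have : v' * k * l ^ e = v.gcd v' * (x * cof v' v) := by
      rw [hxe]
      conv_lhs => rw [← ev']
      ring
    rw [this, ← mul_assoc, ev]
    exact Dvd.intro _ rfl
  have key := sp_arc D hab hK hl (m := e) hb hF hW (one_dvd b) hj hL (θ := b' * D.γ)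
    (r := b' * ρ r) hρ v0' k0 h2 h3
  refine key.trans (mul_le_mul_of_nonneg_right (mul_le_mul_of_nonneg_left ?_ (by positivity)) hI)
  have hkx : (k : ℝ) ≤ x := by
    have : k ≤ x := by rw [hxe]; exact Nat.le_mul_of_pos_left _ (Nat.pow_pos hl.pos)
    exact_mod_cast this
  have := mul_le_mul_of_nonneg_right hkx hρ
  linarith

end abs

lemma prf_nonneg (t : IT) : ∀ q, 0 ≤ prf t q := by
  have h : ∀ p : ℕ, 0 ≤ 1 - 1 / (p : ℝ) := by
    intro p
    rcases Nat.eq_zero_or_pos p with h | h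
    · subst h; simp
    · have : (1 : ℝ) ≤ p := by exact_mod_cast h
      have := (div_le_one (by linarith : (0:ℝ) < p)).2 this
      linarith
  induction t with
  | leaf S => intro q; exact zero_le_one
  | br p Sp t₁ t₀ ih₁ ih₀ =>
    intro q
    show 0 ≤ if q ∈ t₀.items then prf t₀ q else (1 - 1 / (p : ℝ)) * prf t₁ q
    split_ifs
    · exact ih₀ q
    · exact mul_nonneg (h p) (ih₁ q)
  | add p t₁ t₀ ih₁ ih₀ =>
    intro q
    show 0 ≤ if q ∈ t₀.items then prf t₀ q else prf t₁ q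
    split_ifs
    · exact ih₀ q
    · exact ih₁ q
  | up p Sp t ih => intro q; exact ih q
  | pl p t ih => intro q; exact ih q
  | far p t₁ t₀ ih₁ ih₀ =>
    intro q
    show 0 ≤ if q ∈ t₀.items then prf t₀ q else prf t₁ q
    split_ifs
    · exact ih₀ q
    · exact ih₁ q

/-! ### contexts -/

variable {N : Skel189.Num} {γ : ℝ} {p0 P₀ : ℕ} {X : Ctx N γ p0 P₀}

/-- mass of the item `q` at the node `(s, t)` -/
noncomputable def MI (X : Ctx N γ p0 P₀) (s : NS) (t : IT) (q : ℕ) : ℝ :=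
  ∑ j ∈ Finset.univ.filter (fun j : X.c.Lam => j.1.1 = q), I (vN X (.inl (s, t)) j)

/-- **mass facts of a node** -/
structure MN (X : Ctx N γ p0 P₀) (u : NS) (τ : IT) : Prop where
  nd : QX X u τ
  /-- leaf weights of the alive pieces -/
  lf : ∀ j : X.c.Lam, j.1.1 ∈ X.S' → j.1.1 ∈ τ.items →
    LfW (X.c.D.par X.Y) j (j.1.1 / (u.A * pp τ j.1.1)) 4
  /-- own radius against the mass -/
  lo : ∀ p : ℕ, p0 ≤ p → (∀ r : ℕ, r.Prime → r < u.n → r ≤ p) → ∀ q ∈ X.S', q ∈ τ.items →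
    RB X u q ≤ 4 * CT * Real.log p * MI X u τ q

lemma MI_nonneg {s : NS} {t : IT} (h : QX X s t) (q : ℕ) : 0 ≤ MI X s t q :=
  Finset.sum_nonneg fun j _ => I_nonneg fun y => (PB_vN_inl h j).nonneg y

theorem ctx_MN (N : Skel189.Num) : ∃ p₁ : ℕ, ∀ p0 ≥ p₁, ∀ (γ : ℝ) (P₀ : ℕ), 2 ≤ P₀ →
    ∀ X : Ctx N γ p0 P₀, All (MN X) ⟨top X.S, 1, 1, 1⟩ X.c.t := by
  obtain ⟨a1, h1⟩ := Skel189.ctx_mean N
  obtain ⟨a2, h2⟩ := OSCtx710.ctx_OB N (c₀ := 1 / 2)
  obtain ⟨a3, h3⟩ := ctx_half N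
  obtain ⟨a4, h4⟩ := NI927.ctx_NI N (c₀ := 1 / 2) (by norm_num)
  refine ⟨a1 + a2 + a3 + a4, fun p0 hp0 γ P₀ hP X => ?_⟩
  have hm : NI927.Mean X (1 / 2) := fun q hq z => (h1 p0 (by omega) γ P₀ hP X).1 q hq z
  have hNI := h4 p0 (by omega) γ P₀ X X.Y p0 le_rfl
  have hab : ∀ j : X.c.Lam, (X.c.D.par X.Y).al j ≤ (X.c.D.par X.Y).be j := fun j =>
    (X.ok.bpm _ (Cf.mem_S j) (Cf.r_pos j) (Nat.le_succ _))
  refine All.mono (fun u τ hh => ?_) ((ctx_NDt X).and (h2 p0 (by omega) γ P₀ X X.Y hm))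
  obtain ⟨hN, hO⟩ := hh
  have hpp : ∀ q ∈ τ.items, pp X.c.t q = u.A * pp τ q := fun q hq => hN.all.self.pp q hq
  refine ⟨hN, fun j hjs hjt => ?_, fun p hp hlv q hqs hqt => ?_⟩
  · -- the leaf weight
    have hd := (Bld532.Fit_of_NodeOk (All.mono (fun _ _ hh => hh.node) hN.all)).item _ hjt
    have hdv : pp X.c.t j.1.1 ∣ j.1.1 := X.ok.dvd _ (Cf.mem_S j)
    have h0 : 0 < j.1.1 / pp X.c.t j.1.1 :=
      Nat.div_pos (Nat.le_of_dvd hd.1 hdv) (Nat.pos_of_dvd_of_pos hdv hd.1)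
    rw [← hpp _ hjt]
    refine ⟨PL X (pp X.c.t j.1.1) j.1.1, uL X j.1.1,
      fun l hl => Nat.prime_of_mem_primeFactors (Finset.mem_filter.1 hl).1,
      fun l hl => Nat.dvd_of_mem_primeFactors (Finset.mem_filter.1 hl).1,
      fun l hl => ExF_uw _ _ _ (Nat.prime_of_mem_primeFactors (Finset.mem_filter.1 hl).1),
      fun a => ?_, ?_⟩
    · have k1 := X.om_le j.1.1 (X.c.bp j.1.1 j.1.2) a
      refine k1.trans ?_
      unfold omL omT
      exact omw_le_nw (Crest.Agent.R4.LF363.LW_uw _ _ _ _) a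
    · have k1 := dens_PL_le (X := X) h0 (h3 p0 (by omega) γ P₀ X _ hjs)
      have k2 := hm _ hjs (X.c.bp j.1.1 j.1.2)
      refine k1.trans ?_
      show 2 * tq (j.1.1 / pp X.c.t j.1.1) ≤ 4 * mnw (j.1.1 / pp X.c.t j.1.1)
        (X.c.om j.1.1 (X.c.bp j.1.1 j.1.2))
      linarith
  · -- the mass
    have hF := Bld532.Fit_of_NodeOk (All.mono (fun _ _ hh => hh.node) hN.all)
    have hB : (0 : ℝ) < u.B := by exact_mod_cast hN.B_pos
    have hlp := hO.lg p hp hlv q hqs hqt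
    have hph := hO.ph q hqs hqt
    have t0 := tq_nonneg (q / u.A)
    have t1 := tq_nonneg (q / (u.A * pp τ q))
    -- the masses of the pieces
    have e1 : MI X u τ q = ∑ j ∈ Finset.univ.filter (fun j : X.c.Lam => j.1.1 = q),
        (u.B : ℝ) * ((X.c.D.par X.Y).be j - (X.c.D.par X.Y).al j) * prf τ q *
          mnw (q / (u.A * pp τ q)) ((X.c.D.par X.Y).om j) := by
      refine Finset.sum_congr rfl fun j hj => ?_
      have hj' : j.1.1 = q := (Finset.mem_filter.1 hj).2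
      have h5 := (X.c.D.par X.Y).I_U hab τ u.B u.A 1 hN.B_pos hF (wts_nd hN X.Y) (one_dvd _) j
        (by show j.1.1 ∈ τ.items; rw [hj']; exact hqt)
      have e2 : (X.c.D.par X.Y).it j = q := hj'
      rw [e2] at h5
      show I ((X.c.D.par X.Y).toFT u.B u.A τ |>.U 1 j) = _
      rw [h5]
      push_cast
      ring
    have e3 : (1 / 2 : ℝ) * u.B * (2 * X.c.rr q) * (prf τ q * tq (q / (u.A * pp τ q))) ≤
        MI X u τ q := by
      have hprf0 : 0 ≤ prf τ q * tq (q / (u.A * pp τ q)) := mul_nonneg (prf_nonneg τ q) t1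
      refine (mul_le_mul_of_nonneg_right (mul_le_mul_of_nonneg_left (hNI.full q hqs)
        (by positivity : (0:ℝ) ≤ 1 / 2 * u.B)) hprf0).trans ?_
      rw [e1, Finset.mul_sum, Finset.sum_mul]
      refine Finset.sum_le_sum fun j hj => ?_
      have hj' : j.1.1 = q := (Finset.mem_filter.1 hj).2
      have h5 := hO.mean j (by show j.1.1 ∈ X.S'; rw [hj']; exact hqs)
        (by show j.1.1 ∈ τ.items; rw [hj']; exact hqt)
      have e2 : (X.c.D.par X.Y).it j = q := hj'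
      rw [e2] at h5
      have hl : 0 ≤ (X.c.D.par X.Y).be j - (X.c.D.par X.Y).al j := by linarith [hab j]
      have hprf : 0 ≤ prf τ q := prf_nonneg τ q
      have := mul_le_mul_of_nonneg_left h5 (mul_nonneg (mul_nonneg hB.le hl) hprf)
      calc _ = (u.B : ℝ) * ((X.c.D.par X.Y).be j - (X.c.D.par X.Y).al j) * prf τ q *
            (1 / 2 * tq (q / (u.A * pp τ q))) := by ring
        _ ≤ _ := this
    have hrr : 0 < X.c.rr q := (X.ok.rad X.Y).pos q
    have hR : RB X u q = u.B * X.c.rr q := rfl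
    have h7 : RB X u q * tq (q / u.A) ≤ 2 * MI X u τ q := by
      rw [hR]
      have h8 := mul_le_mul_of_nonneg_left hph (mul_nonneg hB.le hrr.le)
      nlinarith
    have h9 : 0 ≤ RB X u q := by rw [hR]; positivity
    have hC := CT_pos
    have hlog : 0 ≤ Real.log (p : ℝ) := Real.log_natCast_nonneg p
    calc RB X u q = RB X u q * 1 := (mul_one _).symm
      _ ≤ RB X u q * (2 * CT * Real.log p * tq (q / u.A)) := mul_le_mul_of_nonneg_left hlp h9
      _ = 2 * CT * Real.log p * (RB X u q * tq (q / u.A)) := by ring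
      _ ≤ 2 * CT * Real.log p * (2 * MI X u τ q) := mul_le_mul_of_nonneg_left h7 (by positivity)
      _ = 4 * CT * Real.log p * MI X u τ q := by ring

end Crest.Agent.R4P.XmM18
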