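import Crest.Agent.R4P.UU2_24
import Crest.Agent.R4P.RtU_28
import Crest.Agent.R4P.XmM_18

/-!
R4 (S0004), powers pass, helper24: **pairs of N pieces without label of two ties of one circle and column**
(doc 1952 (D), direct part of E3 for the real class `none`), node form of `UU24.rtUU'`.

* `M2X` : `wA ≤ 2 MI` for the alive items, `ctx_M2`.
* **`tie_uu`** : two true ties `(u, br p ..)`, `(u', br p ..)` of one circle, `R` a set of pairs of N pieces of one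
  real index and real state `none` (`SameIx30.UN`) with a cofactor `≥ K` or a radius ratio `≥ K` :
  `Q R (vN u) (vN u') ≤ ((log p)^(-s) + C log p / K) (∑ MI + ∑ MI)` (masses of the items which occur).
-/

set_option autoImplicit false
set_option linter.unusedSectionVars false
set_option linter.unusedVariables false

open MeasureTheory Filter

namespace Crest.Agent.R4P.UU3

open Crest.Agent.R4P.Cnt588 Crest.Agent.R4P.Item758 Crest.Agent.R4P.W363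
open Crest.Agent.R4P.Data758 Crest.Agent.R4P.OmSt532 Crest.Agent.R4P.OmData532
open Crest.Agent.R4P.LfDat734 Crest.Agent.R4P.WPex189
open Crest.Agent.R4P.Bld532 (NS All NodeOk Bk)
open Crest.Agent.R4P.Step588 (NDt ND1 ctx_NDt uq_lt CT CT_pos)
open Crest.Agent.R4P.WalkIT579 (tp isL nodeOk_hi top_of_nodeOk)
open Crest.Agent.R4P.Skel189 Crest.Agent.R4P.RseSt23
open Crest.Agent.R4P.RseNd23 (wA al NF RseH)
open Crest.Agent.R4P.RtC28 (Q_eq_sum iF_ne tp_le log_two_mul)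
open Crest.Agent.R4.LF363 (Lab)
open Crest.Agent.R4.HVW560 (cof)
open Crest.Agent.R4.AvgItem710 (Dp mul_cof mul_cof' cof_pos cof_coprime exists_of_I_ne)
open Crest.Agent.R4P.AvgItem710
open Crest.Agent.R4.ClosL758 Crest.Agent.R4.ClosR758 Crest.Agent.R4.Tour104 Crest.Agent.R4.Fam464
open Crest.Agent.R4.Tour758 Crest.Agent.R4.Avg758
open Crest.Agent.R4P.Frame758
open Crest.Agent.R4.Soft104 (w)
open Crest.Agent.R4
open Crest.Agent.R4P.RtU28 (BFc blkF)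
open Crest.Agent.R4.Piece464 (mnw)
open Crest.Agent.R4P.SameIx30 (UN wts_nd RB)
open Crest.Agent.R4P.GPair33 (QX vN vN_eq_uA PB_vN_inl tooth)
open Crest.Agent.R4P.XmM18 (MI MI_nonneg)
open Crest.Agent.R4.DeepSt579 (tq tq_nonneg)
open Crest.Agent.R4P.UU24

variable {N : Skel189.Num} {γ : ℝ} {p0 P₀ : ℕ} {X : Ctx N γ p0 P₀}

/-! ### masses -/

/-- weighted radius against the mass of the item -/
def M2X (X : Ctx N γ p0 P₀) (u : NS) (τ : IT) : Prop :=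
  ∀ q ∈ X.S', q ∈ τ.items → wA u.A (RB X u) q ≤ 2 * MI X u τ q

lemma wA_tq (X : Ctx N γ p0 P₀) (u : NS) (q : ℕ) :
    wA u.A (RB X u) q = RB X u q * tq (q / u.A) := rfl

theorem ctx_M2 (N : Skel189.Num) : ∃ p₁ : ℕ, ∀ p0 ≥ p₁, ∀ (γ : ℝ) (P₀ : ℕ), 2 ≤ P₀ →
    ∀ X : Ctx N γ p0 P₀, All (M2X X) ⟨top X.S, 1, 1, 1⟩ X.c.t := by
  obtain ⟨a1, h1⟩ := Skel189.ctx_mean N
  obtain ⟨a2, h2⟩ := OSCtx710.ctx_OB N (c₀ := 1 / 2)
  obtain ⟨a4, h4⟩ := NI927.ctx_NI N (c₀ := 1 / 2) (by norm_num)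
  refine ⟨a1 + a2 + a4, fun p0 hp0 γ P₀ hP X => ?_⟩
  have hm : NI927.Mean X (1 / 2) := fun q hq z => (h1 p0 (by omega) γ P₀ hP X).1 q hq z
  have hNI := h4 p0 (by omega) γ P₀ X X.Y p0 le_rfl
  have hab : ∀ j : X.c.Lam, (X.c.D.par X.Y).al j ≤ (X.c.D.par X.Y).be j := fun j =>
    (X.ok.bpm _ (Cf.mem_S j) (Cf.r_pos j) (Nat.le_succ _))
  refine All.mono (fun u τ hh => ?_) ((ctx_NDt X).and (h2 p0 (by omega) γ P₀ X X.Y hm))
  obtain ⟨hN, hO⟩ := hh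
  intro q hqs hqt
  have hF := Bld532.Fit_of_NodeOk (All.mono (fun _ _ hh => hh.node) hN.all)
  have hB : (0 : ℝ) < u.B := by exact_mod_cast hN.B_pos
  have hph := hO.ph q hqs hqt
  have t0 := tq_nonneg (q / u.A)
  have t1 := tq_nonneg (q / (u.A * pp τ q))
  have e1 : MI X u τ q = ∑ j ∈ Finset.univ.filter (fun j : X.c.Lam => j.1.1 = q),
      (u.B : ℝ) * ((X.c.D.par X.Y).be j - (X.c.D.par X.Y).al j) * prf τ q *
        mnw (q / (u.A * pp τ q)) ((X.c.D.par X.Y).om j) := by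
    refine Finset.sum_congr rfl fun j hj => ?_
    have hj' : j.1.1 = q := (Finset.mem_filter.1 hj).2
    have h5 := (X.c.D.par X.Y).I_U hab τ u.B u.A 1 hN.B_pos hF (wts_nd hN X.Y) (one_dvd _) j
      (by show j.1.1 ∈ τ.items; rw [hj']; exact hqt)
    have e2 : (X.c.D.par X.Y).it j = q := hj'
    rw [e2] at h5
    show I ((X.c.D.par X.Y).toFT u.B u.A τ |>.U 1 j) = _
    rw [h5]
    push_cast
    ring
  have e3 : (1 / 2 : ℝ) * u.B * (2 * X.c.rr q) * (prf τ q * tq (q / (u.A * pp τ q))) ≤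
      MI X u τ q := by
    have hprf0 : 0 ≤ prf τ q * tq (q / (u.A * pp τ q)) := mul_nonneg (XmM18.prf_nonneg τ q) t1
    refine (mul_le_mul_of_nonneg_right (mul_le_mul_of_nonneg_left (hNI.full q hqs)
      (by positivity : (0:ℝ) ≤ 1 / 2 * u.B)) hprf0).trans ?_
    rw [e1, Finset.mul_sum, Finset.sum_mul]
    refine Finset.sum_le_sum fun j hj => ?_
    have hj' : j.1.1 = q := (Finset.mem_filter.1 hj).2
    have h5 := hO.mean j (by show j.1.1 ∈ X.S'; rw [hj']; exact hqs)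
      (by show j.1.1 ∈ τ.items; rw [hj']; exact hqt)
    have e2 : (X.c.D.par X.Y).it j = q := hj'
    rw [e2] at h5
    have hl : 0 ≤ (X.c.D.par X.Y).be j - (X.c.D.par X.Y).al j := by linarith [hab j]
    have hprf : 0 ≤ prf τ q := XmM18.prf_nonneg τ q
    have := mul_le_mul_of_nonneg_left h5 (mul_nonneg (mul_nonneg hB.le hl) hprf)
    calc _ = (u.B : ℝ) * ((X.c.D.par X.Y).be j - (X.c.D.par X.Y).al j) * prf τ q *
          (1 / 2 * tq (q / (u.A * pp τ q))) := by ring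
      _ ≤ _ := this
  have hrr : 0 < X.c.rr q := (X.ok.rad X.Y).pos q
  rw [wA_tq]
  have h8 := mul_le_mul_of_nonneg_left hph (mul_nonneg hB.le hrr.le)
  show (u.B : ℝ) * X.c.rr q * tq (q / u.A) ≤ _
  nlinarith

/-! ### the numbers -/

/-- powers of the logarithm over `p` -/
lemma num_sq (K : ℝ) : ∃ p₁ : ℕ, ∀ p : ℕ, p₁ ≤ p → 1 ≤ Real.log p ∧
    Real.log p ^ K / p ≤ (p:ℝ) ^ (-(1/2:ℝ)) ∧
    (p:ℝ) ^ (-(1/2:ℝ)) ≤ Real.exp (-(Real.log p ^ (4/5:ℝ))) ^ 2 := by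
  have h1 : Filter.Tendsto (fun x : ℝ => x ^ K * Real.exp (-(1/2) * x)) Filter.atTop (nhds 0) :=
    tendsto_rpow_mul_exp_neg_mul_atTop_nhds_zero K (1/2) (by norm_num)
  have h2 : ∀ᶠ x : ℝ in Filter.atTop, x ^ K * Real.exp (-(1/2) * x) ≤ 1 :=
    (h1.eventually (gt_mem_nhds one_pos)).mono fun x hx => hx.le
  have h3 : ∀ᶠ x : ℝ in Filter.atTop, (4:ℝ) ^ (5:ℝ) ≤ x := Filter.eventually_ge_atTop _
  have h4 := Real.tendsto_log_atTop.comp (tendsto_natCast_atTop_atTop (R := ℝ))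
  obtain ⟨p₁, hp₁⟩ := Filter.eventually_atTop.1 (h4.eventually (h2.and h3))
  refine ⟨p₁ + 1, fun p hp => ?_⟩
  obtain ⟨g1, g2⟩ := hp₁ p (by omega)
  simp only [Function.comp] at g1 g2
  set x := Real.log (p:ℝ) with hx
  have h45 : (1:ℝ) ≤ (4:ℝ) ^ (5:ℝ) := Real.one_le_rpow (by norm_num) (by norm_num)
  have hx1 : 1 ≤ x := h45.trans g2
  have hx0 : 0 < x := by linarith
  have hp0 : (0:ℝ) < p := by exact_mod_cast (by omega : 0 < p)
  have e4 : (p:ℝ) = Real.exp x := (Real.exp_log hp0).symm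
  have e5 : (p:ℝ) ^ (-(1/2:ℝ)) = Real.exp (-(1/2) * x) := by
    rw [e4, ← Real.exp_mul]
    congr 1
    ring
  refine ⟨hx1, ?_, ?_⟩
  · rw [e5, e4, div_eq_mul_inv, ← Real.exp_neg]
    calc x ^ K * Real.exp (-x) = (x ^ K * Real.exp (-(1/2) * x)) * Real.exp (-(1/2) * x) := by
          rw [mul_assoc, ← Real.exp_add]
          congr 2
          ring
      _ ≤ 1 * Real.exp (-(1/2) * x) := mul_le_mul_of_nonneg_right g1 (Real.exp_pos _).le
      _ = Real.exp (-(1/2) * x) := one_mul _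
  · -- `x^(4/5) ≤ x / 4`
    have h5 : x ^ (4/5:ℝ) ≤ x / 4 := by
      have e1 : x = x ^ (4/5:ℝ) * x ^ (1/5:ℝ) := by
        rw [← Real.rpow_add hx0]; norm_num
      have e2 : (4:ℝ) ≤ x ^ (1/5:ℝ) := by
        calc (4:ℝ) = ((4:ℝ) ^ (5:ℝ)) ^ (1/5:ℝ) := by
              rw [← Real.rpow_mul (by norm_num)]; norm_num
          _ ≤ x ^ (1/5:ℝ) := Real.rpow_le_rpow (by positivity) g2 (by norm_num)
      have h6 : 0 < x ^ (4/5:ℝ) := Real.rpow_pos_of_pos hx0 _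
      rw [le_div_iff₀ (by norm_num)]
      calc x ^ (4/5:ℝ) * 4 ≤ x ^ (4/5:ℝ) * x ^ (1/5:ℝ) := mul_le_mul_of_nonneg_left e2 h6.le
        _ = x := e1.symm
    have e3 : Real.exp (-(x ^ (4/5:ℝ))) ^ 2 = Real.exp (-(2 * x ^ (4/5:ℝ))) := by
      rw [← Real.exp_nat_mul]
      congr 1
      push_cast
      ring
    rw [e3, e5]
    exact Real.exp_le_exp.2 (by linarith)

/-! ### the relation and the energy of a pair of items -/

/-- a dead piece has the value zero -/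
lemma vN_dead24 {s : NS} {t : IT} (h : QX X s t) {j : X.c.Lam} (hj : j.1.1 ∉ X.S') (y : ℝ) :
    vN X (.inl (s, t)) j y = 0 := by
  by_contra hne
  obtain ⟨h1, a, h2, -⟩ := (X.c.D.par X.Y).supp (b := s.B) (pr := s.A) (c := 1) h.B_pos h.fit
    (wts_nd h X.Y) (one_dvd _) (j := j) (x := y) hne
  exact h2 (NI927.ctx_dead X j hj _)

/-- the scale -/
lemma DaI_DX {u u' : NS} {e : ℕ × ℕ} :
    LeafSide28.DaI X.c.rr 1 u.B u.A 1 1 u'.B u'.A 1 e = DX u.A u'.A (RB X u) (RB X u') e := by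
  unfold LeafSide28.DaI Da DX Crest.Agent.R4.AvgItem710.Dp RB
  simp [rf]

lemma DX_pos {u u' : NS} {τ τ' : IT} (h : QX X u τ) (h' : QX X u' τ') {e : ℕ × ℕ}
    (he : e.1 ∈ τ.items) (he' : e.2 ∈ τ'.items) : 0 < DX u.A u'.A (RB X u) (RB X u') e := by
  rw [← DaI_DX, SameIx30.DaI_eq]
  exact SameIx30.DU_pos (Y := X.Y) h h' one_pos one_pos he he'

/-- **one pair of items** -/
lemma iF_uu {u u' : NS} {τ τ' : IT} (h : QX X u τ) (h' : QX X u' τ') {p : ℕ} (hp : p ≤ top X.S)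
    (hT : u.A * u.B = u'.A * u'.B) {R : Finset (X.c.Lam × X.c.Lam)} (hR : UN X p R) {η : ℝ}
    (hη : etaL X.c.wp p ≤ η) {e : ℕ × ℕ} (he : e.1 ∈ τ.items) (he' : e.2 ∈ τ'.items) :
    (X.c.D.par X.Y).iF R (vN X (.inl (u, τ))) (vN X (.inl (u', τ'))) e ≤
      2 * ((RB X u e.1 * RB X u' e.2) / DX u.A u'.A (RB X u) (RB X u') e) *
        (2 * (η * DX u.A u'.A (RB X u) (RB X u') e) + 1) := by
  have hD := DX_pos h h' he he'
  have hη0 : 0 ≤ η := (etaL_pos _ _).le.trans hη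
  have circ : u.A * u.B * 1 = u'.A * u'.B * 1 := by rw [mul_one, mul_one]; exact hT
  have hrw := SameIx30.RW_none h h' hp one_pos one_pos circ X.Y hR Finset.univ Finset.univ he he'
  rw [← SameIx30.DaI_eq, DaI_DX] at hrw
  have hle : etaL X.c.wp p * DX u.A u'.A (RB X u) (RB X u') e ≤
      η * DX u.A u'.A (RB X u) (RB X u') e := mul_le_mul_of_nonneg_right hη hD.le
  have key := SameIx30.iF_rel_avg (X.ok.rad X.Y) one_pos one_pos h.B_pos h'.B_pos h.fit h'.fit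
    (wts_nd h X.Y) (wts_nd h' X.Y) (one_dvd _) (one_dvd _) R e he he'
    (mul_nonneg hη0 hD.le)
    (fun x hx a1 a2 i1 i2 y a a' l1 l2 l3 l4 => (hrw x hx a1 a2 i1 i2 y a a' l1 l2 l3 l4).trans hle)
  rw [DaI_DX, Nat.cast_one, div_one, div_one] at key
  rw [vN_eq_uA, vN_eq_uA]
  refine key.trans (le_of_eq ?_)
  ring

/-- **the relation of a pair of items with positive energy** -/
lemma rel_uu {u u' : NS} {τ τ' : IT} (h : QX X u τ) (h' : QX X u' τ') {p : ℕ} (hp : p ≤ top X.S)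
    (hT : u.A * u.B = u'.A * u'.B) {R : Finset (X.c.Lam × X.c.Lam)} (hR : UN X p R) {η : ℝ}
    (hη : etaL X.c.wp p ≤ η) {e : ℕ × ℕ}
    (h0 : (X.c.D.par X.Y).iF R (vN X (.inl (u, τ))) (vN X (.inl (u', τ'))) e ≠ 0) :
    (∃ x ∈ R, x.1.1.1 = e.1 ∧ x.2.1.1 = e.2) ∧ e.1 ∈ τ.items ∧ e.2 ∈ τ'.items ∧ e.1 ∈ X.S' ∧
    e.2 ∈ X.S' ∧ ∃ m m' : ℤ,
      |(m + (u.B:ℝ) * X.c.γ) * (cof (e.2 / u'.A) (e.1 / u.A) : ℕ) -
        (m' + (u'.B:ℝ) * X.c.γ) * (cof (e.1 / u.A) (e.2 / u'.A) : ℕ)| ≤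
        η * DX u.A u'.A (RB X u) (RB X u') e := by
  obtain ⟨j, j', hx, hI, i1, i2⟩ := Par.mem_PE.1 (iF_ne h0)
  have i1' : j.1.1 = e.1 := i1
  have i2' : j'.1.1 = e.2 := i2
  obtain ⟨y, y1, y2⟩ := exists_of_I_ne hI
  obtain ⟨hj, a, l1, l2⟩ := tooth h y1
  obtain ⟨hj', a', l3, l4⟩ := tooth h' y2
  have s1 := hR.un _ hx
  have s2 := hR.un' _ hx
  have al1 : j.1.1 ∈ X.S' := by
    by_contra hn
    exact y1 (vN_dead24 h hn y)
  have al2 : j'.1.1 ∈ X.S' := by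
    by_contra hn
    exact y2 (vN_dead24 h' hn y)
  refine ⟨⟨_, hx, i1', i2'⟩, by rw [← i1']; exact hj, by rw [← i2']; exact hj',
    by rw [← i1']; exact al1, by rw [← i2']; exact al2, a, a', ?_⟩
  have circ : u.A * u.B * 1 = u'.A * u'.B * 1 := by rw [mul_one, mul_one]; exact hT
  have k := SameIx30.rel_none2 h h' hp one_pos one_pos circ (hR.ix _ hx) hj hj' s1 s2 (y := y)
    (a := a) (a' := a') (by simpa [rf] using l1) (by simpa [rf] using l2) (by simpa [rf] using l3)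
    (by simpa [rf] using l4)
  rw [DaI_DX, i1', i2'] at k
  have e3 : e.1 / u.A / (1 : ℕ).gcd (e.1 / u.A) = e.1 / u.A := by simp
  have e4 : e.2 / u'.A / (1 : ℕ).gcd (e.2 / u'.A) = e.2 / u'.A := by simp
  have e1 : rf (e.1 / u.A) 1 = 1 := by simp [rf]
  have e2 : rf (e.2 / u'.A) 1 = 1 := by simp [rf]
  rw [e1, e2, e3, e4, one_mul, one_mul] at k
  have hD := DX_pos h h' (e := e) (by rw [← i1']; exact hj) (by rw [← i2']; exact hj')
  exact k.trans (mul_le_mul_of_nonneg_right hη hD.le)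

/-! ### two true ties of one circle and column -/

open Classical in
/-- alive items of a node which occur on one side of `R` -/
noncomputable def ocI (X : Ctx N γ p0 P₀) (A : Finset X.c.Lam) (T : Finset ℕ) : Finset ℕ :=
  T.filter fun q => q ∈ X.S' ∧ ∃ j ∈ A, j.1.1 = q

/-- radii of the N pieces of a tie -/
lemma rad_N {p : ℕ} {u : NS} {Sp : Finset ℕ} {t₁ t₀ : IT} (hA : All (NF X) u (.br p Sp t₁ t₀))
    (hp : p0 < p) {q : ℕ} (hq : q ∈ t₀.items) (hs : q ∈ X.S') :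
    RB X u q ≤ Real.log p ^ (N.B + N.c2 + 2) / p := by
  have hp0 : (0:ℝ) < p := by exact_mod_cast (by omega : 0 < p)
  have h0 : NF X ⟨p, u.c * p, u.A, u.B * p⟩ t₀ := hA.2.2.self
  have h1 := h0.rd.gen q hq hs p hp le_rfl
  rw [le_div_iff₀ hp0]
  refine le_trans (le_of_eq ?_) h1
  show (u.B : ℝ) * X.c.rr q * p = ((u.B * p : ℕ) : ℝ) * X.c.rr q
  push_cast
  ring

set_option maxHeartbeats 1000000 in
/-- **pairs of N pieces without label of two true ties of one circle and column** -/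
theorem tie_uu (N : Skel189.Num) (s : ℝ) : ∃ p₁ : ℕ, ∀ p0 ≥ p₁, ∀ (γ : ℝ) (P₀ : ℕ), 2 ≤ P₀ →
    ∀ X : Ctx N γ p0 P₀, RseH X → ∀ {p : ℕ} {u u' : NS} {Sp Sp' : Finset ℕ} {t₁ t₀ t₁' t₀' : IT},
    All (NF X) u (.br p Sp t₁ t₀) → All (NF X) u' (.br p Sp' t₁' t₀') →
    u.A * u.B = u'.A * u'.B → ∀ {K : ℝ}, 0 < K → ∀ R : Finset (X.c.Lam × X.c.Lam), UN X p R →
    (∀ x ∈ R, x.1.1.1 ∈ t₀.items ∧ x.2.1.1 ∈ t₀'.items) →
    (∀ x ∈ R, K ≤ (cof (x.1.1.1 / u.A) (x.2.1.1 / u'.A) : ℕ) ∨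
      K ≤ (cof (x.2.1.1 / u'.A) (x.1.1.1 / u.A) : ℕ) ∨
      K * RB X u x.1.1.1 ≤ RB X u' x.2.1.1 ∨ K * RB X u' x.2.1.1 ≤ RB X u x.1.1.1) →
    Q R (vN X (.inl (u, .br p Sp t₁ t₀))) (vN X (.inl (u', .br p Sp' t₁' t₀'))) ≤
      (Real.log p ^ (-s) + 6 * (4 * CT * Real.log p / K)) *
        (∑ q ∈ ocI X (R.image Prod.fst) t₀.items, wA u.A (RB X u) q +
          ∑ q ∈ ocI X (R.image Prod.snd) t₀'.items, wA u'.A (RB X u') q) := by
  classical
  have hc2 := N.hc2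
  have hCT := Step588.CT_pos
  obtain ⟨p1, h1⟩ := blkF N
  obtain ⟨p2, h2⟩ := rtUU' (4 * CT) (N.c2 + 1) s (by positivity) (by linarith)
  obtain ⟨p3, h3⟩ := num_sq (N.B + N.c2 + 2)
  refine ⟨p1 + p2 + p3, fun p0 hp0 γ P₀ hP₀ X hX p u u' Sp Sp' t₁ t₀ t₁' t₀' hA hA' hT K hK R hR
    hRN hRK => ?_⟩
  set τ : IT := .br p Sp t₁ t₀ with hτ
  set τ' : IT := .br p Sp' t₁' t₀' with hτ'
  have hN := hA.self
  have hN' := hA'.self
  have h := hN.nd
  have h' := hN'.nd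
  have hl : ¬ isL τ := fun h => h
  have hl' : ¬ isL τ' := fun h => h
  obtain ⟨-, g2, -, -⟩ := nodeOk_hi h.self.node hl
  have hp : p0 < p := g2
  have G := h1 p (by omega) p0 (by omega) γ P₀ hP₀ X u τ hN hl le_rfl
    (by show p < 2 * p; omega) Finset.univ
  have G' := h1 p (by omega) p0 (by omega) γ P₀ hP₀ X u' τ' hN' hl' le_rfl
    (by show p < 2 * p; omega) Finset.univ
  have hpt : p ≤ top X.S := G.hpt
  obtain ⟨n1, n2, n3⟩ := h3 p (by omega)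
  have hlam : X.c.lam p = 0 := hX.lam p hp hpt
  set η : ℝ := Real.exp (-(Real.log p ^ (4/5:ℝ))) with hη
  have hη0 : 0 < η := Real.exp_pos _
  have hηe : etaL X.c.wp p ≤ η := by
    have hdep := hX.dep p hp hpt
    unfold etaL
    rw [hη, Real.exp_neg, ← one_div, div_le_div_iff₀ (by positivity) (Real.exp_pos _)]
    linarith
  -- the items
  set T := ocI X (R.image Prod.fst) t₀.items with hTd
  set T' := ocI X (R.image Prod.snd) t₀'.items with hTd'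
  have hTm : ∀ q ∈ T, q ∈ t₀.items ∧ q ∈ X.S' ∧ q ∈ al X τ Finset.univ := by
    intro q hq
    obtain ⟨a1, a2, j, -, hj⟩ := Finset.mem_filter.1 hq
    refine ⟨a1, a2, ?_⟩
    unfold al
    exact Finset.mem_filter.2 ⟨Finset.mem_union_right _ a1, a2, j, Finset.mem_univ _, hj⟩
  have hTm' : ∀ q ∈ T', q ∈ t₀'.items ∧ q ∈ X.S' ∧ q ∈ al X τ' Finset.univ := by
    intro q hq
    obtain ⟨a1, a2, j, -, hj⟩ := Finset.mem_filter.1 hq
    refine ⟨a1, a2, ?_⟩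
    unfold al
    exact Finset.mem_filter.2 ⟨Finset.mem_union_right _ a1, a2, j, Finset.mem_univ _, hj⟩
  set F : ℕ × ℕ → ℝ := (X.c.D.par X.Y).iF R (vN X (.inl (u, τ))) (vN X (.inl (u', τ'))) with hF
  set E : Finset (ℕ × ℕ) := (T ×ˢ T').filter fun e => F e ≠ 0 with hE
  have hEm : ∀ e ∈ E, e.1 ∈ T ∧ e.2 ∈ T' ∧ F e ≠ 0 := fun e he => by
    obtain ⟨a1, a2⟩ := Finset.mem_filter.1 he
    obtain ⟨a3, a4⟩ := Finset.mem_product.1 a1
    exact ⟨a3, a4, a2⟩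
  have hmem : ∀ e ∈ E, e.1 ∈ τ.items ∧ e.2 ∈ τ'.items := fun e he => by
    obtain ⟨a1, a2, -⟩ := hEm e he
    exact ⟨Finset.mem_union_right _ (hTm _ a1).1, Finset.mem_union_right _ (hTm' _ a2).1⟩
  have hsum : Q R (vN X (.inl (u, τ))) (vN X (.inl (u', τ'))) = ∑ e ∈ E, F e := by
    rw [hE, Finset.sum_filter_ne_zero]
    refine Q_eq_sum (X.c.D.par X.Y) R _ _ fun e he => ?_
    have h0 : F e ≠ 0 := by
      obtain ⟨j, j', hx, hI, i1, i2⟩ := Par.mem_PE.1 he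
      have hpos : 0 < I (fun y => vN X (.inl (u, τ)) j y * vN X (.inl (u', τ')) j' y) :=
        lt_of_le_of_ne (I_nonneg fun y => mul_nonneg ((PB_vN_inl h j).nonneg y)
          ((PB_vN_inl h' j').nonneg y)) (Ne.symm hI)
      have hle : I (fun y => vN X (.inl (u, τ)) j y * vN X (.inl (u', τ')) j' y) ≤ F e := by
        rw [hF]
        unfold Par.iF
        refine Finset.single_le_sum (f := fun x : X.c.Lam × X.c.Lam =>
          I (fun y => vN X (.inl (u, τ)) x.1 y * vN X (.inl (u', τ')) x.2 y))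
          (fun x _ => I_nonneg fun y => mul_nonneg ((PB_vN_inl h x.1).nonneg y)
            ((PB_vN_inl h' x.2).nonneg y)) (a := (j, j')) ?_
        exact Finset.mem_filter.2 ⟨hx, Prod.ext i1 i2⟩
      exact (lt_of_lt_of_le hpos hle).ne'
    obtain ⟨⟨x, hx, q1, q2⟩, m1, m2, s1, s2, -⟩ := rel_uu h h' hpt hT hR hηe h0
    obtain ⟨r1, r2⟩ := hRN x hx
    rw [q1] at r1
    rw [q2] at r2
    exact Finset.mem_product.2 ⟨Finset.mem_filter.2 ⟨r1, s1, x.1, Finset.mem_image_of_mem _ hx, q1⟩,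
      Finset.mem_filter.2 ⟨r2, s2, x.2, Finset.mem_image_of_mem _ hx, q2⟩⟩
  rw [hsum]
  have hnone : ∀ e ∈ E, X.c.st p e.1 = none ∧ X.c.st p e.2 = none := fun e he => by
    obtain ⟨⟨x, hx, q1, q2⟩, -⟩ := rel_uu h h' hpt hT hR hηe (hEm e he).2.2
    rw [← q1, ← q2]
    exact ⟨hR.un x hx, hR.un' x hx⟩
  refine h2 p (by omega) u.A u'.A η K (u.B * X.c.γ) (u'.B * X.c.γ) T T' E (RB X u) (RB X u') F
    (fun q hq => (G.alf q (hTm q hq).2.2).dvd) (fun q hq => (G'.alf q (hTm' q hq).2.2).dvd) hη0 le_rfl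
    hK (Finset.filter_subset _ _)
    (fun q hq => ⟨(G.alf q (hTm q hq).2.2).pos, (G.alf q (hTm q hq).2.2).R0⟩)
    (fun q hq => ⟨(G'.alf q (hTm' q hq).2.2).pos, (G'.alf q (hTm' q hq).2.2).R0⟩)
    (fun q hq => G.lo q (hTm q hq).2.2) (fun q hq => G'.lo q (hTm' q hq).2.2)
    (fun z hz q hq => G.tame z hz q (hTm q hq).2.2) (fun z hz q hq => G'.tame z hz q (hTm' q hq).2.2)
    ?_ ?_ ?_ ?_ ?_ ?_
  · refine ((Finset.sum_le_sum_of_subset_of_nonneg (fun q hq => (hTm q hq).2.2) fun q hq _ =>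
      G.wA0 q hq).trans G.hM).trans G.hM2
  · refine ((Finset.sum_le_sum_of_subset_of_nonneg (fun q hq => (hTm' q hq).2.2) fun q hq _ =>
      G'.wA0 q hq).trans G'.hM).trans G'.hM2
  · intro e he
    obtain ⟨⟨x, hx, q1, q2⟩, -⟩ := rel_uu h h' hpt hT hR hηe (hEm e he).2.2
    rw [← q1, ← q2]
    exact hRK x hx
  · intro e he
    exact iF_uu h h' hpt hT hR hηe (hmem e he).1 (hmem e he).2
  · intro e he _
    obtain ⟨-, -, -, -, -, k⟩ := rel_uu h h' hpt hT hR hηe (hEm e he).2.2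
    exact k
  · intro e he
    left
    obtain ⟨a1, -, -⟩ := hEm e he
    obtain ⟨b1, b2, b3⟩ := hTm _ a1
    have hf := G.alf _ b3
    have hr := rad_N hA hp b1 b2
    refine ⟨hr.trans (n2.trans n3), fun ρ => ?_⟩
    have hR' : RB X u e.1 = u.B * X.c.r e.1 := by
      show (u.B:ℝ) * X.c.rr e.1 = _
      rw [hf.rr]
    have key := st_noneB (τ := τ) h X.tOk hl (Finset.mem_union_right _ b1) (wp := X.c.wp)
      (wpL := X.c.wpL) (lv := X.c.lv) (γ := X.c.γ) (r := X.c.r) hlam (hnone e he).1 ?_ ρ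
    · rw [← hR'] at key
      exact key
    · rw [← hR']
      exact (hr.trans n2).trans (hX.thr p hp)

open Classical in
/-- mass of the N pieces of a tie -/
noncomputable def mN (X : Ctx N γ p0 P₀) (u : NS) (τ : IT) (T : Finset ℕ) : ℝ :=
  ∑ j ∈ Finset.univ.filter (fun j : X.c.Lam => j.1.1 ∈ T), I (vN X (.inl (u, τ)) j)

lemma sum_MI_le {u : NS} {τ : IT} (h : QX X u τ) {T T' : Finset ℕ} (hT : T ⊆ T') :
    ∑ q ∈ T, MI X u τ q ≤ mN X u τ T' := by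
  classical
  have e1 : ∑ q ∈ T, MI X u τ q =
      ∑ j ∈ Finset.univ.filter (fun j : X.c.Lam => j.1.1 ∈ T), I (vN X (.inl (u, τ)) j) := by
    rw [← Finset.sum_fiberwise_of_maps_to (s := Finset.univ.filter fun j : X.c.Lam => j.1.1 ∈ T)
      (t := T) (g := fun j : X.c.Lam => j.1.1) (fun j hj => (Finset.mem_filter.1 hj).2)]
    refine Finset.sum_congr rfl fun q hq => ?_
    unfold MI
    refine Finset.sum_congr ?_ fun _ _ => rfl
    ext j
    simp only [Finset.mem_filter, Finset.mem_univ, true_and]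
    exact ⟨fun hj => ⟨by rw [hj]; exact hq, hj⟩, fun hj => hj.2⟩
  rw [e1]
  refine Finset.sum_le_sum_of_subset_of_nonneg (fun j hj => ?_) fun j _ _ =>
    I_nonneg fun y => (PB_vN_inl h j).nonneg y
  obtain ⟨h1, h2⟩ := Finset.mem_filter.1 hj
  exact Finset.mem_filter.2 ⟨h1, hT h2⟩

/-- **pairs of N pieces without label, in masses**: `K = (log p)^(s+2)` -/
theorem tie_uuM (N : Skel189.Num) {s : ℝ} (hs : 0 ≤ s) : ∃ p₁ : ℕ, ∀ p0 ≥ p₁, ∀ (γ : ℝ) (P₀ : ℕ),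
    2 ≤ P₀ → ∀ X : Ctx N γ p0 P₀, RseH X → ∀ {p : ℕ} {u u' : NS} {Sp Sp' : Finset ℕ}
    {t₁ t₀ t₁' t₀' : IT}, All (NF X) u (.br p Sp t₁ t₀) → All (NF X) u' (.br p Sp' t₁' t₀') →
    M2X X u (.br p Sp t₁ t₀) → M2X X u' (.br p Sp' t₁' t₀') →
    u.A * u.B = u'.A * u'.B → ∀ R : Finset (X.c.Lam × X.c.Lam), UN X p R →
    (∀ x ∈ R, x.1.1.1 ∈ t₀.items ∧ x.2.1.1 ∈ t₀'.items) →
    (∀ x ∈ R, Real.log p ^ (s + 2) ≤ (cof (x.1.1.1 / u.A) (x.2.1.1 / u'.A) : ℕ) ∨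
      Real.log p ^ (s + 2) ≤ (cof (x.2.1.1 / u'.A) (x.1.1.1 / u.A) : ℕ) ∨
      Real.log p ^ (s + 2) * RB X u x.1.1.1 ≤ RB X u' x.2.1.1 ∨
      Real.log p ^ (s + 2) * RB X u' x.2.1.1 ≤ RB X u x.1.1.1) →
    Q R (vN X (.inl (u, .br p Sp t₁ t₀))) (vN X (.inl (u', .br p Sp' t₁' t₀'))) ≤
      Real.log p ^ (-s) * (mN X u (.br p Sp t₁ t₀) t₀.items +
        mN X u' (.br p Sp' t₁' t₀') t₀'.items) := by
  classical
  have hCT := Step588.CT_pos
  obtain ⟨p1, h1⟩ := tie_uu N (s + 1)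
  have hlog : Filter.Tendsto (fun n : ℕ => Real.log (n : ℝ)) Filter.atTop Filter.atTop :=
    Real.tendsto_log_atTop.comp tendsto_natCast_atTop_atTop
  obtain ⟨p2, h2⟩ := Filter.eventually_atTop.1
    (hlog.eventually (Filter.eventually_ge_atTop (2 * (1 + 24 * CT) + 1)))
  refine ⟨p1 + p2, fun p0 hp0 γ P₀ hP₀ X hX p u u' Sp Sp' t₁ t₀ t₁' t₀' hA hA' hm hm' hT R hR hRN
    hRK => ?_⟩
  have h := hA.self.nd
  have h' := hA'.self.nd
  obtain ⟨-, g2, -, -⟩ := nodeOk_hi h.self.node (show ¬ isL (.br p Sp t₁ t₀) from fun h => h)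
  have hp : p0 < p := g2
  have hl2 := h2 p (by omega)
  set ℓ := Real.log (p:ℝ) with hℓ
  have hℓ0 : 0 < ℓ := by linarith
  have hK : 0 < ℓ ^ (s + 2) := Real.rpow_pos_of_pos hℓ0 _
  have key := h1 p0 (by omega) γ P₀ hP₀ X hX hA hA' hT hK R hR hRN hRK
  set a := ∑ q ∈ ocI X (R.image Prod.fst) t₀.items, wA u.A (RB X u) q with ha
  set a' := ∑ q ∈ ocI X (R.image Prod.snd) t₀'.items, wA u'.A (RB X u') q with ha'
  set b := mN X u (.br p Sp t₁ t₀) t₀.items with hb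
  set b' := mN X u' (.br p Sp' t₁' t₀') t₀'.items with hb'
  have hab : a ≤ 2 * b := by
    calc a ≤ ∑ q ∈ ocI X (R.image Prod.fst) t₀.items, 2 * MI X u (.br p Sp t₁ t₀) q :=
          Finset.sum_le_sum fun q hq => by
            obtain ⟨a1, a2, -⟩ := Finset.mem_filter.1 hq
            exact hm q a2 (Finset.mem_union_right _ a1)
      _ = 2 * ∑ q ∈ ocI X (R.image Prod.fst) t₀.items, MI X u (.br p Sp t₁ t₀) q := by
          rw [Finset.mul_sum]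
      _ ≤ 2 * b := mul_le_mul_of_nonneg_left (sum_MI_le h (Finset.filter_subset _ _)) (by norm_num)
  have hab' : a' ≤ 2 * b' := by
    calc a' ≤ ∑ q ∈ ocI X (R.image Prod.snd) t₀'.items, 2 * MI X u' (.br p Sp' t₁' t₀') q :=
          Finset.sum_le_sum fun q hq => by
            obtain ⟨a1, a2, -⟩ := Finset.mem_filter.1 hq
            exact hm' q a2 (Finset.mem_union_right _ a1)
      _ = 2 * ∑ q ∈ ocI X (R.image Prod.snd) t₀'.items, MI X u' (.br p Sp' t₁' t₀') q := by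
          rw [Finset.mul_sum]
      _ ≤ 2 * b' := mul_le_mul_of_nonneg_left (sum_MI_le h' (Finset.filter_subset _ _)) (by norm_num)
  have hb0 : 0 ≤ b := Finset.sum_nonneg fun j _ => I_nonneg fun y => (PB_vN_inl h j).nonneg y
  have hb0' : 0 ≤ b' := Finset.sum_nonneg fun j _ => I_nonneg fun y => (PB_vN_inl h' j).nonneg y
  have e1 : ℓ ^ (-(s + 1)) = ℓ ^ (-s) * ℓ⁻¹ := by
    rw [← Real.rpow_neg_one ℓ, ← Real.rpow_add hℓ0]
    congr 1
    ring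
  have e2 : 6 * (4 * CT * ℓ / ℓ ^ (s + 2)) = 24 * CT * (ℓ ^ (-s) * ℓ⁻¹) := by
    have e3 : ℓ ^ (s + 2) = ℓ ^ s * ℓ ^ 2 := by
      rw [Real.rpow_add hℓ0]
      norm_num
    rw [e3, Real.rpow_neg hℓ0.le]
    have h5 : ℓ ^ s ≠ 0 := (Real.rpow_pos_of_pos hℓ0 _).ne'
    field_simp
    ring
  have hs0 : 0 ≤ ℓ ^ (-s) := Real.rpow_nonneg hℓ0.le _
  have e4 : (1 + 24 * CT) * ℓ⁻¹ ≤ 1 / 2 := by
    rw [← div_eq_mul_inv, div_le_iff₀ hℓ0]
    linarith
  calc _ ≤ (ℓ ^ (-(s + 1)) + 6 * (4 * CT * ℓ / ℓ ^ (s + 2))) * (a + a') := key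
    _ = ℓ ^ (-s) * ((1 + 24 * CT) * ℓ⁻¹) * (a + a') := by rw [e1, e2]; ring
    _ ≤ ℓ ^ (-s) * ((1 + 24 * CT) * ℓ⁻¹) * (2 * (b + b')) := by
        apply mul_le_mul_of_nonneg_left (by linarith)
        positivity
    _ ≤ ℓ ^ (-s) * (1 / 2) * (2 * (b + b')) := by
        apply mul_le_mul_of_nonneg_right _ (by positivity)
        exact mul_le_mul_of_nonneg_left e4 hs0
    _ = _ := by ring

end Crest.Agent.R4P.UU3
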