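import Crest.Agent.R4P.XmU_493
import Crest.Agent.R4P.RseC_23

/-!
R4 (S0004) with powers, helper493: **unlabelled pairs of two nodes of one circle** (E3, direct part;
54's 1952 (D), classes U and S).

* `MT X u τ` : mass facts of a node (18's `MN`) with weighted radii and tameness; **`ctx_MT`** : all nodes;
* `close_pt` : close centres of two unlabelled pieces of one index with a common point;
* `kc_of` : a cofactor `≥ K` or a radius ratio `≥ K`: `K min (R, R') ≤ D`;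
* **`node_unl`** : real state `none`, one index at `p`, no label of `B γ` (`B' γ`) at the own radii,
  a cofactor or radius ratio `≥ K ≥ (log p)^a` :
  `Q R (vN s) (vN s') ≤ (log p)^(-s) (∑_F M_q + ∑_G M_r)`, nothing is counted.
-/

set_option autoImplicit false
set_option linter.unusedSectionVars false
set_option linter.unusedVariables false
open Finset

namespace Crest.Agent.R4P.XmV493

open Crest.Agent.R4.HVW560 Crest.Agent.R4.HVWX793
open Crest.Agent.R4.LF363 (Lab)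
open Crest.Agent.R4P.ShR18 (Co)
open Crest.Agent.R4P.XmU493
open Crest.Agent.R4

/-! ### nodes of a context -/

section node
open MeasureTheory Filter
open Crest.Agent.R4.Tour104 Crest.Agent.R4.Tour758 Crest.Agent.R4.Avg758 Crest.Agent.R4.Clos758
open Crest.Agent.R4.ClosL758 Crest.Agent.R4.ClosG758 Crest.Agent.R4.ClosR758
open Crest.Agent.R4.Fam464 Crest.Agent.R4.Piece464
open Crest.Agent.R4P.Cnt588 Crest.Agent.R4P.Item758 Crest.Agent.R4P.AvgItem710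
open Crest.Agent.R4P.Walk560 Crest.Agent.R4P.NodeG33
open Crest.Agent.R4P.Data758 Crest.Agent.R4P.Skel189
open Crest.Agent.R4P.Bld532 (NS All)
open Crest.Agent.R4P.Step588 (NDt CT CT_pos ctx_NDt)
open Crest.Agent.R4.Soft104 (w)
open Crest.Agent.R4P.SameIx30 Crest.Agent.R4P.GPair33
open Crest.Agent.R4P.XmM18 Crest.Agent.R4P.XmG18
open Crest.Agent.R4P.XmE18 (D1 D2 cof_self_pos)
open Crest.Agent.R4P.RseNd23 (wA wt_tr R_tr sum_tr1 RseH)
open Crest.Agent.R4.DeepSt579 (tq tq_nonneg)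
open Crest.Agent.R4P.LfDat734 Crest.Agent.R4P.OmData532
open Crest.Agent.R4P.LeafSide28 (DaI)
open Crest.Agent.R4P

variable {N : Skel189.Num} {γ : ℝ} {p0 P₀ : ℕ} {X : Ctx N γ p0 P₀}

/-- **mass facts of a node**, with the weighted radii and the tameness -/
structure MT (X : Ctx N γ p0 P₀) (u : NS) (τ : IT) : Prop where
  mn : MN X u τ
  lw : ∀ p : ℕ, p0 ≤ p → (∀ r : ℕ, r.Prime → r < u.n → r ≤ p) → ∀ q ∈ X.S', q ∈ τ.items →
    RB X u q ≤ 2 * CT * Real.log p * wA u.A (RB X u) q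
  wm : ∀ q ∈ X.S', q ∈ τ.items → wA u.A (RB X u) q ≤ 2 * MI X u τ q
  tame : ∀ p : ℕ, p0 ≤ p → (∀ r : ℕ, r.Prime → r < u.n → r ≤ p) → ∀ q ∈ X.S', q ∈ τ.items →
    ∀ z : ℝ, (p : ℝ) ≤ z → Crest.Agent.R4.ClsB.Tame z 1 (q / u.A)

theorem ctx_MT (N : Skel189.Num) : ∃ p₁ : ℕ, ∀ p0 ≥ p₁, ∀ (γ : ℝ) (P₀ : ℕ), 2 ≤ P₀ →
    ∀ X : Ctx N γ p0 P₀, All (MT X) ⟨top X.S, 1, 1, 1⟩ X.c.t := by
  have hB1 := N.hB
  have hC1 := N.hC1
  have hc2 := N.hc2
  obtain ⟨a1, h1⟩ := Skel189.ctx_mean N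
  obtain ⟨a2, h2⟩ := OSCtx710.ctx_OB N (c₀ := 1 / 2)
  obtain ⟨a3, h3⟩ := PrTame579.tame_of_Pr N.B (N.C1 + N.c2) (by linarith)
  obtain ⟨a4, h4⟩ := NI927.ctx_NI N (c₀ := 1 / 2) (by norm_num)
  obtain ⟨a5, h5⟩ := ctx_MN N
  refine ⟨a1 + a2 + a3 + a4 + a5 + 2, fun p0 hp0 γ P₀ hP X => ?_⟩
  have hm : NI927.Mean X (1 / 2) := fun q hq z => (h1 p0 (by omega) γ P₀ hP X).1 q hq z
  have hNI := h4 p0 (by omega) γ P₀ X X.Y p0 le_rfl
  have hab : ∀ j : X.c.Lam, (X.c.D.par X.Y).al j ≤ (X.c.D.par X.Y).be j := fun j =>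
    (X.ok.bpm _ (Cf.mem_S j) (Cf.r_pos j) (Nat.le_succ _))
  refine All.mono (fun u τ hh => ?_) (((ctx_NDt X).and (h2 p0 (by omega) γ P₀ X X.Y hm)).and
    (h5 p0 (by omega) γ P₀ hP X))
  obtain ⟨⟨hN, hO⟩, hMN⟩ := hh
  refine ⟨hMN, fun p hp hlv q hqs hqt => ?_, fun q hqs hqt => ?_, fun p hp hlv q hqs hqt z hz => ?_⟩
  · have hlp := hO.lg p hp hlv q hqs hqt
    have hrr : 0 < X.c.rr q := (X.ok.rad X.Y).pos q
    have hB : (0 : ℝ) < u.B := by exact_mod_cast hN.B_pos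
    have h9 : 0 ≤ RB X u q := (mul_pos hB hrr).le
    have e1 : wA u.A (RB X u) q = RB X u q * tq (q / u.A) := rfl
    rw [e1]
    calc RB X u q = RB X u q * 1 := (mul_one _).symm
      _ ≤ RB X u q * (2 * CT * Real.log p * tq (q / u.A)) := mul_le_mul_of_nonneg_left hlp h9
      _ = _ := by ring
  · have hF := Bld532.Fit_of_NodeOk (All.mono (fun _ _ hh => hh.node) hN.all)
    have hB : (0 : ℝ) < u.B := by exact_mod_cast hN.B_pos
    have hph := hO.ph q hqs hqt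
    have t1 := tq_nonneg (q / (u.A * pp τ q))
    have e1 : MI X u τ q = ∑ j ∈ Finset.univ.filter (fun j : X.c.Lam => j.1.1 = q),
        (u.B : ℝ) * ((X.c.D.par X.Y).be j - (X.c.D.par X.Y).al j) * prf τ q *
          mnw (q / (u.A * pp τ q)) ((X.c.D.par X.Y).om j) := by
      refine Finset.sum_congr rfl fun j hj => ?_
      have hj' : j.1.1 = q := (Finset.mem_filter.1 hj).2
      have h5 := (X.c.D.par X.Y).I_U hab τ u.B u.A 1 hN.B_pos hF (wts_nd hN X.Y) (one_dvd _) j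
        (by show j.1.1 ∈ τ.items; rw [hj']; exact hqt)
      have e2 : (X.c.D.par X.Y).it j = q := hj'
      rw [e2] at h5
      show I ((X.c.D.par X.Y).toFT u.B u.A τ |>.U 1 j) = _
      rw [h5]
      push_cast
      ring
    have e3 : (1 / 2 : ℝ) * u.B * (2 * X.c.rr q) * (prf τ q * tq (q / (u.A * pp τ q))) ≤
        MI X u τ q := by
      have hprf0 : 0 ≤ prf τ q * tq (q / (u.A * pp τ q)) := mul_nonneg (prf_nonneg τ q) t1
      refine (mul_le_mul_of_nonneg_right (mul_le_mul_of_nonneg_left (hNI.full q hqs)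
        (by positivity : (0:ℝ) ≤ 1 / 2 * u.B)) hprf0).trans ?_
      rw [e1, Finset.mul_sum, Finset.sum_mul]
      refine Finset.sum_le_sum fun j hj => ?_
      have hj' : j.1.1 = q := (Finset.mem_filter.1 hj).2
      have h5 := hO.mean j (by show j.1.1 ∈ X.S'; rw [hj']; exact hqs)
        (by show j.1.1 ∈ τ.items; rw [hj']; exact hqt)
      have e2 : (X.c.D.par X.Y).it j = q := hj'
      rw [e2] at h5
      have hl : 0 ≤ (X.c.D.par X.Y).be j - (X.c.D.par X.Y).al j := by linarith [hab j]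
      have hprf : 0 ≤ prf τ q := prf_nonneg τ q
      have := mul_le_mul_of_nonneg_left h5 (mul_nonneg (mul_nonneg hB.le hl) hprf)
      calc _ = (u.B : ℝ) * ((X.c.D.par X.Y).be j - (X.c.D.par X.Y).al j) * prf τ q *
            (1 / 2 * tq (q / (u.A * pp τ q))) := by ring
        _ ≤ _ := this
    have hrr : 0 < X.c.rr q := (X.ok.rad X.Y).pos q
    have hR : RB X u q = u.B * X.c.rr q := rfl
    have e4 : wA u.A (RB X u) q = RB X u q * tq (q / u.A) := rfl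
    rw [e4, hR]
    have h8 := mul_le_mul_of_nonneg_left hph (mul_nonneg hB.le hrr.le)
    nlinarith
  · have hpr : PrunePar33.Pr X.c.t p0 (N.C1 + N.c2) N.B q := X.pr' hqs
    have hp0z : (p0 : ℝ) ≤ z := by
      have : (p0 : ℝ) ≤ p := by exact_mod_cast hp
      linarith
    refine ⟨one_dvd _, ?_⟩
    rw [Nat.div_one]
    refine le_trans (Finset.sum_le_sum_of_subset_of_nonneg ?_ fun i _ _ => by positivity)
      (h3 p0 (by omega) X.c.t q hpr z hp0z).1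
    intro l hl
    obtain ⟨hl1, hl2⟩ := Finset.mem_filter.1 hl
    have hlp := Nat.prime_of_mem_primeFactors hl1
    have hld := Nat.dvd_of_mem_primeFactors hl1
    have hpl : p < l := by exact_mod_cast lt_of_le_of_lt hz hl2
    refine Finset.mem_filter.2 ⟨hN.self.ge q hqt l hlp ?_ hld, hl2⟩
    by_contra hlt
    have := hlv l hlp (not_le.1 hlt)
    omega

lemma DU_DN {s s' : NS} (e : ℕ × ℕ) :
    DU X 1 s 1 s' e = DN2 s.A s'.A (RB X s) (RB X s') e := by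
  rw [← DaI_eq]
  unfold DaI Da DN2 Crest.Agent.R4.AvgItem710.Dp RB
  simp [rf]

/-- **close centres**: two members of one circle, pieces of one index at the column `p`, both
unlabelled, both nonzero at `y` -/
theorem close_pt {s s' : NS} {t t' : IT} (h : QX X s t) (h' : QX X s' t') {p : ℕ}
    (hp : p ≤ top X.S) (hT : s.A * s.B = s'.A * s'.B) {j j' : X.c.Lam}
    (hix : (X.c.world p j.1).1 = (X.c.world p j'.1).1)
    (s1 : X.c.st p j.1.1 = none) (s2 : X.c.st p j'.1.1 = none) {y : ℝ}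
    (hv : vN X (.inl (s, t)) j y ≠ 0) (hv' : vN X (.inl (s', t')) j' y ≠ 0) :
    ∃ a a' : ℤ, |((a:ℝ) + s.B * X.c.γ) * (cof (j'.1.1 / s'.A) (j.1.1 / s.A) : ℕ) -
      (a' + s'.B * X.c.γ) * (cof (j.1.1 / s.A) (j'.1.1 / s'.A) : ℕ)| ≤
      etaL X.c.wp p * DN2 s.A s'.A (RB X s) (RB X s') (j.1.1, j'.1.1) := by
  obtain ⟨hj, a, l1, l2⟩ := tooth h hv
  obtain ⟨hj', a', l3, l4⟩ := tooth h' hv'
  refine ⟨a, a', ?_⟩
  have k := rel_none2 h h' hp one_pos one_pos (by rw [mul_one, mul_one]; exact hT)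
    hix hj hj' s1 s2 (y := y) (a := a) (a' := a')
    (by simpa [rf] using l1) (by simpa [rf] using l2) (by simpa [rf] using l3)
    (by simpa [rf] using l4)
  rw [DaI_eq, DU_DN] at k
  simpa [rf] using k

/-- the radius condition from a large cofactor or a large ratio -/
lemma kc_of {s s' : NS} {t t' : IT} (h : QX X s t) (h' : QX X s' t') {e : ℕ × ℕ} {K : ℝ}
    (he : e.1 ∈ t.items) (he' : e.2 ∈ t'.items)
    (hk : K ≤ D1 s s' e ∨ K ≤ D2 s s' e ∨ K * RB X s' e.2 ≤ RB X s e.1 ∨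
      K * RB X s e.1 ≤ RB X s' e.2) :
    K * min (RB X s e.1) (RB X s' e.2) ≤ DN2 s.A s'.A (RB X s) (RB X s') e := by
  obtain ⟨c1, c2⟩ := cof_self_pos h h' he he'
  have c1' : (1 : ℝ) ≤ D1 s s' e := by exact_mod_cast c1
  have c2' : (1 : ℝ) ≤ D2 s s' e := by exact_mod_cast c2
  have hrr := (X.ok.rad X.Y).pos
  have hB : (0 : ℝ) < s.B := by exact_mod_cast h.B_pos
  have hB' : (0 : ℝ) < s'.B := by exact_mod_cast h'.B_pos
  have r1 : 0 < RB X s e.1 := mul_pos hB (hrr e.1)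
  have r2 : 0 < RB X s' e.2 := mul_pos hB' (hrr e.2)
  have hD : DN2 s.A s'.A (RB X s) (RB X s') e =
      max (D2 s s' e * RB X s e.1) (D1 s s' e * RB X s' e.2) := rfl
  rw [hD]
  have hm0 : 0 < min (RB X s e.1) (RB X s' e.2) := lt_min r1 r2
  rcases hk with hk | hk | hk | hk
  · refine le_max_of_le_right ?_
    exact mul_le_mul hk (min_le_right _ _) hm0.le (by linarith)
  · refine le_max_of_le_left ?_
    exact mul_le_mul hk (min_le_left _ _) hm0.le (by linarith)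
  · refine le_max_of_le_left ?_
    rcases le_or_gt 0 K with hK | hK
    · calc K * min (RB X s e.1) (RB X s' e.2) ≤ K * RB X s' e.2 :=
            mul_le_mul_of_nonneg_left (min_le_right _ _) hK
        _ ≤ RB X s e.1 := hk
        _ ≤ D2 s s' e * RB X s e.1 := le_mul_of_one_le_left r1.le c2'
    · have h1 : K * min (RB X s e.1) (RB X s' e.2) ≤ 0 := mul_nonpos_of_nonpos_of_nonneg hK.le hm0.le
      have h2 : 0 ≤ (D2 s s' e : ℝ) * RB X s e.1 := by positivity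
      linarith
  · refine le_max_of_le_right ?_
    rcases le_or_gt 0 K with hK | hK
    · calc K * min (RB X s e.1) (RB X s' e.2) ≤ K * RB X s e.1 :=
            mul_le_mul_of_nonneg_left (min_le_left _ _) hK
        _ ≤ RB X s' e.2 := hk
        _ ≤ D1 s s' e * RB X s' e.2 := le_mul_of_one_le_left r2.le c1'
    · have h1 : K * min (RB X s e.1) (RB X s' e.2) ≤ 0 := mul_nonpos_of_nonpos_of_nonneg hK.le hm0.le
      have h2 : 0 ≤ (D1 s s' e : ℝ) * RB X s' e.2 := by positivity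
      linarith

open Classical in
set_option maxHeartbeats 1000000 in
/-- **UNLABELLED PAIRS OF TWO NODES OF ONE CIRCLE** : one index at the column `p` (real state `none`),
no label of the centres `B γ`, `B' γ` at the own radii, a cofactor `≥ K` or a radius ratio `≥ K`,
`K ≥ (log p)^a` : at most `(log p)^(-s)` times the masses of the two families. No count. -/
theorem node_unl (N : Skel189.Num) (C2 s₀ : ℝ) (hC2 : 0 ≤ C2) (hs₀ : 0 ≤ s₀) : ∃ a : ℝ, 0 ≤ a ∧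
    ∃ p₁ : ℕ, ∀ p0 ≥ p₁, ∀ (γ : ℝ) (P₀ : ℕ) (X : Ctx N γ p0 P₀), RseH X →
    ∀ (s s' : NS) (t t' : IT) (p : ℕ) (R : Finset (X.c.Lam × X.c.Lam)) (F G : Finset ℕ) (K : ℝ),
    MT X s t → MT X s' t' → s.A * s.B = s'.A * s'.B → p0 < p → p ≤ top X.S →
    (∀ r : ℕ, r.Prime → r < s.n → r ≤ p) → (∀ r : ℕ, r.Prime → r < s'.n → r ≤ p) →
    UN X p R →
    (∀ x ∈ R, x.1.1.1 ∈ t.items → x.1.1.1 ∈ X.S' → x.1.1.1 ∈ F) →
    (∀ x ∈ R, x.2.1.1 ∈ t'.items → x.2.1.1 ∈ X.S' → x.2.1.1 ∈ G) →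
    (∀ q ∈ F, q ∈ t.items ∧ q ∈ X.S') → (∀ q ∈ G, q ∈ t'.items ∧ q ∈ X.S') →
    ∑ q ∈ F, MI X s t q ≤ Real.log p ^ C2 → ∑ q ∈ G, MI X s' t' q ≤ Real.log p ^ C2 →
    (∀ q ∈ F, ∀ ρ, ¬ Lab (s.B * X.c.γ) (RB X s q) ρ) →
    (∀ q ∈ G, ∀ ρ, ¬ Lab (s'.B * X.c.γ) (RB X s' q) ρ) →
    Real.log p ^ a ≤ K →
    (∀ x ∈ R, x.1.1.1 ∈ F → x.2.1.1 ∈ G → K ≤ D1 s s' (it2 x) ∨ K ≤ D2 s s' (it2 x) ∨
      K * RB X s' x.2.1.1 ≤ RB X s x.1.1.1 ∨ K * RB X s x.1.1.1 ≤ RB X s' x.2.1.1) →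
    Q R (vN X (.inl (s, t))) (vN X (.inl (s', t'))) ≤
      Real.log p ^ (-s₀) * (∑ q ∈ F, MI X s t q + ∑ r ∈ G, MI X s' t' r) := by
  have hCT := CT_pos
  obtain ⟨a, ha, p1, H⟩ := xuR' (2 * CT) (C2 + 1) (s₀ + 1) (by positivity) (by linarith) (by linarith)
  obtain ⟨p2, h2⟩ := Crest.Agent.R4.RseN207.log_large 2
  refine ⟨a, ha, p1 + p2 + 2, ?_⟩
  intro p0 hp0 γ P₀ X hX s s' t t' p R F G K h h' hT hp hpt hl1 hl2 hUN r1 r2 f1 f2 m1 m2 n1 n2
    hK hkc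
  set f := vN X (.inl (s, t)) with hf
  set g := vN X (.inl (s', t')) with hg
  have hlog : 2 ≤ Real.log (p:ℝ) := h2 p (by omega)
  have hl0 : 0 < Real.log (p:ℝ) := by linarith
  have hM1 : ∀ q, 0 ≤ MI X s t q := MI_nonneg h.mn.nd
  have hM2 : ∀ q, 0 ≤ MI X s' t' q := MI_nonneg h'.mn.nd
  have hrr := (X.ok.rad X.Y).pos
  have hB : (0 : ℝ) < s.B := by exact_mod_cast h.mn.nd.B_pos
  have hB' : (0 : ℝ) < s'.B := by exact_mod_cast h'.mn.nd.B_pos
  have rb1 : ∀ q, 0 < RB X s q := fun q => mul_pos hB (hrr q)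
  have rb2 : ∀ q, 0 < RB X s' q := fun q => mul_pos hB' (hrr q)
  set η : ℝ := etaL X.c.wp p with hη
  have hη0 : 0 < η := etaL_pos _ _
  have hη1 : η ≤ Real.exp (-(Real.log p ^ (4/5:ℝ))) := by
    have hdep := hX.dep p hp hpt
    rw [hη]
    unfold etaL
    rw [Real.exp_neg, ← one_div, div_le_div_iff₀ (by positivity) (Real.exp_pos _)]
    linarith
  -- the pairs with a common point
  set R0 := R.filter (fun x => ∃ y, f x.1 y * g x.2 y ≠ 0) with hR0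
  have hQ : Q R f g = Q R0 f g := by
    unfold Q
    rw [hR0, Finset.sum_filter]
    refine Finset.sum_congr rfl fun x _ => ?_
    split_ifs with hx
    · rfl
    · push Not at hx
      have e1 : (fun y => f x.1 y * g x.2 y) = fun _ => 0 := funext hx
      rw [e1]
      simp [I]
  have hUN0 : UN X p R0 := hUN.mono (Finset.filter_subset _ _)
  have hpt0 : ∀ x ∈ R0, x.1.1.1 ∈ t.items ∧ x.2.1.1 ∈ t'.items ∧ x.1.1.1 ∈ F ∧ x.2.1.1 ∈ G := by
    intro x hx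
    obtain ⟨hx1, y, hy⟩ := Finset.mem_filter.1 hx
    have y1 := left_ne_zero_of_mul hy
    have y2 := right_ne_zero_of_mul hy
    have i1 : x.1.1.1 ∈ t.items := by
      by_contra hn
      exact y1 (vN_out hn y)
    have i2 : x.2.1.1 ∈ t'.items := by
      by_contra hn
      exact y2 (vN_out hn y)
    have i3 : x.1.1.1 ∈ X.S' := by
      by_contra hn
      exact y1 (vN_dead h.mn.nd hn y)
    have i4 : x.2.1.1 ∈ X.S' := by
      by_contra hn
      exact y2 (vN_dead h'.mn.nd hn y)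
    exact ⟨i1, i2, r1 x hx1 i1 i3, r2 x hx1 i2 i4⟩
  rw [hQ, (X.c.D.par X.Y).Q_eq]
  set E := (X.c.D.par X.Y).PE R0 f g with hE
  have hEx : ∀ e ∈ E, ∃ x ∈ R0, x.1.1.1 = e.1 ∧ x.2.1.1 = e.2 := by
    intro e he
    obtain ⟨j, j', h1, -, h3, h4⟩ := Par.mem_PE.1 he
    exact ⟨(j, j'), h1, h3, h4⟩
  have hEFG : E ⊆ F ×ˢ G := by
    intro e he
    obtain ⟨x, hx, e1, e2⟩ := hEx e he
    obtain ⟨-, -, i3, i4⟩ := hpt0 x hx
    exact Finset.mem_product.2 ⟨by rw [← e1]; exact i3, by rw [← e2]; exact i4⟩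
  have hmem : ∀ e ∈ E, e.1 ∈ F ∧ e.2 ∈ G := fun e he => Finset.mem_product.1 (hEFG he)
  have w1 : ∀ q ∈ F, wA s.A (RB X s) q ≤ 2 * MI X s t q := fun q hq => h.wm q (f1 q hq).2 (f1 q hq).1
  have w2 : ∀ q ∈ G, wA s'.A (RB X s') q ≤ 2 * MI X s' t' q :=
    fun q hq => h'.wm q (f2 q hq).2 (f2 q hq).1
  have sw1 : ∑ q ∈ F, wA s.A (RB X s) q ≤ 2 * ∑ q ∈ F, MI X s t q := by
    rw [Finset.mul_sum]; exact Finset.sum_le_sum w1
  have sw2 : ∑ q ∈ G, wA s'.A (RB X s') q ≤ 2 * ∑ q ∈ G, MI X s' t' q := by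
    rw [Finset.mul_sum]; exact Finset.sum_le_sum w2
  have hC21 : 2 * Real.log (p:ℝ) ^ C2 ≤ Real.log (p:ℝ) ^ (C2 + 1) := by
    rw [Real.rpow_add hl0, Real.rpow_one, mul_comm]
    exact mul_le_mul_of_nonneg_left hlog (by positivity)
  have hpr : (p:ℝ) ≤ ((2 * p : ℕ):ℝ)^2 := by
    have h1 : (1:ℝ) ≤ p := by exact_mod_cast (by omega : 1 ≤ p)
    push_cast
    nlinarith
  have hDU : ∀ e, DU X 1 s 1 s' e = DN2 s.A s'.A (RB X s) (RB X s') e := fun e => DU_DN e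
  have hDpos : ∀ e ∈ E, 0 < DN2 s.A s'.A (RB X s) (RB X s') e := by
    intro e he
    rw [← hDU]
    exact DU_pos (Y := X.Y) h.mn.nd h'.mn.nd one_pos one_pos (f1 _ (hmem e he).1).1
      (f2 _ (hmem e he).2).1
  have key := H p (by omega) s.A s'.A η (s.B * X.c.γ) (s'.B * X.c.γ) K F G E (RB X s) (RB X s')
    ((X.c.D.par X.Y).iF R0 f g)
    (fun q hq => h.mn.nd.bk.dvd _ (f1 q hq).1) (fun q hq => h'.mn.nd.bk.dvd _ (f2 q hq).1)
    hη0 hη1 hK hEFG
    (fun q hq => ⟨Nat.pos_of_ne_zero (h.mn.nd.div_ne (f1 q hq).1), rb1 q⟩)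
    (fun q hq => ⟨Nat.pos_of_ne_zero (h'.mn.nd.div_ne (f2 q hq).1), rb2 q⟩)
    (fun q hq => h.lw p (by omega) hl1 q (f1 q hq).2 (f1 q hq).1)
    (fun q hq => h'.lw p (by omega) hl2 q (f2 q hq).2 (f2 q hq).1)
    (fun z hz q hq => h.tame p (by omega) hl1 q (f1 q hq).2 (f1 q hq).1 z (hpr.trans hz))
    (fun z hz q hq => h'.tame p (by omega) hl2 q (f2 q hq).2 (f2 q hq).1 z (hpr.trans hz))
    (by linarith) (by linarith)
    (fun e he => by
      obtain ⟨x, hx, e1, e2⟩ := hEx e he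
      obtain ⟨i1, i2, i3, i4⟩ := hpt0 x hx
      have hie : it2 x = e := Prod.ext e1 e2
      have k := hkc x (Finset.mem_filter.1 hx).1 i3 i4
      rw [hie] at k
      rw [e1] at k i1
      rw [e2] at k i2
      exact kc_of h.mn.nd h'.mn.nd i1 i2 k)
    (fun e he => by
      have k := iF_un h.mn.nd h'.mn.nd hpt one_pos one_pos (by rw [mul_one, mul_one]; exact hT) X.Y
        hUN0 Finset.univ Finset.univ (e := e) (f1 _ (hmem e he).1).1 (f2 _ (hmem e he).2).1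
      rw [← vN_eq_uA, ← vN_eq_uA] at k
      have hD := hDpos e he
      refine k.trans (le_of_eq ?_)
      rw [hDU e, ← hη]
      field_simp
      ring)
    (fun e he _ => by
      obtain ⟨x, hx, e1, e2⟩ := hEx e he
      obtain ⟨hx1, y, hy⟩ := Finset.mem_filter.1 hx
      obtain ⟨b, b', k⟩ := close_pt h.mn.nd h'.mn.nd hpt hT (hUN0.ix x hx) (hUN0.un x hx)
        (hUN0.un' x hx) (left_ne_zero_of_mul hy) (right_ne_zero_of_mul hy)
      rw [e1, e2] at k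
      exact ⟨b, b', k⟩)
    n1 n2
  refine key.trans ?_
  have hκ : Real.log (p:ℝ) ^ (-(s₀ + 1)) = Real.log (p:ℝ) ^ (-s₀) * Real.log (p:ℝ) ^ (-1:ℝ) := by
    rw [← Real.rpow_add hl0]; congr 1; ring
  have hinv : Real.log (p:ℝ) ^ (-1:ℝ) ≤ 1 / 2 := by
    rw [Real.rpow_neg_one, ← one_div]
    exact one_div_le_one_div_of_le (by norm_num) hlog
  have hinv0 : 0 ≤ Real.log (p:ℝ) ^ (-1:ℝ) := by positivity
  have hκ0 : 0 ≤ Real.log (p:ℝ) ^ (-s₀) := by positivity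
  rw [hκ, mul_assoc]
  refine mul_le_mul_of_nonneg_left ?_ hκ0
  have hS0 : 0 ≤ ∑ q ∈ F, MI X s t q + ∑ r ∈ G, MI X s' t' r :=
    add_nonneg (Finset.sum_nonneg fun q _ => hM1 q) (Finset.sum_nonneg fun q _ => hM2 q)
  calc Real.log (p:ℝ) ^ (-1:ℝ) * (∑ q ∈ F, wA s.A (RB X s) q + ∑ q ∈ G, wA s'.A (RB X s') q)
      ≤ Real.log (p:ℝ) ^ (-1:ℝ) * (2 * (∑ q ∈ F, MI X s t q + ∑ r ∈ G, MI X s' t' r)) :=
        mul_le_mul_of_nonneg_left (by linarith) hinv0
    _ ≤ 1 / 2 * (2 * (∑ q ∈ F, MI X s t q + ∑ r ∈ G, MI X s' t' r)) :=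
        mul_le_mul_of_nonneg_right hinv (by linarith)
    _ = _ := by ring

end node

end Crest.Agent.R4P.XmV493
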