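import Crest.Agent.R4P.UN2_24
import Crest.Agent.R4P.XmV_493
import Crest.Agent.R4P.XmO_37
import Crest.Agent.R4P.UU3_24

/-!
R4 (S0004), powers pass, helper24: **pairs with real state `none`, two nodes of one circle** (node form of
`UN1_24`, `UN2_24`).

* `HX X p s s' A A0 e` : every pair of labels `(ρ, ρ')` for which the pair `e` is exact and super-accurate
  (`FXr`, accuracy `etaL p`) has a denominator `≥ (log p)^A0`, one side is late (`1 ≤ KK^A R`) and a cofactor is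
  `≥ KK^(1/64)`;
* **`node_un`** : one index at `p`, real state `none`, `HX`, a cofactor or a radius ratio `≥ (log p)^(s+2)` :
  `Q R (vN s) (vN s') ≤ (log p)^(-s) (∑_F M + ∑_G M)`;
* **`node_un1`** : one node; no hypothesis on the cofactors (it follows from `H1`: every super-accurate rational
  of the centre `B γ` has denominator `≥ (log p)^A0` and one side is late).
-/

set_option autoImplicit false
set_option linter.unusedSectionVars false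
set_option linter.unusedVariables false
open Finset

namespace Crest.Agent.R4P.UN3

open Crest.Agent.R4.HVW560 Crest.Agent.R4.HVWX793
open Crest.Agent.R4.LF363 (Lab)
open Crest.Agent.R4P.ShR18 (Co)
open Crest.Agent.R4

section node
open MeasureTheory Filter
open Crest.Agent.R4.Tour104 Crest.Agent.R4.Tour758 Crest.Agent.R4.Avg758 Crest.Agent.R4.Clos758
open Crest.Agent.R4.ClosL758 Crest.Agent.R4.ClosG758 Crest.Agent.R4.ClosR758
open Crest.Agent.R4.Fam464 Crest.Agent.R4.Piece464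
open Crest.Agent.R4P.Cnt588 Crest.Agent.R4P.Item758 Crest.Agent.R4P.AvgItem710
open Crest.Agent.R4P.Walk560 Crest.Agent.R4P.NodeG33
open Crest.Agent.R4P.Data758 Crest.Agent.R4P.Skel189
open Crest.Agent.R4P.Bld532 (NS All)
open Crest.Agent.R4P.Step588 (NDt CT CT_pos ctx_NDt)
open Crest.Agent.R4.Soft104 (w)
open Crest.Agent.R4P.SameIx30 Crest.Agent.R4P.GPair33
open Crest.Agent.R4P.XmM18 Crest.Agent.R4P.XmG18
open Crest.Agent.R4P.XmE18 (D1 D2 cof_self_pos)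
open Crest.Agent.R4P.RseNd23 (wA wt_tr R_tr sum_tr1 RseH)
open Crest.Agent.R4P.LfDat734 Crest.Agent.R4P.OmData532
open Crest.Agent.R4P.LeafSide28 (DaI)
open Crest.Agent.R4P.XmV493
open Crest.Agent.R4P.UU24 (DX)
open Crest.Agent.R4P.UN24
open Crest.Agent.R4P.GcdS37 (rd)
open Crest.Agent.R4P.GcdU37 (Tl)
open Crest.Agent.R4P.AcG41 (Fam)
open Crest.Agent.R4P.RtE28 (KK KK_one)
open Crest.Agent.R4P.XmN37 (lg_nd tail_nd)
open Crest.Agent.R4P.XmO37 (div_inj const_pow)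
open Crest.Agent.R4P

variable {N : Skel189.Num} {γ : ℝ} {p0 P₀ : ℕ} {X : Ctx N γ p0 P₀}

/-- **hypotheses on the labels of a pair** -/
def HX (X : Ctx N γ p0 P₀) (p : ℕ) (s s' : NS) (A A0 : ℝ) (e : ℕ × ℕ) : Prop :=
  ∀ ρ ρ' : ℚ, FXr (etaL X.c.wp p) (s.B * X.c.γ) (s'.B * X.c.γ) (D1 s s' e) (D2 s s' e)
    (RB X s e.1) (RB X s' e.2) ρ ρ' →
    Real.log p ^ A0 ≤ KK ρ ρ' ∧
    (KK ρ ρ' ^ (1/64:ℝ) ≤ D1 s s' e ∨ KK ρ ρ' ^ (1/64:ℝ) ≤ D2 s s' e) ∧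
    (1 ≤ KK ρ ρ' ^ A * RB X s e.1 ∨ 1 ≤ KK ρ ρ' ^ A * RB X s' e.2)

lemma min_of_mul {a b x y : ℝ} (ha : 0 < a) (hb : 0 < b) (hx : 0 < x) (hy : 0 < y) :
    (a * b) / max (y * a) (x * b) = min (a / x) (b / y) := by
  rcases le_total (y * a) (x * b) with h | h
  · rw [max_eq_right h, min_eq_left]
    · field_simp
    · rw [div_le_div_iff₀ hx hy]; linarith
  · rw [max_eq_left h, min_eq_right]
    · field_simp
    · rw [div_le_div_iff₀ hy hx]; linarith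

open Classical in
set_option maxHeartbeats 2000000 in
/-- **PAIRS WITH REAL STATE `none` OF TWO NODES OF ONE CIRCLE** -/
theorem node_un (N : Skel189.Num) {C2 s₀ A : ℝ} (hC2 : 0 ≤ C2) (hs₀ : 0 ≤ s₀) (hA : 0 ≤ A) :
    ∃ A0 : ℝ, s₀ + 2 ≤ A0 ∧
    ∃ p₁ : ℕ, ∀ p0 ≥ p₁, ∀ (γ : ℝ) (P₀ : ℕ) (X : Ctx N γ p0 P₀), RseH X →
    ∀ (s s' : NS) (t t' : IT) (p : ℕ) (R : Finset (X.c.Lam × X.c.Lam)) (F G : Finset ℕ),
    MT X s t → MT X s' t' → s.A * s.B = s'.A * s'.B → p0 < p → p ≤ top X.S →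
    (∀ r : ℕ, r.Prime → r < s.n → r ≤ p) → (∀ r : ℕ, r.Prime → r < s'.n → r ≤ p) →
    UN X p R →
    (∀ x ∈ R, x.1.1.1 ∈ t.items → x.1.1.1 ∈ X.S' → x.1.1.1 ∈ F) →
    (∀ x ∈ R, x.2.1.1 ∈ t'.items → x.2.1.1 ∈ X.S' → x.2.1.1 ∈ G) →
    (∀ q ∈ F, q ∈ t.items ∧ q ∈ X.S') → (∀ q ∈ G, q ∈ t'.items ∧ q ∈ X.S') →
    ∑ q ∈ F, MI X s t q ≤ Real.log p ^ C2 → ∑ q ∈ G, MI X s' t' q ≤ Real.log p ^ C2 →
    (∀ x ∈ R, x.1.1.1 ∈ F → x.2.1.1 ∈ G → HX X p s s' A A0 (it2 x)) →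
    (∀ x ∈ R, x.1.1.1 ∈ F → x.2.1.1 ∈ G →
      (∃ a a' : ℤ, |((a:ℝ) + s.B * X.c.γ) * (D2 s s' (it2 x) : ℕ) -
        (a' + s'.B * X.c.γ) * (D1 s s' (it2 x) : ℕ)| ≤
        etaL X.c.wp p * DX s.A s'.A (RB X s) (RB X s') (it2 x)) →
      Real.log p ^ (s₀ + 2) ≤ D1 s s' (it2 x) ∨ Real.log p ^ (s₀ + 2) ≤ D2 s s' (it2 x) ∨
      Real.log p ^ (s₀ + 2) * RB X s x.1.1.1 ≤ RB X s' x.2.1.1 ∨
      Real.log p ^ (s₀ + 2) * RB X s' x.2.1.1 ≤ RB X s x.1.1.1) →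
    Q R (vN X (.inl (s, t))) (vN X (.inl (s', t'))) ≤
      Real.log p ^ (-s₀) * (∑ q ∈ F, MI X s t q + ∑ r ∈ G, MI X s' t' r) := by
  have hCT := CT_pos
  obtain ⟨Ce, hCe, C, hC, fx⟩ := fx_sum (A := A + 2 * CT + 1) (by linarith)
  set M : ℝ := C2 + 4 * CT + 1 with hM
  set A0 : ℝ := 2 * Ce + 2 * M + 128 * (s₀ + 2) + 1 with hA0
  obtain ⟨p1, H⟩ := rtUN' (2 * CT) (C2 + 1) (s₀ + 1) (by positivity) (by linarith)
  obtain ⟨p2, h2⟩ := Crest.Agent.R4.RseN207.log_large (8 + 24 * C * CT * 4 + 2 * (1 + 12 * CT) * 4)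
  obtain ⟨p3, h3⟩ := lg_nd N
  have hM0 : 0 ≤ M := by rw [hM]; positivity
  have hA01 : s₀ + 2 ≤ A0 := by rw [hA0]; linarith
  refine ⟨A0, hA01, p1 + p2 + p3 + 2, ?_⟩
  intro p0 hp0 γ P₀ X hX s s' t t' p R F G h h' hT hp hpt hl1 hl2 hUN r1 r2 f1 f2 m1 m2 hH hK
  set f := vN X (.inl (s, t)) with hf
  set g := vN X (.inl (s', t')) with hg
  have hlog := h2 p (by omega)
  have hCC : 0 ≤ 24 * C * CT * 4 := by positivity
  have hlog8 : 8 ≤ Real.log (p:ℝ) := by linarith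
  have hl0 : 0 < Real.log (p:ℝ) := by linarith
  set ℓ := Real.log (p:ℝ) with hℓ
  have hM1 : ∀ q, 0 ≤ MI X s t q := MI_nonneg h.mn.nd
  have hM2 : ∀ q, 0 ≤ MI X s' t' q := MI_nonneg h'.mn.nd
  have hrr := (X.ok.rad X.Y).pos
  have hB : (0 : ℝ) < s.B := by exact_mod_cast h.mn.nd.B_pos
  have hB' : (0 : ℝ) < s'.B := by exact_mod_cast h'.mn.nd.B_pos
  have rb1 : ∀ q, 0 < RB X s q := fun q => mul_pos hB (hrr q)
  have rb2 : ∀ q, 0 < RB X s' q := fun q => mul_pos hB' (hrr q)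
  set η : ℝ := etaL X.c.wp p with hη
  have hη0 : 0 < η := etaL_pos _ _
  have hη1 : η ≤ Real.exp (-(Real.log p ^ (4/5:ℝ))) := by
    have hdep := hX.dep p hp hpt
    rw [hη]
    unfold etaL
    rw [Real.exp_neg, ← one_div, div_le_div_iff₀ (by positivity) (Real.exp_pos _)]
    linarith
  -- the pairs with a common point
  set R0 := R.filter (fun x => ∃ y, f x.1 y * g x.2 y ≠ 0) with hR0
  have hQ : Q R f g = Q R0 f g := by
    unfold Q
    rw [hR0, Finset.sum_filter]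
    refine Finset.sum_congr rfl fun x _ => ?_
    split_ifs with hx
    · rfl
    · push Not at hx
      have e1 : (fun y => f x.1 y * g x.2 y) = fun _ => 0 := funext hx
      rw [e1]
      simp [I]
  have hUN0 : UN X p R0 := hUN.mono (Finset.filter_subset _ _)
  have hpt0 : ∀ x ∈ R0, x.1.1.1 ∈ t.items ∧ x.2.1.1 ∈ t'.items ∧ x.1.1.1 ∈ F ∧ x.2.1.1 ∈ G := by
    intro x hx
    obtain ⟨hx1, y, hy⟩ := Finset.mem_filter.1 hx
    have y1 := left_ne_zero_of_mul hy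
    have y2 := right_ne_zero_of_mul hy
    have i1 : x.1.1.1 ∈ t.items := by
      by_contra hn
      exact y1 (vN_out hn y)
    have i2 : x.2.1.1 ∈ t'.items := by
      by_contra hn
      exact y2 (vN_out hn y)
    have i3 : x.1.1.1 ∈ X.S' := by
      by_contra hn
      exact y1 (vN_dead h.mn.nd hn y)
    have i4 : x.2.1.1 ∈ X.S' := by
      by_contra hn
      exact y2 (vN_dead h'.mn.nd hn y)
    exact ⟨i1, i2, r1 x hx1 i1 i3, r2 x hx1 i2 i4⟩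
  rw [hQ, (X.c.D.par X.Y).Q_eq]
  set E := (X.c.D.par X.Y).PE R0 f g with hE
  set Fe : ℕ × ℕ → ℝ := (X.c.D.par X.Y).iF R0 f g with hFe
  have hEx : ∀ e ∈ E, ∃ x ∈ R0, x.1.1.1 = e.1 ∧ x.2.1.1 = e.2 := by
    intro e he
    obtain ⟨j, j', h1, -, h3, h4⟩ := Par.mem_PE.1 he
    exact ⟨(j, j'), h1, h3, h4⟩
  have hEFG : E ⊆ F ×ˢ G := by
    intro e he
    obtain ⟨x, hx, e1, e2⟩ := hEx e he
    obtain ⟨-, -, i3, i4⟩ := hpt0 x hx
    exact Finset.mem_product.2 ⟨by rw [← e1]; exact i3, by rw [← e2]; exact i4⟩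
  have hmem : ∀ e ∈ E, e.1 ∈ F ∧ e.2 ∈ G := fun e he => Finset.mem_product.1 (hEFG he)
  have w1 : ∀ q ∈ F, wA s.A (RB X s) q ≤ 2 * MI X s t q := fun q hq => h.wm q (f1 q hq).2 (f1 q hq).1
  have w2 : ∀ q ∈ G, wA s'.A (RB X s') q ≤ 2 * MI X s' t' q :=
    fun q hq => h'.wm q (f2 q hq).2 (f2 q hq).1
  have sw1 : ∑ q ∈ F, wA s.A (RB X s) q ≤ 2 * ∑ q ∈ F, MI X s t q := by
    rw [Finset.mul_sum]; exact Finset.sum_le_sum w1
  have sw2 : ∑ q ∈ G, wA s'.A (RB X s') q ≤ 2 * ∑ q ∈ G, MI X s' t' q := by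
    rw [Finset.mul_sum]; exact Finset.sum_le_sum w2
  have hC21 : 2 * ℓ ^ C2 ≤ ℓ ^ (C2 + 1) := by
    rw [Real.rpow_add hl0, Real.rpow_one, mul_comm]
    exact mul_le_mul_of_nonneg_left (by linarith) (by positivity)
  have hpr : (p:ℝ) ≤ ((2 * p : ℕ):ℝ)^2 := by
    have h1 : (1:ℝ) ≤ p := by exact_mod_cast (by omega : 1 ≤ p)
    push_cast
    nlinarith
  have hDU : ∀ e, DU X 1 s 1 s' e = DX s.A s'.A (RB X s) (RB X s') e := fun e => DU_DN e
  have hDpos : ∀ e ∈ E, 0 < DX s.A s'.A (RB X s) (RB X s') e := by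
    intro e he
    rw [← hDU]
    exact DU_pos (Y := X.Y) h.mn.nd h'.mn.nd one_pos one_pos (f1 _ (hmem e he).1).1
      (f2 _ (hmem e he).2).1
  have hFle : ∀ e ∈ E, Fe e ≤ 2 * ((RB X s e.1 * RB X s' e.2) / DX s.A s'.A (RB X s) (RB X s') e) *
      (2 * (η * DX s.A s'.A (RB X s) (RB X s') e) + 1) := by
    intro e he
    have k := iF_un h.mn.nd h'.mn.nd hpt one_pos one_pos (by rw [mul_one, mul_one]; exact hT) X.Y
      hUN0 Finset.univ Finset.univ (e := e) (f1 _ (hmem e he).1).1 (f2 _ (hmem e he).2).1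
    rw [← vN_eq_uA, ← vN_eq_uA] at k
    have hD := hDpos e he
    refine k.trans (le_of_eq ?_)
    rw [hDU e, ← hη]
    field_simp
    ring
  have hrel : ∀ e ∈ E, ∃ m m' : ℤ,
      |(m + s.B * X.c.γ) * (cof (e.2 / s'.A) (e.1 / s.A) : ℕ) -
        (m' + s'.B * X.c.γ) * (cof (e.1 / s.A) (e.2 / s'.A) : ℕ)| ≤
        η * DX s.A s'.A (RB X s) (RB X s') e := by
    intro e he
    obtain ⟨x, hx, e1, e2⟩ := hEx e he
    obtain ⟨hx1, y, hy⟩ := Finset.mem_filter.1 hx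
    obtain ⟨b, b', k⟩ := close_pt h.mn.nd h'.mn.nd hpt hT (hUN0.ix x hx) (hUN0.un x hx)
      (hUN0.un' x hx) (left_ne_zero_of_mul hy) (right_ne_zero_of_mul hy)
    rw [e1, e2] at k
    exact ⟨b, b', k⟩
  have hKe : ∀ e ∈ E, ℓ ^ (s₀ + 2) ≤ (cof (e.1 / s.A) (e.2 / s'.A) : ℕ) ∨
      ℓ ^ (s₀ + 2) ≤ (cof (e.2 / s'.A) (e.1 / s.A) : ℕ) ∨
      ℓ ^ (s₀ + 2) * RB X s e.1 ≤ RB X s' e.2 ∨ ℓ ^ (s₀ + 2) * RB X s' e.2 ≤ RB X s e.1 := by
    intro e he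
    obtain ⟨x, hx, e1, e2⟩ := hEx e he
    obtain ⟨i1, i2, i3, i4⟩ := hpt0 x hx
    have hie : it2 x = e := Prod.ext e1 e2
    have k := hK x (Finset.mem_filter.1 hx).1 i3 i4 (by rw [hie]; exact hrel e he)
    rw [hie, e1, e2] at k
    exact k
  have hHe : ∀ e ∈ E, HX X p s s' A A0 e := by
    intro e he
    obtain ⟨x, hx, e1, e2⟩ := hEx e he
    obtain ⟨i1, i2, i3, i4⟩ := hpt0 x hx
    have hie : it2 x = e := Prod.ext e1 e2
    have k := hH x (Finset.mem_filter.1 hx).1 i3 i4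
    rw [hie] at k
    exact k
  -- split
  set FXe : ℕ × ℕ → Prop := fun e => FX η (s.B * X.c.γ) (s'.B * X.c.γ)
    (cof (e.1 / s.A) (e.2 / s'.A)) (cof (e.2 / s'.A) (e.1 / s.A)) (RB X s e.1) (RB X s' e.2) with hFXe
  set En := E.filter (fun e => ¬ FXe e) with hEn
  set Ex := E.filter FXe with hExd
  have hsp : ∑ e ∈ E, Fe e = ∑ e ∈ Ex, Fe e + ∑ e ∈ En, Fe e := by
    rw [hExd, hEn, Finset.sum_filter_add_sum_filter_not]
  have hS0 : 0 ≤ ∑ q ∈ F, MI X s t q + ∑ r ∈ G, MI X s' t' r :=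
    add_nonneg (Finset.sum_nonneg fun q _ => hM1 q) (Finset.sum_nonneg fun q _ => hM2 q)
  set S := ∑ q ∈ F, MI X s t q + ∑ r ∈ G, MI X s' t' r with hS
  have hκ0 : 0 ≤ ℓ ^ (-s₀) := by positivity
  -- the pairs which are not exact
  have bn : ∑ e ∈ En, Fe e ≤ ℓ ^ (-s₀) * (1 / 2 * S) := by
    have key := H p (by omega) s.A s'.A η (ℓ ^ (s₀ + 2)) (s.B * X.c.γ) (s'.B * X.c.γ) F G En
      (RB X s) (RB X s') Fe
      (fun q hq => h.mn.nd.bk.dvd _ (f1 q hq).1) (fun q hq => h'.mn.nd.bk.dvd _ (f2 q hq).1)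
      hη0 hη1 (Real.rpow_pos_of_pos hl0 _) ((Finset.filter_subset _ _).trans hEFG)
      (fun q hq => ⟨Nat.pos_of_ne_zero (h.mn.nd.div_ne (f1 q hq).1), rb1 q⟩)
      (fun q hq => ⟨Nat.pos_of_ne_zero (h'.mn.nd.div_ne (f2 q hq).1), rb2 q⟩)
      (fun q hq => h.lw p (by omega) hl1 q (f1 q hq).2 (f1 q hq).1)
      (fun q hq => h'.lw p (by omega) hl2 q (f2 q hq).2 (f2 q hq).1)
      (fun z hz q hq => h.tame p (by omega) hl1 q (f1 q hq).2 (f1 q hq).1 z (hpr.trans hz))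
      (fun z hz q hq => h'.tame p (by omega) hl2 q (f2 q hq).2 (f2 q hq).1 z (hpr.trans hz))
      (by linarith) (by linarith)
      (fun e he => hKe e (Finset.filter_subset _ _ he))
      (fun e he => hFle e (Finset.filter_subset _ _ he))
      (fun e he _ => hrel e (Finset.filter_subset _ _ he))
      (fun e he _ => (Finset.mem_filter.1 he).2)
    refine key.trans ?_
    have e1 : ℓ ^ (-(s₀ + 1)) = ℓ ^ (-s₀) * ℓ⁻¹ := by
      rw [← Real.rpow_neg_one ℓ, ← Real.rpow_add hl0]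
      congr 1
      ring
    have e2 : 6 * (2 * CT * ℓ / ℓ ^ (s₀ + 2)) = 12 * CT * (ℓ ^ (-s₀) * ℓ⁻¹) := by
      have e3 : ℓ ^ (s₀ + 2) = ℓ ^ s₀ * ℓ ^ 2 := by
        rw [Real.rpow_add hl0]
        norm_num
      rw [e3, Real.rpow_neg hl0.le]
      have h5 : ℓ ^ s₀ ≠ 0 := (Real.rpow_pos_of_pos hl0 _).ne'
      field_simp
      ring
    have e4 : (1 + 12 * CT) * ℓ⁻¹ ≤ 1 / 4 := by
      rw [← div_eq_mul_inv, div_le_iff₀ hl0]
      linarith
    have e4' : 0 ≤ (1 + 12 * CT) * ℓ⁻¹ := by positivity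
    have e5 : ∑ q ∈ F, wA s.A (RB X s) q + ∑ q ∈ G, wA s'.A (RB X s') q ≤ 2 * S := by
      rw [hS]; linarith
    calc _ = ℓ ^ (-s₀) * ((1 + 12 * CT) * ℓ⁻¹ *
          (∑ q ∈ F, wA s.A (RB X s) q + ∑ q ∈ G, wA s'.A (RB X s') q)) := by
          rw [e1, e2]; ring
      _ ≤ ℓ ^ (-s₀) * (1 / 4 * (2 * S)) := by
          refine mul_le_mul_of_nonneg_left ?_ hκ0
          exact (mul_le_mul_of_nonneg_left e5 e4').trans
            (mul_le_mul_of_nonneg_right e4 (by linarith))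
      _ = _ := by ring
  -- the exact pairs
  have hex : ∀ e : ℕ × ℕ, ∃ b : ℚ × ℚ, e ∈ Ex → FXr η (s.B * X.c.γ) (s'.B * X.c.γ)
      (D1 s s' e) (D2 s s' e) (RB X s e.1) (RB X s' e.2) b.1 b.2 := by
    intro e
    by_cases he : e ∈ Ex
    · obtain ⟨ρ, ρ', h1⟩ := FX.ex (Finset.mem_filter.1 he).2
      exact ⟨(ρ, ρ'), fun _ => h1⟩
    · exact ⟨0, fun h => absurd h he⟩
  choose b hb using hex
  have l3 : 3 + ℓ ≤ ℓ ^ (2:ℝ) := by
    rw [Real.rpow_two]; nlinarith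
  have pw : ∀ x : ℝ, 0 ≤ x → (3 + ℓ) ^ x ≤ ℓ ^ (2 * x) := by
    intro x hx
    rw [Real.rpow_mul hl0.le]
    exact Real.rpow_le_rpow (by linarith) l3 hx
  have hK0 : 1 ≤ ℓ ^ A0 := Real.one_le_rpow (by linarith) (by linarith)
  have k1 : (3 + ℓ) ^ Ce ≤ ℓ ^ A0 := (pw Ce (by linarith)).trans
    (Real.rpow_le_rpow_of_exponent_le (by linarith) (by rw [hA0]; linarith))
  have k2 : (3 + ℓ) ^ M ≤ ℓ ^ A0 := (pw M hM0).trans
    (Real.rpow_le_rpow_of_exponent_le (by linarith) (by rw [hA0]; linarith))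
  have hlo : ∀ q ∈ F, RB X s q ≤ 4 * CT * ℓ * MI X s t q := fun q hq =>
    h.mn.lo p (by omega) hl1 q (f1 q hq).2 (f1 q hq).1
  have hlo' : ∀ q ∈ G, RB X s' q ≤ 4 * CT * ℓ * MI X s' t' q := fun q hq =>
    h'.mn.lo p (by omega) hl2 q (f2 q hq).2 (f2 q hq).1
  have c4 : 4 * CT * ℓ * ℓ ^ C2 ≤ (3 + ℓ) ^ M := by
    have a1 : 4 * CT ≤ (3 + ℓ) ^ (4 * CT) := const_pow (P := p)
    have a2 : ℓ ^ C2 ≤ (3 + ℓ) ^ C2 := Real.rpow_le_rpow hl0.le (by linarith) hC2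
    have a3 : ℓ ≤ (3 + ℓ) ^ (1:ℝ) := by rw [Real.rpow_one]; linarith
    calc 4 * CT * ℓ * ℓ ^ C2 ≤ (3 + ℓ) ^ (4 * CT) * (3 + ℓ) ^ (1:ℝ) * (3 + ℓ) ^ C2 := by
          refine mul_le_mul (mul_le_mul a1 a3 hl0.le (by positivity)) a2 (by positivity)
            (by positivity)
      _ = _ := by
          rw [← Real.rpow_add (by linarith), ← Real.rpow_add (by linarith)]
          congr 1
          rw [hM]; ring
  have sF : ∑ q ∈ F, RB X s q ≤ 4 * CT * ℓ * ∑ q ∈ F, MI X s t q := by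
    rw [Finset.mul_sum]; exact Finset.sum_le_sum hlo
  have sG : ∑ q ∈ G, RB X s' q ≤ 4 * CT * ℓ * ∑ q ∈ G, MI X s' t' q := by
    rw [Finset.mul_sum]; exact Finset.sum_le_sum hlo'
  have hLT : 2 * CT * ℓ ≤ (3 + ℓ) ^ (A + 2 * CT + 1) := by
    calc 2 * CT * ℓ ≤ (3 + ℓ) ^ (2 * CT) * (3 + ℓ) ^ (1 : ℝ) := by
          rw [Real.rpow_one]
          exact mul_le_mul const_pow (by linarith) hl0.le (by positivity)
      _ = (3 + ℓ) ^ (2 * CT + 1) := (Real.rpow_add (by linarith) _ _).symm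
      _ ≤ _ := Real.rpow_le_rpow_of_exponent_le (by linarith) (by linarith)
  have hD : ∀ e : ℕ × ℕ, D1 s s' e = (rd (e.1 / s.A) (e.2 / s'.A)).1 ∧
      D2 s s' e = (rd (e.1 / s.A) (e.2 / s'.A)).2 := by
    intro e
    refine ⟨rfl, ?_⟩
    unfold D2 cof rd
    rw [Nat.gcd_comm]
  have hExE : ∀ e ∈ Ex, e ∈ E := fun e he => Finset.filter_subset _ _ he
  have kx := fx p F G (fun q => q / s.A) (fun q => q / s'.A) (fun q => RB X s q)
    (fun q => RB X s' q) η (s.B * X.c.γ) (s'.B * X.c.γ) Ex M (ℓ ^ A0)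
    (fun e => (b e).1) (fun e => (b e).2) (by omega) (by rw [hM]; positivity)
    ⟨fun q hq => Nat.pos_of_ne_zero (h.mn.nd.div_ne (f1 q hq).1),
      fun q hq => Nat.pos_of_ne_zero (h'.mn.nd.div_ne (f2 q hq).1),
      fun q hq q' hq' he => div_inj h.mn.nd (f1 q hq).1 (f1 q' hq').1 he,
      fun q hq q' hq' he => div_inj h'.mn.nd (f2 q hq).1 (f2 q' hq').1 he,
      fun q _ => (rb1 q).le, fun q _ => (rb2 q).le⟩
    ((Finset.filter_subset _ _).trans hEFG) k1 k2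
    (fun e he => by
      have := hb e he
      rwa [(hD e).1, (hD e).2] at this)
    (fun e he => by
      obtain ⟨a1, a2, a3⟩ := hHe e (hExE e he) _ _ (hb e he)
      refine ⟨a1, ?_, ?_⟩
      · rwa [(hD e).1, (hD e).2] at a2
      · have hK1 := KK_one (b e).1 (b e).2
        have hKp : KK (b e).1 (b e).2 ^ A ≤ KK (b e).1 (b e).2 ^ (A + 2 * CT + 1) :=
          Real.rpow_le_rpow_of_exponent_le hK1 (by linarith)
        exact a3.imp (fun hl => hl.trans (mul_le_mul_of_nonneg_right hKp (rb1 _).le))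
          fun hl => hl.trans (mul_le_mul_of_nonneg_right hKp (rb2 _).le))
    (fun q hq z hz => by
      obtain ⟨g1, g2⟩ := h3 p0 (by omega) γ P₀ X s t h.mn.nd p (by omega) hl1 q (f1 q hq).2
        (f1 q hq).1
      exact (tail_nd h.mn.nd hl1 (f1 q hq).1 g1 hz (g2 z hz)).trans
        (mul_le_mul_of_nonneg_right hLT (by positivity)))
    (fun q hq z hz => by
      obtain ⟨g1, g2⟩ := h3 p0 (by omega) γ P₀ X s' t' h'.mn.nd p (by omega) hl2 q (f2 q hq).2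
        (f2 q hq).1
      exact (tail_nd h'.mn.nd hl2 (f2 q hq).1 g1 hz (g2 z hz)).trans
        (mul_le_mul_of_nonneg_right hLT (by positivity)))
    ((sF.trans (mul_le_mul_of_nonneg_left m1 (by positivity))).trans c4)
    ((sG.trans (mul_le_mul_of_nonneg_left m2 (by positivity))).trans c4)
  have bx : ∑ e ∈ Ex, Fe e ≤ ℓ ^ (-s₀) * (1 / 4 * S) := by
    have x1 : ∀ e ∈ Ex, Fe e ≤ 6 * min (RB X s e.1 / ((rd (e.1 / s.A) (e.2 / s'.A)).1 : ℕ))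
        (RB X s' e.2 / ((rd (e.1 / s.A) (e.2 / s'.A)).2 : ℕ)) := by
      intro e he
      have heE := hExE e he
      obtain ⟨t₀, ht, hDt, -, -⟩ := hb e he
      have hD0 := hDpos e heE
      have hDX : DX s.A s'.A (RB X s) (RB X s') e =
          max ((D2 s s' e : ℕ) * RB X s e.1) ((D1 s s' e : ℕ) * RB X s' e.2) := rfl
      have ht0 : 0 < t₀ := lt_of_lt_of_le (by positivity) ht
      have h1t : 1 / t₀ ≤ 1 := by
        rw [div_le_one ht0]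
        exact (one_le_pow₀ (by norm_num)).trans ht
      have hηD : η * DX s.A s'.A (RB X s) (RB X s') e ≤ 1 := by
        rw [hDX, mul_max_of_nonneg _ _ hη0.le]
        refine le_trans (le_of_eq ?_) (hDt.trans h1t)
        congr 1 <;> ring
      obtain ⟨c1, c2⟩ := cof_self_pos h.mn.nd h'.mn.nd (f1 _ (hmem e heE).1).1
        (f2 _ (hmem e heE).2).1
      have d1 : (0:ℝ) < (D1 s s' e : ℕ) := by exact_mod_cast c1
      have d2 : (0:ℝ) < (D2 s s' e : ℕ) := by exact_mod_cast c2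
      have hq : (RB X s e.1 * RB X s' e.2) / DX s.A s'.A (RB X s) (RB X s') e =
          min (RB X s e.1 / (D1 s s' e : ℕ)) (RB X s' e.2 / (D2 s s' e : ℕ)) := by
        rw [hDX]
        exact min_of_mul (rb1 _) (rb2 _) d1 d2
      have hq0 : 0 ≤ (RB X s e.1 * RB X s' e.2) / DX s.A s'.A (RB X s) (RB X s') e :=
        div_nonneg (mul_nonneg (rb1 _).le (rb2 _).le) hD0.le
      rw [← (hD e).1, ← (hD e).2, ← hq]
      refine (hFle e heE).trans ?_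
      have := mul_nonneg hq0 (sub_nonneg.2 hηD)
      linarith
    refine (Finset.sum_le_sum x1).trans ?_
    rw [← Finset.mul_sum]
    have x2 := mul_le_mul_of_nonneg_left kx (by norm_num : (0:ℝ) ≤ 6)
    refine x2.trans ?_
    have x3 : (ℓ ^ A0) ^ (-(1/128):ℝ) ≤ ℓ ^ (-(s₀ + 2)) := by
      rw [← Real.rpow_mul hl0.le]
      refine Real.rpow_le_rpow_of_exponent_le (by linarith) ?_
      rw [hA0]
      linarith
    have x4 : ∑ q ∈ F, RB X s q + ∑ q ∈ G, RB X s' q ≤ 4 * CT * ℓ * S := by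
      rw [hS, mul_add]; exact add_le_add sF sG
    have x5 : 0 ≤ ∑ q ∈ F, RB X s q + ∑ q ∈ G, RB X s' q :=
      add_nonneg (Finset.sum_nonneg fun q _ => (rb1 q).le) (Finset.sum_nonneg fun q _ => (rb2 q).le)
    have x6 : ℓ ^ (-(s₀ + 2)) = ℓ ^ (-s₀) * (ℓ⁻¹ * ℓ⁻¹) := by
      rw [← Real.rpow_neg_one ℓ, ← Real.rpow_add hl0, ← Real.rpow_add hl0]
      congr 1
      ring
    have x7 : 24 * C * CT * ℓ⁻¹ ≤ 1 / 4 := by
      rw [← div_eq_mul_inv, div_le_iff₀ hl0]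
      linarith
    calc 6 * (C * (ℓ ^ A0) ^ (-(1/128):ℝ) * (∑ q ∈ F, RB X s q + ∑ q ∈ G, RB X s' q))
        ≤ 6 * (C * ℓ ^ (-(s₀ + 2)) * (4 * CT * ℓ * S)) := by
          refine mul_le_mul_of_nonneg_left ?_ (by norm_num)
          exact mul_le_mul (mul_le_mul_of_nonneg_left x3 (by linarith)) x4 x5 (by positivity)
      _ = ℓ ^ (-s₀) * (24 * C * CT * ℓ⁻¹ * S) := by
          rw [x6]
          field_simp
          ring
      _ ≤ ℓ ^ (-s₀) * (1 / 4 * S) :=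
          mul_le_mul_of_nonneg_left (mul_le_mul_of_nonneg_right x7 hS0) hκ0
  rw [hsp]
  have h9 : 0 ≤ ℓ ^ (-s₀) * S := mul_nonneg hκ0 hS0
  have e9 : ℓ ^ (-s₀) * (1 / 4 * S) + ℓ ^ (-s₀) * (1 / 2 * S) = 3 / 4 * (ℓ ^ (-s₀) * S) := by ring
  linarith

end node

end Crest.Agent.R4P.UN3
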