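import Crest.Agent.R4P.UN3_24
import Crest.Agent.R4P.RtL_28

/-!
R4 (S0004), powers pass, helper24: **pairs with real state `none` of one node** and kernel forms.

* `H1 η θ A L r r'` : every rational `ρ` which is super-accurate for `θ` at both radii has denominator `≥ L` and
  one radius is late (`1 ≤ den^A r`); `HX_of_H1`, `big_of_H1`; `H1.of_thin` (thin radii which have no common
  label), `H1.of_none`;
* **`node_un1`** : one node, different items, `H1` : `Q R (vN s) (vN s) ≤ (log p)^(-s) ..`, no hypothesis on the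
  cofactors.
-/

set_option autoImplicit false
set_option linter.unusedSectionVars false
set_option linter.unusedVariables false
open Finset

namespace Crest.Agent.R4P.UN4

open Crest.Agent.R4.HVW560 Crest.Agent.R4.HVWX793
open Crest.Agent.R4.LF363 (Lab)
open Crest.Agent.R4P.ShR18 (Co)
open Crest.Agent.R4

section node
open MeasureTheory Filter
open Crest.Agent.R4.Tour104 Crest.Agent.R4.Tour758 Crest.Agent.R4.Avg758 Crest.Agent.R4.Clos758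
open Crest.Agent.R4.ClosL758 Crest.Agent.R4.ClosG758 Crest.Agent.R4.ClosR758
open Crest.Agent.R4.Fam464 Crest.Agent.R4.Piece464
open Crest.Agent.R4P.Cnt588 Crest.Agent.R4P.Item758 Crest.Agent.R4P.AvgItem710
open Crest.Agent.R4P.Walk560 Crest.Agent.R4P.NodeG33
open Crest.Agent.R4P.Data758 Crest.Agent.R4P.Skel189
open Crest.Agent.R4P.Bld532 (NS All)
open Crest.Agent.R4P.Step588 (NDt CT CT_pos ctx_NDt)
open Crest.Agent.R4.Soft104 (w)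
open Crest.Agent.R4P.SameIx30 Crest.Agent.R4P.GPair33
open Crest.Agent.R4P.XmM18 Crest.Agent.R4P.XmG18
open Crest.Agent.R4P.XmE18 (D1 D2 cof_self_pos)
open Crest.Agent.R4P.RseNd23 (wA wt_tr R_tr sum_tr1 RseH)
open Crest.Agent.R4P.XmV493
open Crest.Agent.R4P.UU24 (DX)
open Crest.Agent.R4P.UN24
open Crest.Agent.R4P.RtE28 (KK KK_one)
open Crest.Agent.R4P.XmO37 (div_inj RB_nn)
open Crest.Agent.R4P.LfDat734 Crest.Agent.R4P.OmData532
open Crest.Agent.R4P.UN3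
open Crest.Agent.R4P

variable {N : Skel189.Num} {γ : ℝ} {p0 P₀ : ℕ} {X : Ctx N γ p0 P₀}

/-- **the super-accurate rationals of the centre `θ`** for two radii -/
def H1 (η θ A L r r' : ℝ) : Prop :=
  ∀ ρ : ℚ, |θ - ρ| ^ 5 ≤ (η * r) ^ 4 → |θ - ρ| ^ 5 ≤ (η * r') ^ 4 →
    L ≤ ρ.den ∧ (1 ≤ (ρ.den:ℝ) ^ A * r ∨ 1 ≤ (ρ.den:ℝ) ^ A * r')

/-- thin radii without a common label -/
lemma H1.of_thin {η θ A L r r' T : ℝ} (hη : 0 ≤ η) (hη1 : η ≤ 1) (hr : 0 < r) (hr' : 0 < r')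
    (hA : 5 ≤ A) (hL : 0 ≤ L) (hT : L ^ 5 * T ≤ 1) (hT1 : T ≤ 1 / 10) (hrT : r ≤ T) (hrT' : r' ≤ T)
    (h : ∀ ρ, ¬ (Lab θ r ρ ∧ Lab θ r' ρ)) : H1 η θ A L r r' := by
  intro ρ h1 h2
  have d1 : (1:ℝ) ≤ ρ.den := by exact_mod_cast ρ.pos
  have d0 : (0:ℝ) < ρ.den := by linarith
  have a1 : (η * r) ^ 4 ≤ r ^ 4 := pow_le_pow_left₀ (by positivity) (by nlinarith) 4
  have a2 : (η * r') ^ 4 ≤ r' ^ 4 := pow_le_pow_left₀ (by positivity) (by nlinarith) 4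
  have key : 1 < (ρ.den:ℝ) ^ 5 * r ∨ 1 < (ρ.den:ℝ) ^ 5 * r' := by
    by_contra hc
    push Not at hc
    exact h ρ ⟨⟨hr, hrT.trans hT1, hc.1, h1.trans a1⟩, ⟨hr', hrT'.trans hT1, hc.2, h2.trans a2⟩⟩
  have hp : (ρ.den:ℝ) ^ 5 ≤ (ρ.den:ℝ) ^ A := by
    rw [← Real.rpow_natCast]
    exact Real.rpow_le_rpow_of_exponent_le d1 (by exact_mod_cast hA)
  refine ⟨?_, key.imp (fun k => k.le.trans (mul_le_mul_of_nonneg_right hp hr.le))
    fun k => k.le.trans (mul_le_mul_of_nonneg_right hp hr'.le)⟩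
  by_contra hc
  push Not at hc
  have k1 : (ρ.den:ℝ) ^ 5 ≤ L ^ 5 := pow_le_pow_left₀ d0.le hc.le 5
  have kk : ∀ x : ℝ, 0 < x → x ≤ T → (ρ.den:ℝ) ^ 5 * x ≤ 1 := fun x hx hxT =>
    (mul_le_mul k1 hxT hx.le (by positivity)).trans hT
  rcases key with k | k
  · exact absurd (kk r hr hrT) (not_le.2 k)
  · exact absurd (kk r' hr' hrT') (not_le.2 k)

/-- radii without own label, no super-accurate rational of small denominator -/
lemma H1.of_none {η θ A L r r' : ℝ} (hη : 0 ≤ η) (hη1 : η ≤ 1) (hr : 0 < r) (hr' : 0 < r')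
    (hA : 5 ≤ A) (hL : 2 ≤ L) (hS : ∀ ρ : ℚ, |θ - ρ| ^ 5 ≤ (η * r) ^ 4 → |θ - ρ| ^ 5 ≤ (η * r') ^ 4 →
      L ≤ ρ.den)
    (h : ∀ ρ, ¬ (Lab θ r ρ ∧ Lab θ r' ρ)) : H1 η θ A L r r' := by
  intro ρ h1 h2
  have hd := hS ρ h1 h2
  have d2 : (2:ℝ) ≤ ρ.den := hL.trans hd
  have d1 : (1:ℝ) ≤ ρ.den := by linarith
  have d0 : (0:ℝ) < ρ.den := by linarith
  have a1 : (η * r) ^ 4 ≤ r ^ 4 := pow_le_pow_left₀ (by positivity) (by nlinarith) 4
  have a2 : (η * r') ^ 4 ≤ r' ^ 4 := pow_le_pow_left₀ (by positivity) (by nlinarith) 4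
  have hp : (ρ.den:ℝ) ^ 5 ≤ (ρ.den:ℝ) ^ A := by
    rw [← Real.rpow_natCast]
    exact Real.rpow_le_rpow_of_exponent_le d1 (by exact_mod_cast hA)
  have h32 : (32:ℝ) ≤ (ρ.den:ℝ) ^ 5 := by
    have := pow_le_pow_left₀ (by norm_num : (0:ℝ) ≤ 2) d2 5
    norm_num at this
    exact this
  refine ⟨hd, ?_⟩
  by_contra hc
  push Not at hc
  have b1 : (ρ.den:ℝ) ^ 5 * r < 1 := lt_of_le_of_lt (mul_le_mul_of_nonneg_right hp hr.le) hc.1
  have b2 : (ρ.den:ℝ) ^ 5 * r' < 1 := lt_of_le_of_lt (mul_le_mul_of_nonneg_right hp hr'.le) hc.2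
  exact h ρ ⟨⟨hr, by nlinarith, b1.le, h1.trans a1⟩, ⟨hr', by nlinarith, b2.le, h2.trans a2⟩⟩

/-- cofactors of different items of one node -/
lemma D_ne {s : NS} {t : IT} (h : QX X s t) {e : ℕ × ℕ} (he : e.1 ∈ t.items) (he' : e.2 ∈ t.items)
    (hne : e.1 ≠ e.2) : D1 s s e ≠ D2 s s e := by
  intro h1
  apply hne
  apply div_inj h he he'
  unfold D1 D2 cof at h1
  rw [Nat.gcd_comm (e.2 / s.A)] at h1
  have g1 := Nat.gcd_dvd_left (e.1 / s.A) (e.2 / s.A)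
  have g2 := Nat.gcd_dvd_right (e.1 / s.A) (e.2 / s.A)
  calc e.1 / s.A = e.1 / s.A / (e.1 / s.A).gcd (e.2 / s.A) * (e.1 / s.A).gcd (e.2 / s.A) :=
        (Nat.div_mul_cancel g1).symm
    _ = e.2 / s.A / (e.1 / s.A).gcd (e.2 / s.A) * (e.1 / s.A).gcd (e.2 / s.A) := by rw [h1]
    _ = e.2 / s.A := Nat.div_mul_cancel g2

/-- **one node**: the hypotheses on the labels -/
lemma HX_of_H1 {s : NS} {t : IT} (h : QX X s t) {p : ℕ} {A A0 : ℝ} {e : ℕ × ℕ}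
    (he : e.1 ∈ t.items) (he' : e.2 ∈ t.items) (hne : e.1 ≠ e.2)
    (H : H1 (etaL X.c.wp p) (s.B * X.c.γ) A (Real.log p ^ A0) (RB X s e.1) (RB X s e.2)) :
    HX X p s s A A0 e := by
  intro ρ ρ' hF
  have hrr := (X.ok.rad X.Y).pos
  have hB : (0 : ℝ) < s.B := by exact_mod_cast h.B_pos
  have rb : ∀ q, 0 < RB X s q := fun q => mul_pos hB (hrr q)
  obtain ⟨c1, c2⟩ := cof_self_pos h h he he'
  have e1 : ρ = ρ' := hF.same (etaL_pos _ _) c1 c2 (rb _) (rb _)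
  subst e1
  obtain ⟨a1, a2⟩ := H ρ hF.acc hF.acc'
  have eK : KK ρ ρ = (ρ.den:ℝ) := max_self _
  have hden := den_le_of_co hF.co (D_ne h he he' hne)
  have d1 : (1:ℝ) ≤ ρ.den := by exact_mod_cast ρ.pos
  have hle : (ρ.den:ℝ) ^ (1/64:ℝ) ≤ ρ.den := by
    calc (ρ.den:ℝ) ^ (1/64:ℝ) ≤ (ρ.den:ℝ) ^ (1:ℝ) :=
          Real.rpow_le_rpow_of_exponent_le d1 (by norm_num)
      _ = _ := Real.rpow_one _
  rw [eK]
  refine ⟨a1, ?_, a2⟩
  rcases le_max_iff.1 hden with h5 | h5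
  · exact Or.inl (hle.trans (by exact_mod_cast h5))
  · exact Or.inr (hle.trans (by exact_mod_cast h5))

/-- **one node**: related pairs have a large cofactor or a large ratio of the radii -/
lemma big_of_H1 {s : NS} {t : IT} (h : QX X s t) {η A K L : ℝ} {e : ℕ × ℕ}
    (he : e.1 ∈ t.items) (he' : e.2 ∈ t.items) (hne : e.1 ≠ e.2) (hη : 0 < η)
    (H : H1 η (s.B * X.c.γ) A L (RB X s e.1) (RB X s e.2)) (hK1 : 1 ≤ K) (hKL : K ≤ L)
    (hs1 : η * RB X s e.1 * K ^ 10 ≤ 1) (hs2 : η * RB X s e.2 * K ^ 10 ≤ 1)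
    (hrel : ∃ a a' : ℤ, |((a:ℝ) + s.B * X.c.γ) * (D2 s s e : ℕ) -
        (a' + s.B * X.c.γ) * (D1 s s e : ℕ)| ≤ η * DX s.A s.A (RB X s) (RB X s) e) :
    K ≤ D1 s s e ∨ K ≤ D2 s s e ∨ K * RB X s e.1 ≤ RB X s e.2 ∨ K * RB X s e.2 ≤ RB X s e.1 := by
  by_contra hc
  push Not at hc
  obtain ⟨k1, k2, k3, k4⟩ := hc
  obtain ⟨a, a', hr⟩ := hrel
  have hrr := (X.ok.rad X.Y).pos
  have hB : (0 : ℝ) < s.B := by exact_mod_cast h.B_pos
  have rb : ∀ q, 0 < RB X s q := fun q => mul_pos hB (hrr q)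
  have r1 := rb e.1
  have r2 := rb e.2
  set r := RB X s e.1 with hr1
  set r' := RB X s e.2 with hr2
  set x := D1 s s e with hx
  set y := D2 s s e with hy
  set θ := (s.B:ℝ) * X.c.γ with hθ
  have hK0 : 0 < K := by linarith
  have hxy : x ≠ y := D_ne h he he' hne
  have hDX : DX s.A s.A (RB X s) (RB X s) e = max ((y : ℕ) * r) ((x : ℕ) * r') := rfl
  rw [hDX] at hr
  set m := min r r' with hm
  have m0 : 0 < m := lt_min r1 r2
  have q1 : r ≤ K * m := by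
    rw [hm]
    rcases le_total r r' with h1 | h1
    · rw [min_eq_left h1]; nlinarith
    · rw [min_eq_right h1]; exact k4.le
  have q2 : r' ≤ K * m := by
    rw [hm]
    rcases le_total r r' with h1 | h1
    · rw [min_eq_left h1]; exact k3.le
    · rw [min_eq_right h1]; nlinarith
  have hmax : max ((y : ℕ) * r) ((x : ℕ) * r') ≤ K * (K * m) := by
    refine max_le ?_ ?_
    · exact mul_le_mul k2.le q1 r1.le hK0.le
    · exact mul_le_mul k1.le q2 r2.le hK0.le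
  -- the rational
  have hd0 : ((y:ℤ) - x) ≠ 0 := by
    intro h0
    apply hxy
    omega
  set ρ : ℚ := ((a' * x - a * y : ℤ) : ℚ) / ((y:ℤ) - x : ℤ) with hρ
  have hd0' : ((y:ℝ) - x) ≠ 0 := by
    intro h0
    apply hd0
    have : (((y:ℤ) - x : ℤ) : ℝ) = 0 := by push_cast; exact h0
    exact_mod_cast this
  have e1 : (θ - ρ) * ((y:ℝ) - x) = ((a:ℝ) + θ) * y - (a' + θ) * x := by
    rw [hρ]
    push_cast
    field_simp
    ring
  have hd1 : (1:ℝ) ≤ |(y:ℝ) - x| := by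
    have := Int.one_le_abs hd0
    have h2 : ((|(y:ℤ) - x| : ℤ) : ℝ) = |(y:ℝ) - x| := by push_cast; rfl
    rw [← h2]
    exact_mod_cast this
  have e2 : |θ - ρ| ≤ η * (K * (K * m)) := by
    calc |θ - ρ| = |θ - ρ| * 1 := (mul_one _).symm
      _ ≤ |θ - ρ| * |(y:ℝ) - x| := mul_le_mul_of_nonneg_left hd1 (abs_nonneg _)
      _ = |(θ - ρ) * ((y:ℝ) - x)| := (abs_mul _ _).symm
      _ ≤ η * max ((y : ℕ) * r) ((x : ℕ) * r') := by rw [e1]; exact hr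
      _ ≤ _ := mul_le_mul_of_nonneg_left hmax hη.le
  have e3 : |θ - ρ| ^ 5 ≤ (η * m) ^ 4 * (η * m * K ^ 10) := by
    refine (pow_le_pow_left₀ (abs_nonneg _) e2 5).trans (le_of_eq ?_)
    ring
  have hsm : η * m * K ^ 10 ≤ 1 := by
    refine le_trans (mul_le_mul_of_nonneg_right (mul_le_mul_of_nonneg_left (min_le_left _ _) hη.le)
      (by positivity)) hs1
  have e4 : |θ - ρ| ^ 5 ≤ (η * m) ^ 4 :=
    e3.trans (mul_le_of_le_one_right (by positivity) hsm)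
  have e5 : ∀ z : ℝ, m ≤ z → |θ - ρ| ^ 5 ≤ (η * z) ^ 4 := fun z hz =>
    e4.trans (pow_le_pow_left₀ (by positivity) (mul_le_mul_of_nonneg_left hz hη.le) 4)
  obtain ⟨g1, -⟩ := H ρ (e5 r (min_le_left _ _)) (e5 r' (min_le_right _ _))
  -- the denominator is small
  have hden : (ρ.den : ℤ) ∣ ((y:ℤ) - x) := by
    have h1 : ρ = Rat.divInt (a' * x - a * y) ((y:ℤ) - x) := by
      rw [hρ, Rat.divInt_eq_div]
    rw [h1]
    exact Rat.den_dvd _ _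
  have g2 := Int.le_of_dvd (abs_pos.2 hd0) ((dvd_abs _ _).2 hden)
  have g3 : |(y:ℤ) - x| ≤ max x y := by
    rw [abs_le]
    constructor <;> omega
  have g4 : (ρ.den:ℝ) ≤ max (x:ℝ) y := by
    have : (ρ.den : ℤ) ≤ ((max x y : ℕ) : ℤ) := g2.trans g3
    have h2 : ρ.den ≤ max x y := by exact_mod_cast this
    have h3 : ((max x y : ℕ) : ℝ) = max (x:ℝ) y := by push_cast; rfl
    rw [← h3]
    exact_mod_cast h2
  have g5 : max (x:ℝ) y < K := max_lt k1 k2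
  linarith

open Classical in
/-- **PAIRS WITH REAL STATE `none` OF ONE NODE** -/
theorem node_un1 (N : Skel189.Num) {C2 s₀ A : ℝ} (hC2 : 0 ≤ C2) (hs₀ : 0 ≤ s₀) (hA : 0 ≤ A) :
    ∃ A0 : ℝ, s₀ + 2 ≤ A0 ∧
    ∃ p₁ : ℕ, ∀ p0 ≥ p₁, ∀ (γ : ℝ) (P₀ : ℕ) (X : Ctx N γ p0 P₀), RseH X →
    ∀ (s : NS) (t : IT) (p : ℕ) (R : Finset (X.c.Lam × X.c.Lam)) (F G : Finset ℕ),
    MT X s t → p0 < p → p ≤ top X.S → (∀ r : ℕ, r.Prime → r < s.n → r ≤ p) →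
    UN X p R →
    (∀ x ∈ R, x.1.1.1 ∈ t.items → x.1.1.1 ∈ X.S' → x.1.1.1 ∈ F) →
    (∀ x ∈ R, x.2.1.1 ∈ t.items → x.2.1.1 ∈ X.S' → x.2.1.1 ∈ G) →
    (∀ q ∈ F, q ∈ t.items ∧ q ∈ X.S') → (∀ q ∈ G, q ∈ t.items ∧ q ∈ X.S') →
    ∑ q ∈ F, MI X s t q ≤ Real.log p ^ C2 → ∑ q ∈ G, MI X s t q ≤ Real.log p ^ C2 →
    (∀ x ∈ R, x.1.1.1 ∈ F → x.2.1.1 ∈ G → x.1.1.1 ≠ x.2.1.1) →
    (∀ x ∈ R, x.1.1.1 ∈ F → x.2.1.1 ∈ G →
      H1 (etaL X.c.wp p) (s.B * X.c.γ) A (Real.log p ^ A0) (RB X s x.1.1.1) (RB X s x.2.1.1)) →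
    Q R (vN X (.inl (s, t))) (vN X (.inl (s, t))) ≤
      Real.log p ^ (-s₀) * (∑ q ∈ F, MI X s t q + ∑ r ∈ G, MI X s t r) := by
  have hCT := CT_pos
  obtain ⟨A0, hA0, p1, H⟩ := node_un N hC2 hs₀ hA
  obtain ⟨p2, h2⟩ := RtN28.small_s (4 * CT) (C2 + 1 + 10 * (s₀ + 2)) 0 (δ := 1) one_pos
  obtain ⟨p3, h3⟩ := Crest.Agent.R4.RseN207.log_large 1
  refine ⟨A0, hA0, p1 + p2 + p3 + 1, fun p0 hp0 γ P₀ X hX s t p R F G h hp hpt hl hUN r1 r2 f1 f2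
    m1 m2 hne hH => ?_⟩
  have hl1 := h3 p (by omega)
  set ℓ := Real.log (p:ℝ) with hℓ
  have hl0 : 0 < ℓ := by linarith
  have hη1 : etaL X.c.wp p ≤ Real.exp (-(1/500) * ℓ ^ (4/5:ℝ)) := by
    have hdep := hX.dep p hp hpt
    have h4 : etaL X.c.wp p ≤ Real.exp (-(ℓ ^ (4/5:ℝ))) := by
      unfold etaL
      rw [Real.exp_neg, ← one_div, div_le_div_iff₀ (by positivity) (Real.exp_pos _)]
      linarith
    refine h4.trans (Real.exp_le_exp.2 ?_)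
    have : 0 ≤ ℓ ^ (4/5:ℝ) := by positivity
    linarith
  have hsm : ∀ F' : Finset ℕ, (∀ q ∈ F', q ∈ t.items ∧ q ∈ X.S') →
      ∑ q ∈ F', MI X s t q ≤ ℓ ^ C2 → ∀ q ∈ F',
      etaL X.c.wp p * RB X s q * (ℓ ^ (s₀ + 2)) ^ 10 ≤ 1 := by
    intro F' hF' hm q hq
    have a1 : RB X s q ≤ 4 * CT * ℓ * MI X s t q := h.mn.lo p (by omega) hl q (hF' q hq).2 (hF' q hq).1
    have a2 : MI X s t q ≤ ℓ ^ C2 :=
      (Finset.single_le_sum (fun r _ => MI_nonneg h.mn.nd r) hq).trans hm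
    have a3 : RB X s q ≤ 4 * CT * ℓ * ℓ ^ C2 :=
      a1.trans (mul_le_mul_of_nonneg_left a2 (by positivity))
    have k := h2 p (by omega)
    rw [neg_zero, Real.rpow_zero, mul_one] at k
    have e1 : (ℓ ^ (s₀ + 2)) ^ 10 = ℓ ^ (10 * (s₀ + 2)) := by
      rw [← Real.rpow_natCast (ℓ ^ (s₀ + 2)), ← Real.rpow_mul hl0.le]
      congr 1
      push_cast
      ring
    have e2 : ℓ ^ (C2 + 1 + 10 * (s₀ + 2)) = ℓ ^ C2 * ℓ * ℓ ^ (10 * (s₀ + 2)) := by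
      rw [Real.rpow_add hl0, Real.rpow_add hl0, Real.rpow_one]
    rw [e1]
    refine le_trans ?_ k
    rw [e2]
    have h0 : 0 ≤ etaL X.c.wp p := (etaL_pos _ _).le
    calc etaL X.c.wp p * RB X s q * ℓ ^ (10 * (s₀ + 2)) ≤
          Real.exp (-(1/500) * ℓ ^ (4/5:ℝ)) * (4 * CT * ℓ * ℓ ^ C2) * ℓ ^ (10 * (s₀ + 2)) := by
          refine mul_le_mul_of_nonneg_right ?_ (by positivity)
          exact mul_le_mul hη1 a3 (RB_nn h.mn.nd q) (Real.exp_pos _).le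
      _ = _ := by ring
  refine H p0 (by omega) γ P₀ X hX s s t t p R F G h h rfl hp hpt hl hl hUN r1 r2 f1 f2 m1 m2
    (fun x hx i1 i2 => HX_of_H1 h.mn.nd (f1 _ i1).1 (f2 _ i2).1 (hne x hx i1 i2) (hH x hx i1 i2))
    (fun x hx i1 i2 hrel => ?_)
  exact big_of_H1 h.mn.nd (e := it2 x) (f1 _ i1).1 (f2 _ i2).1 (hne x hx i1 i2) (etaL_pos _ _)
    (hH x hx i1 i2) (Real.one_le_rpow hl1 (by linarith))
    (Real.rpow_le_rpow_of_exponent_le hl1 hA0) (hsm F f1 m1 _ i1) (hsm G f2 m2 _ i2) hrel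

end node

end Crest.Agent.R4P.UN4
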