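import Crest.Agent.R4P.UN4_24

/-!
R4 (S0004), powers pass, helper24: **pairs with real state `none` in the node forms of helper45** (`VNd`, `VTs`
of `PrK45`), static kernels (pattern of `RtL_28`).

* `NU` : facts of a node (`NL` of 28 and `MT` of 493), `ctx_NU`; `bil_Q`;
* `K2` : hypotheses on the pairs of a kernel for two nodes of one circle, **`pair_un`**;
* `K1` : hypotheses for one node, **`pair_un1`**; **`vn_un`** (rest columns, `RN K`), **`fb_un`** (children of a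
  tie, `FB K`), **`fp_un`** (P child against N child, `FP K`).
-/

set_option autoImplicit false
set_option linter.unusedSectionVars false
set_option linter.unusedVariables false

open MeasureTheory Filter

namespace Crest.Agent.R4P.UN5

open Crest.Agent.R4.Tour104 Crest.Agent.R4.Tour758 Crest.Agent.R4.Avg758 Crest.Agent.R4.Clos758
open Crest.Agent.R4.ClosL758 Crest.Agent.R4.ClosG758 Crest.Agent.R4.ClosR758
open Crest.Agent.R4.HVW560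
open Crest.Agent.R4.Fam464 Crest.Agent.R4.Piece464
open Crest.Agent.R4P.Cnt588 Crest.Agent.R4P.Item758 Crest.Agent.R4P.AvgItem710
open Crest.Agent.R4P.Walk560 Crest.Agent.R4P.NodeG33
open Crest.Agent.R4P.Data758 Crest.Agent.R4P.Skel189
open Crest.Agent.R4P.Bld532 (NS All NodeOk)
open Crest.Agent.R4P.WalkIT579 (tp isL nodeOk_hi)
open Crest.Agent.R4P.Step588 (NDt CT CT_pos)
open Crest.Agent.R4.Soft104 (w)
open Crest.Agent.R4P.SameIx30 Crest.Agent.R4P.GPair33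
open Crest.Agent.R4P.SpM18 Crest.Agent.R4P.XmE18 Crest.Agent.R4P.XmM18 Crest.Agent.R4P.XmG18
open Crest.Agent.R4P.JnE5 (Ker bil)
open Crest.Agent.R4P.PrH45 (RN FB)
open Crest.Agent.R4P.PrK45
open Crest.Agent.R4P.RseNd23 (NF RseH)
open Crest.Agent.R4P.RtS28 (Mn Mn_nonneg)
open Crest.Agent.R4P.RtL28
open Crest.Agent.R4P.XmV493 (MT ctx_MT)
open Crest.Agent.R4P.UU24 (DX)
open Crest.Agent.R4P.LfDat734 Crest.Agent.R4P.OmData532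
open Crest.Agent.R4P.UN3 Crest.Agent.R4P.UN4
open Crest.Agent.R4P

variable {N : Skel189.Num} {γ : ℝ} {p0 P₀ : ℕ} {X : Ctx N γ p0 P₀}

/-- **facts of a node** -/
structure NU (X : Ctx N γ p0 P₀) (u : NS) (τ : IT) : Prop where
  nl : NL X u τ
  mt : MT X u τ

theorem ctx_NU (N : Skel189.Num) : ∃ p₁ : ℕ, ∀ p0 ≥ p₁, ∀ (γ : ℝ) (P₀ : ℕ), 2 ≤ P₀ →
    ∀ X : Ctx N γ p0 P₀, ∀ j₀ : X.c.Lam, All (NU X) ⟨top X.S, 1, 1, 1⟩ X.c.t := by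
  obtain ⟨p1, h1⟩ := ctx_NL N
  obtain ⟨p2, h2⟩ := ctx_MT N
  exact ⟨p1 + p2, fun p0 hp0 γ P₀ hP X j₀ => All.mono (fun u τ h => ⟨h.1, h.2⟩)
    ((h1 p0 (by omega) γ P₀ hP X j₀).and (h2 p0 (by omega) γ P₀ hP X))⟩

open Classical in
/-- the pairs of a kernel -/
noncomputable def RK (X : Ctx N γ p0 P₀) (t t' : IT) (K : X.c.Lam → X.c.Lam → ℝ) :
    Finset (X.c.Lam × X.c.Lam) :=
  Finset.univ.filter fun x => K x.1 x.2 ≠ 0 ∧ (x.1.1.1 ∈ t.items ∧ x.1.1.1 ∈ X.S') ∧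
    (x.2.1.1 ∈ t'.items ∧ x.2.1.1 ∈ X.S')

lemma mem_RK {t t' : IT} {K : X.c.Lam → X.c.Lam → ℝ} {x : X.c.Lam × X.c.Lam} :
    x ∈ RK X t t' K ↔ K x.1 x.2 ≠ 0 ∧ (x.1.1.1 ∈ t.items ∧ x.1.1.1 ∈ X.S') ∧
      (x.2.1.1 ∈ t'.items ∧ x.2.1.1 ∈ X.S') := by
  classical
  unfold RK
  simp

/-- a kernel by its pairs -/
lemma bil_Q {s s' : NS} {t t' : IT} (h : NU X s t) (h' : NU X s' t') {K : X.c.Lam → X.c.Lam → ℝ}
    {W : ℝ} (hK : ∀ j i, K j i ≤ W) :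
    bil K (vx X s t) (vx X s' t') ≤
      W * Q (RK X t t' K) (vN X (.inl (s, t))) (vN X (.inl (s', t'))) := by
  classical
  have e : bil K (vx X s t) (vx X s' t') =
      ∑ x : X.c.Lam × X.c.Lam, K x.1 x.2 * I (fun y => vx X s t x.1 y * vx X s' t' x.2 y) := by
    rw [Fintype.sum_prod_type]
    rfl
  rw [e]
  unfold Q RK
  rw [Finset.sum_filter, Finset.mul_sum]
  refine Finset.sum_le_sum fun x _ => ?_
  have h0 : 0 ≤ I (fun y => vx X s t x.1 y * vx X s' t' x.2 y) :=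
    I_nonneg fun y => mul_nonneg ((pb_vx h.nl.rg x.1).nonneg y) ((pb_vx h'.nl.rg x.2).nonneg y)
  split_ifs with hx
  · exact mul_le_mul_of_nonneg_right (hK _ _) h0
  · rw [mul_zero]
    by_cases hk : K x.1 x.2 = 0
    · rw [hk, zero_mul]
    · have hz : (fun y => vx X s t x.1 y * vx X s' t' x.2 y) = fun _ => (0:ℝ) := by
        funext y
        by_contra hne
        have y1 := left_ne_zero_of_mul hne
        have y2 := right_ne_zero_of_mul hne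
        refine hx ⟨hk, ⟨?_, ?_⟩, ?_, ?_⟩
        · by_contra hn
          exact y1 (vN_out hn y)
        · by_contra hn
          exact y1 (vN_dead h.mt.mn.nd hn y)
        · by_contra hn
          exact y2 (vN_out hn y)
        · by_contra hn
          exact y2 (vN_dead h'.mt.mn.nd hn y)
      rw [hz]
      have : I (fun _ : ℝ => (0:ℝ)) = 0 := by unfold I; simp
      rw [this, mul_zero]

/-- **hypotheses on the pairs of a kernel**, two nodes of one circle -/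
def K2 (X : Ctx N γ p0 P₀) (p : ℕ) (s s' : NS) (t t' : IT) (A A0 a : ℝ)
    (K : X.c.Lam → X.c.Lam → ℝ) : Prop :=
  ∀ j i, K j i ≠ 0 → j.1.1 ∈ t.items → j.1.1 ∈ X.S' → i.1.1 ∈ t'.items → i.1.1 ∈ X.S' →
    (X.c.world p j.1).1 = (X.c.world p i.1).1 ∧ X.c.st p j.1.1 = none ∧
    HX X p s s' A A0 (j.1.1, i.1.1) ∧
    ((∃ a a' : ℤ, |((a:ℝ) + s.B * X.c.γ) * (D2 s s' (j.1.1, i.1.1) : ℕ) -
        (a' + s'.B * X.c.γ) * (D1 s s' (j.1.1, i.1.1) : ℕ)| ≤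
        etaL X.c.wp p * DX s.A s'.A (RB X s) (RB X s') (j.1.1, i.1.1)) →
      Real.log p ^ a ≤ D1 s s' (j.1.1, i.1.1) ∨ Real.log p ^ a ≤ D2 s s' (j.1.1, i.1.1) ∨
      Real.log p ^ a * RB X s j.1.1 ≤ RB X s' i.1.1 ∨ Real.log p ^ a * RB X s' i.1.1 ≤ RB X s j.1.1)

/-- **A PAIR OF NODES OF ONE CIRCLE** -/
theorem pair_un (N : Skel189.Num) {C2 s₀ A : ℝ} (hC2 : 0 ≤ C2) (hs₀ : 0 ≤ s₀) (hA : 0 ≤ A) :
    ∃ A0 : ℝ, s₀ + 2 ≤ A0 ∧ ∃ p₁ : ℕ, ∀ p0 ≥ p₁, ∀ (γ : ℝ) (P₀ : ℕ) (X : Ctx N γ p0 P₀), RseH X →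
    ∀ (s s' : NS) (t t' : IT) (p : ℕ) (K : X.c.Lam → X.c.Lam → ℝ) (W : ℝ) (c c' : X.c.Lam → ℝ),
    NU X s t → NU X s' t' → s.A * s.B = s'.A * s'.B → p0 < p → p ≤ top X.S →
    (∀ r : ℕ, r.Prime → r < s.n → r ≤ p) → (∀ r : ℕ, r.Prime → r < s'.n → r ≤ p) →
    0 ≤ W → (∀ j i, K j i ≤ W) → K2 X p s s' t t' A A0 (s₀ + 2) K →
    4 * Mn X s t ≤ Real.log p ^ C2 → 4 * Mn X s' t' ≤ Real.log p ^ C2 →
    (∀ j, 0 ≤ c j) → (∀ j, 0 ≤ c' j) →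
    (∀ j : X.c.Lam, ∀ x ∈ RK X t t' K, j.1.1 = x.1.1.1 → W * Real.log p ^ (-s₀) ≤ c j) →
    (∀ j : X.c.Lam, ∀ x ∈ RK X t t' K, j.1.1 = x.2.1.1 → W * Real.log p ^ (-s₀) ≤ c' j) →
    bil K (vx X s t) (vx X s' t') ≤ lm X c s t + lm X c' s' t' := by
  classical
  obtain ⟨A0, hA0, p1, H⟩ := node_un N hC2 hs₀ hA
  refine ⟨A0, hA0, p1, fun p0 hp0 γ P₀ X hX s s' t t' p K W c c' h h' hT hp hpt hl hl' hW hK hR
    m1 m2 c0 c0' hc hc' => ?_⟩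
  set R := RK X t t' K with hRd
  have hm : ∀ x ∈ R, K x.1 x.2 ≠ 0 ∧ (x.1.1.1 ∈ t.items ∧ x.1.1.1 ∈ X.S') ∧
      (x.2.1.1 ∈ t'.items ∧ x.2.1.1 ∈ X.S') := fun x hx => mem_RK.1 hx
  set F : Finset ℕ := R.image fun x => x.1.1.1 with hF
  set G : Finset ℕ := R.image fun x => x.2.1.1 with hG
  have hK' : ∀ x ∈ R, _ := fun x hx =>
    hR x.1 x.2 (hm x hx).1 (hm x hx).2.1.1 (hm x hx).2.1.2 (hm x hx).2.2.1 (hm x hx).2.2.2
  have key := H p0 hp0 γ P₀ X hX s s' t t' p R F G h.mt h'.mt hT hp hpt hl hl'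
    ⟨fun x hx => (hK' x hx).1, fun x hx => (hK' x hx).2.1⟩
    (fun x hx _ _ => Finset.mem_image_of_mem _ hx) (fun x hx _ _ => Finset.mem_image_of_mem _ hx)
    (fun q hq => by
      obtain ⟨x, hx, rfl⟩ := Finset.mem_image.1 hq
      exact (hm x hx).2.1)
    (fun q hq => by
      obtain ⟨x, hx, rfl⟩ := Finset.mem_image.1 hq
      exact (hm x hx).2.2)
    ((MI_tot h.nl _).trans m1) ((MI_tot h'.nl _).trans m2)
    (fun x hx _ _ => (hK' x hx).2.2.1) (fun x hx _ _ => (hK' x hx).2.2.2)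
  refine (bil_Q h h' hK).trans ((mul_le_mul_of_nonneg_left key hW).trans ?_)
  have a1 : ∑ q ∈ F, (W * Real.log p ^ (-s₀)) * MI X s t q ≤ lm X c s t := by
    refine MI_lm h.nl c0 fun j hj => ?_
    obtain ⟨x, hx, h3⟩ := Finset.mem_image.1 hj
    exact hc j x hx h3.symm
  have a2 : ∑ q ∈ G, (W * Real.log p ^ (-s₀)) * MI X s' t' q ≤ lm X c' s' t' := by
    refine MI_lm h'.nl c0' fun j hj => ?_
    obtain ⟨x, hx, h3⟩ := Finset.mem_image.1 hj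
    exact hc' j x hx h3.symm
  refine le_trans (le_of_eq ?_) (add_le_add a1 a2)
  rw [← Finset.mul_sum, ← Finset.mul_sum]
  ring

/-- **hypotheses on the pairs of a kernel**, one node -/
def K1 (X : Ctx N γ p0 P₀) (p : ℕ) (s : NS) (t : IT) (A A0 : ℝ) (K : X.c.Lam → X.c.Lam → ℝ) : Prop :=
  ∀ j i, K j i ≠ 0 → j.1.1 ∈ t.items → j.1.1 ∈ X.S' → i.1.1 ∈ t.items → i.1.1 ∈ X.S' →
    (X.c.world p j.1).1 = (X.c.world p i.1).1 ∧ X.c.st p j.1.1 = none ∧ j.1.1 ≠ i.1.1 ∧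
    H1 (etaL X.c.wp p) (s.B * X.c.γ) A (Real.log p ^ A0) (RB X s j.1.1) (RB X s i.1.1)

/-- **ONE NODE** -/
theorem pair_un1 (N : Skel189.Num) {C2 s₀ A : ℝ} (hC2 : 0 ≤ C2) (hs₀ : 0 ≤ s₀) (hA : 0 ≤ A) :
    ∃ A0 : ℝ, s₀ + 2 ≤ A0 ∧ ∃ p₁ : ℕ, ∀ p0 ≥ p₁, ∀ (γ : ℝ) (P₀ : ℕ) (X : Ctx N γ p0 P₀), RseH X →
    ∀ (s : NS) (t : IT) (p : ℕ) (K : X.c.Lam → X.c.Lam → ℝ) (W : ℝ) (c : X.c.Lam → ℝ),
    NU X s t → p0 < p → p ≤ top X.S → (∀ r : ℕ, r.Prime → r < s.n → r ≤ p) →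
    0 ≤ W → (∀ j i, K j i ≤ W) → K1 X p s t A A0 K → 4 * Mn X s t ≤ Real.log p ^ C2 →
    (∀ j, 0 ≤ c j) →
    (∀ j : X.c.Lam, ∀ x ∈ RK X t t K, j.1.1 = x.1.1.1 ∨ j.1.1 = x.2.1.1 →
      W * Real.log p ^ (-s₀) ≤ c j) →
    bil K (vx X s t) (vx X s t) ≤ 2 * lm X c s t := by
  classical
  obtain ⟨A0, hA0, p1, H⟩ := node_un1 N hC2 hs₀ hA
  refine ⟨A0, hA0, p1, fun p0 hp0 γ P₀ X hX s t p K W c h hp hpt hl hW hK hR m1 c0 hc => ?_⟩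
  set R := RK X t t K with hRd
  have hm : ∀ x ∈ R, K x.1 x.2 ≠ 0 ∧ (x.1.1.1 ∈ t.items ∧ x.1.1.1 ∈ X.S') ∧
      (x.2.1.1 ∈ t.items ∧ x.2.1.1 ∈ X.S') := fun x hx => mem_RK.1 hx
  set F : Finset ℕ := R.image fun x => x.1.1.1 with hF
  set G : Finset ℕ := R.image fun x => x.2.1.1 with hG
  have hK' : ∀ x ∈ R, _ := fun x hx =>
    hR x.1 x.2 (hm x hx).1 (hm x hx).2.1.1 (hm x hx).2.1.2 (hm x hx).2.2.1 (hm x hx).2.2.2
  have key := H p0 hp0 γ P₀ X hX s t p R F G h.mt hp hpt hl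
    ⟨fun x hx => (hK' x hx).1, fun x hx => (hK' x hx).2.1⟩
    (fun x hx _ _ => Finset.mem_image_of_mem _ hx) (fun x hx _ _ => Finset.mem_image_of_mem _ hx)
    (fun q hq => by
      obtain ⟨x, hx, rfl⟩ := Finset.mem_image.1 hq
      exact (hm x hx).2.1)
    (fun q hq => by
      obtain ⟨x, hx, rfl⟩ := Finset.mem_image.1 hq
      exact (hm x hx).2.2)
    ((MI_tot h.nl _).trans m1) ((MI_tot h.nl _).trans m1)
    (fun x hx _ _ => (hK' x hx).2.2.1) (fun x hx _ _ => (hK' x hx).2.2.2)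
  refine (bil_Q h h hK).trans ((mul_le_mul_of_nonneg_left key hW).trans ?_)
  have a1 : ∑ q ∈ F, (W * Real.log p ^ (-s₀)) * MI X s t q ≤ lm X c s t := by
    refine MI_lm h.nl c0 fun j hj => ?_
    obtain ⟨x, hx, h3⟩ := Finset.mem_image.1 hj
    exact hc j x hx (Or.inl h3.symm)
  have a2 : ∑ q ∈ G, (W * Real.log p ^ (-s₀)) * MI X s t q ≤ lm X c s t := by
    refine MI_lm h.nl c0 fun j hj => ?_
    obtain ⟨x, hx, h3⟩ := Finset.mem_image.1 hj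
    exact hc j x hx (Or.inr h3.symm)
  rw [← Finset.mul_sum] at a1 a2
  have e : W * (Real.log p ^ (-s₀) * (∑ q ∈ F, MI X s t q + ∑ r ∈ G, MI X s t r)) =
    W * Real.log p ^ (-s₀) * ∑ q ∈ F, MI X s t q + W * Real.log p ^ (-s₀) * ∑ r ∈ G, MI X s t r := by
    ring
  rw [e]
  linarith

/-! ### the forms of helper45 -/

/-- exponent of the masses -/
noncomputable def cM (N : Skel189.Num) : ℝ := 2 * (N.B + N.c2 + 2)

lemma cM_nonneg (N : Skel189.Num) : 0 ≤ cM N := by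
  have := N.hB
  have := N.hC1
  have := N.hc2
  unfold cM
  linarith

/-- masses with the logarithm of a column above the top -/
lemma mass_up (N : Skel189.Num) {ℓ ℓ' m : ℝ} (h0 : 0 ≤ ℓ) (h1 : ℓ ≤ ℓ') (h4 : 4 ≤ ℓ')
    (hm : m ≤ (3 + ℓ) ^ (N.B + N.c2 + 2)) : m ≤ ℓ' ^ cM N := by
  have := N.hB
  have := N.hC1
  have := N.hc2
  have k : 0 ≤ N.B + N.c2 + 2 := by linarith
  refine hm.trans ?_
  unfold cM
  rw [Real.rpow_mul (by linarith)]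
  refine Real.rpow_le_rpow (by linarith) ?_ k
  rw [Real.rpow_two]
  nlinarith

/-- **REST COLUMNS** : `RN K` at a node which is not a leaf -/
theorem vn_un (N : Skel189.Num) {s₀ A : ℝ} (hs₀ : 0 ≤ s₀) (hA : 0 ≤ A) :
    ∃ A0 : ℝ, s₀ + 2 ≤ A0 ∧ ∃ p₁ : ℕ, ∀ p0 ≥ p₁, ∀ (γ : ℝ) (P₀ : ℕ), 2 ≤ P₀ →
    ∀ (X : Ctx N γ p0 P₀), RseH X → ∀ (u : NS) (τ : IT) (q : ℕ) (K : X.c.Lam → X.c.Lam → ℝ)
    (W : ℝ) (ε : X.c.Lam → ℝ), NU X u τ → ¬ isL τ → tp τ < q → q ≤ top X.S → 0 ≤ W →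
    (∀ j i, K j i ≤ W) → K1 X q u τ A A0 K → (∀ j, 0 ≤ ε j) →
    (∀ j : X.c.Lam, ∀ x ∈ RK X τ τ K, j.1.1 = x.1.1.1 ∨ j.1.1 = x.2.1.1 →
      W * Real.log q ^ (-s₀) ≤ ε j) →
    2 * bil K (vx X u τ) (vx X u τ) ≤ lm X (fun j => 4 * ε j) u τ := by
  obtain ⟨A0, hA0, p1, H⟩ := pair_un1 N (cM_nonneg N) hs₀ hA
  obtain ⟨p2, h2⟩ := mass_nd N
  obtain ⟨p3, h3⟩ := Crest.Agent.R4.RseN207.log_large 4
  refine ⟨A0, hA0, p1 + p2 + p3 + 2, ?_⟩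
  intro p0 hp0 γ P₀ hP X hX u τ q K W ε h hl hq hqt hW hK hK1 hε hr
  obtain ⟨k1, k2, k3, k4⟩ := nodeOk_hi h.nl.nf.nd.self.node hl
  have k2' : p0 < tp τ := k2
  have m1 := (h2 p0 (by omega) γ P₀ hP X u τ h.nl hl).1
  have tp2 : (2:ℝ) ≤ tp τ := by exact_mod_cast (by omega : 2 ≤ tp τ)
  have l0 : 0 ≤ Real.log (tp τ) := Real.log_natCast_nonneg _
  have lq : Real.log (tp τ) ≤ Real.log q :=
    Real.log_le_log (by linarith) (by exact_mod_cast hq.le)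
  have l4 : 4 ≤ Real.log q := h3 q (by omega)
  have key := H p0 (by omega) γ P₀ X hX u τ q K W ε h (by omega) hqt
    (fun r h1 h2 => (k4 r h1 h2).trans hq.le) hW hK hK1 (mass_up N l0 lq l4 m1) hε hr
  rw [lm_smul]
  linarith

/-- **CHILDREN OF A TIE** : `FB K` -/
theorem fb_un (N : Skel189.Num) {s₀ A : ℝ} (hs₀ : 0 ≤ s₀) (hA : 0 ≤ A) :
    ∃ A0 : ℝ, s₀ + 2 ≤ A0 ∧ ∃ p₁ : ℕ, ∀ p0 ≥ p₁, ∀ (γ : ℝ) (P₀ : ℕ), 2 ≤ P₀ →
    ∀ (X : Ctx N γ p0 P₀), RseH X → ∀ (u : NS) (p : ℕ) (Sp : Finset ℕ) (t₁ t₀ : IT)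
    (K : X.c.Lam → X.c.Lam → ℝ) (W : ℝ) (ε : X.c.Lam → ℝ),
    NU X u (.br p Sp t₁ t₀) → NU X (nP p u) t₁ → NU X (nN p u) t₀ → p ≤ top X.S → 0 ≤ W →
    (∀ j i, K j i ≤ W) → K1 X p (nP p u) t₁ A A0 K → K1 X p (nN p u) t₀ A A0 K → (∀ j, 0 ≤ ε j) →
    (∀ j : X.c.Lam, ∀ x ∈ RK X t₁ t₁ K, j.1.1 = x.1.1.1 ∨ j.1.1 = x.2.1.1 →
      W * Real.log p ^ (-s₀) ≤ ε j) →
    (∀ j : X.c.Lam, ∀ x ∈ RK X t₀ t₀ K, j.1.1 = x.1.1.1 ∨ j.1.1 = x.2.1.1 →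
      W * Real.log p ^ (-s₀) ≤ ε j) →
    FB (fun _ => K) p (vx X (nP p u) t₁) (vx X (nN p u) t₀) ≤
      lm X (fun j => 4 * ε j) u (.br p Sp t₁ t₀) := by
  obtain ⟨A0, hA0, p1, H⟩ := pair_un1 N (cM_nonneg N) hs₀ hA
  obtain ⟨p2, h2⟩ := mass_nd N
  obtain ⟨p3, h3⟩ := Crest.Agent.R4.RseN207.log_large 4
  refine ⟨A0, hA0, p1 + p2 + p3 + 2, ?_⟩
  intro p0 hp0 γ P₀ hP X hX u p Sp t₁ t₀ K W ε h hu1 hu0 hpt hW hK hK1 hK0 hε a1 a0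
  have hl : ¬ isL (IT.br p Sp t₁ t₀) := fun h => h
  obtain ⟨-, k2, -, -⟩ := nodeOk_hi h.nl.nf.nd.self.node hl
  have k2' : p0 < p := k2
  obtain ⟨m1, m0⟩ := (h2 p0 (by omega) γ P₀ hP X u _ h.nl hl).2 p Sp t₁ t₀ rfl
  have l0 : 0 ≤ Real.log (p : ℝ) := Real.log_natCast_nonneg p
  have l4 : 4 ≤ Real.log (p:ℝ) := h3 p (by omega)
  have hlv : ∀ r : ℕ, r.Prime → r < p → r ≤ p := fun r _ hr => hr.le
  have key1 := H p0 (by omega) γ P₀ X hX (nP p u) t₁ p K W ε hu1 k2' hpt hlv hW hK hK1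
    (mass_up N l0 le_rfl l4 m1) hε a1
  have key0 := H p0 (by omega) γ P₀ X hX (nN p u) t₀ p K W ε hu0 k2' hpt hlv hW hK hK0
    (mass_up N l0 le_rfl l4 m0) hε a0
  have hp2 : (2:ℝ) ≤ p := by exact_mod_cast (RtC28.tF h.nl.nf.nd).pr.two_le
  have hp0' : (0:ℝ) < p := by linarith
  have w1 : (0:ℝ) ≤ 1 - 1 / (p:ℝ) := by
    rw [sub_nonneg, div_le_one hp0']; linarith
  have b := lm_br2 h.nl.rg (c := fun j => 4 * ε j) (c₁ := fun j => 4 * ε j) (c₀ := fun j => 4 * ε j)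
    (fun _ _ => le_rfl) (fun _ _ => le_rfl) hu1.nl.rg hu0.nl.rg
  refine le_trans ?_ b
  rw [lm_smul, lm_smul]
  unfold FB
  refine add_le_add (mul_le_mul_of_nonneg_left (by linarith) w1)
    (mul_le_mul_of_nonneg_left (by linarith) (by positivity))

/-- **P CHILD AGAINST N CHILD** : P items pay `4/p` times the rate, N items pay twice the rate -/
theorem fp_un (N : Skel189.Num) {s₀ A : ℝ} (hs₀ : 0 ≤ s₀) (hA : 0 ≤ A) :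
    ∃ A0 : ℝ, s₀ + 2 ≤ A0 ∧ ∃ p₁ : ℕ, ∀ p0 ≥ p₁, ∀ (γ : ℝ) (P₀ : ℕ), 2 ≤ P₀ →
    ∀ (X : Ctx N γ p0 P₀), RseH X → ∀ (u : NS) (p : ℕ) (Sp : Finset ℕ) (t₁ t₀ : IT)
    (K : X.c.Lam → X.c.Lam → ℝ) (W : ℝ) (ε : X.c.Lam → ℝ),
    NU X u (.br p Sp t₁ t₀) → NU X (nP p u) t₁ → NU X (nN p u) t₀ → p ≤ top X.S → 0 ≤ W →
    (∀ j i, K j i ≤ W) → K2 X p (nP p u) (nN p u) t₁ t₀ A A0 (s₀ + 2) K → (∀ j, 0 ≤ ε j) →
    (∀ j : X.c.Lam, ∀ x ∈ RK X t₁ t₀ K, j.1.1 = x.1.1.1 →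
      4 / (p : ℝ) * (W * Real.log p ^ (-s₀)) ≤ ε j) →
    (∀ j : X.c.Lam, ∀ x ∈ RK X t₁ t₀ K, j.1.1 = x.2.1.1 →
      2 * (W * Real.log p ^ (-s₀)) ≤ ε j) →
    1 / (p : ℝ) * (2 * bil K (vx X (nP p u) t₁) (vx X (nN p u) t₀)) ≤
      lm X ε u (.br p Sp t₁ t₀) := by
  classical
  obtain ⟨A0, hA0, p1, H⟩ := pair_un N (cM_nonneg N) hs₀ hA
  obtain ⟨p2, h2⟩ := mass_nd N
  obtain ⟨p3, h3⟩ := Crest.Agent.R4.RseN207.log_large 4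
  refine ⟨A0, hA0, p1 + p2 + p3 + 2, ?_⟩
  intro p0 hp0 γ P₀ hP X hX u p Sp t₁ t₀ K W ε h hu1 hu0 hpt hW hK hK2 hε a1 a2
  have hl : ¬ isL (IT.br p Sp t₁ t₀) := fun h => h
  obtain ⟨-, k2, -, -⟩ := nodeOk_hi h.nl.nf.nd.self.node hl
  have k2' : p0 < p := k2
  obtain ⟨m1, m0⟩ := (h2 p0 (by omega) γ P₀ hP X u _ h.nl hl).2 p Sp t₁ t₀ rfl
  have l0 : 0 ≤ Real.log (p : ℝ) := Real.log_natCast_nonneg p
  have l4 : 4 ≤ Real.log (p:ℝ) := h3 p (by omega)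
  have hlv : ∀ r : ℕ, r.Prime → r < p → r ≤ p := fun r _ hr => hr.le
  have hp2 : (2:ℝ) ≤ p := by exact_mod_cast (RtC28.tF h.nl.nf.nd).pr.two_le
  have hp0' : (0:ℝ) < p := by linarith
  have w1 : (1:ℝ) / 2 ≤ 1 - 1 / (p:ℝ) := by
    rw [le_sub_comm, div_le_iff₀ hp0']
    linarith
  have hT : (nP p u).A * (nP p u).B = (nN p u).A * (nN p u).B := by
    show u.A * p * u.B = u.A * (u.B * p)
    ring
  have key := H p0 (by omega) γ P₀ X hX (nP p u) (nN p u) t₁ t₀ p K W (fun j => (p:ℝ) / 4 * ε j)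
    (fun j => 1 / 2 * ε j) hu1 hu0 hT k2' hpt hlv hlv hW hK hK2
    (mass_up N l0 le_rfl l4 m1) (mass_up N l0 le_rfl l4 m0)
    (fun j => mul_nonneg (by positivity) (hε j))
    (fun j => mul_nonneg (by norm_num) (hε j)) (fun j x hx hj => by
      have := a1 j x hx hj
      have h5 := mul_le_mul_of_nonneg_left this (by positivity : (0:ℝ) ≤ p / 4)
      refine le_trans (le_of_eq ?_) h5
      field_simp) (fun j x hx hj => by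
      have := a2 j x hx hj
      linarith)
  have b := lm_br2 h.nl.rg (c := ε) (c₁ := ε) (c₀ := ε) (fun _ _ => le_rfl) (fun _ _ => le_rfl)
    hu1.nl.rg hu0.nl.rg
  refine le_trans ?_ b
  have L1 : 0 ≤ lm X ε (nP p u) t₁ :=
    Finset.sum_nonneg fun j _ => mul_nonneg (hε j) (I_vx_nonneg hu1.nl.rg j)
  have e1 : lm X (fun j => (p:ℝ) / 4 * ε j) (nP p u) t₁ = (p:ℝ) / 4 * lm X ε (nP p u) t₁ :=
    lm_smul _ _ _ _
  have e0 : lm X (fun j => 1 / 2 * ε j) (nN p u) t₀ = 1 / 2 * lm X ε (nN p u) t₀ :=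
    lm_smul _ _ _ _
  rw [e1, e0] at key
  have k5 := mul_le_mul_of_nonneg_left key (by positivity : (0:ℝ) ≤ 1 / (p:ℝ) * 2)
  have e3 : 1 / (p:ℝ) * 2 * ((p:ℝ) / 4 * lm X ε (nP p u) t₁ + 1 / 2 * lm X ε (nN p u) t₀) =
      1 / 2 * lm X ε (nP p u) t₁ + 1 / (p:ℝ) * lm X ε (nN p u) t₀ := by
    field_simp
    ring
  rw [e3] at k5
  have k6 := mul_le_mul_of_nonneg_right w1 L1
  calc 1 / (p : ℝ) * (2 * bil K (vx X (nP p u) t₁) (vx X (nN p u) t₀))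
      = 1 / (p : ℝ) * 2 * bil K (vx X (nP p u) t₁) (vx X (nN p u) t₀) := by ring
    _ ≤ _ := k5
    _ ≤ _ := by linarith

end Crest.Agent.R4P.UN5
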