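import Crest.Agent.R4P.RtN_28

/-!
R4 (S0004), powers pass, helper24: **same cell, two nodes of one circle, a side without label** (kernel of
`XmU_493`, doc 1952 (D)): the two-node version of `InX944.inUU_ret` (HVW + near relation, no cardinality
loss).

* `two_UU` : `∑_E F ≤ 6 η L² M M' + (dyadic + deep) η^(2ε) (M M')^(1/2+ε) + 12 (L/K) (M + M')`;
* `rtUU`   : numbers with rates, `rtUU'` : item coordinates (two nodes).
-/

set_option autoImplicit false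
set_option linter.unusedSectionVars false
set_option linter.unusedVariables false
open Finset

namespace Crest.Agent.R4P.UU24

open Crest.Agent.R4.HVW560 Crest.Agent.R4.HVWX793
open Crest.Agent.R4.StopAsm709 Crest.Agent.R4.StopHvw709
open Crest.Agent.R4.Schur709
open Crest.Agent.R4.InX944
open Crest.Agent.R4.ClsS (eps1)
open Crest.Agent.R4.LF363 (Lab)
open Crest.Agent.R4.LF11 (DD ew)
open Crest.Agent.R4

/-- a structured label at the radius `η R` is a label at the radius `R ≤ η²` -/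
lemma lab_up2 {t η R θ : ℝ} {ρ : ℚ} (ht : (2:ℝ)^400 ≤ t) (hη : 0 < η) (hη1 : η ≤ 1) (hR : 0 < R)
    (hRη : R ≤ η^2) (hRt : η * R ≤ 1/t) (hden : (ρ.den:ℝ) ≤ t^(21/200:ℝ))
    (hnear : |θ - ρ| ≤ t^(39/200:ℝ) * (η * R)) : Lab θ R ρ := by
  have ht0 : 0 < t := lt_of_lt_of_le (by positivity) ht
  have ht1 : 1 ≤ t := le_trans (one_le_pow₀ (by norm_num)) ht
  have hd0 : (0:ℝ) ≤ ρ.den := Nat.cast_nonneg _
  have h3 : R^3 ≤ (1/t)^2 := by
    calc R^3 = R^2 * R := by ring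
      _ ≤ R^2 * η^2 := mul_le_mul_of_nonneg_left hRη (by positivity)
      _ = (η * R)^2 := by ring
      _ ≤ (1/t)^2 := pow_le_pow_left₀ (by positivity) hRt 2
  -- `R ≤ t^(-2/3)`
  have hR3 : R ≤ t^(-(2/3):ℝ) := by
    have e1 : (t^(-(2/3):ℝ))^3 = (1/t)^2 := by
      rw [← Real.rpow_natCast (t^(-(2/3):ℝ)) 3, ← Real.rpow_mul ht0.le, one_div, inv_pow,
        ← Real.rpow_natCast t 2, ← Real.rpow_neg ht0.le]
      norm_num
    have h4 : R^3 ≤ (t^(-(2/3):ℝ))^3 := by rw [e1]; exact h3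
    exact le_of_pow_le_pow_left₀ (by norm_num) (by positivity) h4
  have hR10 : R ≤ 1/10 := by
    refine hR3.trans ?_
    have h5 : t^(-(2/3):ℝ) ≤ ((2:ℝ)^400)^(-(2/3):ℝ) :=
      Real.rpow_le_rpow_of_nonpos (by positivity) ht (by norm_num)
    refine h5.trans ?_
    have e2 : ((2:ℝ)^400)^(-(2/3):ℝ) = (2:ℝ)^(-(800/3):ℝ) := by
      rw [← Real.rpow_natCast 2 400, ← Real.rpow_mul (by norm_num)]
      norm_num
    rw [e2]
    calc (2:ℝ)^(-(800/3):ℝ) ≤ (2:ℝ)^(-(4:ℝ)) :=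
          Real.rpow_le_rpow_of_exponent_le (by norm_num) (by norm_num)
      _ ≤ 1/10 := by
          rw [Real.rpow_neg (by norm_num)]
          norm_num
  refine ⟨hR, hR10, ?_, ?_⟩
  · calc (ρ.den:ℝ)^5 * R ≤ (t^(21/200:ℝ))^5 * t^(-(2/3):ℝ) := by gcongr
      _ = t^(-(17/120):ℝ) := by
          rw [← Real.rpow_natCast (t^(21/200:ℝ)) 5, ← Real.rpow_mul ht0.le, ← Real.rpow_add ht0]
          norm_num
      _ ≤ 1 := Real.rpow_le_one_of_one_le_of_nonpos ht1 (by norm_num)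
  · have h5 : |θ - ρ| ^ 5 ≤ (t^(39/200:ℝ) * (η * R))^5 :=
      pow_le_pow_left₀ (abs_nonneg _) hnear 5
    refine h5.trans ?_
    have e1 : (t^(39/200:ℝ) * (η * R))^5 = ((t^(39/200:ℝ))^5 * (η^4 * (η * R))) * R^4 := by ring
    rw [e1]
    have h6 : (t^(39/200:ℝ))^5 * (η^4 * (η * R)) ≤ 1 := by
      calc (t^(39/200:ℝ))^5 * (η^4 * (η * R)) ≤ (t^(39/200:ℝ))^5 * (1 * (1/t)) := by
            have h7 : η^4 ≤ 1 := pow_le_one₀ hη.le hη1
            gcongr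
        _ = t^(-(1/40):ℝ) := by
            rw [one_mul, one_div, ← Real.rpow_natCast (t^(39/200:ℝ)) 5, ← Real.rpow_mul ht0.le,
              ← Real.rpow_neg_one, ← Real.rpow_add ht0]
            norm_num
        _ ≤ 1 := Real.rpow_le_one_of_one_le_of_nonpos ht1 (by norm_num)
    calc (t^(39/200:ℝ))^5 * (η^4 * (η * R)) * R^4 ≤ 1 * R^4 :=
          mul_le_mul_of_nonneg_right h6 (by positivity)
      _ = R^4 := one_mul _

set_option maxHeartbeats 1000000 in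
/-- **same cell, two nodes, one side without label, large cofactor or radius ratio** -/
theorem two_UU : ∃ C c0 : ℝ, 1 ≤ C ∧ 0 < c0 ∧ ∀ c1 : ℝ, 0 < c1 → c1 ≤ c0 → ∃ T0 : ℝ, 1 ≤ T0 ∧
    ∀ (X L η K θ θ' : ℝ) (n G : ℕ) (V W : Finset ℕ) (E : Finset (ℕ × ℕ)) (R R' : ℕ → ℝ)
    (F : ℕ × ℕ → ℝ),
    400 ≤ n → T0 ≤ (2:ℝ)^n → X ≤ Real.exp (((2:ℝ)^n)^c1) → 0 < G →
    0 < η → η ≤ 1 → 0 < K → 0 ≤ L → E ⊆ V ×ˢ W →
    (∀ w ∈ V, 0 < w ∧ 0 < R w) → (∀ w ∈ W, 0 < w ∧ 0 < R' w) →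
    (∀ w ∈ V, R w ≤ L * wt R w) → (∀ w ∈ W, R' w ≤ L * wt R' w) →
    (∀ z : ℝ, X ≤ z → ∀ w ∈ V, Crest.Agent.R4.ClsB.Tame z G w) →
    (∀ z : ℝ, X ≤ z → ∀ w ∈ W, Crest.Agent.R4.ClsB.Tame z G w) →
    (∀ e ∈ E, K ≤ (cof e.1 e.2 : ℕ) ∨ K ≤ (cof e.2 e.1 : ℕ) ∨ K * R e.1 ≤ R' e.2 ∨
      K * R' e.2 ≤ R e.1) →
    (∀ e ∈ E, F e ≤ 2 * ((R e.1 * R' e.2) / DP R R' e) * (2 * η * DP R R' e + 1)) →
    (∀ e ∈ E, 0 < F e → ∃ m m' : ℤ,
      |(m + θ) * (cof e.2 e.1 : ℕ) - (m' + θ') * (cof e.1 e.2 : ℕ)| ≤ η * DP R R' e) →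
    (∀ e ∈ E, (R e.1 ≤ η^2 ∧ ∀ ρ, ¬ Lab θ (R e.1) ρ) ∨
      (R' e.2 ≤ η^2 ∧ ∀ ρ, ¬ Lab θ' (R' e.2) ρ)) →
    ∑ e ∈ E, F e ≤
      6 * η * L^2 * ((∑ q ∈ V, wt R q) * (∑ r ∈ W, wt R' r)) +
      6 * L^2 * (n * (2 * KH 1 0 eps1 * (2:ℝ)^(2*eps1*n)) + C * ((2:ℝ)^n)^(-(1/1000):ℝ)) *
        (η^(2*eps1) * ((∑ q ∈ V, wt R q) * (∑ r ∈ W, wt R' r))^(1/2+eps1)) +
      6 * (L / K) * (∑ q ∈ V, wt R q + ∑ r ∈ W, wt R' r) := by
  classical
  obtain ⟨C, c0, hC1, hc0, hC⟩ := ClsT2.deepHyp_Gen3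
  refine ⟨C, c0, hC1, hc0, ?_⟩
  intro c1 hc1 hc10
  obtain ⟨T0, hT01, hT0⟩ := hC c1 hc1 hc10
  refine ⟨T0, hT01, ?_⟩
  intro X L η K θ θ' n G V W E R R' F hn hTn hX hG hη hη1 hK hL hES hV hW hLV hLW hVt hWt hbig hF
    hrel hU
  have he1 : eps1 = 1/1000 := rfl
  have h2n : (0:ℝ) < (2:ℝ)^n := by positivity
  set Re : ℕ → ℝ := fun w => η * R w with hRe
  set Re' : ℕ → ℝ := fun w => η * R' w with hRe'
  set D : ℕ × ℕ → ℝ := DP Re Re' with hDdef
  have hDe : ∀ e, D e = η * DP R R' e := by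
    intro e
    rw [hDdef]; unfold DP
    rw [mul_max_of_nonneg _ _ hη.le, hRe, hRe']
    congr 1 <;> ring
  have hDc : ∀ e, Dc ∅ ∅ Re Re' e = D e := fun e => Dc_empty Re Re' e
  have hmem : ∀ e ∈ E, e.1 ∈ V ∧ e.2 ∈ W := fun e he => Finset.mem_product.1 (hES he)
  have hDpos0 : ∀ e ∈ E, 0 < DP R R' e := fun e he => DP_pos (hW _ (hmem e he).2).1 (hV _ (hmem e he).1).2
  have hDpos : ∀ e ∈ E, 0 < D e := fun e he => by rw [hDe]; exact mul_pos hη (hDpos0 e he)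
  have hmuV : ∀ q ∈ V, 0 ≤ wt R q := fun q hq => by
    unfold wt; exact mul_nonneg (hV q hq).2.le (by positivity)
  have hmuW : ∀ q ∈ W, 0 ≤ wt R' q := fun q hq => by
    unfold wt; exact mul_nonneg (hW q hq).2.le (by positivity)
  have hMV0 := Finset.sum_nonneg hmuV
  have hMW0 := Finset.sum_nonneg hmuW
  have hwe : ∀ q, wt Re q = η * wt R q := fun q => by unfold wt; rw [hRe]; ring
  have hwe' : ∀ q, wt Re' q = η * wt R' q := fun q => by unfold wt; rw [hRe']; ring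
  have hsumV : ∑ q ∈ V, wt Re q = η * ∑ q ∈ V, wt R q := by
    rw [Finset.mul_sum]; exact Finset.sum_congr rfl fun q _ => hwe q
  have hsumW : ∑ q ∈ W, wt Re' q = η * ∑ q ∈ W, wt R' q := by
    rw [Finset.mul_sum]; exact Finset.sum_congr rfl fun q _ => hwe' q
  have hsmuV : ∑ q ∈ V, mu ∅ Re q = η * ∑ q ∈ V, wt R q := by
    rw [← hsumV]; exact Finset.sum_congr rfl fun q _ => mu_empty Re q
  have hsmuW : ∑ q ∈ W, mu ∅ Re' q = η * ∑ q ∈ W, wt R' q := by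
    rw [← hsumW]; exact Finset.sum_congr rfl fun q _ => mu_empty Re' q
  -- bounds
  have hF6 : ∀ e ∈ E, D e ≤ 1 → F e ≤ 6 * ((R e.1 * R' e.2) / DP R R' e) := by
    intro e he hD1
    rw [hDe] at hD1
    have hD := hDpos0 e he
    have hR := (hV _ (hmem e he).1).2
    have hR' := (hW _ (hmem e he).2).2
    calc F e ≤ 2 * ((R e.1 * R' e.2) / DP R R' e) * (2 * η * DP R R' e + 1) := hF e he
      _ ≤ 2 * ((R e.1 * R' e.2) / DP R R' e) * 3 := by
          apply mul_le_mul_of_nonneg_left _ (by positivity)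
          nlinarith
      _ = _ := by ring
  have hRR : ∀ e ∈ E, R e.1 * R' e.2 ≤ L^2 * (wt R e.1 * wt R' e.2) := by
    intro e he
    have h1 := hLV _ (hmem e he).1
    have h2 := hLW _ (hmem e he).2
    have h5 : 0 ≤ L * wt R e.1 := (hV _ (hmem e he).1).2.le.trans h1
    calc R e.1 * R' e.2 ≤ (L * wt R e.1) * (L * wt R' e.2) :=
          mul_le_mul h1 h2 (hW _ (hmem e he).2).2.le h5
      _ = _ := by ring
  have hFmu : ∀ e ∈ E, D e ≤ 1 → F e ≤ (6/η) * L^2 * ((wt Re e.1 * wt Re' e.2) / D e) := by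
    intro e he hD1
    have hD := hDpos0 e he
    calc F e ≤ 6 * ((R e.1 * R' e.2) / DP R R' e) := hF6 e he hD1
      _ ≤ 6 * ((L^2 * (wt R e.1 * wt R' e.2)) / DP R R' e) :=
          mul_le_mul_of_nonneg_left (div_le_div_of_nonneg_right (hRR e he) hD.le) (by norm_num)
      _ = _ := by rw [hDe, hwe, hwe']; field_simp
  set PA : ℕ × ℕ → Prop := fun e => AltS n θ θ' (cof e.1 e.2) (cof e.2 e.1) (Re e.1) (Re' e.2) with hPA
  set PE : ℕ × ℕ → Prop := fun e => ES θ θ' (cof e.1 e.2) (cof e.2 e.1) (Re e.1) (Re' e.2) with hPE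
  set P1 : ℕ × ℕ → Prop := fun e => K ≤ (cof e.1 e.2 : ℕ) ∨ K * R' e.2 ≤ R e.1 with hP1
  set EN := E.filter (fun e => D e ≤ 1) with hEN
  set EM := E.filter (fun e => ¬ D e ≤ 1) with hEM
  set EY := EN.filter (fun e => (1/2:ℝ)^n < D e) with hEY
  set EX' := EN.filter (fun e => ¬ (1/2:ℝ)^n < D e) with hEX'
  set EG' := EX'.filter (fun e => PA e) with hEG'
  set EH := EX'.filter (fun e => ¬ PA e) with hEH
  set EE := EH.filter (fun e => PE e) with hEE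
  set ER := EH.filter (fun e => ¬ PE e) with hER
  set E1 := EE.filter (fun e => P1 e) with hE1
  set E2 := EE.filter (fun e => ¬ P1 e) with hE2
  have hsplit : ∑ e ∈ E, F e = (∑ e ∈ EY, F e +
      (∑ e ∈ EG', F e + ((∑ e ∈ E1, F e + ∑ e ∈ E2, F e) + ∑ e ∈ ER, F e))) + ∑ e ∈ EM, F e := by
    rw [hE1, hE2, Finset.sum_filter_add_sum_filter_not, hEE, hER,
      Finset.sum_filter_add_sum_filter_not, hEG', hEH,
      Finset.sum_filter_add_sum_filter_not, hEY, hEX', Finset.sum_filter_add_sum_filter_not, hEN,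
      hEM, Finset.sum_filter_add_sum_filter_not]
  have hENP : ∀ e ∈ EN, e ∈ E ∧ D e ≤ 1 := fun e he => Finset.mem_filter.1 he
  have hEYP : ∀ e ∈ EY, e ∈ EN := fun e he => (Finset.mem_filter.1 he).1
  have hEXP : ∀ e ∈ EX', e ∈ EN := fun e he => (Finset.mem_filter.1 he).1
  have hEGP : ∀ e ∈ EG', e ∈ EX' := fun e he => (Finset.mem_filter.1 he).1
  have hEHP : ∀ e ∈ EH, e ∈ EX' := fun e he => (Finset.mem_filter.1 he).1
  have hEEP : ∀ e ∈ EE, e ∈ EH := fun e he => (Finset.mem_filter.1 he).1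
  have hERP : ∀ e ∈ ER, e ∈ EH := fun e he => (Finset.mem_filter.1 he).1
  have hE1P : ∀ e ∈ E1, e ∈ EE := fun e he => (Finset.mem_filter.1 he).1
  have hE2P : ∀ e ∈ E2, e ∈ EE := fun e he => (Finset.mem_filter.1 he).1
  have hpow : (1/2:ℝ)^n = 1/2^n := by rw [div_pow, one_pow]
  have hEXD : ∀ e ∈ EX', D e ≤ 1/2^n := by
    intro e he
    have := not_lt.1 (Finset.mem_filter.1 he).2
    rw [hpow] at this
    exact this
  have hOe : ∀ p ∈ (∅ : Finset ℕ), p.Prime ∧ 0 ≤ p := fun p hp => absurd hp (Finset.notMem_empty p)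
  have hVe : ∀ w ∈ V, 0 < w ∧ 0 < Re w := fun w hw => ⟨(hV w hw).1, mul_pos hη (hV w hw).2⟩
  have hWe : ∀ w ∈ W, 0 < w ∧ 0 < Re' w := fun w hw => ⟨(hW w hw).1, mul_pos hη (hW w hw).2⟩
  -- dyadic part
  have boundY := mid_dyadic (ε := eps1) (by rw [he1]; norm_num) (by rw [he1]; norm_num) (N := 0)
    (O := ∅) (O' := ∅) (V := V) (W := W) (R := Re) (R' := Re') hOe hOe hVe hWe (c := 0) (c' := 0)
    (fun r _ => by simp) (fun r _ => by simp) (K := (6/η) * L^2) (by positivity) (F := F) n EY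
    (fun e he => hES (hENP e (hEYP e he)).1)
    (fun e he => by rw [hDc]; exact (hENP e (hEYP e he)).2)
    (fun e he => by rw [hDc]; exact (Finset.mem_filter.1 he).2)
    (fun e he => by
      rw [hDc, mu_empty, mu_empty]
      exact hFmu e (hENP e (hEYP e he)).1 (hENP e (hEYP e he)).2)
  -- deep part
  have hDD : ∀ e, DD Re Re' e = D e := fun e => by unfold DD; rfl
  have boundG := hT0 θ θ' ((2:ℝ)^n) X ((6/η) * L^2) V W EG' Re Re' F G hTn hX (by positivity) hG hVe hWe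
    hVt hWt (fun e he => hES (hENP e (hEXP e (hEGP e he))).1)
    (fun e he => by rw [hDD]; exact hEXD e (hEGP e he))
    (fun e he => by
      rw [hDD]
      have h := hENP e (hEXP e (hEGP e he))
      refine (hFmu e h.1 h.2).trans ?_
      apply mul_le_mul_of_nonneg_left _ (by positivity)
      apply div_le_div_of_nonneg_right _ (hDpos e h.1).le
      unfold ew
      have f1 := Crest.Agent.R4.ClsS.one_le_Af (cof e.1 e.2)
      have f2 := Crest.Agent.R4.ClsS.one_le_Af (cof e.2 e.1)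
      have f4 : 0 ≤ wt Re e.1 * wt Re' e.2 := by
        rw [hwe, hwe']
        exact mul_nonneg (mul_nonneg hη.le (hmuV _ (hmem e h.1).1)) (mul_nonneg hη.le (hmuW _ (hmem e h.1).2))
      exact le_mul_of_one_le_right f4 (by nlinarith))
    (by
      intro e he t ht h1 h2 hFe
      rw [hDD] at h1 h2
      obtain ⟨m, m', hm⟩ := hrel e (hENP e (hEXP e (hEGP e he))).1 hFe
      refine gen3_of (m := m) (m' := m') ?_ (Finset.mem_filter.1 he).2 ht h1 h2
      have h3 : max ((cof e.2 e.1 : ℝ) * Re e.1) ((cof e.1 e.2 : ℝ) * Re' e.2) = D e := rfl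
      rw [h3, hDe]
      have h4 : 0 < η * DP R R' e := mul_pos hη (hDpos0 e (hENP e (hEXP e (hEGP e he))).1)
      linarith)
  -- the partner parts
  have hEpair : ∀ e ∈ EE, Dich579.EPair (fun t => t^(1/20:ℝ)) θ θ' Re Re' e.1 e.2 := by
    intro e he
    exact (Finset.mem_filter.1 he).2
  have boundE1 : ∑ e ∈ E1, F e ≤ 6 * (L / K) * ∑ q ∈ V, wt R q := by
    have hinj : Set.InjOn Prod.fst (E1 : Set (ℕ × ℕ)) := by
      intro e he f hf h1
      have ae := hEpair e (hE1P e (Finset.mem_coe.1 he))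
      have af := hEpair f (hE1P f (Finset.mem_coe.1 hf))
      rw [← h1] at af
      exact Prod.ext h1 (Dich579.partner ae af)
    have hone : ∀ e ∈ E1, F e ≤ 6 * (L / K) * wt R e.1 := by
      intro e he
      have heN := hENP e (hEXP e (hEHP e (hEEP e (hE1P e he))))
      have h := hmem e heN.1
      have hR' := (hW _ h.2).2
      have hR := (hV _ h.1).2
      have hD0 := hDpos0 e heN.1
      have hDx : (R e.1 * R' e.2) / DP R R' e ≤ R e.1 / K := by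
        rw [div_le_div_iff₀ hD0 hK]
        rcases (Finset.mem_filter.1 he).2 with hx | hx
        · have h1 : K * R' e.2 ≤ DP R R' e :=
            (mul_le_mul_of_nonneg_right hx hR'.le).trans (le_max_right _ _)
          calc R e.1 * R' e.2 * K = R e.1 * (K * R' e.2) := by ring
            _ ≤ R e.1 * DP R R' e := mul_le_mul_of_nonneg_left h1 hR.le
        · have hc : (1:ℝ) ≤ (cof e.2 e.1 : ℕ) := by
            exact_mod_cast (cof_pos (hW _ h.2).1 : 0 < cof e.2 e.1)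
          have h1 : R e.1 ≤ DP R R' e := by
            calc R e.1 = 1 * R e.1 := (one_mul _).symm
              _ ≤ (cof e.2 e.1 : ℕ) * R e.1 := mul_le_mul_of_nonneg_right hc hR.le
              _ ≤ DP R R' e := le_max_left _ _
          calc R e.1 * R' e.2 * K = R e.1 * (K * R' e.2) := by ring
            _ ≤ R e.1 * R e.1 := mul_le_mul_of_nonneg_left hx hR.le
            _ ≤ R e.1 * DP R R' e := mul_le_mul_of_nonneg_left h1 hR.le
      calc F e ≤ 6 * ((R e.1 * R' e.2) / DP R R' e) := hF6 e heN.1 heN.2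
        _ ≤ 6 * (R e.1 / K) := mul_le_mul_of_nonneg_left hDx (by norm_num)
        _ ≤ 6 * ((L * wt R e.1) / K) :=
            mul_le_mul_of_nonneg_left (div_le_div_of_nonneg_right (hLV _ h.1) hK.le) (by norm_num)
        _ = _ := by ring
    calc ∑ e ∈ E1, F e ≤ ∑ e ∈ E1, 6 * (L / K) * wt R e.1 := Finset.sum_le_sum hone
      _ = ∑ q ∈ E1.image Prod.fst, 6 * (L / K) * wt R q := by rw [Finset.sum_image hinj]
      _ ≤ ∑ q ∈ V, 6 * (L / K) * wt R q := by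
          apply Finset.sum_le_sum_of_subset_of_nonneg
          · intro q hq
            obtain ⟨e, he, rfl⟩ := Finset.mem_image.1 hq
            exact (hmem e (hENP e (hEXP e (hEHP e (hEEP e (hE1P e he))))).1).1
          · intro q hq _
            have := hmuV q hq
            positivity
      _ = _ := by rw [Finset.mul_sum]
  have boundE2 : ∑ e ∈ E2, F e ≤ 6 * (L / K) * ∑ q ∈ W, wt R' q := by
    have hinj : Set.InjOn Prod.snd (E2 : Set (ℕ × ℕ)) := by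
      intro e he f hf h1
      have ae := hEpair e (hE2P e (Finset.mem_coe.1 he))
      have af := hEpair f (hE2P f (Finset.mem_coe.1 hf))
      rw [← h1] at af
      exact Prod.ext (Dich579.partner' ae af) h1
    have hone : ∀ e ∈ E2, F e ≤ 6 * (L / K) * wt R' e.2 := by
      intro e he
      have heN := hENP e (hEXP e (hEHP e (hEEP e (hE2P e he))))
      have h := hmem e heN.1
      have hn1 : ¬ (K ≤ (cof e.1 e.2 : ℕ) ∨ K * R' e.2 ≤ R e.1) := (Finset.mem_filter.1 he).2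
      have hy : K ≤ (cof e.2 e.1 : ℕ) ∨ K * R e.1 ≤ R' e.2 := by
        rcases hbig e heN.1 with h3 | h3 | h3 | h3
        · exact absurd (Or.inl h3) hn1
        · exact Or.inl h3
        · exact Or.inr h3
        · exact absurd (Or.inr h3) hn1
      have hR' := (hW _ h.2).2
      have hR := (hV _ h.1).2
      have hD0 := hDpos0 e heN.1
      have hDx : (R e.1 * R' e.2) / DP R R' e ≤ R' e.2 / K := by
        rw [div_le_div_iff₀ hD0 hK]
        rcases hy with hx | hx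
        · have h1 : K * R e.1 ≤ DP R R' e :=
            (mul_le_mul_of_nonneg_right hx hR.le).trans (le_max_left _ _)
          calc R e.1 * R' e.2 * K = R' e.2 * (K * R e.1) := by ring
            _ ≤ R' e.2 * DP R R' e := mul_le_mul_of_nonneg_left h1 hR'.le
        · have hc : (1:ℝ) ≤ (cof e.1 e.2 : ℕ) := by
            exact_mod_cast (cof_pos (hV _ h.1).1 : 0 < cof e.1 e.2)
          have h1 : R' e.2 ≤ DP R R' e := by
            calc R' e.2 = 1 * R' e.2 := (one_mul _).symm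
              _ ≤ (cof e.1 e.2 : ℕ) * R' e.2 := mul_le_mul_of_nonneg_right hc hR'.le
              _ ≤ DP R R' e := le_max_right _ _
          calc R e.1 * R' e.2 * K = R' e.2 * (K * R e.1) := by ring
            _ ≤ R' e.2 * R' e.2 := mul_le_mul_of_nonneg_left hx hR'.le
            _ ≤ R' e.2 * DP R R' e := mul_le_mul_of_nonneg_left h1 hR'.le
      calc F e ≤ 6 * ((R e.1 * R' e.2) / DP R R' e) := hF6 e heN.1 heN.2
        _ ≤ 6 * (R' e.2 / K) := mul_le_mul_of_nonneg_left hDx (by norm_num)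
        _ ≤ 6 * ((L * wt R' e.2) / K) :=
            mul_le_mul_of_nonneg_left (div_le_div_of_nonneg_right (hLW _ h.2) hK.le) (by norm_num)
        _ = _ := by ring
    calc ∑ e ∈ E2, F e ≤ ∑ e ∈ E2, 6 * (L / K) * wt R' e.2 := Finset.sum_le_sum hone
      _ = ∑ q ∈ E2.image Prod.snd, 6 * (L / K) * wt R' q := by rw [Finset.sum_image hinj]
      _ ≤ ∑ q ∈ W, 6 * (L / K) * wt R' q := by
          apply Finset.sum_le_sum_of_subset_of_nonneg
          · intro q hq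
            obtain ⟨e, he, rfl⟩ := Finset.mem_image.1 hq
            exact (hmem e (hENP e (hEXP e (hEHP e (hEEP e (hE2P e he))))).1).2
          · intro q hq _
            have := hmuW q hq
            positivity
      _ = _ := by rw [Finset.mul_sum]
  -- the rest is not positive
  have boundR : ∑ e ∈ ER, F e ≤ 0 := by
    refine Finset.sum_nonpos fun e he => ?_
    by_contra hpos
    push Not at hpos
    have heX := hEHP e (hERP e he)
    have heP := (hENP e (hEXP e heX)).1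
    have h := hmem e heP
    obtain ⟨m, m', hm⟩ := hrel e heP hpos
    have hcl := classify_num hn (θ := θ) (θ' := θ') (x := cof e.1 e.2)
      (y := cof e.2 e.1) (r := Re e.1) (r' := Re' e.2) (m := m) (m' := m')
      (cof_pos (hV _ h.1).1) (cof_pos (hW _ h.2).1) (hVe _ h.1).2 (hWe _ h.2).2 (by
        have h3 : max ((cof e.2 e.1 : ℝ) * Re e.1) ((cof e.1 e.2 : ℝ) * Re' e.2) = D e := rfl
        rw [h3, hDe]
        have h4 : 0 < η * DP R R' e := mul_pos hη (hDpos0 e heP)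
        linarith)
    rcases hcl with h3 | h3 | h3
    · exact (Finset.mem_filter.1 (hERP e he)).2 h3
    · exact (Finset.mem_filter.1 he).2 h3
    · obtain ⟨t, m1, m1', ρ, ρ', ht, -, hDt, -, hFF, -⟩ := h3
      have ht400 : (2:ℝ)^400 ≤ t := le_trans (pow_le_pow_right₀ (by norm_num) hn) ht
      have hc1 : (1:ℝ) ≤ (cof e.2 e.1 : ℕ) := by
        exact_mod_cast (cof_pos (hW _ h.2).1 : 0 < cof e.2 e.1)
      have hc2 : (1:ℝ) ≤ (cof e.1 e.2 : ℕ) := by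
        exact_mod_cast (cof_pos (hV _ h.1).1 : 0 < cof e.1 e.2)
      rcases hU e heP with ⟨h4, h5⟩ | ⟨h4, h5⟩
      · refine h5 ρ (lab_up2 ht400 hη hη1 (hV _ h.1).2 h4 ?_ hFF.den hFF.near)
        calc η * R e.1 = 1 * Re e.1 := (one_mul _).symm
          _ ≤ (cof e.2 e.1 : ℕ) * Re e.1 := mul_le_mul_of_nonneg_right hc1 (hVe _ h.1).2.le
          _ ≤ 1/t := (le_max_left _ _).trans hDt
      · refine h5 ρ' (lab_up2 ht400 hη hη1 (hW _ h.2).2 h4 ?_ hFF.den' hFF.near')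
        calc η * R' e.2 = 1 * Re' e.2 := (one_mul _).symm
          _ ≤ (cof e.1 e.2 : ℕ) * Re' e.2 := mul_le_mul_of_nonneg_right hc2 (hWe _ h.2).2.le
          _ ≤ 1/t := (le_max_right _ _).trans hDt
  -- generic part
  have boundM : ∑ e ∈ EM, F e ≤ 6 * η * L^2 * ((∑ q ∈ V, wt R q) * (∑ r ∈ W, wt R' r)) := by
    have h1 : ∀ e ∈ EM, F e ≤ 6 * η * L^2 * (wt R e.1 * wt R' e.2) := by
      intro e he
      obtain ⟨heP, hD1⟩ := Finset.mem_filter.1 he
      rw [hDe] at hD1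
      have hD1' := (not_le.1 hD1).le
      have hD := hDpos0 e heP
      have h := hmem e heP
      have hR := (hV _ h.1).2
      have hR' := (hW _ h.2).2
      calc F e ≤ 2 * ((R e.1 * R' e.2) / DP R R' e) * (2 * η * DP R R' e + 1) := hF e heP
        _ ≤ 2 * ((R e.1 * R' e.2) / DP R R' e) * (3 * (η * DP R R' e)) := by
            apply mul_le_mul_of_nonneg_left _ (by positivity)
            linarith
        _ = 6 * η * (R e.1 * R' e.2) := by field_simp; ring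
        _ ≤ 6 * η * (L^2 * (wt R e.1 * wt R' e.2)) :=
            mul_le_mul_of_nonneg_left (hRR e heP) (by positivity)
        _ = _ := by ring
    calc ∑ e ∈ EM, F e ≤ ∑ e ∈ EM, 6 * η * L^2 * (wt R e.1 * wt R' e.2) := Finset.sum_le_sum h1
      _ ≤ ∑ e ∈ V ×ˢ W, 6 * η * L^2 * (wt R e.1 * wt R' e.2) := by
          apply Finset.sum_le_sum_of_subset_of_nonneg
            ((Finset.filter_subset _ _).trans hES)
          intro e he _
          have h := Finset.mem_product.1 he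
          have := hmuV _ h.1
          have := hmuW _ h.2
          positivity
      _ = _ := by
          rw [← Finset.mul_sum, Finset.sum_product, Finset.sum_mul_sum]
  rw [hsmuV, hsmuW] at boundY
  rw [hsumV, hsumW] at boundG
  set M := ∑ q ∈ V, wt R q with hM
  set M' := ∑ q ∈ W, wt R' q with hM'
  have z1 : Real.exp ((1/2-eps1) * (-(((0:ℕ):ℝ) * 0) + 3 * (∑ p ∈ (∅ : Finset ℕ), 1/(p:ℝ)) +
      (-(((0:ℕ):ℝ) * 0) + 3 * ∑ p ∈ (∅ : Finset ℕ), 1/(p:ℝ)))) = 1 := by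
    simp
  rw [z1] at boundY
  have e3 : (η * M * (η * M'))^(1/2+eps1) = η * (η^(2*eps1) * (M * M')^(1/2+eps1)) := by
    have h1 : η * M * (η * M') = η^(2:ℝ) * (M * M') := by
      rw [Real.rpow_two]; ring
    rw [h1, Real.mul_rpow (by positivity) (mul_nonneg hMV0 hMW0), ← Real.rpow_mul hη.le]
    have h2 : (2:ℝ) * (1/2+eps1) = 1 + 2 * eps1 := by ring
    rw [h2, Real.rpow_add hη, Real.rpow_one]
    ring
  rw [e3] at boundY boundG
  rw [hsplit]
  set Y1 := η^(2*eps1) * (M * M')^(1/2+eps1) with hY1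
  have hfin : 6 * L^2 * (n * (2 * KH 1 0 eps1 * (2:ℝ)^(2*eps1*n)) + C * ((2:ℝ)^n)^(-(1/1000):ℝ)) * Y1
      = n * (2 * ((6/η) * L^2) * KH 1 0 eps1 * (2:ℝ)^(2*eps1*n)) * (1 * (η * Y1)) +
        C * ((6/η) * L^2) * ((2:ℝ)^n)^(-(1/1000):ℝ) * (η * Y1) := by
    field_simp
  rw [hfin]
  have e5 : 6 * (L / K) * (M + M') = 6 * (L / K) * M + 6 * (L / K) * M' := by ring
  rw [e5]
  linarith

set_option maxHeartbeats 1000000 in
/-- **same cell, two nodes, one side without label**: numbers with a rate, `K` = lower bound of the cofactors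
or of the radius ratio -/
theorem rtUU (CL C2 s : ℝ) (hCL : 0 ≤ CL) (hC2 : 0 ≤ C2) :
    ∃ p₁ : ℕ, ∀ p : ℕ, p₁ ≤ p →
    ∀ (η K θ θ' : ℝ) (V W : Finset ℕ) (E : Finset (ℕ × ℕ)) (R R' : ℕ → ℝ) (F : ℕ × ℕ → ℝ),
    0 < η → η ≤ Real.exp (-(Real.log p ^ (4/5:ℝ))) → 0 < K → E ⊆ V ×ˢ W →
    (∀ w ∈ V, 0 < w ∧ 0 < R w) → (∀ w ∈ W, 0 < w ∧ 0 < R' w) →
    (∀ w ∈ V, R w ≤ CL * Real.log p * wt R w) → (∀ w ∈ W, R' w ≤ CL * Real.log p * wt R' w) →
    (∀ z : ℝ, ((2 * p : ℕ):ℝ)^2 ≤ z → ∀ w ∈ V, Crest.Agent.R4.ClsB.Tame z 1 w) →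
    (∀ z : ℝ, ((2 * p : ℕ):ℝ)^2 ≤ z → ∀ w ∈ W, Crest.Agent.R4.ClsB.Tame z 1 w) →
    ∑ w ∈ V, wt R w ≤ Real.log p ^ C2 → ∑ w ∈ W, wt R' w ≤ Real.log p ^ C2 →
    (∀ e ∈ E, K ≤ (cof e.1 e.2 : ℕ) ∨ K ≤ (cof e.2 e.1 : ℕ) ∨ K * R e.1 ≤ R' e.2 ∨
      K * R' e.2 ≤ R e.1) →
    (∀ e ∈ E, F e ≤ 2 * ((R e.1 * R' e.2) / DP R R' e) * (2 * η * DP R R' e + 1)) →
    (∀ e ∈ E, 0 < F e → ∃ m m' : ℤ,
      |(m + θ) * (cof e.2 e.1 : ℕ) - (m' + θ') * (cof e.1 e.2 : ℕ)| ≤ η * DP R R' e) →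
    (∀ e ∈ E, (R e.1 ≤ η^2 ∧ ∀ ρ, ¬ Lab θ (R e.1) ρ) ∨
      (R' e.2 ≤ η^2 ∧ ∀ ρ, ¬ Lab θ' (R' e.2) ρ)) →
    ∑ e ∈ E, F e ≤ (Real.log p ^ (-s) + 6 * (CL * Real.log p / K)) *
      (∑ w ∈ V, wt R w + ∑ w ∈ W, wt R' w) := by
  classical
  obtain ⟨C, c0, hC1, hc0, H⟩ := two_UU
  obtain ⟨T0, hT01, H⟩ := H c0 hc0 le_rfl
  have hKH := (KH_pos 1 0 eps1).le
  obtain ⟨pa, hpa⟩ := RseN207.exists_scale (c1 := c0) (T0 := T0) hc0
  obtain ⟨pb, hpb⟩ := RseN207.log_large 1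
  obtain ⟨p1, hp1⟩ := RtN28.small_s (6 * CL^2) (2 + C2) s (δ := 1/4) (by positivity)
  obtain ⟨p2, hp2⟩ := RtN28.small_s (2 * (6 * CL^2 * (2 * KH 1 0 eps1 + C) * (2 * 4^(1/c0))^2))
    (2 + 2/c0 + C2) s (δ := 1/4) (by positivity)
  refine ⟨pa + pb + p1 + p2 + 3, fun p hp => ?_⟩
  obtain ⟨n, hn400, hnT, hnX, hnU⟩ := hpa (2 * p) (by omega)
  intro η K θ θ' V W E R R' F hη hη1 hK hES hV hW hLV hLW hVt hWt hMV hMW hbig hF hrel hU
  have hl1 := hpb p (by omega)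
  set ℓ := Real.log (p:ℝ) with hℓ
  have hℓ0 : 0 < ℓ := by linarith
  have hpN : 0 < p := by omega
  have hp0 : (0:ℝ) < p := by exact_mod_cast hpN
  set κ : ℝ := ℓ ^ (-s) with hκd
  have hκ : 0 < κ := Real.rpow_pos_of_pos hℓ0 _
  set L := CL * ℓ with hL
  have hL0 : 0 ≤ L := by positivity
  set M := ∑ w ∈ V, wt R w with hM
  set M' := ∑ w ∈ W, wt R' w with hM'
  have hM0 : 0 ≤ M := Finset.sum_nonneg fun q hq => by
    unfold wt; exact mul_nonneg (hV q hq).2.le (by positivity)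
  have hM0' : 0 ≤ M' := Finset.sum_nonneg fun q hq => by
    unfold wt; exact mul_nonneg (hW q hq).2.le (by positivity)
  set S := M + M' with hS
  have hS0 : 0 ≤ S := by positivity
  have hlC : 1 ≤ ℓ^C2 := Real.one_le_rpow hl1 hC2
  have hSb : S ≤ 2 * ℓ^C2 := by linarith
  have hMC : ∀ x : ℝ, 0 ≤ x → x ≤ 1 → S^(1+x) ≤ S * (2 * ℓ^C2) := by
    intro x hx0 hx1
    rcases hS0.eq_or_lt with h0 | h0
    · rw [← h0, Real.zero_rpow (by linarith)]; simp
    · rw [Real.rpow_add h0, Real.rpow_one]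
      apply mul_le_mul_of_nonneg_left _ hS0
      calc S^x ≤ (2 * ℓ^C2)^x := Real.rpow_le_rpow hS0 hSb hx0
        _ ≤ (2 * ℓ^C2)^(1:ℝ) := Real.rpow_le_rpow_of_exponent_le (by linarith) hx1
        _ = 2 * ℓ^C2 := Real.rpow_one _
  set Y := Real.exp (-(1/500) * ℓ^(4/5:ℝ)) with hY
  have hY0 : 0 < Y := Real.exp_pos _
  have hx45 : 0 ≤ ℓ^(4/5:ℝ) := by positivity
  have hηY : η ≤ Y := hη1.trans (Real.exp_le_exp.2 (by nlinarith))
  have hη_one : η ≤ 1 := by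
    refine hη1.trans ?_
    rw [Real.exp_le_one_iff]
    linarith
  have hηe : η^(2*eps1) ≤ Y := by
    have he1 : eps1 = 1/1000 := rfl
    calc η^(2*eps1) ≤ (Real.exp (-(ℓ^(4/5:ℝ))))^(2*eps1) :=
          Real.rpow_le_rpow hη.le hη1 (by rw [he1]; norm_num)
      _ = Real.exp (-(ℓ^(4/5:ℝ)) * (2*eps1)) := by rw [← Real.exp_mul]
      _ = Y := by rw [hY, he1]; congr 1; ring
  have bG := H (((2 * p : ℕ):ℝ)^2) L η K θ θ' n 1 V W E R R' F hn400 hnT hnX one_pos hη hη_one hK hL0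
    hES hV hW hLV hLW hVt hWt hbig hF hrel hU
  -- term 1
  have t1 : 6 * η * L^2 * (M * M') ≤ 1/4 * κ * S := by
    have h := hp1 p (by omega)
    have h1 : M * M' ≤ ℓ^C2 * S := by
      calc M * M' ≤ ℓ^C2 * M' := mul_le_mul_of_nonneg_right hMV hM0'
        _ ≤ ℓ^C2 * S := mul_le_mul_of_nonneg_left (by rw [hS]; linarith) (by linarith)
    calc 6 * η * L^2 * (M * M') ≤ 6 * Y * L^2 * (ℓ^C2 * S) := by gcongr
      _ = (6 * CL^2) * (ℓ^(2:ℝ) * ℓ^C2) * Y * S := by rw [hL, Real.rpow_two]; ring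
      _ = (6 * CL^2) * ℓ^(2 + C2) * Y * S := by rw [Real.rpow_add hℓ0]
      _ ≤ 1/4 * κ * S := mul_le_mul_of_nonneg_right h hS0
  -- term 2
  have hn2 : (n:ℝ) ≤ (2:ℝ)^n := by
    exact_mod_cast (Nat.lt_two_pow_self (n := n)).le
  set T := (2:ℝ)^n with hT
  have hT1 : 1 ≤ T := one_le_pow₀ (by norm_num)
  have hTT : (2:ℝ)^(2*eps1*n) ≤ T := by
    have he1 : eps1 = 1/1000 := rfl
    rw [hT, ← Real.rpow_natCast]
    apply Real.rpow_le_rpow_of_exponent_le (by norm_num)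
    rw [he1]
    have : (0:ℝ) ≤ n := Nat.cast_nonneg _
    linarith
  have hTC : T^(-(1/1000):ℝ) ≤ 1 := Real.rpow_le_one_of_one_le_of_nonpos hT1 (by norm_num)
  have hB : n * (2 * KH 1 0 eps1 * (2:ℝ)^(2*eps1*n)) + C * T^(-(1/1000):ℝ) ≤
      (2 * KH 1 0 eps1 + C) * T^2 := by
    have h1 : n * (2 * KH 1 0 eps1 * (2:ℝ)^(2*eps1*n)) ≤ T * (2 * KH 1 0 eps1 * T) := by
      gcongr
    have h2 : C * T^(-(1/1000):ℝ) ≤ C * T^2 := by
      apply mul_le_mul_of_nonneg_left _ (by linarith)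
      nlinarith
    nlinarith
  have hl2p : Real.log ((2 * p : ℕ):ℝ) ≤ 2 * ℓ := by
    have h2 : (2:ℝ) ≤ p := by
      have : 2 ≤ p := by omega
      exact_mod_cast this
    have h5 : ((2 * p : ℕ) : ℝ) ≤ (p : ℝ) ^ 2 := by push_cast; nlinarith
    have h6 : (0 : ℝ) < ((2 * p : ℕ) : ℝ) := by push_cast; linarith
    have h7 := Real.log_le_log h6 h5
    rw [Real.log_pow] at h7
    exact_mod_cast h7
  have hl2p0 : 0 ≤ Real.log ((2 * p : ℕ):ℝ) := Real.log_nonneg (by exact_mod_cast (by omega : 1 ≤ 2 * p))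
  have hT2 : T^2 ≤ (2 * 4^(1/c0))^2 * ℓ^(2/c0) := by
    have hU2 : T ≤ 2 * (4*ℓ)^(1/c0) := by
      refine hnU.trans ?_
      refine mul_le_mul_of_nonneg_left ?_ (by norm_num)
      exact Real.rpow_le_rpow (by positivity) (by linarith) (by positivity)
    calc T^2 ≤ (2 * (4*ℓ)^(1/c0))^2 := pow_le_pow_left₀ (by positivity) hU2 2
      _ = (2 * 4^(1/c0))^2 * (ℓ^(1/c0) * ℓ^(1/c0)) := by
          rw [Real.mul_rpow (by norm_num) hℓ0.le]; ring
      _ = _ := by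
          rw [← Real.rpow_add hℓ0]
          congr 2
          ring
  have t2 : 6 * L^2 * (n * (2 * KH 1 0 eps1 * (2:ℝ)^(2*eps1*n)) +
        C * T^(-(1/1000):ℝ)) * (η^(2*eps1) * (M * M')^(1/2+eps1)) ≤ 1/4 * κ * S := by
    have h := hp2 p (by omega)
    have he1 : eps1 = 1/1000 := rfl
    have h1 : (M * M')^(1/2+eps1) ≤ S * (2 * ℓ^C2) := by
      have e1 : (S * S)^(1/2+eps1) = S^(1+2*eps1) := by
        rw [← sq, ← Real.rpow_natCast S 2, ← Real.rpow_mul hS0]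
        congr 1
        push_cast
        ring
      have e2 : (M * M')^(1/2+eps1) ≤ (S * S)^(1/2+eps1) := by
        apply Real.rpow_le_rpow (by positivity) _ (by rw [he1]; norm_num)
        apply mul_le_mul _ _ hM0' hS0
        · rw [hS]; linarith
        · rw [hS]; linarith
      refine e2.trans ?_
      rw [e1]
      exact hMC (2*eps1) (by rw [he1]; norm_num) (by rw [he1]; norm_num)
    have h0 : 0 ≤ (M * M')^(1/2+eps1) := by positivity
    have hηp' : 0 ≤ η^(2*eps1) := by positivity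
    calc 6 * L^2 * (n * (2 * KH 1 0 eps1 * (2:ℝ)^(2*eps1*n)) +
          C * T^(-(1/1000):ℝ)) * (η^(2*eps1) * (M * M')^(1/2+eps1))
        ≤ 6 * L^2 * ((2 * KH 1 0 eps1 + C) * ((2 * 4^(1/c0))^2 * ℓ^(2/c0))) *
          (Y * (S * (2 * ℓ^C2))) := by
          have h2 := hB.trans (mul_le_mul_of_nonneg_left hT2 (by linarith : 0 ≤ 2 * KH 1 0 eps1 + C))
          gcongr
      _ = (2 * (6 * CL^2 * (2 * KH 1 0 eps1 + C) * (2 * 4^(1/c0))^2)) *
          (ℓ^(2:ℝ) * ℓ^(2/c0) * ℓ^C2) * Y * S := by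
          rw [hL, Real.rpow_two]; ring
      _ = (2 * (6 * CL^2 * (2 * KH 1 0 eps1 + C) * (2 * 4^(1/c0))^2)) *
          ℓ^(2 + 2/c0 + C2) * Y * S := by
          rw [← Real.rpow_add hℓ0, ← Real.rpow_add hℓ0]
      _ ≤ 1/4 * κ * S := mul_le_mul_of_nonneg_right h hS0
  have hκM := mul_nonneg hκ.le hS0
  have e9 : (κ + 6 * (L / K)) * S = κ * S + 6 * (L / K) * S := by ring
  rw [e9]
  linarith

/-! ### item coordinates -/

section tr
open Crest.Agent.R4P.RseNd23 (wA wt_tr R_tr sum_tr1)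

variable {A A' : ℕ} {T T' : Finset ℕ}

lemma sub_trX {E : Finset (ℕ × ℕ)} (hE : E ⊆ T ×ˢ T') :
    E.image (fun e => (e.1 / A, e.2 / A')) ⊆ T.image (· / A) ×ˢ T'.image (· / A') := by
  intro x hx
  obtain ⟨e, he, rfl⟩ := Finset.mem_image.1 hx
  obtain ⟨a1, a2⟩ := Finset.mem_product.1 (hE he)
  exact Finset.mem_product.2 ⟨Finset.mem_image_of_mem _ a1, Finset.mem_image_of_mem _ a2⟩

lemma sum_trX (hT : ∀ q ∈ T, A ∣ q) (hT' : ∀ q ∈ T', A' ∣ q) {E : Finset (ℕ × ℕ)} (hE : E ⊆ T ×ˢ T')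
    (g : ℕ × ℕ → ℝ) :
    ∑ e ∈ E.image (fun e => (e.1 / A, e.2 / A')), g e = ∑ e ∈ E, g (e.1 / A, e.2 / A') := by
  refine Finset.sum_image fun e he f hf h => ?_
  have h1 : e.1 / A = f.1 / A := congrArg Prod.fst h
  have h2 : e.2 / A' = f.2 / A' := congrArg Prod.snd h
  obtain ⟨a1, a2⟩ := Finset.mem_product.1 (hE he)
  obtain ⟨b1, b2⟩ := Finset.mem_product.1 (hE hf)
  apply Prod.ext
  · rw [← Nat.mul_div_cancel' (hT _ a1), ← Nat.mul_div_cancel' (hT _ b1), h1]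
  · rw [← Nat.mul_div_cancel' (hT' _ a2), ← Nat.mul_div_cancel' (hT' _ b2), h2]

/-- `D` of a pair of items on the circle of two nodes -/
noncomputable def DX (A A' : ℕ) (R R' : ℕ → ℝ) (e : ℕ × ℕ) : ℝ :=
  AvgItem710.Dp (e.1 / A) (e.2 / A') (R e.1) (R' e.2)

lemma DX_eq (A A' : ℕ) (R R' : ℕ → ℝ) {q r : ℕ} (hq : A ∣ q) (hr : A' ∣ r) :
    DP (fun v => R (A * v)) (fun v => R' (A' * v)) (q / A, r / A') = DX A A' R R' (q, r) := by
  unfold Crest.Agent.R4.InX944.DP DX Crest.Agent.R4.AvgItem710.Dp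
  simp only
  rw [Nat.mul_div_cancel' hq, Nat.mul_div_cancel' hr]

/-- `rtUU` in item coordinates: node `A` (items `T`), node `A'` (items `T'`) -/
theorem rtUU' (CL C2 s : ℝ) (hCL : 0 ≤ CL) (hC2 : 0 ≤ C2) :
    ∃ p₁ : ℕ, ∀ p : ℕ, p₁ ≤ p →
    ∀ (A A' : ℕ) (η K θ θ' : ℝ) (T T' : Finset ℕ) (E : Finset (ℕ × ℕ)) (R R' : ℕ → ℝ)
    (F : ℕ × ℕ → ℝ), (∀ q ∈ T, A ∣ q) → (∀ q ∈ T', A' ∣ q) →
    0 < η → η ≤ Real.exp (-(Real.log p ^ (4/5:ℝ))) → 0 < K → E ⊆ T ×ˢ T' →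
    (∀ q ∈ T, 0 < q / A ∧ 0 < R q) → (∀ q ∈ T', 0 < q / A' ∧ 0 < R' q) →
    (∀ q ∈ T, R q ≤ CL * Real.log p * wA A R q) → (∀ q ∈ T', R' q ≤ CL * Real.log p * wA A' R' q) →
    (∀ z : ℝ, ((2 * p : ℕ):ℝ)^2 ≤ z → ∀ q ∈ T, Crest.Agent.R4.ClsB.Tame z 1 (q / A)) →
    (∀ z : ℝ, ((2 * p : ℕ):ℝ)^2 ≤ z → ∀ q ∈ T', Crest.Agent.R4.ClsB.Tame z 1 (q / A')) →
    ∑ q ∈ T, wA A R q ≤ Real.log p ^ C2 → ∑ q ∈ T', wA A' R' q ≤ Real.log p ^ C2 →
    (∀ e ∈ E, K ≤ (cof (e.1 / A) (e.2 / A') : ℕ) ∨ K ≤ (cof (e.2 / A') (e.1 / A) : ℕ) ∨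
      K * R e.1 ≤ R' e.2 ∨ K * R' e.2 ≤ R e.1) →
    (∀ e ∈ E, F e ≤ 2 * ((R e.1 * R' e.2) / DX A A' R R' e) * (2 * (η * DX A A' R R' e) + 1)) →
    (∀ e ∈ E, 0 < F e → ∃ m m' : ℤ,
      |(m + θ) * (cof (e.2 / A') (e.1 / A) : ℕ) - (m' + θ') * (cof (e.1 / A) (e.2 / A') : ℕ)| ≤
        η * DX A A' R R' e) →
    (∀ e ∈ E, (R e.1 ≤ η^2 ∧ ∀ ρ, ¬ Lab θ (R e.1) ρ) ∨
      (R' e.2 ≤ η^2 ∧ ∀ ρ, ¬ Lab θ' (R' e.2) ρ)) →
    ∑ e ∈ E, F e ≤ (Real.log p ^ (-s) + 6 * (CL * Real.log p / K)) *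
      (∑ q ∈ T, wA A R q + ∑ q ∈ T', wA A' R' q) := by
  obtain ⟨p₁, H⟩ := rtUU CL C2 s hCL hC2
  refine ⟨p₁, fun p hp A A' η K θ θ' T T' E R R' F hA hA' hη hη1 hK hE hT hT' hL hL' htm htm' hM hM'
    hbig hF hrel hlab => ?_⟩
  have key := H p hp η K θ θ' (T.image (· / A)) (T'.image (· / A'))
    (E.image fun e => (e.1 / A, e.2 / A'))
    (fun v => R (A * v)) (fun v => R' (A' * v)) (fun e => F (A * e.1, A' * e.2)) hη hη1 hK (sub_trX hE)
    (fun v hv => by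
      obtain ⟨q, hq, rfl⟩ := Finset.mem_image.1 hv
      have h1 := hT q hq
      exact ⟨h1.1, by rw [Nat.mul_div_cancel' (hA q hq)]; exact h1.2⟩)
    (fun v hv => by
      obtain ⟨q, hq, rfl⟩ := Finset.mem_image.1 hv
      have h1 := hT' q hq
      exact ⟨h1.1, by rw [Nat.mul_div_cancel' (hA' q hq)]; exact h1.2⟩)
    (fun v hv => by
      obtain ⟨q, hq, rfl⟩ := Finset.mem_image.1 hv
      have h1 := hL q hq
      rw [wt_tr A R (hA q hq)]
      exact (R_tr A R (hA q hq)).le.trans h1)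
    (fun v hv => by
      obtain ⟨q, hq, rfl⟩ := Finset.mem_image.1 hv
      have h1 := hL' q hq
      rw [wt_tr A' R' (hA' q hq)]
      exact (R_tr A' R' (hA' q hq)).le.trans h1)
    (fun z hz v hv => by
      obtain ⟨q, hq, rfl⟩ := Finset.mem_image.1 hv
      exact htm z hz q hq)
    (fun z hz v hv => by
      obtain ⟨q, hq, rfl⟩ := Finset.mem_image.1 hv
      exact htm' z hz q hq)
    (by
      rw [sum_tr1 hA]
      exact le_trans (le_of_eq (Finset.sum_congr rfl fun q hq => wt_tr A R (hA q hq))) hM)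
    (by
      rw [sum_tr1 hA']
      exact le_trans (le_of_eq (Finset.sum_congr rfl fun q hq => wt_tr A' R' (hA' q hq))) hM')
    (fun x hx => by
      obtain ⟨e, he, rfl⟩ := Finset.mem_image.1 hx
      obtain ⟨a1, a2⟩ := Finset.mem_product.1 (hE he)
      simp only [Nat.mul_div_cancel' (hA _ a1), Nat.mul_div_cancel' (hA' _ a2)]
      exact hbig e he)
    (fun x hx => by
      obtain ⟨e, he, rfl⟩ := Finset.mem_image.1 hx
      obtain ⟨a1, a2⟩ := Finset.mem_product.1 (hE he)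
      have d1 := hA _ a1
      have d2 := hA' _ a2
      have h1 := hF e he
      rw [DX_eq A A' R R' d1 d2]
      simp only [Nat.mul_div_cancel' d1, Nat.mul_div_cancel' d2]
      refine h1.trans (le_of_eq ?_)
      ring)
    (fun x hx h0 => by
      obtain ⟨e, he, rfl⟩ := Finset.mem_image.1 hx
      obtain ⟨a1, a2⟩ := Finset.mem_product.1 (hE he)
      have d1 := hA _ a1
      have d2 := hA' _ a2
      rw [DX_eq A A' R R' d1 d2]
      simp only [Nat.mul_div_cancel' d1, Nat.mul_div_cancel' d2] at h0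
      exact hrel e he h0)
    (fun x hx => by
      obtain ⟨e, he, rfl⟩ := Finset.mem_image.1 hx
      obtain ⟨a1, a2⟩ := Finset.mem_product.1 (hE he)
      simp only [Nat.mul_div_cancel' (hA _ a1), Nat.mul_div_cancel' (hA' _ a2)]
      exact hlab e he)
  rw [sum_trX hA hA' hE, sum_tr1 hA, sum_tr1 hA'] at key
  have e1 : ∑ e ∈ E, F e = ∑ e ∈ E, F (A * (e.1 / A), A' * (e.2 / A')) := by
    refine Finset.sum_congr rfl fun e he => ?_
    obtain ⟨a1, a2⟩ := Finset.mem_product.1 (hE he)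
    rw [Nat.mul_div_cancel' (hA _ a1), Nat.mul_div_cancel' (hA' _ a2)]
  rw [e1]
  refine key.trans (le_of_eq ?_)
  congr 2
  · exact Finset.sum_congr rfl fun q hq => wt_tr A R (hA q hq)
  · exact Finset.sum_congr rfl fun q hq => wt_tr A' R' (hA' q hq)

end tr

end Crest.Agent.R4P.UU24
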