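import Crest.Agent.R4P.UU3_24
import Crest.Agent.R4P.E3Y_479

/-!
R4 (S0004), powers pass, helper24: **the unlabelled part of the field `tie` of `E3Y479.JIn`**.

* `Nc K p m j i` : a cofactor or the ratio of the own radii is `≥ K` (numbers of the memory `m`).
* **`tieU`** : two ties of one column and one circle, a relation `W` of N pieces with one real index and the
  real state `none`, non comparable with `K = (log p)^(s+2)` :
  `I (qe W (vN u) (vN u')) ≤ (log p)^(-s) * (mass of the N pieces of u and u')`, in the form `lin (cut ..)`.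
-/

set_option autoImplicit false
set_option linter.unusedSectionVars false
set_option linter.unusedVariables false
open MeasureTheory Filter Set

namespace Crest.Agent.R4P.UU4

open Crest.Agent.R4.Tour104 Crest.Agent.R4.Tour758 Crest.Agent.R4.Avg758 Crest.Agent.R4.Clos758
open Crest.Agent.R4P.Cnt588 Crest.Agent.R4P.Item758 Crest.Agent.R4P.W363
open Crest.Agent.R4P.Data758
open Crest.Agent.R4P.Bld532 (NS All NodeOk Bk)
open Crest.Agent.R4P.WalkIT579 (tp isL)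
open Crest.Agent.R4P.StratN36 (ex)
open Crest.Agent.R4P.Step588 Crest.Agent.R4P.RseSt23
open Crest.Agent.R4P.DTp26 Crest.Agent.R4P.DTm407
open Crest.Agent.R4P.TYI47 Crest.Agent.R4P.TYJ47 Crest.Agent.R4P.TYK47
open Crest.Agent.R4P.TYP9 Crest.Agent.R4P.RsT47
open Crest.Agent.R4P.Walk560 (DT)
open Crest.Agent.R4P.Skel189 Crest.Agent.R4P.Frame758
open Crest.Agent.R4.Soft104 Crest.Agent.R4.Fam464
open Crest.Agent.R4P.StratX36 hiding mm
open Crest.Agent.R4P.TopX36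
open Crest.Agent.R4P.GWa343 Crest.Agent.R4P.GWb343 Crest.Agent.R4P.GWc343 Crest.Agent.R4P.GWf343
open Crest.Agent.R4P.TrR343 Crest.Agent.R4P.XEx29
open Crest.Agent.R4P.CrZ41
open Crest.Agent.R4P.E3X479 Crest.Agent.R4P.E3Y479
open Crest.Agent.R4P.GPair33 (vN PB_vN_inl)
open Crest.Agent.R4.HVW560 (cof)
open Crest.Agent.R4P.RseNd23 (NF RseH)
open Crest.Agent.R4P.SameIx30 (UN)
open Crest.Agent.R4P.UU3 (M2X mN)
open Crest.Agent.R4P.E3V479 (qe)

section ctx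
variable {N : Skel189.Num} {γ : ℝ} {p0 P₀ : ℕ} {X : Ctx N γ p0 P₀} {p : ℕ} {m : Me}

/-- own radius of the item of a piece -/
noncomputable def rm (X : Ctx N γ p0 P₀) (p : ℕ) (m : Me) (j : X.c.Lam) : ℝ :=
  (Bm (pm X.c.t p m j.1.1) : ℝ) * X.c.rr j.1.1

/-- own modulus of the item of a piece -/
def wq (X : Ctx N γ p0 P₀) (p : ℕ) (m : Me) (j : X.c.Lam) : ℕ :=
  wm (pm X.c.t p m j.1.1) m.2 j.1.1

/-- **non comparable** : a cofactor or the ratio of the own radii is at least `K` -/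
def Nc (X : Ctx N γ p0 P₀) (K : ℝ) (p : ℕ) (m : Me) (j i : X.c.Lam) : Prop :=
  K ≤ (cof (wq X p m j) (wq X p m i) : ℕ) ∨ K ≤ (cof (wq X p m i) (wq X p m j) : ℕ) ∨
    K * rm X p m j ≤ rm X p m i ∨ K * rm X p m i ≤ rm X p m j

/-- **N pieces without label of two ties** -/
theorem tieU (N : Skel189.Num) {s : ℝ} (hs : 0 ≤ s) : ∃ p₁ : ℕ, ∀ p0 ≥ p₁, ∀ (γ : ℝ) (P₀ : ℕ),
    2 ≤ P₀ → ∀ X : Ctx N γ p0 P₀, RseH X → ∀ {Qn : NS → IT → Prop},
    (∀ u τ, Qn u τ → NF X u τ) → (∀ u τ, Qn u τ → M2X X u τ) →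
    ∀ {p : ℕ} {m : Me} {u : NS} {Sp : Finset ℕ} {t₁ t₀ : IT} {u' : NS} {Sp' : Finset ℕ}
    {t₁' t₀' : IT}, RtX X Qn p m u (.br p Sp t₁ t₀) → RtX X Qn p m u' (.br p Sp' t₁' t₀') →
    ∀ {W : ℝ → X.c.Lam → X.c.Lam → Prop}, (∀ j i, MP fun x => W x j i) →
    (∀ x j i, W x j i → (sdX X p m j ∧ sdX X p m i) ∧
      (X.c.world p j.1).1 = (X.c.world p i.1).1 ∧ X.c.st p j.1.1 = none ∧
      Nc X (Real.log p ^ (s + 2)) p m j i) →
    I (qe W (vN X (.inl (u, .br p Sp t₁ t₀))) (vN X (.inl (u', .br p Sp' t₁' t₀')))) ≤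
      lin (cut (sdX X p m) fun _ _ => Real.log p ^ (-s)) (vN X (.inl (u, .br p Sp t₁ t₀))) +
      lin (cut (sdX X p m) fun _ _ => Real.log p ^ (-s))
        (vN X (.inl (u', .br p Sp' t₁' t₀'))) := by
  classical
  obtain ⟨p1, h1⟩ := UU3.tie_uuM N hs
  refine ⟨p1, fun p0 hp0 γ P₀ hP₀ X hX Qn hF hM2 p m u Sp t₁ t₀ u' Sp' t₁' t₀' hu hu' W mW
    hW => ?_⟩
  have hA := hu.1.rm.all.mono hF
  have hA' := hu'.1.rm.all.mono hF
  have hQ : ∀ u τ, Qn u τ → NDt X.par (w X.ψ) X.c.t u τ := fun u τ h => (hF u τ h).nd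
  have n1 := hQ _ _ hu.1.rm.all.self
  have n1' := hQ _ _ hu'.1.rm.all.self
  have pV := fun j => PB_vN_inl n1 j
  have pV' := fun j => PB_vN_inl n1' j
  -- the pieces of a relation
  have side : ∀ {v : NS} {S : Finset ℕ} {s₁ s₀ : IT}, RtX X Qn p m v (.br p S s₁ s₀) →
      ∀ j x, vN X (.inl (v, .br p S s₁ s₀)) j x ≠ 0 → sdX X p m j → j.1.1 ∈ s₀.items := by
    intro v S s₁ s₀ hv j x hj hsd
    have h3 := (ctx_supp (hQ _ _ hv.1.rm.all.self) (j := j) (x := x) (by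
      rw [val_v (hQ _ _ hv.1.rm.all.self) j]; exact hj)).1
    rcases Finset.mem_union.1 h3 with h4 | h4
    · exfalso
      have h5 := ex_P hQ hv h4
      unfold sdX at hsd
      omega
    · exact h4
  set R : Finset (X.c.Lam × X.c.Lam) := Finset.univ.filter fun e : X.c.Lam × X.c.Lam =>
    ∃ x, W x e.1 e.2 ∧ vN X (.inl (u, .br p Sp t₁ t₀)) e.1 x ≠ 0 ∧
      vN X (.inl (u', .br p Sp' t₁' t₀')) e.2 x ≠ 0 with hR
  have k0 := qe_Q mW pV pV'
  have mR : ∀ e ∈ R, ∃ x, W x e.1 e.2 ∧ vN X (.inl (u, .br p Sp t₁ t₀)) e.1 x ≠ 0 ∧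
      vN X (.inl (u', .br p Sp' t₁' t₀')) e.2 x ≠ 0 := fun e he => (Finset.mem_filter.1 he).2
  have hUN : UN X p R := ⟨fun e he => by
      obtain ⟨x, hx, -⟩ := mR e he
      exact (hW x _ _ hx).2.1, fun e he => by
      obtain ⟨x, hx, -⟩ := mR e he
      exact (hW x _ _ hx).2.2.1⟩
  have hI : ∀ e ∈ R, e.1.1.1 ∈ t₀.items ∧ e.2.1.1 ∈ t₀'.items := fun e he => by
    obtain ⟨x, hx, a1, a2⟩ := mR e he
    obtain ⟨⟨b1, b2⟩, -⟩ := hW x _ _ hx
    exact ⟨side hu _ x a1 b1, side hu' _ x a2 b2⟩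
  have wE : ∀ {v : NS} {S : Finset ℕ} {s₁ s₀ : IT}, RtX X Qn p m v (.br p S s₁ s₀) →
      ∀ j : X.c.Lam, j.1.1 ∈ s₀.items → wq X p m j = j.1.1 / v.A ∧
        rm X p m j = SameIx30.RB X v j.1.1 := by
    intro v S s₁ s₀ hv j hj
    have hj' : j.1.1 ∈ (IT.br p S s₁ s₀).items := Finset.mem_union_right _ hj
    refine ⟨hv.1.w_eq hQ X.tOk hj', ?_⟩
    unfold rm
    rw [hv.1.B_eq hQ X.tOk hj']
  have hN : ∀ e ∈ R, Real.log p ^ (s + 2) ≤ (cof (e.1.1.1 / u.A) (e.2.1.1 / u'.A) : ℕ) ∨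
      Real.log p ^ (s + 2) ≤ (cof (e.2.1.1 / u'.A) (e.1.1.1 / u.A) : ℕ) ∨
      Real.log p ^ (s + 2) * SameIx30.RB X u e.1.1.1 ≤ SameIx30.RB X u' e.2.1.1 ∨
      Real.log p ^ (s + 2) * SameIx30.RB X u' e.2.1.1 ≤ SameIx30.RB X u e.1.1.1 := by
    intro e he
    obtain ⟨x, hx, -⟩ := mR e he
    have h4 := (hW x _ _ hx).2.2.2
    obtain ⟨i1, i2⟩ := hI e he
    obtain ⟨a1, a2⟩ := wE hu e.1 i1
    obtain ⟨b1, b2⟩ := wE hu' e.2 i2
    unfold Nc at h4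
    rw [a1, a2, b1, b2] at h4
    exact h4
  have key := h1 p0 hp0 γ P₀ hP₀ X hX hA hA' (hu.1.rm.all.self |> hM2 _ _)
    (hu'.1.rm.all.self |> hM2 _ _) (by rw [hu.1.T, hu'.1.T]) R hUN hI hN
  refine k0.trans (key.trans ?_)
  -- masses
  have hl0 : (0:ℝ) ≤ Real.log p ^ (-s) := Real.rpow_nonneg (Real.log_natCast_nonneg p) _
  have ms : ∀ {v : NS} {S : Finset ℕ} {s₁ s₀ : IT}, RtX X Qn p m v (.br p S s₁ s₀) →
      Real.log p ^ (-s) * mN X v (.br p S s₁ s₀) s₀.items ≤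
        lin (cut (sdX X p m) fun _ _ => Real.log p ^ (-s)) (vN X (.inl (v, .br p S s₁ s₀))) := by
    intro v S s₁ s₀ hv
    unfold lin mN
    rw [Finset.mul_sum, Finset.sum_filter]
    refine Finset.sum_le_sum fun j _ => ?_
    have pj := PB_vN_inl (hQ _ _ hv.1.rm.all.self) j
    by_cases hj : j.1.1 ∈ s₀.items
    · rw [if_pos hj, ← I_smul]
      refine le_of_eq ?_
      have h6 : sdX X p m j := (ex_N hQ hv hj).le
      have e : cut (sdX X p m) (fun _ _ => Real.log (p:ℝ) ^ (-s)) j =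
        fun _ => Real.log (p:ℝ) ^ (-s) := funext fun y => if_pos h6
      rw [e]
    · rw [if_neg hj]
      exact I_nonneg fun x => mul_nonneg ((PB_cut (fun _ => PB.const hl0) j).nonneg x)
        (pj.nonneg x)
  rw [mul_add]
  exact add_le_add (ms hu) (ms hu')

end ctx

end Crest.Agent.R4P.UU4
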