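import Crest.Agent.R4P.GMk_35
import Mathlib.Combinatorics.SetFamily.FourFunctions

/-!
R4 (S0004) with powers, helper53: **increasing tests and the price of a merge**.

`J` = a finite distributive lattice of words (`P` on top : on `J × Bool` the product order with
`true = P`), `c` log-supermodular weights, `WA` = the tests `0 ≤ φ ≤ 1` which are ANTITONE
(= increasing in the set of `N` letters).

* `LS` : log-supermodular; `LS.prod` : it passes to `cT q c` on `J × Bool`;
* `TC.anti` : `WA` is a test class in the literal sense of `GMer_27.TC`;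
* `T_ind` : the supremum is attained at the indicator of a lower set;
* `cover` : conditional Harris inequality, `μ(X ∩ Y) ≤ δ μ(X)` from the single words;
* `T_merge` : the price of a merge at one level;
* `PN_merge` : **`PN (f + g) ≤ PN f + PN g + 32 M[f 1_bad √(f+g)] + (28 δ + 77 √η) M f`** if on every word
  `V` outside of `bad` (with `f V ≠ 0`) at most the share `δ` of the words below `V` is below a word
  with `g > η`;
* `PN_merge_sum` : several names and a background.
-/

set_option autoImplicit false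
set_option linter.unusedVariables false
set_option linter.unusedSectionVars false

namespace Crest.Agent.R4P.WIm53

open Finset Filter
open Crest.Agent.R4.MergePot970 (abel w w_nonneg w_zero w_mono w_le_one w_step cauchy)
open Crest.Agent.R4P.GMer27 (M M_add M_smul M_sub M_sum M_mono M_nonneg M_const cont_M TC key_u cT av T
  T_max le_T T_nonneg T_inj T_mono M_W Col)
open Crest.Agent.R4P.GMk35

/-! ## log-supermodular weights -/

section LS
variable {J : Type*} [Fintype J] [DistribLattice J] {c : J → ℝ}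

/-- log-supermodular weights -/
def LS (c : J → ℝ) : Prop := ∀ a b, c a * c b ≤ c (a ⊓ b) * c (a ⊔ b)

/-- the mass of a function for a (not normalised) weight -/
lemma fkg_aa (c0 : ∀ j, 0 ≤ c j) (hc : LS c) {f g : J → ℝ} (hf : Antitone f) (hg : Antitone g)
    (f1 : ∀ j, f j ≤ 1) (g1 : ∀ j, g j ≤ 1) :
    M c f * M c g ≤ (∑ j, c j) * M c (fun j => f j * g j) := by
  have h := fkg (μ := c) (f := fun j => 1 - f j) (g := fun j => 1 - g j) c0
    (fun j => sub_nonneg.2 (f1 j)) (fun j => sub_nonneg.2 (g1 j))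
    (fun a b hab => sub_le_sub_left (hf hab) 1) (fun a b hab => sub_le_sub_left (hg hab) 1) hc
  have e1 : ∑ a, c a * (1 - f a) = (∑ j, c j) - M c f := by
    simp only [M, mul_sub, mul_one, Finset.sum_sub_distrib]
  have e2 : ∑ a, c a * (1 - g a) = (∑ j, c j) - M c g := by
    simp only [M, mul_sub, mul_one, Finset.sum_sub_distrib]
  have e3 : ∑ a, c a * ((1 - f a) * (1 - g a)) =
      (∑ j, c j) - M c f - M c g + M c (fun j => f j * g j) := by
    simp only [M]
    rw [← Finset.sum_sub_distrib, ← Finset.sum_sub_distrib, ← Finset.sum_add_distrib]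
    exact Finset.sum_congr rfl fun j _ => by ring
  rw [e1, e2, e3] at h
  nlinarith [h]

lemma fkg_ma (c0 : ∀ j, 0 ≤ c j) (hc : LS c) {f g : J → ℝ} (hf : Monotone f) (hg : Antitone g)
    (f0 : ∀ j, 0 ≤ f j) (g1 : ∀ j, g j ≤ 1) :
    (∑ j, c j) * M c (fun j => f j * g j) ≤ M c f * M c g := by
  have h := fkg (μ := c) (f := f) (g := fun j => 1 - g j) c0
    f0 (fun j => sub_nonneg.2 (g1 j)) hf (fun a b hab => sub_le_sub_left (hg hab) 1) hc
  have e2 : ∑ a, c a * (1 - g a) = (∑ j, c j) - M c g := by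
    simp only [M, mul_sub, mul_one, Finset.sum_sub_distrib]
  have e3 : ∑ a, c a * (f a * (1 - g a)) = M c f - M c (fun j => f j * g j) := by
    simp only [M]
    rw [← Finset.sum_sub_distrib]
    exact Finset.sum_congr rfl fun j _ => by ring
  have e1 : ∑ a, c a * f a = M c f := rfl
  rw [e1, e2, e3] at h
  nlinarith [h]

/-- the product weights on `J × Bool` -/
lemma LS.prod (c0 : ∀ j, 0 ≤ c j) (hc : LS c) {q : ℝ} (q0 : 0 ≤ q) (q1 : q ≤ 1) :
    LS (cT q c) := by
  rintro ⟨a, x⟩ ⟨b, y⟩
  have h1 := hc a b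
  have h2 : ∀ z : Bool, (0:ℝ) ≤ if z then q else 1 - q := by
    intro z
    split_ifs <;> linarith
  have h3 : (if x then q else 1 - q) * (if y then q else 1 - q) =
      (if (x ⊓ y) then q else 1 - q) * (if (x ⊔ y) then q else 1 - q) := by
    cases x <;> cases y <;> simp [mul_comm]
  show c a * (if x then q else 1 - q) * (c b * (if y then q else 1 - q)) ≤
    c (a ⊓ b) * (if (x ⊓ y) then q else 1 - q) * (c (a ⊔ b) * (if (x ⊔ y) then q else 1 - q))
  have h4 := mul_le_mul_of_nonneg_right h1 (mul_nonneg (h2 x) (h2 y))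
  have h5 : c (a ⊓ b) * c (a ⊔ b) * ((if x then q else 1 - q) * (if y then q else 1 - q)) =
      c (a ⊓ b) * (if (x ⊓ y) then q else 1 - q) * (c (a ⊔ b) * (if (x ⊔ y) then q else 1 - q)) := by
    rw [h3]; ring
  rw [h5] at h4
  linarith

/-- antitone tests -/
def WA (J : Type*) [Preorder J] : Set (J → ℝ) := {φ | Antitone φ ∧ ∀ j, 0 ≤ φ j ∧ φ j ≤ 1}

lemma WA_closed (J : Type*) [Preorder J] : IsClosed (WA J) := by
  have e : WA J = (⋂ (a : J) (b : J) (_ : a ≤ b), {φ : J → ℝ | φ b ≤ φ a}) ∩
      ⋂ j, ({φ : J → ℝ | 0 ≤ φ j} ∩ {φ | φ j ≤ 1}) := by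
    ext φ
    simp only [WA, Set.mem_ofPred_eq, Set.mem_inter_iff, Set.mem_iInter]
    constructor
    · rintro ⟨h1, h2⟩
      exact ⟨fun a b hab => h1 hab, h2⟩
    · rintro ⟨h1, h2⟩
      exact ⟨fun a b hab => h1 a b hab, h2⟩
  rw [e]
  refine (isClosed_iInter fun a => isClosed_iInter fun b => isClosed_iInter fun _ =>
    isClosed_le (continuous_apply b) (continuous_apply a)).inter (isClosed_iInter fun j => ?_)
  exact (isClosed_le continuous_const (continuous_apply j)).inter
    (isClosed_le (continuous_apply j) continuous_const)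

/-- **antitone tests are a test class** -/
theorem TC.anti (c0 : ∀ j, 0 ≤ c j) (c1 : ∑ j, c j = 1) (hc : LS c) : TC c (WA J) where
  c0 := c0
  c1 := c1
  bd := fun φ hφ j => hφ.2 j
  zero := ⟨fun _ _ _ => le_rfl, fun _ => ⟨le_rfl, zero_le_one⟩⟩
  one := ⟨fun _ _ _ => le_rfl, fun _ => ⟨zero_le_one, le_rfl⟩⟩
  conv := by
    rintro x ⟨hx1, hx2⟩ y ⟨hy1, hy2⟩ s t hs ht hst
    refine ⟨fun a b hab => ?_, fun z => ?_⟩
    · simp only [Pi.add_apply, Pi.smul_apply, smul_eq_mul]
      exact add_le_add (mul_le_mul_of_nonneg_left (hx1 hab) hs)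
        (mul_le_mul_of_nonneg_left (hy1 hab) ht)
    · have h1 := hx2 z
      have h2 := hy2 z
      simp only [Pi.add_apply, Pi.smul_apply, smul_eq_mul]
      constructor
      · exact add_nonneg (mul_nonneg hs h1.1) (mul_nonneg ht h2.1)
      · nlinarith [mul_le_mul_of_nonneg_left h1.2 hs, mul_le_mul_of_nonneg_left h2.2 ht]
  closed := WA_closed J
  join := by
    rintro φ ⟨hφ, hφb⟩ ψ ⟨hψ, hψb⟩
    -- the pointwise join
    set u : J → ℝ := fun j => φ j + ψ j - φ j * ψ j with hu
    have hub : ∀ j, 0 ≤ u j ∧ u j ≤ 1 := fun j => key_u (hφb j) (hψb j)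
    have hua : Antitone u := by
      intro a b hab
      have a1 := hφ hab
      have a2 := hψ hab
      have b1 := hφb a
      have b2 := hψb b
      show φ b + ψ b - φ b * ψ b ≤ φ a + ψ a - φ a * ψ a
      nlinarith [mul_nonneg (sub_nonneg.2 a1) (sub_nonneg.2 b2.2),
        mul_nonneg (sub_nonneg.2 a2) (sub_nonneg.2 b1.2)]
    have hMu : M c u = M c φ + M c ψ - M c (fun j => φ j * ψ j) := by
      rw [hu, M_sub, M_add]
    have hF := fkg_aa c0 hc hφ hψ (fun j => (hφb j).2) (fun j => (hψb j).2)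
    rw [c1, one_mul] at hF
    set m : ℝ := M c φ + M c ψ - M c φ * M c ψ with hm
    have hum : M c u ≤ m := by rw [hMu]; linarith
    have hMb : ∀ χ : J → ℝ, (∀ j, 0 ≤ χ j ∧ χ j ≤ 1) → 0 ≤ M c χ ∧ M c χ ≤ 1 := by
      intro χ h
      refine ⟨M_nonneg c0 fun j => (h j).1, ?_⟩
      have := M_mono c0 (f := χ) (g := fun _ => 1) fun j => (h j).2
      rwa [M_const c1] at this
    have hm1 : m ≤ 1 := (key_u (hMb φ hφb) (hMb ψ hψb)).2
    -- interpolate with the constant `1`
    obtain ⟨s, s0, s1, hs⟩ : ∃ s : ℝ, 0 ≤ s ∧ s ≤ 1 ∧ (1 - s) * M c u + s = m := by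
      rcases eq_or_lt_of_le (hMb u hub).2 with h | h
      · exact ⟨0, le_rfl, zero_le_one, by linarith⟩
      · refine ⟨(m - M c u) / (1 - M c u), div_nonneg (by linarith) (by linarith),
          (div_le_one (by linarith)).2 (by linarith), ?_⟩
        have : 1 - M c u ≠ 0 := by linarith
        field_simp
        ring
    refine ⟨fun j => (1 - s) * u j + s, ⟨fun a b hab => ?_, fun j => ?_⟩, fun j => ?_, ?_⟩
    · have := mul_le_mul_of_nonneg_left (hua hab) (sub_nonneg.2 s1)
      show (1 - s) * u b + s ≤ (1 - s) * u a + s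
      linarith
    · have h := hub j
      constructor
      · nlinarith [mul_nonneg (sub_nonneg.2 s1) h.1]
      · nlinarith [mul_le_mul_of_nonneg_left h.2 (sub_nonneg.2 s1)]
    · have h := hub j
      have h1 : u j ≤ (1 - s) * u j + s := by
        nlinarith [mul_nonneg s0 (sub_nonneg.2 h.2)]
      have a1 := hφb j
      have a2 := hψb j
      have h2 : φ j ≤ u j := by
        show φ j ≤ φ j + ψ j - φ j * ψ j
        nlinarith [mul_nonneg a2.1 (sub_nonneg.2 a1.2)]
      have h3 : ψ j ≤ u j := by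
        show ψ j ≤ φ j + ψ j - φ j * ψ j
        nlinarith [mul_nonneg a1.1 (sub_nonneg.2 a2.2)]
      exact ⟨h2.trans h1, h3.trans h1⟩
    · rw [M_add (c := c) (fun j => (1 - s) * u j) (fun _ => s), M_smul, M_const c1]
      exact hs

end LS

/-! ## the optimum is an indicator -/

section ind
variable {J : Type*} [Fintype J] [Preorder J] {c : J → ℝ}

/-- the indicator of a finite set -/
def ic [DecidableEq J] (U : Finset J) (j : J) : ℝ := if j ∈ U then 1 else 0

/-- layer cake -/
lemma layer [DecidableEq J] {φ : J → ℝ} (h : ∀ j, 0 ≤ φ j ∧ φ j ≤ 1) (a : J → ℝ) {K : ℝ}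
    (hK : ∀ s : ℝ, M c (fun j => a j * (if s < φ j then 1 else 0)) ≤ K) :
    M c (fun j => a j * φ j) ≤ K := by
  have hint : ∀ x : ℝ, 0 ≤ x ∧ x ≤ 1 →
      IntervalIntegrable (fun s : ℝ => if s < x then (1:ℝ) else 0) MeasureTheory.volume 0 1 := by
    intro x hx
    have : (fun s : ℝ => if s < x then (1:ℝ) else 0) = Set.indicator (Set.Iio x) 1 := by
      funext s
      simp [Set.indicator]
    rw [this]
    exact (intervalIntegrable_const (c := (1:ℝ))).mono_fun
      ((measurable_const.indicator measurableSet_Iio).aestronglyMeasurable)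
      (Filter.Eventually.of_forall fun s => by
        by_cases hs : s ∈ Set.Iio x <;> simp [Set.indicator, hs])
  have hval : ∀ x : ℝ, 0 ≤ x ∧ x ≤ 1 → ∫ s in (0:ℝ)..1, (if s < x then (1:ℝ) else 0) = x := by
    intro x hx
    rw [intervalIntegral.integral_of_le zero_le_one,
      MeasureTheory.integral_Ioc_eq_integral_Ioo]
    have : (fun s : ℝ => if s < x then (1:ℝ) else 0) = Set.indicator (Set.Iio x) (fun _ => 1) := by
      funext s
      simp [Set.indicator]
    rw [this, MeasureTheory.integral_indicator measurableSet_Iio,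
      MeasureTheory.Measure.restrict_restrict measurableSet_Iio]
    simp only [MeasureTheory.integral_const, smul_eq_mul, mul_one]
    have e : Set.Iio x ∩ Set.Ioo 0 1 = Set.Ioo 0 x := by
      ext s
      simp only [Set.mem_inter_iff, Set.mem_Iio, Set.mem_Ioo]
      constructor
      · rintro ⟨h1, h2, h3⟩
        exact ⟨h2, h1⟩
      · rintro ⟨h1, h2⟩
        exact ⟨h2, h1, h2.trans_le hx.2⟩
    rw [e]
    simp [MeasureTheory.Measure.real, hx.1]
  have e1 : M c (fun j => a j * φ j) =
      ∫ s in (0:ℝ)..1, M c (fun j => a j * (if s < φ j then 1 else 0)) := by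
    unfold M
    rw [intervalIntegral.integral_finsetSum]
    · refine Finset.sum_congr rfl fun j _ => ?_
      rw [intervalIntegral.integral_const_mul, intervalIntegral.integral_const_mul, hval _ (h j)]
    · intro j _
      exact ((hint _ (h j)).const_mul _).const_mul _
  rw [e1]
  have e2 : ∫ s in (0:ℝ)..1, M c (fun j => a j * (if s < φ j then 1 else 0)) ≤
      ∫ s in (0:ℝ)..1, K := by
    refine intervalIntegral.integral_mono_on zero_le_one ?_ intervalIntegrable_const
      (fun s _ => hK s)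
    have h3 : IntervalIntegrable (∑ j, fun s : ℝ => c j * (a j * (if s < φ j then 1 else 0)))
        MeasureTheory.volume 0 1 :=
      IntervalIntegrable.sum Finset.univ fun j _ => ((hint _ (h j)).const_mul (a j)).const_mul (c j)
    convert h3 using 1
    funext s
    simp [M, Finset.sum_apply]
  refine e2.trans ?_
  simp

/-- **the optimum is an indicator** -/
lemma T_ind [DecidableEq J] (H : TC c (WA J)) (lam : ℝ) (h : J → ℝ) :
    ∃ U : Finset J, (∀ a b, a ≤ b → b ∈ U → a ∈ U) ∧
      M c (fun j => (h j - lam) * ic U j) = T c (WA J) lam h := by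
  classical
  let L : Finset (Finset J) := Finset.univ.filter fun U => ∀ a b, a ≤ b → b ∈ U → a ∈ U
  have hLne : L.Nonempty := ⟨∅, by simp [L]⟩
  obtain ⟨U, hU, hmax⟩ := L.exists_max_image
    (fun U => M c (fun j => (h j - lam) * ic U j)) hLne
  have hUl : ∀ a b, a ≤ b → b ∈ U → a ∈ U := (mem_filter.1 hU).2
  refine ⟨U, hUl, le_antisymm ?_ ?_⟩
  · refine le_T H lam h (φ := ic U) ⟨fun a b hab => ?_, fun j => ?_⟩
    · unfold ic
      split_ifs with h1 h2 h2
      · exact le_rfl
      · exact absurd (hUl a b hab h1) h2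
      · exact zero_le_one
      · exact le_rfl
    · unfold ic
      split_ifs <;> norm_num
  · obtain ⟨φ, ⟨h1, h2⟩, h3⟩ := T_max H lam h
    rw [← h3]
    refine layer h2 _ fun s => ?_
    have hmem : (Finset.univ.filter fun j => s < φ j) ∈ L := by
      refine mem_filter.2 ⟨mem_univ _, fun a b hab hb => ?_⟩
      rw [mem_filter] at hb ⊢
      exact ⟨mem_univ _, hb.2.trans_le (h1 hab)⟩
    have := hmax _ hmem
    refine le_trans (le_of_eq ?_) this
    congr 1
    funext j
    simp [ic]

end ind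

/-! ## conditional Harris inequality over a union of principal lower sets -/

section cover
variable {J : Type*} [Fintype J] [DistribLattice J] [DecidableEq J] [DecidableLE J] {c : J → ℝ}

/-- the lower closure of a finite set of words -/
def lo (A : Finset J) : Finset J := Finset.univ.filter fun S => ∃ V ∈ A, S ≤ V

omit [DecidableEq J] in
lemma mem_lo {A : Finset J} {S : J} : S ∈ lo A ↔ ∃ V ∈ A, S ≤ V := by simp [lo]

omit [DecidableEq J] in
lemma sub_lo {A : Finset J} {V : J} (h : V ∈ A) : V ∈ lo A := mem_lo.2 ⟨V, h, le_rfl⟩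

omit [DecidableEq J] in
lemma lo_mono {A B : Finset J} (h : A ⊆ B) : lo A ⊆ lo B := by
  intro S hS
  obtain ⟨V, hV, hS⟩ := mem_lo.1 hS
  exact mem_lo.2 ⟨V, h hV, hS⟩

omit [DecidableEq J] in
lemma lo_low (A : Finset J) {a b : J} (hab : a ≤ b) (hb : b ∈ lo A) : a ∈ lo A := by
  obtain ⟨V, hV, hS⟩ := mem_lo.1 hb
  exact mem_lo.2 ⟨V, hV, hab.trans hS⟩

lemma ic_anti {U : Finset J} (hU : ∀ a b, a ≤ b → b ∈ U → a ∈ U) : Antitone (ic U) := by
  intro a b hab
  unfold ic
  split_ifs with h1 h2 h2
  · exact le_rfl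
  · exact absurd (hU a b hab h1) h2
  · exact zero_le_one
  · exact le_rfl

lemma ic_bd (U : Finset J) (j : J) : 0 ≤ ic U j ∧ ic U j ≤ 1 := by
  unfold ic
  split_ifs <;> norm_num

lemma ic_WA (A : Finset J) : ic (lo A) ∈ WA J := ⟨ic_anti fun a b => lo_low A, ic_bd _⟩

/-- `P(U)` -/
def PP (c : J → ℝ) (U : Finset J) : ℝ := M c (ic U)

lemma PP_nonneg (c0 : ∀ j, 0 ≤ c j) (U : Finset J) : 0 ≤ PP c U := M_nonneg c0 fun j => (ic_bd U j).1

lemma PP_mono (c0 : ∀ j, 0 ≤ c j) {U V : Finset J} (h : U ⊆ V) : PP c U ≤ PP c V := by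
  refine M_mono c0 fun j => ?_
  unfold ic
  split_ifs with h1 h2 h2
  · exact le_rfl
  · exact absurd (h h1) h2
  · exact zero_le_one
  · exact le_rfl

/-- **conditional Harris** : if every word `V ∈ A` has at most the share `δ` of the words below it in
the lower set `Y`, then the same holds for the lower closure of `A` -/
theorem cover (c0 : ∀ j, 0 ≤ c j) (hc : LS c) {Y : Finset J}
    (hY : ∀ a b, a ≤ b → b ∈ Y → a ∈ Y) {del : ℝ} (hd : 0 ≤ del) (A : Finset J)
    (hA : ∀ V ∈ A, PP c (lo {V} ∩ Y) ≤ del * PP c (lo {V})) :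
    PP c (lo A ∩ Y) ≤ del * PP c (lo A) := by
  induction A using Finset.induction_on with
  | empty =>
    have e : lo (∅ : Finset J) = ∅ := by
      ext S
      simp [mem_lo]
    rw [e, Finset.empty_inter]
    have : PP c (∅ : Finset J) = 0 := by
      unfold PP M ic
      simp
    rw [this, mul_zero]
  | insert V A hV ih =>
    have ih' := ih fun V' h => hA V' (mem_insert_of_mem h)
    have hV' := hA V (mem_insert_self V A)
    -- the measure below `V`
    set mu : J → ℝ := fun j => c j * ic (lo {V}) j with hmu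
    have mu0 : ∀ j, 0 ≤ mu j := fun j => mul_nonneg (c0 j) (ic_bd _ j).1
    have hle : ∀ j, j ∈ lo ({V} : Finset J) ↔ j ≤ V := by
      intro j
      simp [mem_lo]
    have hmuLS : LS mu := by
      intro a b
      show c a * ic (lo {V}) a * (c b * ic (lo {V}) b) ≤
        c (a ⊓ b) * ic (lo {V}) (a ⊓ b) * (c (a ⊔ b) * ic (lo {V}) (a ⊔ b))
      by_cases ha : a ≤ V
      · by_cases hb : b ≤ V
        · have e1 : ic (lo {V}) a = 1 := by simp [ic, hle, ha]
          have e2 : ic (lo {V}) b = 1 := by simp [ic, hle, hb]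
          have e3 : ic (lo {V}) (a ⊓ b) = 1 := by simp [ic, hle, inf_le_left.trans ha]
          have e4 : ic (lo {V}) (a ⊔ b) = 1 := by simp [ic, hle, ha, hb]
          rw [e1, e2, e3, e4]
          have := hc a b
          linarith
        · have e2 : ic (lo {V}) b = 0 := by simp [ic, hle, hb]
          rw [e2, mul_zero, mul_zero]
          exact mul_nonneg (mul_nonneg (c0 _) (ic_bd _ _).1) (mul_nonneg (c0 _) (ic_bd _ _).1)
      · have e2 : ic (lo {V}) a = 0 := by simp [ic, hle, ha]
        rw [e2, mul_zero, zero_mul]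
        exact mul_nonneg (mul_nonneg (c0 _) (ic_bd _ _).1) (mul_nonneg (c0 _) (ic_bd _ _).1)
    set f : J → ℝ := fun j => 1 - ic (lo A) j with hf
    have hfm : Monotone f := fun a b hab =>
      sub_le_sub_left (ic_anti (fun a b => lo_low A) hab) 1
    have hf0 : ∀ j, 0 ≤ f j := fun j => sub_nonneg.2 (ic_bd _ j).2
    have hY' : Antitone (ic Y) := ic_anti hY
    have hF := fkg_ma mu0 hmuLS hfm hY' hf0 fun j => (ic_bd Y j).2
    -- the sums
    have emu : ∑ j, mu j = PP c (lo {V}) := rfl
    have eY : M mu (ic Y) = PP c (lo {V} ∩ Y) := by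
      unfold PP M
      refine Finset.sum_congr rfl fun j _ => ?_
      simp only [hmu, ic, mem_inter]
      by_cases h1 : j ∈ lo ({V} : Finset J) <;> by_cases h2 : j ∈ Y <;> simp [h1, h2]
    have ef : M mu f = PP c (lo (insert V A)) - PP c (lo A) := by
      unfold PP
      rw [← M_sub]
      unfold M
      refine Finset.sum_congr rfl fun j _ => ?_
      simp only [hmu, hf, ic, mem_lo, mem_insert, mem_singleton, exists_eq_left,
        exists_eq_or_imp]
      by_cases h1 : j ≤ V <;> by_cases h2 : ∃ V' ∈ A, j ≤ V' <;> simp [h1, h2]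
    have efY : M mu (fun j => f j * ic Y j) = PP c (lo (insert V A) ∩ Y) - PP c (lo A ∩ Y) := by
      unfold PP
      rw [← M_sub]
      unfold M
      refine Finset.sum_congr rfl fun j _ => ?_
      simp only [hmu, hf, ic, mem_lo, mem_insert, mem_singleton, exists_eq_left,
        exists_eq_or_imp, mem_inter]
      by_cases h1 : j ≤ V <;> by_cases h2 : ∃ V' ∈ A, j ≤ V' <;> by_cases h3 : j ∈ Y <;>
        simp [h1, h2, h3]
    rw [emu, eY] at hF
    have hf1 : 0 ≤ M mu f := M_nonneg mu0 hf0
    have hP := PP_nonneg c0 (lo ({V} : Finset J))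
    have hkey : M mu (fun j => f j * ic Y j) ≤ del * M mu f := by
      rcases eq_or_lt_of_le hP with h | h
      · -- nothing below `V`
        have hz : ∀ j, mu j = 0 := by
          intro j
          have h0 : ∑ j, mu j = 0 := by rw [emu, ← h]
          exact (Finset.sum_eq_zero_iff_of_nonneg fun j _ => mu0 j).1 h0 j (mem_univ j)
        have e1 : M mu (fun j => f j * ic Y j) = 0 := by
          unfold M
          exact Finset.sum_eq_zero fun j _ => by rw [hz j, zero_mul]
        rw [e1]
        exact mul_nonneg hd hf1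
      · have h5 : M mu f * PP c (lo {V} ∩ Y) ≤ M mu f * (del * PP c (lo {V})) :=
          mul_le_mul_of_nonneg_left hV' hf1
        have h6 : PP c (lo {V}) * M mu (fun j => f j * ic Y j) ≤
            PP c (lo {V}) * (del * M mu f) := by
          refine hF.trans (h5.trans (le_of_eq ?_))
          ring
        exact le_of_mul_le_mul_left h6 h
    rw [efY, ef] at hkey
    linarith

end cover

/-! ## the price at one level -/

section level
variable {J : Type*} [Fintype J] [DistribLattice J] [DecidableEq J] [DecidableLE J] {c : J → ℝ}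

/-- **the price of a merge at one level** -/
theorem T_merge (H : TC c (WA J)) (hc : LS c) {lam : ℝ} (hl : 0 ≤ lam) {f g : J → ℝ}
    (hf : ∀ j, 0 ≤ f j) (hg : ∀ j, 0 ≤ g j) {del : ℝ} (hd : 0 ≤ del) (B : Finset J)
    (hB : ∀ j, c j ≠ 0 → g j ≠ 0 → j ∈ B)
    (hA : ∀ V, c V ≠ 0 → f V ≠ 0 → PP c (lo {V} ∩ lo B) ≤ del * PP c (lo {V})) :
    T c (WA J) lam (fun j => f j + g j) ≤ T c (WA J) lam f + T c (WA J) lam g +
      2 * del * M c f := by
  have hMf : 0 ≤ M c f := M_nonneg H.c0 hf
  by_cases hd2 : 1 / 2 < del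
  · -- the trivial bound
    have h1 := T_inj H lam (h := g) hf
    have e : (fun j => g j + f j) = fun j => f j + g j := by
      funext j
      ring
    rw [e] at h1
    have h2 := T_nonneg H lam f
    nlinarith
  push Not at hd2
  obtain ⟨U, hU, hopt⟩ := T_ind H lam fun j => f j + g j
  set A : Finset J := Finset.univ.filter fun V => V ∈ U ∧ c V ≠ 0 ∧ f V ≠ 0 with hAdef
  set B' : Finset J := B.filter fun V => V ∈ U with hB'
  have hAU : lo A ⊆ U := by
    intro S hS
    obtain ⟨V, hV, hle⟩ := mem_lo.1 hS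
    exact hU S V hle (mem_filter.1 hV).2.1
  have hBU : lo B' ⊆ U := by
    intro S hS
    obtain ⟨V, hV, hle⟩ := mem_lo.1 hS
    exact hU S V hle (mem_filter.1 hV).2
  have hcov : PP c (lo A ∩ lo B') ≤ del * PP c (lo A) := by
    refine cover H.c0 hc (fun a b => lo_low B') hd A fun V hV => ?_
    obtain ⟨_, _, h1, h2⟩ := mem_filter.1 hV
    refine le_trans (PP_mono H.c0 ?_) (hA V h1 h2)
    exact Finset.inter_subset_inter le_rfl (lo_mono (filter_subset _ _))
  -- the three parts of the optimum
  have e1 : M c (fun j => (f j + g j - lam) * ic U j) =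
      M c (fun j => f j * ic U j) + M c (fun j => g j * ic U j) - lam * PP c U := by
    unfold PP
    rw [← M_smul, ← M_add, ← M_sub]
    congr 1
    funext j
    ring
  have e2 : M c (fun j => f j * ic U j) ≤ M c (fun j => f j * ic (lo A) j) := by
    unfold M
    refine Finset.sum_le_sum fun j _ => ?_
    by_cases h1 : c j = 0
    · rw [h1, zero_mul, zero_mul]
    · refine mul_le_mul_of_nonneg_left ?_ (H.c0 j)
      show f j * ic U j ≤ f j * ic (lo A) j
      by_cases h2 : f j = 0
      · rw [h2, zero_mul, zero_mul]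
      · refine mul_le_mul_of_nonneg_left ?_ (hf j)
        by_cases h3 : j ∈ U
        · have : j ∈ lo A := sub_lo (mem_filter.2 ⟨mem_univ _, h3, h1, h2⟩)
          simp [ic, h3, this]
        · simp only [ic, h3, if_false]
          split_ifs <;> norm_num
  have e3 : M c (fun j => g j * ic U j) ≤ M c (fun j => g j * ic (lo B') j) := by
    unfold M
    refine Finset.sum_le_sum fun j _ => ?_
    by_cases h1 : c j = 0
    · rw [h1, zero_mul, zero_mul]
    · refine mul_le_mul_of_nonneg_left ?_ (H.c0 j)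
      show g j * ic U j ≤ g j * ic (lo B') j
      by_cases h2 : g j = 0
      · rw [h2, zero_mul, zero_mul]
      · refine mul_le_mul_of_nonneg_left ?_ (hg j)
        by_cases h3 : j ∈ U
        · have : j ∈ lo B' := sub_lo (mem_filter.2 ⟨hB j h1 h2, h3⟩)
          simp [ic, h3, this]
        · simp only [ic, h3, if_false]
          split_ifs <;> norm_num
  have e4 : PP c (lo A) + PP c (lo B') - PP c (lo A ∩ lo B') ≤ PP c U := by
    unfold PP
    rw [← M_add, ← M_sub]
    refine M_mono H.c0 fun j => ?_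
    unfold ic
    by_cases h1 : j ∈ lo A <;> by_cases h2 : j ∈ lo B'
    · simp [h1, h2, hAU h1]
    · simp [h1, h2, hAU h1]
    · simp [h1, h2, hBU h2]
    · simp only [h1, h2, if_false, mem_inter, false_and]
      split_ifs <;> norm_num
  have tA : M c (fun j => f j * ic (lo A) j) - lam * PP c (lo A) ≤ T c (WA J) lam f := by
    have := le_T H lam f (ic_WA A)
    refine le_trans (le_of_eq ?_) this
    unfold PP
    rw [← M_smul, ← M_sub]
    congr 1
    funext j
    ring
  have tB : M c (fun j => g j * ic (lo B') j) - lam * PP c (lo B') ≤ T c (WA J) lam g := by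
    have := le_T H lam g (ic_WA B')
    refine le_trans (le_of_eq ?_) this
    unfold PP
    rw [← M_smul, ← M_sub]
    congr 1
    funext j
    ring
  have hAf : M c (fun j => f j * ic (lo A) j) ≤ M c f := by
    refine M_mono H.c0 fun j => ?_
    exact (mul_le_mul_of_nonneg_left (ic_bd _ j).2 (hf j)).trans_eq (mul_one _)
  have hPA := PP_nonneg H.c0 (lo A)
  have h5 := mul_le_mul_of_nonneg_left hcov hl
  have h6 := mul_le_mul_of_nonneg_left e4 hl
  rw [← hopt, e1]
  by_cases hcase : lam * PP c (lo A) ≤ 2 * M c f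
  · have h7 : lam * (del * PP c (lo A)) ≤ 2 * del * M c f := by
      have := mul_le_mul_of_nonneg_left hcase hd
      linarith
    linarith
  · push Not at hcase
    have h8 := T_nonneg H lam f
    have h9 : 0 ≤ 2 * del * M c f := by positivity
    have h10 : lam * (del * PP c (lo A)) ≤ 1 / 2 * (lam * PP c (lo A)) := by
      have := mul_le_mul_of_nonneg_right hd2 (mul_nonneg hl hPA)
      linarith
    linarith

lemma T_congr {W : Set (J → ℝ)} {lam : ℝ} {h z : J → ℝ} (hz : ∀ j, c j ≠ 0 → h j = z j) :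
    T c W lam h = T c W lam z := by
  unfold T
  congr 1
  refine Set.image_congr fun φ _ => ?_
  unfold M
  refine Finset.sum_congr rfl fun j _ => ?_
  by_cases h1 : c j = 0
  · rw [h1, zero_mul, zero_mul]
  · show c j * ((h j - lam) * φ j) = c j * ((z j - lam) * φ j)
    rw [hz j h1]

/-- disjoint contents, levels above `5 η` -/
lemma T2_merge (H : TC c (WA J)) (hc : LS c) {lam eta : ℝ} (he : 0 ≤ eta) (hl : 5 * eta ≤ lam)
    {f g : J → ℝ} (hf : ∀ j, 0 ≤ f j) (hg : ∀ j, 0 ≤ g j)
    (hfg : ∀ j, c j ≠ 0 → f j ≠ 0 → g j = 0) {del : ℝ} (hd : 0 ≤ del) (B : Finset J)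
    (hB : ∀ j, c j ≠ 0 → eta < g j → j ∈ B)
    (hA : ∀ V, c V ≠ 0 → f V ≠ 0 → PP c (lo {V} ∩ lo B) ≤ del * PP c (lo {V})) :
    T2 c (WA J) lam (fun j => f j + g j) ≤ T2 c (WA J) lam f + T2 c (WA J) lam g +
      2 * del * M c f := by
  have hl0 : 0 ≤ lam := by linarith
  have hMf : 0 ≤ M c f := M_nonneg H.c0 hf
  have e1 : T2 c (WA J) lam (fun j => f j + g j) =
      T c (WA J) (4 / 5 * lam) (fun j => tc lam f j + tc lam g j) := by
    refine T_congr fun j h1 => ?_
    unfold tc
    show max (f j + g j - lam / 5) 0 = max (f j - lam / 5) 0 + max (g j - lam / 5) 0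
    by_cases h2 : f j = 0
    · rw [h2, zero_add, zero_sub, max_eq_right (by linarith : -(lam / 5) ≤ 0), zero_add]
    · rw [hfg j h1 h2, add_zero, zero_sub, max_eq_right (by linarith : -(lam / 5) ≤ 0), add_zero]
  rw [e1]
  have h3 := T_merge H hc (lam := 4 / 5 * lam) (by positivity) (tc_nonneg lam f) (tc_nonneg lam g)
    hd B (fun j h1 h2 => hB j h1 (by
      by_contra h3
      push Not at h3
      exact h2 (tc_low (by linarith))))
    (fun V h1 h2 => hA V h1 (fun h3 => h2 (tc_low (by rw [h3]; positivity))))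
  have h4 : M c (tc lam f) ≤ M c f := by
    refine M_mono H.c0 fun j => ?_
    exact max_le (by linarith [hf j]) (hf j)
  have h5 : 2 * del * M c (tc lam f) ≤ 2 * del * M c f := mul_le_mul_of_nonneg_left h4 (by positivity)
  unfold T2
  linarith

end level

/-! ## the price in the potential -/

section pot
variable {J : Type*} [Fintype J] {c : J → ℝ} {W : Set (J → ℝ)}

/-- **Abel summation** : prices `rho` per level (above `5 η`) give `8 n (rho + √(5η) M f)` -/
lemma B_price (H : TC c W) {n : ℕ} (hn : 0 < n) {f g : J → ℝ}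
    (hf : ∀ j, 0 ≤ f j) (hg : ∀ j, 0 ≤ g j) (h1 : ∀ j, f j + g j ≤ 1) {rho eta : ℝ}
    (hr : 0 ≤ rho) (he : 0 ≤ eta)
    (hp : ∀ lam : ℝ, 5 * eta ≤ lam → T2 c W lam (fun j => f j + g j) ≤
      T2 c W lam f + T2 c W lam g + rho) :
    B c W n (fun j => f j + g j) ≤ B c W n f + B c W n g +
      n * (8 * rho + 8 * Real.sqrt (5 * eta) * M c f) := by
  have hn' : (0 : ℝ) < n := by exact_mod_cast hn
  have hMf : 0 ≤ M c f := M_nonneg H.c0 hf
  set z : J → ℝ := fun j => f j + g j with hz
  let D : ℕ → ℝ := fun i => t c W n z i - t c W n f i - t c W n g i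
  let s : ℕ → ℝ := fun i => nu c W n z i + nu c W n f i + nu c W n g i
  let d : ℕ → ℝ := fun i => w n i * (8 - s i)
  have hf1 : ∀ j, f j ≤ 1 := fun j => by have := h1 j; have := hg j; linarith
  have hg1 : ∀ j, g j ≤ 1 := fun j => by have := h1 j; have := hf j; linarith
  have hDn : D n = 0 := by
    show t c W n z n - t c W n f n - t c W n g n = 0
    rw [t_top H hn h1, t_top H hn hf1, t_top H hn hg1]
    ring
  have hdiff : B c W n z - B c W n f - B c W n g =
      n * ∑ i ∈ range n, d i * (D i - D (i + 1)) -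
        2 * ∑ i ∈ range n, w n i * (nu c W n f i * nu c W n g i) := by
    simp only [B]
    rw [← Finset.sum_sub_distrib, ← Finset.sum_sub_distrib, Finset.mul_sum, Finset.mul_sum,
      ← Finset.sum_sub_distrib]
    apply Finset.sum_congr rfl
    intro i _
    show _ = n * (w n i * (8 - (nu c W n z i + nu c W n f i + nu c W n g i)) *
      (D i - D (i + 1))) - _
    have e2 : n * (D i - D (i + 1)) = nu c W n z i - nu c W n f i - nu c W n g i := by
      simp only [nu, D]
      ring
    calc _ = w n i * ((8 - (nu c W n z i + nu c W n f i + nu c W n g i)) *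
          (nu c W n z i - nu c W n f i - nu c W n g i)) -
          2 * (w n i * (nu c W n f i * nu c W n g i)) := by ring
      _ = _ := by rw [← e2]; ring
  have hs0 : ∀ i, 0 ≤ s i := fun i => by
    have a1 := nu_nonneg H hn z i
    have a2 := nu_nonneg H hn f i
    have a3 := nu_nonneg H hn g i
    show 0 ≤ nu c W n z i + nu c W n f i + nu c W n g i
    linarith
  have hs3 : ∀ i, s i ≤ 3 := fun i => by
    have a1 := nu_le_one H hn z i
    have a2 := nu_le_one H hn f i
    have a3 := nu_le_one H hn g i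
    show nu c W n z i + nu c W n f i + nu c W n g i ≤ 3
    linarith
  have hsm : ∀ i, s (i + 1) ≤ s i := fun i => by
    have a1 := nu_anti H hn z i
    have a2 := nu_anti H hn f i
    have a3 := nu_anti H hn g i
    show nu c W n z (i + 1) + nu c W n f (i + 1) + nu c W n g (i + 1) ≤
      nu c W n z i + nu c W n f i + nu c W n g i
    linarith
  have hdm : ∀ i, d i ≤ d (i + 1) := by
    intro i
    show w n i * (8 - s i) ≤ w n (i + 1) * (8 - s (i + 1))
    have a1 := w_mono n i
    have a2 := w_nonneg n i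
    have a3 := hsm i
    have a4 := hs3 i
    have a5 := hs3 (i + 1)
    have a6 := w_nonneg n (i + 1)
    exact mul_le_mul a1 (by linarith) (by linarith) a6
  have hd8 : ∀ i, d i ≤ 8 * w n i := by
    intro i
    show w n i * (8 - s i) ≤ 8 * w n i
    have := mul_nonneg (w_nonneg n i) (hs0 i)
    linarith
  have hd0 : ∀ i, 0 ≤ d i := fun i => mul_nonneg (w_nonneg n i) (by linarith [hs3 i])
  have hab := abel d D n
  have hc0 : d 0 = 0 := by
    show w n 0 * _ = 0
    rw [w_zero, zero_mul]
  rw [hDn, hc0] at hab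
  -- the price of a level
  have hD1 : ∀ i, D i ≤ M c f := by
    intro i
    have h2 := T2_inj H (i / n : ℝ) (h := g) hf
    have e : (fun j => g j + f j) = z := by
      funext j
      simp only [hz]
      ring
    rw [e] at h2
    have h3 := T2_nonneg H (i / n : ℝ) f
    show T2 c W (i / n) z - T2 c W (i / n) f - T2 c W (i / n) g ≤ M c f
    linarith
  have hD2 : ∀ i : ℕ, 5 * eta ≤ (i : ℝ) / n → D i ≤ rho := by
    intro i hi
    have := hp _ hi
    show T2 c W (i / n) z - T2 c W (i / n) f - T2 c W (i / n) g ≤ rho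
    linarith
  -- the number of low levels
  set i0 : ℕ := min n ⌊5 * eta * n⌋₊ with hi0
  have hsum : ∑ i ∈ range n, (d (i + 1) - d i) * D (i + 1) ≤ rho * d n + M c f * d i0 := by
    have hterm : ∀ i ∈ range n, (d (i + 1) - d i) * D (i + 1) ≤
        rho * (d (i + 1) - d i) + (if i < i0 then M c f * (d (i + 1) - d i) else 0) := by
      intro i hi
      have hdd : 0 ≤ d (i + 1) - d i := sub_nonneg.2 (hdm i)
      split_ifs with hc
      · have := mul_le_mul_of_nonneg_left (hD1 (i + 1)) hdd
        have := mul_nonneg hr hdd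
        linarith
      · have h5 : 5 * eta ≤ ((i + 1 : ℕ) : ℝ) / n := by
          rw [le_div_iff₀ hn']
          have hin := mem_range.1 hi
          have h6 : ⌊5 * eta * n⌋₊ < i + 1 := by
            rw [hi0] at hc
            push Not at hc
            rcases le_total n ⌊5 * eta * n⌋₊ with h | h
            · rw [min_eq_left h] at hc
              omega
            · rw [min_eq_right h] at hc
              omega
          have h7 := Nat.lt_of_floor_lt h6
          exact h7.le
        have := mul_le_mul_of_nonneg_left (hD2 (i + 1) h5) hdd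
        linarith
    refine (Finset.sum_le_sum hterm).trans ?_
    rw [Finset.sum_add_distrib, ← Finset.mul_sum, Finset.sum_range_sub, hc0, sub_zero,
      ← Finset.sum_filter]
    have e : (range n).filter (fun i => i < i0) = range i0 := by
      ext i
      simp only [mem_filter, mem_range]
      constructor
      · exact fun h => h.2
      · intro h
        exact ⟨h.trans_le (min_le_left _ _), h⟩
    rw [e, ← Finset.mul_sum, Finset.sum_range_sub, hc0, sub_zero]
  have hdn : d n ≤ 8 := by
    refine (hd8 n).trans ?_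
    have : w n n = 1 := by
      unfold Crest.Agent.R4.MergePot970.w
      exact div_self (Real.sqrt_pos.2 hn').ne'
    rw [this]
    norm_num
  have hdi : d i0 ≤ 8 * Real.sqrt (5 * eta) := by
    refine (hd8 i0).trans (mul_le_mul_of_nonneg_left ?_ (by norm_num))
    unfold Crest.Agent.R4.MergePot970.w
    rw [div_le_iff₀ (Real.sqrt_pos.2 hn'), ← Real.sqrt_mul (by positivity)]
    apply Real.sqrt_le_sqrt
    have h6 : (i0 : ℝ) ≤ (⌊5 * eta * n⌋₊ : ℝ) := by exact_mod_cast min_le_right _ _
    exact h6.trans (Nat.floor_le (by positivity))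
  have h7 : 0 ≤ ∑ i ∈ range n, w n i * (nu c W n f i * nu c W n g i) :=
    Finset.sum_nonneg fun i _ => mul_nonneg (w_nonneg n i)
      (mul_nonneg (nu_nonneg H hn f i) (nu_nonneg H hn g i))
  have h8 : ∑ i ∈ range n, d i * (D i - D (i + 1)) ≤ 8 * rho + 8 * Real.sqrt (5 * eta) * M c f := by
    have e3 : ∑ i ∈ range n, d i * (D i - D (i + 1)) =
        ∑ i ∈ range n, (d (i + 1) - d i) * D (i + 1) := by linarith
    rw [e3]
    refine hsum.trans ?_
    have a1 := mul_le_mul_of_nonneg_left hdn hr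
    have a2 := mul_le_mul_of_nonneg_left hdi hMf
    linarith
  have h9 := mul_le_mul_of_nonneg_left h8 hn'.le
  linarith

end pot

/-! ## the limit exists -/

section lim

/-- the integral of a step function -/
lemma step_int {N : ℕ} (hN : 0 < N) (φ : ℕ → ℝ) :
    ∫ x in (0:ℝ)..1, φ ⌊x * N⌋₊ = (∑ i ∈ range N, φ i) / N := by
  have hN' : (0 : ℝ) < N := by exact_mod_cast hN
  have hmeas : Measurable fun x : ℝ => φ ⌊x * N⌋₊ :=
    (measurable_from_nat (f := φ)).comp (Nat.measurable_floor.comp (measurable_id.mul_const _))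
  have hae : ∀ i : ℕ, ∀ x ∈ Set.Ioo ((i : ℝ) / N) (((i + 1 : ℕ) : ℝ) / N), φ ⌊x * N⌋₊ = φ i := by
    intro i x hx
    have h1 : (i : ℝ) ≤ x * N := by
      have := (div_lt_iff₀ hN').1 hx.1
      exact this.le
    have h2 : x * N < (i : ℝ) + 1 := by
      have := (lt_div_iff₀ hN').1 hx.2
      push_cast at this
      exact this
    rw [(Nat.floor_eq_iff (le_trans (Nat.cast_nonneg i) h1)).2 ⟨h1, h2⟩]
  have hle : ∀ i : ℕ, (i : ℝ) / N ≤ ((i + 1 : ℕ) : ℝ) / N := fun i =>
    div_le_div_of_nonneg_right (by push_cast; linarith) hN'.le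
  have hint : ∀ i : ℕ, IntervalIntegrable (fun x : ℝ => φ ⌊x * N⌋₊) MeasureTheory.volume
      ((i : ℝ) / N) (((i + 1 : ℕ) : ℝ) / N) := by
    intro i
    rw [intervalIntegrable_iff_integrableOn_Ioo_of_le (hle i)]
    refine (MeasureTheory.integrableOn_const (C := φ i) (by simp)).congr_fun
      (fun x hx => (hae i x hx).symm) measurableSet_Ioo
  have hval : ∀ i : ℕ, ∫ x in ((i : ℝ) / N)..(((i + 1 : ℕ) : ℝ) / N), φ ⌊x * N⌋₊ = φ i / N := by
    intro i
    rw [intervalIntegral.integral_of_le (hle i), MeasureTheory.integral_Ioc_eq_integral_Ioo,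
      MeasureTheory.setIntegral_congr_fun measurableSet_Ioo (hae i)]
    simp only [MeasureTheory.integral_const, smul_eq_mul, MeasureTheory.measureReal_restrict_apply,
      MeasurableSet.univ, Set.univ_inter]
    rw [MeasureTheory.Measure.real, Real.volume_Ioo, ENNReal.toReal_ofReal (sub_nonneg.2 (hle i))]
    push_cast
    field_simp
    ring
  have hs := intervalIntegral.sum_integral_adjacent_intervals (μ := MeasureTheory.volume)
    (f := fun x : ℝ => φ ⌊x * N⌋₊) (a := fun i : ℕ => (i : ℝ) / N) (n := N) fun i _ => hint i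
  simp only [Nat.cast_zero, zero_div, div_self hN'.ne'] at hs
  rw [← hs, Finset.sum_div]
  exact Finset.sum_congr rfl fun i _ => hval i

/-- difference quotients over grid cells -/
lemma straddle {F : ℝ → ℝ} {x F' : ℝ} (hx : 0 ≤ x) (hF : HasDerivAt F F' x) :
    Tendsto (fun n : ℕ => ((n + 1 : ℕ) : ℝ) * (F ((⌊x * ((n + 1 : ℕ) : ℝ)⌋₊ : ℝ) / ((n + 1 : ℕ) : ℝ)) -
      F (((⌊x * ((n + 1 : ℕ) : ℝ)⌋₊ + 1 : ℕ) : ℝ) / ((n + 1 : ℕ) : ℝ)))) atTop (nhds (-F')) := by
  rw [Metric.tendsto_atTop]
  intro ε hε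
  have h1 := (hasDerivAt_iff_isLittleO.1 hF).def (c := ε / 4) (by positivity)
  obtain ⟨δ, hδ, h2⟩ := Metric.eventually_nhds_iff.1 h1
  obtain ⟨n0, hn0⟩ := exists_nat_gt (1 / δ)
  refine ⟨n0, fun n hn => ?_⟩
  set N : ℝ := ((n + 1 : ℕ) : ℝ) with hN
  have hN0 : 0 < N := by rw [hN]; positivity
  set k : ℕ := ⌊x * N⌋₊ with hk
  have hk1 : (k : ℝ) ≤ x * N := Nat.floor_le (by positivity)
  have hk2 : x * N < (k : ℝ) + 1 := Nat.lt_floor_add_one _
  have hND : 1 / N < δ := by
    rw [div_lt_iff₀ hN0]
    have h3 : 1 / δ < N := by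
      refine hn0.trans_le ?_
      rw [hN]
      exact_mod_cast hn.trans (Nat.le_succ n)
    have := (div_lt_iff₀ hδ).1 h3
    linarith
  have ha : |(k : ℝ) / N - x| ≤ 1 / N := by
    rw [abs_le]
    constructor
    · have : x - 1 / N ≤ (k : ℝ) / N := by
        rw [le_div_iff₀ hN0, sub_mul, one_div, inv_mul_cancel₀ hN0.ne']
        linarith
      linarith
    · have : (k : ℝ) / N ≤ x := by
        rw [div_le_iff₀ hN0]
        exact hk1
      have : 0 ≤ 1 / N := by positivity
      linarith
  have hb : |((k + 1 : ℕ) : ℝ) / N - x| ≤ 1 / N := by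
    rw [abs_le]
    constructor
    · have : x ≤ ((k + 1 : ℕ) : ℝ) / N := by
        rw [le_div_iff₀ hN0]
        push_cast
        exact hk2.le
      have : 0 ≤ 1 / N := by positivity
      linarith
    · have : ((k + 1 : ℕ) : ℝ) / N ≤ x + 1 / N := by
        rw [div_le_iff₀ hN0, add_mul, one_div, inv_mul_cancel₀ hN0.ne']
        push_cast
        linarith
      linarith
  have ea := h2 (y := (k : ℝ) / N) (by rw [Real.dist_eq]; exact ha.trans_lt hND)
  have eb := h2 (y := ((k + 1 : ℕ) : ℝ) / N) (by rw [Real.dist_eq]; exact hb.trans_lt hND)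
  rw [Real.norm_eq_abs, Real.norm_eq_abs, smul_eq_mul] at ea eb
  have ea' := ea.trans (mul_le_mul_of_nonneg_left ha (by positivity))
  have eb' := eb.trans (mul_le_mul_of_nonneg_left hb (by positivity))
  rw [Real.dist_eq]
  have e1 : N * (F ((k : ℝ) / N) - F (((k + 1 : ℕ) : ℝ) / N)) - -F' =
      N * ((F ((k : ℝ) / N) - F x - ((k : ℝ) / N - x) * F') -
        (F (((k + 1 : ℕ) : ℝ) / N) - F x - (((k + 1 : ℕ) : ℝ) / N - x) * F')) := by
    have : N * (((k + 1 : ℕ) : ℝ) / N) = (k : ℝ) + 1 := by
      rw [mul_div_cancel₀ _ hN0.ne']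
      push_cast
      ring
    have h4 : N * ((k : ℝ) / N) = k := mul_div_cancel₀ _ hN0.ne'
    linear_combination F' * h4 - F' * this
  rw [e1, abs_mul, abs_of_pos hN0]
  have h5 : |(F ((k : ℝ) / N) - F x - ((k : ℝ) / N - x) * F') -
        (F (((k + 1 : ℕ) : ℝ) / N) - F x - (((k + 1 : ℕ) : ℝ) / N - x) * F')| ≤
      ε / 4 * (1 / N) + ε / 4 * (1 / N) := (abs_sub _ _).trans (add_le_add ea' eb')
  calc N * _ ≤ N * (ε / 4 * (1 / N) + ε / 4 * (1 / N)) := mul_le_mul_of_nonneg_left h5 hN0.le
    _ = ε / 2 := by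
      field_simp
      ring
    _ < ε := by linarith

variable {J : Type*} [Fintype J] {c : J → ℝ} {W : Set (J → ℝ)}

lemma T2_anti (H : TC c W) (h : J → ℝ) : Antitone fun lam => T2 c W lam h := by
  intro lam mu hl
  show T c W (4 / 5 * mu) (tc mu h) ≤ T c W (4 / 5 * lam) (tc lam h)
  obtain ⟨φ, h1, h2⟩ := T_max H (4 / 5 * mu) (tc mu h)
  rw [← h2]
  refine le_trans ?_ (le_T H (4 / 5 * lam) (tc lam h) h1)
  refine M_mono H.c0 fun j => ?_
  have b := (H.bd φ h1 j).1
  have a := (tc_level hl h j).1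
  exact mul_le_mul_of_nonneg_right (by linarith) b

/-- the density -/
noncomputable def nud (c : J → ℝ) (W : Set (J → ℝ)) (h : J → ℝ) (x : ℝ) : ℝ :=
  -deriv (fun lam => T2 c W lam h) x

/-- **the limit exists** : `Pk` is an integral -/
theorem tendsto_B (H : TC c W) (h : J → ℝ) :
    Tendsto (fun n : ℕ => 2 * B c W (n + 1) h / ((n : ℝ) + 1)) atTop
      (nhds (2 * ∫ x in (0:ℝ)..1, Real.sqrt x * (8 * nud c W h x - nud c W h x ^ 2))) := by
  set F : ℝ → ℝ := fun lam => T2 c W lam h with hF
  have hdiff : ∀ᵐ x : ℝ, DifferentiableAt ℝ F x := by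
    have h1 : Monotone fun x => -F x := fun a b hab => neg_le_neg (T2_anti H h hab)
    filter_upwards [h1.ae_differentiableAt] with x hx
    simpa using hx.neg
  let g : ℕ → ℝ → ℝ := fun n x =>
    w (n + 1) ⌊x * ((n + 1 : ℕ) : ℝ)⌋₊ * (8 * nu c W (n + 1) h ⌊x * ((n + 1 : ℕ) : ℝ)⌋₊ -
      nu c W (n + 1) h ⌊x * ((n + 1 : ℕ) : ℝ)⌋₊ ^ 2)
  have hgi : ∀ n : ℕ, ∫ x in (0:ℝ)..1, g n x = B c W (n + 1) h / ((n : ℝ) + 1) := by
    intro n
    have := step_int (N := n + 1) n.succ_pos
      (fun i => w (n + 1) i * (8 * nu c W (n + 1) h i - nu c W (n + 1) h i ^ 2))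
    push_cast at this
    unfold B
    rw [← this]
    simp only [g]
    push_cast
    rfl
  have hlim : Tendsto (fun n : ℕ => ∫ x in (0:ℝ)..1, g n x) atTop
      (nhds (∫ x in (0:ℝ)..1, Real.sqrt x * (8 * nud c W h x - nud c W h x ^ 2))) := by
    refine intervalIntegral.tendsto_integral_filter_of_dominated_convergence (fun _ => (8:ℝ)) ?_ ?_
      intervalIntegrable_const ?_
    · refine Eventually.of_forall fun n => ?_
      refine Measurable.aestronglyMeasurable ?_
      exact (measurable_from_nat (f := fun i => w (n + 1) i * (8 * nu c W (n + 1) h i -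
        nu c W (n + 1) h i ^ 2))).comp (Nat.measurable_floor.comp (measurable_id.mul_const _))
    · refine Eventually.of_forall fun n => Filter.Eventually.of_forall fun x hx => ?_
      rw [Set.uIoc_of_le zero_le_one] at hx
      set i := ⌊x * ((n + 1 : ℕ) : ℝ)⌋₊ with hi
      have hin : i ≤ n + 1 := by
        have h2 : x * ((n + 1 : ℕ) : ℝ) ≤ ((n + 1 : ℕ) : ℝ) := by
          have := mul_le_mul_of_nonneg_right hx.2 (Nat.cast_nonneg (α := ℝ) (n + 1))
          linarith
        rw [hi]
        exact (Nat.floor_le_floor h2).trans_eq (Nat.floor_natCast _)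
      have h1 := nu_le_one H n.succ_pos h i
      have h2 := nu_nonneg H n.succ_pos h i
      have h3 := w_nonneg (n + 1) i
      have h4 : w (n + 1) i ≤ 1 := by
        apply div_le_one_of_le₀ _ (Real.sqrt_nonneg _)
        apply Real.sqrt_le_sqrt
        exact_mod_cast hin
      have h5 : 0 ≤ 8 * nu c W (n + 1) h i - nu c W (n + 1) h i ^ 2 := by nlinarith
      have h6 : 8 * nu c W (n + 1) h i - nu c W (n + 1) h i ^ 2 ≤ 8 := by nlinarith
      show ‖w (n + 1) i * (8 * nu c W (n + 1) h i - nu c W (n + 1) h i ^ 2)‖ ≤ 8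
      rw [Real.norm_eq_abs, abs_of_nonneg (mul_nonneg h3 h5)]
      nlinarith [mul_le_mul h4 h6 h5 zero_le_one]
    · filter_upwards [hdiff] with x hx hx01
      rw [Set.uIoc_of_le zero_le_one] at hx01
      have hs := straddle hx01.1.le hx.hasDerivAt
      have hw : Tendsto (fun n : ℕ => w (n + 1) ⌊x * ((n + 1 : ℕ) : ℝ)⌋₊) atTop
          (nhds (Real.sqrt x)) := by
        have e1 : ∀ n : ℕ, w (n + 1) ⌊x * ((n + 1 : ℕ) : ℝ)⌋₊ =
            Real.sqrt ((⌊x * ((n + 1 : ℕ) : ℝ)⌋₊ : ℝ) / ((n + 1 : ℕ) : ℝ)) := by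
          intro n
          unfold Crest.Agent.R4.MergePot970.w
          rw [Real.sqrt_div (Nat.cast_nonneg _)]
        simp only [e1]
        refine (Real.continuous_sqrt.tendsto x).comp ?_
        have h2 : Tendsto (fun y : ℝ => (⌊x * y⌋₊ : ℝ) / y) atTop (nhds x) :=
          tendsto_nat_floor_mul_div_atTop hx01.1.le
        exact h2.comp (tendsto_natCast_atTop_atTop.comp (tendsto_add_atTop_nat 1))
      have hnu : Tendsto (fun n : ℕ => nu c W (n + 1) h ⌊x * ((n + 1 : ℕ) : ℝ)⌋₊) atTop
          (nhds (nud c W h x)) := hs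
      exact hw.mul ((hnu.const_mul 8).sub (hnu.pow 2))
  have h3 := hlim.const_mul 2
  refine h3.congr fun n => ?_
  rw [hgi n]
  ring

/-- `Pk` as an integral -/
theorem Pk_eq (H : TC c W) (h : J → ℝ) :
    Pk c W h = 2 * ∫ x in (0:ℝ)..1, Real.sqrt x * (8 * nud c W h x - nud c W h x ^ 2) :=
  (tendsto_B H h).liminf_eq

lemma tendsto_Pk (H : TC c W) (h : J → ℝ) :
    Tendsto (fun n : ℕ => 2 * B c W (n + 1) h / ((n : ℝ) + 1)) atTop (nhds (Pk c W h)) := by
  rw [Pk_eq H]
  exact tendsto_B H h

/-- the price in `PN` -/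
lemma PN_price (H : TC c W) {f g : J → ℝ}
    (hf : ∀ j, 0 ≤ f j) (hg : ∀ j, 0 ≤ g j) (h1 : ∀ j, f j + g j ≤ 1) {rho eta : ℝ}
    (hr : 0 ≤ rho) (he : 0 ≤ eta)
    (hp : ∀ lam : ℝ, 5 * eta ≤ lam → T2 c W lam (fun j => f j + g j) ≤
      T2 c W lam f + T2 c W lam g + rho) :
    PN c W (fun j => f j + g j) ≤ PN c W f + PN c W g +
      (14 * rho + 14 * Real.sqrt (5 * eta) * M c f) := by
  have hP : Pk c W (fun j => f j + g j) ≤ Pk c W f + Pk c W g +
      (16 * rho + 16 * Real.sqrt (5 * eta) * M c f) := by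
    refine le_of_tendsto_of_tendsto' (tendsto_Pk H fun j => f j + g j)
      (((tendsto_Pk H f).add (tendsto_Pk H g)).add_const
        (16 * rho + 16 * Real.sqrt (5 * eta) * M c f)) fun n => ?_
    have h2 := B_price H n.succ_pos hf hg h1 hr he hp
    have hn : (0 : ℝ) < (n : ℝ) + 1 := by positivity
    rw [← add_div, div_add' _ _ _ hn.ne']
    refine div_le_div_of_nonneg_right ?_ hn.le
    push_cast at h2
    linarith
  unfold PN
  linarith

end lim

/-! ## the merge price -/

section merge
variable {J : Type*} [Fintype J] [DistribLattice J] [DecidableEq J] [DecidableLE J] {c : J → ℝ}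

/-- disjoint contents -/
lemma PN_merge_disj (H : TC c (WA J)) (hc : LS c) {f g : J → ℝ}
    (hf : ∀ j, 0 ≤ f j) (hg : ∀ j, 0 ≤ g j) (h1 : ∀ j, f j + g j ≤ 1)
    (hfg : ∀ j, c j ≠ 0 → f j ≠ 0 → g j = 0) {del eta : ℝ} (hd : 0 ≤ del) (he : 0 ≤ eta)
    (B : Finset J) (hB : ∀ j, c j ≠ 0 → eta < g j → j ∈ B)
    (hA : ∀ V, c V ≠ 0 → f V ≠ 0 → PP c (lo {V} ∩ lo B) ≤ del * PP c (lo {V})) :
    PN c (WA J) (fun j => f j + g j) ≤ PN c (WA J) f + PN c (WA J) g +
      (28 * del + 14 * Real.sqrt (5 * eta)) * M c f := by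
  have hMf : 0 ≤ M c f := M_nonneg H.c0 hf
  have h2 := PN_price H hf hg h1 (rho := 2 * del * M c f) (eta := eta) (by positivity) he
    fun lam hl => T2_merge H hc he hl hf hg hfg hd B hB hA
  refine h2.trans (le_of_eq ?_)
  ring

/-- **the price of a merge** : `bad` = the words of `f` which are exposed to the tall words of `g` -/
theorem PN_merge (H : TC c (WA J)) (hc : LS c) {f g : J → ℝ}
    (hf : ∀ j, 0 ≤ f j) (hg : ∀ j, 0 ≤ g j) (h1 : ∀ j, f j + g j ≤ 1) {del eta : ℝ}
    (hd : 0 ≤ del) (hd1 : del < 1) (he : 0 ≤ eta) (bad B : Finset J)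
    (hB : ∀ j, c j ≠ 0 → eta < g j → j ∈ B)
    (hA : ∀ V, c V ≠ 0 → f V ≠ 0 → V ∉ bad → PP c (lo {V} ∩ lo B) ≤ del * PP c (lo {V})) :
    PN c (WA J) (fun j => f j + g j) ≤ PN c (WA J) f + PN c (WA J) g +
      32 * M c (fun j => f j * ic bad j * Real.sqrt (f j + g j)) +
      (28 * del + 77 * Real.sqrt eta) * M c f := by
  have hMf : 0 ≤ M c f := M_nonneg H.c0 hf
  -- the kept part
  set K : J → Prop := fun j => j ∉ bad ∧ g j < f j with hK
  have hKd : ∀ j, Decidable (K j) := fun j => Classical.dec _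
  set f1 : J → ℝ := fun j => if K j then f j else 0 with hf1
  set xf : J → ℝ := fun j => if K j then 0 else f j with hxf
  set g1 : J → ℝ := fun j => if K j then 0 else g j with hg1
  set xg : J → ℝ := fun j => if K j then g j else 0 with hxg
  have f10 : ∀ j, 0 ≤ f1 j := fun j => by simp only [hf1]; split_ifs <;> simp [hf j]
  have xf0 : ∀ j, 0 ≤ xf j := fun j => by simp only [hxf]; split_ifs <;> simp [hf j]
  have g10 : ∀ j, 0 ≤ g1 j := fun j => by simp only [hg1]; split_ifs <;> simp [hg j]
  have xg0 : ∀ j, 0 ≤ xg j := fun j => by simp only [hxg]; split_ifs <;> simp [hg j]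
  have f1f : ∀ j, f1 j ≤ f j := fun j => by simp only [hf1]; split_ifs <;> simp [hf j]
  have g1g : ∀ j, g1 j ≤ g j := fun j => by simp only [hg1]; split_ifs <;> simp [hg j]
  have hsum : ∀ j, f1 j + g1 j + (xf j + xg j) = f j + g j := fun j => by
    simp only [hf1, hxf, hg1, hxg]; split_ifs <;> ring
  have hfg1 : ∀ j, f1 j + g1 j ≤ 1 := fun j => by
    have := f1f j; have := g1g j; have := h1 j; linarith
  have hf1' : ∀ j, f j ≤ 1 := fun j => by have := h1 j; have := hg j; linarith
  have hg1' : ∀ j, g j ≤ 1 := fun j => by have := h1 j; have := hf j; linarith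
  -- step 1 : the removed part at its own height
  have s1 := PN_own H (h := fun j => f1 j + g1 j) (x := fun j => xf j + xg j)
    (fun j => add_nonneg (f10 j) (g10 j)) (fun j => add_nonneg (xf0 j) (xg0 j))
  have e1 : (fun j => f1 j + g1 j + (xf j + xg j)) = fun j => f j + g j := funext hsum
  rw [e1] at s1
  -- step 2 : the disjoint merge
  have s2 := PN_merge_disj H hc f10 g10 hfg1 (fun j _ h3 => by
    simp only [hf1, ne_eq, ite_eq_right_iff, Classical.not_imp] at h3
    simp only [hg1, if_pos h3.1]) hd he B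
    (fun j h3 h4 => hB j h3 (h4.trans_le (g1g j))) (fun V h3 h4 => by
      simp only [hf1, ne_eq, ite_eq_right_iff, Classical.not_imp] at h4
      exact hA V h3 h4.2 h4.1.1)
  have m1 := PN_mono H (x := f1) (h := f) f10 f1f hf1'
  have m2 := PN_mono H (x := g1) (h := g) g10 g1g hg1'
  have m3 : M c f1 ≤ M c f := M_mono H.c0 f1f
  -- the removed part
  have hrem : M c (fun j => (xf j + xg j) * Real.sqrt (f1 j + g1 j + (xf j + xg j))) ≤
      M c (fun j => f j * ic bad j * Real.sqrt (f j + g j)) +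
        Real.sqrt 2 * Real.sqrt eta * M c f := by
    rw [← M_smul, ← M_add]
    unfold M
    refine Finset.sum_le_sum fun j _ => ?_
    by_cases hcj : c j = 0
    · rw [hcj, zero_mul, zero_mul]
    refine mul_le_mul_of_nonneg_left ?_ (H.c0 j)
    show (xf j + xg j) * Real.sqrt (f1 j + g1 j + (xf j + xg j)) ≤
      f j * ic bad j * Real.sqrt (f j + g j) + Real.sqrt 2 * Real.sqrt eta * f j
    rw [hsum j]
    have hs0 := Real.sqrt_nonneg (f j + g j)
    have hse := Real.sqrt_nonneg eta
    have hs2 := Real.sqrt_nonneg (2:ℝ)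
    have hic := (ic_bd bad j).1
    have hr1 : 0 ≤ f j * ic bad j * Real.sqrt (f j + g j) :=
      mul_nonneg (mul_nonneg (hf j) hic) hs0
    have hr2 : 0 ≤ Real.sqrt 2 * Real.sqrt eta * f j := mul_nonneg (mul_nonneg hs2 hse) (hf j)
    by_cases hfj : f j = 0
    · -- nothing of `f`
      have hKn : ¬ K j := fun h => by
        have := h.2
        rw [hfj] at this
        linarith [hg j]
      have a1 : xf j = 0 := by simp only [hxf, if_neg hKn, hfj]
      have a2 : xg j = 0 := by simp only [hxg, if_neg hKn]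
      rw [a1, a2, add_zero, zero_mul]
      linarith
    by_cases hb : j ∈ bad
    · have hKn : ¬ K j := fun h => h.1 hb
      have a1 : xf j = f j := by simp only [hxf, if_neg hKn]
      have a2 : xg j = 0 := by simp only [hxg, if_neg hKn]
      have a3 : ic bad j = 1 := by simp [ic, hb]
      rw [a1, a2, a3, add_zero, mul_one]
      linarith
    · -- a good word : `g ≤ η`
      have hge : g j ≤ eta := by
        by_contra h
        push Not at h
        have h3 := hA j hcj hfj hb
        have h4 : j ∈ lo B := sub_lo (hB j hcj h)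
        have h5 : lo {j} ∩ lo B = lo {j} := by
          refine Finset.inter_eq_left.2 fun S hS => ?_
          obtain ⟨V, hV, hle⟩ := mem_lo.1 hS
          rw [mem_singleton] at hV
          exact lo_low B (hV ▸ hle) h4
        rw [h5] at h3
        have h6 : 0 < PP c (lo {j}) := by
          have h7 : c j * ic (lo {j}) j ≤ PP c (lo {j}) :=
            Finset.single_le_sum (f := fun i => c i * ic (lo {j}) i)
              (fun i _ => mul_nonneg (H.c0 i) (ic_bd _ i).1) (mem_univ j)
          have h8 : ic (lo {j}) j = 1 := by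
            have : j ∈ lo ({j} : Finset J) := sub_lo (mem_singleton_self j)
            simp [ic, this]
          rw [h8, mul_one] at h7
          exact lt_of_lt_of_le (lt_of_le_of_ne (H.c0 j) (Ne.symm hcj)) h7
        nlinarith
      by_cases hKj : K j
      · -- `g < f`
        have a1 : xf j = 0 := by simp only [hxf, if_pos hKj]
        have a2 : xg j = g j := by simp only [hxg, if_pos hKj]
        rw [a1, a2, zero_add]
        have b1 : Real.sqrt (f j + g j) ≤ Real.sqrt 2 * Real.sqrt (f j) := by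
          rw [← Real.sqrt_mul (by norm_num : (0:ℝ) ≤ 2)]
          exact Real.sqrt_le_sqrt (by linarith [hKj.2])
        have b2 : g j ≤ Real.sqrt eta * Real.sqrt (f j) := by
          have c1 : Real.sqrt (g j) ≤ Real.sqrt eta := Real.sqrt_le_sqrt hge
          have c2 : Real.sqrt (g j) ≤ Real.sqrt (f j) := Real.sqrt_le_sqrt hKj.2.le
          have c3 := Real.mul_self_sqrt (hg j)
          have c4 := mul_le_mul c1 c2 (Real.sqrt_nonneg _) hse
          linarith
        have b3 := Real.mul_self_sqrt (hf j)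
        have b4 := mul_le_mul b2 b1 hs0 (mul_nonneg hse (Real.sqrt_nonneg _))
        have b5 : Real.sqrt eta * Real.sqrt (f j) * (Real.sqrt 2 * Real.sqrt (f j)) =
            Real.sqrt 2 * Real.sqrt eta * f j := by
          calc _ = Real.sqrt 2 * Real.sqrt eta * (Real.sqrt (f j) * Real.sqrt (f j)) := by ring
            _ = _ := by rw [b3]
        linarith
      · -- `f ≤ g ≤ η`
        have hfg' : f j ≤ g j := by
          by_contra h
          push Not at h
          exact hKj ⟨hb, h⟩
        have a1 : xf j = f j := by simp only [hxf, if_neg hKj]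
        have a2 : xg j = 0 := by simp only [hxg, if_neg hKj]
        rw [a1, a2, add_zero]
        have b1 : Real.sqrt (f j + g j) ≤ Real.sqrt 2 * Real.sqrt eta := by
          rw [← Real.sqrt_mul (by norm_num : (0:ℝ) ≤ 2)]
          exact Real.sqrt_le_sqrt (by linarith)
        have := mul_le_mul_of_nonneg_left b1 (hf j)
        linarith
  -- the constants
  have k1 : Real.sqrt 2 ≤ 71 / 50 := by
    rw [Real.sqrt_le_left (by norm_num)]
    norm_num
  have k2 : Real.sqrt (5 * eta) ≤ 9 / 4 * Real.sqrt eta := by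
    rw [Real.sqrt_mul (by norm_num : (0:ℝ) ≤ 5)]
    refine mul_le_mul_of_nonneg_right ?_ (Real.sqrt_nonneg _)
    rw [Real.sqrt_le_left (by norm_num)]
    norm_num
  have hse := Real.sqrt_nonneg eta
  have k3 : (28 * del + 14 * Real.sqrt (5 * eta)) * M c f1 ≤
      (28 * del + 63 / 2 * Real.sqrt eta) * M c f :=
    mul_le_mul (by linarith) m3 (M_nonneg H.c0 f10) (by positivity)
  have k4 : Real.sqrt 2 * Real.sqrt eta * M c f ≤ 71 / 50 * Real.sqrt eta * M c f :=
    mul_le_mul_of_nonneg_right (mul_le_mul_of_nonneg_right k1 hse) hMf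
  have k5 : 0 ≤ Real.sqrt eta * M c f := mul_nonneg hse hMf
  linarith

/-- **several names and a background** : the merge of the names `s` into the background `g` -/
theorem PN_merge_sum (H : TC c (WA J)) (hc : LS c) {κ : Type*} [DecidableEq κ] (s : Finset κ)
    {f : κ → J → ℝ} {g : J → ℝ} (hf : ∀ z ∈ s, ∀ j, 0 ≤ f z j) (hg : ∀ j, 0 ≤ g j)
    (h1 : ∀ j, g j + ∑ z ∈ s, f z j ≤ 1) {del eta : ℝ}
    (hd : 0 ≤ del) (hd1 : del < 1) (he : 0 ≤ eta) (bad B : κ → Finset J)
    (hB : ∀ z ∈ s, ∀ j, c j ≠ 0 → eta < g j + ∑ y ∈ s.erase z, f y j → j ∈ B z)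
    (hA : ∀ z ∈ s, ∀ V, c V ≠ 0 → f z V ≠ 0 → V ∉ bad z →
      PP c (lo {V} ∩ lo (B z)) ≤ del * PP c (lo {V})) :
    PN c (WA J) (fun j => g j + ∑ z ∈ s, f z j) ≤ PN c (WA J) g + ∑ z ∈ s, PN c (WA J) (f z) +
      ∑ z ∈ s, (32 * M c (fun j => f z j * ic (bad z) j * Real.sqrt (g j + ∑ y ∈ s, f y j)) +
        (28 * del + 77 * Real.sqrt eta) * M c (f z)) := by
  induction s using Finset.induction_on with
  | empty => simp
  | insert a s ha ih =>
    have hs0 : ∀ j, 0 ≤ ∑ z ∈ s, f z j := fun j =>
      Finset.sum_nonneg fun z hz => hf z (mem_insert_of_mem hz) j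
    have hfa : ∀ j, 0 ≤ f a j := hf a (mem_insert_self a s)
    have hins : ∀ j, ∑ z ∈ insert a s, f z j = f a j + ∑ z ∈ s, f z j := fun j =>
      Finset.sum_insert ha
    have hle : ∀ j, ∑ z ∈ s, f z j ≤ ∑ z ∈ insert a s, f z j := fun j => by
      rw [hins j]; linarith [hfa j]
    have ih' := ih (fun z hz => hf z (mem_insert_of_mem hz))
      (fun j => (add_le_add le_rfl (hle j)).trans (h1 j))
      (fun z hz j h3 h4 => hB z (mem_insert_of_mem hz) j h3 (h4.trans_le
        (add_le_add le_rfl (Finset.sum_le_sum_of_subset_of_nonneg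
          (Finset.erase_subset_erase z (subset_insert a s)) fun y hy _ =>
            hf y (mem_of_mem_erase hy) j))))
      (fun z hz => hA z (mem_insert_of_mem hz))
    have hm := PN_merge H hc (f := f a) (g := fun j => g j + ∑ z ∈ s, f z j) hfa
      (fun j => add_nonneg (hg j) (hs0 j)) (fun j => by
        have := h1 j
        rw [hins j] at this
        linarith) hd hd1 he (bad a) (B a)
      (fun j h3 h4 => hB a (mem_insert_self a s) j h3 (by rwa [Finset.erase_insert ha]))
      (hA a (mem_insert_self a s))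
    have e1 : (fun j => f a j + (g j + ∑ z ∈ s, f z j)) =
        fun j => g j + ∑ z ∈ insert a s, f z j := by
      funext j
      rw [hins j]
      ring
    rw [e1] at hm
    have e2 : (fun j => f a j * ic (bad a) j * Real.sqrt (f a j + (g j + ∑ z ∈ s, f z j))) =
        fun j => f a j * ic (bad a) j * Real.sqrt (g j + ∑ z ∈ insert a s, f z j) := by
      funext j
      rw [hins j]
      congr 2
      ring
    rw [e2] at hm
    rw [Finset.sum_insert ha, Finset.sum_insert ha]
    have hlast : ∑ z ∈ s, (32 * M c (fun j => f z j * ic (bad z) j *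
          Real.sqrt (g j + ∑ y ∈ s, f y j)) + (28 * del + 77 * Real.sqrt eta) * M c (f z)) ≤
        ∑ z ∈ s, (32 * M c (fun j => f z j * ic (bad z) j *
          Real.sqrt (g j + ∑ y ∈ insert a s, f y j)) +
            (28 * del + 77 * Real.sqrt eta) * M c (f z)) := by
      refine Finset.sum_le_sum fun z hz => add_le_add (mul_le_mul_of_nonneg_left ?_
        (by norm_num)) le_rfl
      refine M_mono H.c0 fun j => mul_le_mul_of_nonneg_left ?_
        (mul_nonneg (hf z (mem_insert_of_mem hz) j) (ic_bd _ j).1)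
      exact Real.sqrt_le_sqrt (add_le_add le_rfl (hle j))
    linarith

end merge

end Crest.Agent.R4P.WIm53
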