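import Crest.Agent.R4P.WIm_53

/-!
R4 (S0004) with powers, helper53: **the merge price in the own-height potential `PN` from a bilinear
one-level price**, for any test class.

If `T_lam (f + g) ≤ T_lam f + T_lam g + (C / lam) Q f g` for all `lam > 0`, `f, g ≥ 0` (`Q` monotone) then

* `T2_Q` : `T2_lam (f + g) ≤ T2_lam f + T2_lam g + ((5 C / 4) Q f g + 5 M[f g]) / lam`;
* `PN_Q` : `PN (f + g) ≤ PN f + PN g + 28 √(((5 C / 4) Q f g + 5 M[f g]) M f)`.

`PN_priceE` : the same from any one-level price `E / lam` of `T2`.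
-/

set_option autoImplicit false
set_option linter.unusedVariables false
set_option linter.unusedSectionVars false

namespace Crest.Agent.R4P.WQn53

open Finset Filter
open Crest.Agent.R4.MergePot970 (abel w w_nonneg w_zero w_mono w_le_one w_step cauchy)
open Crest.Agent.R4P.GMer27 (M M_add M_smul M_sub M_sum M_mono M_nonneg M_const cont_M TC key_u cT av T
  T_max le_T T_nonneg T_inj T_mono M_W Col)
open Crest.Agent.R4P.GMk35
open Crest.Agent.R4P.WIm53 (tendsto_Pk)

/-! ## the sum of the prices over the levels -/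

/-- the primitive : `m √x` up to `E / m`, then `2 √(E m) - E / √x` -/
noncomputable def psi (E m x : ℝ) : ℝ :=
  if m * x ≤ E then m * Real.sqrt x else 2 * Real.sqrt (E * m) - E / Real.sqrt x

lemma psi_step {E m a b : ℝ} (hE : 0 ≤ E) (hm : 0 ≤ m) (ha : 0 ≤ a) (hab : a ≤ b) :
    (Real.sqrt b - Real.sqrt a) * min m (E / b) ≤ psi E m b - psi E m a := by
  have hb : 0 ≤ b := ha.trans hab
  have hs : Real.sqrt a ≤ Real.sqrt b := Real.sqrt_le_sqrt hab
  have hs0 : 0 ≤ Real.sqrt b - Real.sqrt a := sub_nonneg.2 hs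
  have hsa := Real.sqrt_nonneg a
  have hsb := Real.sqrt_nonneg b
  by_cases h1 : m * b ≤ E
  · have h2 : m * a ≤ E := (mul_le_mul_of_nonneg_left hab hm).trans h1
    unfold psi
    rw [if_pos h1, if_pos h2]
    have := mul_le_mul_of_nonneg_left (min_le_left m (E / b)) hs0
    linarith
  · push Not at h1
    have hb0 : 0 < b := by
      rcases eq_or_lt_of_le hb with h | h
      · rw [← h, mul_zero] at h1
        linarith
      · exact h
    have hm0 : 0 < m := by
      rcases eq_or_lt_of_le hm with h | h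
      · rw [← h, zero_mul] at h1
        linarith
      · exact h
    have hsb0 : 0 < Real.sqrt b := Real.sqrt_pos.2 hb0
    have hbb : Real.sqrt b * Real.sqrt b = b := Real.mul_self_sqrt hb
    -- from `x` to `b` (both above)
    have key : ∀ x, 0 < x → x ≤ b → (Real.sqrt b - Real.sqrt x) * (E / b) ≤
        E / Real.sqrt x - E / Real.sqrt b := by
      intro x hx hxb
      have hx0 : 0 < Real.sqrt x := Real.sqrt_pos.2 hx
      have hxs : Real.sqrt x ≤ Real.sqrt b := Real.sqrt_le_sqrt hxb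
      have e1 : E / Real.sqrt x - E / Real.sqrt b =
          (Real.sqrt b - Real.sqrt x) * (E / (Real.sqrt x * Real.sqrt b)) := by
        field_simp
      rw [e1]
      refine mul_le_mul_of_nonneg_left ?_ (sub_nonneg.2 hxs)
      refine div_le_div_of_nonneg_left hE (mul_pos hx0 hsb0) ?_
      calc Real.sqrt x * Real.sqrt b ≤ Real.sqrt b * Real.sqrt b :=
            mul_le_mul_of_nonneg_right hxs hsb
        _ = b := hbb
    have hmin : (Real.sqrt b - Real.sqrt a) * min m (E / b) ≤
        (Real.sqrt b - Real.sqrt a) * (E / b) :=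
      mul_le_mul_of_nonneg_left (min_le_right _ _) hs0
    by_cases h2 : m * a ≤ E
    · -- through `x0 = E / m`
      unfold psi
      rw [if_neg (not_le.2 h1), if_pos h2]
      rcases eq_or_lt_of_le hE with h0 | h0
      · -- `E = 0`
        rw [← h0] at h2 ⊢
        have ha0 : a = 0 := by
          by_contra hne
          have : 0 < m * a := mul_pos hm0 (lt_of_le_of_ne ha (Ne.symm hne))
          linarith
        rw [ha0]
        simp [min_eq_right hm]
      · have hx0 : 0 < E / m := div_pos h0 hm0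
        have hxb : E / m ≤ b := by
          rw [div_le_iff₀ hm0]
          linarith
        have hax : a ≤ E / m := by
          rw [le_div_iff₀ hm0]
          linarith
        have k1 := key (E / m) hx0 hxb
        have e2 : E / Real.sqrt (E / m) = Real.sqrt (E * m) := by
          have h3 : Real.sqrt (E * m) * Real.sqrt (E / m) = E := by
            rw [← Real.sqrt_mul (by positivity)]
            have : E * m * (E / m) = E * E := by field_simp
            rw [this, Real.sqrt_mul_self hE]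
          rw [div_eq_iff (Real.sqrt_pos.2 hx0).ne']
          exact h3.symm
        have e3 : m * Real.sqrt (E / m) = Real.sqrt (E * m) := by
          have h3 : Real.sqrt (E * m) = Real.sqrt (m * m * (E / m)) := by
            congr 1
            field_simp
          rw [h3, Real.sqrt_mul (by positivity), Real.sqrt_mul_self hm]
        rw [e2] at k1
        have k2 : (Real.sqrt (E / m) - Real.sqrt a) * (E / b) ≤
            (Real.sqrt (E / m) - Real.sqrt a) * m := by
          refine mul_le_mul_of_nonneg_left ?_ (sub_nonneg.2 (Real.sqrt_le_sqrt hax))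
          rw [div_le_iff₀ hb0]
          linarith
        have e4 : (Real.sqrt (E / m) - Real.sqrt a) * m = Real.sqrt (E * m) - m * Real.sqrt a := by
          rw [← e3]; ring
        rw [e4] at k2
        have e5 : (Real.sqrt b - Real.sqrt a) * (E / b) =
            (Real.sqrt b - Real.sqrt (E / m)) * (E / b) +
            (Real.sqrt (E / m) - Real.sqrt a) * (E / b) := by ring
        linarith
    · push Not at h2
      have ha0 : 0 < a := by
        rcases eq_or_lt_of_le ha with h | h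
        · rw [← h, mul_zero] at h2
          linarith
        · exact h
      unfold psi
      rw [if_neg (not_le.2 h1), if_neg (not_le.2 h2)]
      have k1 := key a ha0 hab
      linarith

lemma psi_one {E m : ℝ} (hE : 0 ≤ E) (hm : 0 ≤ m) : psi E m 1 ≤ 2 * Real.sqrt (E * m) := by
  unfold psi
  split_ifs with h
  · rw [Real.sqrt_one, mul_one]
    rw [mul_one] at h
    have h1 : m ≤ Real.sqrt (E * m) := by
      apply Real.le_sqrt_of_sq_le
      nlinarith
    have := Real.sqrt_nonneg (E * m)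
    linarith
  · rw [Real.sqrt_one, div_one]
    linarith

lemma psi_zero {E m : ℝ} (hE : 0 ≤ E) : psi E m 0 = 0 := by
  unfold psi
  rw [mul_zero, if_pos hE, Real.sqrt_zero, mul_zero]

/-- the sum over the levels -/
lemma sum_levels {n : ℕ} (hn : 0 < n) {E m : ℝ} (hE : 0 ≤ E) (hm : 0 ≤ m) {d D : ℕ → ℝ}
    (d0 : d 0 = 0) (dm : ∀ i, d i ≤ d (i + 1)) (dw : ∀ i, d i ≤ 8 * w n i)
    (hD : ∀ i : ℕ, D (i + 1) ≤ min m (E / (((i + 1 : ℕ) : ℝ) / n))) :
    ∑ i ∈ range n, (d (i + 1) - d i) * D (i + 1) ≤ 16 * Real.sqrt (E * m) := by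
  have hn' : (0 : ℝ) < n := by exact_mod_cast hn
  set b : ℕ → ℝ := fun i => min m (E / ((i : ℝ) / n)) with hb
  have hb0 : ∀ i, 0 ≤ b i := fun i => le_min hm (by positivity)
  have hbd : ∀ i, 0 < i → b (i + 1) ≤ b i := by
    intro i hi
    have hi' : (0 : ℝ) < (i : ℝ) / n := by positivity
    refine min_le_min le_rfl (div_le_div_of_nonneg_left hE hi' ?_)
    exact div_le_div_of_nonneg_right (by push_cast; linarith) hn'.le
  have h1 : ∑ i ∈ range n, (d (i + 1) - d i) * D (i + 1) ≤
      ∑ i ∈ range n, (d (i + 1) - d i) * b (i + 1) :=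
    Finset.sum_le_sum fun i _ => mul_le_mul_of_nonneg_left (hD i) (sub_nonneg.2 (dm i))
  have a1 := abel d b n
  have a2 := abel (fun i => 8 * w n i) b n
  have hw0 : w n 0 = 0 := w_zero n
  simp only [hw0, mul_zero, zero_mul, d0, zero_add] at a1 a2
  have h2 : ∑ i ∈ range n, d i * (b i - b (i + 1)) + d n * b n ≤
      ∑ i ∈ range n, 8 * w n i * (b i - b (i + 1)) + 8 * w n n * b n := by
    refine add_le_add (Finset.sum_le_sum fun i _ => ?_) (mul_le_mul_of_nonneg_right (dw n) (hb0 n))
    rcases Nat.eq_zero_or_pos i with h | h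
    · rw [h, d0, hw0, mul_zero, zero_mul]
    · exact mul_le_mul_of_nonneg_right (dw i) (sub_nonneg.2 (hbd i h))
  have h3 : ∑ i ∈ range n, (8 * w n (i + 1) - 8 * w n i) * b (i + 1) ≤
      8 * ∑ i ∈ range n, (psi E m (((i + 1 : ℕ) : ℝ) / n) - psi E m ((i : ℝ) / n)) := by
    rw [Finset.mul_sum]
    refine Finset.sum_le_sum fun i _ => ?_
    have e1 : ∀ k : ℕ, w n k = Real.sqrt ((k : ℝ) / n) := by
      intro k
      unfold Crest.Agent.R4.MergePot970.w
      rw [Real.sqrt_div (Nat.cast_nonneg _)]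
    have h4 := psi_step hE hm (a := (i : ℝ) / n) (b := ((i + 1 : ℕ) : ℝ) / n) (by positivity)
      (div_le_div_of_nonneg_right (by push_cast; linarith) hn'.le)
    rw [e1, e1]
    show (8 * Real.sqrt (((i + 1 : ℕ) : ℝ) / n) - 8 * Real.sqrt ((i : ℝ) / n)) *
      min m (E / (((i + 1 : ℕ) : ℝ) / n)) ≤ _
    linarith
  have h5 : ∑ i ∈ range n, (psi E m (((i + 1 : ℕ) : ℝ) / n) - psi E m ((i : ℝ) / n)) ≤
      2 * Real.sqrt (E * m) := by
    rw [Finset.sum_range_sub (fun i : ℕ => psi E m ((i : ℝ) / n)), div_self hn'.ne']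
    simp only [Nat.cast_zero, zero_div]
    rw [psi_zero hE, sub_zero]
    exact psi_one hE hm
  linarith

/-! ## the price in the potential -/

section pot
variable {J : Type*} [Fintype J] {c : J → ℝ} {W : Set (J → ℝ)}

/-- one-level prices `E / lam` -/
lemma B_priceE (H : TC c W) {n : ℕ} (hn : 0 < n) {f g : J → ℝ}
    (hf : ∀ j, 0 ≤ f j) (hg : ∀ j, 0 ≤ g j) (h1 : ∀ j, f j + g j ≤ 1) {E : ℝ} (hE : 0 ≤ E)
    (hp : ∀ lam : ℝ, 0 < lam → T2 c W lam (fun j => f j + g j) ≤
      T2 c W lam f + T2 c W lam g + E / lam) :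
    B c W n (fun j => f j + g j) ≤ B c W n f + B c W n g +
      n * (16 * Real.sqrt (E * M c f)) := by
  have hn' : (0 : ℝ) < n := by exact_mod_cast hn
  have hMf : 0 ≤ M c f := M_nonneg H.c0 hf
  set z : J → ℝ := fun j => f j + g j with hz
  let D : ℕ → ℝ := fun i => t c W n z i - t c W n f i - t c W n g i
  let s : ℕ → ℝ := fun i => nu c W n z i + nu c W n f i + nu c W n g i
  let d : ℕ → ℝ := fun i => w n i * (8 - s i)
  have hf1 : ∀ j, f j ≤ 1 := fun j => by have := h1 j; have := hg j; linarith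
  have hg1 : ∀ j, g j ≤ 1 := fun j => by have := h1 j; have := hf j; linarith
  have hDn : D n = 0 := by
    show t c W n z n - t c W n f n - t c W n g n = 0
    rw [t_top H hn h1, t_top H hn hf1, t_top H hn hg1]
    ring
  have hdiff : B c W n z - B c W n f - B c W n g =
      n * ∑ i ∈ range n, d i * (D i - D (i + 1)) -
        2 * ∑ i ∈ range n, w n i * (nu c W n f i * nu c W n g i) := by
    simp only [B]
    rw [← Finset.sum_sub_distrib, ← Finset.sum_sub_distrib, Finset.mul_sum, Finset.mul_sum,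
      ← Finset.sum_sub_distrib]
    apply Finset.sum_congr rfl
    intro i _
    show _ = n * (w n i * (8 - (nu c W n z i + nu c W n f i + nu c W n g i)) *
      (D i - D (i + 1))) - _
    have e2 : n * (D i - D (i + 1)) = nu c W n z i - nu c W n f i - nu c W n g i := by
      simp only [nu, D]
      ring
    calc _ = w n i * ((8 - (nu c W n z i + nu c W n f i + nu c W n g i)) *
          (nu c W n z i - nu c W n f i - nu c W n g i)) -
          2 * (w n i * (nu c W n f i * nu c W n g i)) := by ring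
      _ = _ := by rw [← e2]; ring
  have hs0 : ∀ i, 0 ≤ s i := fun i => by
    have a1 := nu_nonneg H hn z i
    have a2 := nu_nonneg H hn f i
    have a3 := nu_nonneg H hn g i
    show 0 ≤ nu c W n z i + nu c W n f i + nu c W n g i
    linarith
  have hs3 : ∀ i, s i ≤ 3 := fun i => by
    have a1 := nu_le_one H hn z i
    have a2 := nu_le_one H hn f i
    have a3 := nu_le_one H hn g i
    show nu c W n z i + nu c W n f i + nu c W n g i ≤ 3
    linarith
  have hsm : ∀ i, s (i + 1) ≤ s i := fun i => by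
    have a1 := nu_anti H hn z i
    have a2 := nu_anti H hn f i
    have a3 := nu_anti H hn g i
    show nu c W n z (i + 1) + nu c W n f (i + 1) + nu c W n g (i + 1) ≤
      nu c W n z i + nu c W n f i + nu c W n g i
    linarith
  have hdm : ∀ i, d i ≤ d (i + 1) := by
    intro i
    show w n i * (8 - s i) ≤ w n (i + 1) * (8 - s (i + 1))
    have a1 := w_mono n i
    have a2 := w_nonneg n i
    have a3 := hsm i
    have a4 := hs3 i
    have a6 := w_nonneg n (i + 1)
    exact mul_le_mul a1 (by linarith) (by linarith) a6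
  have hd8 : ∀ i, d i ≤ 8 * w n i := by
    intro i
    show w n i * (8 - s i) ≤ 8 * w n i
    have := mul_nonneg (w_nonneg n i) (hs0 i)
    linarith
  have hc0 : d 0 = 0 := by
    show w n 0 * _ = 0
    rw [w_zero, zero_mul]
  have hab := abel d D n
  rw [hDn, hc0] at hab
  have hD1 : ∀ i, D i ≤ M c f := by
    intro i
    have h2 := T2_inj H (i / n : ℝ) (h := g) hf
    have e : (fun j => g j + f j) = z := by
      funext j
      simp only [hz]
      ring
    rw [e] at h2
    have h3 := T2_nonneg H (i / n : ℝ) f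
    show T2 c W (i / n) z - T2 c W (i / n) f - T2 c W (i / n) g ≤ M c f
    linarith
  have hD2 : ∀ i : ℕ, D (i + 1) ≤ min (M c f) (E / (((i + 1 : ℕ) : ℝ) / n)) := by
    intro i
    refine le_min (hD1 _) ?_
    have := hp (((i + 1 : ℕ) : ℝ) / n) (by positivity)
    show T2 c W (((i + 1 : ℕ) : ℝ) / n) z - T2 c W (((i + 1 : ℕ) : ℝ) / n) f -
      T2 c W (((i + 1 : ℕ) : ℝ) / n) g ≤ _
    linarith
  have hS := sum_levels hn hE hMf hc0 hdm hd8 hD2
  have h7 : 0 ≤ ∑ i ∈ range n, w n i * (nu c W n f i * nu c W n g i) :=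
    Finset.sum_nonneg fun i _ => mul_nonneg (w_nonneg n i)
      (mul_nonneg (nu_nonneg H hn f i) (nu_nonneg H hn g i))
  have h8 : ∑ i ∈ range n, d i * (D i - D (i + 1)) ≤ 16 * Real.sqrt (E * M c f) := by
    have e3 : ∑ i ∈ range n, d i * (D i - D (i + 1)) =
        ∑ i ∈ range n, (d (i + 1) - d i) * D (i + 1) := by linarith
    rw [e3]
    exact hS
  have h9 := mul_le_mul_of_nonneg_left h8 hn'.le
  linarith

/-- **the price in `PN` from one-level prices `E / lam`** -/
theorem PN_priceE (H : TC c W) {f g : J → ℝ}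
    (hf : ∀ j, 0 ≤ f j) (hg : ∀ j, 0 ≤ g j) (h1 : ∀ j, f j + g j ≤ 1) {E : ℝ} (hE : 0 ≤ E)
    (hp : ∀ lam : ℝ, 0 < lam → T2 c W lam (fun j => f j + g j) ≤
      T2 c W lam f + T2 c W lam g + E / lam) :
    PN c W (fun j => f j + g j) ≤ PN c W f + PN c W g + 28 * Real.sqrt (E * M c f) := by
  have hP : Pk c W (fun j => f j + g j) ≤ Pk c W f + Pk c W g + 32 * Real.sqrt (E * M c f) := by
    refine le_of_tendsto_of_tendsto' (tendsto_Pk H fun j => f j + g j)
      (((tendsto_Pk H f).add (tendsto_Pk H g)).add_const (32 * Real.sqrt (E * M c f))) fun n => ?_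
    have h2 := B_priceE H n.succ_pos hf hg h1 hE hp
    have hn : (0 : ℝ) < (n : ℝ) + 1 := by positivity
    rw [← add_div, div_add' _ _ _ hn.ne']
    refine div_le_div_of_nonneg_right ?_ hn.le
    push_cast at h2
    linarith
  unfold PN
  linarith

/-- the truncation of a sum -/
lemma tc_add_le {lam : ℝ} (hl : 0 < lam) {x y : J → ℝ} (hx : ∀ j, 0 ≤ x j) (hy : ∀ j, 0 ≤ y j)
    (j : J) : tc lam (fun j => x j + y j) j ≤ tc lam x j + tc lam y j + 5 / lam * (x j * y j) := by
  have hx' := hx j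
  have hy' := hy j
  set a : ℝ := lam / 5 with ha
  have ha0 : 0 < a := by positivity
  have e : 5 / lam = 1 / a := by rw [ha]; field_simp
  rw [e]
  unfold tc
  show max (x j + y j - lam / 5) 0 ≤ max (x j - lam / 5) 0 + max (y j - lam / 5) 0 +
    1 / a * (x j * y j)
  rw [← ha]
  have hxy : 0 ≤ 1 / a * (x j * y j) := by positivity
  have hk : ∀ v : ℝ, a * v ≤ x j * y j → v ≤ 1 / a * (x j * y j) := by
    intro v hv
    rw [one_div, ← div_eq_inv_mul, le_div_iff₀ ha0]
    linarith
  have m1 := le_max_left (x j - a) 0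
  have m2 := le_max_right (x j - a) 0
  have m3 := le_max_left (y j - a) 0
  have m4 := le_max_right (y j - a) 0
  refine max_le ?_ (by linarith)
  rcases le_total (x j) a with h1 | h1
  · rcases le_total (y j) a with h2 | h2
    · have := hk (x j + y j - a) (by nlinarith [mul_nonneg (sub_nonneg.2 h1) (sub_nonneg.2 h2)])
      linarith
    · have := hk (x j) (by nlinarith)
      linarith
  · have := hk (min (y j) a) (by
      rcases le_total (y j) a with h2 | h2
      · rw [min_eq_left h2]; nlinarith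
      · rw [min_eq_right h2]; nlinarith)
    rcases le_total (y j) a with h2 | h2
    · rw [min_eq_left h2] at this
      linarith
    · rw [min_eq_right h2] at this
      linarith

/-- **the truncated levels** -/
theorem T2_Q (H : TC c W) {C : ℝ} (hC : 0 ≤ C) {Q : (J → ℝ) → (J → ℝ) → ℝ}
    (hQm : ∀ f f' g g' : J → ℝ, (∀ j, 0 ≤ f j) → (∀ j, 0 ≤ g j) → (∀ j, f j ≤ f' j) →
      (∀ j, g j ≤ g' j) → Q f g ≤ Q f' g')
    (hT : ∀ (lam : ℝ) (f g : J → ℝ), 0 < lam → (∀ j, 0 ≤ f j) → (∀ j, 0 ≤ g j) →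
      T c W lam (fun j => f j + g j) ≤ T c W lam f + T c W lam g + C / lam * Q f g)
    {lam : ℝ} (hl : 0 < lam) {f g : J → ℝ} (hf : ∀ j, 0 ≤ f j) (hg : ∀ j, 0 ≤ g j) :
    T2 c W lam (fun j => f j + g j) ≤ T2 c W lam f + T2 c W lam g +
      (5 * C / 4 * Q f g + 5 * M c (fun j => f j * g j)) / lam := by
  have h1 : T2 c W lam (fun j => f j + g j) ≤
      T c W (4 / 5 * lam) (fun j => tc lam f j + tc lam g j) +
        M c (fun j => 5 / lam * (f j * g j)) := by
    refine (T_mono H _ (tc_add_le hl hf hg)).trans ?_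
    exact T_inj H _ fun j => mul_nonneg (by positivity) (mul_nonneg (hf j) (hg j))
  have h2 := hT (4 / 5 * lam) (tc lam f) (tc lam g) (by positivity) (tc_nonneg lam f)
    (tc_nonneg lam g)
  have htc : ∀ (x : J → ℝ), (∀ j, 0 ≤ x j) → ∀ j, tc lam x j ≤ x j := fun x hx j =>
    max_le (by linarith) (hx j)
  have h3 : C / (4 / 5 * lam) * Q (tc lam f) (tc lam g) ≤ C / (4 / 5 * lam) * Q f g :=
    mul_le_mul_of_nonneg_left (hQm _ _ _ _ (tc_nonneg lam f) (tc_nonneg lam g) (htc f hf)
      (htc g hg)) (by positivity)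
  rw [M_smul] at h1
  have e : (5 * C / 4 * Q f g + 5 * M c (fun j => f j * g j)) / lam =
      C / (4 / 5 * lam) * Q f g + 5 / lam * M c (fun j => f j * g j) := by
    field_simp
  rw [e]
  unfold T2 at h1 ⊢
  linarith

/-- **the merge price in `PN`** -/
theorem PN_Q (H : TC c W) {C : ℝ} (hC : 0 ≤ C) {Q : (J → ℝ) → (J → ℝ) → ℝ}
    (hQ0 : ∀ f g : J → ℝ, (∀ j, 0 ≤ f j) → (∀ j, 0 ≤ g j) → 0 ≤ Q f g)
    (hQm : ∀ f f' g g' : J → ℝ, (∀ j, 0 ≤ f j) → (∀ j, 0 ≤ g j) → (∀ j, f j ≤ f' j) →
      (∀ j, g j ≤ g' j) → Q f g ≤ Q f' g')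
    (hT : ∀ (lam : ℝ) (f g : J → ℝ), 0 < lam → (∀ j, 0 ≤ f j) → (∀ j, 0 ≤ g j) →
      T c W lam (fun j => f j + g j) ≤ T c W lam f + T c W lam g + C / lam * Q f g)
    {f g : J → ℝ} (hf : ∀ j, 0 ≤ f j) (hg : ∀ j, 0 ≤ g j) (h1 : ∀ j, f j + g j ≤ 1) :
    PN c W (fun j => f j + g j) ≤ PN c W f + PN c W g +
      28 * Real.sqrt ((5 * C / 4 * Q f g + 5 * M c (fun j => f j * g j)) * M c f) := by
  refine PN_priceE H hf hg h1 ?_ fun lam hl => T2_Q H hC hQm hT hl hf hg
  have a1 := hQ0 f g hf hg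
  have a2 : 0 ≤ M c (fun j => f j * g j) := M_nonneg H.c0 fun j => mul_nonneg (hf j) (hg j)
  positivity

/-- **the merge of many names** : `E z` = bound for the energy of the name `z` with all the others -/
theorem PN_Q_sum (H : TC c W) {C : ℝ} (hC : 0 ≤ C) {Q : (J → ℝ) → (J → ℝ) → ℝ}
    (hQ0 : ∀ f g : J → ℝ, (∀ j, 0 ≤ f j) → (∀ j, 0 ≤ g j) → 0 ≤ Q f g)
    (hQm : ∀ f f' g g' : J → ℝ, (∀ j, 0 ≤ f j) → (∀ j, 0 ≤ g j) → (∀ j, f j ≤ f' j) →
      (∀ j, g j ≤ g' j) → Q f g ≤ Q f' g')
    (hT : ∀ (lam : ℝ) (f g : J → ℝ), 0 < lam → (∀ j, 0 ≤ f j) → (∀ j, 0 ≤ g j) →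
      T c W lam (fun j => f j + g j) ≤ T c W lam f + T c W lam g + C / lam * Q f g)
    {κ : Type*} [DecidableEq κ] (s : Finset κ) {f : κ → J → ℝ} (hf : ∀ z ∈ s, ∀ j, 0 ≤ f z j)
    (h1 : ∀ j, ∑ z ∈ s, f z j ≤ 1) {E : κ → ℝ}
    (hE : ∀ z ∈ s, 5 * C / 4 * Q (f z) (fun j => ∑ y ∈ s.erase z, f y j) +
      5 * M c (fun j => f z j * ∑ y ∈ s.erase z, f y j) ≤ E z) :
    PN c W (fun j => ∑ z ∈ s, f z j) ≤ ∑ z ∈ s, PN c W (f z) +
      28 * Real.sqrt ((∑ z ∈ s, E z) * ∑ z ∈ s, M c (f z)) := by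
  have hE0 : ∀ z ∈ s, 0 ≤ E z := by
    intro z hz
    refine le_trans ?_ (hE z hz)
    have a0 : ∀ j, 0 ≤ ∑ y ∈ s.erase z, f y j := fun j =>
      Finset.sum_nonneg fun y hy => hf y (mem_of_mem_erase hy) j
    have a1 := hQ0 (f z) _ (hf z hz) a0
    have a2 : 0 ≤ M c (fun j => f z j * ∑ y ∈ s.erase z, f y j) :=
      M_nonneg H.c0 fun j => mul_nonneg (hf z hz j) (a0 j)
    positivity
  have hM0 : ∀ z ∈ s, 0 ≤ M c (f z) := fun z hz => M_nonneg H.c0 (hf z hz)
  have key : PN c W (fun j => ∑ z ∈ s, f z j) ≤ ∑ z ∈ s, PN c W (f z) +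
      ∑ z ∈ s, 28 * (Real.sqrt (E z) * Real.sqrt (M c (f z))) := by
    clear hE0 hM0
    induction s using Finset.induction_on with
    | empty => simpa using (PN_zero H).le
    | insert a s ha ih =>
      have hs0 : ∀ j, 0 ≤ ∑ z ∈ s, f z j := fun j =>
        Finset.sum_nonneg fun z hz => hf z (mem_insert_of_mem hz) j
      have hfa : ∀ j, 0 ≤ f a j := hf a (mem_insert_self a s)
      have hins : ∀ j, ∑ z ∈ insert a s, f z j = f a j + ∑ z ∈ s, f z j := fun j =>
        Finset.sum_insert ha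
      have hle : ∀ j, ∑ z ∈ s, f z j ≤ ∑ z ∈ insert a s, f z j := fun j => by
        rw [hins j]; linarith [hfa j]
      have ih' := ih (fun z hz => hf z (mem_insert_of_mem hz)) (fun j => (hle j).trans (h1 j))
        (fun z hz => by
          refine le_trans ?_ (hE z (mem_insert_of_mem hz))
          have b0 : ∀ j, 0 ≤ ∑ y ∈ s.erase z, f y j := fun j =>
            Finset.sum_nonneg fun y hy => hf y (mem_insert_of_mem (mem_of_mem_erase hy)) j
          have b1 : ∀ j, ∑ y ∈ s.erase z, f y j ≤ ∑ y ∈ (insert a s).erase z, f y j := fun j =>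
            Finset.sum_le_sum_of_subset_of_nonneg (Finset.erase_subset_erase z (subset_insert a s))
              fun y hy _ => hf y (mem_of_mem_erase hy) j
          have hz0 := hf z (mem_insert_of_mem hz)
          refine add_le_add (mul_le_mul_of_nonneg_left (hQm _ _ _ _ hz0 b0 (fun _ => le_rfl) b1)
            (by positivity)) (mul_le_mul_of_nonneg_left (M_mono H.c0 fun j =>
              mul_le_mul_of_nonneg_left (b1 j) (hz0 j)) (by norm_num)))
      have hm := PN_Q H hC hQ0 hQm hT hfa hs0 (fun j => by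
        have := h1 j
        rwa [hins j] at this)
      have e1 : (fun j => f a j + ∑ z ∈ s, f z j) = fun j => ∑ z ∈ insert a s, f z j := by
        funext j
        rw [hins j]
      rw [e1] at hm
      have hEa := hE a (mem_insert_self a s)
      rw [Finset.erase_insert ha] at hEa
      have h5 : Real.sqrt ((5 * C / 4 * Q (f a) (fun j => ∑ z ∈ s, f z j) +
          5 * M c (fun j => f a j * ∑ z ∈ s, f z j)) * M c (f a)) ≤
          Real.sqrt (E a) * Real.sqrt (M c (f a)) := by
        have hMa : 0 ≤ M c (f a) := M_nonneg H.c0 hfa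
        rw [← Real.sqrt_mul' _ hMa]
        exact Real.sqrt_le_sqrt (mul_le_mul_of_nonneg_right hEa hMa)
      rw [Finset.sum_insert ha, Finset.sum_insert ha]
      linarith
  refine key.trans (add_le_add le_rfl ?_)
  rw [← Finset.mul_sum]
  refine mul_le_mul_of_nonneg_left ?_ (by norm_num)
  have hc := Finset.sum_mul_sq_le_sq_mul_sq s (fun z => Real.sqrt (E z))
    (fun z => Real.sqrt (M c (f z)))
  have e1 : ∑ z ∈ s, Real.sqrt (E z) ^ 2 = ∑ z ∈ s, E z :=
    Finset.sum_congr rfl fun z hz => Real.sq_sqrt (hE0 z hz)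
  have e2 : ∑ z ∈ s, Real.sqrt (M c (f z)) ^ 2 = ∑ z ∈ s, M c (f z) :=
    Finset.sum_congr rfl fun z hz => Real.sq_sqrt (hM0 z hz)
  rw [e1, e2] at hc
  exact Real.le_sqrt_of_sq_le hc

end pot

end Crest.Agent.R4P.WQn53
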