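import Crest.Agent.R4P.GMer_27

/-!
# The bilinear merge lemma for the class with member-dependent sheets (R004, helper46)

`Mg c W K` : `T_lam(f + g) ≤ T_lam f + T_lam g + Q_K(f, g) / lam` for all `lam > 0`, `f, g ≥ 0`, with
`Q_K(f, g) = Σ_{j, j'} K j j' f_j g_{j'}` (the weights are built in).

* `Mg.triv` : the constants, `K j j' = c j * c j'`, i.e. `Q(f, g) = M f * M g`;
* `Mg.tie` : the tie extension `WT q W` of `GMer_27` (helper44's WU), kernel `KT q K` :
  `NN : 1 - q`, `NP, PN : q (1 - q)`, `PP : q ^ 2` times `K`;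
* `Mg.reindex` : another index type; `Mg.mono` : larger kernels;
* `Mg.sum` : finitely many names.

Since the kernel at the base is arbitrary, `Mg.tie` may be iterated over the ties of one era only.
-/

set_option autoImplicit false
set_option linter.unusedVariables false
set_option linter.unusedSectionVars false

namespace Crest.Agent.R4P.WUm46

open Finset Crest.Agent.R4P.GMer27

variable {J : Type*} [Fintype J]

/-! ## the bilinear form -/

/-- the bilinear form of a kernel -/
def Q (K : J → J → ℝ) (f g : J → ℝ) : ℝ := ∑ j, ∑ j', K j j' * (f j * g j')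

variable {K : J → J → ℝ}

lemma Q_nonneg (K0 : ∀ j j', 0 ≤ K j j') {f g : J → ℝ} (hf : ∀ j, 0 ≤ f j) (hg : ∀ j, 0 ≤ g j) :
    0 ≤ Q K f g :=
  Finset.sum_nonneg fun j _ => Finset.sum_nonneg fun j' _ =>
    mul_nonneg (K0 j j') (mul_nonneg (hf j) (hg j'))

lemma Q_mono (K0 : ∀ j j', 0 ≤ K j j') {f f' g g' : J → ℝ} (hf : ∀ j, 0 ≤ f j)
    (hg : ∀ j, 0 ≤ g j) (hf' : ∀ j, f j ≤ f' j) (hg' : ∀ j, g j ≤ g' j) :
    Q K f g ≤ Q K f' g' :=
  Finset.sum_le_sum fun j _ => Finset.sum_le_sum fun j' _ =>
    mul_le_mul_of_nonneg_left (mul_le_mul (hf' j) (hg' j') (hg j') ((hf j).trans (hf' j)))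
      (K0 j j')

lemma Q_mono_K {K' : J → J → ℝ} (h : ∀ j j', K j j' ≤ K' j j') {f g : J → ℝ}
    (hf : ∀ j, 0 ≤ f j) (hg : ∀ j, 0 ≤ g j) : Q K f g ≤ Q K' f g :=
  Finset.sum_le_sum fun j _ => Finset.sum_le_sum fun j' _ =>
    mul_le_mul_of_nonneg_right (h j j') (mul_nonneg (hf j) (hg j'))

lemma Q_add_left (f f' g : J → ℝ) : Q K (fun j => f j + f' j) g = Q K f g + Q K f' g := by
  simp only [Q, ← Finset.sum_add_distrib]
  exact Finset.sum_congr rfl fun j _ => Finset.sum_congr rfl fun j' _ => by ring

lemma Q_add_right (f g g' : J → ℝ) : Q K f (fun j => g j + g' j) = Q K f g + Q K f g' := by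
  simp only [Q, ← Finset.sum_add_distrib]
  exact Finset.sum_congr rfl fun j _ => Finset.sum_congr rfl fun j' _ => by ring

lemma Q_smul_left (a : ℝ) (f g : J → ℝ) : Q K (fun j => a * f j) g = a * Q K f g := by
  simp only [Q, Finset.mul_sum]
  exact Finset.sum_congr rfl fun j _ => Finset.sum_congr rfl fun j' _ => by ring

lemma Q_smul_right (a : ℝ) (f g : J → ℝ) : Q K f (fun j => a * g j) = a * Q K f g := by
  simp only [Q, Finset.mul_sum]
  exact Finset.sum_congr rfl fun j _ => Finset.sum_congr rfl fun j' _ => by ring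

lemma Q_zero_right (f : J → ℝ) : Q K f (fun _ => 0) = 0 := by
  simp [Q]

lemma Q_sum_right {ι : Type*} (s : Finset ι) (f : J → ℝ) (g : ι → J → ℝ) :
    Q K f (fun j => ∑ i ∈ s, g i j) = ∑ i ∈ s, Q K f (g i) := by
  classical
  induction s using Finset.induction_on with
  | empty => simp [Q]
  | insert a s ha ih =>
    simp only [Finset.sum_insert ha]
    rw [Q_add_right, ih]

lemma Q_sum_left {ι : Type*} (s : Finset ι) (f : ι → J → ℝ) (g : J → ℝ) :
    Q K (fun j => ∑ i ∈ s, f i j) g = ∑ i ∈ s, Q K (f i) g := by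
  classical
  induction s using Finset.induction_on with
  | empty => simp [Q]
  | insert a s ha ih =>
    simp only [Finset.sum_insert ha]
    rw [Q_add_left, ih]

lemma Q_prod (c : J → ℝ) (f g : J → ℝ) : Q (fun j j' => c j * c j') f g = M c f * M c g := by
  simp only [Q, M, Finset.sum_mul_sum]
  exact Finset.sum_congr rfl fun j _ => Finset.sum_congr rfl fun j' _ => by ring

/-- weights of a pair of children: `true` = P (weight `q`), `false` = N (weight `1 - q`) -/
def kw (q : ℝ) : Bool → Bool → ℝ
  | false, false => 1 - q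
  | false, true => q * (1 - q)
  | true, false => q * (1 - q)
  | true, true => q ^ 2

/-- the kernel of the tie extension -/
def KT (q : ℝ) (K : J → J → ℝ) (x y : J × Bool) : ℝ := kw q x.2 y.2 * K x.1 y.1

lemma kw_nonneg {q : ℝ} (hq : 0 < q ∧ q < 1) (b b' : Bool) : 0 ≤ kw q b b' := by
  obtain ⟨h0, h1⟩ := hq
  have h2 : 0 ≤ 1 - q := by linarith
  cases b <;> cases b' <;> simp only [kw] <;> positivity

lemma Q_KT (q : ℝ) (f g : J × Bool → ℝ) : Q (KT q K) f g =
    (1 - q) * Q K (fun j => f (j, false)) (fun j => g (j, false)) +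
    q * (1 - q) * Q K (fun j => f (j, false)) (fun j => g (j, true)) +
    q * (1 - q) * Q K (fun j => f (j, true)) (fun j => g (j, false)) +
    q ^ 2 * Q K (fun j => f (j, true)) (fun j => g (j, true)) := by
  simp only [Q, sum_JB, KT, kw, Finset.mul_sum, ← Finset.sum_add_distrib]
  exact Finset.sum_congr rfl fun j _ => Finset.sum_congr rfl fun j' _ => by ring

/-! ## the merge structure -/

/-- **bilinear merge price** of a test class -/
structure Mg (c : J → ℝ) (W : Set (J → ℝ)) (K : J → J → ℝ) : Prop where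
  tc : TC c W
  K0 : ∀ j j', 0 ≤ K j j'
  hT : ∀ (lam : ℝ) (f g : J → ℝ), 0 < lam → (∀ j, 0 ≤ f j) → (∀ j, 0 ≤ g j) →
    T c W lam (fun j => f j + g j) ≤ T c W lam f + T c W lam g + 1 / lam * Q K f g

variable {c : J → ℝ} {W : Set (J → ℝ)}

lemma Mg.mono (H : Mg c W K) {K' : J → J → ℝ} (h : ∀ j j', K j j' ≤ K' j j') : Mg c W K' where
  tc := H.tc
  K0 := fun j j' => (H.K0 j j').trans (h j j')
  hT := fun lam f g hl hf hg => by
    have h1 := H.hT lam f g hl hf hg
    have h2 := mul_le_mul_of_nonneg_left (Q_mono_K h hf hg) (by positivity : 0 ≤ 1 / lam)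
    linarith

/-- the scalar case : `(x + y - lam)⁺ ≤ (x - lam)⁺ + (y - lam)⁺ + x y / lam` -/
lemma scal {lam x y : ℝ} (hl : 0 < lam) (hx : 0 ≤ x) (hy : 0 ≤ y) :
    max (x + y - lam) 0 ≤ max (x - lam) 0 + max (y - lam) 0 + 1 / lam * (x * y) := by
  have hxy : 0 ≤ 1 / lam * (x * y) := by positivity
  have hm1 := le_max_right (x - lam) 0
  have hm2 := le_max_right (y - lam) 0
  have hm3 := le_max_left (x - lam) 0
  have hm4 := le_max_left (y - lam) 0
  apply max_le _ (by linarith)
  rcases le_total x lam with h1 | h1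
  · rcases le_total y lam with h2 | h2
    · have h3 : lam * (x + y - lam) ≤ x * y := by nlinarith
      have h4 : x + y - lam ≤ 1 / lam * (x * y) := by
        rw [one_div, inv_mul_eq_div, le_div_iff₀ hl]
        linarith
      linarith
    · have h4 : x ≤ 1 / lam * (x * y) := by
        rw [one_div, inv_mul_eq_div, le_div_iff₀ hl]
        exact mul_le_mul_of_nonneg_left h2 hx
      linarith
  · have h4 : y ≤ 1 / lam * (x * y) := by
      rw [one_div, inv_mul_eq_div, le_div_iff₀ hl]
      have := mul_le_mul_of_nonneg_right h1 hy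
      linarith
    linarith

/-- **base** : the constants -/
theorem Mg.triv (c0 : ∀ j, 0 ≤ c j) (c1 : ∑ j, c j = 1) :
    Mg c (Wc J) (fun j j' => c j * c j') where
  tc := TC.triv c0 c1
  K0 := fun j j' => mul_nonneg (c0 j) (c0 j')
  hT := by
    intro lam f g hl hf hg
    have H : TC c (Wc J) := TC.triv c0 c1
    -- the value of a constant test
    have hv : ∀ (h : J → ℝ) (a : ℝ), M c (fun j => (h j - lam) * a) = a * (M c h - lam) := by
      intro h a
      have e1 : (fun j => (h j - lam) * a) = fun j => a * (h j - lam) := by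
        funext j
        ring
      rw [e1, M_smul, M_sub, M_const c1]
    have up : ∀ h : J → ℝ, T c (Wc J) lam h ≤ max (M c h - lam) 0 := by
      intro h
      obtain ⟨φ, ⟨a, a0, a1, ha⟩, h2⟩ := T_max H lam h
      have e1 : (fun j => (h j - lam) * φ j) = fun j => (h j - lam) * a := by
        funext j
        rw [ha j]
      rw [← h2, e1, hv]
      rcases le_total 0 (M c h - lam) with h3 | h3
      · rw [max_eq_left h3]
        nlinarith
      · rw [max_eq_right h3]
        nlinarith
    have lo : ∀ h : J → ℝ, max (M c h - lam) 0 ≤ T c (Wc J) lam h := by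
      intro h
      apply max_le _ (T_nonneg H lam h)
      have h1 := le_T H lam h H.one
      rw [hv] at h1
      linarith
    rw [Q_prod]
    have h1 := up fun j => f j + g j
    have h2 := lo f
    have h3 := lo g
    rw [M_add] at h1
    have h4 := scal hl (M_nonneg c0 hf) (M_nonneg c0 hg)
    linarith

/-- a linear functional below a constant on `WT0` is below it on `WT` -/
lemma T_WT_le {q lam B : ℝ} {h : J × Bool → ℝ} (H : TC (cT q c) (WT q W))
    (hB : ∀ φ ∈ WT0 q W, M (cT q c) (fun x => (h x - lam) * φ x) ≤ B) :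
    T (cT q c) (WT q W) lam h ≤ B := by
  obtain ⟨φ, h1, h2⟩ := T_max H lam h
  rw [← h2]
  have hcl : IsClosed {φ : J × Bool → ℝ | M (cT q c) (fun x => (h x - lam) * φ x) ≤ B} :=
    isClosed_le (cont_test lam h) continuous_const
  exact closure_minimal hB hcl h1

/-- **upper half of the column identity** : a test of `WT0` is a convex combination of tests of
columns; the row has `Δ j = (h_N - h_P)⁺` at every member -/
lemma WT0_row {q lam : ℝ} (hq : 0 < q ∧ q < 1) (c0 : ∀ j, 0 ≤ c j)
    (hW : ∀ φ ∈ W, ∀ j, 0 ≤ φ j ∧ φ j ≤ 1) (h : J × Bool → ℝ) {φ : J × Bool → ℝ}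
    (hd : ∀ j, φ (j, true) ≤ φ (j, false)) {n : ℕ} {u : Fin n → ℝ} {a : Fin n → J → ℝ}
    {s : J → Fin n → ℝ} (u0 : ∀ i, 0 ≤ u i) (u1 : ∑ i, u i = 1) (ha : ∀ i, a i ∈ W)
    (hsu : ∀ j, ∑ i, u i * s j i = 1 - q)
    (hN : ∀ j, (1 - q) * φ (j, false) = ∑ i, u i * (s j i * a i j))
    (hP : ∀ j, q * φ (j, true) = ∑ i, u i * ((1 - s j i) * a i j)) :
    M (cT q c) (fun x => (h x - lam) * φ x) ≤
      ∑ i, u i * M c (fun j => (av q h j + (s j i - (1 - q)) *
        max (h (j, false) - h (j, true)) 0 - lam) * a i j) := by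
  have q1' : 0 < 1 - q := by linarith [hq.2]
  have e : ∑ i, u i * M c (fun j => (av q h j + (s j i - (1 - q)) *
        max (h (j, false) - h (j, true)) 0 - lam) * a i j) =
      M c (fun j => ∑ i, u i * ((av q h j + (s j i - (1 - q)) *
        max (h (j, false) - h (j, true)) 0 - lam) * a i j)) := by
    rw [M_sum]
    exact Finset.sum_congr rfl fun i _ => (M_smul _ _).symm
  rw [e, M_cT]
  apply M_mono c0
  intro j
  have e2 : ∑ i, u i * ((av q h j + (s j i - (1 - q)) *
        max (h (j, false) - h (j, true)) 0 - lam) * a i j) =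
      (av q h j - (1 - q) * max (h (j, false) - h (j, true)) 0 - lam) *
        (∑ i, u i * (s j i * a i j) + ∑ i, u i * ((1 - s j i) * a i j)) +
      max (h (j, false) - h (j, true)) 0 * ∑ i, u i * (s j i * a i j) := by
    rw [← Finset.sum_add_distrib, Finset.mul_sum, Finset.mul_sum, ← Finset.sum_add_distrib]
    exact Finset.sum_congr rfl fun i _ => by ring
  rw [e2, ← hN j, ← hP j]
  simp only [av]
  have hdj := hd j
  rcases le_total (h (j, false)) (h (j, true)) with h1 | h1
  · rw [max_eq_right (by linarith)]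
    have h2 : 0 ≤ q * (1 - q) * ((h (j, true) - h (j, false)) * (φ (j, false) - φ (j, true))) :=
      mul_nonneg (mul_nonneg hq.1.le q1'.le)
        (mul_nonneg (by linarith) (by linarith))
    nlinarith [h2]
  · rw [max_eq_left (by linarith)]
    apply le_of_eq
    ring

/-- the covariance of two sheets -/
lemma cov_le {n : ℕ} {u : Fin n → ℝ} {w : ℝ} {s s' : Fin n → ℝ} (u0 : ∀ i, 0 ≤ u i)
    (u1 : ∑ i, u i = 1) (hs : ∀ i, 0 ≤ s i ∧ s i ≤ 1) (hs' : ∀ i, 0 ≤ s' i ∧ s' i ≤ 1)
    (hsu : ∑ i, u i * s i = w) (hsu' : ∑ i, u i * s' i = w) :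
    ∑ i, u i * ((s i - w) * (s' i - w)) ≤ w * (1 - w) := by
  have e : ∑ i, u i * ((s i - w) * (s' i - w)) =
      ∑ i, u i * (s i * s' i) - w * ∑ i, u i * s i - w * ∑ i, u i * s' i + w ^ 2 * ∑ i, u i := by
    simp only [Finset.mul_sum, ← Finset.sum_sub_distrib, ← Finset.sum_add_distrib]
    exact Finset.sum_congr rfl fun i _ => by ring
  have h1 : ∑ i, u i * (s i * s' i) ≤ ∑ i, u i * s i :=
    Finset.sum_le_sum fun i _ => mul_le_mul_of_nonneg_left
      (by have := mul_le_mul_of_nonneg_left (hs' i).2 (hs i).1; linarith) (u0 i)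
  rw [e, hsu, hsu', u1]
  rw [hsu] at h1
  nlinarith

/-- the kernel inequality at one pair of members -/
lemma pair_le {q a b a' b' : ℝ} (hq : 0 < q ∧ q < 1) (ha : 0 ≤ a) (hb : 0 ≤ b) (ha' : 0 ≤ a')
    (hb' : 0 ≤ b') :
    ((1 - q) * a + q * b) * ((1 - q) * a' + q * b') +
        (1 - q) * q * (max (a - b) 0 * max (a' - b') 0) ≤
      (1 - q) * (a * a') + q * (1 - q) * (a * b') + q * (1 - q) * (b * a') + q ^ 2 * (b * b') := by
  have q1 : 0 < 1 - q := by linarith [hq.2]
  have hqq : 0 < q * (1 - q) := mul_pos hq.1 q1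
  have k1 : 0 ≤ q * (1 - q) * (a * a') := by positivity
  rcases le_total a b with h1 | h1
  · rw [max_eq_right (by linarith)]
    nlinarith
  · rcases le_total a' b' with h2 | h2
    · rw [max_eq_right (a := a' - b') (by linarith)]
      nlinarith
    · rw [max_eq_left (by linarith), max_eq_left (by linarith)]
      have k2 : 0 ≤ q * (1 - q) * ((a - b) * b') :=
        mul_nonneg hqq.le (mul_nonneg (by linarith) hb')
      have k3 : 0 ≤ q * (1 - q) * (b * a') := by positivity
      nlinarith

/-- **the tie extension** -/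
theorem Mg.tie (H : Mg c W K) {q : ℝ} (hq : 0 < q ∧ q < 1) :
    Mg (cT q c) (WT q W) (KT q K) where
  tc := H.tc.tie hq
  K0 := fun x y => mul_nonneg (kw_nonneg hq _ _) (H.K0 _ _)
  hT := by
    intro lam f g hl hf hg
    have q1' : 0 < 1 - q := by linarith [hq.2]
    have HT : TC (cT q c) (WT q W) := H.tc.tie hq
    apply T_WT_le HT
    rintro φ ⟨hd, n, u, a, s, u0, u1, ha, hs, hsu, hN, hP⟩
    -- the split of the heights
    let F : J → ℝ := fun j => max (f (j, false) + g (j, false) - (f (j, true) + g (j, true))) 0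
    let L : J → ℝ := fun j => max (f (j, false) - f (j, true)) 0
    let L' : J → ℝ := fun j => max (g (j, false) - g (j, true)) 0
    have F0 : ∀ j, 0 ≤ F j := fun j => le_max_right _ _
    have L0 : ∀ j, 0 ≤ L j := fun j => le_max_right _ _
    have L'0 : ∀ j, 0 ≤ L' j := fun j => le_max_right _ _
    have hFL : ∀ j, F j ≤ L j + L' j := by
      intro j
      apply max_le _ (add_nonneg (L0 j) (L'0 j))
      have h1 : f (j, false) - f (j, true) ≤ L j := le_max_left _ _
      have h2 : g (j, false) - g (j, true) ≤ L' j := le_max_left _ _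
      linarith
    let D : J → ℝ := fun j => min (F j) (L j)
    let D' : J → ℝ := fun j => F j - D j
    have D0 : ∀ j, 0 ≤ D j := fun j => le_min (F0 j) (L0 j)
    have D1 : ∀ j, D j ≤ L j := fun j => min_le_right _ _
    have D'0 : ∀ j, 0 ≤ D' j := fun j => sub_nonneg.2 (min_le_left _ _)
    have D'1 : ∀ j, D' j ≤ L' j := by
      intro j
      show F j - min (F j) (L j) ≤ L' j
      rcases le_total (F j) (L j) with h1 | h1
      · rw [min_eq_left h1, sub_self]
        exact L'0 j
      · rw [min_eq_right h1]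
        linarith [hFL j]
    let x : Fin n → J → ℝ := fun i j => av q f j + (s j i - (1 - q)) * D j
    let y : Fin n → J → ℝ := fun i j => av q g j + (s j i - (1 - q)) * D' j
    have hx : ∀ i j, 0 ≤ x i j := by
      intro i j
      show 0 ≤ av q f j + (s j i - (1 - q)) * D j
      have h1 : (1 - q) * D j ≤ (1 - q) * L j := mul_le_mul_of_nonneg_left (D1 j) q1'.le
      have h2 : 0 ≤ s j i * D j := mul_nonneg (hs j i).1 (D0 j)
      have h3 : (1 - q) * L j ≤ av q f j := by
        show (1 - q) * max (f (j, false) - f (j, true)) 0 ≤ (1 - q) * f (j, false) + q * f (j, true)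
        have h4 := hf (j, false)
        have h5 := hf (j, true)
        rcases le_total (f (j, false)) (f (j, true)) with h6 | h6
        · rw [max_eq_right (by linarith)]
          have := mul_nonneg q1'.le h4
          have := mul_nonneg hq.1.le h5
          linarith
        · rw [max_eq_left (by linarith)]
          nlinarith
      nlinarith
    have hy : ∀ i j, 0 ≤ y i j := by
      intro i j
      show 0 ≤ av q g j + (s j i - (1 - q)) * D' j
      have h1 : (1 - q) * D' j ≤ (1 - q) * L' j := mul_le_mul_of_nonneg_left (D'1 j) q1'.le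
      have h2 : 0 ≤ s j i * D' j := mul_nonneg (hs j i).1 (D'0 j)
      have h3 : (1 - q) * L' j ≤ av q g j := by
        show (1 - q) * max (g (j, false) - g (j, true)) 0 ≤ (1 - q) * g (j, false) + q * g (j, true)
        have h4 := hg (j, false)
        have h5 := hg (j, true)
        rcases le_total (g (j, false)) (g (j, true)) with h6 | h6
        · rw [max_eq_right (by linarith)]
          have := mul_nonneg q1'.le h4
          have := mul_nonneg hq.1.le h5
          linarith
        · rw [max_eq_left (by linarith)]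
          nlinarith
      nlinarith
    -- the rows are columns of `f`, `g`
    have Cf : Col q f u x := ⟨u0, u1, fun j => ⟨s j, D j, hs j, hsu j, D0 j, D1 j, fun i => rfl⟩⟩
    have Cg : Col q g u y := ⟨u0, u1, fun j => ⟨s j, D' j, hs j, hsu j, D'0 j, D'1 j, fun i => rfl⟩⟩
    have hTf := T_colG H.tc hq lam Cf
    have hTg := T_colG H.tc hq lam Cg
    -- the test
    have h1 := WT0_row (lam := lam) hq H.tc.c0 H.tc.bd (fun x => f x + g x) hd u0 u1 ha hsu hN hP
    have h2 : ∀ i, M c (fun j => (av q (fun x => f x + g x) j + (s j i - (1 - q)) *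
        max (f (j, false) + g (j, false) - (f (j, true) + g (j, true))) 0 - lam) * a i j) ≤
        T c W lam (x i) + T c W lam (y i) + 1 / lam * Q K (x i) (y i) := by
      intro i
      refine le_trans (le_of_eq ?_) (le_trans (le_T H.tc lam (fun j => x i j + y i j) (ha i))
        (H.hT lam (x i) (y i) hl (hx i) (hy i)))
      congr 1
      funext j
      show (av q (fun x => f x + g x) j + (s j i - (1 - q)) * F j - lam) * a i j =
        (av q f j + (s j i - (1 - q)) * D j + (av q g j + (s j i - (1 - q)) * (F j - D j)) - lam) *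
          a i j
      simp only [av]
      ring
    have h3 : ∑ i, u i * M c (fun j => (av q (fun x => f x + g x) j + (s j i - (1 - q)) *
        max (f (j, false) + g (j, false) - (f (j, true) + g (j, true))) 0 - lam) * a i j) ≤
        ∑ i, u i * T c W lam (x i) + ∑ i, u i * T c W lam (y i) +
          1 / lam * ∑ i, u i * Q K (x i) (y i) := by
      rw [Finset.mul_sum, ← Finset.sum_add_distrib, ← Finset.sum_add_distrib]
      apply Finset.sum_le_sum
      intro i _
      have := mul_le_mul_of_nonneg_left (h2 i) (u0 i)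
      linarith
    -- the energy
    have h4 : ∑ i, u i * Q K (x i) (y i) ≤ Q (KT q K) f g := by
      have e1 : ∑ i, u i * Q K (x i) (y i) =
          ∑ j, ∑ j', K j j' * ∑ i, u i * (x i j * y i j') := by
        simp only [Q, Finset.mul_sum]
        rw [Finset.sum_comm]
        apply Finset.sum_congr rfl
        intro j _
        rw [Finset.sum_comm]
        apply Finset.sum_congr rfl
        intro j' _
        exact Finset.sum_congr rfl fun i _ => by ring
      have e2 : Q (KT q K) f g = ∑ j, ∑ j', K j j' *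
          ((1 - q) * (f (j, false) * g (j', false)) + q * (1 - q) * (f (j, false) * g (j', true)) +
            q * (1 - q) * (f (j, true) * g (j', false)) + q ^ 2 * (f (j, true) * g (j', true))) := by
        rw [Q_KT]
        simp only [Q, Finset.mul_sum, ← Finset.sum_add_distrib]
        exact Finset.sum_congr rfl fun j _ => Finset.sum_congr rfl fun j' _ => by ring
      rw [e1, e2]
      apply Finset.sum_le_sum
      intro j _
      apply Finset.sum_le_sum
      intro j' _
      apply mul_le_mul_of_nonneg_left _ (H.K0 j j')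
      have e3 : ∑ i, u i * (x i j * y i j') = av q f j * av q g j' +
          (∑ i, u i * ((s j i - (1 - q)) * (s j' i - (1 - q)))) * (D j * D' j') := by
        have e4 : ∑ i, u i * (x i j * y i j') =
            (av q f j * av q g j') * ∑ i, u i +
            (av q f j * D' j') * (∑ i, u i * s j' i - (1 - q) * ∑ i, u i) +
            (D j * av q g j') * (∑ i, u i * s j i - (1 - q) * ∑ i, u i) +
            (∑ i, u i * ((s j i - (1 - q)) * (s j' i - (1 - q)))) * (D j * D' j') := by
          simp only [Finset.mul_sum, Finset.sum_mul, ← Finset.sum_sub_distrib,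
            ← Finset.sum_add_distrib]
          apply Finset.sum_congr rfl
          intro i _
          show u i * ((av q f j + (s j i - (1 - q)) * D j) *
            (av q g j' + (s j' i - (1 - q)) * D' j')) = _
          ring
        rw [e4, hsu j, hsu j', u1]
        ring
      have h5 := cov_le u0 u1 (hs j) (hs j') (hsu j) (hsu j')
      have h6 : (∑ i, u i * ((s j i - (1 - q)) * (s j' i - (1 - q)))) * (D j * D' j') ≤
          (1 - q) * q * (L j * L' j') := by
        have h7 : (∑ i, u i * ((s j i - (1 - q)) * (s j' i - (1 - q)))) * (D j * D' j') ≤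
            ((1 - q) * (1 - (1 - q))) * (D j * D' j') :=
          mul_le_mul_of_nonneg_right h5 (mul_nonneg (D0 j) (D'0 j'))
        have h8 : D j * D' j' ≤ L j * L' j' := mul_le_mul (D1 j) (D'1 j') (D'0 j') (L0 j)
        have h9 := mul_le_mul_of_nonneg_left h8 (mul_nonneg q1'.le hq.1.le)
        calc _ ≤ ((1 - q) * (1 - (1 - q))) * (D j * D' j') := h7
          _ = (1 - q) * q * (D j * D' j') := by ring
          _ ≤ _ := h9
      have h7 := pair_le hq (hf (j, false)) (hf (j, true)) (hg (j', false)) (hg (j', true))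
      rw [e3]
      simp only [av]
      linarith
    have h5 := mul_le_mul_of_nonneg_left h4 (by positivity : 0 ≤ 1 / lam)
    linarith

/-! ## many names -/

/-- finitely many names: the price is the sum over the ordered pairs -/
theorem Mg.sum (H : Mg c W K) {κ : Type*} [DecidableEq κ] (s : Finset κ) {f : κ → J → ℝ}
    (hf : ∀ z ∈ s, ∀ j, 0 ≤ f z j) {lam : ℝ} (hl : 0 < lam) :
    T c W lam (fun j => ∑ z ∈ s, f z j) ≤ ∑ z ∈ s, T c W lam (f z) +
      1 / lam * ∑ z ∈ s, ∑ y ∈ s.erase z, Q K (f z) (f y) := by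
  induction s using Finset.induction_on with
  | empty =>
    simp only [Finset.sum_empty, mul_zero, add_zero]
    exact (T_one H.tc fun _ => hl.le).le
  | insert a s ha ih =>
    have hfs : ∀ z ∈ s, ∀ j, 0 ≤ f z j := fun z hz => hf z (mem_insert_of_mem hz)
    have hfa : ∀ j, 0 ≤ f a j := hf a (mem_insert_self _ _)
    have h0 : ∀ j, 0 ≤ ∑ z ∈ s, f z j := fun j => Finset.sum_nonneg fun z hz => hfs z hz j
    have h1 := H.hT lam (f a) (fun j => ∑ z ∈ s, f z j) hl hfa h0
    rw [Q_sum_right] at h1
    have h2 := ih hfs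
    have h3 : ∑ z ∈ s, ∑ y ∈ s.erase z, Q K (f z) (f y) + ∑ y ∈ s, Q K (f a) (f y) ≤
        ∑ z ∈ insert a s, ∑ y ∈ (insert a s).erase z, Q K (f z) (f y) := by
      rw [Finset.sum_insert ha, Finset.erase_insert ha, add_comm]
      apply add_le_add le_rfl
      apply Finset.sum_le_sum
      intro z hz
      apply Finset.sum_le_sum_of_subset_of_nonneg
      · intro y hy
        rw [mem_erase] at hy ⊢
        exact ⟨hy.1, mem_insert_of_mem hy.2⟩
      · intro y hy _
        exact Q_nonneg H.K0 (hfs z hz) (hf y (mem_of_mem_erase hy))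
    have h4 := mul_le_mul_of_nonneg_left h3 (by positivity : 0 ≤ 1 / lam)
    simp only [Finset.sum_insert ha] at h1 ⊢
    rw [mul_add] at h4
    simp only [Finset.sum_insert ha] at h4
    linarith

/-! ## reindexing -/

/-- **another index type** -/
theorem Mg.reindex (H : Mg c W K) {J' : Type*} [Fintype J'] (e : J' ≃ J) :
    Mg (fun j => c (e j)) (cmW e W) (fun j j' => K (e j) (e j')) where
  tc := H.tc.comap e.surjective (hc_equiv e) fun j => H.tc.c0 _
  K0 := fun j j' => H.K0 _ _
  hT := by
    intro lam f g hl hf hg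
    have key : ∀ h : J' → ℝ, T (fun j => c (e j)) (cmW e W) lam h =
        T c W lam (fun j => h (e.symm j)) := by
      intro h
      have := T_comap (c' := fun j => c (e j)) (W := W) (hc_equiv (c := c) e) lam
        (fun j => h (e.symm j))
      rw [← this]
      simp only [Equiv.symm_apply_apply]
    have h1 := H.hT lam (fun j => f (e.symm j)) (fun j => g (e.symm j)) hl (fun j => hf _)
      fun j => hg _
    have h2 : Q K (fun j => f (e.symm j)) (fun j => g (e.symm j)) =
        Q (fun j j' => K (e j) (e j')) f g := by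
      unfold Q
      rw [← Equiv.sum_comp e]
      apply Finset.sum_congr rfl
      intro j _
      rw [← Equiv.sum_comp e]
      simp only [Equiv.symm_apply_apply]
    rw [key, key, key, ← h2]
    exact h1

end Crest.Agent.R4P.WUm46
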