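import Crest.Agent.R4P.WUm_46
import Crest.Agent.R4P.WQn_53

/-!
# The merge price in `PN` for a class with bilinear merge price (R004, helper46)

`Mg.PN_merge`, `Mg.PN_sum` : `WQn_53` applied to `WUm_46.Mg` (for instance the WU class).
-/

set_option autoImplicit false
set_option linter.unusedVariables false
set_option linter.unusedSectionVars false

namespace Crest.Agent.R4P.WUm46

open Finset Crest.Agent.R4P.GMer27 Crest.Agent.R4P.GMk35

variable {J : Type*} [Fintype J] {K : J → J → ℝ} {c : J → ℝ} {W : Set (J → ℝ)}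

/-- **the merge price in `PN`**, two names -/
theorem Mg.PN_merge (H : Mg c W K) {f g : J → ℝ} (hf : ∀ j, 0 ≤ f j) (hg : ∀ j, 0 ≤ g j)
    (h1 : ∀ j, f j + g j ≤ 1) :
    PN c W (fun j => f j + g j) ≤ PN c W f + PN c W g +
      28 * Real.sqrt ((5 / 4 * Q K f g + 5 * M c (fun j => f j * g j)) * M c f) := by
  have := WQn53.PN_Q H.tc zero_le_one (Q := Q K) (fun f g hf hg => Q_nonneg H.K0 hf hg)
    (fun f f' g g' hf hg hf' hg' => Q_mono H.K0 hf hg hf' hg') H.hT hf hg h1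
  rwa [mul_one] at this

/-- **the merge price in `PN`**, many names -/
theorem Mg.PN_sum (H : Mg c W K) {κ : Type*} [DecidableEq κ] (s : Finset κ) {f : κ → J → ℝ}
    (hf : ∀ z ∈ s, ∀ j, 0 ≤ f z j) (h1 : ∀ j, ∑ z ∈ s, f z j ≤ 1) {E : κ → ℝ}
    (hE : ∀ z ∈ s, 5 / 4 * ∑ y ∈ s.erase z, Q K (f z) (f y) +
      5 * ∑ y ∈ s.erase z, M c (fun j => f z j * f y j) ≤ E z) :
    PN c W (fun j => ∑ z ∈ s, f z j) ≤ ∑ z ∈ s, PN c W (f z) +
      28 * Real.sqrt ((∑ z ∈ s, E z) * ∑ z ∈ s, M c (f z)) := by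
  refine WQn53.PN_Q_sum H.tc zero_le_one (Q := Q K) (fun f g hf hg => Q_nonneg H.K0 hf hg)
    (fun f f' g g' hf hg hf' hg' => Q_mono H.K0 hf hg hf' hg') H.hT s hf h1 (fun z hz => ?_)
  have h2 := hE z hz
  rw [mul_one, Q_sum_right]
  have e : M c (fun j => f z j * ∑ y ∈ s.erase z, f y j) =
      ∑ y ∈ s.erase z, M c (fun j => f z j * f y j) := by
    rw [← M_sum]
    congr 1
    funext j
    rw [Finset.mul_sum]
  rw [e]
  exact h2

end Crest.Agent.R4P.WUm46
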