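import Crest.Agent.R4.LFA363
import Crest.Agent.R4.Win853

/-!
R4 (S0004), helper10: **absolute windows at fat stages**.

`θ` = target of a node, `s` = a missing tie, a label `ρ` of `θ` at a scale `r` with `τ ≤ s r` (after
the missing tie the item is fat).  `Bad θ τ T s` : some such label has `1/T ≤ s |θ - ρ| ≤ T`.

* `lab_unique'` : two labels with `s |θ - ρ| ≤ T`, `P ≤ s ≤ P ^ 2` are equal if `(2T)^5 < P τ^2`;
* `window` : `∑ 1/s ≤ (2 log T + 8) / log P` over the bad primes in `[P, P ^ 2]`, for any set of ties;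
* `window_all` : all the bad primes above `P`, `T = (log s)^C`, `τ = (log s)^(-C)`;
* `dich` : outside of the bad ties a label is super-accurate (`s |θ - ρ| < 1/T`) or inaccurate;
* `super_near` : a super-accurate label stays accurate for ever.
-/

set_option autoImplicit false

namespace Crest.Agent.R4P.Win10

open Finset Crest.Agent.R4.LF363 Crest.Agent.R4.Win853

/-- the missing tie `s` is bad for the target `θ` -/
def Bad (θ τ T : ℝ) (s : ℕ) : Prop :=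
  ∃ (r : ℝ) (ρ : ℚ), Lab θ r ρ ∧ τ ≤ s * r ∧ 1 / T ≤ s * |θ - ρ| ∧ s * |θ - ρ| ≤ T

lemma Bad.mono {θ τ τ' T T' : ℝ} {s : ℕ} (h : Bad θ τ T s) (hτ : τ' ≤ τ) (hT : 0 < T)
    (hT' : T ≤ T') : Bad θ τ' T' s := by
  obtain ⟨r, ρ, h1, h2, h3, h4⟩ := h
  exact ⟨r, ρ, h1, hτ.trans h2, (one_div_le_one_div_of_le hT hT').trans h3, h4.trans hT'⟩

/-- **uniqueness** of the label in a long range of missing ties -/
theorem lab_unique' {θ τ T r r' P : ℝ} {ρ ρ' : ℚ} {s s' : ℕ} (hτ : 0 < τ) (hP : 1 ≤ P)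
    (hT : 0 < T) (hc : (2 * T) ^ 5 < P * τ ^ 2) (h : Lab θ r ρ) (h' : Lab θ r' ρ')
    (hs : P ≤ s) (hs' : P ≤ s') (hs2 : (s : ℝ) ≤ P ^ 2) (hs2' : (s' : ℝ) ≤ P ^ 2)
    (hr : τ ≤ s * r) (hr' : τ ≤ s' * r') (he : s * |θ - ρ| ≤ T) (he' : s' * |θ - ρ'| ≤ T) :
    ρ = ρ' := by
  by_contra hne
  have hg := rat_gap hne
  have hP0 : 0 < P := by linarith
  have s0 : (0 : ℝ) < s := by linarith
  have s0' : (0 : ℝ) < s' := by linarith
  -- denominators
  have hk : τ * (ρ.den : ℝ) ^ 5 ≤ P ^ 2 := by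
    have h1 := h.den
    calc τ * (ρ.den : ℝ) ^ 5 ≤ (s * r) * (ρ.den : ℝ) ^ 5 :=
          mul_le_mul_of_nonneg_right hr (by positivity)
      _ = s * ((ρ.den : ℝ) ^ 5 * r) := by ring
      _ ≤ s * 1 := mul_le_mul_of_nonneg_left h1 s0.le
      _ ≤ P ^ 2 := by linarith
  have hk' : τ * (ρ'.den : ℝ) ^ 5 ≤ P ^ 2 := by
    have h1 := h'.den
    calc τ * (ρ'.den : ℝ) ^ 5 ≤ (s' * r') * (ρ'.den : ℝ) ^ 5 :=
          mul_le_mul_of_nonneg_right hr' (by positivity)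
      _ = s' * ((ρ'.den : ℝ) ^ 5 * r') := by ring
      _ ≤ s' * 1 := mul_le_mul_of_nonneg_left h1 s0'.le
      _ ≤ P ^ 2 := by linarith
  -- errors
  have e1 : |θ - ρ| ≤ T / P := by
    rw [le_div_iff₀ hP0]
    calc |θ - ρ| * P ≤ |θ - ρ| * s := mul_le_mul_of_nonneg_left hs (abs_nonneg _)
      _ = s * |θ - ρ| := by ring
      _ ≤ T := he
  have e2 : |θ - ρ'| ≤ T / P := by
    rw [le_div_iff₀ hP0]
    calc |θ - ρ'| * P ≤ |θ - ρ'| * s' := mul_le_mul_of_nonneg_left hs' (abs_nonneg _)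
      _ = s' * |θ - ρ'| := by ring
      _ ≤ T := he'
  have e3 : |(ρ : ℝ) - ρ'| ≤ 2 * T / P := by
    have h3 := abs_sub (θ - ρ') (θ - ρ)
    have e : (θ - ρ') - (θ - ρ) = (ρ : ℝ) - ρ' := by ring
    rw [e] at h3
    calc |(ρ : ℝ) - ρ'| ≤ |θ - ρ'| + |θ - ρ| := h3
      _ ≤ T / P + T / P := add_le_add e2 e1
      _ = 2 * T / P := by ring
  set x : ℝ := (ρ.den : ℝ) with hx
  set y : ℝ := (ρ'.den : ℝ) with hy
  have hx1 : (1 : ℝ) ≤ x := by rw [hx]; exact_mod_cast ρ.den_pos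
  have hy1 : (1 : ℝ) ≤ y := by rw [hy]; exact_mod_cast ρ'.den_pos
  have g1 : 1 ≤ (2 * T / P) * (x * y) :=
    hg.trans (mul_le_mul_of_nonneg_right e3 (by positivity))
  have g2 : (1 : ℝ) ≤ ((2 * T / P) * (x * y)) ^ 5 := one_le_pow₀ g1
  have g3 : ((2 * T / P) * (x * y)) ^ 5 * (P ^ 5 * τ ^ 2) =
      (2 * T) ^ 5 * ((τ * x ^ 5) * (τ * y ^ 5)) := by
    field_simp
  have g4 : (τ * x ^ 5) * (τ * y ^ 5) ≤ P ^ 2 * P ^ 2 :=
    mul_le_mul hk hk' (by positivity) (by positivity)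
  have g5 : P ^ 5 * τ ^ 2 ≤ (2 * T) ^ 5 * (P ^ 2 * P ^ 2) := by
    calc P ^ 5 * τ ^ 2 = 1 * (P ^ 5 * τ ^ 2) := by ring
      _ ≤ ((2 * T / P) * (x * y)) ^ 5 * (P ^ 5 * τ ^ 2) :=
          mul_le_mul_of_nonneg_right g2 (by positivity)
      _ = (2 * T) ^ 5 * ((τ * x ^ 5) * (τ * y ^ 5)) := g3
      _ ≤ (2 * T) ^ 5 * (P ^ 2 * P ^ 2) := mul_le_mul_of_nonneg_left g4 (by positivity)
  have g6 : (2 * T) ^ 5 * (P ^ 2 * P ^ 2) < P * τ ^ 2 * (P ^ 2 * P ^ 2) :=
    mul_lt_mul_of_pos_right hc (by positivity)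
  have g7 : P * τ ^ 2 * (P ^ 2 * P ^ 2) = P ^ 5 * τ ^ 2 := by ring
  linarith

/-- **the window**: the bad primes of a range have small measure, for any set of ties -/
theorem window {θ τ T P : ℝ} (hτ : 0 < τ) (hP : 1 < P) (hT : 1 ≤ T)
    (hc : (2 * T) ^ 5 < P * τ ^ 2) (F : Finset ℕ) (hF : ∀ s ∈ F, s.Prime)
    (h1 : ∀ s ∈ F, P ≤ (s : ℝ) ∧ (s : ℝ) ≤ P ^ 2) (hB : ∀ s ∈ F, Bad θ τ T s) :
    ∑ s ∈ F, 1 / (s : ℝ) ≤ (2 * Real.log T + 8) / Real.log P := by
  have hlP : 0 < Real.log P := Real.log_pos hP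
  have hlT : 0 ≤ Real.log T := Real.log_nonneg hT
  have hT0 : 0 < T := by linarith
  rcases F.eq_empty_or_nonempty with rfl | ⟨s₀, hs₀⟩
  · rw [Finset.sum_empty]; positivity
  obtain ⟨r₀, ρ, hL₀, hr₀, hlo₀, hup₀⟩ := hB s₀ hs₀
  have he : 0 < |θ - ρ| := by
    by_contra hc'
    have h0 : |θ - ρ| = 0 := le_antisymm (not_lt.1 hc') (abs_nonneg _)
    rw [h0, mul_zero] at hlo₀
    have : 0 < 1 / T := by positivity
    linarith
  set e := |θ - ρ| with hee
  have key : ∀ s ∈ F, 1 / (T * e) ≤ (s : ℝ) ∧ (s : ℝ) ≤ T ^ 2 * (1 / (T * e)) := by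
    intro s hs
    obtain ⟨r, ρ', hL, hr, hlo, hup⟩ := hB s hs
    have hρ : ρ' = ρ := lab_unique' hτ hP.le hT0 hc hL hL₀ (h1 s hs).1 (h1 s₀ hs₀).1
      (h1 s hs).2 (h1 s₀ hs₀).2 hr hr₀ hup hup₀
    rw [hρ] at hlo hup
    constructor
    · rw [div_le_iff₀ (by positivity)]
      have h2 : 1 / T * T ≤ (s * e) * T := mul_le_mul_of_nonneg_right hlo hT0.le
      rw [one_div_mul_cancel hT0.ne'] at h2
      linarith
    · have e2 : T ^ 2 * (1 / (T * e)) = T / e := by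
        field_simp
      rw [e2, le_div_iff₀ he]
      exact hup
  have h2 := sum_log_div_le F hF (1 / (T * e)) (T ^ 2) (by positivity) (one_le_pow₀ hT) key
  rw [Real.log_pow] at h2
  rw [le_div_iff₀ hlP, Finset.sum_mul]
  refine le_trans (Finset.sum_le_sum fun s hs => ?_) (by simpa using h2)
  have hs0 : (0 : ℝ) < s := by linarith [(h1 s hs).1]
  rw [one_div, inv_mul_eq_div]
  exact div_le_div_of_nonneg_right (Real.log_le_log (by linarith) (h1 s hs).1) hs0.le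

lemma sum_geo1 (N : ℕ) : ∑ j ∈ range N, (1 : ℝ) / 2 ^ j ≤ 2 := by
  have h : ∀ N : ℕ, ∑ j ∈ range N, (1 : ℝ) / 2 ^ j = 2 - 2 / 2 ^ N := by
    intro N
    induction N with
    | zero => norm_num
    | succ N ih =>
      rw [Finset.sum_range_succ, ih, pow_succ]
      have : (2 : ℝ) ^ N ≠ 0 := by positivity
      field_simp
      ring
  rw [h N]
  have : (0 : ℝ) < 2 / 2 ^ N := by positivity
  linarith

lemma sum_geo2 (N : ℕ) : ∑ j ∈ range N, ((j : ℝ) + 1) / 2 ^ j ≤ 4 := by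
  have h : ∀ N : ℕ, ∑ j ∈ range N, ((j : ℝ) + 1) / 2 ^ j = 4 - (2 * N + 4) / 2 ^ N := by
    intro N
    induction N with
    | zero => norm_num
    | succ N ih =>
      rw [Finset.sum_range_succ, ih, pow_succ]
      have : (2 : ℝ) ^ N ≠ 0 := by positivity
      push_cast
      field_simp
      ring
  rw [h N]
  have : (0 : ℝ) < (2 * N + 4) / 2 ^ N := by positivity
  linarith

/-- the range of a prime: `2 ^ j L ≤ log s < 2 ^ (j + 1) L` -/
lemma range_ex {L x : ℝ} (hL : 0 < L) (hx : L ≤ x) :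
    ∃ j : ℕ, 2 ^ j * L ≤ x ∧ x < 2 ^ (j + 1) * L := by
  have h1 : 1 ≤ x / L := by rwa [le_div_iff₀ hL, one_mul]
  obtain ⟨j, hj1, hj2⟩ := exists_nat_pow_near h1 (one_lt_two : (1 : ℝ) < 2)
  refine ⟨j, ?_, ?_⟩
  · rwa [le_div_iff₀ hL] at hj1
  · rwa [div_lt_iff₀ hL] at hj2

/-- **all the bad primes above `P`**, `T = (log s) ^ C`, `τ = (log s) ^ (-C)` -/
theorem window_all (C : ℕ) {θ P : ℝ} (hP : 1 < P) (hL1 : 1 ≤ Real.log P)
    (hlarge : ∀ y : ℝ, Real.log P ≤ y →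
      (2 * (2 * y) ^ C) ^ 5 * ((2 * y) ^ C) ^ 2 < Real.exp y)
    (F : Finset ℕ) (hF : ∀ s ∈ F, s.Prime) (h1 : ∀ s ∈ F, P ≤ (s : ℝ))
    (hB : ∀ s ∈ F, Bad θ (1 / (Real.log s) ^ C) ((Real.log s) ^ C) s) :
    ∑ s ∈ F, 1 / (s : ℝ) ≤
      (8 * C * Real.log 2 + 4 * C * Real.log (Real.log P) + 16) / Real.log P := by
  classical
  set L := Real.log P with hLdef
  have hL : 0 < L := by linarith
  have hls : ∀ s ∈ F, L ≤ Real.log s := fun s hs =>
    Real.log_le_log (by linarith) (h1 s hs)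
  choose! J hJ1 hJ2 using fun (s : ℕ) (hs : s ∈ F) => range_ex hL (hls s hs)
  obtain ⟨N, hN⟩ : ∃ N : ℕ, ∀ s ∈ F, J s < N := by
    refine ⟨F.sup J + 1, fun s hs => Nat.lt_succ_of_le (Finset.le_sup hs)⟩
  have hfib : ∑ s ∈ F, 1 / (s : ℝ) =
      ∑ j ∈ range N, ∑ s ∈ F.filter (fun s => J s = j), 1 / (s : ℝ) := by
    rw [Finset.sum_fiberwise_of_maps_to]
    intro s hs
    exact Finset.mem_range.2 (hN s hs)
  have hl2 : 0 < Real.log 2 := Real.log_pos one_lt_two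
  have hlL : 0 ≤ Real.log L := Real.log_nonneg hL1
  have hone : ∀ j : ℕ, ∑ s ∈ F.filter (fun s => J s = j), 1 / (s : ℝ) ≤
      (2 * C * Real.log 2 / L) * (((j : ℝ) + 1) / 2 ^ j) +
        ((2 * C * Real.log L + 8) / L) * (1 / 2 ^ j) := by
    intro j
    have hj0 : (0 : ℝ) < 2 ^ j := by positivity
    have hj1 : (1 : ℝ) ≤ 2 ^ j := one_le_pow₀ (by norm_num)
    set y := (2 : ℝ) ^ j * L with hy
    have hyL : L ≤ y := by
      rw [hy]
      calc L = 1 * L := (one_mul L).symm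
        _ ≤ 2 ^ j * L := mul_le_mul_of_nonneg_right hj1 hL.le
    have hy0 : 0 < y := by linarith
    have hy1 : 1 ≤ y := by linarith
    set T := (2 * y) ^ C with hT
    have hT1 : 1 ≤ T := one_le_pow₀ (by linarith)
    have hT0 : 0 < T := by linarith
    have hPj : 1 < Real.exp y := Real.one_lt_exp_iff.2 hy0
    have hc : (2 * T) ^ 5 < Real.exp y * (1 / T) ^ 2 := by
      have h2 := hlarge y hyL
      rw [one_div, inv_pow, ← div_eq_mul_inv, lt_div_iff₀ (by positivity)]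
      exact h2
    have hw := window (θ := θ) (τ := 1 / T) (T := T) (P := Real.exp y) (by positivity) hPj hT1 hc
      (F.filter (fun s => J s = j)) (fun s hs => hF s (Finset.mem_filter.1 hs).1) (fun s hs => ?_)
      (fun s hs => ?_)
    · rw [Real.log_exp] at hw
      refine hw.trans (le_of_eq ?_)
      have e1 : Real.log T = C * ((j + 1) * Real.log 2 + Real.log L) := by
        rw [hT, Real.log_pow, hy]
        congr 1
        have e2 : 2 * ((2 : ℝ) ^ j * L) = 2 ^ (j + 1) * L := by ring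
        rw [e2, Real.log_mul (by positivity) hL.ne', Real.log_pow]
        push_cast
        ring
      rw [e1, hy]
      field_simp
      ring
    · obtain ⟨hs1, hs2⟩ := Finset.mem_filter.1 hs
      have hs0 : (0 : ℝ) < s := by linarith [h1 s hs1]
      have a1 := hJ1 s hs1
      have a2 := hJ2 s hs1
      rw [hs2] at a1 a2
      constructor
      · calc Real.exp y ≤ Real.exp (Real.log s) := Real.exp_le_exp.2 a1
          _ = s := Real.exp_log hs0
      · calc (s : ℝ) = Real.exp (Real.log s) := (Real.exp_log hs0).symm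
          _ ≤ Real.exp (2 * y) := Real.exp_le_exp.2 (by rw [hy]; rw [pow_succ] at a2; linarith)
          _ = Real.exp y ^ 2 := by rw [← Real.exp_nat_mul]; norm_num
    · obtain ⟨hs1, hs2⟩ := Finset.mem_filter.1 hs
      have a2 := hJ2 s hs1
      rw [hs2] at a2
      have b1 : 0 < Real.log s := by linarith [hls s hs1]
      have b2 : Real.log s ^ C ≤ T := by
        rw [hT]
        refine pow_le_pow_left₀ b1.le ?_ C
        rw [hy]; rw [pow_succ] at a2; linarith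
      exact (hB s hs1).mono (one_div_le_one_div_of_le (by positivity) b2) (by positivity) b2
  rw [hfib]
  refine (Finset.sum_le_sum fun j _ => hone j).trans ?_
  rw [Finset.sum_add_distrib, ← Finset.mul_sum, ← Finset.mul_sum]
  have g1 := mul_le_mul_of_nonneg_left (sum_geo2 N)
    (show (0 : ℝ) ≤ 2 * C * Real.log 2 / L by positivity)
  have g2 := mul_le_mul_of_nonneg_left (sum_geo1 N)
    (show (0 : ℝ) ≤ (2 * C * Real.log L + 8) / L by positivity)
  refine (add_le_add g1 g2).trans (le_of_eq ?_)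
  field_simp
  ring

/-- outside of the bad ties a label is super-accurate or inaccurate -/
theorem dich {θ τ T r : ℝ} {ρ : ℚ} {s : ℕ} (h : ¬ Bad θ τ T s) (hL : Lab θ r ρ)
    (hr : τ ≤ s * r) : s * |θ - ρ| < 1 / T ∨ T < s * |θ - ρ| := by
  by_contra hc
  push Not at hc
  exact h ⟨r, ρ, hL, hr, hc.1, hc.2⟩

/-- **a super-accurate label stays accurate for ever**: `R` = radius after the missing tie `s`,
`V` = any part of the remaining missing product -/
theorem super_near {e T R V : ℝ} (he0 : 0 ≤ e) (hR : 0 < R) (hV : 1 ≤ V) (hVR : V * R ≤ 1)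
    (hT : 1 ≤ T * R) (he : e ≤ 1 / T) : (V * e) ^ 5 ≤ (V * R) ^ 4 := by
  have hT0 : 0 < T := by
    by_contra hc
    have : T * R ≤ 0 := mul_nonpos_of_nonpos_of_nonneg (not_lt.1 hc) hR.le
    linarith
  have h1 : e ≤ R := by
    refine he.trans ?_
    rw [div_le_iff₀ hT0]
    linarith
  have hV0 : 0 < V := by linarith
  have h2 : V * e ≤ V * R := mul_le_mul_of_nonneg_left h1 hV0.le
  calc (V * e) ^ 5 = (V * e) * (V * e) ^ 4 := by ring
    _ ≤ 1 * (V * e) ^ 4 := mul_le_mul_of_nonneg_right (h2.trans hVR) (by positivity)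
    _ = (V * e) ^ 4 := one_mul _
    _ ≤ (V * R) ^ 4 := pow_le_pow_left₀ (by positivity) h2 4

end Crest.Agent.R4P.Win10
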