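import Crest.Agent.R4P.XmM_18
import Crest.Agent.R4P.NcC_37

/-!
R4 (S0004) with powers, helper18: **pairs of labelled pieces of two nodes of one circle** (E3a).

`R` : pairs of pieces with one real index at the column `p`, labelled; one label `σ` on the first side,
one label `σ'` on the second side (`L2`); `K ≤ den (B σ), den (B' σ')`.

* `small_mass` : both cofactors `≤ √K` and a prime `≥ Z` in one of them: `8 (1/Z + 2 √K ε)` times the
  masses of the pieces which occur (no logarithm).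
* `inv_sum` : `∑ 1 / (D D') ≤ 4 (1 + log Y)² / √K` over the related pairs with one cofactor `> √K`.
* **`pair_mass`** : `Q R (vN s) (vN s') ≤ (8 / Z + C log P K^(-1/8)) (∑_F M_q + ∑_G M_r)`.
-/

set_option autoImplicit false
set_option linter.unusedSectionVars false
set_option linter.unusedVariables false

open MeasureTheory Filter

namespace Crest.Agent.R4P.XmG18

open Crest.Agent.R4.Tour104 Crest.Agent.R4.Tour758 Crest.Agent.R4.Avg758 Crest.Agent.R4.Clos758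
open Crest.Agent.R4.ClosL758 Crest.Agent.R4.ClosG758 Crest.Agent.R4.ClosR758
open Crest.Agent.R4.HVW560
open Crest.Agent.R4.Fam464 Crest.Agent.R4.Piece464
open Crest.Agent.R4P.Cnt588 Crest.Agent.R4P.Item758 Crest.Agent.R4P.AvgItem710
open Crest.Agent.R4P.Walk560 Crest.Agent.R4P.NodeG33
open Crest.Agent.R4P.Data758 Crest.Agent.R4P.Skel189
open Crest.Agent.R4P.Bld532 (NS All)
open Crest.Agent.R4P.Step588 (NDt CT CT_pos ctx_NDt)
open Crest.Agent.R4.Soft104 (w)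
open Crest.Agent.R4P.SameIx30 Crest.Agent.R4P.GPair33
open Crest.Agent.R4P.ShR18 (Co)
open Crest.Agent.R4P.SpM18 Crest.Agent.R4P.XmE18 Crest.Agent.R4P.XmM18
open Crest.Agent.R4P.GcdK37 (ind ind_t ind_f ind_nn ind_le)
open Crest.Agent.R4P

variable {N : Skel189.Num} {γ : ℝ} {p0 P₀ : ℕ} {X : Ctx N γ p0 P₀}

/-- **one label on each side** -/
structure L2 (X : Ctx N γ p0 P₀) (p : ℕ) (R : Finset (X.c.Lam × X.c.Lam)) (σ σ' : ℚ) : Prop where
  ix : ∀ x ∈ R, (X.c.world p x.1.1).1 = (X.c.world p x.2.1).1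
  e1 : ∀ x ∈ R, X.c.st p x.1.1.1 = some σ
  e2 : ∀ x ∈ R, X.c.st p x.2.1.1 = some σ'

lemma L2.lb {p : ℕ} {R : Finset (X.c.Lam × X.c.Lam)} {σ σ' : ℚ} (h : L2 X p R σ σ') : LB X p R :=
  ⟨h.ix, fun x hx => by rw [h.e1 x hx]; simp⟩

lemma L2.mono {p : ℕ} {R R' : Finset (X.c.Lam × X.c.Lam)} {σ σ' : ℚ} (h : L2 X p R σ σ')
    (hs : R' ⊆ R) : L2 X p R' σ σ' :=
  ⟨fun x hx => h.ix x (hs hx), fun x hx => h.e1 x (hs hx), fun x hx => h.e2 x (hs hx)⟩

/-- the items of a pair of pieces -/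
def it2 (x : X.c.Lam × X.c.Lam) : ℕ × ℕ := (x.1.1.1, x.2.1.1)

/-- a dead piece has the value zero -/
lemma vN_dead {s : NS} {t : IT} (h : QX X s t) {j : X.c.Lam} (hj : j.1.1 ∉ X.S') (y : ℝ) :
    vN X (.inl (s, t)) j y = 0 := by
  by_contra hne
  obtain ⟨h1, a, h2, -⟩ := (X.c.D.par X.Y).supp (b := s.B) (pr := s.A) (c := 1) h.B_pos h.fit
    (wts_nd h X.Y) (one_dvd _) (j := j) (x := y) hne
  exact h2 (NI927.ctx_dead X j hj _)

lemma vN_out {s : NS} {t : IT} {j : X.c.Lam} (hj : j.1.1 ∉ t.items) (y : ℝ) :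
    vN X (.inl (s, t)) j y = 0 := (X.c.D.par X.Y).U_zero t _ _ _ j hj y

/-- the congruence of a pair with a common point -/
lemma co_pt {s s' : NS} {t t' : IT} (h : QX X s t) (h' : QX X s' t') {p : ℕ}
    (hp : p ≤ top X.S) (hlam : X.c.lam p = 0) (hT : s.A * s.B = s'.A * s'.B)
    {R : Finset (X.c.Lam × X.c.Lam)} {σ σ' : ℚ} (hR : L2 X p R σ σ') {x : X.c.Lam × X.c.Lam}
    (hx : x ∈ R) {y : ℝ} (hy : vN X (.inl (s, t)) x.1 y * vN X (.inl (s', t')) x.2 y ≠ 0) :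
    x.1.1.1 ∈ t.items ∧ x.2.1.1 ∈ t'.items ∧ x.1.1.1 ∈ X.S' ∧ x.2.1.1 ∈ X.S' ∧
    Co ((D2 s s' (it2 x) : ℕ) * (s.B * σ)) ((D1 s s' (it2 x) : ℕ) * (s'.B * σ')) := by
  have y1 := left_ne_zero_of_mul hy
  have y2 := right_ne_zero_of_mul hy
  have i1 : x.1.1.1 ∈ t.items := by
    by_contra hn
    exact y1 (vN_out hn y)
  have i2 : x.2.1.1 ∈ t'.items := by
    by_contra hn
    exact y2 (vN_out hn y)
  have i3 : x.1.1.1 ∈ X.S' := by
    by_contra hn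
    exact y1 (vN_dead h hn y)
  have i4 : x.2.1.1 ∈ X.S' := by
    by_contra hn
    exact y2 (vN_dead h' hn y)
  refine ⟨i1, i2, i3, i4, ?_⟩
  obtain ⟨a, a', -, -, k⟩ := exact_pt h h' hp hlam hT (hR.ix x hx) (hR.e1 x hx) (hR.e2 x hx)
    (y := y) y1 y2
  have hw : 0 < x.1.1.1 / s.A := Nat.pos_of_ne_zero (h.div_ne i1)
  have hg0 : (0 : ℚ) < ((x.1.1.1 / s.A).gcd (x.2.1.1 / s'.A) : ℕ) := by
    exact_mod_cast Nat.gcd_pos_of_pos_left _ hw
  have ew : ((x.1.1.1 / s.A : ℕ) : ℚ) = ((x.1.1.1 / s.A).gcd (x.2.1.1 / s'.A) : ℕ) *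
      (D1 s s' (it2 x) : ℕ) := by
    exact_mod_cast (Crest.Agent.R4.AvgItem710.mul_cof).symm
  have ew' : ((x.2.1.1 / s'.A : ℕ) : ℚ) = ((x.1.1.1 / s.A).gcd (x.2.1.1 / s'.A) : ℕ) *
      (D2 s s' (it2 x) : ℕ) := by
    exact_mod_cast (Crest.Agent.R4.AvgItem710.mul_cof').symm
  rw [ew, ew'] at k
  have k2 : ((a : ℚ) + s.B * σ) * (D2 s s' (it2 x) : ℕ) =
      (a' + s'.B * σ') * (D1 s s' (it2 x) : ℕ) := by
    apply mul_left_cancel₀ hg0.ne'
    linear_combination k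
  refine ⟨a' * (D1 s s' (it2 x) : ℕ) - a * (D2 s s' (it2 x) : ℕ), ?_⟩
  push_cast
  linear_combination k2

open Classical in
/-- sum over pairs: every first piece is against the pieces of one item -/
lemma fib_fst {R : Finset (X.c.Lam × X.c.Lam)} {F : X.c.Lam → X.c.Lam → ℝ} (hF : ∀ i j, 0 ≤ F i j)
    (r : X.c.Lam → ℕ) (hr : ∀ x ∈ R, x.2.1.1 = r x.1) {C : ℝ} {m : X.c.Lam → ℝ}
    (hC : ∀ j ∈ R.image Prod.fst,
      ∑ i ∈ Finset.univ.filter (fun i : X.c.Lam => i.1.1 = r j), F j i ≤ C * m j) :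
    ∑ x ∈ R, F x.1 x.2 ≤ C * ∑ j ∈ R.image Prod.fst, m j := by
  rw [← Finset.sum_fiberwise_of_maps_to (s := R) (t := R.image Prod.fst) (g := Prod.fst)
    (fun x hx => Finset.mem_image_of_mem _ hx), Finset.mul_sum]
  refine Finset.sum_le_sum fun j hj => le_trans ?_ (hC j hj)
  have hinj : Set.InjOn (Prod.snd : X.c.Lam × X.c.Lam → X.c.Lam)
      ((R.filter fun x => x.1 = j : Finset _) : Set (X.c.Lam × X.c.Lam)) := by
    intro x hx x' hx' he
    have h1 := (Finset.mem_filter.1 (Finset.mem_coe.1 hx)).2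
    have h2 := (Finset.mem_filter.1 (Finset.mem_coe.1 hx')).2
    exact Prod.ext (h1.trans h2.symm) he
  have e : ∑ x ∈ R.filter (fun x => x.1 = j), F x.1 x.2 =
      ∑ i ∈ (R.filter fun x => x.1 = j).image Prod.snd, F j i := by
    rw [Finset.sum_image hinj]
    refine Finset.sum_congr rfl fun x hx => ?_
    rw [(Finset.mem_filter.1 hx).2]
  rw [e]
  refine Finset.sum_le_sum_of_subset_of_nonneg ?_ fun i _ _ => hF j i
  intro i hi
  obtain ⟨x, hx, rfl⟩ := Finset.mem_image.1 hi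
  obtain ⟨hx1, hx2⟩ := Finset.mem_filter.1 hx
  refine Finset.mem_filter.2 ⟨Finset.mem_univ _, ?_⟩
  rw [hr x hx1, hx2]

lemma swap_D {s s' : NS} {q r : ℕ} : D2 s s' (q, r) = D1 s' s (r, q) := rfl

open Classical in
/-- **small cofactors, in terms of the masses** -/
theorem small_mass {s s' : NS} {t t' : IT} (h : MN X s t) (h' : MN X s' t')
    {R : Finset (X.c.Lam × X.c.Lam)} {ρ ρ' : ℚ} {U Z ε : ℝ} (hU : U * U ≤ ρ.den) (hZ : 0 < Z)
    (hU0 : 0 ≤ U) (hR : ∀ x ∈ R, x.1.1.1 ∈ t.items ∧ x.2.1.1 ∈ t'.items ∧ x.1.1.1 ∈ X.S' ∧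
      x.2.1.1 ∈ X.S' ∧ (D1 s s' (it2 x) : ℝ) ≤ U ∧ (D2 s s' (it2 x) : ℝ) ≤ U ∧
      Co ((D2 s s' (it2 x) : ℕ) * ρ) ((D1 s s' (it2 x) : ℕ) * ρ'))
    (hr : ∀ x ∈ R, RB X s x.1.1.1 ≤ ε ∧ RB X s' x.2.1.1 ≤ ε)
    (hS : ∀ x ∈ R, ∃ l : ℕ, l.Prime ∧ Z ≤ l ∧ (l ∣ D1 s s' (it2 x) ∨ l ∣ D2 s s' (it2 x))) :
    Q R (vN X (.inl (s, t))) (vN X (.inl (s', t'))) ≤ 8 * (1 / Z + 2 * (U * ε)) *
      (∑ j ∈ R.image Prod.fst, I (vN X (.inl (s, t)) j) +
        ∑ i ∈ R.image Prod.snd, I (vN X (.inl (s', t')) i)) := by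
  set f := vN X (.inl (s, t)) with hf
  set g := vN X (.inl (s', t')) with hg
  have pf : ∀ j, PB (f j) := fun j => PB_vN_inl h.nd j
  have pg : ∀ j, PB (g j) := fun j => PB_vN_inl h'.nd j
  have n1 : 0 ≤ ∑ j ∈ R.image Prod.fst, I (f j) :=
    Finset.sum_nonneg fun j _ => I_nonneg fun y => (pf j).nonneg y
  have n2 : 0 ≤ ∑ i ∈ R.image Prod.snd, I (g i) :=
    Finset.sum_nonneg fun j _ => I_nonneg fun y => (pg j).nonneg y
  have hab : ∀ j : X.c.Lam, (X.c.D.par X.Y).al j ≤ (X.c.D.par X.Y).be j := fun j =>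
    (X.ok.bpm _ (Cf.mem_S j) (Cf.r_pos j) (Nat.le_succ _))
  rcases R.eq_empty_or_nonempty with hE | ⟨x0, hx0⟩
  · subst hE
    simp [Q]
  have hε : 0 ≤ ε := by
    have h1 := (hr x0 hx0).1
    have h2 : 0 < RB X s x0.1.1.1 :=
      mul_pos (by exact_mod_cast h.nd.B_pos) ((X.ok.rad X.Y).pos _)
    linarith
  have hC0 : 0 ≤ 8 * (1 / Z + 2 * (U * ε)) := by positivity
  -- one ratio
  have hcp : ∀ x ∈ R, Nat.Coprime (D1 s s' (it2 x)) (D2 s s' (it2 x)) := fun x hx =>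
    Crest.Agent.R4.AvgItem710.cof_coprime (Nat.pos_of_ne_zero (h.nd.div_ne (hR x hx).1))
  have hpos : ∀ x ∈ R, 0 < D1 s s' (it2 x) ∧ 0 < D2 s s' (it2 x) := fun x hx =>
    cof_self_pos h.nd h'.nd (hR x hx).1 (hR x hx).2.1
  have hrat : ∀ x ∈ R, D1 s s' (it2 x) = D1 s s' (it2 x0) ∧
      D2 s s' (it2 x) = D2 s s' (it2 x0) := by
    intro x hx
    obtain ⟨a1, a2, a3, a4, a5, a6, a7⟩ := hR x hx
    obtain ⟨b1, b2, b3, b4, b5, b6, b7⟩ := hR x0 hx0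
    have k := ShR18.uniq hU a6 a5 b6 b5 (hpos x hx).2 (hpos x hx).1 (hpos x0 hx0).2
      (hpos x0 hx0).1 a7 b7
    -- `D1 x0 * D2 x = D1 x * D2 x0`
    have d1 : D1 s s' (it2 x) ∣ D1 s s' (it2 x0) := by
      refine (hcp x hx).dvd_of_dvd_mul_right (k := D1 s s' (it2 x)) ?_
      rw [k]; exact Dvd.intro _ rfl
    have d2 : D1 s s' (it2 x0) ∣ D1 s s' (it2 x) := by
      refine (hcp x0 hx0).dvd_of_dvd_mul_right (k := D1 s s' (it2 x0)) ?_
      rw [← k]; exact Dvd.intro _ rfl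
    have e1 : D1 s s' (it2 x) = D1 s s' (it2 x0) := Nat.dvd_antisymm d1 d2
    refine ⟨e1, ?_⟩
    rw [e1] at k
    exact Nat.eq_of_mul_eq_mul_left (hpos x0 hx0).1 k
  -- `q D2 = r D1`
  have hq : ∀ x ∈ R, (x.1.1.1 / s.A) * D2 s s' (it2 x) = (x.2.1.1 / s'.A) * D1 s s' (it2 x) := by
    intro x hx
    have ew : x.1.1.1 / s.A = ((x.1.1.1 / s.A).gcd (x.2.1.1 / s'.A)) * D1 s s' (it2 x) :=
      (Crest.Agent.R4.AvgItem710.mul_cof).symm
    have ew' : x.2.1.1 / s'.A = ((x.1.1.1 / s.A).gcd (x.2.1.1 / s'.A)) * D2 s s' (it2 x) :=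
      (Crest.Agent.R4.AvgItem710.mul_cof').symm
    calc (x.1.1.1 / s.A) * D2 s s' (it2 x)
        = ((x.1.1.1 / s.A).gcd (x.2.1.1 / s'.A)) * D1 s s' (it2 x) * D2 s s' (it2 x) := by
          rw [← ew]
      _ = (((x.1.1.1 / s.A).gcd (x.2.1.1 / s'.A)) * D2 s s' (it2 x)) * D1 s s' (it2 x) := by ring
      _ = (x.2.1.1 / s'.A) * D1 s s' (it2 x) := by rw [← ew']
  have hdiv : ∀ {s : NS} {t : IT} (h : QX X s t) {q r : ℕ}, q ∈ t.items → r ∈ t.items →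
      q / s.A = r / s.A → q = r := by
    intro s t h q r hq hr he
    have h1 := h.bk.dvd _ hq
    have h2 := h.bk.dvd _ hr
    rw [← Nat.mul_div_cancel' h1, ← Nat.mul_div_cancel' h2, he]
  have e2 : ∀ x ∈ R, ∀ x' ∈ R, x.1.1.1 = x'.1.1.1 → x.2.1.1 = x'.2.1.1 := by
    intro x hx x' hx' he
    have k1 := hq x hx
    have k2 := hq x' hx'
    rw [(hrat x hx).1, (hrat x hx).2] at k1
    rw [(hrat x' hx').1, (hrat x' hx').2, ← he, k1] at k2
    exact hdiv h'.nd (hR x hx).2.1 (hR x' hx').2.1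
      (Nat.eq_of_mul_eq_mul_right (hpos x0 hx0).1 k2)
  have e1 : ∀ x ∈ R, ∀ x' ∈ R, x.2.1.1 = x'.2.1.1 → x.1.1.1 = x'.1.1.1 := by
    intro x hx x' hx' he
    have k1 := hq x hx
    have k2 := hq x' hx'
    rw [(hrat x hx).1, (hrat x hx).2] at k1
    rw [(hrat x' hx').1, (hrat x' hx').2, ← he, ← k1] at k2
    exact (hdiv h.nd (hR x' hx').1 (hR x hx).1
      (Nat.eq_of_mul_eq_mul_right (hpos x0 hx0).2 k2)).symm
  obtain ⟨l, hl, hlZ, hd⟩ := hS x0 hx0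
  have hl0 : (0 : ℝ) < l := by exact_mod_cast hl.pos
  have hlz : 1 / (l : ℝ) ≤ 1 / Z := one_div_le_one_div_of_le hZ hlZ
  have hRB0 : ∀ (u : NS) (τ : IT) (hu : QX X u τ) (q : ℕ), 0 ≤ RB X u q := fun u τ hu q =>
    (mul_pos (by exact_mod_cast hu.B_pos : (0:ℝ) < u.B) ((X.ok.rad X.Y).pos q)).le
  rcases hd with hd | hd
  · -- the prime is in the cofactor of the first item
    classical
    set r : X.c.Lam → ℕ := fun j => if hj : ∃ x ∈ R, x.1 = j then (Classical.choose hj).2.1.1 else 0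
      with hrd
    have hrr : ∀ x ∈ R, x.2.1.1 = r x.1 := by
      intro x hx
      have hj : ∃ x' ∈ R, x'.1 = x.1 := ⟨x, hx, rfl⟩
      have h1 : r x.1 = (Classical.choose hj).2.1.1 := dif_pos hj
      have h2 := Classical.choose_spec hj
      rw [h1]
      exact e2 x hx _ h2.1 (by rw [h2.2])
    have key : ∑ x ∈ R, (fun j i => I (fun y => f j y * g i y)) x.1 x.2 ≤
        8 * (1 / Z + 2 * (U * ε)) * ∑ j ∈ R.image Prod.fst, I (f j) := by
      refine fib_fst (F := fun j i => I (fun y => f j y * g i y))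
        (fun j i => I_nonneg fun y => mul_nonneg ((pf j).nonneg y) ((pg i).nonneg y)) r hrr
        (m := fun j => I (f j)) fun j hj => ?_
      obtain ⟨x, hx, rfl⟩ := Finset.mem_image.1 hj
      obtain ⟨a1, a2, a3, a4, a5, a6, a7⟩ := hR x hx
      rw [← hrr x hx]
      have k := row_le (D := X.c.D.par X.Y) (X.ok.rad X.Y) hab (K := 4) (by norm_num)
        h.nd.B_pos h'.nd.B_pos h.nd.fit h'.nd.fit (wts_nd h.nd X.Y) (wts_nd h'.nd X.Y) (j := x.1)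
        a1 (h.lf x.1 a3 a1) (r := x.2.1.1) a2 hl
        (by
          show l ∣ D1 s s' (it2 x)
          rw [(hrat x hx).1]; exact hd) Finset.univ
      have hIf : 0 ≤ I (f x.1) := I_nonneg fun y => (pf x.1).nonneg y
      refine k.trans (mul_le_mul_of_nonneg_right ?_ hIf)
      have h1 : ((D1 s s' (it2 x) : ℕ) : ℝ) * (s'.B * X.c.rr x.2.1.1) ≤ U * ε :=
        mul_le_mul a5 (hr x hx).2 (hRB0 s' t' h'.nd _) hU0
      show 2 * 4 * (1 / (l : ℝ) + 2 * (((D1 s s' (it2 x) : ℕ) : ℝ) * (s'.B * X.c.rr x.2.1.1))) ≤ _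
      linarith
    calc Q R f g = ∑ x ∈ R, (fun j i => I (fun y => f j y * g i y)) x.1 x.2 := rfl
      _ ≤ _ := key
      _ ≤ _ := mul_le_mul_of_nonneg_left (by linarith) hC0
  · -- the prime is in the cofactor of the second item
    classical
    set R' : Finset (X.c.Lam × X.c.Lam) := R.image Prod.swap with hR'
    have hm : ∀ {x : X.c.Lam × X.c.Lam}, x ∈ R' → x.swap ∈ R := by
      intro x hx
      obtain ⟨z, hz, rfl⟩ := Finset.mem_image.1 hx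
      rwa [Prod.swap_swap]
    set r : X.c.Lam → ℕ := fun j => if hj : ∃ x ∈ R', x.1 = j then (Classical.choose hj).2.1.1 else 0
      with hrd
    have hrr : ∀ x ∈ R', x.2.1.1 = r x.1 := by
      intro x hx
      have hj : ∃ x' ∈ R', x'.1 = x.1 := ⟨x, hx, rfl⟩
      have h1 : r x.1 = (Classical.choose hj).2.1.1 := dif_pos hj
      have h2 := Classical.choose_spec hj
      rw [h1]
      exact e1 x.swap (hm hx) _ (hm h2.1) (by
        show x.1.1.1 = (Classical.choose hj).1.1.1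
        rw [h2.2])
    have key : ∑ x ∈ R', (fun i j => I (fun y => g i y * f j y)) x.1 x.2 ≤
        8 * (1 / Z + 2 * (U * ε)) * ∑ i ∈ R'.image Prod.fst, I (g i) := by
      refine fib_fst (F := fun i j => I (fun y => g i y * f j y))
        (fun j i => I_nonneg fun y => mul_nonneg ((pg j).nonneg y) ((pf i).nonneg y)) r hrr
        (m := fun j => I (g j)) fun j hj => ?_
      obtain ⟨x', hx', rfl⟩ := Finset.mem_image.1 hj
      set x := x'.swap with hxs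
      have hx : x ∈ R := hm hx'
      obtain ⟨a1, a2, a3, a4, a5, a6, a7⟩ := hR x hx
      rw [← hrr x' hx']
      have k := row_le (D := X.c.D.par X.Y) (X.ok.rad X.Y) hab (K := 4) (by norm_num)
        h'.nd.B_pos h.nd.B_pos h'.nd.fit h.nd.fit (wts_nd h'.nd X.Y) (wts_nd h.nd X.Y) (j := x.2)
        a2 (h'.lf x.2 a4 a2) (r := x.1.1.1) a1 hl
        (by
          show l ∣ D2 s s' (it2 x)
          rw [(hrat x hx).2]; exact hd) Finset.univ
      have hIg : 0 ≤ I (g x.2) := I_nonneg fun y => (pg x.2).nonneg y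
      refine k.trans (mul_le_mul_of_nonneg_right ?_ hIg)
      have h1 : ((D2 s s' (it2 x) : ℕ) : ℝ) * (s.B * X.c.rr x.1.1.1) ≤ U * ε :=
        mul_le_mul a6 (hr x hx).1 (hRB0 s t h.nd _) hU0
      show 2 * 4 * (1 / (l : ℝ) + 2 * (((D2 s s' (it2 x) : ℕ) : ℝ) * (s.B * X.c.rr x.1.1.1))) ≤ _
      linarith
    have e5 : R'.image Prod.fst = R.image Prod.snd := by
      rw [hR', Finset.image_image]
      rfl
    have e6 : ∑ x ∈ R', (fun i j => I (fun y => g i y * f j y)) x.1 x.2 = Q R f g := by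
      rw [hR', Finset.sum_image (Prod.swap_injective.injOn)]
      unfold Q
      refine Finset.sum_congr rfl fun x _ => ?_
      show I (fun y => g x.2 y * f x.1 y) = _
      congr 1
      funext y
      ring
    rw [e6, e5] at key
    exact key.trans (mul_le_mul_of_nonneg_left (by linarith) hC0)

/-! ### large cofactors -/

/-- one side -/
lemma inv_half {ρ ρ' : ℚ} {K : ℝ} (hK : 1 ≤ K) (hρ' : K ≤ ρ'.den) {Y : ℕ} (hY : 1 ≤ Y)
    {G : Finset (ℕ × ℕ)} (hG : ∀ z ∈ G, 0 < z.1 ∧ 0 < z.2 ∧ z.1 ≤ Y ∧ z.2 ≤ Y ∧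
      Co ((z.1 : ℕ) * ρ') ((z.2 : ℕ) * ρ) ∧ √K < z.1) :
    ∑ z ∈ G, (1 : ℝ) / (z.1 * z.2) ≤ (1 + Real.log Y) ^ 2 * (1 / √K) := by
  classical
  have hs : 1 ≤ √K := Real.one_le_sqrt.2 hK
  have hs0 : 0 < √K := by linarith
  have hK0 : 0 < K := by linarith
  have hsK : √K ≤ K := by
    nlinarith [Real.sq_sqrt hK0.le]
  have hlY : 0 ≤ Real.log (Y : ℝ) := Real.log_natCast_nonneg Y
  have hY1 : (1 : ℝ) ≤ Y := by exact_mod_cast hY
  rw [← Finset.sum_fiberwise_of_maps_to (s := G) (t := Finset.Icc 1 Y) (g := Prod.snd)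
    (fun z hz => Finset.mem_Icc.2 ⟨(hG z hz).2.1, (hG z hz).2.2.2.1⟩)]
  have hin : ∀ v ∈ Finset.Icc 1 Y, ∑ z ∈ G.filter (fun z => z.2 = v), (1 : ℝ) / (z.1 * z.2) ≤
      (1 : ℝ) / v * ((1 + Real.log Y) * (1 / √K)) := by
    intro v hv
    have hv0 : (0 : ℝ) < v := by exact_mod_cast (Finset.mem_Icc.1 hv).1
    have hinj : Set.InjOn (Prod.fst : ℕ × ℕ → ℕ)
        ((G.filter fun z => z.2 = v : Finset _) : Set (ℕ × ℕ)) := by
      intro x hx x' hx' he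
      have h1 := (Finset.mem_filter.1 (Finset.mem_coe.1 hx)).2
      have h2 := (Finset.mem_filter.1 (Finset.mem_coe.1 hx')).2
      exact Prod.ext he (h1.trans h2.symm)
    have e : ∑ z ∈ G.filter (fun z => z.2 = v), (1 : ℝ) / (z.1 * z.2) =
        1 / (v : ℝ) * ∑ n ∈ (G.filter fun z => z.2 = v).image Prod.fst, (1 : ℝ) / n := by
      rw [Finset.sum_image hinj, Finset.mul_sum]
      refine Finset.sum_congr rfl fun z hz => ?_
      rw [(Finset.mem_filter.1 hz).2]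
      rw [one_div_mul_one_div, mul_comm]
    rw [e]
    refine mul_le_mul_of_nonneg_left ?_ (by positivity)
    have hPQ : √K ≤ max (Y : ℝ) (√K) := le_max_right _ _
    have k := ShR18.class_sum (ρ := ρ') (θ := (v : ℕ) * ρ) hs0 hPQ
      (F := (G.filter fun z => z.2 = v).image Prod.fst) (fun n hn => by
        obtain ⟨z, hz, rfl⟩ := Finset.mem_image.1 hn
        obtain ⟨hz1, hz2⟩ := Finset.mem_filter.1 hz
        obtain ⟨c1, c2, c3, c4, c5, c6⟩ := hG z hz1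
        refine ⟨c6, ?_, ?_⟩
        · exact (by exact_mod_cast c3 : (z.1 : ℝ) ≤ Y).trans (le_max_left _ _)
        · rw [hz2] at c5; exact c5)
    refine k.trans ?_
    have hden : (0 : ℝ) < ρ'.den := by exact_mod_cast ρ'.pos
    have hlog : Real.log (max (Y : ℝ) (√K) / √K) ≤ Real.log Y := by
      rcases le_total (Y : ℝ) (√K) with h | h
      · rw [max_eq_right h, div_self hs0.ne', Real.log_one]; exact hlY
      · rw [max_eq_left h]
        exact Real.log_le_log (by positivity) (div_le_self (by linarith) hs)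
    have h1 : Real.log (max (Y : ℝ) (√K) / √K) / ρ'.den ≤ Real.log Y * (1 / √K) := by
      rw [mul_one_div]
      exact (div_le_div_of_nonneg_right hlog hden.le).trans
        (div_le_div_of_nonneg_left hlY hs0 (hsK.trans hρ'))
    calc 1 / √K + Real.log (max (Y : ℝ) (√K) / √K) / ρ'.den ≤
        1 / √K + Real.log Y * (1 / √K) := by linarith
      _ = (1 + Real.log Y) * (1 / √K) := by ring
  refine (Finset.sum_le_sum hin).trans ?_
  rw [← Finset.sum_mul]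
  have := GcdK37.harm_le (Y := Y)
  have h2 : 0 ≤ (1 + Real.log Y) * (1 / √K) := by positivity
  calc _ ≤ (1 + Real.log Y) * ((1 + Real.log Y) * (1 / √K)) := mul_le_mul_of_nonneg_right this h2
    _ = _ := by ring

/-- **the related pairs with one cofactor `> √K`** -/
lemma inv_sum {ρ ρ' : ℚ} {K : ℝ} (hK : 1 ≤ K) (hρ : K ≤ ρ.den) (hρ' : K ≤ ρ'.den) {Y : ℕ}
    (hY : 1 ≤ Y) {G : Finset (ℕ × ℕ)} (hG : ∀ z ∈ G, 0 < z.1 ∧ 0 < z.2 ∧ z.1 ≤ Y ∧ z.2 ≤ Y ∧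
      Co ((z.2 : ℕ) * ρ) ((z.1 : ℕ) * ρ') ∧ (√K < z.1 ∨ √K < z.2)) :
    ∑ z ∈ G, (1 : ℝ) / (z.1 * z.2) ≤ 2 * (1 + Real.log Y) ^ 2 * K ^ (-(1 / 2 : ℝ)) := by
  classical
  have hK0 : 0 < K := by linarith
  have e0 : K ^ (-(1 / 2 : ℝ)) = 1 / √K := by
    rw [Real.rpow_neg hK0.le, Real.sqrt_eq_rpow, one_div (K ^ (1 / 2 : ℝ))]
  rw [e0]
  have h1 := inv_half (ρ := ρ) (ρ' := ρ') hK hρ' hY (G := G.filter fun z => √K < (z.1 : ℝ))
    (fun z hz => by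
      obtain ⟨hz1, hz2⟩ := Finset.mem_filter.1 hz
      obtain ⟨c1, c2, c3, c4, c5, c6⟩ := hG z hz1
      exact ⟨c1, c2, c3, c4, c5.symm, hz2⟩)
  have h2 := inv_half (ρ := ρ') (ρ' := ρ) hK hρ hY
    (G := (G.filter fun z => √K < (z.2 : ℝ)).image Prod.swap)
    (fun z hz => by
      obtain ⟨x, hx, rfl⟩ := Finset.mem_image.1 hz
      obtain ⟨hz1, hz2⟩ := Finset.mem_filter.1 hx
      obtain ⟨c1, c2, c3, c4, c5, c6⟩ := hG x hz1
      exact ⟨c2, c1, c4, c3, c5, hz2⟩)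
  rw [Finset.sum_image Prod.swap_injective.injOn] at h2
  have h3 : ∑ x ∈ G.filter (fun z => √K < (z.2 : ℝ)), (1 : ℝ) / ((x.swap.1 : ℕ) * (x.swap.2 : ℕ)) =
      ∑ x ∈ G.filter (fun z => √K < (z.2 : ℝ)), (1 : ℝ) / (x.1 * x.2) :=
    Finset.sum_congr rfl fun x _ => by
      show (1 : ℝ) / ((x.2 : ℕ) * (x.1 : ℕ)) = _
      rw [mul_comm]
  rw [h3] at h2
  have h4 : ∑ z ∈ G, (1 : ℝ) / (z.1 * z.2) ≤
      ∑ z ∈ G.filter (fun z => √K < (z.1 : ℝ)), (1 : ℝ) / (z.1 * z.2) +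
      ∑ z ∈ G.filter (fun z => √K < (z.2 : ℝ)), (1 : ℝ) / (z.1 * z.2) := by
    rw [← Finset.sum_filter_add_sum_filter_not G (fun z => √K < (z.1 : ℝ))]
    refine add_le_add le_rfl (Finset.sum_le_sum_of_subset_of_nonneg ?_ fun i _ _ => by positivity)
    intro z hz
    obtain ⟨hz1, hz2⟩ := Finset.mem_filter.1 hz
    exact Finset.mem_filter.2 ⟨hz1, (hG z hz1).2.2.2.2.2.resolve_left hz2⟩
  calc _ ≤ _ := h4
    _ ≤ (1 + Real.log Y) ^ 2 * (1 / √K) + (1 + Real.log Y) ^ 2 * (1 / √K) := add_le_add h1 h2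
    _ = _ := by ring

open Classical in
/-- **PAIRS OF TWO NODES** -/
theorem pair_mass {A : ℝ} (hA : 0 ≤ A) : ∃ C : ℝ, 1 ≤ C ∧ ∀ (N : Skel189.Num) (γ : ℝ) (p0 P₀ : ℕ)
    (X : Ctx N γ p0 P₀) (s s' : NS) (t t' : IT) (p P : ℕ) (σ σ' : ℚ)
    (R : Finset (X.c.Lam × X.c.Lam)) (F G : Finset ℕ) (K Z : ℝ),
    MN X s t → MN X s' t' → s.A * s.B = s'.A * s'.B → p ≤ top X.S → X.c.lam p = 0 →
    p0 ≤ P → (∀ r : ℕ, r.Prime → r < s.n → r ≤ P) → (∀ r : ℕ, r.Prime → r < s'.n → r ≤ P) →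
    L2 X p R σ σ' → 1 ≤ K → 0 < Z → K ≤ ((s.B : ℚ) * σ).den → K ≤ ((s'.B : ℚ) * σ').den →
    (∀ x ∈ R, x.1.1.1 ∈ t.items → x.1.1.1 ∈ X.S' → x.1.1.1 ∈ F ∧ RB X s x.1.1.1 ≤ 1 / K) →
    (∀ x ∈ R, x.2.1.1 ∈ t'.items → x.2.1.1 ∈ X.S' → x.2.1.1 ∈ G ∧ RB X s' x.2.1.1 ≤ 1 / K) →
    (∀ q ∈ F, q ∈ t.items ∧ q ∈ X.S') → (∀ q ∈ G, q ∈ t'.items ∧ q ∈ X.S') →
    (F.card : ℝ) ≤ K ^ A → (G.card : ℝ) ≤ K ^ A →
    (∀ x ∈ R, (D1 s s' (it2 x) : ℝ) ≤ √K → (D2 s s' (it2 x) : ℝ) ≤ √K →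
      ∃ l : ℕ, l.Prime ∧ Z ≤ l ∧ (l ∣ D1 s s' (it2 x) ∨ l ∣ D2 s s' (it2 x))) →
    Q R (vN X (.inl (s, t))) (vN X (.inl (s', t'))) ≤
      (8 / Z + C * (1 + Real.log P) * K ^ (-(1 / 8 : ℝ))) *
        (∑ q ∈ F, MI X s t q + ∑ r ∈ G, MI X s' t' r) := by
  obtain ⟨C1, hC1, late⟩ := NcC37.late_rel (A := A) (b := 1 / 2) (C₀ := 2) hA (by norm_num)
    (by norm_num)
  have hCT := CT_pos
  refine ⟨16 + 8 * CT * C1, by nlinarith, ?_⟩
  intro N γ p0 P₀ X s s' t t' p P σ σ' R F G K Z h h' hT hp hlam hP hl1 hl2 hL hK hZ k1 k2 r1 r2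
    f1 f2 c1 c2 hS
  set f := vN X (.inl (s, t)) with hf
  set g := vN X (.inl (s', t')) with hg
  have hK0 : 0 < K := by linarith
  have hs : 1 ≤ √K := Real.one_le_sqrt.2 hK
  have hs0 : 0 < √K := by linarith
  have pf : ∀ j, PB (f j) := fun j => PB_vN_inl h.nd j
  have pg : ∀ j, PB (g j) := fun j => PB_vN_inl h'.nd j
  have m1 : ∀ q, 0 ≤ MI X s t q := MI_nonneg h.nd
  have m2 : ∀ q, 0 ≤ MI X s' t' q := MI_nonneg h'.nd
  have M1 : 0 ≤ ∑ q ∈ F, MI X s t q := Finset.sum_nonneg fun q _ => m1 q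
  have M2 : 0 ≤ ∑ q ∈ G, MI X s' t' q := Finset.sum_nonneg fun q _ => m2 q
  -- the pairs with a common point
  set R0 := R.filter (fun x => ∃ y, f x.1 y * g x.2 y ≠ 0) with hR0
  have hQ : Q R f g = Q R0 f g := by
    unfold Q
    rw [hR0, Finset.sum_filter]
    refine Finset.sum_congr rfl fun x _ => ?_
    split_ifs with hx
    · rfl
    · push Not at hx
      have e1 : (fun y => f x.1 y * g x.2 y) = fun _ => 0 := funext hx
      rw [e1]
      simp [I]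
  have hL0 : L2 X p R0 σ σ' := hL.mono (Finset.filter_subset _ _)
  have hpt : ∀ x ∈ R0, x.1.1.1 ∈ t.items ∧ x.2.1.1 ∈ t'.items ∧ x.1.1.1 ∈ X.S' ∧
      x.2.1.1 ∈ X.S' ∧
      Co ((D2 s s' (it2 x) : ℕ) * (s.B * σ)) ((D1 s s' (it2 x) : ℕ) * (s'.B * σ')) := by
    intro x hx
    obtain ⟨hx1, y, hy⟩ := Finset.mem_filter.1 hx
    exact co_pt h.nd h'.nd hp hlam hT hL hx1 hy
  -- the two parts
  set Sm : X.c.Lam × X.c.Lam → Prop := fun x => (D1 s s' (it2 x) : ℝ) ≤ √K ∧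
    (D2 s s' (it2 x) : ℝ) ≤ √K with hSm
  have hsplit : Q R0 f g = Q (R0.filter Sm) f g + Q (R0.filter fun x => ¬ Sm x) f g := by
    unfold Q
    exact (Finset.sum_filter_add_sum_filter_not _ _ _).symm
  have hsub : ∀ {x}, x ∈ R0 → x ∈ R := fun hx => (Finset.mem_filter.1 hx).1
  -- small cofactors
  have hsmall : Q (R0.filter Sm) f g ≤ 8 * (1 / Z + 2 * (√K * (1 / K))) *
      (∑ q ∈ F, MI X s t q + ∑ r ∈ G, MI X s' t' r) := by
    have hmem : ∀ {x}, x ∈ R0.filter Sm → x ∈ R0 ∧ Sm x := fun hx => Finset.mem_filter.1 hx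
    have key := small_mass h h' (R := R0.filter Sm) (ρ := s.B * σ) (ρ' := s'.B * σ') (U := √K)
      (Z := Z) (ε := 1 / K) (by rw [Real.mul_self_sqrt hK0.le]; exact k1) hZ hs0.le
      (fun x hx => by
        obtain ⟨hx1, hx2⟩ := hmem hx
        obtain ⟨a1, a2, a3, a4, a5⟩ := hpt x hx1
        exact ⟨a1, a2, a3, a4, hx2.1, hx2.2, a5⟩)
      (fun x hx => by
        obtain ⟨hx1, hx2⟩ := hmem hx
        obtain ⟨a1, a2, a3, a4, a5⟩ := hpt x hx1
        exact ⟨(r1 x (hsub hx1) a1 a3).2, (r2 x (hsub hx1) a2 a4).2⟩)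
      (fun x hx => by
        obtain ⟨hx1, hx2⟩ := hmem hx
        exact hS x (hsub hx1) hx2.1 hx2.2)
    refine key.trans (mul_le_mul_of_nonneg_left ?_ (by positivity))
    have fib : ∀ (u : NS) (τ : IT) (hu : QX X u τ) (J : Finset X.c.Lam) (T : Finset ℕ),
        (∀ j ∈ J, j.1.1 ∈ T) → ∑ j ∈ J, I (vN X (.inl (u, τ)) j) ≤ ∑ q ∈ T, MI X u τ q := by
      intro u τ hu J T hJ
      rw [← Finset.sum_fiberwise_of_maps_to (s := J) (t := T) (g := fun j : X.c.Lam => j.1.1) hJ]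
      refine Finset.sum_le_sum fun q _ => ?_
      refine Finset.sum_le_sum_of_subset_of_nonneg ?_ fun j _ _ =>
        I_nonneg fun y => (PB_vN_inl hu j).nonneg y
      intro j hj
      exact Finset.mem_filter.2 ⟨Finset.mem_univ _, (Finset.mem_filter.1 hj).2⟩
    refine add_le_add (fib s t h.nd _ F fun j hj => ?_) (fib s' t' h'.nd _ G fun j hj => ?_)
    · obtain ⟨x, hx, rfl⟩ := Finset.mem_image.1 hj
      obtain ⟨hx1, hx2⟩ := hmem hx
      obtain ⟨a1, a2, a3, a4, a5⟩ := hpt x hx1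
      exact (r1 x (hsub hx1) a1 a3).1
    · obtain ⟨x, hx, rfl⟩ := Finset.mem_image.1 hj
      obtain ⟨hx1, hx2⟩ := hmem hx
      obtain ⟨a1, a2, a3, a4, a5⟩ := hpt x hx1
      exact (r2 x (hsub hx1) a2 a4).1
  -- large cofactors
  have hlarge : Q (R0.filter fun x => ¬ Sm x) f g ≤ 2 * (C1 * K ^ (-(1 / 2 / 4 : ℝ)) *
      (∑ q ∈ F, RB X s q + ∑ r ∈ G, RB X s' r)) := by
    set Rl := R0.filter fun x => ¬ Sm x with hRl
    have hLl : L2 X p Rl σ σ' := hL0.mono (Finset.filter_subset _ _)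
    refine (node_pair h.nd h'.nd hp hlam hT hLl.lb).trans ?_
    set Rel : ℕ → ℕ → Prop := fun D D' => Co ((D' : ℕ) * (s.B * σ)) ((D : ℕ) * (s'.B * σ')) ∧
      (√K < D ∨ √K < D') with hRel
    have dinj : ∀ {u : NS} {τ : IT} (hu : QX X u τ) {q r : ℕ}, q ∈ τ.items → r ∈ τ.items →
        q / u.A = r / u.A → q = r := by
      intro u τ hu q r hq hr he
      have h1 := hu.bk.dvd _ hq
      have h2 := hu.bk.dvd _ hr
      rw [← Nat.mul_div_cancel' h1, ← Nat.mul_div_cancel' h2, he]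
    have key := late ℕ ℕ K Rel F G (fun q => q / s.A) (fun r => r / s'.A) (fun q => RB X s q)
      (fun r => RB X s' r) hK
      (fun Y Q hY hQ => inv_sum hK k1 k2 hY fun z hz => by
        obtain ⟨b1, b2, b3, b4, b5, b6, b7⟩ := hQ z hz
        exact ⟨b1, b2, b4, b5, b6, b7⟩) c1 c2
      (fun q hq => Nat.pos_of_ne_zero (h.nd.div_ne (f1 q hq).1))
      (fun q hq => Nat.pos_of_ne_zero (h'.nd.div_ne (f2 q hq).1))
      (fun q hq r hr he => dinj h.nd (f1 q hq).1 (f1 r hr).1 he)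
      (fun q hq r hr he => dinj h'.nd (f2 q hq).1 (f2 r hr).1 he)
      (fun q _ => (mul_pos (by exact_mod_cast h.nd.B_pos : (0:ℝ) < s.B)
        ((X.ok.rad X.Y).pos q)).le)
      (fun q _ => (mul_pos (by exact_mod_cast h'.nd.B_pos : (0:ℝ) < s'.B)
        ((X.ok.rad X.Y).pos q)).le)
    rw [← Finset.mul_sum]
    refine mul_le_mul_of_nonneg_left (le_trans ?_ key) (by norm_num)
    rw [← Finset.sum_product' (s := F) (t := G) (f := fun i j =>
      ind (Rel ((i / s.A) / (i / s.A).gcd (j / s'.A)) ((j / s'.A) / (i / s.A).gcd (j / s'.A))) *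
      min (RB X s i / ((i / s.A) / (i / s.A).gcd (j / s'.A) : ℕ))
        (RB X s' j / ((j / s'.A) / (i / s.A).gcd (j / s'.A) : ℕ)))]
    have hnn : ∀ e : ℕ × ℕ, 0 ≤ min (RB X s e.1 / ((e.1 / s.A) / (e.1 / s.A).gcd (e.2 / s'.A) : ℕ))
        (RB X s' e.2 / ((e.2 / s'.A) / (e.1 / s.A).gcd (e.2 / s'.A) : ℕ)) := by
      intro e
      have b1 := (mul_pos (by exact_mod_cast h.nd.B_pos : (0:ℝ) < s.B)
        ((X.ok.rad X.Y).pos e.1)).le
      have b2 := (mul_pos (by exact_mod_cast h'.nd.B_pos : (0:ℝ) < s'.B)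
        ((X.ok.rad X.Y).pos e.2)).le
      exact le_min (div_nonneg b1 (Nat.cast_nonneg _)) (div_nonneg b2 (Nat.cast_nonneg _))
    have hD : ∀ e : ℕ × ℕ, D1 s s' e = (e.1 / s.A) / (e.1 / s.A).gcd (e.2 / s'.A) ∧
        D2 s s' e = (e.2 / s'.A) / (e.1 / s.A).gcd (e.2 / s'.A) := by
      intro e
      refine ⟨rfl, ?_⟩
      unfold D2 cof
      rw [Nat.gcd_comm]
    refine le_trans (Finset.sum_le_sum fun e he => ?_)
      (Finset.sum_le_sum_of_subset_of_nonneg (s := (t.items ×ˢ t'.items).filter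
        (XmE18.Rl X p Rl s s')) (t := F ×ˢ G) ?_ fun e _ _ => mul_nonneg (ind_nn _) (hnn e))
    · -- termwise
      obtain ⟨he1, ⟨x, hx, hx1, hx2⟩, -⟩ := Finset.mem_filter.1 he
      obtain ⟨hxR, hns⟩ := Finset.mem_filter.1 hx
      obtain ⟨a1, a2, a3, a4, a5⟩ := hpt x hxR
      have hie : it2 x = e := Prod.ext hx1 hx2
      rw [hie] at a5
      have hns' : √K < D1 s s' e ∨ √K < D2 s s' e := by
        rw [hSm] at hns
        simp only [hie] at hns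
        by_contra hcon
        push Not at hcon
        exact hns hcon
      have hrel : Rel ((e.1 / s.A) / (e.1 / s.A).gcd (e.2 / s'.A))
          ((e.2 / s'.A) / (e.1 / s.A).gcd (e.2 / s'.A)) := by
        rw [← (hD e).1, ← (hD e).2]
        exact ⟨a5, hns'⟩
      rw [ind_t hrel, one_mul, ← (hD e).1, ← (hD e).2]
      rfl
    · intro e he
      obtain ⟨he1, ⟨x, hx, hx1, hx2⟩, -⟩ := Finset.mem_filter.1 he
      obtain ⟨hxR, hns⟩ := Finset.mem_filter.1 hx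
      obtain ⟨a1, a2, a3, a4, a5⟩ := hpt x hxR
      refine Finset.mem_product.2 ⟨?_, ?_⟩
      · rw [← hx1]; exact (r1 x (hsub hxR) a1 a3).1
      · rw [← hx2]; exact (r2 x (hsub hxR) a2 a4).1
  -- radii against masses
  have hlP : 0 ≤ Real.log (P : ℝ) := Real.log_natCast_nonneg P
  have s1 : ∑ q ∈ F, RB X s q ≤ 4 * CT * Real.log P * ∑ q ∈ F, MI X s t q := by
    rw [Finset.mul_sum]
    exact Finset.sum_le_sum fun q hq => h.lo P hP hl1 q (f1 q hq).2 (f1 q hq).1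
  have s2 : ∑ q ∈ G, RB X s' q ≤ 4 * CT * Real.log P * ∑ q ∈ G, MI X s' t' q := by
    rw [Finset.mul_sum]
    exact Finset.sum_le_sum fun q hq => h'.lo P hP hl2 q (f2 q hq).2 (f2 q hq).1
  set M := ∑ q ∈ F, MI X s t q + ∑ r ∈ G, MI X s' t' r with hM
  have hM0 : 0 ≤ M := add_nonneg M1 M2
  have hk8 : (0 : ℝ) < K ^ (-(1 / 8 : ℝ)) := Real.rpow_pos_of_pos hK0 _
  have e8 : K ^ (-(1 / 2 / 4 : ℝ)) = K ^ (-(1 / 8 : ℝ)) := by norm_num
  have e2 : √K * (1 / K) ≤ K ^ (-(1 / 8 : ℝ)) := by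
    have h1 : √K * (1 / K) = K ^ (-(1 / 2 : ℝ)) := by
      rw [Real.sqrt_eq_rpow, one_div K, ← Real.rpow_neg_one, ← Real.rpow_add hK0]
      norm_num
    rw [h1]
    exact Real.rpow_le_rpow_of_exponent_le hK (by norm_num)
  rw [hQ, hsplit]
  rw [e8] at hlarge
  have l1 : 2 * (C1 * K ^ (-(1 / 8 : ℝ)) * (∑ q ∈ F, RB X s q + ∑ r ∈ G, RB X s' r)) ≤
      8 * CT * C1 * Real.log P * K ^ (-(1 / 8 : ℝ)) * M := by
    have l2 : ∑ q ∈ F, RB X s q + ∑ r ∈ G, RB X s' r ≤ 4 * CT * Real.log P * M := by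
      rw [hM, mul_add]; exact add_le_add s1 s2
    have l3 : 0 ≤ C1 * K ^ (-(1 / 8 : ℝ)) := by positivity
    nlinarith [mul_le_mul_of_nonneg_left l2 l3]
  have l4 : 8 * (1 / Z + 2 * (√K * (1 / K))) * M ≤ (8 / Z + 16 * K ^ (-(1 / 8 : ℝ))) * M := by
    refine mul_le_mul_of_nonneg_right ?_ hM0
    have : 8 * (1 / Z) = 8 / Z := by ring
    nlinarith
  have l5 : 0 ≤ 8 * CT * C1 := by positivity
  have l6 : 0 ≤ K ^ (-(1 / 8 : ℝ)) * M := mul_nonneg hk8.le hM0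
  calc Q (R0.filter Sm) f g + Q (R0.filter fun x => ¬ Sm x) f g
      ≤ (8 / Z + 16 * K ^ (-(1 / 8 : ℝ))) * M +
        8 * CT * C1 * Real.log P * K ^ (-(1 / 8 : ℝ)) * M :=
        add_le_add (hsmall.trans l4) (hlarge.trans l1)
    _ ≤ (8 / Z + (16 + 8 * CT * C1) * (1 + Real.log P) * K ^ (-(1 / 8 : ℝ))) * M := by
        have : (8 / Z + (16 + 8 * CT * C1) * (1 + Real.log P) * K ^ (-(1 / 8 : ℝ))) * M =
          (8 / Z + 16 * K ^ (-(1 / 8 : ℝ))) * M +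
          8 * CT * C1 * Real.log P * K ^ (-(1 / 8 : ℝ)) * M +
          (16 * Real.log P * (K ^ (-(1 / 8 : ℝ)) * M) +
            8 * CT * C1 * (K ^ (-(1 / 8 : ℝ)) * M)) := by ring
        rw [this]
        have t1 : 0 ≤ 16 * Real.log P * (K ^ (-(1 / 8 : ℝ)) * M) := by positivity
        have t2 : 0 ≤ 8 * CT * C1 * (K ^ (-(1 / 8 : ℝ)) * M) := mul_nonneg l5 l6
        linarith

end Crest.Agent.R4P.XmG18
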