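import Crest.Agent.R4P.AcT_41
import Crest.Agent.R4P.AcI_41
import Crest.Agent.R4P.XmG_18

/-!
R4 (S0004), powers pass, helper41: **accuracy events against the pieces of the same exact class, two
nodes of one circle** (N|N pairs; also one node).

* `smooth2` : equal retained parts at two nodes of one column: `p`-smooth cofactors;
* **`node_acc`** : `R` = pairs of pieces with one index at the column `p`, one label on each side (`L2`),
  first pieces relatively thin (`R_q ≤ η |E|`, counted), not comparable (one cofactor `> K` or a ratio of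
  the radii `> K`): `Q R (vN s) (vN s') ≤ 2 gI √(∑_F R) √(∑_G R')`;
* **`tie_nn`** : two true ties of one column and one circle: first piece = accuracy death of a dense
  label, second piece missing, dense label: `≤ gI C log p` times the masses of the missing items.
-/

set_option autoImplicit false
set_option linter.unusedSectionVars false
set_option linter.unusedVariables false

open MeasureTheory Filter

namespace Crest.Agent.R4P.XmA41

open Crest.Agent.R4.Tour104 Crest.Agent.R4.Tour758 Crest.Agent.R4.Avg758 Crest.Agent.R4.Clos758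
open Crest.Agent.R4.ClosL758 Crest.Agent.R4.ClosG758 Crest.Agent.R4.ClosR758
open Crest.Agent.R4.HVW560
open Crest.Agent.R4.Fam464 Crest.Agent.R4.Piece464
open Crest.Agent.R4P.Cnt588 Crest.Agent.R4P.Item758 Crest.Agent.R4P.AvgItem710
open Crest.Agent.R4P.W363 Crest.Agent.R4P.LfDat734
open Crest.Agent.R4P.Walk560 Crest.Agent.R4P.NodeG33
open Crest.Agent.R4P.Data758 Crest.Agent.R4P.Skel189
open Crest.Agent.R4P.Bld532 (NS All)
open Crest.Agent.R4P.Step588 (NDt CT CT_pos ctx_NDt uq_lt)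
open Crest.Agent.R4.Soft104 (w)
open Crest.Agent.R4P.SameIx30 Crest.Agent.R4P.GPair33
open Crest.Agent.R4P.ShR18 (Co)
open Crest.Agent.R4P.XmE18 Crest.Agent.R4P.XmM18 Crest.Agent.R4P.XmG18
open Crest.Agent.R4P.GcdK37 (ind ind_t ind_f ind_nn ind_le)
open Crest.Agent.R4P.AcG41 Crest.Agent.R4P.AcH41 Crest.Agent.R4P.AcI41 Crest.Agent.R4P.AcT41
open Crest.Agent.R4P.WalkIT579 (tp isL nodeOk_hi top_of_nodeOk prime_ge)
open Crest.Agent.R4P.StB21 (Bl_node TH)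
open Crest.Agent.R4P.Link758 (Bl)
open Crest.Agent.R4.LF363 (Lab)
open Crest.Agent.R4P.NcE14 (Nc)
open Crest.Agent.R4P.RtC28 (tF)
open Crest.Agent.R4P.StM6 (dense)
open Crest.Agent.R4P

/-! ### equal retained parts -/

section ret
variable {P : Bld532.Par} {W : ℕ → ℝ} {t' : IT} {s s' : NS} {τ τ' : IT}

/-- a prime above the column which divides one modulus divides the other one -/
lemma prime2 (h : NDt P W t' s τ) (h' : NDt P W t' s' τ') {n : ℕ} (hO : t'.Ok n) {p l q r : ℕ}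
    (hq : q ∈ τ.items) (hr : r ∈ τ'.items) (he : ret t' p q = ret t' p r) (hlp : l.Prime)
    (hl : p < l) (h1 : s.n ≤ l) (h2 : s'.n ≤ l) (hd : l ∣ q / s.A) : l ∣ r / s'.A := by
  have k1 : l ∈ t'.uq q := (h.uq_ge hO hq h1).2 ⟨hlp, hd⟩
  have k2 : l ∣ ret t' p q := Finset.dvd_prod_of_mem _ (Finset.mem_filter.2 ⟨k1, hl⟩)
  rw [he] at k2
  unfold Crest.Agent.R4P.W363.ret at k2
  obtain ⟨b, hb, hlb⟩ := (hlp.prime.dvd_finsetProd_iff _).1 k2
  obtain ⟨hb1, hb2⟩ := Finset.mem_filter.1 hb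
  have hbp := (uq_lt hO hb1).1
  have e : l = b := (Nat.prime_dvd_prime_iff_eq hlp hbp).1 hlb
  subst e
  exact ((h'.uq_ge hO hr h2).1 hb1).2

/-- **equal retained parts at two nodes: the cofactors are `p`-smooth** -/
theorem smooth2 (h : NDt P W t' s τ) (h' : NDt P W t' s' τ') {n : ℕ} (hO : t'.Ok n) {p q r : ℕ}
    (hn : ∀ l : ℕ, l.Prime → p < l → s.n ≤ l ∧ s'.n ≤ l) (hq : q ∈ τ.items) (hr : r ∈ τ'.items)
    (he : ret t' p q = ret t' p r) {l : ℕ} (hlp : l.Prime)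
    (hd : l ∣ cof (q / s.A) (r / s'.A)) : l ≤ p := by
  by_contra hc
  push Not at hc
  obtain ⟨n1, n2⟩ := hn l hlp hc
  have h1 : cof (q / s.A) (r / s'.A) * Nat.gcd (q / s.A) (r / s'.A) = q / s.A :=
    Nat.div_mul_cancel (Nat.gcd_dvd_left _ _)
  have h2 : l ∣ q / s.A := by rw [← h1]; exact hd.mul_right _
  have h3 : l ∣ r / s'.A := prime2 h h' hO hq hr he hlp hc n1 n2 h2
  have h4 : l ∣ Nat.gcd (q / s.A) (r / s'.A) := Nat.dvd_gcd h2 h3
  refine h.self.rad q hq l hlp n1 ?_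
  rw [← h1, pow_two]
  exact Nat.mul_dvd_mul hd h4

/-- both cofactors -/
theorem smooth2' (h : NDt P W t' s τ) (h' : NDt P W t' s' τ') {n : ℕ} (hO : t'.Ok n) {p q r : ℕ}
    (hn : ∀ l : ℕ, l.Prime → p < l → s.n ≤ l ∧ s'.n ≤ l) (hq : q ∈ τ.items) (hr : r ∈ τ'.items)
    (he : ret t' p q = ret t' p r) {l : ℕ} (hlp : l.Prime)
    (hd : l ∣ cof (q / s.A) (r / s'.A) * cof (r / s'.A) (q / s.A)) : l ≤ p := by
  rcases hlp.dvd_mul.1 hd with h1 | h1
  · exact smooth2 h h' hO hn hq hr he hlp h1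
  · exact smooth2 h' h hO (fun l a b => (hn l a b).symm) hr hq he.symm hlp h1

end ret

/-! ### two nodes -/

variable {N : Skel189.Num} {γ : ℝ} {p0 P₀ : ℕ} {X : Ctx N γ p0 P₀}

lemma dt_D {s s' : NS} {q r : ℕ} : dt (q / s.A) (r / s'.A) = (D1 s s' (q, r), D2 s s' (q, r)) := by
  unfold dt D1 D2 cof
  rw [Nat.gcd_comm (r / s'.A)]

/-- a related pair of pieces with a common point: the points of `acc_energy8` -/
lemma rp_pt {s s' : NS} {t t' : IT} (h : QX X s t) (h' : QX X s' t') {p : ℕ} (hp : p ≤ top X.S)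
    (hlam : X.c.lam p = 0) (hT : s.A * s.B = s'.A * s'.B) {R : Finset (X.c.Lam × X.c.Lam)}
    {σ σ' : ℚ} (hR : L2 X p R σ σ') {x : X.c.Lam × X.c.Lam} (hx : x ∈ R) {y : ℝ}
    (hy : vN X (.inl (s, t)) x.1 y * vN X (.inl (s', t')) x.2 y ≠ 0) :
    ∃ z z' : ℝ, |z| ≤ s.B * X.c.r x.1.1.1 ∧ |z'| ≤ s'.B * X.c.r x.2.1.1 ∧
      ((D2 s s' (it2 x) : ℕ) : ℝ) * ((s.B : ℝ) * (X.c.γ - σ) + z) =
        (D1 s s' (it2 x) : ℕ) * ((s'.B : ℝ) * (X.c.γ - σ') + z') := by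
  have y1 := left_ne_zero_of_mul hy
  have y2 := right_ne_zero_of_mul hy
  obtain ⟨i1, i2, -, -, -⟩ := co_pt h h' hp hlam hT hR hx hy
  obtain ⟨a, a', ⟨l1, l2⟩, ⟨l3, l4⟩, k⟩ := exact_pt h h' hp hlam hT (hR.ix x hx) (hR.e1 x hx)
    (hR.e2 x hx) (y := y) y1 y2
  have hB : (0 : ℝ) < s.B := by exact_mod_cast h.B_pos
  have hB' : (0 : ℝ) < s'.B := by exact_mod_cast h'.B_pos
  have w1 : |(((x.1.1.1 / s.A : ℕ) : ℝ) * y - s.B * X.c.γ - a)| ≤ s.B * X.c.r x.1.1.1 := by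
    have g1 := X.ok.bp_ge x.1 x.1.1.2
    have g2 := X.ok.bp_le x.1 (Cf.k_lt x.1)
    have g3 := mul_le_mul_of_nonneg_left g1 hB.le
    have g4 := mul_le_mul_of_nonneg_left g2 hB.le
    rw [abs_le]
    constructor
    · linarith
    · linarith
  have w2 : |(((x.2.1.1 / s'.A : ℕ) : ℝ) * y - s'.B * X.c.γ - a')| ≤ s'.B * X.c.r x.2.1.1 := by
    have g1 := X.ok.bp_ge x.2 x.2.1.2
    have g2 := X.ok.bp_le x.2 (Cf.k_lt x.2)
    have g3 := mul_le_mul_of_nonneg_left g1 hB'.le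
    have g4 := mul_le_mul_of_nonneg_left g2 hB'.le
    rw [abs_le]
    constructor
    · linarith
    · linarith
  refine ⟨_, _, w1, w2, ?_⟩
  have hw : 0 < x.1.1.1 / s.A := Nat.pos_of_ne_zero (h.div_ne i1)
  have hg0 : (0 : ℝ) < ((x.1.1.1 / s.A).gcd (x.2.1.1 / s'.A) : ℕ) := by
    exact_mod_cast Nat.gcd_pos_of_pos_left _ hw
  have ew : ((x.1.1.1 / s.A : ℕ) : ℝ) = ((x.1.1.1 / s.A).gcd (x.2.1.1 / s'.A) : ℕ) *
      (D1 s s' (it2 x) : ℕ) := by
    exact_mod_cast (Crest.Agent.R4.AvgItem710.mul_cof).symm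
  have ew' : ((x.2.1.1 / s'.A : ℕ) : ℝ) = ((x.1.1.1 / s.A).gcd (x.2.1.1 / s'.A) : ℕ) *
      (D2 s s' (it2 x) : ℕ) := by
    exact_mod_cast (Crest.Agent.R4.AvgItem710.mul_cof').symm
  have k' : ((a : ℝ) + s.B * σ) * (x.2.1.1 / s'.A : ℕ) = (a' + s'.B * σ') * (x.1.1.1 / s.A : ℕ) := by
    exact_mod_cast k
  rw [ew, ew'] at k'
  rw [ew, ew']
  apply mul_left_cancel₀ hg0.ne'
  linear_combination -k'

open Classical in
/-- **accuracy events against the exact class, two nodes of one circle** -/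
theorem node_acc {s s' : NS} {t t' : IT} (h : QX X s t) (h' : QX X s' t') {p : ℕ}
    (hp : p ≤ top X.S) (hlam : X.c.lam p = 0) (hT : s.A * s.B = s'.A * s'.B)
    {R : Finset (X.c.Lam × X.c.Lam)} {σ σ' : ℚ} (hR : L2 X p R σ σ') {F G : Finset ℕ}
    (hF : ∀ x ∈ R, x.1.1.1 ∈ t.items → x.1.1.1 ∈ X.S' → x.1.1.1 ∈ F)
    (hG : ∀ x ∈ R, x.2.1.1 ∈ t'.items → x.2.1.1 ∈ X.S' → x.2.1.1 ∈ G)
    (fF : ∀ q ∈ F, q ∈ t.items ∧ q ∈ X.S') (fG : ∀ q ∈ G, q ∈ t'.items ∧ q ∈ X.S')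
    {z : ℕ} (hz : 2 ≤ z)
    (sm : ∀ x ∈ R, x.1.1.1 ∈ t.items → x.2.1.1 ∈ t'.items → ∀ l : ℕ, l.Prime →
      l ∣ D1 s s' (it2 x) * D2 s s' (it2 x) → l ≤ z)
    {K η N0 : ℝ} (hE : (s.B : ℝ) * (X.c.γ - σ) ≠ 0) (hK : 1 ≤ K) (hη : 0 < η)
    (hη1 : √K * η ≤ 1 / 1024) (hN0 : 1 ≤ N0)
    (hRF : ∀ q ∈ F, 0 < RB X s q ∧ RB X s q ≤ η * |(s.B : ℝ) * (X.c.γ - σ)|)
    (hcard : ∀ y : ℝ, 0 < y → (((F.filter (fun q => y * |(s.B : ℝ) * (X.c.γ - σ)| < RB X s q)).card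
      : ℕ) : ℝ) ≤ N0 / y ^ 5)
    (nc : ∀ x ∈ R, x.1.1.1 ∈ F → x.2.1.1 ∈ G →
      (∃ y, vN X (.inl (s, t)) x.1 y * vN X (.inl (s', t')) x.2 y ≠ 0) →
      K < ((max (D1 s s' (it2 x)) (D2 s s' (it2 x)) : ℕ) : ℝ) ∨
        K * RB X s' x.2.1.1 ≤ RB X s x.1.1.1 ∨ K * RB X s x.1.1.1 ≤ RB X s' x.2.1.1) :
    Q R (vN X (.inl (s, t))) (vN X (.inl (s', t'))) ≤
      2 * (gI z K η N0 * (√(∑ q ∈ F, RB X s q) * √(∑ r ∈ G, RB X s' r))) := by
  set f := vN X (.inl (s, t)) with hf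
  set g := vN X (.inl (s', t')) with hg
  set R' := R.filter (fun x => ∃ y, f x.1 y * g x.2 y ≠ 0) with hR'
  have hrr := (X.ok.rad X.Y).pos
  have hB : (0 : ℝ) < s.B := by exact_mod_cast h.B_pos
  have hB' : (0 : ℝ) < s'.B := by exact_mod_cast h'.B_pos
  have rF : ∀ q, q ∈ X.S' → X.c.rr q = X.c.r q := fun q hq => if_pos (X.rpos hq)
  have hQ : Q R f g = Q R' f g := by
    unfold Q
    rw [hR', Finset.sum_filter]
    refine Finset.sum_congr rfl fun x _ => ?_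
    split_ifs with hx
    · rfl
    · push Not at hx
      have e1 : (fun y => f x.1 y * g x.2 y) = fun _ => 0 := funext hx
      rw [e1]
      simp [I]
  rw [hQ]
  have hL2 : L2 X p R' σ σ' := hR.mono (Finset.filter_subset _ _)
  refine (node_pair h h' hp hlam hT hL2.lb).trans ?_
  -- the pairs of items
  set S : ℕ → ℕ → Prop := fun q r => ∃ x ∈ R', x.1.1.1 = q ∧ x.2.1.1 = r with hS
  have hSm : ∀ q r, S q r → q ∈ F ∧ r ∈ G := by
    rintro q r ⟨x, hx, rfl, rfl⟩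
    obtain ⟨hx1, y, hy⟩ := Finset.mem_filter.1 hx
    obtain ⟨i1, i2, i3, i4, -⟩ := co_pt h h' hp hlam hT hR hx1 hy
    exact ⟨hF x hx1 i1 i3, hG x hx1 i2 i4⟩
  have hfam : Fam F G (fun q => q / s.A) (fun r => r / s'.A) (RB X s) (RB X s') :=
    { pF := fun q hq => Nat.pos_of_ne_zero (h.div_ne (fF q hq).1)
      pG := fun q hq => Nat.pos_of_ne_zero (h'.div_ne (fG q hq).1)
      iF := fun q hq r hr e => by
        have h1 := h.bk.dvd _ (fF q hq).1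
        have h2 := h.bk.dvd _ (fF r hr).1
        have e' : q / s.A = r / s.A := e
        rw [← Nat.mul_div_cancel' h1, ← Nat.mul_div_cancel' h2, e']
      iG := fun q hq r hr e => by
        have h1 := h'.bk.dvd _ (fG q hq).1
        have h2 := h'.bk.dvd _ (fG r hr).1
        have e' : q / s'.A = r / s'.A := e
        rw [← Nat.mul_div_cancel' h1, ← Nat.mul_div_cancel' h2, e']
      rF := fun q _ => (mul_pos hB (hrr q)).le
      rG := fun q _ => (mul_pos hB' (hrr q)).le }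
  have key := acc_all hfam hz (S := S)
    (fun q hq r hr hSq l hlp hd => by
      obtain ⟨x, hx, rfl, rfl⟩ := hSq
      obtain ⟨hx1, y, hy⟩ := Finset.mem_filter.1 hx
      obtain ⟨i1, i2, -, -, -⟩ := co_pt h h' hp hlam hT hR hx1 hy
      rw [dt_D] at hd
      exact sm x hx1 i1 i2 l hlp hd)
    (E := (s.B : ℝ) * (X.c.γ - σ)) (Γ := (s'.B : ℝ) * (X.c.γ - σ')) (K := K) (η := η) (N0 := N0)
    hE hK hη hη1 hN0 hRF hcard
    (fun q hq r hr hSq => by
      obtain ⟨x, hx, rfl, rfl⟩ := hSq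
      obtain ⟨hx1, y, hy⟩ := Finset.mem_filter.1 hx
      obtain ⟨z1, z2, a1, a2, a3⟩ := rp_pt h h' hp hlam hT hR hx1 hy
      refine ⟨⟨z1, z2, ?_, ?_, ?_⟩, ?_⟩
      · refine a1.trans (le_of_eq ?_)
        show _ = (s.B : ℝ) * X.c.rr _
        rw [rF _ (fF _ hq).2]
      · refine a2.trans (le_of_eq ?_)
        show _ = (s'.B : ℝ) * X.c.rr _
        rw [rF _ (fG _ hr).2]
      · rw [dt_D]
        exact a3
      · rw [dt_D]
        exact nc x hx1 hq hr ⟨y, hy⟩)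
  rw [← Finset.mul_sum]
  refine mul_le_mul_of_nonneg_left (le_trans ?_ key) (by norm_num)
  rw [← Finset.sum_product' (s := F) (t := G) (f := fun q r => ind (S q r) *
    min (RB X s q / ((dt (q / s.A) (r / s'.A)).1 : ℝ)) (RB X s' r / ((dt (q / s.A) (r / s'.A)).2 : ℝ)))]
  have hnn : ∀ e : ℕ × ℕ, 0 ≤ min (RB X s e.1 / ((dt (e.1 / s.A) (e.2 / s'.A)).1 : ℝ))
      (RB X s' e.2 / ((dt (e.1 / s.A) (e.2 / s'.A)).2 : ℝ)) := fun e =>
    le_min (div_nonneg (mul_pos hB (hrr _)).le (Nat.cast_nonneg _))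
      (div_nonneg (mul_pos hB' (hrr _)).le (Nat.cast_nonneg _))
  refine le_trans (Finset.sum_le_sum fun e he => ?_)
    (Finset.sum_le_sum_of_subset_of_nonneg (s := (t.items ×ˢ t'.items).filter
      (XmE18.Rl X p R' s s')) (t := F ×ˢ G) ?_ fun e _ _ => mul_nonneg (ind_nn _) (hnn e))
  · obtain ⟨he1, ⟨x, hx, hx1, hx2⟩, -⟩ := Finset.mem_filter.1 he
    rw [ind_t ⟨x, hx, hx1, hx2⟩, one_mul, dt_D]
    rfl
  · intro e he
    obtain ⟨he1, ⟨x, hx, hx1, hx2⟩, -⟩ := Finset.mem_filter.1 he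
    obtain ⟨m1, m2⟩ := hSm e.1 e.2 ⟨x, hx, hx1, hx2⟩
    exact Finset.mem_product.2 ⟨m1, m2⟩

/-! ### two ties of one column -/

/-- **thin pieces of a node have one dense label** -/
lemma dense_unique {s : NS} {t : IT} (h : QX X s t) (hl : ¬ isL t) (hlam : X.c.lam (tp t) = 0)
    (hθ : 0 < X.c.wp.thr (tp t)) (ht6 : 32 * X.c.wp.thr (tp t) ^ 2 < 1) {q q' : ℕ}
    (hq : q ∈ t.items) (hq' : q' ∈ t.items) (h1 : (s.B : ℝ) * X.c.r q ≤ X.c.wp.thr (tp t))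
    (h2 : (s.B : ℝ) * X.c.r q' ≤ X.c.wp.thr (tp t)) {σ σ' : ℚ} (hs : X.c.st (tp t) q = some σ)
    (hs' : X.c.st (tp t) q' = some σ') (d : dense (X.c.wp.thr (tp t)) s.B σ)
    (d' : dense (X.c.wp.thr (tp t)) s.B σ') : σ = σ' := by
  have e1 : Bl X.c (tp t) q = s.B := Bl_node h hl hq
  have e2 : Bl X.c (tp t) q' = s.B := Bl_node h hl hq'
  have o1 := StB21.thin (c := X.c) (p := tp t) (q := q) hlam (by rw [e1]; exact h1)
  have o2 := StB21.thin (c := X.c) (p := tp t) (q := q') hlam (by rw [e2]; exact h2)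
  rw [hs, e1] at o1
  rw [hs', e2] at o2
  have L1 := lab0_spec h.B_pos o1.symm
  have L2 := lab0_spec h.B_pos o2.symm
  have e := thin_unique (ρ := (s.B : ℚ) * σ) (σ := (s.B : ℚ) * σ') (by exact_mod_cast L1)
    (by exact_mod_cast L2) hθ ht6 h1 h2 d d'
  have hB0 : (s.B : ℚ) ≠ 0 := by exact_mod_cast h.B_pos.ne'
  exact mul_left_cancel₀ hB0 e

/-- **pairs at two ties** of the column `p`: accuracy death of a dense label against a missing piece
with a dense label, one index, not comparable -/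
structure NN (X : Ctx N γ p0 P₀) (K : ℝ) (p : ℕ) (s s' : NS) (R : Finset (X.c.Lam × X.c.Lam)) :
    Prop where
  ix : ∀ x ∈ R, (X.c.world p x.1.1).1 = (X.c.world p x.2.1).1
  rt : ∀ x ∈ R, ret X.c.t p x.1.1.1 = ret X.c.t p x.2.1.1
  ad : ∀ x ∈ R, ∃ σ, AD X p x.1.1.1 σ
  mt : ∀ x ∈ R, p ∈ X.c.t.mt x.2.1.1
  dn : ∀ x ∈ R, ∃ σ, X.c.st p x.2.1.1 = some σ ∧ dense (X.c.wp.thr p) (Bl X.c p x.2.1.1) σ
  nc : ∀ x ∈ R, K < ((max (D1 s s' (it2 x)) (D2 s s' (it2 x)) : ℕ) : ℝ) ∨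
    K * RB X s' x.2.1.1 ≤ RB X s x.1.1.1 ∨ K * RB X s x.1.1.1 ≤ RB X s' x.2.1.1

/-- the items of a tie which miss it -/
lemma mem_N {s : NS} {p : ℕ} {Sp : Finset ℕ} {t₁ t₀ : IT}
    (h : NDt X.par (w X.ψ) X.c.t s (.br p Sp t₁ t₀)) {q : ℕ}
    (hq : q ∈ (IT.br p Sp t₁ t₀).items) (hm : p ∈ X.c.t.mt q) : q ∈ t₀.items := by
  rcases Finset.mem_union.1 hq with h1 | h1
  · exact absurd hm (mt_P h h1)
  · exact h1

open Classical in
/-- **two ties, two missing pieces** -/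
theorem tie_nn {s s' : NS} {p : ℕ} {Sp Sp' : Finset ℕ} {t₁ t₀ t₁' t₀' : IT}
    (h : NDt X.par (w X.ψ) X.c.t s (.br p Sp t₁ t₀))
    (h' : NDt X.par (w X.ψ) X.c.t s' (.br p Sp' t₁' t₀'))
    (hn : Nc X s (.br p Sp t₁ t₀)) (hn' : Nc X s' (.br p Sp' t₁' t₀'))
    (hT : s.A * s.B = s'.A * s'.B) (hpt : p ≤ top X.S) (hlam : X.c.lam p = 0)
    (hθ : 0 < X.c.wp.thr p) (ht6 : 32 * X.c.wp.thr p ^ 2 < 1)
    (hlo : 2 * Real.log p ^ (N.B + N.c2 + 2) / p ≤ X.c.wp.thr p)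
    {K : ℝ} (hK : 1 ≤ K) (hη : √K * X.c.wp.thr p ^ (1/5 : ℝ) ≤ 1 / 1024)
    {R : Finset (X.c.Lam × X.c.Lam)} (hR : NN X K p s s' R) :
    Q R (vN X (.inl (s, .br p Sp t₁ t₀))) (vN X (.inl (s', .br p Sp' t₁' t₀'))) ≤
      2 * (gI p K (X.c.wp.thr p ^ (1/5 : ℝ)) (2 * Real.log p ^ (N.B + N.c2 + 2)) *
        (√(∑ q ∈ t₀.items.filter (· ∈ X.S'), RB X s q) *
          √(∑ r ∈ t₀'.items.filter (· ∈ X.S'), RB X s' r))) := by
  set f := vN X (.inl (s, .br p Sp t₁ t₀)) with hf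
  set g := vN X (.inl (s', .br p Sp' t₁' t₀')) with hg
  have hrr := (X.ok.rad X.Y).pos
  have hB : (0 : ℝ) < s.B := by exact_mod_cast h.B_pos
  have hB' : (0 : ℝ) < s'.B := by exact_mod_cast h'.B_pos
  have hr0 : ∀ q, q ∈ X.S' → X.c.rr q = X.c.r q := fun q hq => if_pos (X.rpos hq)
  have FT1 := tF h
  have hp : (0 : ℝ) < p := by exact_mod_cast FT1.pr.pos
  have hl : ¬ isL (IT.br p Sp t₁ t₀) := fun h => h
  have hl' : ¬ isL (IT.br p Sp' t₁' t₀') := fun h => h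
  have l1 : 1 ≤ Real.log (p : ℝ) := hn.l1
  have hK0 : 0 < K := by linarith
  have hC8 := C8_nn
  have hC8' := AcH41.K8_nn
  -- restrict to the items of the nodes
  set R' := R.filter (fun x => (x.1.1.1 ∈ t₀.items ∧ x.1.1.1 ∈ X.S') ∧
    (x.2.1.1 ∈ t₀'.items ∧ x.2.1.1 ∈ X.S')) with hR'
  have hQ : Q R f g = Q R' f g := by
    unfold Q
    rw [hR', Finset.sum_filter]
    refine Finset.sum_congr rfl fun x hx => ?_
    split_ifs with hx'
    · rfl
    · have e1 : (fun y => f x.1 y * g x.2 y) = fun _ => 0 := by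
        funext y
        by_contra hne
        have y1 := left_ne_zero_of_mul hne
        have y2 := right_ne_zero_of_mul hne
        apply hx'
        have i1 : x.1.1.1 ∈ (IT.br p Sp t₁ t₀).items := by
          by_contra hc
          exact y1 (vN_out hc y)
        have i2 : x.2.1.1 ∈ (IT.br p Sp' t₁' t₀').items := by
          by_contra hc
          exact y2 (vN_out hc y)
        have i3 : x.1.1.1 ∈ X.S' := by
          by_contra hc
          exact y1 (vN_dead h hc y)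
        have i4 : x.2.1.1 ∈ X.S' := by
          by_contra hc
          exact y2 (vN_dead h' hc y)
        obtain ⟨σ, D⟩ := hR.ad x hx
        exact ⟨⟨mem_N h i1 D.mt, i3⟩, ⟨mem_N h' i2 (hR.mt x hx), i4⟩⟩
      rw [e1]
      simp [I]
  rw [hQ]
  have hG0 : 0 ≤ gI p K (X.c.wp.thr p ^ (1/5 : ℝ)) (2 * Real.log p ^ (N.B + N.c2 + 2)) := by
    unfold gI
    positivity
  rcases R'.eq_empty_or_nonempty with h0 | ⟨x0, hx0⟩
  · rw [h0]
    simp only [Q, Finset.sum_empty]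
    positivity
  have hm : ∀ {x}, x ∈ R' → x ∈ R ∧ (x.1.1.1 ∈ t₀.items ∧ x.1.1.1 ∈ X.S') ∧
      (x.2.1.1 ∈ t₀'.items ∧ x.2.1.1 ∈ X.S') := fun hx => Finset.mem_filter.1 hx
  -- thin above
  have th1 : ∀ q ∈ t₀.items, q ∈ X.S' → (s.B : ℝ) * X.c.r q ≤ X.c.wp.thr p := fun q hq hqs => by
    have h3 : RB X s q ≤ 2 * Real.log p ^ (N.B + N.c2 + 2) / p := hn.missR hq hqs
    have e : RB X s q = s.B * X.c.r q := by
      show (s.B : ℝ) * X.c.rr q = _
      rw [hr0 q hqs]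
    rw [e] at h3
    exact h3.trans hlo
  have th2 : ∀ q ∈ t₀'.items, q ∈ X.S' → (s'.B : ℝ) * X.c.r q ≤ X.c.wp.thr p := fun q hq hqs => by
    have h3 : RB X s' q ≤ 2 * Real.log p ^ (N.B + N.c2 + 2) / p := hn'.missR hq hqs
    have e : RB X s' q = s'.B * X.c.r q := by
      show (s'.B : ℝ) * X.c.rr q = _
      rw [hr0 q hqs]
    rw [e] at h3
    exact h3.trans hlo
  obtain ⟨hx0R, ⟨m0, s0⟩, m0', s0'⟩ := hm hx0
  obtain ⟨σ₀, D₀⟩ := hR.ad x0 hx0R
  obtain ⟨σ₁, e₁, d₁⟩ := hR.dn x0 hx0R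
  have bN : ∀ q ∈ t₀.items, Bl X.c p q = s.B := fun q hq => Bl_node h hl (Finset.mem_union_right _ hq)
  have bN' : ∀ q ∈ t₀'.items, Bl X.c p q = s'.B := fun q hq =>
    Bl_node h' hl' (Finset.mem_union_right _ hq)
  have u1 : ∀ q ∈ t₀.items, q ∈ X.S' → ∀ σ, AD X p q σ → σ = σ₀ := fun q hq hqs σ D => by
    have k1 := D.den
    have k2 := D₀.den
    rw [bN q hq] at k1
    rw [bN _ m0] at k2
    exact dense_unique h hl hlam hθ ht6 (Finset.mem_union_right _ hq)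
      (Finset.mem_union_right _ m0) (th1 q hq hqs) (th1 _ m0 s0) D.st D₀.st k1 k2
  have u2 : ∀ q ∈ t₀'.items, q ∈ X.S' → ∀ σ, X.c.st p q = some σ →
      dense (X.c.wp.thr p) (Bl X.c p q) σ → σ = σ₁ := fun q hq hqs σ k0 k1 => by
    have k2 := d₁
    rw [bN' q hq] at k1
    rw [bN' _ m0'] at k2
    exact dense_unique h' hl' hlam hθ ht6 (Finset.mem_union_right _ hq)
      (Finset.mem_union_right _ m0') (th2 q hq hqs) (th2 _ m0' s0') k0 e₁ k1 k2
  have hL2 : L2 X p R' σ₀ σ₁ := by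
    refine ⟨fun x hx => hR.ix x (hm hx).1, fun x hx => ?_, fun x hx => ?_⟩
    · obtain ⟨a, ⟨b, c⟩, -⟩ := hm hx
      obtain ⟨σ, D⟩ := hR.ad x a
      rw [← u1 _ b c σ D]
      exact D.st
    · obtain ⟨a, -, b, c⟩ := hm hx
      obtain ⟨σ, k0, k1⟩ := hR.dn x a
      rw [← u2 _ b c σ k0 k1]
      exact k0
  set FF := t₀.items.filter (fun q => q ∈ X.S' ∧ AD X p q σ₀) with hFF
  set GG := t₀'.items.filter (· ∈ X.S') with hGG
  have hF : ∀ q ∈ FF, q ∈ t₀.items ∧ q ∈ X.S' ∧ AD X p q σ₀ := fun q hq => Finset.mem_filter.1 hq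
  have r0F : ∀ q ∈ FF, 0 < X.c.r q := fun q hq => X.rpos (hF q hq).2.1
  have rrF : ∀ q ∈ FF, RB X s q = s.B * X.c.r q := fun q hq => by
    show (s.B : ℝ) * X.c.rr q = _
    rw [hr0 q (hF q hq).2.1]
  have hE := fun q hq => ad_E (u := s) (hF q hq).2.2 FT1.pr.pos (bN q (hF q hq).1) (r0F q hq) hθ.le
  have hE0 : (s.B : ℝ) * (X.c.γ - σ₀) ≠ 0 :=
    (ad_E (u := s) D₀ FT1.pr.pos (bN _ m0) (X.rpos s0) hθ.le).1
  have hN1 : (1 : ℝ) ≤ 2 * Real.log p ^ (N.B + N.c2 + 2) := by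
    have := Real.one_le_rpow l1 (show 0 ≤ N.B + N.c2 + 2 by
      have := N.hB; have := N.hc2; have := N.hC1; linarith)
    linarith
  have key := node_acc (t := .br p Sp t₁ t₀) (t' := .br p Sp' t₁' t₀') h h' hpt hlam hT hL2
    (F := FF) (G := GG)
    (fun x hx _ _ => by
      obtain ⟨a, ⟨b, c⟩, -⟩ := hm hx
      obtain ⟨σ, D⟩ := hR.ad x a
      have e := u1 _ b c σ D
      subst e
      exact Finset.mem_filter.2 ⟨b, c, D⟩)
    (fun x hx _ _ => by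
      obtain ⟨a, -, b, c⟩ := hm hx
      exact Finset.mem_filter.2 ⟨b, c⟩)
    (fun q hq => ⟨Finset.mem_union_right _ (hF q hq).1, (hF q hq).2.1⟩)
    (fun q hq => ⟨Finset.mem_union_right _ (Finset.mem_filter.1 hq).1, (Finset.mem_filter.1 hq).2⟩)
    (z := p) FT1.pr.two_le
    (fun x hx i1 i2 l hlp hd => by
      obtain ⟨a, -, -⟩ := hm hx
      refine smooth2' h h' X.tOk (p := p) (fun l' hl1 hl2 => ?_) i1 i2 (hR.rt x a) hlp hd
      constructor
      · rcases prime_ge h.self.node hl hl1 hl2.le with h1 | h1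
        · exact absurd h1 (by show ¬ l' = p; omega)
        · exact h1
      · rcases prime_ge h'.self.node hl' hl1 hl2.le with h1 | h1
        · exact absurd h1 (by show ¬ l' = p; omega)
        · exact h1)
    (K := K) (η := X.c.wp.thr p ^ (1/5 : ℝ)) (N0 := 2 * Real.log p ^ (N.B + N.c2 + 2))
    hE0 hK (Real.rpow_pos_of_pos hθ _) hη hN1
    (fun q hq => by
      rw [rrF q hq]
      exact ⟨mul_pos hB (r0F q hq), (hE q hq).2.1⟩)
    (fun y hy => card_acc (R := RB X s) (P := p) hp (abs_pos.2 hE0)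
      (fun q hq => by rw [rrF q hq]; exact (hE q hq).2.2)
      (fun F' hF' => hn.miss (fun q hq => (hF q (hF' hq)).1) (fun q hq => (hF q (hF' hq)).2.1))
      (by linarith) hy)
    (fun x hx _ _ _ => hR.nc x (hm hx).1)
  refine key.trans ?_
  have hsub : ∑ q ∈ FF, RB X s q ≤ ∑ q ∈ t₀.items.filter (· ∈ X.S'), RB X s q := by
    refine Finset.sum_le_sum_of_subset_of_nonneg ?_ fun q _ _ => (mul_pos hB (hrr q)).le
    intro q hq
    exact Finset.mem_filter.2 ⟨(hF q hq).1, (hF q hq).2.1⟩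
  have hs1 := Real.sqrt_le_sqrt hsub
  gcongr

/-- in terms of the masses of the missing items -/
theorem tie_nnM {s s' : NS} {p : ℕ} {Sp Sp' : Finset ℕ} {t₁ t₀ t₁' t₀' : IT}
    (h : MN X s (.br p Sp t₁ t₀)) (h' : MN X s' (.br p Sp' t₁' t₀'))
    (hn : Nc X s (.br p Sp t₁ t₀)) (hn' : Nc X s' (.br p Sp' t₁' t₀'))
    (hT : s.A * s.B = s'.A * s'.B) (hpt : p ≤ top X.S) (hlam : X.c.lam p = 0)
    (hθ : 0 < X.c.wp.thr p) (ht6 : 32 * X.c.wp.thr p ^ 2 < 1)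
    (hlo : 2 * Real.log p ^ (N.B + N.c2 + 2) / p ≤ X.c.wp.thr p)
    {K : ℝ} (hK : 1 ≤ K) (hη : √K * X.c.wp.thr p ^ (1/5 : ℝ) ≤ 1 / 1024)
    {R : Finset (X.c.Lam × X.c.Lam)} (hR : NN X K p s s' R) :
    Q R (vN X (.inl (s, .br p Sp t₁ t₀))) (vN X (.inl (s', .br p Sp' t₁' t₀'))) ≤
      4 * CT * Real.log p *
        gI p K (X.c.wp.thr p ^ (1/5 : ℝ)) (2 * Real.log p ^ (N.B + N.c2 + 2)) *
        (∑ q ∈ t₀.items.filter (· ∈ X.S'), MI X s (.br p Sp t₁ t₀) q +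
          ∑ r ∈ t₀'.items.filter (· ∈ X.S'), MI X s' (.br p Sp' t₁' t₀') r) := by
  have key := tie_nn h.nd h'.nd hn hn' hT hpt hlam hθ ht6 hlo hK hη hR
  have hrr := (X.ok.rad X.Y).pos
  have hB : (0 : ℝ) < s.B := by exact_mod_cast h.nd.B_pos
  have hB' : (0 : ℝ) < s'.B := by exact_mod_cast h'.nd.B_pos
  have hl : ¬ isL (IT.br p Sp t₁ t₀) := fun h => h
  have hl' : ¬ isL (IT.br p Sp' t₁' t₀') := fun h => h
  have l1 : 1 ≤ Real.log (p : ℝ) := hn.l1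
  have hC8 := C8_nn
  have hC8' := AcH41.K8_nn
  have hCT := CT_pos
  have hG0 : 0 ≤ gI p K (X.c.wp.thr p ^ (1/5 : ℝ)) (2 * Real.log p ^ (N.B + N.c2 + 2)) := by
    unfold gI
    positivity
  have hpn : p0 ≤ p := by
    have := hn.pn
    exact this.le
  have lp : ∀ l : ℕ, l.Prime → l < s.n → l ≤ p := fun l h1 h2 => by
    by_contra hc
    push Not at hc
    rcases prime_ge h.nd.self.node hl h1 hc.le with h3 | h3
    · have h3' : l = p := h3
      omega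
    · omega
  have lp' : ∀ l : ℕ, l.Prime → l < s'.n → l ≤ p := fun l h1 h2 => by
    by_contra hc
    push Not at hc
    rcases prime_ge h'.nd.self.node hl' h1 hc.le with h3 | h3
    · have h3' : l = p := h3
      omega
    · omega
  have s1 : ∑ q ∈ t₀.items.filter (· ∈ X.S'), RB X s q ≤ 4 * CT * Real.log p *
      ∑ q ∈ t₀.items.filter (· ∈ X.S'), MI X s (.br p Sp t₁ t₀) q := by
    rw [Finset.mul_sum]
    refine Finset.sum_le_sum fun q hq => ?_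
    obtain ⟨a, b⟩ := Finset.mem_filter.1 hq
    exact h.lo p hpn lp q b (Finset.mem_union_right _ a)
  have s2 : ∑ q ∈ t₀'.items.filter (· ∈ X.S'), RB X s' q ≤ 4 * CT * Real.log p *
      ∑ q ∈ t₀'.items.filter (· ∈ X.S'), MI X s' (.br p Sp' t₁' t₀') q := by
    rw [Finset.mul_sum]
    refine Finset.sum_le_sum fun q hq => ?_
    obtain ⟨a, b⟩ := Finset.mem_filter.1 hq
    exact h'.lo p hpn lp' q b (Finset.mem_union_right _ a)
  set a := ∑ q ∈ t₀.items.filter (· ∈ X.S'), RB X s q with ha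
  set b := ∑ q ∈ t₀'.items.filter (· ∈ X.S'), RB X s' q with hb
  have a0 : 0 ≤ a := Finset.sum_nonneg fun q _ => (mul_pos hB (hrr q)).le
  have b0 : 0 ≤ b := Finset.sum_nonneg fun q _ => (mul_pos hB' (hrr q)).le
  have h3 : 2 * (√a * √b) ≤ a + b := by
    nlinarith [sq_nonneg (√a - √b), Real.mul_self_sqrt a0, Real.mul_self_sqrt b0]
  refine key.trans ?_
  set g := gI p K (X.c.wp.thr p ^ (1/5 : ℝ)) (2 * Real.log p ^ (N.B + N.c2 + 2)) with hg
  calc 2 * (g * (√a * √b)) = g * (2 * (√a * √b)) := by ring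
    _ ≤ g * (a + b) := mul_le_mul_of_nonneg_left h3 hG0
    _ ≤ g * (4 * CT * Real.log p * _ + 4 * CT * Real.log p * _) :=
        mul_le_mul_of_nonneg_left (add_le_add s1 s2) hG0
    _ = _ := by ring

end Crest.Agent.R4P.XmA41
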