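import Crest.Agent.R4P.XmQ_37
import Crest.Agent.R4P.XmA_41

/-!
R4 (S0004), powers pass, helper41: **dense accuracy events against the exact class, several labels,
arbitrary offsets, relation with a point** (two nodes of one circle).

* `acc_labs` : number level (`AcI41.acc_all`), `n₁` distances `E i`, `n₂` distances `Γ j`;
* **`node_accP`** : `I (qe R (vN s) (vN s')) ≤ 2 √n₁ √n₂ gI √(∑ R) √(∑ R')`;
* `gI_le` : `gI z (L^κ) η N0 ≤ L^(-s)`; **`acc_nodes`** : `≤ (log P)^(-s) (∑ MI + ∑ MI')`.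
-/

set_option autoImplicit false
set_option linter.unusedSectionVars false
set_option linter.unusedVariables false

open MeasureTheory Filter

namespace Crest.Agent.R4P.XmB41

open Crest.Agent.R4.Tour104 Crest.Agent.R4.Tour758 Crest.Agent.R4.Avg758 Crest.Agent.R4.Clos758
open Crest.Agent.R4.ClosL758 Crest.Agent.R4.ClosG758 Crest.Agent.R4.ClosR758
open Crest.Agent.R4.HVW560
open Crest.Agent.R4.Fam464 Crest.Agent.R4.Piece464
open Crest.Agent.R4P.Cnt588 Crest.Agent.R4P.Item758 Crest.Agent.R4P.AvgItem710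
open Crest.Agent.R4P.W363 Crest.Agent.R4P.LfDat734
open Crest.Agent.R4P.Walk560 Crest.Agent.R4P.NodeG33
open Crest.Agent.R4P.Data758 Crest.Agent.R4P.Skel189
open Crest.Agent.R4P.Bld532 (NS All)
open Crest.Agent.R4P.Step588 (NDt CT CT_pos ctx_NDt uq_lt)
open Crest.Agent.R4.Soft104 (w)
open Crest.Agent.R4P.SameIx30 Crest.Agent.R4P.GPair33
open Crest.Agent.R4P.ShR18 (Co)
open Crest.Agent.R4P.XmE18 Crest.Agent.R4P.XmM18 Crest.Agent.R4P.XmG18
open Crest.Agent.R4P.GcdK37 (ind ind_t ind_f ind_nn ind_le)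
open Crest.Agent.R4P.AcG41 (dt dt_spec Fam)
open Crest.Agent.R4P.AcH41 (C8 K8 C8_nn K8_nn)
open Crest.Agent.R4P.AcI41 (gI Rq acc_all card_acc)
open Crest.Agent.R4P.AcT41 (root5)
open Crest.Agent.R4P.XmO37 (Tth)
open Crest.Agent.R4P.XmQ37 (ExP prs mem_prs prs_alive node_offP)
open Crest.Agent.R4P.E3V479 (qe)
open Crest.Agent.R4P.DTp26 (MP)
open Crest.Agent.R4P.XmA41 (dt_D)
open Crest.Agent.R4P

/-! ### number level -/

section num
variable {ι κ : Type} [DecidableEq ι] [DecidableEq κ]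

/-- Cauchy–Schwarz over the classes -/
lemma sum_sqrt_le {α : Type*} (Λ : Finset α) (a : α → ℝ) (ha : ∀ i ∈ Λ, 0 ≤ a i) :
    ∑ i ∈ Λ, √(a i) ≤ √(Λ.card : ℝ) * √(∑ i ∈ Λ, a i) := by
  have h := Finset.sum_mul_sq_le_sq_mul_sq Λ (fun _ => (1:ℝ)) (fun i => √(a i))
  have e1 : ∑ i ∈ Λ, √(a i) ^ 2 = ∑ i ∈ Λ, a i := Finset.sum_congr rfl fun i hi =>
    Real.sq_sqrt (ha i hi)
  simp only [one_mul, one_pow, Finset.sum_const, nsmul_eq_mul, mul_one] at h
  rw [e1] at h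
  rw [← Real.sqrt_mul (Nat.cast_nonneg _)]
  exact Real.le_sqrt_of_sq_le h

/-- the distances of the accuracy deaths -/
structure AcD (F : Finset ι) (R E : ι → ℝ) (Z η N0 : ℝ) : Prop where
  pos : ∀ i ∈ F, 0 < R i
  ne : ∀ i ∈ F, E i ≠ 0
  small : ∀ i ∈ F, R i ≤ η * |E i|
  acc : ∀ i ∈ F, (Z * R i) ^ 4 < (Z * |E i|) ^ 5
  sum : ∑ i ∈ F, R i ≤ N0 / Z

/-- **accuracy events, several distances** -/
theorem acc_labs {F : Finset ι} {G : Finset κ} {e : ι → ℕ} {e' : κ → ℕ} {R : ι → ℝ}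
    {R' : κ → ℝ} (h : Fam F G e e' R R') {z : ℕ} (hz : 2 ≤ z) {S : ι → κ → Prop}
    (sm : ∀ i ∈ F, ∀ j ∈ G, S i j → ∀ p : ℕ, p.Prime →
      p ∣ (dt (e i) (e' j)).1 * (dt (e i) (e' j)).2 → p ≤ z)
    {E : ι → ℝ} {Γ : κ → ℝ} {Z K η N0 : ℝ} (hZ : 0 < Z) (hK : 1 ≤ K) (hη : 0 < η)
    (hη1 : √K * η ≤ 1 / 1024) (hN0 : 1 ≤ N0) (hF : AcD F R E Z η N0)
    (hS : ∀ i ∈ F, ∀ j ∈ G, S i j → Rq e e' R R' (E i) (Γ j) K i j) {n₁ n₂ : ℝ}
    (h1 : ((F.image E).card : ℝ) ≤ n₁) (h2 : ((G.image Γ).card : ℝ) ≤ n₂) :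
    ∑ i ∈ F, ∑ j ∈ G, ind (S i j) *
      min (R i / ((dt (e i) (e' j)).1 : ℝ)) (R' j / ((dt (e i) (e' j)).2 : ℝ)) ≤
      √n₁ * √n₂ * gI z K η N0 * (√(∑ i ∈ F, R i) * √(∑ j ∈ G, R' j)) := by
  classical
  set mn : ι → κ → ℝ := fun i j => ind (S i j) *
    min (R i / ((dt (e i) (e' j)).1 : ℝ)) (R' j / ((dt (e i) (e' j)).2 : ℝ)) with hmn
  have hlz : 0 ≤ Real.log (z : ℝ) ^ K8 := Real.rpow_nonneg (Real.log_natCast_nonneg z) _
  have hC8 := C8_nn
  have hG0 : 0 ≤ gI z K η N0 := by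
    unfold gI
    have : 0 < √K := Real.sqrt_pos.2 (by linarith)
    positivity
  have hpart : ∀ c ∈ F.image E, ∀ c' ∈ G.image Γ,
      ∑ i ∈ F.filter (fun i => E i = c), ∑ j ∈ G.filter (fun j => Γ j = c'), mn i j ≤
        gI z K η N0 * (√(∑ i ∈ F.filter (fun i => E i = c), R i) *
          √(∑ j ∈ G.filter (fun j => Γ j = c'), R' j)) := by
    intro c hc c' hc'
    obtain ⟨i0, hi0, hi0c⟩ := Finset.mem_image.1 hc
    set Fc := F.filter (fun i => E i = c) with hFc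
    set Gc := G.filter (fun j => Γ j = c') with hGc
    have mF : ∀ {i}, i ∈ Fc → i ∈ F ∧ E i = c := fun hi => Finset.mem_filter.1 hi
    have mG : ∀ {j}, j ∈ Gc → j ∈ G ∧ Γ j = c' := fun hj => Finset.mem_filter.1 hj
    have hc0 : c ≠ 0 := by rw [← hi0c]; exact hF.ne i0 hi0
    have hfam : Fam Fc Gc e e' R R' :=
      ⟨fun i hi => h.pF i (mF hi).1, fun j hj => h.pG j (mG hj).1,
        fun i hi i' hi' => h.iF i (mF hi).1 i' (mF hi').1,
        fun j hj j' hj' => h.iG j (mG hj).1 j' (mG hj').1,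
        fun i hi => h.rF i (mF hi).1, fun j hj => h.rG j (mG hj).1⟩
    refine acc_all hfam hz (S := S) (fun i hi j hj => sm i (mF hi).1 j (mG hj).1) (E := c)
      (Γ := c') hc0 hK hη hη1 hN0
      (fun i hi => ⟨hF.pos i (mF hi).1, by rw [← (mF hi).2]; exact hF.small i (mF hi).1⟩)
      (fun t ht => card_acc (P := Z) hZ (abs_pos.2 hc0)
        (fun q hq => by rw [← (mF hq).2]; exact hF.acc q (mF hq).1)
        (fun F' hF' => ?_) (by linarith) ht)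
      (fun i hi j hj hs => by
        have := hS i (mF hi).1 j (mG hj).1 hs
        rwa [(mF hi).2, (mG hj).2] at this)
    refine le_trans ?_ hF.sum
    refine Finset.sum_le_sum_of_subset_of_nonneg (fun q hq => (mF (hF' hq)).1) fun q hq _ => ?_
    exact h.rF q hq
  have e1 : ∑ i ∈ F, ∑ j ∈ G, mn i j = ∑ c ∈ F.image E, ∑ c' ∈ G.image Γ,
      ∑ i ∈ F.filter (fun i => E i = c), ∑ j ∈ G.filter (fun j => Γ j = c'), mn i j := by
    rw [← Finset.sum_fiberwise_of_maps_to (s := F) (t := F.image E) (g := E)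
      (fun i hi => Finset.mem_image_of_mem _ hi) (fun i => ∑ j ∈ G, mn i j)]
    refine Finset.sum_congr rfl fun c _ => ?_
    rw [Finset.sum_comm]
    refine Eq.trans ?_ (Finset.sum_congr rfl fun c' _ => Finset.sum_comm)
    exact (Finset.sum_fiberwise_of_maps_to (s := G) (t := G.image Γ) (g := Γ)
      (fun i hi => Finset.mem_image_of_mem _ hi) (fun j => ∑ i ∈ F.filter (fun i => E i = c), mn i j)).symm
  have hRF : ∑ c ∈ F.image E, ∑ i ∈ F.filter (fun i => E i = c), R i = ∑ i ∈ F, R i :=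
    Finset.sum_fiberwise_of_maps_to (fun i hi => Finset.mem_image_of_mem _ hi) _
  have hRG : ∑ c ∈ G.image Γ, ∑ j ∈ G.filter (fun j => Γ j = c), R' j = ∑ j ∈ G, R' j :=
    Finset.sum_fiberwise_of_maps_to (fun i hi => Finset.mem_image_of_mem _ hi) _
  set a : ℝ → ℝ := fun c => ∑ i ∈ F.filter (fun i => E i = c), R i with ha
  set b : ℝ → ℝ := fun c => ∑ j ∈ G.filter (fun j => Γ j = c), R' j with hb
  have a0 : ∀ c, 0 ≤ a c := fun c => Finset.sum_nonneg fun i hi => h.rF i (Finset.mem_filter.1 hi).1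
  have b0 : ∀ c, 0 ≤ b c := fun c => Finset.sum_nonneg fun i hi => h.rG i (Finset.mem_filter.1 hi).1
  calc ∑ i ∈ F, ∑ j ∈ G, mn i j = _ := e1
    _ ≤ ∑ c ∈ F.image E, ∑ c' ∈ G.image Γ, gI z K η N0 * (√(a c) * √(b c')) :=
        Finset.sum_le_sum fun c hc => Finset.sum_le_sum fun c' hc' => hpart c hc c' hc'
    _ = gI z K η N0 * ((∑ c ∈ F.image E, √(a c)) * ∑ c' ∈ G.image Γ, √(b c')) := by
        rw [Finset.sum_mul_sum]
        simp only [Finset.mul_sum]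
    _ ≤ gI z K η N0 * ((√n₁ * √(∑ i ∈ F, R i)) * (√n₂ * √(∑ j ∈ G, R' j))) := by
        refine mul_le_mul_of_nonneg_left ?_ hG0
        have s1 : ∑ c ∈ F.image E, √(a c) ≤ √n₁ * √(∑ i ∈ F, R i) := by
          refine (sum_sqrt_le _ a fun c _ => a0 c).trans ?_
          rw [hRF]
          exact mul_le_mul_of_nonneg_right (Real.sqrt_le_sqrt h1) (Real.sqrt_nonneg _)
        have s2 : ∑ c' ∈ G.image Γ, √(b c') ≤ √n₂ * √(∑ j ∈ G, R' j) := by
          refine (sum_sqrt_le _ b fun c _ => b0 c).trans ?_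
          rw [hRG]
          exact mul_le_mul_of_nonneg_right (Real.sqrt_le_sqrt h2) (Real.sqrt_nonneg _)
        exact mul_le_mul s1 s2 (Finset.sum_nonneg fun _ _ => Real.sqrt_nonneg _) (by positivity)
    _ = _ := by ring

end num

/-! ### two nodes -/

variable {N : Skel189.Num} {γ : ℝ} {p0 P₀ : ℕ} {X : Ctx N γ p0 P₀}

/-- a related pair of pieces with a common point: the points of `acc_energy8` -/
lemma pt_of {s s' : NS} {t t' : IT} (h : QX X s t) (h' : QX X s' t')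
    {R : ℝ → X.c.Lam → X.c.Lam → Prop} {ρ ρ' : ℕ → ℚ} (hE : ExP X s s' t t' R ρ ρ') {e : ℕ × ℕ}
    (he : e ∈ prs X s s' t t' R) :
    ∃ z z' : ℝ, |z| ≤ RB X s e.1 ∧ |z'| ≤ RB X s' e.2 ∧
      ((D2 s s' e : ℕ) : ℝ) * (((s.B : ℝ) * X.c.γ - ρ e.1) + z) =
        (D1 s s' e : ℕ) * (((s'.B : ℝ) * X.c.γ - ρ' e.2) + z') := by
  obtain ⟨h1, h3, h2, h4⟩ := prs_alive h h' he
  obtain ⟨-, -, j, i, y, e1, e2, hr, y1, y2⟩ := mem_prs.1 he
  obtain ⟨i1, a, l1⟩ := tooth h y1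
  obtain ⟨i2, a', l2⟩ := tooth h' y2
  have k := hE.red h hr y1 y2 (a := a) (a' := a') l1 l2
  have ee : (j.1.1, i.1.1) = e := Prod.ext e1 e2
  rw [ee, e1, e2] at k
  have hB : (0 : ℝ) < s.B := by exact_mod_cast h.B_pos
  have hB' : (0 : ℝ) < s'.B := by exact_mod_cast h'.B_pos
  have hrr : ∀ q, q ∈ X.S' → X.c.rr q = X.c.r q := fun q hq => if_pos (X.rpos hq)
  have win : ∀ {v : NS} (hv : (0:ℝ) < v.B) {j : X.c.Lam} {a : ℤ}, Tth X v j y a → j.1.1 ∈ X.S' →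
      |((j.1.1 / v.A : ℕ) : ℝ) * y - v.B * X.c.γ - a| ≤ RB X v j.1.1 := by
    intro v hv j a l hj
    have g1 := X.ok.bp_ge j j.1.2
    have g2 := X.ok.bp_le j (Cf.k_lt j)
    have g3 := mul_le_mul_of_nonneg_left g1 hv.le
    have g4 := mul_le_mul_of_nonneg_left g2 hv.le
    have e : RB X v j.1.1 = v.B * X.c.r j.1.1 := by
      show (v.B : ℝ) * X.c.rr _ = _
      rw [hrr _ hj]
    rw [e, abs_le]
    obtain ⟨l1, l2⟩ := l
    constructor <;> linarith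
  have w1 := win hB l1 (e1 ▸ h3)
  have w2 := win hB' l2 (e2 ▸ h4)
  rw [e1] at w1
  rw [e2] at w2
  refine ⟨_, _, w1, w2, ?_⟩
  have w0 : 0 < e.1 / s.A := Nat.pos_of_ne_zero (h.div_ne h1)
  have hg0 : (0 : ℝ) < ((e.1 / s.A).gcd (e.2 / s'.A) : ℕ) := by
    exact_mod_cast Nat.gcd_pos_of_pos_left _ w0
  have ew : ((e.1 / s.A : ℕ) : ℝ) = ((e.1 / s.A).gcd (e.2 / s'.A) : ℕ) *
      (D1 s s' e : ℕ) := by
    exact_mod_cast (Crest.Agent.R4.AvgItem710.mul_cof).symm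
  have ew' : ((e.2 / s'.A : ℕ) : ℝ) = ((e.1 / s.A).gcd (e.2 / s'.A) : ℕ) *
      (D2 s s' e : ℕ) := by
    exact_mod_cast (Crest.Agent.R4.AvgItem710.mul_cof').symm
  have k' : ((a : ℝ) + ρ e.1) * (D2 s s' e : ℕ) = (a' + ρ' e.2) * (D1 s s' e : ℕ) := by
    exact_mod_cast k
  rw [ew, ew']
  linear_combination -k'

open Classical in
/-- **accuracy events against the exact class, two nodes of one circle** -/
theorem node_accP {s s' : NS} {t t' : IT} (h : QX X s t) (h' : QX X s' t')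
    {R : ℝ → X.c.Lam → X.c.Lam → Prop} (mR : ∀ j i, MP fun y => R y j i) {ρ ρ' : ℕ → ℚ}
    (hE : ExP X s s' t t' R ρ ρ') {F G : Finset ℕ}
    (hF : ∀ e ∈ prs X s s' t t' R, e.1 ∈ F) (hG : ∀ e ∈ prs X s s' t t' R, e.2 ∈ G)
    (fF : ∀ q ∈ F, q ∈ t.items ∧ q ∈ X.S') (fG : ∀ q ∈ G, q ∈ t'.items ∧ q ∈ X.S')
    {z : ℕ} (hz : 2 ≤ z)
    (sm : ∀ e ∈ prs X s s' t t' R, ∀ l : ℕ, l.Prime → l ∣ D1 s s' e * D2 s s' e → l ≤ z)
    {K η N0 Z : ℝ} (hZ : 0 < Z) (hK : 1 ≤ K) (hη : 0 < η)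
    (hη1 : √K * η ≤ 1 / 1024) (hN0 : 1 ≤ N0)
    (hA : AcD F (RB X s) (fun q => (s.B : ℝ) * X.c.γ - ρ q) Z η N0)
    (nc : ∀ e ∈ prs X s s' t t' R, K < ((max (D1 s s' e) (D2 s s' e) : ℕ) : ℝ) ∨
        K * RB X s' e.2 ≤ RB X s e.1 ∨ K * RB X s e.1 ≤ RB X s' e.2)
    {n₁ n₂ : ℝ} (h1 : ((F.image ρ).card : ℝ) ≤ n₁) (h2 : ((G.image ρ').card : ℝ) ≤ n₂) :
    I (qe R (vN X (.inl (s, t))) (vN X (.inl (s', t')))) ≤
      2 * (√n₁ * √n₂ * gI z K η N0 * (√(∑ q ∈ F, RB X s q) * √(∑ r ∈ G, RB X s' r))) := by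
  have hrr := (X.ok.rad X.Y).pos
  have hB : (0 : ℝ) < s.B := by exact_mod_cast h.B_pos
  have hB' : (0 : ℝ) < s'.B := by exact_mod_cast h'.B_pos
  refine (node_offP h h' mR hE).trans ?_
  set S : ℕ → ℕ → Prop := fun q r => (q, r) ∈ prs X s s' t t' R with hS
  have hfam : Fam F G (fun q => q / s.A) (fun r => r / s'.A) (RB X s) (RB X s') :=
    { pF := fun q hq => Nat.pos_of_ne_zero (h.div_ne (fF q hq).1)
      pG := fun q hq => Nat.pos_of_ne_zero (h'.div_ne (fG q hq).1)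
      iF := fun q hq r hr e => by
        have h1 := h.bk.dvd _ (fF q hq).1
        have h2 := h.bk.dvd _ (fF r hr).1
        have e' : q / s.A = r / s.A := e
        rw [← Nat.mul_div_cancel' h1, ← Nat.mul_div_cancel' h2, e']
      iG := fun q hq r hr e => by
        have h1 := h'.bk.dvd _ (fG q hq).1
        have h2 := h'.bk.dvd _ (fG r hr).1
        have e' : q / s'.A = r / s'.A := e
        rw [← Nat.mul_div_cancel' h1, ← Nat.mul_div_cancel' h2, e']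
      rF := fun q _ => (mul_pos hB (hrr q)).le
      rG := fun q _ => (mul_pos hB' (hrr q)).le }
  have c1 : ((F.image fun q => (s.B : ℝ) * X.c.γ - ρ q).card : ℝ) ≤ n₁ := by
    refine le_trans ?_ h1
    have e : F.image (fun q => (s.B : ℝ) * X.c.γ - ρ q) =
        (F.image ρ).image (fun x : ℚ => (s.B : ℝ) * X.c.γ - x) := by
      rw [Finset.image_image]; rfl
    rw [e]
    exact_mod_cast Finset.card_image_le
  have c2 : ((G.image fun q => (s'.B : ℝ) * X.c.γ - ρ' q).card : ℝ) ≤ n₂ := by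
    refine le_trans ?_ h2
    have e : G.image (fun q => (s'.B : ℝ) * X.c.γ - ρ' q) =
        (G.image ρ').image (fun x : ℚ => (s'.B : ℝ) * X.c.γ - x) := by
      rw [Finset.image_image]; rfl
    rw [e]
    exact_mod_cast Finset.card_image_le
  have key := acc_labs hfam hz (S := S)
    (fun q hq r hr hs l hlp hd => by
      rw [dt_D] at hd
      exact sm (q, r) hs l hlp hd)
    (E := fun q => (s.B : ℝ) * X.c.γ - ρ q) (Γ := fun q => (s'.B : ℝ) * X.c.γ - ρ' q) (K := K)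
    (η := η) (N0 := N0) hZ hK hη hη1 hN0 hA
    (fun q hq r hr hs => by
      obtain ⟨z1, z2, a1, a2, a3⟩ := pt_of h h' hE hs
      refine ⟨⟨z1, z2, a1, a2, ?_⟩, ?_⟩
      · rw [dt_D]
        exact a3
      · rw [dt_D]
        exact nc _ hs)
    c1 c2
  rw [← Finset.mul_sum]
  refine mul_le_mul_of_nonneg_left (le_trans ?_ key) (by norm_num)
  rw [← Finset.sum_product' (s := F) (t := G) (f := fun q r => ind (S q r) *
    min (RB X s q / ((dt (q / s.A) (r / s'.A)).1 : ℝ)) (RB X s' r / ((dt (q / s.A) (r / s'.A)).2 : ℝ)))]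
  have hnn : ∀ e : ℕ × ℕ, 0 ≤ min (RB X s e.1 / ((dt (e.1 / s.A) (e.2 / s'.A)).1 : ℝ))
      (RB X s' e.2 / ((dt (e.1 / s.A) (e.2 / s'.A)).2 : ℝ)) := fun e =>
    le_min (div_nonneg (mul_pos hB (hrr _)).le (Nat.cast_nonneg _))
      (div_nonneg (mul_pos hB' (hrr _)).le (Nat.cast_nonneg _))
  refine le_trans (Finset.sum_le_sum fun e he => ?_)
    (Finset.sum_le_sum_of_subset_of_nonneg (s := prs X s s' t t' R) (t := F ×ˢ G) ?_
      fun e _ _ => mul_nonneg (ind_nn _) (hnn e))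
  · rw [ind_t (show S e.1 e.2 from he), one_mul, dt_D]
    rfl
  · intro e he
    exact Finset.mem_product.2 ⟨hF e he, hG e he⟩

/-! ### numbers -/

/-- **the gain is a power of the logarithm** -/
theorem gI_le {s b : ℝ} (hs : 0 ≤ s) (hb : 0 ≤ b) : ∃ κ a l₁ : ℝ, 0 ≤ κ ∧ 0 ≤ a ∧ 1 ≤ l₁ ∧
    ∀ (z : ℕ) (N0 η L : ℝ), 2 ≤ z → l₁ ≤ L → Real.log z ≤ L → 1 ≤ N0 → N0 ≤ L ^ b → 0 < η →
      η ≤ L ^ (-a) → 1 ≤ L ^ κ ∧ √(L ^ κ) * η ≤ 1 / 1024 ∧ 0 ≤ gI z (L ^ κ) η N0 ∧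
        gI z (L ^ κ) η N0 ≤ L ^ (-s) := by
  have hC8 := C8_nn
  have hK8 := K8_nn
  set κ : ℝ := 4 * (s + 1) with hκ
  set a : ℝ := 7 * (s + 1 + (b + 5 * κ / 2) / 16384 + K8 + κ / 14) with ha
  have hκ0 : 0 ≤ κ := by rw [hκ]; linarith
  have ha0 : 0 ≤ a := by rw [ha]; positivity
  refine ⟨κ, a, max (max 1024 28) (6 * C8), hκ0, ha0,
    le_trans (by norm_num) (le_trans (le_max_left _ _) (le_max_left _ _)), ?_⟩
  intro z N0 η L hz hL hzL hN1 hN hη hηL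
  have L1 : (1024 : ℝ) ≤ L := le_trans (le_trans (le_max_left _ _) (le_max_left _ _)) hL
  have L2 : 6 * C8 ≤ L := (le_max_right _ _).trans hL
  have L0 : 0 < L := by linarith
  have Lg1 : 1 ≤ L := by linarith
  have hsq : √(L ^ κ) = L ^ (κ / 2) := by
    rw [Real.sqrt_eq_rpow, ← Real.rpow_mul L0.le]
    congr 1
    ring
  have hKη : √(L ^ κ) * η ≤ L ^ (κ / 2 - a) := by
    rw [hsq, sub_eq_add_neg, Real.rpow_add L0]
    exact mul_le_mul_of_nonneg_left hηL (by positivity)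
  have hlz0 : 0 ≤ Real.log (z : ℝ) := Real.log_natCast_nonneg z
  have hG0 : 0 ≤ gI z (L ^ κ) η N0 := by
    unfold gI
    have : 0 ≤ Real.log (z : ℝ) ^ K8 := Real.rpow_nonneg hlz0 _
    positivity
  refine ⟨Real.one_le_rpow Lg1 hκ0, ?_, hG0, ?_⟩
  · refine hKη.trans ?_
    have h1 : L ^ (κ / 2 - a) ≤ L ^ (-1 : ℝ) := by
      refine Real.rpow_le_rpow_of_exponent_le Lg1 ?_
      have : κ / 2 ≤ 7 * (κ / 14) := by linarith
      have h2 : 0 ≤ (b + 5 * κ / 2) / 16384 := by positivity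
      rw [ha]; nlinarith
    refine h1.trans ?_
    rw [Real.rpow_neg_one, ← one_div]
    exact one_div_le_one_div_of_le (by norm_num) L1
  · unfold gI
    have g1 : 14 * (L ^ κ) ^ (-(1/4) : ℝ) ≤ 1 / 2 * L ^ (-s) := by
      rw [← Real.rpow_mul L0.le]
      have e : κ * -(1/4) = -s + (-1) := by rw [hκ]; ring
      rw [e, Real.rpow_add L0, Real.rpow_neg_one]
      have : 14 * (L ^ (-s) * L⁻¹) = (14 * L⁻¹) * L ^ (-s) := by ring
      rw [this]
      refine mul_le_mul_of_nonneg_right ?_ (by positivity)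
      rw [← div_eq_mul_inv, div_le_iff₀ L0]
      linarith
    have g2 : 3 * (C8 * (N0 * √(L ^ κ) ^ 5) ^ ((1:ℝ)/16384) * Real.log z ^ K8 *
        (√(L ^ κ) * η) ^ (1 / 7 : ℝ)) ≤ 1 / 2 * L ^ (-s) := by
      have a1 : (N0 * √(L ^ κ) ^ 5) ^ ((1:ℝ)/16384) ≤ L ^ ((b + 5 * κ / 2) / 16384) := by
        have b1 : N0 * √(L ^ κ) ^ 5 ≤ L ^ (b + 5 * κ / 2) := by
          rw [hsq, ← Real.rpow_natCast (L ^ (κ / 2)) 5, ← Real.rpow_mul L0.le, Real.rpow_add L0]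
          refine mul_le_mul hN (le_of_eq ?_) (by positivity) (by positivity)
          congr 1
          push_cast
          ring
        refine (Real.rpow_le_rpow (by positivity) b1 (by norm_num)).trans (le_of_eq ?_)
        rw [← Real.rpow_mul L0.le]
        congr 1
        ring
      have a2 : Real.log (z : ℝ) ^ K8 ≤ L ^ K8 := Real.rpow_le_rpow hlz0 hzL hK8
      have a3 : (√(L ^ κ) * η) ^ (1 / 7 : ℝ) ≤ L ^ ((κ / 2 - a) / 7) := by
        refine (Real.rpow_le_rpow (by positivity) hKη (by norm_num)).trans (le_of_eq ?_)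
        rw [← Real.rpow_mul L0.le]
        congr 1
        ring
      have a4 : (0:ℝ) ≤ (√(L ^ κ) * η) ^ (1 / 7 : ℝ) := by positivity
      have a5 : (0:ℝ) ≤ Real.log (z : ℝ) ^ K8 := Real.rpow_nonneg hlz0 _
      calc 3 * (C8 * (N0 * √(L ^ κ) ^ 5) ^ ((1:ℝ)/16384) * Real.log z ^ K8 *
            (√(L ^ κ) * η) ^ (1 / 7 : ℝ))
          ≤ 3 * (C8 * L ^ ((b + 5 * κ / 2) / 16384) * L ^ K8 * L ^ ((κ / 2 - a) / 7)) := by
            gcongr
        _ = 3 * C8 * (L ^ (-s) * L ^ (-1 : ℝ)) := by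
            have e : L ^ ((b + 5 * κ / 2) / 16384) * L ^ K8 * L ^ ((κ / 2 - a) / 7) =
                L ^ (-s) * L ^ (-1 : ℝ) := by
              rw [← Real.rpow_add L0, ← Real.rpow_add L0, ← Real.rpow_add L0]
              congr 1
              rw [ha]
              ring
            rw [← e]
            ring
        _ ≤ 1 / 2 * L ^ (-s) := by
            rw [Real.rpow_neg_one]
            have : 3 * C8 * (L ^ (-s) * L⁻¹) = (3 * C8 * L⁻¹) * L ^ (-s) := by ring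
            rw [this]
            refine mul_le_mul_of_nonneg_right ?_ (by positivity)
            rw [← div_eq_mul_inv, div_le_iff₀ L0]
            linarith
    linarith

/-! ### masses -/

/-- **dense accuracy pairs of two nodes**: exact centres, smooth cofactors, accuracy and thinness at
scale `Z` (the lower radius is `Z R`), few labels, not comparable -/
structure AcN (X : Ctx N γ p0 P₀) (u u' : NS) (τ τ' : IT) (R : ℝ → X.c.Lam → X.c.Lam → Prop)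
    (ρ ρ' : ℕ → ℚ) (z : ℕ) (Z K t b : ℝ) : Prop where
  mR : ∀ j i, MP fun y => R y j i
  ex : ExP X u u' τ τ' R ρ ρ'
  sm : ∀ e ∈ prs X u u' τ τ' R, ∀ l : ℕ, l.Prime → l ∣ D1 u u' e * D2 u u' e → l ≤ z
  thin : ∀ e ∈ prs X u u' τ τ' R, Z * RB X u e.1 ≤ t
  acc : ∀ e ∈ prs X u u' τ τ' R,
    (Z * RB X u e.1) ^ 4 < (Z * |(u.B : ℝ) * X.c.γ - ρ e.1|) ^ 5
  sum : ∑ q ∈ (prs X u u' τ τ' R).image Prod.fst, RB X u q ≤ b / Z
  n1 : (((prs X u u' τ τ' R).image fun e => ρ e.1).card : ℝ) ≤ b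
  n2 : (((prs X u u' τ τ' R).image fun e => ρ' e.2).card : ℝ) ≤ b
  nc : ∀ e ∈ prs X u u' τ τ' R, K < ((max (D1 u u' e) (D2 u u' e) : ℕ) : ℝ) ∨
    K * RB X u' e.2 ≤ RB X u e.1 ∨ K * RB X u e.1 ≤ RB X u' e.2

open Classical in
/-- **dense accuracy pairs, radii** -/
theorem AcN.rad {u u' : NS} {τ τ' : IT} (h : QX X u τ) (h' : QX X u' τ')
    {R : ℝ → X.c.Lam → X.c.Lam → Prop} {ρ ρ' : ℕ → ℚ} {z : ℕ} {Z K t b : ℝ}
    (H : AcN X u u' τ τ' R ρ ρ' z Z K t b) (hz : 2 ≤ z) (hZ : 0 < Z) (hK : 1 ≤ K) (ht : 0 < t)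
    (hη1 : √K * t ^ (1/5 : ℝ) ≤ 1 / 1024) (hb : 1 ≤ b) :
    I (qe R (vN X (.inl (u, τ))) (vN X (.inl (u', τ')))) ≤
      2 * (b * gI z K (t ^ (1/5 : ℝ)) b *
        (√(∑ q ∈ (prs X u u' τ τ' R).image Prod.fst, RB X u q) *
          √(∑ r ∈ (prs X u u' τ τ' R).image Prod.snd, RB X u' r))) := by
  have hrr := (X.ok.rad X.Y).pos
  have hB : (0 : ℝ) < u.B := by exact_mod_cast h.B_pos
  have hRB : ∀ q, 0 < RB X u q := fun q => mul_pos hB (hrr q)
  have mF : ∀ q ∈ (prs X u u' τ τ' R).image Prod.fst, ∃ e ∈ prs X u u' τ τ' R, e.1 = q :=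
    fun q hq => Finset.mem_image.1 hq
  have mG : ∀ q ∈ (prs X u u' τ τ' R).image Prod.snd, ∃ e ∈ prs X u u' τ τ' R, e.2 = q :=
    fun q hq => Finset.mem_image.1 hq
  have hA : AcD ((prs X u u' τ τ' R).image Prod.fst) (RB X u)
      (fun q => (u.B : ℝ) * X.c.γ - ρ q) Z (t ^ (1/5 : ℝ)) b := by
    refine ⟨fun q _ => hRB q, fun q hq => ?_, fun q hq => ?_, fun q hq => ?_, H.sum⟩
    · obtain ⟨e, he, rfl⟩ := mF q hq
      intro h0
      have h1 := H.acc e he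
      have h0' : (u.B : ℝ) * X.c.γ - ρ e.1 = 0 := h0
      rw [h0', abs_zero, mul_zero] at h1
      have : 0 ≤ (Z * RB X u e.1) ^ 4 := by positivity
      linarith
    · obtain ⟨e, he, rfl⟩ := mF q hq
      have h1 := root5 (mul_nonneg hZ.le (hRB e.1).le) (by positivity) ht.le (H.thin e he)
        (H.acc e he)
      have h2 : Z * RB X u e.1 ≤ Z * (t ^ (1/5 : ℝ) * |(u.B : ℝ) * X.c.γ - ρ e.1|) := by linarith
      exact le_of_mul_le_mul_left h2 hZ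
    · obtain ⟨e, he, rfl⟩ := mF q hq
      exact H.acc e he
  have key := node_accP h h' H.mR H.ex (F := (prs X u u' τ τ' R).image Prod.fst)
    (G := (prs X u u' τ τ' R).image Prod.snd) (fun e he => Finset.mem_image_of_mem _ he)
    (fun e he => Finset.mem_image_of_mem _ he)
    (fun q hq => by
      obtain ⟨e, he, rfl⟩ := mF q hq
      have := prs_alive h h' he
      exact ⟨this.1, this.2.1⟩)
    (fun q hq => by
      obtain ⟨e, he, rfl⟩ := mG q hq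
      have := prs_alive h h' he
      exact ⟨this.2.2.1, this.2.2.2⟩)
    hz H.sm hZ hK (Real.rpow_pos_of_pos ht _) hη1 hb hA H.nc (n₁ := b) (n₂ := b)
    (by rw [Finset.image_image]; exact H.n1) (by rw [Finset.image_image]; exact H.n2)
  rwa [Real.mul_self_sqrt (by linarith : (0:ℝ) ≤ b)] at key

open Classical in
/-- **dense accuracy pairs, masses** -/
theorem acc_nodes {s b : ℝ} (hs : 0 ≤ s) (hb : 0 ≤ b) : ∃ κ a l₁ : ℝ, 0 ≤ κ ∧ 0 ≤ a ∧ 1 ≤ l₁ ∧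
    ∀ (N : Skel189.Num) (γ : ℝ) (p0 P₀ : ℕ) (X : Ctx N γ p0 P₀) (u u' : NS) (τ τ' : IT) (P : ℕ)
      (R : ℝ → X.c.Lam → X.c.Lam → Prop) (ρ ρ' : ℕ → ℚ) (Z t : ℝ),
      MN X u τ → MN X u' τ' → p0 ≤ P → 2 ≤ P → l₁ ≤ Real.log P →
      (∀ r : ℕ, r.Prime → r < u.n → r ≤ P) → (∀ r : ℕ, r.Prime → r < u'.n → r ≤ P) →
      0 < Z → 0 < t → t ≤ Real.log P ^ (-a) →
      AcN X u u' τ τ' R ρ ρ' P Z (Real.log P ^ κ) t (Real.log P ^ b) →
      I (qe R (vN X (.inl (u, τ))) (vN X (.inl (u', τ')))) ≤ Real.log P ^ (-s) *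
        (∑ q ∈ (prs X u u' τ τ' R).image Prod.fst, MI X u τ q +
          ∑ r ∈ (prs X u u' τ τ' R).image Prod.snd, MI X u' τ' r) := by
  have hCT := CT_pos
  obtain ⟨κ, a, l₁, hκ, ha, hl1, H⟩ := gI_le (s := s + b + 2) (b := b) (by linarith) hb
  refine ⟨κ, 5 * a, max l₁ (4 * CT), hκ, by linarith, hl1.trans (le_max_left _ _), ?_⟩
  intro N γ p0 P₀ X u u' τ τ' P R ρ ρ' Z t h h' hP h2 hL hu hu' hZ ht htL A
  set L := Real.log (P : ℝ) with hLd
  have L1 : l₁ ≤ L := (le_max_left _ _).trans hL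
  have L2 : 4 * CT ≤ L := (le_max_right _ _).trans hL
  have Lg : 1 ≤ L := hl1.trans L1
  have L0 : 0 < L := by linarith
  have htη : t ^ (1/5 : ℝ) ≤ L ^ (-a) := by
    refine (Real.rpow_le_rpow ht.le htL (by norm_num)).trans (le_of_eq ?_)
    rw [← Real.rpow_mul L0.le]
    congr 1
    ring
  obtain ⟨g1, g2, g3, g4⟩ := H P (L ^ b) (t ^ (1/5 : ℝ)) L h2 L1 le_rfl (Real.one_le_rpow Lg hb)
    le_rfl (Real.rpow_pos_of_pos ht _) htη
  have key := A.rad h.nd h'.nd h2 hZ g1 ht g2 (Real.one_le_rpow Lg hb)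
  refine key.trans ?_
  set F := (prs X u u' τ τ' R).image Prod.fst with hF
  set G := (prs X u u' τ τ' R).image Prod.snd with hG
  have s1 : ∑ q ∈ F, RB X u q ≤ 4 * CT * L * ∑ q ∈ F, MI X u τ q := by
    rw [Finset.mul_sum]
    refine Finset.sum_le_sum fun q hq => ?_
    obtain ⟨e, he, rfl⟩ := Finset.mem_image.1 hq
    have := prs_alive h.nd h'.nd he
    exact h.lo P hP hu _ this.2.1 this.1
  have s2 : ∑ q ∈ G, RB X u' q ≤ 4 * CT * L * ∑ q ∈ G, MI X u' τ' q := by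
    rw [Finset.mul_sum]
    refine Finset.sum_le_sum fun q hq => ?_
    obtain ⟨e, he, rfl⟩ := Finset.mem_image.1 hq
    have := prs_alive h.nd h'.nd he
    exact h'.lo P hP hu' _ this.2.2.2 this.2.2.1
  set A1 := ∑ q ∈ F, MI X u τ q with hA1
  set A2 := ∑ q ∈ G, MI X u' τ' q with hA2
  have m1 : 0 ≤ A1 := Finset.sum_nonneg fun q _ => MI_nonneg h.nd q
  have m2 : 0 ≤ A2 := Finset.sum_nonneg fun q _ => MI_nonneg h'.nd q
  have s3 : √(∑ q ∈ F, RB X u q) * √(∑ r ∈ G, RB X u' r) ≤ 2 * CT * L * (A1 + A2) := by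
    refine (mul_le_mul (Real.sqrt_le_sqrt s1) (Real.sqrt_le_sqrt s2) (Real.sqrt_nonneg _)
      (Real.sqrt_nonneg _)).trans ?_
    have c0 : 0 ≤ 4 * CT * L := by positivity
    rw [Real.sqrt_mul c0, Real.sqrt_mul c0]
    have e1 : √(4 * CT * L) * √A1 * (√(4 * CT * L) * √A2) = 4 * CT * L * (√A1 * √A2) := by
      have := Real.mul_self_sqrt c0
      calc _ = (√(4 * CT * L) * √(4 * CT * L)) * (√A1 * √A2) := by ring
        _ = _ := by rw [this]
    rw [e1]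
    have e2 : 2 * (√A1 * √A2) ≤ A1 + A2 := by
      nlinarith [sq_nonneg (√A1 - √A2), Real.mul_self_sqrt m1, Real.mul_self_sqrt m2]
    nlinarith
  have hb0 : 0 ≤ L ^ b := by positivity
  calc 2 * (L ^ b * gI P (L ^ κ) (t ^ (1/5 : ℝ)) (L ^ b) *
        (√(∑ q ∈ F, RB X u q) * √(∑ r ∈ G, RB X u' r)))
      ≤ 2 * (L ^ b * L ^ (-(s + b + 2)) * (2 * CT * L * (A1 + A2))) := by
        refine mul_le_mul_of_nonneg_left ?_ (by norm_num)
        exact mul_le_mul (mul_le_mul_of_nonneg_left g4 hb0) s3 (by positivity) (by positivity)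
    _ = (4 * CT) * L ^ (-(1:ℝ)) * (L ^ (-s) * (A1 + A2)) := by
        have e : L ^ b * L ^ (-(s + b + 2)) * L = L ^ (-s) * L ^ (-(1:ℝ)) := by
          nth_rewrite 3 [← Real.rpow_one L]
          rw [← Real.rpow_add L0, ← Real.rpow_add L0, ← Real.rpow_add L0]
          congr 1
          ring
        calc _ = (4 * CT) * (L ^ b * L ^ (-(s + b + 2)) * L) * (A1 + A2) := by ring
          _ = _ := by rw [e]; ring
    _ ≤ 1 * (L ^ (-s) * (A1 + A2)) := by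
        refine mul_le_mul_of_nonneg_right ?_ (by positivity)
        rw [Real.rpow_neg_one, ← div_eq_mul_inv, div_le_one L0]
        exact L2
    _ = _ := one_mul _

end Crest.Agent.R4P.XmB41
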