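import Crest.Agent.R4P.XmB_41

/-!
R4 (S0004), powers pass, helper41: **dense accuracy events against the real exact class** (real labels
`X.c.st c`), two nodes of one circle, any column `c` of the nodes (`tp τ ≤ c`, the primes of `u.B` are `> c`).

* `mt_nodeC`, `lst_nodeC`, `lab_nodeC`, **`labs_nodeC`** : the labels of a node at a column `c` above `tp τ`;
* `exP_real` : exact centres of two pieces of one real index; `smP` : smooth cofactors;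
* **`ArN`**, **`acc_real`** : pairs of pieces with one real index and dense labels, first piece: accuracy
  death at scale `Z` (`(Z R)^4 < (Z |B γ - B σ|)^5`, `Z R ≤ t`), not comparable:
  `I (qe R vN vN') ≤ (log c)^(-s) (mass of the related items of both nodes)`.
-/

set_option autoImplicit false
set_option linter.unusedSectionVars false
set_option linter.unusedVariables false

open MeasureTheory Filter

namespace Crest.Agent.R4P.XmC41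

open Crest.Agent.R4.Tour104 Crest.Agent.R4.Tour758 Crest.Agent.R4.Avg758 Crest.Agent.R4.Clos758
open Crest.Agent.R4.ClosL758 Crest.Agent.R4.ClosG758 Crest.Agent.R4.ClosR758
open Crest.Agent.R4.HVW560
open Crest.Agent.R4.Fam464 Crest.Agent.R4.Piece464
open Crest.Agent.R4P.Cnt588 Crest.Agent.R4P.Item758 Crest.Agent.R4P.AvgItem710
open Crest.Agent.R4P.W363 Crest.Agent.R4P.LfDat734
open Crest.Agent.R4P.Walk560 Crest.Agent.R4P.NodeG33
open Crest.Agent.R4P.Data758 Crest.Agent.R4P.Skel189 Crest.Agent.R4P.WPex189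
open Crest.Agent.R4P.Bld532 (NS All NodeOk Bk)
open Crest.Agent.R4P.Step588 (NDt CT CT_pos ctx_NDt uq_lt)
open Crest.Agent.R4.Soft104 (w)
open Crest.Agent.R4P.SameIx30 Crest.Agent.R4P.GPair33
open Crest.Agent.R4P.ShR18 (Co)
open Crest.Agent.R4P.XmE18 Crest.Agent.R4P.XmM18 Crest.Agent.R4P.XmG18
open Crest.Agent.R4P.RseSt23
open Crest.Agent.R4.LF363 (Lab)
open Crest.Agent.R4P.WalkIT579 (tp isL nodeOk_hi top_of_nodeOk prime_ge)
open Crest.Agent.R4P.StM6 (dense)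
open Crest.Agent.R4P.AcT41 (lab_cnt root5)
open Crest.Agent.R4P.XmO37 (Tth exO_L2)
open Crest.Agent.R4P.XmQ37 (ExP prs mem_prs prs_alive)
open Crest.Agent.R4P.E3V479 (qe)
open Crest.Agent.R4P.DTp26 (MP)
open Crest.Agent.R4P.XmA41 (smooth2')
open Crest.Agent.R4P.XmB41
open Crest.Agent.R4P

/-! ### the columns of a node -/

section col
variable {P : Bld532.Par} {W : ℕ → ℝ} {t' : IT} {u : NS} {τ : IT}

/-- **the missing ties above a column of the node** -/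
theorem mt_nodeC (h : NDt P W t' u τ) {n : ℕ} (hO : t'.Ok n) (hl : ¬ isL τ) {c : ℕ} (hc : tp τ ≤ c)
    (hB : ∀ l : ℕ, l.Prime → l ∣ u.B → c < l) {q : ℕ} (hq : q ∈ τ.items) :
    (t'.mt q).filter (c < ·) = u.B.primeFactors := by
  have h1 := mt_node h hO hl hq
  ext l
  constructor
  · intro h2
    obtain ⟨h3, h4⟩ := Finset.mem_filter.1 h2
    rw [← h1]
    exact Finset.mem_filter.2 ⟨h3, by omega⟩
  · intro h2
    have h3 := h2
    rw [← h1] at h2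
    exact Finset.mem_filter.2 ⟨(Finset.mem_filter.1 h2).1,
      hB l (Nat.prime_of_mem_primeFactors h3) (Nat.dvd_of_mem_primeFactors h3)⟩

lemma lst_nodeC (h : NDt P W t' u τ) {n : ℕ} (hO : t'.Ok n) (hl : ¬ isL τ) {c : ℕ} (hc : tp τ ≤ c)
    (hB : ∀ l : ℕ, l.Prime → l ∣ u.B → c < l) {q : ℕ} (hq : q ∈ τ.items) :
    lst (t'.mt q) c = RseSt23.LB u.B := by
  unfold Crest.Agent.R4.W363.lst RseSt23.LB
  rw [mt_nodeC h hO hl hc hB hq]

/-- the state of an item of a node at a column -/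
lemma st_nodeC (h : NDt P W t' u τ) {n : ℕ} (hO : t'.Ok n) (hl : ¬ isL τ) {c : ℕ} (hc : tp τ ≤ c)
    (hB : ∀ l : ℕ, l.Prime → l ∣ u.B → c < l) {q : ℕ}
    (hq : q ∈ τ.items) (wp : WP) (γ : ℝ) (r : ℕ → ℝ) :
    wp.st γ r t' c q = sta wp.thr γ (r q) (RseSt23.LB u.B) c := by
  unfold WP.st
  rw [lst_nodeC h hO hl hc hB hq]

/-- the two cases of a labelled item -/
theorem st_someC (h : NDt P W t' u τ) {n : ℕ} (hO : t'.Ok n) (hl : ¬ isL τ) {c : ℕ}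
    (hc : tp τ ≤ c) (hB : ∀ l : ℕ, l.Prime → l ∣ u.B → c < l) {wp : WP} {γ : ℝ}
    {r : ℕ → ℝ} {K : ℝ} (hK : ∀ s : ℕ, c < s → K ≤ s * wp.thr s) :
    ∃ b₀ s : ℕ, 0 < b₀ ∧ (c < s ∧ b₀ * s = u.B ∨ u.B = 1) ∧
      ∀ q ∈ τ.items, (u.B : ℝ) * r q ≤ K → ∀ σ : ℚ, wp.st γ r t' c q = some σ →
        Lab (u.B * γ) (u.B * r q) (u.B * σ) ∨
        (c < s ∧ b₀ * s = u.B ∧ wp.thr c < u.B * r q ∧ Lab (b₀ * γ) (b₀ * r q) (b₀ * σ)) := by
  have hprod := LB_prod h.bk.sfB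
  have hmem : ∀ s ∈ RseSt23.LB u.B, s.Prime ∧ c < s := by
    intro s hs
    unfold RseSt23.LB at hs
    rw [Finset.mem_sort] at hs
    have h1 := Nat.prime_of_mem_primeFactors hs
    exact ⟨h1, hB s h1 (Nat.dvd_of_mem_primeFactors hs)⟩
  cases hL : RseSt23.LB u.B with
  | nil =>
    have hB1 : u.B = 1 := by rw [← hprod, hL]; rfl
    refine ⟨1, 0, one_pos, Or.inr hB1, fun q hq _ σ hσ => Or.inl ?_⟩
    rw [st_nodeC h hO hl hc hB hq, hL] at hσ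
    have h1 : lab0 γ (r q) 1 = some σ := hσ
    have h2 := lab0_spec one_pos h1
    rw [hB1]
    exact h2
  | cons s L' =>
    have hs := hmem s (by rw [hL]; exact List.mem_cons_self)
    have hBs : s * L'.prod = u.B := by rw [← hprod, hL, List.prod_cons]
    have hB0 : 0 < u.B := Nat.pos_of_ne_zero h.bk.sfB.ne_zero
    have hL0 : 0 < L'.prod := by
      rcases Nat.eq_zero_or_pos L'.prod with h0 | h0
      · rw [h0, mul_zero] at hBs; omega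
      · exact h0
    refine ⟨L'.prod, s, hL0, Or.inl ⟨hs.2, by rw [mul_comm]; exact hBs⟩,
      fun q hq hKq σ hσ => ?_⟩
    rw [st_nodeC h hO hl hc hB hq, hL] at hσ
    unfold Crest.Agent.R4.W363.sta at hσ
    split_ifs at hσ with hth
    · left
      rw [hBs] at hσ
      exact lab0_spec hB0 hσ
    · right
      rw [hBs] at hth
      refine ⟨hs.2, by rw [mul_comm]; exact hBs, not_le.1 hth, ?_⟩
      have hs0 : (0:ℝ) < s := by exact_mod_cast hs.1.pos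
      have hthin : (L'.prod : ℝ) * r q ≤ wp.thr s := by
        have h1 := hKq.trans (hK s hs.2)
        have hc : (u.B : ℝ) = (s:ℝ) * (L'.prod : ℕ) := by rw [← hBs, Nat.cast_mul]
        rw [hc, mul_assoc] at h1
        exact le_of_mul_le_mul_left h1 hs0
      rw [sta_thin hthin] at hσ
      exact lab0_spec hL0 hσ

/-- **labels of a node at a column**: at the radius of the item, or one common label for the fat items -/
theorem lab_nodeC (h : NDt P W t' u τ) {n : ℕ} (hO : t'.Ok n) (hl : ¬ isL τ) {c : ℕ}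
    (hc : tp τ ≤ c) (hB : ∀ l : ℕ, l.Prime → l ∣ u.B → c < l) {wp : WP} {γ : ℝ}
    {r : ℕ → ℝ} {K : ℝ} (hK : ∀ s : ℕ, c < s → K ≤ s * wp.thr s)
    (hthr : 0 < wp.thr c) (hK4 : 32 * K ^ 4 < (c : ℝ) ^ 2 * wp.thr c ^ 2) :
    ∃ Λf : Finset ℚ, Λf.card ≤ 1 ∧ ∀ q ∈ τ.items, (u.B : ℝ) * r q ≤ K →
      ∀ σ : ℚ, wp.st γ r t' c q = some σ →
        Lab (u.B * γ) (u.B * r q) (u.B * σ) ∨
        (((u.B : ℚ) * σ) ∈ Λf ∧ wp.thr c < u.B * r q) := by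
  classical
  obtain ⟨b₀, s, hb₀, hbs, key⟩ := st_someC h hO hl hc hB (wp := wp) (γ := γ) (r := r) hK
  by_cases hex : ∃ q ∈ τ.items, (u.B : ℝ) * r q ≤ K ∧ ∃ σ : ℚ, wp.st γ r t' c q = some σ ∧
      (c < s ∧ b₀ * s = u.B ∧ wp.thr c < u.B * r q ∧ Lab (b₀ * γ) (b₀ * r q) (b₀ * σ))
  · obtain ⟨q₀, hq₀, hK₀, σ₀, hσ₀, hs1, hs2, hf₀, hL₀⟩ := hex
    refine ⟨{(u.B : ℚ) * σ₀}, by simp, fun q hq hKq σ hσ => ?_⟩
    rcases key q hq hKq σ hσ with h1 | ⟨-, -, hf, hL⟩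
    · exact Or.inl h1
    · right
      refine ⟨?_, hf⟩
      rw [Finset.mem_singleton]
      have hs0 : (0:ℝ) < s := by
        have : 0 < s := by omega
        exact_mod_cast this
      have hb0 : (0:ℝ) < b₀ := by exact_mod_cast hb₀
      have hBe : (u.B : ℝ) = b₀ * s := by rw [← hs2]; push_cast; ring
      have hp0 : (0:ℝ) < (c : ℝ) := by
        exact_mod_cast (top_of_nodeOk h.self.node hl).1.pos.trans_le hc
      have hps : (c : ℝ) ≤ s := by exact_mod_cast hs1.le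
      have f1 : wp.thr c / s ≤ b₀ * r q := by
        rw [div_le_iff₀ hs0]; rw [hBe] at hf; nlinarith
      have f2 : wp.thr c / s ≤ b₀ * r q₀ := by
        rw [div_le_iff₀ hs0]; rw [hBe] at hf₀; nlinarith
      have f3 : b₀ * r q ≤ K / s := by
        rw [le_div_iff₀ hs0]; rw [hBe] at hKq; nlinarith
      have f4 : b₀ * r q₀ ≤ K / s := by
        rw [le_div_iff₀ hs0]; rw [hBe] at hK₀; nlinarith
      have f5 : 32 * (K / s) ^ 4 < (wp.thr c / s) ^ 2 := by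
        rw [div_pow, div_pow, mul_div_assoc', div_lt_div_iff₀ (by positivity) (by positivity)]
        have g1 : (c : ℝ) ^ 2 ≤ s ^ 2 := pow_le_pow_left₀ hp0.le hps 2
        have g2 : (c : ℝ) ^ 2 * wp.thr c ^ 2 ≤ s ^ 2 * wp.thr c ^ 2 :=
          mul_le_mul_of_nonneg_right g1 (sq_nonneg _)
        have g3 : 32 * K ^ 4 < s ^ 2 * wp.thr c ^ 2 := hK4.trans_le g2
        calc 32 * K ^ 4 * (s:ℝ) ^ 2 < (s ^ 2 * wp.thr c ^ 2) * s ^ 2 :=
              mul_lt_mul_of_pos_right g3 (by positivity)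
          _ = wp.thr c ^ 2 * (s:ℝ) ^ 4 := by ring
      have he := lab_unique_of hL hL₀ (div_pos hthr hs0) f1 f2 f3 f4 f5
      have hb0q : (b₀ : ℚ) ≠ 0 := by exact_mod_cast hb₀.ne'
      have : σ = σ₀ := mul_left_cancel₀ hb0q he
      rw [this]
  · refine ⟨∅, by simp, fun q hq hKq σ hσ => ?_⟩
    rcases key q hq hKq σ hσ with h1 | h1
    · exact Or.inl h1
    · exact absurd ⟨q, hq, hKq, σ, hσ, h1⟩ hex

/-- **column states** (`stB`: anticipated births) -/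
theorem lab_nodeBC (h : NDt P W t' u τ) {n : ℕ} (hO : t'.Ok n) (hl : ¬ isL τ) {c : ℕ}
    (hc : tp τ ≤ c) (hB : ∀ l : ℕ, l.Prime → l ∣ u.B → c < l) {wp wpL : WP}
    {lam : ℕ → ℝ} {lv : ℕ → ℕ} {γ : ℝ}
    {r : ℕ → ℝ} {K : ℝ} (hK : ∀ s : ℕ, c < s → K ≤ s * wp.thr s)
    (hthr : 0 < wp.thr c) (hK4 : 32 * K ^ 4 < (c : ℝ) ^ 2 * wp.thr c ^ 2) :
    ∃ Λf : Finset ℚ, Λf.card ≤ 1 ∧ ∀ q ∈ τ.items, (u.B : ℝ) * r q ≤ K →
      ∀ σ : ℚ, stB wp wpL lam γ r t' lv c q = some σ →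
        Lab (u.B * γ) (u.B * r q) (u.B * σ) ∨
        (((u.B : ℚ) * σ) ∈ Λf ∧ wp.thr c < u.B * r q) := by
  obtain ⟨Λf, h1, h2⟩ := lab_nodeC h hO hl hc hB (wp := wp) (γ := γ) (r := r) hK hthr hK4
  refine ⟨Λf, h1, fun q hq hKq σ hσ => ?_⟩
  rcases stB_lbAt hσ with h3 | h3
  · exact h2 q hq hKq σ h3
  · left
    rw [lst_nodeC h hO hl hc hB hq, LB_prod h.bk.sfB] at h3
    exact lab0_spec (Nat.pos_of_ne_zero h.bk.sfB.ne_zero) h3

end col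

section ctx
variable {N : Skel189.Num} {γ : ℝ} {p0 P₀ : ℕ}

/-- **the dense labels of a node at a column** -/
theorem labs_nodeC {X : Ctx N γ p0 P₀} {u : NS} {τ : IT} (h : NDt X.par (w X.ψ) X.c.t u τ)
    (hl : ¬ isL τ) {c : ℕ} (hc : tp τ ≤ c) (hB : ∀ l : ℕ, l.Prime → l ∣ u.B → c < l)
    {κ : ℝ} (hκ : ∀ s : ℕ, c < s → κ ≤ s * X.c.wp.thr s)
    (ht : 0 < X.c.wp.thr c) (hκ4 : 32 * κ ^ 4 < (c : ℝ) ^ 2 * X.c.wp.thr c ^ 2)
    (ht6 : 32 * X.c.wp.thr c ^ 2 < 1) {M : ℕ} (hM : 1 / X.c.wp.thr c < 2 ^ (M + 1)) :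
    ∃ Λ : Finset ℚ, Λ.card ≤ M + 2 ∧ ∀ q ∈ τ.items, (u.B : ℝ) * X.c.r q ≤ κ → ∀ σ : ℚ,
      X.c.st c q = some σ → dense (X.c.wp.thr c) u.B σ → (u.B : ℚ) * σ ∈ Λ := by
  classical
  obtain ⟨Λf, hΛ, H⟩ := lab_nodeBC h X.tOk hl hc hB (wp := X.c.wp) (wpL := X.c.wpL)
    (lam := X.c.lam) (lv := X.c.lv) (γ := X.c.γ) (r := X.c.r) hκ ht hκ4
  set I : Finset ℕ := τ.items.filter fun q => ∃ σ : ℚ, X.c.st c q = some σ ∧
    dense (X.c.wp.thr c) u.B σ ∧ Lab (u.B * X.c.γ) (u.B * X.c.r q) (u.B * σ) with hI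
  set ρ : ℕ → ℚ := fun q => (u.B : ℚ) * ((X.c.st c q).getD 0) with hρ
  have hI' : ∀ q ∈ I, Lab (u.B * X.c.γ) (u.B * X.c.r q) (ρ q) ∧
      ((ρ q).den : ℝ) ^ 5 * X.c.wp.thr c ≤ 1 := by
    intro q hq
    obtain ⟨-, σ, h1, h2, h3⟩ := Finset.mem_filter.1 hq
    have e : ρ q = (u.B : ℚ) * σ := by
      show (u.B : ℚ) * ((X.c.st c q).getD 0) = _
      rw [h1, Option.getD_some]
    rw [e]
    exact ⟨by exact_mod_cast h3, h2⟩
  have hcnt := lab_cnt (I := I) (a := fun q => u.B * X.c.r q) (ρ := ρ) ht ht6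
    (fun q hq => (hI' q hq).1) (fun q hq => (hI' q hq).2) hM
  refine ⟨I.image ρ ∪ Λf, (Finset.card_union_le _ _).trans (by omega), ?_⟩
  intro q hq hK σ hσ hd
  rcases H q hq hK σ hσ with h1 | h1
  · refine Finset.mem_union_left _ (Finset.mem_image.2 ⟨q, Finset.mem_filter.2
      ⟨hq, σ, hσ, hd, h1⟩, ?_⟩)
    show (u.B : ℚ) * ((X.c.st c q).getD 0) = _
    rw [hσ, Option.getD_some]
  · exact Finset.mem_union_right _ h1.1

/-! ### exact centres -/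

variable {X : Ctx N γ p0 P₀}

/-- the label of an item of the node as an offset -/
noncomputable def ofs (X : Ctx N γ p0 P₀) (c : ℕ) (u : NS) (q : ℕ) : ℚ :=
  (u.B : ℚ) * ((X.c.st c q).getD 0)

lemma ofs_some {c : ℕ} {u : NS} {q : ℕ} {σ : ℚ} (h : X.c.st c q = some σ) :
    ofs X c u q = u.B * σ := by
  unfold ofs
  rw [h, Option.getD_some]

open Classical in
/-- **one real index, both labelled: exact centres** -/
theorem exP_real {u u' : NS} {τ τ' : IT} (h : QX X u τ) (h' : QX X u' τ') {c : ℕ}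
    (hc : c ≤ top X.S) (hlam : X.c.lam c = 0) (hT : u.A * u.B = u'.A * u'.B)
    {R : ℝ → X.c.Lam → X.c.Lam → Prop}
    (hix : ∀ y j i, R y j i → vN X (.inl (u, τ)) j y ≠ 0 → vN X (.inl (u', τ')) i y ≠ 0 →
      (X.c.world c j.1).1 = (X.c.world c i.1).1)
    (hst : ∀ y j i, R y j i → vN X (.inl (u, τ)) j y ≠ 0 → vN X (.inl (u', τ')) i y ≠ 0 →
      (∃ σ, X.c.st c j.1.1 = some σ) ∧ ∃ σ, X.c.st c i.1.1 = some σ) :
    ExP X u u' τ τ' R (ofs X c u) (ofs X c u') := by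
  set R' : Finset (X.c.Lam × X.c.Lam) := Finset.univ.filter fun x => ∃ y, R y x.1 x.2 ∧
    vN X (.inl (u, τ)) x.1 y ≠ 0 ∧ vN X (.inl (u', τ')) x.2 y ≠ 0 with hR'
  have mR' : ∀ x ∈ R', ∃ y, R y x.1 x.2 ∧
    vN X (.inl (u, τ)) x.1 y ≠ 0 ∧ vN X (.inl (u', τ')) x.2 y ≠ 0 := fun x hx =>
    (Finset.mem_filter.1 hx).2
  have hLB : SameIx30.LB X c R' := ⟨fun x hx => by
      obtain ⟨y, h1, h2, h3⟩ := mR' x hx
      exact hix y _ _ h1 h2 h3, fun x hx => by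
      obtain ⟨y, h1, h2, h3⟩ := mR' x hx
      obtain ⟨⟨σ, h4⟩, -⟩ := hst y _ _ h1 h2 h3
      rw [h4]
      exact fun h => Option.some_ne_none _ h⟩
  have hE := exO_L2 h h' hc hlam hT hLB (σ := fun q => (X.c.st c q).getD 0) (fun x hx => by
    obtain ⟨y, h1, h2, h3⟩ := mR' x hx
    obtain ⟨⟨σ, h4⟩, σ', h5⟩ := hst y _ _ h1 h2 h3
    refine ⟨?_, ?_⟩
    · show X.c.st c x.1.1.1 = some ((X.c.st c x.1.1.1).getD 0)
      rw [h4, Option.getD_some]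
    · show X.c.st c x.2.1.1 = some ((X.c.st c x.2.1.1).getD 0)
      rw [h5, Option.getD_some])
  intro y j i hr y1 y2 a a' l1 l2
  have i1 : j.1.1 ∈ τ.items := by
    by_contra hn
    exact y1 (vN_out hn y)
  have i2 : i.1.1 ∈ τ'.items := by
    by_contra hn
    exact y2 (vN_out hn y)
  exact hE (j, i) (Finset.mem_filter.2 ⟨Finset.mem_univ _, y, hr, y1, y2⟩) i1 i2 y a a' l1 l2

/-- **smooth cofactors** of related items -/
theorem smP {u u' : NS} {τ τ' : IT} (h : QX X u τ) (h' : QX X u' τ') {c : ℕ}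
    (hn : ∀ l : ℕ, l.Prime → c < l → u.n ≤ l ∧ u'.n ≤ l)
    {R : ℝ → X.c.Lam → X.c.Lam → Prop}
    (hrt : ∀ y j i, R y j i → vN X (.inl (u, τ)) j y ≠ 0 → vN X (.inl (u', τ')) i y ≠ 0 →
      ret X.c.t c j.1.1 = ret X.c.t c i.1.1) {e : ℕ × ℕ}
    (he : e ∈ prs X u u' τ τ' R) {l : ℕ} (hl : l.Prime) (hd : l ∣ D1 u u' e * D2 u u' e) :
    l ≤ c := by
  obtain ⟨h1, h2, j, i, y, e1, e2, hr, y1, y2⟩ := mem_prs.1 he
  have h3 := hrt y j i hr y1 y2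
  rw [e1, e2] at h3
  exact smooth2' h h' X.tOk (p := c) hn h1 h2 h3 hl hd

/-! ### real labels -/

/-- **dense accuracy pairs, real labels** at the column `c` -/
structure ArN (X : Ctx N γ p0 P₀) (c : ℕ) (u u' : NS) (τ τ' : IT)
    (R : ℝ → X.c.Lam → X.c.Lam → Prop) (Z K t b κ : ℝ) : Prop where
  mR : ∀ j i, MP fun y => R y j i
  /-- one real index -/
  ix : ∀ y j i, R y j i → vN X (.inl (u, τ)) j y ≠ 0 → vN X (.inl (u', τ')) i y ≠ 0 →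
    (X.c.world c j.1).1 = (X.c.world c i.1).1 ∧ ret X.c.t c j.1.1 = ret X.c.t c i.1.1
  /-- first piece: dense label, accuracy death at scale `Z` -/
  ad : ∀ y j i, R y j i → vN X (.inl (u, τ)) j y ≠ 0 → vN X (.inl (u', τ')) i y ≠ 0 →
    ∃ σ, X.c.st c j.1.1 = some σ ∧ dense (X.c.wp.thr c) u.B σ ∧ Z * RB X u j.1.1 ≤ t ∧
      (Z * RB X u j.1.1) ^ 4 < (Z * |(u.B : ℝ) * X.c.γ - ((u.B : ℚ) * σ : ℚ)|) ^ 5
  /-- second piece: dense label -/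
  dn : ∀ y j i, R y j i → vN X (.inl (u, τ)) j y ≠ 0 → vN X (.inl (u', τ')) i y ≠ 0 →
    ∃ σ, X.c.st c i.1.1 = some σ ∧ dense (X.c.wp.thr c) u'.B σ
  /-- not comparable -/
  nc : ∀ y j i, R y j i → vN X (.inl (u, τ)) j y ≠ 0 → vN X (.inl (u', τ')) i y ≠ 0 →
    K < ((max (D1 u u' (j.1.1, i.1.1)) (D2 u u' (j.1.1, i.1.1)) : ℕ) : ℝ) ∨
      K * RB X u' i.1.1 ≤ RB X u j.1.1 ∨ K * RB X u j.1.1 ≤ RB X u' i.1.1
  /-- radii -/
  kN : ∀ q ∈ τ.items, q ∈ X.S' → RB X u q ≤ κ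
  kN' : ∀ q ∈ τ'.items, q ∈ X.S' → RB X u' q ≤ κ
  sum : ∑ q ∈ (prs X u u' τ τ' R).image Prod.fst, RB X u q ≤ b / Z

open Classical in
/-- **dense accuracy pairs, real labels** -/
theorem acc_real {s b : ℝ} (hs : 0 ≤ s) (hb : 0 ≤ b) : ∃ κ a l₁ : ℝ, 0 ≤ κ ∧ 0 ≤ a ∧ 1 ≤ l₁ ∧
    ∀ (N : Skel189.Num) (γ : ℝ) (p0 P₀ : ℕ) (X : Ctx N γ p0 P₀) (u u' : NS) (τ τ' : IT) (c : ℕ)
      (R : ℝ → X.c.Lam → X.c.Lam → Prop) (Z t κ₀ : ℝ) (M : ℕ),
      MN X u τ → MN X u' τ' → ¬ isL τ → ¬ isL τ' → tp τ ≤ c → tp τ' ≤ c →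
      (∀ l : ℕ, l.Prime → l ∣ u.B → c < l) → (∀ l : ℕ, l.Prime → l ∣ u'.B → c < l) →
      (∀ l : ℕ, l.Prime → c < l → u.n ≤ l ∧ u'.n ≤ l) →
      (∀ l : ℕ, l.Prime → l < u.n → l ≤ c) → (∀ l : ℕ, l.Prime → l < u'.n → l ≤ c) →
      u.A * u.B = u'.A * u'.B → c ≤ top X.S → X.c.lam c = 0 →
      p0 ≤ c → 2 ≤ c → l₁ ≤ Real.log c →
      (∀ s : ℕ, c < s → κ₀ ≤ s * X.c.wp.thr s) → 0 < X.c.wp.thr c →
      32 * κ₀ ^ 4 < (c : ℝ) ^ 2 * X.c.wp.thr c ^ 2 → 32 * X.c.wp.thr c ^ 2 < 1 →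
      1 / X.c.wp.thr c < 2 ^ (M + 1) → (M : ℝ) + 2 ≤ Real.log c ^ b →
      0 < Z → 0 < t → t ≤ Real.log c ^ (-a) →
      ArN X c u u' τ τ' R Z (Real.log c ^ κ) t (Real.log c ^ b) κ₀ →
      I (qe R (vN X (.inl (u, τ))) (vN X (.inl (u', τ')))) ≤ Real.log c ^ (-s) *
        (∑ q ∈ (prs X u u' τ τ' R).image Prod.fst, MI X u τ q +
          ∑ r ∈ (prs X u u' τ τ' R).image Prod.snd, MI X u' τ' r) := by
  obtain ⟨κ, a, l₁, hκ, ha, hl1, H⟩ := acc_nodes hs hb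
  refine ⟨κ, a, l₁, hκ, ha, hl1, ?_⟩
  intro N γ p0 P₀ X u u' τ τ' c R Z t κ₀ M h h' hl hl' hc hc' hB hB' hn hP hP' hT hct hlam hp0 h2 hL
    hκ0 ht0 hκ4 ht6 hM hMb hZ ht htL A
  obtain ⟨Λ, hΛ, HΛ⟩ := labs_nodeC (X := X) h.nd hl hc hB hκ0 ht0 hκ4 ht6 hM
  obtain ⟨Λ', hΛ', HΛ'⟩ := labs_nodeC (X := X) h'.nd hl' hc' hB' hκ0 ht0 hκ4 ht6 hM
  have hr0 : ∀ q, q ∈ X.S' → X.c.rr q = X.c.r q := fun q hq => if_pos (X.rpos hq)
  have hRr : ∀ {v : NS} {q : ℕ}, q ∈ X.S' → RB X v q = v.B * X.c.r q := fun {v q} hq => by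
    show (v.B : ℝ) * X.c.rr q = _
    rw [hr0 q hq]
  refine H N γ p0 P₀ X u u' τ τ' c R (ofs X c u) (ofs X c u') Z t h h' hp0 h2 hL hP hP' hZ ht htL ?_
  refine ⟨A.mR, ?_, fun e he l hl1 hd => ?_, fun e he => ?_, fun e he => ?_, A.sum, ?_, ?_,
    fun e he => ?_⟩
  · refine exP_real h.nd h'.nd hct hlam hT (fun y j i a1 a2 a3 => (A.ix y j i a1 a2 a3).1)
      fun y j i a1 a2 a3 => ?_
    obtain ⟨σ, b1, -⟩ := A.ad y j i a1 a2 a3
    obtain ⟨σ', b2, -⟩ := A.dn y j i a1 a2 a3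
    exact ⟨⟨σ, b1⟩, σ', b2⟩
  · exact smP h.nd h'.nd hn (fun y j i a1 a2 a3 => (A.ix y j i a1 a2 a3).2) he hl1 hd
  · obtain ⟨h1, h2, j, i, y, e1, e2, hr, y1, y2⟩ := mem_prs.1 he
    obtain ⟨σ, b1, b2, b3, b4⟩ := A.ad y j i hr y1 y2
    rw [← e1]
    exact b3
  · obtain ⟨h1, h2, j, i, y, e1, e2, hr, y1, y2⟩ := mem_prs.1 he
    obtain ⟨σ, b1, b2, b3, b4⟩ := A.ad y j i hr y1 y2
    rw [← e1, ofs_some b1]
    exact b4
  · have hsub : ((prs X u u' τ τ' R).image fun e => ofs X c u e.1) ⊆ Λ := by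
      intro x hx
      obtain ⟨e, he, rfl⟩ := Finset.mem_image.1 hx
      obtain ⟨h1, h2, j, i, y, e1, e2, hr, y1, y2⟩ := mem_prs.1 he
      obtain ⟨σ, b1, b2, b3, b4⟩ := A.ad y j i hr y1 y2
      have al := prs_alive h.nd h'.nd he
      rw [e1] at b1
      rw [ofs_some b1]
      refine HΛ e.1 al.1 ?_ σ b1 b2
      rw [← hRr al.2.1]
      exact A.kN _ al.1 al.2.1
    have h3 : ((((prs X u u' τ τ' R).image fun e => ofs X c u e.1).card : ℕ) : ℝ) ≤ M + 2 := by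
      exact_mod_cast (Finset.card_le_card hsub).trans hΛ
    exact h3.trans hMb
  · have hsub : ((prs X u u' τ τ' R).image fun e => ofs X c u' e.2) ⊆ Λ' := by
      intro x hx
      obtain ⟨e, he, rfl⟩ := Finset.mem_image.1 hx
      obtain ⟨h1, h2, j, i, y, e1, e2, hr, y1, y2⟩ := mem_prs.1 he
      obtain ⟨σ, b1, b2⟩ := A.dn y j i hr y1 y2
      have al := prs_alive h.nd h'.nd he
      rw [e2] at b1
      rw [ofs_some b1]
      refine HΛ' e.2 al.2.2.1 ?_ σ b1 b2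
      rw [← hRr al.2.2.2]
      exact A.kN' _ al.2.2.1 al.2.2.2
    have h3 : ((((prs X u u' τ τ' R).image fun e => ofs X c u' e.2).card : ℕ) : ℝ) ≤ M + 2 := by
      exact_mod_cast (Finset.card_le_card hsub).trans hΛ'
    exact h3.trans hMb
  · obtain ⟨h1, h2, j, i, y, e1, e2, hr, y1, y2⟩ := mem_prs.1 he
    have h3 := A.nc y j i hr y1 y2
    rw [e1, e2] at h3
    exact h3

end ctx

end Crest.Agent.R4P.XmC41
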