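import Crest.Agent.R4P.XmC_41
import Crest.Agent.R4P.RtL_28

/-!
R4 (S0004), powers pass, helper41: **dense accuracy pairs, explicit exponents, node forms** (`VNd`, `VTs` of
`PrK45` over helper28's `RtL_28`).

* `kA`, `aA` : the exponents of the comparability constant and of the thinness; `gI_ex`;
* `AcM` (number of labels `≤ b₁`, sum of the radii `≤ b₂ / Z`), **`acm`** ;
* **`pair_ac`** : `bil K (vx s t) (vx s' t') ≤ lm c + lm c'`; **`vn_ac`** (rest columns), **`fb_ac`**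
  (children of a tie), **`fp_ac`** (P child against N child).
-/

set_option autoImplicit false
set_option linter.unusedSectionVars false
set_option linter.unusedVariables false

open MeasureTheory Filter

namespace Crest.Agent.R4P.XmD41

open Crest.Agent.R4.Tour104 Crest.Agent.R4.Tour758 Crest.Agent.R4.Avg758 Crest.Agent.R4.Clos758
open Crest.Agent.R4.ClosL758 Crest.Agent.R4.ClosG758 Crest.Agent.R4.ClosR758
open Crest.Agent.R4.HVW560
open Crest.Agent.R4.Fam464 Crest.Agent.R4.Piece464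
open Crest.Agent.R4P.Cnt588 Crest.Agent.R4P.Item758 Crest.Agent.R4P.AvgItem710
open Crest.Agent.R4P.Walk560 Crest.Agent.R4P.NodeG33
open Crest.Agent.R4P.Data758 Crest.Agent.R4P.Skel189
open Crest.Agent.R4P.Bld532 (NS All NodeOk)
open Crest.Agent.R4P.WalkIT579 (tp isL nodeOk_hi)
open Crest.Agent.R4P.Step588 (NDt CT CT_pos)
open Crest.Agent.R4.Soft104 (w)
open Crest.Agent.R4P.SameIx30 Crest.Agent.R4P.GPair33
open Crest.Agent.R4P.XmE18 Crest.Agent.R4P.XmM18 Crest.Agent.R4P.XmG18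
open Crest.Agent.R4P.AcH41 (C8 K8 C8_nn K8_nn)
open Crest.Agent.R4P.AcI41 (gI)
open Crest.Agent.R4P.AcT41 (root5)
open Crest.Agent.R4P.XmQ37 (ExP prs mem_prs prs_alive)
open Crest.Agent.R4P.E3V479 (qe)
open Crest.Agent.R4P.DTp26 (MP)
open Crest.Agent.R4P.JnE5 (Ker bil)
open Crest.Agent.R4P.PrH45 (RN FB)
open Crest.Agent.R4P.PrK45
open Crest.Agent.R4P.RtS28 (Mn Mn_nonneg)
open Crest.Agent.R4P.RtL28
open Crest.Agent.R4P.XmB41
open Crest.Agent.R4P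

/-! ### exponents -/

/-- exponent of the comparability constant -/
noncomputable def kA (s : ℝ) : ℝ := 4 * (s + 1)

/-- exponent of the thinness -/
noncomputable def aA (s b : ℝ) : ℝ := 35 * (9 / 7 * (s + 1) + (b + 10 * (s + 1)) / 16384 + K8)

lemma kA_nn {s : ℝ} (hs : 0 ≤ s) : 0 ≤ kA s := by unfold kA; linarith

lemma aA_nn {s b : ℝ} (hs : 0 ≤ s) (hb : 0 ≤ b) : 0 ≤ aA s b := by
  have := K8_nn
  unfold aA
  positivity

/-- **the gain, explicit exponents** -/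
theorem gI_ex {s b : ℝ} (hs : 0 ≤ s) (hb : 0 ≤ b) {z : ℕ} {N0 t L : ℝ} (hz : 2 ≤ z)
    (L1 : 1024 ≤ L) (L2 : 6 * C8 ≤ L) (hzL : Real.log z ≤ L) (hN1 : 1 ≤ N0) (hN : N0 ≤ L ^ b)
    (ht : 0 < t) (htL : t ≤ L ^ (-aA s b)) :
    1 ≤ L ^ kA s ∧ √(L ^ kA s) * t ^ (1/5 : ℝ) ≤ 1 / 1024 ∧ 0 ≤ gI z (L ^ kA s) (t ^ (1/5 : ℝ)) N0 ∧
      gI z (L ^ kA s) (t ^ (1/5 : ℝ)) N0 ≤ L ^ (-s) := by
  have hC8 := C8_nn
  have hK8 := K8_nn
  have hκ0 := kA_nn hs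
  set κ : ℝ := kA s with hκ
  set a : ℝ := 7 * (9 / 7 * (s + 1) + (b + 10 * (s + 1)) / 16384 + K8) with ha
  set η : ℝ := t ^ (1/5 : ℝ) with hηd
  have hη : 0 < η := Real.rpow_pos_of_pos ht _
  have L0 : 0 < L := by linarith
  have Lg1 : 1 ≤ L := by linarith
  have hηL : η ≤ L ^ (-a) := by
    refine (Real.rpow_le_rpow ht.le htL (by norm_num)).trans (le_of_eq ?_)
    rw [← Real.rpow_mul L0.le]
    congr 1
    unfold aA
    ring
  have hsq : √(L ^ κ) = L ^ (κ / 2) := by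
    rw [Real.sqrt_eq_rpow, ← Real.rpow_mul L0.le]
    congr 1
    ring
  have hKη : √(L ^ κ) * η ≤ L ^ (κ / 2 - a) := by
    rw [hsq, sub_eq_add_neg, Real.rpow_add L0]
    exact mul_le_mul_of_nonneg_left hηL (by positivity)
  have hlz0 : 0 ≤ Real.log (z : ℝ) := Real.log_natCast_nonneg z
  have hG0 : 0 ≤ gI z (L ^ κ) η N0 := by
    unfold gI
    have : 0 ≤ Real.log (z : ℝ) ^ K8 := Real.rpow_nonneg hlz0 _
    positivity
  refine ⟨Real.one_le_rpow Lg1 hκ0, ?_, hG0, ?_⟩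
  · refine hKη.trans ?_
    have h1 : L ^ (κ / 2 - a) ≤ L ^ (-1 : ℝ) := by
      refine Real.rpow_le_rpow_of_exponent_le Lg1 ?_
      have h2 : 0 ≤ (b + 10 * (s + 1)) / 16384 := by positivity
      rw [ha, hκ]
      unfold kA
      nlinarith
    refine h1.trans ?_
    rw [Real.rpow_neg_one, ← one_div]
    exact one_div_le_one_div_of_le (by norm_num) L1
  · unfold gI
    have g1 : 14 * (L ^ κ) ^ (-(1/4) : ℝ) ≤ 1 / 2 * L ^ (-s) := by
      rw [← Real.rpow_mul L0.le]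
      have e : κ * -(1/4) = -s + (-1) := by rw [hκ]; unfold kA; ring
      rw [e, Real.rpow_add L0, Real.rpow_neg_one]
      have : 14 * (L ^ (-s) * L⁻¹) = (14 * L⁻¹) * L ^ (-s) := by ring
      rw [this]
      refine mul_le_mul_of_nonneg_right ?_ (by positivity)
      rw [← div_eq_mul_inv, div_le_iff₀ L0]
      linarith
    have g2 : 3 * (C8 * (N0 * √(L ^ κ) ^ 5) ^ ((1:ℝ)/16384) * Real.log z ^ K8 *
        (√(L ^ κ) * η) ^ (1 / 7 : ℝ)) ≤ 1 / 2 * L ^ (-s) := by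
      have a1 : (N0 * √(L ^ κ) ^ 5) ^ ((1:ℝ)/16384) ≤ L ^ ((b + 5 * κ / 2) / 16384) := by
        have b1 : N0 * √(L ^ κ) ^ 5 ≤ L ^ (b + 5 * κ / 2) := by
          rw [hsq, ← Real.rpow_natCast (L ^ (κ / 2)) 5, ← Real.rpow_mul L0.le, Real.rpow_add L0]
          refine mul_le_mul hN (le_of_eq ?_) (by positivity) (by positivity)
          congr 1
          push_cast
          ring
        refine (Real.rpow_le_rpow (by positivity) b1 (by norm_num)).trans (le_of_eq ?_)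
        rw [← Real.rpow_mul L0.le]
        congr 1
        ring
      have a2 : Real.log (z : ℝ) ^ K8 ≤ L ^ K8 := Real.rpow_le_rpow hlz0 hzL hK8
      have a3 : (√(L ^ κ) * η) ^ (1 / 7 : ℝ) ≤ L ^ ((κ / 2 - a) / 7) := by
        refine (Real.rpow_le_rpow (by positivity) hKη (by norm_num)).trans (le_of_eq ?_)
        rw [← Real.rpow_mul L0.le]
        congr 1
        ring
      have a4 : (0:ℝ) ≤ (√(L ^ κ) * η) ^ (1 / 7 : ℝ) := by positivity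
      have a5 : (0:ℝ) ≤ Real.log (z : ℝ) ^ K8 := Real.rpow_nonneg hlz0 _
      calc 3 * (C8 * (N0 * √(L ^ κ) ^ 5) ^ ((1:ℝ)/16384) * Real.log z ^ K8 *
            (√(L ^ κ) * η) ^ (1 / 7 : ℝ))
          ≤ 3 * (C8 * L ^ ((b + 5 * κ / 2) / 16384) * L ^ K8 * L ^ ((κ / 2 - a) / 7)) := by
            gcongr
        _ = 3 * C8 * (L ^ (-s) * L ^ (-1 : ℝ)) := by
            have e : L ^ ((b + 5 * κ / 2) / 16384) * L ^ K8 * L ^ ((κ / 2 - a) / 7) =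
                L ^ (-s) * L ^ (-1 : ℝ) := by
              rw [← Real.rpow_add L0, ← Real.rpow_add L0, ← Real.rpow_add L0]
              congr 1
              rw [ha, hκ]
              unfold kA
              ring
            rw [← e]
            ring
        _ ≤ 1 / 2 * L ^ (-s) := by
            rw [Real.rpow_neg_one]
            have : 3 * C8 * (L ^ (-s) * L⁻¹) = (3 * C8 * L⁻¹) * L ^ (-s) := by ring
            rw [this]
            refine mul_le_mul_of_nonneg_right ?_ (by positivity)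
            rw [← div_eq_mul_inv, div_le_iff₀ L0]
            linarith
    linarith

/-! ### two nodes -/

variable {N : Skel189.Num} {γ : ℝ} {p0 P₀ : ℕ} {X : Ctx N γ p0 P₀}

/-- **dense accuracy pairs of two nodes**, first piece: the event -/
structure AcM (X : Ctx N γ p0 P₀) (u u' : NS) (τ τ' : IT) (R : ℝ → X.c.Lam → X.c.Lam → Prop)
    (ρ ρ' : ℕ → ℚ) (z : ℕ) (Z K t b₁ b₂ : ℝ) : Prop where
  mR : ∀ j i, MP fun y => R y j i
  ex : ExP X u u' τ τ' R ρ ρ'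
  sm : ∀ e ∈ prs X u u' τ τ' R, ∀ l : ℕ, l.Prime → l ∣ D1 u u' e * D2 u u' e → l ≤ z
  thin : ∀ e ∈ prs X u u' τ τ' R, Z * RB X u e.1 ≤ t
  acc : ∀ e ∈ prs X u u' τ τ' R,
    (Z * RB X u e.1) ^ 4 < (Z * |(u.B : ℝ) * X.c.γ - ρ e.1|) ^ 5
  sum : ∑ q ∈ (prs X u u' τ τ' R).image Prod.fst, RB X u q ≤ b₂ / Z
  n1 : (((prs X u u' τ τ' R).image fun e => ρ e.1).card : ℝ) ≤ b₁
  n2 : (((prs X u u' τ τ' R).image fun e => ρ' e.2).card : ℝ) ≤ b₁
  nc : ∀ e ∈ prs X u u' τ τ' R, K < ((max (D1 u u' e) (D2 u u' e) : ℕ) : ℝ) ∨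
    K * RB X u' e.2 ≤ RB X u e.1 ∨ K * RB X u e.1 ≤ RB X u' e.2

open Classical in
/-- **dense accuracy pairs, radii** -/
theorem AcM.rad {u u' : NS} {τ τ' : IT} (h : QX X u τ) (h' : QX X u' τ')
    {R : ℝ → X.c.Lam → X.c.Lam → Prop} {ρ ρ' : ℕ → ℚ} {z : ℕ} {Z K t b₁ b₂ : ℝ}
    (H : AcM X u u' τ τ' R ρ ρ' z Z K t b₁ b₂) (hz : 2 ≤ z) (hZ : 0 < Z) (hK : 1 ≤ K) (ht : 0 < t)
    (hη1 : √K * t ^ (1/5 : ℝ) ≤ 1 / 1024) (hb₁ : 0 ≤ b₁) (hb₂ : 1 ≤ b₂) :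
    I (qe R (vN X (.inl (u, τ))) (vN X (.inl (u', τ')))) ≤
      2 * (b₁ * gI z K (t ^ (1/5 : ℝ)) b₂ *
        (√(∑ q ∈ (prs X u u' τ τ' R).image Prod.fst, RB X u q) *
          √(∑ r ∈ (prs X u u' τ τ' R).image Prod.snd, RB X u' r))) := by
  have hrr := (X.ok.rad X.Y).pos
  have hB : (0 : ℝ) < u.B := by exact_mod_cast h.B_pos
  have hRB : ∀ q, 0 < RB X u q := fun q => mul_pos hB (hrr q)
  have mF : ∀ q ∈ (prs X u u' τ τ' R).image Prod.fst, ∃ e ∈ prs X u u' τ τ' R, e.1 = q :=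
    fun q hq => Finset.mem_image.1 hq
  have mG : ∀ q ∈ (prs X u u' τ τ' R).image Prod.snd, ∃ e ∈ prs X u u' τ τ' R, e.2 = q :=
    fun q hq => Finset.mem_image.1 hq
  have hA : AcD ((prs X u u' τ τ' R).image Prod.fst) (RB X u)
      (fun q => (u.B : ℝ) * X.c.γ - ρ q) Z (t ^ (1/5 : ℝ)) b₂ := by
    refine ⟨fun q _ => hRB q, fun q hq => ?_, fun q hq => ?_, fun q hq => ?_, H.sum⟩
    · obtain ⟨e, he, rfl⟩ := mF q hq
      intro h0
      have h1 := H.acc e he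
      have h0' : (u.B : ℝ) * X.c.γ - ρ e.1 = 0 := h0
      rw [h0', abs_zero, mul_zero] at h1
      have : 0 ≤ (Z * RB X u e.1) ^ 4 := by positivity
      linarith
    · obtain ⟨e, he, rfl⟩ := mF q hq
      have h1 := root5 (mul_nonneg hZ.le (hRB e.1).le) (by positivity) ht.le (H.thin e he)
        (H.acc e he)
      have h2 : Z * RB X u e.1 ≤ Z * (t ^ (1/5 : ℝ) * |(u.B : ℝ) * X.c.γ - ρ e.1|) := by linarith
      exact le_of_mul_le_mul_left h2 hZ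
    · obtain ⟨e, he, rfl⟩ := mF q hq
      exact H.acc e he
  have key := node_accP h h' H.mR H.ex (F := (prs X u u' τ τ' R).image Prod.fst)
    (G := (prs X u u' τ τ' R).image Prod.snd) (fun e he => Finset.mem_image_of_mem _ he)
    (fun e he => Finset.mem_image_of_mem _ he)
    (fun q hq => by
      obtain ⟨e, he, rfl⟩ := mF q hq
      have := prs_alive h h' he
      exact ⟨this.1, this.2.1⟩)
    (fun q hq => by
      obtain ⟨e, he, rfl⟩ := mG q hq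
      have := prs_alive h h' he
      exact ⟨this.2.2.1, this.2.2.2⟩)
    hz H.sm hZ hK (Real.rpow_pos_of_pos ht _) hη1 hb₂ hA H.nc (n₁ := b₁) (n₂ := b₁)
    (by rw [Finset.image_image]; exact H.n1) (by rw [Finset.image_image]; exact H.n2)
  rwa [Real.mul_self_sqrt hb₁] at key

open Classical in
/-- **dense accuracy pairs, masses** : `b₁ = L^β₁`, `b₂ = L^β₂`, `L = log P` -/
theorem acm {s β₁ β₂ : ℝ} (hs : 0 ≤ s) (hβ₁ : 0 ≤ β₁) (hβ₂ : 0 ≤ β₂) {u u' : NS} {τ τ' : IT} {P : ℕ}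
    {R : ℝ → X.c.Lam → X.c.Lam → Prop} {ρ ρ' : ℕ → ℚ} {Z t : ℝ}
    (h : MN X u τ) (h' : MN X u' τ') (hP : p0 ≤ P) (h2 : 2 ≤ P) (L1 : 1024 ≤ Real.log P)
    (L2 : 6 * C8 ≤ Real.log P) (L3 : 4 * CT ≤ Real.log P)
    (hu : ∀ r : ℕ, r.Prime → r < u.n → r ≤ P) (hu' : ∀ r : ℕ, r.Prime → r < u'.n → r ≤ P)
    (hZ : 0 < Z) (ht : 0 < t) (htL : t ≤ Real.log P ^ (-aA (s + β₁ + 2) β₂))
    (A : AcM X u u' τ τ' R ρ ρ' P Z (Real.log P ^ kA (s + β₁ + 2)) t (Real.log P ^ β₁)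
      (Real.log P ^ β₂)) :
    I (qe R (vN X (.inl (u, τ))) (vN X (.inl (u', τ')))) ≤ Real.log P ^ (-s) *
      (∑ q ∈ (prs X u u' τ τ' R).image Prod.fst, MI X u τ q +
        ∑ r ∈ (prs X u u' τ τ' R).image Prod.snd, MI X u' τ' r) := by
  have hCT := CT_pos
  set L := Real.log (P : ℝ) with hLd
  have Lg : 1 ≤ L := by linarith
  have L0 : 0 < L := by linarith
  obtain ⟨g1, g2, g3, g4⟩ := gI_ex (s := s + β₁ + 2) (b := β₂) (by linarith) hβ₂ h2 L1 L2 le_rfl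
    (Real.one_le_rpow Lg hβ₂) le_rfl ht htL
  have key := A.rad h.nd h'.nd h2 hZ g1 ht g2 (by positivity) (Real.one_le_rpow Lg hβ₂)
  refine key.trans ?_
  set F := (prs X u u' τ τ' R).image Prod.fst with hF
  set G := (prs X u u' τ τ' R).image Prod.snd with hG
  have s1 : ∑ q ∈ F, RB X u q ≤ 4 * CT * L * ∑ q ∈ F, MI X u τ q := by
    rw [Finset.mul_sum]
    refine Finset.sum_le_sum fun q hq => ?_
    obtain ⟨e, he, rfl⟩ := Finset.mem_image.1 hq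
    have := prs_alive h.nd h'.nd he
    exact h.lo P hP hu _ this.2.1 this.1
  have s2 : ∑ q ∈ G, RB X u' q ≤ 4 * CT * L * ∑ q ∈ G, MI X u' τ' q := by
    rw [Finset.mul_sum]
    refine Finset.sum_le_sum fun q hq => ?_
    obtain ⟨e, he, rfl⟩ := Finset.mem_image.1 hq
    have := prs_alive h.nd h'.nd he
    exact h'.lo P hP hu' _ this.2.2.2 this.2.2.1
  set A1 := ∑ q ∈ F, MI X u τ q with hA1
  set A2 := ∑ q ∈ G, MI X u' τ' q with hA2
  have m1 : 0 ≤ A1 := Finset.sum_nonneg fun q _ => MI_nonneg h.nd q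
  have m2 : 0 ≤ A2 := Finset.sum_nonneg fun q _ => MI_nonneg h'.nd q
  have s3 : √(∑ q ∈ F, RB X u q) * √(∑ r ∈ G, RB X u' r) ≤ 2 * CT * L * (A1 + A2) := by
    refine (mul_le_mul (Real.sqrt_le_sqrt s1) (Real.sqrt_le_sqrt s2) (Real.sqrt_nonneg _)
      (Real.sqrt_nonneg _)).trans ?_
    have c0 : 0 ≤ 4 * CT * L := by positivity
    rw [Real.sqrt_mul c0, Real.sqrt_mul c0]
    have e1 : √(4 * CT * L) * √A1 * (√(4 * CT * L) * √A2) = 4 * CT * L * (√A1 * √A2) := by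
      have := Real.mul_self_sqrt c0
      calc _ = (√(4 * CT * L) * √(4 * CT * L)) * (√A1 * √A2) := by ring
        _ = _ := by rw [this]
    rw [e1]
    have e2 : 2 * (√A1 * √A2) ≤ A1 + A2 := by
      nlinarith [sq_nonneg (√A1 - √A2), Real.mul_self_sqrt m1, Real.mul_self_sqrt m2]
    nlinarith
  have hb0 : 0 ≤ L ^ β₁ := by positivity
  calc 2 * (L ^ β₁ * gI P (L ^ kA (s + β₁ + 2)) (t ^ (1/5 : ℝ)) (L ^ β₂) *
        (√(∑ q ∈ F, RB X u q) * √(∑ r ∈ G, RB X u' r)))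
      ≤ 2 * (L ^ β₁ * L ^ (-(s + β₁ + 2)) * (2 * CT * L * (A1 + A2))) := by
        refine mul_le_mul_of_nonneg_left ?_ (by norm_num)
        exact mul_le_mul (mul_le_mul_of_nonneg_left g4 hb0) s3 (by positivity) (by positivity)
    _ = (4 * CT) * L ^ (-(1:ℝ)) * (L ^ (-s) * (A1 + A2)) := by
        have e : L ^ β₁ * L ^ (-(s + β₁ + 2)) * L = L ^ (-s) * L ^ (-(1:ℝ)) := by
          nth_rewrite 3 [← Real.rpow_one L]
          rw [← Real.rpow_add L0, ← Real.rpow_add L0, ← Real.rpow_add L0]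
          congr 1
          ring
        calc _ = (4 * CT) * (L ^ β₁ * L ^ (-(s + β₁ + 2)) * L) * (A1 + A2) := by ring
          _ = _ := by rw [e]; ring
    _ ≤ 1 * (L ^ (-s) * (A1 + A2)) := by
        refine mul_le_mul_of_nonneg_right ?_ (by positivity)
        rw [Real.rpow_neg_one, ← div_eq_mul_inv, div_le_one L0]
        exact L3
    _ = _ := one_mul _

/-! ### node forms -/

/-- the constants against the column -/
def LgOk (P : ℕ) : Prop := 1024 ≤ Real.log P ∧ 6 * C8 ≤ Real.log P ∧ 4 * CT ≤ Real.log P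

lemma lgOk_ev : ∃ p₁ : ℕ, ∀ P : ℕ, p₁ ≤ P → LgOk P := by
  have e0 := (Real.tendsto_log_atTop.comp (tendsto_natCast_atTop_atTop (R := ℝ)))
  obtain ⟨a, ha⟩ := eventually_atTop.1 ((e0.eventually_ge_atTop 1024).and
    ((e0.eventually_ge_atTop (6 * C8)).and (e0.eventually_ge_atTop (4 * CT))))
  exact ⟨a, fun P hP => ha P hP⟩

/-- **A PAIR OF NODES** -/
theorem pair_ac {s β₁ β₂ : ℝ} (hs : 0 ≤ s) (hβ₁ : 0 ≤ β₁) (hβ₂ : 0 ≤ β₂) {u u' : NS} {τ τ' : IT}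
    {P : ℕ} {ρ ρ' : ℕ → ℚ} {Z t : ℝ} {K : X.c.Lam → X.c.Lam → ℝ} {W : ℝ} {c c' : X.c.Lam → ℝ}
    (h : NL X u τ) (h' : NL X u' τ') (hP : p0 ≤ P) (h2 : 2 ≤ P) (hL : LgOk P)
    (hu : ∀ r : ℕ, r.Prime → r < u.n → r ≤ P) (hu' : ∀ r : ℕ, r.Prime → r < u'.n → r ≤ P)
    (hW : 0 ≤ W) (hK : ∀ j i, K j i ≤ W) (hZ : 0 < Z) (ht : 0 < t)
    (htL : t ≤ Real.log P ^ (-aA (s + β₁ + 2) β₂))
    (A : AcM X u u' τ τ' (rl K) ρ ρ' P Z (Real.log P ^ kA (s + β₁ + 2)) t (Real.log P ^ β₁)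
      (Real.log P ^ β₂)) (c0 : ∀ j, 0 ≤ c j) (c0' : ∀ j, 0 ≤ c' j)
    (hc : ∀ j : X.c.Lam, ∀ e ∈ prs X u u' τ τ' (rl K), j.1.1 = e.1 →
      W * Real.log P ^ (-s) ≤ c j)
    (hc' : ∀ j : X.c.Lam, ∀ e ∈ prs X u u' τ τ' (rl K), j.1.1 = e.2 →
      W * Real.log P ^ (-s) ≤ c' j) :
    bil K (vx X u τ) (vx X u' τ') ≤ lm X c u τ + lm X c' u' τ' := by
  classical
  have pV := fun j => pb_vx h.rg j
  have pU := fun j => pb_vx h'.rg j
  have k1 := bil_qe hK pV pU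
  have k2 := acm hs hβ₁ hβ₂ h.mn h'.mn hP h2 hL.1 hL.2.1 hL.2.2 hu hu' hZ ht htL A
  refine k1.trans ((mul_le_mul_of_nonneg_left k2 hW).trans ?_)
  have a1 : ∑ q ∈ (prs X u u' τ τ' (rl K)).image Prod.fst,
      (W * Real.log P ^ (-s)) * MI X u τ q ≤ lm X c u τ := by
    refine MI_lm h c0 fun j hj => ?_
    obtain ⟨e, he, h3⟩ := Finset.mem_image.1 hj
    exact hc j e he h3.symm
  have a2 : ∑ q ∈ (prs X u u' τ τ' (rl K)).image Prod.snd,
      (W * Real.log P ^ (-s)) * MI X u' τ' q ≤ lm X c' u' τ' := by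
    refine MI_lm h' c0' fun j hj => ?_
    obtain ⟨e, he, h3⟩ := Finset.mem_image.1 hj
    exact hc' j e he h3.symm
  refine le_trans (le_of_eq ?_) (add_le_add a1 a2)
  rw [← Finset.mul_sum, ← Finset.mul_sum]
  ring

/-- a kernel below a kernel and its transpose -/
lemma bil_split {Λ : Type} [Fintype Λ] {K K₁ K₂ : Λ → Λ → ℝ} {f g : Λ → ℝ → ℝ}
    (hf : ∀ j, PB (f j)) (hg : ∀ j, PB (g j)) (h : ∀ j i, K j i ≤ K₁ j i + K₂ i j) :
    bil K f g ≤ bil K₁ f g + bil K₂ g f := by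
  have e : bil K₂ g f = ∑ j, ∑ i, K₂ i j * I (fun x => f j x * g i x) := by
    unfold bil
    rw [Finset.sum_comm]
    refine Finset.sum_congr rfl fun j _ => Finset.sum_congr rfl fun i _ => ?_
    congr 2
    funext x
    ring
  rw [e]
  unfold bil
  rw [← Finset.sum_add_distrib]
  refine Finset.sum_le_sum fun j _ => ?_
  rw [← Finset.sum_add_distrib]
  refine Finset.sum_le_sum fun i _ => ?_
  have h0 : 0 ≤ I (fun x => f j x * g i x) :=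
    I_nonneg fun x => mul_nonneg ((hf j).nonneg x) ((hg i).nonneg x)
  have := mul_le_mul_of_nonneg_right (h j i) h0
  linarith

/-- comparison of kernels on the supports -/
lemma bil_supp {Λ : Type} [Fintype Λ] {K K' : Λ → Λ → ℝ} {f g : Λ → ℝ → ℝ} {A B : Λ → Prop}
    (hf : ∀ j, PB (f j)) (hg : ∀ j, PB (g j)) (fA : ∀ j x, f j x ≠ 0 → A j)
    (gB : ∀ j x, g j x ≠ 0 → B j) (h : ∀ j i, A j → B i → K j i ≤ K' j i) :
    bil K f g ≤ bil K' f g := by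
  unfold bil
  refine Finset.sum_le_sum fun j _ => Finset.sum_le_sum fun i _ => ?_
  by_cases hj : A j ∧ B i
  · exact mul_le_mul_of_nonneg_right (h j i hj.1 hj.2)
      (I_nonneg fun x => mul_nonneg ((hf j).nonneg x) ((hg i).nonneg x))
  · have e : (fun x => f j x * g i x) = fun _ => 0 := by
      funext x
      by_contra hne
      exact hj ⟨fA j x (left_ne_zero_of_mul hne), gB i x (right_ne_zero_of_mul hne)⟩
    rw [e, I_zero, mul_zero, mul_zero]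

/-- **REST COLUMNS** : `RN K` at a node which is not a leaf -/
theorem vn_ac {s β₁ β₂ : ℝ} (hs : 0 ≤ s) (hβ₁ : 0 ≤ β₁) (hβ₂ : 0 ≤ β₂) {u : NS} {τ : IT}
    {P : ℕ} {ρ : ℕ → ℚ} {Z t : ℝ} {K K₁ : X.c.Lam → X.c.Lam → ℝ} {W : ℝ} {ε : X.c.Lam → ℝ}
    (h : NL X u τ) (hP : p0 ≤ P) (h2 : 2 ≤ P) (hL : LgOk P)
    (hu : ∀ r : ℕ, r.Prime → r < u.n → r ≤ P)
    (hW : 0 ≤ W) (hK : ∀ j i, K₁ j i ≤ W) (hKK : ∀ j i, K j i ≤ K₁ j i + K₁ i j)
    (hZ : 0 < Z) (ht : 0 < t)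
    (htL : t ≤ Real.log P ^ (-aA (s + β₁ + 2) β₂))
    (A : AcM X u u τ τ (rl K₁) ρ ρ P Z (Real.log P ^ kA (s + β₁ + 2)) t (Real.log P ^ β₁)
      (Real.log P ^ β₂)) (c0 : ∀ j, 0 ≤ ε j)
    (hc : ∀ j : X.c.Lam, ∀ e ∈ prs X u u τ τ (rl K₁), j.1.1 = e.1 ∨ j.1.1 = e.2 →
      W * Real.log P ^ (-s) ≤ ε j) :
    2 * bil K (vx X u τ) (vx X u τ) ≤ lm X (fun j => 8 * ε j) u τ := by
  have pV := fun j => pb_vx h.rg j
  have k1 := bil_split (K₁ := K₁) (K₂ := K₁) pV pV hKK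
  have k2 := pair_ac hs hβ₁ hβ₂ h h hP h2 hL hu hu hW hK hZ ht htL A c0 c0
    (fun j e he hj => hc j e he (Or.inl hj)) (fun j e he hj => hc j e he (Or.inr hj))
  rw [lm_smul]
  linarith

/-- **CHILDREN OF A TIE** : `FB K`, only the N pieces have events -/
theorem fb_ac {s β₁ β₂ : ℝ} (hs : 0 ≤ s) (hβ₁ : 0 ≤ β₁) (hβ₂ : 0 ≤ β₂) {u : NS} {p : ℕ}
    {Sp : Finset ℕ} {t₁ t₀ : IT} {ρ : ℕ → ℚ} {Z t : ℝ} {K K₁ : X.c.Lam → X.c.Lam → ℝ} {W : ℝ}
    {ε : X.c.Lam → ℝ}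
    (h : NL X u (.br p Sp t₁ t₀)) (h1 : NL X (nP p u) t₁) (h0 : NL X (nN p u) t₀)
    (hP : p0 ≤ p) (h2 : 2 ≤ p) (hL : LgOk p)
    (hW : 0 ≤ W) (hK : ∀ j i, K₁ j i ≤ W)
    (hPP : ∀ j i, j.1.1 ∈ t₁.items → i.1.1 ∈ t₁.items → K j i ≤ 0)
    (hKK : ∀ j i, j.1.1 ∈ t₀.items → i.1.1 ∈ t₀.items → K j i ≤ K₁ j i + K₁ i j)
    (hZ : 0 < Z) (ht : 0 < t) (htL : t ≤ Real.log p ^ (-aA (s + β₁ + 2) β₂))
    (A : AcM X (nN p u) (nN p u) t₀ t₀ (rl K₁) ρ ρ p Z (Real.log p ^ kA (s + β₁ + 2)) t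
      (Real.log p ^ β₁) (Real.log p ^ β₂)) (c0 : ∀ j, 0 ≤ ε j)
    (hc : ∀ j : X.c.Lam, ∀ e ∈ prs X (nN p u) (nN p u) t₀ t₀ (rl K₁), j.1.1 = e.1 ∨ j.1.1 = e.2 →
      W * Real.log p ^ (-s) ≤ ε j) :
    FB (fun _ => K) p (vx X (nP p u) t₁) (vx X (nN p u) t₀) ≤
      lm X (fun j => 8 * ε j) u (.br p Sp t₁ t₀) := by
  classical
  have pV := fun j => pb_vx h0.rg j
  have pU := fun j => pb_vx h1.rg j
  have hp0' : (0:ℝ) < p := by exact_mod_cast (by omega : 0 < p)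
  have hp1 : (1:ℝ) ≤ p := by exact_mod_cast (by omega : 1 ≤ p)
  have w1 : (0:ℝ) ≤ 1 - 1 / (p:ℝ) := by
    rw [sub_nonneg, div_le_one hp0']; exact hp1
  -- P against P
  have z1 : ∀ {v : NS} {τ : IT}, NL X v τ → ∀ j x, vx X v τ j x ≠ 0 → j.1.1 ∈ τ.items := by
    intro v τ hv j x hj
    by_contra hn
    exact hj (vN_out (X := X) (s := v) (t := τ) hn x)
  have bz : ∀ f g : X.c.Lam → ℝ → ℝ, bil (fun _ _ => (0:ℝ)) f g = 0 := fun f g => by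
    unfold bil
    simp
  have kP : bil K (vx X (nP p u) t₁) (vx X (nP p u) t₁) ≤ 0 := by
    have := bil_supp (K := K) (K' := fun _ _ => 0) (A := fun j => j.1.1 ∈ t₁.items)
      (B := fun j => j.1.1 ∈ t₁.items) pU pU (z1 h1) (z1 h1) hPP
    rwa [bz] at this
  -- N against N
  have kN : bil K (vx X (nN p u) t₀) (vx X (nN p u) t₀) ≤
      bil K₁ (vx X (nN p u) t₀) (vx X (nN p u) t₀) +
        bil K₁ (vx X (nN p u) t₀) (vx X (nN p u) t₀) :=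
    (bil_supp (K := K) (K' := fun j i => K₁ j i + K₁ i j) (A := fun j => j.1.1 ∈ t₀.items)
      (B := fun j => j.1.1 ∈ t₀.items) pV pV (z1 h0) (z1 h0) hKK).trans
      (bil_split pV pV fun j i => le_rfl)
  have k2 := pair_ac hs hβ₁ hβ₂ h0 h0 hP h2 hL (fun r _ hr => le_of_lt hr)
    (fun r _ hr => le_of_lt hr) hW hK hZ ht htL A c0 c0
    (fun j e he hj => hc j e he (Or.inl hj)) (fun j e he hj => hc j e he (Or.inr hj))
  have b := lm_br2 h.rg (c := fun j => 8 * ε j) (c₁ := fun j => 8 * ε j) (c₀ := fun j => 8 * ε j)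
    (fun _ _ => le_rfl) (fun _ _ => le_rfl) h1.rg h0.rg
  refine le_trans ?_ b
  have L1 : 0 ≤ lm X (fun j => 8 * ε j) (nP p u) t₁ :=
    Finset.sum_nonneg fun j _ => mul_nonneg (by have := c0 j; linarith) (I_vx_nonneg h1.rg j)
  rw [lm_smul] at *
  rw [lm_smul]
  unfold FB
  have f1 : (1 - 1 / (p:ℝ)) * (2 * bil K (vx X (nP p u) t₁) (vx X (nP p u) t₁)) ≤
      (1 - 1 / (p:ℝ)) * (8 * lm X ε (nP p u) t₁) :=
    mul_le_mul_of_nonneg_left (by linarith) w1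
  have f2 : 1 / (p:ℝ) * (2 * bil K (vx X (nN p u) t₀) (vx X (nN p u) t₀)) ≤
      1 / (p:ℝ) * (8 * lm X ε (nN p u) t₀) := by
    refine mul_le_mul_of_nonneg_left ?_ (by positivity)
    linarith
  exact add_le_add f1 f2

/-- **P CHILD AGAINST N CHILD** : the N piece has the event; P items pay `4 / p` times, N items twice the
rate -/
theorem fp_ac {s β₁ β₂ : ℝ} (hs : 0 ≤ s) (hβ₁ : 0 ≤ β₁) (hβ₂ : 0 ≤ β₂) {u : NS} {p : ℕ}
    {Sp : Finset ℕ} {t₁ t₀ : IT} {ρ₁ ρ₀ : ℕ → ℚ} {Z t : ℝ} {K K₁ : X.c.Lam → X.c.Lam → ℝ} {W : ℝ}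
    {ε : X.c.Lam → ℝ}
    (h : NL X u (.br p Sp t₁ t₀)) (h1 : NL X (nP p u) t₁) (h0 : NL X (nN p u) t₀)
    (hP : p0 ≤ p) (h2 : 2 ≤ p) (hL : LgOk p)
    (hW : 0 ≤ W) (hK : ∀ j i, K₁ j i ≤ W)
    (hKK : ∀ j i, j.1.1 ∈ t₁.items → i.1.1 ∈ t₀.items → K j i ≤ K₁ i j)
    (hZ : 0 < Z) (ht : 0 < t) (htL : t ≤ Real.log p ^ (-aA (s + β₁ + 2) β₂))
    (A : AcM X (nN p u) (nP p u) t₀ t₁ (rl K₁) ρ₀ ρ₁ p Z (Real.log p ^ kA (s + β₁ + 2)) t
      (Real.log p ^ β₁) (Real.log p ^ β₂)) (c0 : ∀ j, 0 ≤ ε j)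
    (hc : ∀ j : X.c.Lam, ∀ e ∈ prs X (nN p u) (nP p u) t₀ t₁ (rl K₁), j.1.1 = e.2 →
      4 / (p : ℝ) * (W * Real.log p ^ (-s)) ≤ ε j)
    (hc' : ∀ j : X.c.Lam, ∀ e ∈ prs X (nN p u) (nP p u) t₀ t₁ (rl K₁), j.1.1 = e.1 →
      2 * (W * Real.log p ^ (-s)) ≤ ε j) :
    1 / (p : ℝ) * (2 * bil K (vx X (nP p u) t₁) (vx X (nN p u) t₀)) ≤
      lm X ε u (.br p Sp t₁ t₀) := by
  classical
  have pV := fun j => pb_vx h0.rg j
  have pU := fun j => pb_vx h1.rg j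
  have hp0' : (0:ℝ) < p := by exact_mod_cast (by omega : 0 < p)
  have hp2 : (2:ℝ) ≤ p := by exact_mod_cast h2
  have w1 : (1:ℝ) / 2 ≤ 1 - 1 / (p:ℝ) := by
    rw [le_sub_comm, div_le_iff₀ hp0']
    linarith
  have z1 : ∀ {v : NS} {τ : IT}, NL X v τ → ∀ j x, vx X v τ j x ≠ 0 → j.1.1 ∈ τ.items := by
    intro v τ hv j x hj
    by_contra hn
    exact hj (vN_out (X := X) (s := v) (t := τ) hn x)
  have kN : bil K (vx X (nP p u) t₁) (vx X (nN p u) t₀) ≤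
      bil K₁ (vx X (nN p u) t₀) (vx X (nP p u) t₁) := by
    refine (bil_supp (K := K) (K' := fun j i => 0 + K₁ i j) (A := fun j => j.1.1 ∈ t₁.items)
      (B := fun j => j.1.1 ∈ t₀.items) pU pV (z1 h1) (z1 h0)
      (fun j i hj hi => by rw [zero_add]; exact hKK j i hj hi)).trans ?_
    refine (bil_split (K₁ := fun _ _ => 0) (K₂ := K₁) pU pV fun j i => le_rfl).trans (le_of_eq ?_)
    have : bil (fun _ _ => (0:ℝ)) (vx X (nP p u) t₁) (vx X (nN p u) t₀) = 0 := by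
      unfold bil
      simp
    rw [this, zero_add]
  have key := pair_ac (c := fun j => 1 / 2 * ε j) (c' := fun j => (p:ℝ) / 4 * ε j) hs hβ₁ hβ₂ h0 h1
    hP h2 hL (fun r _ hr => le_of_lt hr) (fun r _ hr => le_of_lt hr) hW hK hZ ht htL A
    (fun j => mul_nonneg (by norm_num) (c0 j)) (fun j => mul_nonneg (by positivity) (c0 j))
    (fun j e he hj => by
      have := hc' j e he hj
      linarith)
    (fun j e he hj => by
      have := hc j e he hj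
      have h5 := mul_le_mul_of_nonneg_left this (by positivity : (0:ℝ) ≤ p / 4)
      refine le_trans (le_of_eq ?_) h5
      field_simp)
  have b := lm_br2 h.rg (c := ε) (c₁ := ε) (c₀ := ε) (fun _ _ => le_rfl) (fun _ _ => le_rfl)
    h1.rg h0.rg
  refine le_trans ?_ b
  have L1 : 0 ≤ lm X ε (nP p u) t₁ :=
    Finset.sum_nonneg fun j _ => mul_nonneg (c0 j) (I_vx_nonneg h1.rg j)
  have e1 : lm X (fun j => (p:ℝ) / 4 * ε j) (nP p u) t₁ = (p:ℝ) / 4 * lm X ε (nP p u) t₁ :=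
    lm_smul _ _ _ _
  have e0 : lm X (fun j => 1 / 2 * ε j) (nN p u) t₀ = 1 / 2 * lm X ε (nN p u) t₀ :=
    lm_smul _ _ _ _
  rw [e1, e0] at key
  have k5 := mul_le_mul_of_nonneg_left (kN.trans key) (by positivity : (0:ℝ) ≤ 1 / (p:ℝ) * 2)
  have e3 : 1 / (p:ℝ) * 2 * (1 / 2 * lm X ε (nN p u) t₀ + (p:ℝ) / 4 * lm X ε (nP p u) t₁) =
      1 / 2 * lm X ε (nP p u) t₁ + 1 / (p:ℝ) * lm X ε (nN p u) t₀ := by
    field_simp
    ring
  rw [e3] at k5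
  have k6 := mul_le_mul_of_nonneg_right w1 L1
  calc 1 / (p : ℝ) * (2 * bil K (vx X (nP p u) t₁) (vx X (nN p u) t₀))
      = 1 / (p : ℝ) * 2 * bil K (vx X (nP p u) t₁) (vx X (nN p u) t₀) := by ring
    _ ≤ _ := k5
    _ ≤ _ := by linarith

end Crest.Agent.R4P.XmD41
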