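import Crest.Agent.R4P.GPair_33
import Crest.Agent.R4P.ShR_18

/-!
R4 (S0004) with powers, helper18: **pairs of labelled pieces of two members** (E3a, (N), PNe): from the
energy to the arithmetic sum with the congruence of the cofactors.

Two nodes `(s, t)`, `(s', t')` of one circle (`s.A s.B = s'.A s'.B`; also one node), a static family `R`
of pairs of pieces which are labelled with one real index at the column `p` (`SameIx30.LB`).

* `D1`, `D2` : reduced cofactors of a pair of items; `Rl` : the items occur in `R` and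
  `D2 (B σ) ≡ D1 (B' σ') (mod 1)` (`ShR18.Co`) for their real labels `σ`, `σ'` at `p`;
* `ov` : `min (R_q / D1, R_r / D2)`;
* `node_pair` : **`Q R (v s) (v s') ≤ ∑_{Rl} 2 ov`**;
* `small_sum` : the pairs with both cofactors `≤ √(den ρ)` (one primitive ratio) and one `≥ Z` :
  `∑ ov ≤ (∑ R_q + ∑ R_r) / Z`.
-/

set_option autoImplicit false
set_option linter.unusedSectionVars false
set_option linter.unusedVariables false

namespace Crest.Agent.R4P.XmE18

open Crest.Agent.R4.Tour104 Crest.Agent.R4.Tour758 Crest.Agent.R4.Avg758 Crest.Agent.R4.Clos758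
open Crest.Agent.R4.ClosL758 Crest.Agent.R4.ClosG758 Crest.Agent.R4.ClosR758
open Crest.Agent.R4.HVW560
open Crest.Agent.R4.Fam464 Crest.Agent.R4.Piece464
open Crest.Agent.R4P.Cnt588 Crest.Agent.R4P.Item758 Crest.Agent.R4P.AvgItem710
open Crest.Agent.R4P.Walk560 Crest.Agent.R4P.NodeG33
open Crest.Agent.R4P.Data758 Crest.Agent.R4P.Skel189
open Crest.Agent.R4P.Bld532 (NS All)
open Crest.Agent.R4P.Step588 (NDt)
open Crest.Agent.R4.Soft104 (w)
open Crest.Agent.R4P.SameIx30 Crest.Agent.R4P.GPair33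
open Crest.Agent.R4P.ShR18 (Co)
open Crest.Agent.R4P.LeafSide28 (DaI)

variable {N : Skel189.Num} {γ : ℝ} {p0 P₀ : ℕ} {X : Ctx N γ p0 P₀}

/-- first reduced cofactor of the items `e.1`, `e.2` at the nodes `s`, `s'` -/
def D1 (s s' : NS) (e : ℕ × ℕ) : ℕ := cof (e.1 / s.A) (e.2 / s'.A)

/-- second reduced cofactor -/
def D2 (s s' : NS) (e : ℕ × ℕ) : ℕ := cof (e.2 / s'.A) (e.1 / s.A)

/-- bound of the overlap of two items of one exact class -/
noncomputable def ov (X : Ctx N γ p0 P₀) (s s' : NS) (e : ℕ × ℕ) : ℝ :=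
  min (RB X s e.1 / D1 s s' e) (RB X s' e.2 / D2 s s' e)

/-- the items occur in `R` and their cofactors satisfy the congruence of the labels -/
def Rl (X : Ctx N γ p0 P₀) (p : ℕ) (R : Finset (X.c.Lam × X.c.Lam)) (s s' : NS) (e : ℕ × ℕ) : Prop :=
  (∃ x ∈ R, x.1.1.1 = e.1 ∧ x.2.1.1 = e.2) ∧ ∃ σ σ' : ℚ, X.c.st p e.1 = some σ ∧
    X.c.st p e.2 = some σ' ∧ Co ((D2 s s' e : ℕ) * (s.B * σ)) ((D1 s s' e : ℕ) * (s'.B * σ'))

lemma cof_self_pos {s s' : NS} {t t' : IT} (h : QX X s t) (h' : QX X s' t') {e : ℕ × ℕ}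
    (he : e.1 ∈ t.items) (he' : e.2 ∈ t'.items) : 0 < D1 s s' e ∧ 0 < D2 s s' e := by
  have hw : 0 < e.1 / s.A := Nat.pos_of_ne_zero (h.div_ne he)
  have hw' : 0 < e.2 / s'.A := Nat.pos_of_ne_zero (h'.div_ne he')
  exact ⟨Crest.Agent.R4.HVW560.cof_pos hw, Crest.Agent.R4.HVW560.cof_pos hw'⟩

/-- the scale of the pair -/
lemma DU_one {s s' : NS} {t t' : IT} (h : QX X s t) (h' : QX X s' t') {e : ℕ × ℕ}
    (he : e.1 ∈ t.items) (he' : e.2 ∈ t'.items) :
    RB X s e.1 * RB X s' e.2 / DU X 1 s 1 s' e = ov X s s' e := by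
  obtain ⟨c1, c2⟩ := cof_self_pos h h' he he'
  have c1' : (0 : ℝ) < D1 s s' e := by exact_mod_cast c1
  have c2' : (0 : ℝ) < D2 s s' e := by exact_mod_cast c2
  have hrr := (X.ok.rad X.Y).pos
  have hB : (0 : ℝ) < s.B := by exact_mod_cast h.B_pos
  have hB' : (0 : ℝ) < s'.B := by exact_mod_cast h'.B_pos
  have r1 : 0 < RB X s e.1 := mul_pos hB (hrr e.1)
  have r2 : 0 < RB X s' e.2 := mul_pos hB' (hrr e.2)
  rw [← DaI_eq]
  have e1 : DaI X.c.rr 1 s.B s.A 1 1 s'.B s'.A 1 e =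
      max (D2 s s' e * RB X s e.1) (D1 s s' e * RB X s' e.2) := by
    unfold DaI Da Crest.Agent.R4.AvgItem710.Dp D1 D2 RB
    simp [rf]
  rw [e1]
  have key : ∀ r r' x y : ℝ, 0 < r → 0 < r' → 0 < x → 0 < y →
      r * r' / max (y * r) (x * r') = min (r / x) (r' / y) := by
    intro r r' x y r0 r0' x0 y0
    rcases le_total (y * r) (x * r') with h1 | h1
    · rw [max_eq_right h1, min_eq_left]
      · field_simp
      · rw [div_le_div_iff₀ x0 y0]
        linarith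
    · rw [max_eq_left h1, min_eq_right]
      · field_simp
      · rw [div_le_div_iff₀ y0 x0]
        linarith
  exact key _ _ _ _ r1 r2 c1' c2'

open Classical in
/-- **energy of a pair of nodes**: arithmetic sum with the congruence -/
theorem node_pair {s s' : NS} {t t' : IT} (h : QX X s t) (h' : QX X s' t') {p : ℕ}
    (hp : p ≤ top X.S) (hlam : X.c.lam p = 0) (hT : s.A * s.B = s'.A * s'.B)
    {R : Finset (X.c.Lam × X.c.Lam)} (hR : LB X p R) :
    Q R (vN X (.inl (s, t))) (vN X (.inl (s', t'))) ≤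
      ∑ e ∈ (t.items ×ˢ t'.items).filter (Rl X p R s s'), 2 * ov X s s' e := by
  set f := vN X (.inl (s, t)) with hf
  set g := vN X (.inl (s', t')) with hg
  set R' := R.filter (fun x => ∃ y, f x.1 y * g x.2 y ≠ 0) with hR'
  have hQ : Q R f g = Q R' f g := by
    unfold Q
    rw [hR', Finset.sum_filter]
    refine Finset.sum_congr rfl fun x _ => ?_
    split_ifs with hx
    · rfl
    · push Not at hx
      have e1 : (fun y => f x.1 y * g x.2 y) = fun _ => 0 := funext hx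
      rw [e1]
      simp [I]
  rw [hQ]
  have hLB : LB X p R' := hR.mono (Finset.filter_subset _ _)
  refine (QN_lb h h' hp hlam hT hLB).trans ?_
  show ∑ e ∈ (t.items ×ˢ t'.items) ∩ itR X R', 2 * (RB X s e.1 * RB X s' e.2 / DU X 1 s 1 s' e) ≤ _
  have hsub : (t.items ×ˢ t'.items) ∩ itR X R' ⊆ (t.items ×ˢ t'.items).filter (Rl X p R s s') := by
    intro e he
    obtain ⟨h1, h2⟩ := Finset.mem_inter.1 he
    obtain ⟨x, hx, rfl⟩ := Finset.mem_image.1 h2
    obtain ⟨hxR, y, hy⟩ := Finset.mem_filter.1 hx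
    refine Finset.mem_filter.2 ⟨h1, ⟨x, hxR, rfl, rfl⟩, ?_⟩
    obtain ⟨i1, i2⟩ := Finset.mem_product.1 h1
    obtain ⟨σ, hσ⟩ := Option.ne_none_iff_exists'.1 (hR.lb x hxR)
    obtain ⟨σ', hσ'⟩ := Option.ne_none_iff_exists'.1 (hR.lb' x hxR)
    refine ⟨σ, σ', hσ, hσ', ?_⟩
    obtain ⟨a, a', -, -, k⟩ := exact_pt h h' hp hlam hT (hR.ix x hxR) hσ hσ' (y := y)
      (left_ne_zero_of_mul hy) (right_ne_zero_of_mul hy)
    -- divide by the gcd
    have hw : 0 < x.1.1.1 / s.A := Nat.pos_of_ne_zero (h.div_ne i1)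
    have hg0 : (0 : ℚ) < ((x.1.1.1 / s.A).gcd (x.2.1.1 / s'.A) : ℕ) := by
      exact_mod_cast Nat.gcd_pos_of_pos_left _ hw
    have ew : ((x.1.1.1 / s.A : ℕ) : ℚ) = ((x.1.1.1 / s.A).gcd (x.2.1.1 / s'.A) : ℕ) *
        (D1 s s' (x.1.1.1, x.2.1.1) : ℕ) := by
      exact_mod_cast (Crest.Agent.R4.AvgItem710.mul_cof).symm
    have ew' : ((x.2.1.1 / s'.A : ℕ) : ℚ) = ((x.1.1.1 / s.A).gcd (x.2.1.1 / s'.A) : ℕ) *
        (D2 s s' (x.1.1.1, x.2.1.1) : ℕ) := by
      exact_mod_cast (Crest.Agent.R4.AvgItem710.mul_cof').symm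
    rw [ew, ew'] at k
    have k2 : ((a : ℚ) + s.B * σ) * (D2 s s' (x.1.1.1, x.2.1.1) : ℕ) =
        (a' + s'.B * σ') * (D1 s s' (x.1.1.1, x.2.1.1) : ℕ) := by
      apply mul_left_cancel₀ hg0.ne'
      linear_combination k
    refine ⟨a' * (D1 s s' (x.1.1.1, x.2.1.1) : ℕ) - a * (D2 s s' (x.1.1.1, x.2.1.1) : ℕ), ?_⟩
    push_cast
    linear_combination k2
  have hnn : ∀ e ∈ (t.items ×ˢ t'.items).filter (Rl X p R s s'), 0 ≤ 2 * ov X s s' e := by
    intro e he
    have hrr := (X.ok.rad X.Y).pos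
    have := hrr e.1
    have := hrr e.2
    unfold ov
    refine mul_nonneg (by norm_num) (le_min ?_ ?_) <;> positivity
  refine le_trans (le_of_eq (Finset.sum_congr rfl fun e he => ?_))
    (Finset.sum_le_sum_of_subset_of_nonneg hsub fun e he _ => hnn e he)
  obtain ⟨i1, i2⟩ := Finset.mem_product.1 (Finset.mem_inter.1 he).1
  rw [DU_one h h' i1 i2]

/-! ### one primitive ratio -/

open Classical in
/-- **small cofactors**: if the labels on the circles are `ρ` and `ρ'` for all related pairs of `E`,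
both cofactors are `≤ U`, `U² ≤ den ρ`, and one of them is `≥ Z`, then every item occurs at most once -/
theorem small_sum {s s' : NS} {t t' : IT} (h : QX X s t) (h' : QX X s' t') {ρ ρ' : ℚ} {U Z : ℝ}
    (hU : U * U ≤ ρ.den) (hZ : 0 < Z) {E : Finset (ℕ × ℕ)}
    (hE : ∀ e ∈ E, e.1 ∈ t.items ∧ e.2 ∈ t'.items ∧ (D1 s s' e : ℝ) ≤ U ∧ (D2 s s' e : ℝ) ≤ U ∧
      (Z ≤ D1 s s' e ∨ Z ≤ D2 s s' e) ∧ Co ((D2 s s' e : ℕ) * ρ) ((D1 s s' e : ℕ) * ρ')) :
    ∑ e ∈ E, ov X s s' e ≤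
      (∑ q ∈ E.image Prod.fst, RB X s q + ∑ r ∈ E.image Prod.snd, RB X s' r) / Z := by
  have hrr := (X.ok.rad X.Y).pos
  have hB : (0 : ℝ) < s.B := by exact_mod_cast h.B_pos
  have hB' : (0 : ℝ) < s'.B := by exact_mod_cast h'.B_pos
  -- the ratio
  have hrat : ∀ e ∈ E, ∀ e' ∈ E, D1 s s' e' * D2 s s' e = D1 s s' e * D2 s s' e' := by
    intro e he e' he'
    obtain ⟨a1, a2, a3, a4, -, a6⟩ := hE e he
    obtain ⟨b1, b2, b3, b4, -, b6⟩ := hE e' he'
    obtain ⟨c1, c2⟩ := cof_self_pos h h' a1 a2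
    obtain ⟨d1, d2⟩ := cof_self_pos h h' b1 b2
    exact ShR18.uniq hU a4 a3 b4 b3 c2 c1 d2 d1 a6 b6
  -- `q / r` is the ratio of the cofactors
  have hq : ∀ e ∈ E, (e.1 / s.A) * D2 s s' e = (e.2 / s'.A) * D1 s s' e := by
    intro e he
    have ew : e.1 / s.A = ((e.1 / s.A).gcd (e.2 / s'.A)) * D1 s s' e :=
      (Crest.Agent.R4.AvgItem710.mul_cof).symm
    have ew' : e.2 / s'.A = ((e.1 / s.A).gcd (e.2 / s'.A)) * D2 s s' e :=
      (Crest.Agent.R4.AvgItem710.mul_cof').symm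
    calc (e.1 / s.A) * D2 s s' e
        = ((e.1 / s.A).gcd (e.2 / s'.A)) * D1 s s' e * D2 s s' e := by rw [← ew]
      _ = (((e.1 / s.A).gcd (e.2 / s'.A)) * D2 s s' e) * D1 s s' e := by ring
      _ = (e.2 / s'.A) * D1 s s' e := by rw [← ew']
  have hdiv : ∀ {s : NS} {t : IT} (h : QX X s t) {q r : ℕ}, q ∈ t.items → r ∈ t.items →
      q / s.A = r / s.A → q = r := by
    intro s t h q r hq hr he
    have h1 := h.bk.dvd _ hq
    have h2 := h.bk.dvd _ hr
    rw [← Nat.mul_div_cancel' h1, ← Nat.mul_div_cancel' h2, he]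
  have hinj1 : Set.InjOn (Prod.fst : ℕ × ℕ → ℕ) (E : Set (ℕ × ℕ)) := by
    intro e he e' he' h1
    have he := Finset.mem_coe.1 he
    have he' := Finset.mem_coe.1 he'
    have h2 : e.1 = e'.1 := h1
    obtain ⟨a1, a2, -⟩ := hE e he
    obtain ⟨b1, b2, -⟩ := hE e' he'
    obtain ⟨c1, c2⟩ := cof_self_pos h h' a1 a2
    obtain ⟨d1, d2⟩ := cof_self_pos h h' b1 b2
    refine Prod.ext h2 (hdiv h' a2 b2 ?_)
    have k1 := hq e he
    have k2 := hq e' he'
    rw [← h2] at k2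
    have k3 := hrat e he e' he'
    -- `W D2 = W1 D1`, `W D2' = W2 D1'`
    have : (e.2 / s'.A) * (D1 s s' e * D1 s s' e') = (e'.2 / s'.A) * (D1 s s' e * D1 s s' e') := by
      calc (e.2 / s'.A) * (D1 s s' e * D1 s s' e')
          = ((e.2 / s'.A) * D1 s s' e) * D1 s s' e' := by ring
        _ = (e.1 / s.A) * D2 s s' e * D1 s s' e' := by rw [← k1]
        _ = (e.1 / s.A) * (D1 s s' e' * D2 s s' e) := by ring
        _ = (e.1 / s.A) * (D1 s s' e * D2 s s' e') := by rw [k3]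
        _ = ((e.1 / s.A) * D2 s s' e') * D1 s s' e := by ring
        _ = ((e'.2 / s'.A) * D1 s s' e') * D1 s s' e := by rw [k2]
        _ = (e'.2 / s'.A) * (D1 s s' e * D1 s s' e') := by ring
    exact Nat.eq_of_mul_eq_mul_right (Nat.mul_pos c1 d1) this
  have hinj2 : Set.InjOn (Prod.snd : ℕ × ℕ → ℕ) (E : Set (ℕ × ℕ)) := by
    intro e he e' he' h1
    have he := Finset.mem_coe.1 he
    have he' := Finset.mem_coe.1 he'
    have h2 : e.2 = e'.2 := h1
    obtain ⟨a1, a2, -⟩ := hE e he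
    obtain ⟨b1, b2, -⟩ := hE e' he'
    obtain ⟨c1, c2⟩ := cof_self_pos h h' a1 a2
    obtain ⟨d1, d2⟩ := cof_self_pos h h' b1 b2
    refine Prod.ext (hdiv h a1 b1 ?_) h2
    have k1 := hq e he
    have k2 := hq e' he'
    rw [← h2] at k2
    have k3 := hrat e he e' he'
    have : (e.1 / s.A) * (D2 s s' e * D2 s s' e') = (e'.1 / s.A) * (D2 s s' e * D2 s s' e') := by
      calc (e.1 / s.A) * (D2 s s' e * D2 s s' e')
          = ((e.1 / s.A) * D2 s s' e) * D2 s s' e' := by ring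
        _ = (e.2 / s'.A) * D1 s s' e * D2 s s' e' := by rw [k1]
        _ = (e.2 / s'.A) * (D1 s s' e * D2 s s' e') := by ring
        _ = (e.2 / s'.A) * (D1 s s' e' * D2 s s' e) := by rw [k3]
        _ = ((e.2 / s'.A) * D1 s s' e') * D2 s s' e := by ring
        _ = ((e'.1 / s.A) * D2 s s' e') * D2 s s' e := by rw [← k2]
        _ = (e'.1 / s.A) * (D2 s s' e * D2 s s' e') := by ring
    exact Nat.eq_of_mul_eq_mul_right (Nat.mul_pos c2 d2) this
  have hle : ∀ e ∈ E, ov X s s' e ≤ RB X s e.1 / Z + RB X s' e.2 / Z := by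
    intro e he
    obtain ⟨a1, a2, a3, a4, a5, -⟩ := hE e he
    have r1 : 0 < RB X s e.1 := mul_pos hB (hrr e.1)
    have r2 : 0 < RB X s' e.2 := mul_pos hB' (hrr e.2)
    have q1 : 0 ≤ RB X s e.1 / Z := by positivity
    have q2 : 0 ≤ RB X s' e.2 / Z := by positivity
    rcases a5 with a5 | a5
    · refine (min_le_left _ _).trans ?_
      have := div_le_div_of_nonneg_left r1.le hZ a5
      linarith
    · refine (min_le_right _ _).trans ?_
      have := div_le_div_of_nonneg_left r2.le hZ a5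
      linarith
  refine (Finset.sum_le_sum hle).trans (le_of_eq ?_)
  rw [Finset.sum_add_distrib, ← Finset.sum_div, ← Finset.sum_div, Finset.sum_image hinj1,
    Finset.sum_image hinj2, add_div]

end Crest.Agent.R4P.XmE18
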