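import Crest.Agent.R4P.XmG_18
import Crest.Agent.R4P.GcdT_37
import Crest.Agent.R4P.OSCtxA_14
import Crest.Agent.R4P.MS800

/-!
R4 (S0004) with powers, helper37: **pairs of two nodes, late first pieces, uncounted second pieces**
(over helper18's `XmG18`, helper41's `GcdW41`, `GcdT37`).

* `lg_nd`, `tail_nd` : the divisors of `q / s.A` with a large prime (the retained primes are sparse);
* **`node_late`** : `L2`, `U ≤ den (B σ), den (B' σ')`, one cofactor `≥ U`, `card F ≤ U^A`, `G`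
  uncounted : `Q R (vN s) (vN s') ≤ C (1 + log P) U^(-1/8) (∑_F M_q + ∑_G M_r)`;
* **`node_late1`** : one node, one label, different items;
* `card_late` : `RB >= η` on `F` and mass `<= M` : `card F <= 4 CT log P M / η`.
-/

set_option autoImplicit false
set_option linter.unusedSectionVars false
set_option linter.unusedVariables false

open MeasureTheory Filter

namespace Crest.Agent.R4P.XmN37

open Crest.Agent.R4.Tour104 Crest.Agent.R4.Tour758 Crest.Agent.R4.Avg758 Crest.Agent.R4.Clos758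
open Crest.Agent.R4.ClosL758 Crest.Agent.R4.ClosG758 Crest.Agent.R4.ClosR758
open Crest.Agent.R4.HVW560
open Crest.Agent.R4.Fam464 Crest.Agent.R4.Piece464
open Crest.Agent.R4P.Cnt588 Crest.Agent.R4P.Item758 Crest.Agent.R4P.AvgItem710
open Crest.Agent.R4P.Walk560 Crest.Agent.R4P.NodeG33
open Crest.Agent.R4P.Data758 Crest.Agent.R4P.Skel189
open Crest.Agent.R4P.Bld532 (NS All)
open Crest.Agent.R4P.Step588 (NDt CT CT_pos tot_ge totient_div_prod)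
open Crest.Agent.R4.Soft104 (w)
open Crest.Agent.R4P.SameIx30 Crest.Agent.R4P.GPair33
open Crest.Agent.R4P.ShR18 (Co)
open Crest.Agent.R4P.SpM18 Crest.Agent.R4P.XmE18 Crest.Agent.R4P.XmM18 Crest.Agent.R4P.XmG18
open Crest.Agent.R4P.GcdK37 (ind ind_t ind_f ind_nn ind_le)
open Crest.Agent.R4P.GcdS37 (rd)
open Crest.Agent.R4P.PrunePar33 (tail_pow)
open Crest.Agent.R4P.NI927 (ctx_pr)
open Crest.Agent.R4P.GSt927 (sum_div_mul_le)
open Crest.Agent.R4.DeepSt579 (tq tq_nonneg)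
open Crest.Agent.R4P

variable {N : Skel189.Num} {γ : ℝ} {p0 P₀ : ℕ} {X : Ctx N γ p0 P₀}

/-- **the sizes of the totients and the tails of the retained primes at a node** -/
theorem lg_nd (N : Skel189.Num) : ∃ p₁ : ℕ, ∀ p0 ≥ p₁, ∀ (γ : ℝ) (P₀ : ℕ) (X : Ctx N γ p0 P₀)
    (s : NS) (t : IT), QX X s t → ∀ P : ℕ, p0 ≤ P → (∀ r : ℕ, r.Prime → r < s.n → r ≤ P) →
    ∀ q ∈ X.S', q ∈ t.items →
      ∑ d ∈ (q / s.A).divisors, (1 : ℝ) / d ≤ 2 * CT * Real.log P ∧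
      ∀ z : ℕ, P ≤ z → ∑ b ∈ (rt X.c.t q).filter (fun b => z < b), (1 : ℝ) / b ≤
        (z : ℝ) ^ (-(1 / 2) : ℝ) := by
  have hB1 := N.hB
  have hC1 := N.hC1
  have hc2 := N.hc2
  obtain ⟨p1, h1⟩ := tot_ge N.B (N.C1 + N.c2) (by linarith)
  obtain ⟨p2, h2⟩ := tail_pow (N.B + 1) 1 one_pos
  refine ⟨p1 + p2 + 3, fun p0 hp0 γ P₀ X s t hN P hP hlv q hq hqt => ?_⟩
  have hm : 0 < q / s.A := Nat.pos_of_ne_zero (hN.div_ne hqt)
  have hP2 : (2 : ℝ) ≤ P := by exact_mod_cast (by omega : 2 ≤ P)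
  refine ⟨?_, fun z hz => ?_⟩
  · have key := h1 p0 (by omega) X.c.t q (ctx_pr X hq)
      (fun l hl => (rt_prime X.c.t X.tOk q l hl).1) (P + 1) (by omega) (q / s.A) hm
      fun l hl1 hl2 hl3 => hN.self.ge q hqt l hl1 (by
        by_contra hlt
        have := hlv l hl1 (not_le.1 hlt)
        omega) hl2
    have hlog2 : Real.log ((P + 1 : ℕ) : ℝ) ≤ 2 * Real.log P := by
      have h5 : ((P + 1 : ℕ) : ℝ) ≤ (P : ℝ) ^ 2 := by push_cast; nlinarith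
      have h6 : (0 : ℝ) < ((P + 1 : ℕ) : ℝ) := by push_cast; linarith
      have h7 := Real.log_le_log h6 h5
      rw [Real.log_pow] at h7
      exact_mod_cast h7
    have k1 := sum_div_mul_le (q / s.A)
    rw [← totient_div_prod hm] at k1
    set S := ∑ d ∈ (q / s.A).divisors, (1 : ℝ) / d with hS
    set τ := ((q / s.A).totient : ℝ) / ((q / s.A : ℕ) : ℝ) with hτ
    have hS0 : 0 ≤ S := Finset.sum_nonneg fun d _ => by positivity
    have hτ0 : 0 ≤ τ := by positivity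
    have hC := CT_pos
    calc S = S * 1 := (mul_one _).symm
      _ ≤ S * (CT * Real.log ((P + 1 : ℕ) : ℝ) * τ) := mul_le_mul_of_nonneg_left key hS0
      _ = CT * Real.log ((P + 1 : ℕ) : ℝ) * (S * τ) := by ring
      _ ≤ CT * Real.log ((P + 1 : ℕ) : ℝ) * 1 := mul_le_mul_of_nonneg_left k1
          (mul_nonneg hC.le (Real.log_natCast_nonneg _))
      _ ≤ 2 * CT * Real.log P := by
          rw [mul_one]
          have := mul_le_mul_of_nonneg_left hlog2 hC.le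
          linarith
  · have key := h2 p0 (by omega) (X.c.t.uq q) (ctx_pr X hq).uq z (by omega)
    refine le_trans (le_of_eq (Finset.sum_congr rfl fun b _ => ?_)) key
    rw [Real.rpow_neg_one, one_div]

open Classical in
/-- **divisors of `q / s.A` with a large prime** -/
theorem tail_nd {s : NS} {t : IT} (hN : QX X s t) {P : ℕ}
    (hlv : ∀ r : ℕ, r.Prime → r < s.n → r ≤ P) {q : ℕ} (hqt : q ∈ t.items) {L : ℝ}
    (hL : ∑ d ∈ (q / s.A).divisors, (1 : ℝ) / d ≤ L) {z : ℕ} (hz : P ≤ z) {ε : ℝ}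
    (hε : ∑ b ∈ (rt X.c.t q).filter (fun b => z < b), (1 : ℝ) / b ≤ ε) :
    ∑ d ∈ (q / s.A).divisors.filter (fun d => ∃ b : ℕ, b.Prime ∧ z < b ∧ b ∣ d), (1 : ℝ) / d ≤
      L * ε := by
  refine GcdT37.div_tail (Nat.pos_of_ne_zero (hN.div_ne hqt)) (T := rt X.c.t q) ?_ hL hε
  intro b hb hzb hd
  refine hN.self.ge q hqt b hb ?_ hd
  by_contra hlt
  have := hlv b hb (not_le.1 hlt)
  omega

open Classical in
/-- **LATE PIECES OF A NODE AGAINST ALL THE PIECES OF A NODE** -/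
theorem node_late {A : ℝ} (hA : 0 ≤ A) : ∃ Ce : ℝ, 1 ≤ Ce ∧ ∃ C : ℝ, 1 ≤ C ∧
    ∀ (N : Skel189.Num), ∃ p₁ : ℕ, ∀ p0 ≥ p₁, ∀ (γ : ℝ) (P₀ : ℕ)
    (X : Ctx N γ p0 P₀) (s s' : NS) (t t' : IT) (p P : ℕ) (σ σ' : ℚ)
    (R : Finset (X.c.Lam × X.c.Lam)) (F G : Finset ℕ) (U : ℝ),
    MN X s t → MN X s' t' → s.A * s.B = s'.A * s'.B → p ≤ top X.S → X.c.lam p = 0 →
    p0 ≤ P → (∀ r : ℕ, r.Prime → r < s.n → r ≤ P) → (∀ r : ℕ, r.Prime → r < s'.n → r ≤ P) →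
    L2 X p R σ σ' → (3 + Real.log P) ^ Ce ≤ U → U ≤ ((s.B : ℚ) * σ).den → U ≤ ((s'.B : ℚ) * σ').den →
    (∀ x ∈ R, x.1.1.1 ∈ t.items → x.1.1.1 ∈ X.S' → x.1.1.1 ∈ F) →
    (∀ x ∈ R, x.2.1.1 ∈ t'.items → x.2.1.1 ∈ X.S' → x.2.1.1 ∈ G) →
    (∀ q ∈ F, q ∈ t.items ∧ q ∈ X.S') → (∀ q ∈ G, q ∈ t'.items ∧ q ∈ X.S') →
    (F.card : ℝ) ≤ U ^ A →
    (∀ x ∈ R, Co ((D2 s s' (it2 x) : ℕ) * (s.B * σ)) ((D1 s s' (it2 x) : ℕ) * (s'.B * σ')) →
      U ≤ (D1 s s' (it2 x) : ℝ) ∨ U ≤ (D2 s s' (it2 x) : ℝ)) →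
    Q R (vN X (.inl (s, t))) (vN X (.inl (s', t'))) ≤
      C * (1 + Real.log P) * U ^ (-(1 / 8) : ℝ) * (∑ q ∈ F, MI X s t q + ∑ r ∈ G, MI X s' t' r) := by
  obtain ⟨Ce, hCe, C1, hC1, late⟩ := GcdT37.co_min (A := A) hA
  have hCT := CT_pos
  refine ⟨Ce + 2 * CT + 1, by linarith, 8 * CT * C1 + 1, by nlinarith, fun N => ?_⟩
  obtain ⟨p1, h1⟩ := lg_nd N
  refine ⟨p1 + 3, ?_⟩
  intro p0 hp0 γ P₀ X s s' t t' p P σ σ' R F G U h h' hT hp hlam hP hl1 hl2 hL hPU k1 k2 r1 r2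
    f1 f2 c1 hS
  set f := vN X (.inl (s, t)) with hf
  set g := vN X (.inl (s', t')) with hg
  have hlP : 0 ≤ Real.log (P : ℝ) := Real.log_natCast_nonneg P
  have hw1 : 1 ≤ 3 + Real.log (P : ℝ) := by linarith
  have hPU' : (3 + Real.log (P : ℝ)) ^ Ce ≤ U :=
    (Real.rpow_le_rpow_of_exponent_le hw1 (by linarith)).trans hPU
  have hU : 1 ≤ U := (Real.one_le_rpow hw1 (by linarith)).trans hPU'
  have hU0 : 0 < U := by linarith
  have hLU : 2 * CT * Real.log P ≤ U := by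
    have e1 : 2 * CT ≤ (3 + Real.log (P : ℝ)) ^ (2 * CT) := by
      have h3 : (1 : ℝ) ≤ Real.log (3 + Real.log P) := by
        have : Real.exp 1 ≤ 3 + Real.log P := by
          have := Real.exp_one_lt_d9; linarith
        rwa [Real.le_log_iff_exp_le (by linarith)]
      rw [Real.rpow_def_of_pos (by linarith)]
      have h4 := Real.add_one_le_exp (Real.log (3 + Real.log (P : ℝ)) * (2 * CT))
      have h5 : 1 * (2 * CT) ≤ Real.log (3 + Real.log (P : ℝ)) * (2 * CT) :=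
        mul_le_mul_of_nonneg_right h3 (by linarith)
      linarith
    calc 2 * CT * Real.log P ≤ (3 + Real.log (P : ℝ)) ^ (2 * CT) * (3 + Real.log (P : ℝ)) ^ (1 : ℝ) := by
          rw [Real.rpow_one]
          exact mul_le_mul e1 (by linarith) hlP (by positivity)
      _ = (3 + Real.log (P : ℝ)) ^ (2 * CT + 1) := (Real.rpow_add (by linarith) _ _).symm
      _ ≤ (3 + Real.log (P : ℝ)) ^ (Ce + 2 * CT + 1) :=
          Real.rpow_le_rpow_of_exponent_le hw1 (by linarith)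
      _ ≤ U := hPU
  have m1 : ∀ q, 0 ≤ MI X s t q := MI_nonneg h.nd
  have m2 : ∀ q, 0 ≤ MI X s' t' q := MI_nonneg h'.nd
  have M1 : 0 ≤ ∑ q ∈ F, MI X s t q := Finset.sum_nonneg fun q _ => m1 q
  have M2 : 0 ≤ ∑ q ∈ G, MI X s' t' q := Finset.sum_nonneg fun q _ => m2 q
  -- the pairs with a common point
  set R0 := R.filter (fun x => ∃ y, f x.1 y * g x.2 y ≠ 0) with hR0
  have hQ : Q R f g = Q R0 f g := by
    unfold Q
    rw [hR0, Finset.sum_filter]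
    refine Finset.sum_congr rfl fun x _ => ?_
    split_ifs with hx
    · rfl
    · push Not at hx
      have e1 : (fun y => f x.1 y * g x.2 y) = fun _ => 0 := funext hx
      rw [e1]
      simp [I]
  have hL0 : L2 X p R0 σ σ' := hL.mono (Finset.filter_subset _ _)
  have hpt : ∀ x ∈ R0, x.1.1.1 ∈ t.items ∧ x.2.1.1 ∈ t'.items ∧ x.1.1.1 ∈ X.S' ∧
      x.2.1.1 ∈ X.S' ∧
      Co ((D2 s s' (it2 x) : ℕ) * (s.B * σ)) ((D1 s s' (it2 x) : ℕ) * (s'.B * σ')) := by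
    intro x hx
    obtain ⟨hx1, y, hy⟩ := Finset.mem_filter.1 hx
    exact co_pt h.nd h'.nd hp hlam hT hL hx1 hy
  have hsub : ∀ {x}, x ∈ R0 → x ∈ R := fun hx => (Finset.mem_filter.1 hx).1
  have dinj : ∀ {u : NS} {τ : IT} (hu : QX X u τ) {q r : ℕ}, q ∈ τ.items → r ∈ τ.items →
      q / u.A = r / u.A → q = r := by
    intro u τ hu q r hq hr he
    have h1 := hu.bk.dvd _ hq
    have h2 := hu.bk.dvd _ hr
    rw [← Nat.mul_div_cancel' h1, ← Nat.mul_div_cancel' h2, he]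
  have key := late ℕ ℕ P U (s.B * σ) (s'.B * σ') F G (fun q => q / s.A) (fun r => r / s'.A)
    (fun q => RB X s q) (fun r => RB X s' r) (by omega) hPU' c1 k1 k2
    (fun q hq => Nat.pos_of_ne_zero (h.nd.div_ne (f1 q hq).1))
    (fun q hq => Nat.pos_of_ne_zero (h'.nd.div_ne (f2 q hq).1))
    (fun q hq r hr he => dinj h.nd (f1 q hq).1 (f1 r hr).1 he)
    (fun q hq r hr he => dinj h'.nd (f2 q hq).1 (f2 r hr).1 he)
    (fun q _ => (mul_pos (by exact_mod_cast h.nd.B_pos : (0:ℝ) < s.B)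
      ((X.ok.rad X.Y).pos q)).le)
    (fun q _ => (mul_pos (by exact_mod_cast h'.nd.B_pos : (0:ℝ) < s'.B)
      ((X.ok.rad X.Y).pos q)).le)
    (fun q hq z hz => by
      obtain ⟨g1, g2⟩ := h1 p0 (by omega) γ P₀ X s t h.nd P hP hl1 q (f1 q hq).2 (f1 q hq).1
      refine (tail_nd h.nd hl1 (f1 q hq).1 g1 hz (g2 z hz)).trans ?_
      exact mul_le_mul_of_nonneg_right hLU (by positivity))
  have hlarge : Q R0 f g ≤ 2 * (C1 * U ^ (-(1 / 8) : ℝ) *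
      (∑ q ∈ F, RB X s q + ∑ r ∈ G, RB X s' r)) := by
    refine (node_pair h.nd h'.nd hp hlam hT hL0.lb).trans ?_
    rw [← Finset.mul_sum]
    refine mul_le_mul_of_nonneg_left (le_trans ?_ key) (by norm_num)
    rw [← Finset.sum_product' (s := F) (t := G) (f := fun i j =>
      ind ((U ≤ (rd (i / s.A) (j / s'.A)).1 ∨ U ≤ (rd (i / s.A) (j / s'.A)).2) ∧
        Co (((rd (i / s.A) (j / s'.A)).2 : ℕ) * (s.B * σ))
          (((rd (i / s.A) (j / s'.A)).1 : ℕ) * (s'.B * σ'))) *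
      min (RB X s i / ((rd (i / s.A) (j / s'.A)).1 : ℕ))
        (RB X s' j / ((rd (i / s.A) (j / s'.A)).2 : ℕ)))]
    have hnn : ∀ e : ℕ × ℕ, 0 ≤ min (RB X s e.1 / ((rd (e.1 / s.A) (e.2 / s'.A)).1 : ℕ))
        (RB X s' e.2 / ((rd (e.1 / s.A) (e.2 / s'.A)).2 : ℕ)) := by
      intro e
      have b1 := (mul_pos (by exact_mod_cast h.nd.B_pos : (0:ℝ) < s.B)
        ((X.ok.rad X.Y).pos e.1)).le
      have b2 := (mul_pos (by exact_mod_cast h'.nd.B_pos : (0:ℝ) < s'.B)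
        ((X.ok.rad X.Y).pos e.2)).le
      exact le_min (div_nonneg b1 (Nat.cast_nonneg _)) (div_nonneg b2 (Nat.cast_nonneg _))
    have hD : ∀ e : ℕ × ℕ, D1 s s' e = (rd (e.1 / s.A) (e.2 / s'.A)).1 ∧
        D2 s s' e = (rd (e.1 / s.A) (e.2 / s'.A)).2 := by
      intro e
      refine ⟨rfl, ?_⟩
      unfold D2 cof rd
      rw [Nat.gcd_comm]
    refine le_trans (Finset.sum_le_sum fun e he => ?_)
      (Finset.sum_le_sum_of_subset_of_nonneg (s := (t.items ×ˢ t'.items).filter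
        (XmE18.Rl X p R0 s s')) (t := F ×ˢ G) ?_ fun e _ _ => mul_nonneg (ind_nn _) (hnn e))
    · -- termwise
      obtain ⟨he1, ⟨x, hx, hx1, hx2⟩, -⟩ := Finset.mem_filter.1 he
      obtain ⟨a1, a2, a3, a4, a5⟩ := hpt x hx
      have hie : it2 x = e := Prod.ext hx1 hx2
      have a6 := hS x (hsub hx) a5
      rw [hie] at a5 a6
      rw [(hD e).1, (hD e).2] at a5 a6
      rw [ind_t ⟨a6, a5⟩, one_mul, ← (hD e).1, ← (hD e).2]
      rfl
    · intro e he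
      obtain ⟨he1, ⟨x, hx, hx1, hx2⟩, -⟩ := Finset.mem_filter.1 he
      obtain ⟨a1, a2, a3, a4, a5⟩ := hpt x hx
      refine Finset.mem_product.2 ⟨?_, ?_⟩
      · rw [← hx1]; exact r1 x (hsub hx) a1 a3
      · rw [← hx2]; exact r2 x (hsub hx) a2 a4
  -- radii against masses
  have s1 : ∑ q ∈ F, RB X s q ≤ 4 * CT * Real.log P * ∑ q ∈ F, MI X s t q := by
    rw [Finset.mul_sum]
    exact Finset.sum_le_sum fun q hq => h.lo P hP hl1 q (f1 q hq).2 (f1 q hq).1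
  have s2 : ∑ q ∈ G, RB X s' q ≤ 4 * CT * Real.log P * ∑ q ∈ G, MI X s' t' q := by
    rw [Finset.mul_sum]
    exact Finset.sum_le_sum fun q hq => h'.lo P hP hl2 q (f2 q hq).2 (f2 q hq).1
  set M := ∑ q ∈ F, MI X s t q + ∑ r ∈ G, MI X s' t' r with hM
  have hM0 : 0 ≤ M := add_nonneg M1 M2
  have hk8 : (0 : ℝ) < U ^ (-(1 / 8) : ℝ) := Real.rpow_pos_of_pos hU0 _
  rw [hQ]
  have l2 : ∑ q ∈ F, RB X s q + ∑ r ∈ G, RB X s' r ≤ 4 * CT * Real.log P * M := by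
    rw [hM, mul_add]; exact add_le_add s1 s2
  have l3 : 0 ≤ C1 * U ^ (-(1 / 8) : ℝ) := by positivity
  calc Q R0 f g ≤ 2 * (C1 * U ^ (-(1 / 8) : ℝ) * (∑ q ∈ F, RB X s q + ∑ r ∈ G, RB X s' r)) := hlarge
    _ ≤ 2 * (C1 * U ^ (-(1 / 8) : ℝ) * (4 * CT * Real.log P * M)) :=
        mul_le_mul_of_nonneg_left (mul_le_mul_of_nonneg_left l2 l3) (by norm_num)
    _ = 8 * CT * C1 * Real.log P * (U ^ (-(1 / 8) : ℝ) * M) := by ring
    _ ≤ (8 * CT * C1 + 1) * (1 + Real.log P) * (U ^ (-(1 / 8) : ℝ) * M) := by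
        refine mul_le_mul_of_nonneg_right ?_ (mul_nonneg hk8.le hM0)
        have h0 : 0 ≤ 8 * CT * C1 := by positivity
        nlinarith
    _ = _ := by ring

open Classical in
/-- **ONE NODE, ONE LABEL, DIFFERENT ITEMS** : late first pieces, all second pieces -/
theorem node_late1 {A : ℝ} (hA : 0 ≤ A) : ∃ Ce : ℝ, 1 ≤ Ce ∧ ∃ C : ℝ, 1 ≤ C ∧
    ∀ (N : Skel189.Num), ∃ p₁ : ℕ, ∀ p0 ≥ p₁, ∀ (γ : ℝ) (P₀ : ℕ)
    (X : Ctx N γ p0 P₀) (s : NS) (t : IT) (p P : ℕ) (σ : ℚ)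
    (R : Finset (X.c.Lam × X.c.Lam)) (F G : Finset ℕ),
    MN X s t → p ≤ top X.S → X.c.lam p = 0 →
    p0 ≤ P → (∀ r : ℕ, r.Prime → r < s.n → r ≤ P) →
    L2 X p R σ σ → (3 + Real.log P) ^ Ce ≤ (((s.B : ℚ) * σ).den : ℝ) →
    (∀ x ∈ R, x.1.1.1 ≠ x.2.1.1) →
    (∀ x ∈ R, x.1.1.1 ∈ t.items → x.1.1.1 ∈ X.S' → x.1.1.1 ∈ F) →
    (∀ x ∈ R, x.2.1.1 ∈ t.items → x.2.1.1 ∈ X.S' → x.2.1.1 ∈ G) →
    (∀ q ∈ F, q ∈ t.items ∧ q ∈ X.S') → (∀ q ∈ G, q ∈ t.items ∧ q ∈ X.S') →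
    (F.card : ℝ) ≤ (((s.B : ℚ) * σ).den : ℝ) ^ A →
    Q R (vN X (.inl (s, t))) (vN X (.inl (s, t))) ≤
      C * (1 + Real.log P) * (((s.B : ℚ) * σ).den : ℝ) ^ (-(1 / 8) : ℝ) *
        (∑ q ∈ F, MI X s t q + ∑ r ∈ G, MI X s t r) := by
  obtain ⟨Ce, hCe, C, hC, late⟩ := node_late (A := A) hA
  refine ⟨Ce, hCe, C, hC, fun N => ?_⟩
  obtain ⟨p1, h1⟩ := late N
  refine ⟨p1, ?_⟩
  intro p0 hp0 γ P₀ X s t p P σ R F G h hp hlam hP hl1 hL hPU hne r1 r2 f1 f2 c1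
  -- only the pairs with both items in the node matter
  set f := vN X (.inl (s, t)) with hf
  set R0 := R.filter (fun x => x.1.1.1 ∈ t.items ∧ x.2.1.1 ∈ t.items) with hR0
  have hQ : Q R f f = Q R0 f f := by
    unfold Q
    rw [hR0, Finset.sum_filter]
    refine Finset.sum_congr rfl fun x _ => ?_
    split_ifs with hx
    · rfl
    · have e1 : (fun y => f x.1 y * f x.2 y) = fun _ => 0 := by
        funext y
        by_cases h3 : x.1.1.1 ∈ t.items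
        · have h4 : x.2.1.1 ∉ t.items := fun h4 => hx ⟨h3, h4⟩
          have : f x.2 y = 0 := vN_out h4 y
          rw [this, mul_zero]
        · have : f x.1 y = 0 := vN_out h3 y
          rw [this, zero_mul]
      rw [e1]
      simp [I]
  rw [hQ]
  have hsub : ∀ x ∈ R0, x ∈ R := fun x hx => (Finset.mem_filter.1 hx).1
  refine h1 p0 hp0 γ P₀ X s s t t p P σ σ R0 F G _ h h rfl hp hlam hP hl1 hl1
    (hL.mono (Finset.filter_subset _ _)) hPU le_rfl le_rfl (fun x hx => r1 x (hsub x hx))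
    (fun x hx => r2 x (hsub x hx)) f1 f2 c1 fun x hx hco => ?_
  obtain ⟨hxR, i1, i2⟩ := Finset.mem_filter.1 hx
  set ρ : ℚ := s.B * σ with hρ
  set a := D1 s s (it2 x) with ha
  set b := D2 s s (it2 x) with hb
  -- `a ≠ b`
  have hw : 0 < x.1.1.1 / s.A := Nat.pos_of_ne_zero (h.nd.div_ne i1)
  have hab : a ≠ b := by
    intro hab
    have e1 : x.1.1.1 / s.A = ((x.1.1.1 / s.A).gcd (x.2.1.1 / s.A)) * a :=
      (Crest.Agent.R4.AvgItem710.mul_cof).symm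
    have e2 : x.2.1.1 / s.A = ((x.1.1.1 / s.A).gcd (x.2.1.1 / s.A)) * b :=
      (Crest.Agent.R4.AvgItem710.mul_cof').symm
    apply hne x hxR
    have h3 : x.1.1.1 / s.A = x.2.1.1 / s.A := e1.trans ((congrArg _ hab).trans e2.symm)
    rw [← Nat.mul_div_cancel' (h.nd.bk.dvd _ i1), ← Nat.mul_div_cancel' (h.nd.bk.dvd _ i2), h3]
  -- `den ρ ∣ b - a`
  obtain ⟨m, hm⟩ := hco
  have hdvd : (ρ.den : ℤ) ∣ (b : ℤ) - a := by
    have h3 : ((b : ℤ) - a : ℤ) * ρ = (m : ℚ) := by push_cast; linarith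
    have h4 : (((b : ℤ) - a : ℤ) * ρ.num : ℤ) = m * ρ.den := by
      have h5 := Rat.num_div_den ρ
      have h6 : (ρ.den : ℚ) ≠ 0 := by exact_mod_cast ρ.den_nz
      have h8 : ρ * ρ.den = ρ.num := Rat.mul_den_eq_num ρ
      have h7 : (((b : ℤ) - a : ℤ) : ℚ) * ρ.num = m * ρ.den := by
        rw [← h3, mul_assoc, h8]
      exact_mod_cast h7
    have h5 : (ρ.den : ℤ) ∣ ((b : ℤ) - a) * ρ.num := ⟨m, by rw [h4]; ring⟩
    have h6 : IsCoprime (ρ.den : ℤ) ρ.num := by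
      rw [Int.isCoprime_iff_gcd_eq_one, Int.gcd_comm]
      exact ρ.reduced
    exact h6.dvd_of_dvd_mul_right h5
  have hle : ρ.den ≤ a ∨ ρ.den ≤ b := by
    rcases lt_or_gt_of_ne hab with h3 | h3
    · right
      have h4 : (ρ.den : ℤ) ≤ (b : ℤ) - a := Int.le_of_dvd (by omega) hdvd
      omega
    · left
      have h4 : (ρ.den : ℤ) ≤ (a : ℤ) - b := Int.le_of_dvd (by omega) (by
        rw [← dvd_neg, neg_sub]; exact hdvd)
      omega
  rcases hle with h3 | h3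
  · exact Or.inl (by exact_mod_cast h3)
  · exact Or.inr (by exact_mod_cast h3)

/-- **the late items are few** -/
theorem card_late {s : NS} {t : IT} (h : MN X s t) {P : ℕ} (hP : p0 ≤ P)
    (hl : ∀ r : ℕ, r.Prime → r < s.n → r ≤ P) {F : Finset ℕ} (f1 : ∀ q ∈ F, q ∈ t.items ∧ q ∈ X.S')
    {η M : ℝ} (hη : 0 < η) (hR : ∀ q ∈ F, η ≤ RB X s q) (hM : ∑ q ∈ F, MI X s t q ≤ M) :
    (F.card : ℝ) ≤ 1 / η * (4 * CT * Real.log P * M) := by
  have hlP : 0 ≤ Real.log (P : ℝ) := Real.log_natCast_nonneg P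
  have hCT := CT_pos
  have s1 : ∑ q ∈ F, RB X s q ≤ 4 * CT * Real.log P * ∑ q ∈ F, MI X s t q := by
    rw [Finset.mul_sum]
    exact Finset.sum_le_sum fun q hq => h.lo P hP hl q (f1 q hq).2 (f1 q hq).1
  have s2 : (F.card : ℝ) * η ≤ ∑ q ∈ F, RB X s q := by
    have := Finset.card_nsmul_le_sum F (fun q => RB X s q) η hR
    rwa [nsmul_eq_mul] at this
  rw [div_mul_eq_mul_div, one_mul, le_div_iff₀ hη]
  exact (s2.trans s1).trans (mul_le_mul_of_nonneg_left hM (by positivity))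

end Crest.Agent.R4P.XmN37
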