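import Crest.Agent.R4P.XmO_37

/-!
R4 (S0004) with powers, helper37: **one node, two labels with very different denominators** (any offsets).

* `pt R i j` : `(i, j)` or `(j, i)` is a pair of items of `R`; `Lbl ρ T R q` : labels of the partners of `q`;
* **`node_diff`** : every pair of `R` has denominators of ratio `≥ K^δ` (`K` the larger one), one of the two
  pieces late (`K^A RB ≥ 1`) : `≤ C (1 + log P) ∑_q (∑_{r ∈ Lbl q} K(ρ_q, r)^(-δ/8)) M_q`.
-/

set_option autoImplicit false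
set_option linter.unusedSectionVars false
set_option linter.unusedVariables false

open MeasureTheory Filter

namespace Crest.Agent.R4P.XmP37

open Crest.Agent.R4.Tour104 Crest.Agent.R4.Tour758 Crest.Agent.R4.Avg758 Crest.Agent.R4.Clos758
open Crest.Agent.R4.ClosL758 Crest.Agent.R4.ClosG758 Crest.Agent.R4.ClosR758
open Crest.Agent.R4.HVW560
open Crest.Agent.R4.Fam464 Crest.Agent.R4.Piece464
open Crest.Agent.R4P.Cnt588 Crest.Agent.R4P.Item758 Crest.Agent.R4P.AvgItem710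
open Crest.Agent.R4P.Walk560 Crest.Agent.R4P.NodeG33
open Crest.Agent.R4P.Data758 Crest.Agent.R4P.Skel189
open Crest.Agent.R4P.Bld532 (NS All)
open Crest.Agent.R4P.Step588 (NDt CT CT_pos tot_ge totient_div_prod)
open Crest.Agent.R4.Soft104 (w)
open Crest.Agent.R4P.SameIx30 Crest.Agent.R4P.GPair33
open Crest.Agent.R4P.ShR18 (Co)
open Crest.Agent.R4P.SpM18 Crest.Agent.R4P.XmE18 Crest.Agent.R4P.XmM18 Crest.Agent.R4P.XmG18
open Crest.Agent.R4P.GcdK37 (ind ind_t ind_f ind_nn ind_le)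
open Crest.Agent.R4P.GcdS37 (rd)
open Crest.Agent.R4P.GcdU37 (Tl)
open Crest.Agent.R4P.XmN37 Crest.Agent.R4P.XmO37
open Crest.Agent.R4P.RtE28 (KK KK_one diff_pairs)
open Crest.Agent.R4P

variable {N : Skel189.Num} {γ : ℝ} {p0 P₀ : ℕ} {X : Ctx N γ p0 P₀}

/-- `(i, j)` or `(j, i)` is a pair of items of `R` -/
def ptr (R : Finset (X.c.Lam × X.c.Lam)) (i j : ℕ) : Prop :=
  ∃ x ∈ R, (x.1.1.1 = i ∧ x.2.1.1 = j) ∨ (x.1.1.1 = j ∧ x.2.1.1 = i)

lemma ptr.symm {R : Finset (X.c.Lam × X.c.Lam)} {i j : ℕ} (h : ptr R i j) : ptr R j i := by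
  obtain ⟨x, hx, h | h⟩ := h
  · exact ⟨x, hx, Or.inr h⟩
  · exact ⟨x, hx, Or.inl h⟩

open Classical in
/-- labels of the partners of the item `q` in `R` -/
noncomputable def Lbl (ρ : ℕ → ℚ) (T : Finset ℕ) (R : Finset (X.c.Lam × X.c.Lam)) (q : ℕ) : Finset ℚ :=
  (T.filter fun j => ptr R q j).image ρ

open Classical in
/-- **ONE NODE, TWO LABELS WITH DENOMINATORS OF LARGE RATIO, ONE OF THE TWO PIECES LATE** -/
theorem node_diff {A δ : ℝ} (hA : 0 ≤ A) (hδ : 0 < δ) : ∃ Ce : ℝ, 1 ≤ Ce ∧ ∃ C : ℝ, 1 ≤ C ∧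
    ∀ (N : Skel189.Num), ∃ p₁ : ℕ, ∀ p0 ≥ p₁, ∀ (γ : ℝ) (P₀ : ℕ)
    (X : Ctx N γ p0 P₀) (s : NS) (t : IT) (P : ℕ) (ρ : ℕ → ℚ) (R : Finset (X.c.Lam × X.c.Lam)),
    MN X s t → p0 ≤ P → (∀ r : ℕ, r.Prime → r < s.n → r ≤ P) → ExO X s s t t R ρ ρ →
    (∀ x ∈ R, (3 + Real.log P) ^ Ce ≤ KK (ρ x.1.1.1) (ρ x.2.1.1)) →
    (∀ x ∈ R, KK (ρ x.1.1.1) (ρ x.2.1.1) ^ δ * (ρ x.1.1.1).den ≤ (ρ x.2.1.1).den ∨
      KK (ρ x.1.1.1) (ρ x.2.1.1) ^ δ * (ρ x.2.1.1).den ≤ (ρ x.1.1.1).den) →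
    (∀ x ∈ R, 1 ≤ KK (ρ x.1.1.1) (ρ x.2.1.1) ^ A * RB X s x.1.1.1 ∨
      1 ≤ KK (ρ x.1.1.1) (ρ x.2.1.1) ^ A * RB X s x.2.1.1) →
    ∑ q ∈ occ X t R, MI X s t q ≤ (3 + Real.log P) ^ A →
    Q R (vN X (.inl (s, t))) (vN X (.inl (s, t))) ≤
      C * (1 + Real.log P) *
        ∑ q ∈ occ X t R, (∑ r ∈ Lbl ρ (occ X t R) R q, KK (ρ q) r ^ (-(δ / 8) : ℝ)) * MI X s t q := by
  obtain ⟨C0, hC0, C1, hC1, late⟩ := GcdT37.late_min (A := (A + 1) / δ) (by positivity)
  have hCT := CT_pos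
  set Ce : ℝ := max (max (C0 / δ) ((2 * CT + 1) / δ)) (4 * CT + 1 + A) with hCe
  have hCe1 : C0 / δ ≤ Ce := (le_max_left _ _).trans (le_max_left _ _)
  have hCe3 : (2 * CT + 1) / δ ≤ Ce := (le_max_right _ _).trans (le_max_left _ _)
  have hCe2 : 4 * CT + 1 + A ≤ Ce := le_max_right _ _
  refine ⟨Ce, by linarith, 32 * CT * C1 + 1, by nlinarith, fun N => ?_⟩
  obtain ⟨p1, h1⟩ := lg_nd N
  refine ⟨p1 + 3, ?_⟩
  intro p0 hp0 γ P₀ X s t P ρ R h hP hl hE hden hrat hlate hmass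
  set f := vN X (.inl (s, t)) with hf
  have hlP : 0 ≤ Real.log (P : ℝ) := Real.log_natCast_nonneg P
  have hw1 : 1 ≤ 3 + Real.log (P : ℝ) := by linarith
  have hw0 : 0 < 3 + Real.log (P : ℝ) := by linarith
  set T := occ X t R with hT
  have hTi : ∀ q ∈ T, q ∈ t.items ∧ q ∈ X.S' ∧ ∃ x ∈ R, x.1.1.1 = q ∨ x.2.1.1 = q := by
    intro q hq
    rw [hT] at hq
    unfold occ at hq
    obtain ⟨a, b, c⟩ := Finset.mem_filter.1 hq
    exact ⟨a, b, c⟩
  have hRB : ∀ q, 0 ≤ RB X s q := RB_nn h.nd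
  have hlo : ∀ q ∈ T, RB X s q ≤ 4 * CT * Real.log P * MI X s t q := fun q hq =>
    h.lo P hP hl q (hTi q hq).2.1 (hTi q hq).1
  have hKs : ∀ r r' : ℚ, KK r r' = KK r' r := fun r r' => max_comm _ _
  -- properties of a pair
  set pr : ℚ → ℚ → Prop := fun r r' => (3 + Real.log P) ^ Ce ≤ KK r r' ∧
    (KK r r' ^ δ * r.den ≤ r'.den ∨ KK r r' ^ δ * r'.den ≤ r.den) with hpr
  have hprs : ∀ r r', pr r r' → pr r' r := fun r r' hh => by
    obtain ⟨a, b⟩ := hh
    refine ⟨by rw [hKs]; exact a, ?_⟩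
    rw [hKs]; exact b.symm
  -- the relation
  set Rl : ℚ → ℚ → ℕ → ℕ → Prop := fun r r' i j =>
    Co (((rd (i / s.A) (j / s.A)).2 : ℕ) * r) (((rd (i / s.A) (j / s.A)).1 : ℕ) * r') with hRl
  set mn : ℕ → ℕ → ℝ := fun i j => min (RB X s i / ((rd (i / s.A) (j / s.A)).1 : ℕ))
    (RB X s j / ((rd (i / s.A) (j / s.A)).2 : ℕ)) with hmn
  have hmn0 : ∀ i j, 0 ≤ mn i j := fun i j =>
    le_min (div_nonneg (hRB i) (Nat.cast_nonneg _)) (div_nonneg (hRB j) (Nat.cast_nonneg _))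
  have hsw : ∀ i j, rd (j / s.A) (i / s.A) = (rd (i / s.A) (j / s.A)).swap := fun i j =>
    GcdU37.rd_swap _ _
  have hmns : ∀ i j, mn i j = mn j i := by
    intro i j
    show min (RB X s i / ((rd (i / s.A) (j / s.A)).1 : ℕ)) (RB X s j / ((rd (i / s.A) (j / s.A)).2 : ℕ)) =
      min (RB X s j / ((rd (j / s.A) (i / s.A)).1 : ℕ)) (RB X s i / ((rd (j / s.A) (i / s.A)).2 : ℕ))
    rw [hsw i j]
    exact min_comm _ _
  have hRls : ∀ r r' i j, Rl r r' i j → Rl r' r j i := by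
    intro r r' i j hh
    show Co (((rd (j / s.A) (i / s.A)).2 : ℕ) * r') (((rd (j / s.A) (i / s.A)).1 : ℕ) * r)
    rw [hsw i j]
    exact ShR18.Co.symm hh
  set lt : ℚ → ℕ → Prop := fun r' i => 1 ≤ KK (ρ i) r' ^ A * RB X s i with hlt
  set g : ℕ → ℕ → ℝ := fun i j => ind (ptr R i j ∧ pr (ρ i) (ρ j) ∧ lt (ρ j) i ∧
    Rl (ρ i) (ρ j) i j) * mn i j with hg
  have hg0 : ∀ i j, 0 ≤ g i j := fun i j => mul_nonneg (ind_nn _) (hmn0 i j)
  -- step 1
  have step1 : Q R f f ≤ ∑ i ∈ T, ∑ j ∈ T, 2 * (g i j + g j i) := by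
    refine (node_off h.nd h.nd hE).trans ?_
    rw [← Finset.sum_product' (s := T) (t := T) (f := fun i j => 2 * (g i j + g j i))]
    refine le_trans (Finset.sum_le_sum fun e he => ?_)
      (Finset.sum_le_sum_of_subset_of_nonneg (s := (t.items ×ˢ t.items).filter
        (fun e => ∃ x ∈ R, it2 x = e ∧ ∃ y, f x.1 y * f x.2 y ≠ 0)) (t := T ×ˢ T) ?_
        fun e _ _ => mul_nonneg (by norm_num) (add_nonneg (hg0 _ _) (hg0 _ _)))
    · obtain ⟨-, x, hx, hie, y, hy⟩ := Finset.mem_filter.1 he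
      obtain ⟨i1, i2, i3, i4, hco⟩ := hE.co h.nd h.nd hx hy
      have e1 : x.1.1.1 = e.1 := (Prod.ext_iff.1 hie).1
      have e2 : x.2.1.1 = e.2 := (Prod.ext_iff.1 hie).2
      rw [hie, e1, e2] at hco
      have hD : D1 s s e = (rd (e.1 / s.A) (e.2 / s.A)).1 ∧
          D2 s s e = (rd (e.1 / s.A) (e.2 / s.A)).2 := by
        refine ⟨rfl, ?_⟩
        unfold D2 cof rd
        rw [Nat.gcd_comm]
      rw [hD.1, hD.2] at hco
      have hRe : Rl (ρ e.1) (ρ e.2) e.1 e.2 := hco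
      have hpe : pr (ρ e.1) (ρ e.2) := by
        have a := hden x hx
        have b := hrat x hx
        rw [e1, e2] at a b
        exact ⟨a, b⟩
      have hpt : ptr R e.1 e.2 := ⟨x, hx, Or.inl ⟨e1, e2⟩⟩
      have hov : ov X s s e = mn e.1 e.2 := by
        unfold ov
        rw [hD.1, hD.2]
      rw [hov]
      refine mul_le_mul_of_nonneg_left ?_ (by norm_num)
      have hla := hlate x hx
      rw [e1, e2] at hla
      rcases hla with hla | hla
      · have : g e.1 e.2 = mn e.1 e.2 := by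
          simp only [hg]
          rw [ind_t (⟨hpt, hpe, hla, hRe⟩ : ptr R e.1 e.2 ∧ pr (ρ e.1) (ρ e.2) ∧ lt (ρ e.2) e.1 ∧
            Rl (ρ e.1) (ρ e.2) e.1 e.2), one_mul]
        rw [← this]
        linarith [hg0 e.2 e.1]
      · have hla' : lt (ρ e.1) e.2 := by
          simp only [hlt]; rw [hKs]; exact hla
        have : g e.2 e.1 = mn e.1 e.2 := by
          simp only [hg]
          rw [ind_t (⟨hpt.symm, hprs _ _ hpe, hla', hRls _ _ _ _ hRe⟩ : ptr R e.2 e.1 ∧
            pr (ρ e.2) (ρ e.1) ∧ lt (ρ e.1) e.2 ∧ Rl (ρ e.2) (ρ e.1) e.2 e.1), one_mul, hmns]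
        rw [← this]
        linarith [hg0 e.1 e.2]
    · intro e he
      obtain ⟨he1, x, hx, hie, y, hy⟩ := Finset.mem_filter.1 he
      obtain ⟨i1, i2, i3, i4, -⟩ := hE.co h.nd h.nd hx hy
      have e1 : x.1.1.1 = e.1 := (Prod.ext_iff.1 hie).1
      have e2 : x.2.1.1 = e.2 := (Prod.ext_iff.1 hie).2
      refine Finset.mem_product.2 ⟨?_, ?_⟩
      · rw [hT]; unfold occ
        exact Finset.mem_filter.2 ⟨(Finset.mem_product.1 he1).1, by rw [← e1]; exact i3, x, hx, Or.inl e1⟩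
      · rw [hT]; unfold occ
        exact Finset.mem_filter.2 ⟨(Finset.mem_product.1 he1).2, by rw [← e2]; exact i4, x, hx, Or.inr e2⟩
  have step2 : ∑ i ∈ T, ∑ j ∈ T, 2 * (g i j + g j i) = 4 * ∑ i ∈ T, ∑ j ∈ T, g i j := by
    have e1 : ∑ i ∈ T, ∑ j ∈ T, g j i = ∑ i ∈ T, ∑ j ∈ T, g i j := Finset.sum_comm
    calc ∑ i ∈ T, ∑ j ∈ T, 2 * (g i j + g j i) =
        2 * (∑ i ∈ T, ∑ j ∈ T, g i j + ∑ i ∈ T, ∑ j ∈ T, g j i) := by
          rw [← Finset.sum_add_distrib, Finset.mul_sum]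
          refine Finset.sum_congr rfl fun i _ => ?_
          rw [← Finset.sum_add_distrib, Finset.mul_sum]
      _ = _ := by rw [e1]; ring
  -- the pieces of one pair of labels
  set Tr : ℚ → ℚ → Finset ℕ := fun r r' => T.filter fun i => ρ i = r ∧ r' ∈ Lbl ρ T R i with hTr
  have mTr : ∀ {r r' i}, i ∈ Tr r r' → i ∈ T ∧ ρ i = r ∧ r' ∈ Lbl ρ T R i := fun hi =>
    Finset.mem_filter.1 hi
  -- step 3 : one pair of labels
  have step3 : ∀ r r' : ℚ, pr r r' →
      ∑ i ∈ (Tr r r').filter (fun i => lt r' i), ∑ j ∈ Tr r' r, ind (Rl r r' i j) * mn i j ≤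
      C1 * KK r r' ^ (-(δ / 8) : ℝ) * (∑ q ∈ Tr r r', RB X s q + ∑ q ∈ Tr r' r, RB X s q) := by
    intro r r' hp
    obtain ⟨hk, hra⟩ := hp
    set K := KK r r' with hK
    have hK1 : 1 ≤ K := KK_one r r'
    have hK0 : 0 < K := by linarith
    set U : ℝ := K ^ δ with hU
    set Fr := (Tr r r').filter (fun i => lt r' i) with hFr
    have hUle : ∀ {c : ℝ}, c / δ ≤ Ce → (3 + Real.log (P : ℝ)) ^ c ≤ U := by
      intro c hc
      have h2 : ((3 + Real.log (P : ℝ)) ^ (c / δ)) ^ δ ≤ U :=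
        Real.rpow_le_rpow (by positivity)
          ((Real.rpow_le_rpow_of_exponent_le hw1 hc).trans hk) hδ.le
      rw [← Real.rpow_mul hw0.le] at h2
      have e1 : c / δ * δ = c := by field_simp
      rwa [e1] at h2
    have hkC0 : (3 + Real.log P) ^ C0 ≤ U := hUle hCe1
    have hkL : 2 * CT * Real.log P ≤ U := by
      calc 2 * CT * Real.log P ≤ (3 + Real.log (P : ℝ)) ^ (2 * CT) * (3 + Real.log (P : ℝ)) ^ (1 : ℝ) := by
            rw [Real.rpow_one]
            exact mul_le_mul const_pow (by linarith) hlP (by positivity)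
        _ = (3 + Real.log (P : ℝ)) ^ (2 * CT + 1) := (Real.rpow_add hw0 _ _).symm
        _ ≤ _ := hUle hCe3
    have hkM : 4 * CT * Real.log P * (3 + Real.log P) ^ A ≤ K := by
      calc 4 * CT * Real.log P * (3 + Real.log P) ^ A ≤
            (3 + Real.log (P : ℝ)) ^ (4 * CT) * (3 + Real.log (P : ℝ)) ^ (1 : ℝ) *
              (3 + Real.log P) ^ A := by
            rw [Real.rpow_one]
            exact mul_le_mul_of_nonneg_right (mul_le_mul const_pow (by linarith) hlP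
              (by positivity)) (by positivity)
        _ = (3 + Real.log (P : ℝ)) ^ (4 * CT + 1 + A) := by
            rw [← Real.rpow_add hw0, ← Real.rpow_add hw0]
        _ ≤ (3 + Real.log (P : ℝ)) ^ Ce := Real.rpow_le_rpow_of_exponent_le hw1 hCe2
        _ ≤ _ := hk
    have hFrT : ∀ q ∈ Fr, q ∈ T ∧ ρ q = r ∧ lt r' q := fun q hq =>
      ⟨(mTr (Finset.mem_filter.1 hq).1).1, (mTr (Finset.mem_filter.1 hq).1).2.1,
        (Finset.mem_filter.1 hq).2⟩
    have hcard : (Fr.card : ℝ) ≤ U ^ ((A + 1) / δ) := by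
      have hUA : U ^ ((A + 1) / δ) = K ^ (A + 1) := by
        rw [hU, ← Real.rpow_mul hK0.le]; congr 1; field_simp
      rw [hUA]
      have c1 : (Fr.card : ℝ) ≤ K ^ A * ∑ q ∈ Fr, RB X s q := by
        rw [Finset.mul_sum]
        have : (Fr.card : ℝ) = ∑ q ∈ Fr, (1:ℝ) := by simp
        rw [this]
        refine Finset.sum_le_sum fun q hq => ?_
        have := (hFrT q hq).2.2
        simp only [hlt] at this
        rwa [(hFrT q hq).2.1] at this
      have c2 : ∑ q ∈ Fr, RB X s q ≤ 4 * CT * Real.log P * (3 + Real.log P) ^ A := by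
        calc ∑ q ∈ Fr, RB X s q ≤ ∑ q ∈ T, RB X s q :=
              Finset.sum_le_sum_of_subset_of_nonneg (fun q hq => (hFrT q hq).1) fun q _ _ => hRB q
          _ ≤ ∑ q ∈ T, 4 * CT * Real.log P * MI X s t q := Finset.sum_le_sum fun q hq => hlo q hq
          _ = 4 * CT * Real.log P * ∑ q ∈ T, MI X s t q := by rw [Finset.mul_sum]
          _ ≤ _ := mul_le_mul_of_nonneg_left hmass (by positivity)
      calc (Fr.card : ℝ) ≤ K ^ A * ∑ q ∈ Fr, RB X s q := c1
        _ ≤ K ^ A * K := mul_le_mul_of_nonneg_left (c2.trans hkM) (by positivity)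
        _ = K ^ (A + 1) := by rw [Real.rpow_add hK0, Real.rpow_one]
    have key := late ℕ ℕ P U (fun z => Co ((z.2 : ℕ) * r) ((z.1 : ℕ) * r')) Fr (Tr r' r)
      (fun q => q / s.A) (fun q => q / s.A) (fun q => RB X s q)
      (fun q => RB X s q) (by omega) hkC0 hcard
      (fun z κ Q' hz hκ hq' => diff_pairs hκ hz (Real.one_le_rpow hK1 hδ.le) hra Q' fun t' ht' =>
        ⟨(hq' t' ht').1, (hq' t' ht').2.2⟩)
      (fun q hq => Nat.pos_of_ne_zero (h.nd.div_ne (hTi q (hFrT q hq).1).1))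
      (fun q hq => Nat.pos_of_ne_zero (h.nd.div_ne (hTi q (mTr hq).1).1))
      (fun q hq q' hq' he => div_inj h.nd (hTi q (hFrT q hq).1).1 (hTi q' (hFrT q' hq').1).1 he)
      (fun q hq q' hq' he => div_inj h.nd (hTi q (mTr hq).1).1 (hTi q' (mTr hq').1).1 he)
      (fun q _ => hRB q) (fun q _ => hRB q)
      (fun q hq z hz => by
        obtain ⟨g1, g2⟩ := h1 p0 (by omega) γ P₀ X s t h.nd P hP hl q (hTi q (hFrT q hq).1).2.1
          (hTi q (hFrT q hq).1).1
        refine (tail_nd h.nd hl (hTi q (hFrT q hq).1).1 g1 hz (g2 z hz)).trans ?_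
        exact mul_le_mul_of_nonneg_right hkL (by positivity))
    have hUe : U ^ (-(1 / 8) : ℝ) = K ^ (-(δ / 8) : ℝ) := by
      rw [hU, ← Real.rpow_mul hK0.le]; congr 1; ring
    rw [hUe] at key
    refine le_trans key ?_
    refine mul_le_mul_of_nonneg_left ?_ (by positivity)
    have c4 : ∑ q ∈ Fr, RB X s q ≤ ∑ q ∈ Tr r r', RB X s q :=
      Finset.sum_le_sum_of_subset_of_nonneg (Finset.filter_subset _ _) fun q _ _ => hRB q
    linarith
  -- the sum over the pairs of labels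
  set L := T.image ρ with hL
  set RT : ℕ → ℝ := fun q => ∑ r ∈ Lbl ρ T R q, KK (ρ q) r ^ (-(δ / 8) : ℝ) with hRT
  have hLL : ∀ q, Lbl ρ T R q ⊆ L := by
    intro q r hr
    obtain ⟨j, hj, rfl⟩ := Finset.mem_image.1 hr
    exact Finset.mem_image_of_mem _ (Finset.mem_filter.1 hj).1
  have step4 : ∑ i ∈ T, ∑ j ∈ T, g i j ≤ 2 * C1 * ∑ q ∈ T, RT q * RB X s q := by
    have a1 : ∑ i ∈ T, ∑ j ∈ T, g i j ≤ ∑ r ∈ L, ∑ r' ∈ L,
        C1 * KK r r' ^ (-(δ / 8) : ℝ) * (∑ q ∈ Tr r r', RB X s q + ∑ q ∈ Tr r' r, RB X s q) := by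
      rw [← Finset.sum_fiberwise_of_maps_to (s := T) (t := L) (g := ρ)
        (fun i hi => Finset.mem_image_of_mem _ hi) (fun i => ∑ j ∈ T, g i j)]
      refine Finset.sum_le_sum fun r hr => ?_
      have a2 : ∑ i ∈ T.filter (fun i => ρ i = r), ∑ j ∈ T, g i j = ∑ r' ∈ L,
          ∑ i ∈ T.filter (fun i => ρ i = r), ∑ j ∈ T.filter (fun j => ρ j = r'), g i j := by
        have a21 : ∑ i ∈ T.filter (fun i => ρ i = r), ∑ j ∈ T, g i j =
            ∑ i ∈ T.filter (fun i => ρ i = r), ∑ r' ∈ L, ∑ j ∈ T.filter (fun j => ρ j = r'), g i j :=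
          Finset.sum_congr rfl fun i hi => (Finset.sum_fiberwise_of_maps_to (s := T) (t := L) (g := ρ)
            (fun i hi => Finset.mem_image_of_mem ρ hi) (fun j : ℕ => g i j)).symm
        rw [a21]
        exact Finset.sum_comm
      rw [a2]
      refine Finset.sum_le_sum fun r' hr' => ?_
      by_cases hp : pr r r'
      · refine le_trans ?_ (step3 r r' hp)
        -- only the pieces of the two labels with partners
        have a3 : ∀ i ∈ T.filter (fun i => ρ i = r), ∑ j ∈ T.filter (fun j => ρ j = r'), g i j ≤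
            if i ∈ (Tr r r').filter (fun i => lt r' i) then
              ∑ j ∈ Tr r' r, ind (Rl r r' i j) * mn i j else 0 := by
          intro i hi
          obtain ⟨hiT, hir⟩ := Finset.mem_filter.1 hi
          have a4 : ∀ j ∈ T.filter (fun j => ρ j = r'), g i j ≠ 0 → i ∈ (Tr r r').filter (fun i => lt r' i) ∧
              j ∈ Tr r' r ∧ g i j ≤ ind (Rl r r' i j) * mn i j := by
            intro j hj hne
            obtain ⟨hjT, hjr⟩ := Finset.mem_filter.1 hj
            have hc : ptr R i j ∧ pr (ρ i) (ρ j) ∧ lt (ρ j) i ∧ Rl (ρ i) (ρ j) i j := by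
              by_contra hc
              apply hne
              simp only [hg]
              rw [ind_f hc, zero_mul]
            obtain ⟨c1, c2, c3, c4⟩ := hc
            rw [hjr] at c3
            rw [hir, hjr] at c4
            refine ⟨Finset.mem_filter.2 ⟨Finset.mem_filter.2 ⟨hiT, hir, ?_⟩, c3⟩,
              Finset.mem_filter.2 ⟨hjT, hjr, ?_⟩, ?_⟩
            · rw [← hjr]
              exact Finset.mem_image_of_mem _ (Finset.mem_filter.2 ⟨hjT, c1⟩)
            · rw [← hir]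
              exact Finset.mem_image_of_mem _ (Finset.mem_filter.2 ⟨hiT, c1.symm⟩)
            · rw [ind_t c4, one_mul]
              simp only [hg]
              exact mul_le_of_le_one_left (hmn0 _ _) (ind_le _)
          split_ifs with hi2
          · calc ∑ j ∈ T.filter (fun j => ρ j = r'), g i j ≤
                ∑ j ∈ T.filter (fun j => ρ j = r'), if j ∈ Tr r' r then
                  ind (Rl r r' i j) * mn i j else 0 := by
                  refine Finset.sum_le_sum fun j hj => ?_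
                  by_cases hz : g i j = 0
                  · rw [hz]
                    split_ifs
                    · exact mul_nonneg (ind_nn _) (hmn0 _ _)
                    · exact le_rfl
                  · obtain ⟨-, b2, b3⟩ := a4 j hj hz
                    rw [if_pos b2]; exact b3
              _ ≤ ∑ j ∈ Tr r' r, ind (Rl r r' i j) * mn i j := by
                  rw [← Finset.sum_filter]
                  refine Finset.sum_le_sum_of_subset_of_nonneg (fun j hj => (Finset.mem_filter.1 hj).2)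
                    fun j _ _ => mul_nonneg (ind_nn _) (hmn0 _ _)
          · refine le_of_eq (Finset.sum_eq_zero fun j hj => ?_)
            by_contra hz
            exact hi2 (a4 j hj hz).1
        calc _ ≤ ∑ i ∈ T.filter (fun i => ρ i = r), if i ∈ (Tr r r').filter (fun i => lt r' i) then
              ∑ j ∈ Tr r' r, ind (Rl r r' i j) * mn i j else 0 := Finset.sum_le_sum a3
          _ ≤ _ := by
              rw [← Finset.sum_filter]
              refine Finset.sum_le_sum_of_subset_of_nonneg (fun j hj => (Finset.mem_filter.1 hj).2)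
                fun j _ _ => Finset.sum_nonneg fun i _ => mul_nonneg (ind_nn _) (hmn0 _ _)
      · refine le_trans (le_of_eq (Finset.sum_eq_zero fun i hi => Finset.sum_eq_zero fun j hj => ?_)) ?_
        · simp only [hg]
          rw [ind_f, zero_mul]
          rintro ⟨-, c2, -⟩
          rw [(Finset.mem_filter.1 hi).2, (Finset.mem_filter.1 hj).2] at c2
          exact hp c2
        · have hK0 : 0 < KK r r' := by have := KK_one r r'; linarith
          have s1 : 0 ≤ ∑ q ∈ Tr r r', RB X s q := Finset.sum_nonneg fun q _ => hRB q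
          have s2 : 0 ≤ ∑ q ∈ Tr r' r, RB X s q := Finset.sum_nonneg fun q _ => hRB q
          positivity
    -- the sum of the charges
    have b1 : ∑ r ∈ L, ∑ r' ∈ L, KK r r' ^ (-(δ / 8) : ℝ) * ∑ q ∈ Tr r r', RB X s q =
        ∑ q ∈ T, RT q * RB X s q := by
      have b2 : ∀ r r' : ℚ, KK r r' ^ (-(δ / 8) : ℝ) * ∑ q ∈ Tr r r', RB X s q =
          ∑ q ∈ T.filter (fun q => ρ q = r), if r' ∈ Lbl ρ T R q then
            KK (ρ q) r' ^ (-(δ / 8) : ℝ) * RB X s q else 0 := by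
        intro r r'
        rw [Finset.mul_sum, ← Finset.sum_filter, Finset.filter_filter]
        refine Finset.sum_congr rfl fun q hq => ?_
        rw [(mTr hq).2.1]
      simp_rw [b2]
      rw [← Finset.sum_fiberwise_of_maps_to (s := T) (t := L) (g := ρ)
        (fun i hi => Finset.mem_image_of_mem _ hi) (fun q => RT q * RB X s q)]
      refine Finset.sum_congr rfl fun r hr => ?_
      rw [Finset.sum_comm]
      refine Finset.sum_congr rfl fun q hq => ?_
      rw [← Finset.sum_filter]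
      have e7 : RT q * RB X s q = ∑ r ∈ Lbl ρ T R q, KK (ρ q) r ^ (-(δ / 8) : ℝ) * RB X s q := by
        simp only [hRT]
        rw [Finset.sum_mul]
      rw [e7]
      refine Finset.sum_congr ?_ fun _ _ => rfl
      ext r'
      rw [Finset.mem_filter]
      exact ⟨fun hh => hh.2, fun hh => ⟨hLL q hh, hh⟩⟩
    have b3 : ∑ r ∈ L, ∑ r' ∈ L, KK r r' ^ (-(δ / 8) : ℝ) * ∑ q ∈ Tr r' r, RB X s q =
        ∑ q ∈ T, RT q * RB X s q := by
      rw [Finset.sum_comm, ← b1]
      refine Finset.sum_congr rfl fun r _ => Finset.sum_congr rfl fun r' _ => ?_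
      rw [hKs r' r]
    refine a1.trans (le_of_eq ?_)
    calc _ = ∑ r ∈ L, ∑ r' ∈ L, (C1 * (KK r r' ^ (-(δ / 8) : ℝ) * ∑ q ∈ Tr r r', RB X s q) +
          C1 * (KK r r' ^ (-(δ / 8) : ℝ) * ∑ q ∈ Tr r' r, RB X s q)) := by
          refine Finset.sum_congr rfl fun r _ => Finset.sum_congr rfl fun r' _ => ?_
          ring
      _ = C1 * (∑ r ∈ L, ∑ r' ∈ L, KK r r' ^ (-(δ / 8) : ℝ) * ∑ q ∈ Tr r r', RB X s q) +
          C1 * (∑ r ∈ L, ∑ r' ∈ L, KK r r' ^ (-(δ / 8) : ℝ) * ∑ q ∈ Tr r' r, RB X s q) := by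
          simp only [Finset.sum_add_distrib, Finset.mul_sum]
      _ = _ := by rw [b1, b3]; ring
  have hRT0 : ∀ q, 0 ≤ RT q := fun q => Finset.sum_nonneg fun r _ => by
    have := KK_one (ρ q) r
    positivity
  have step5 : ∑ q ∈ T, RT q * RB X s q ≤ 4 * CT * Real.log P * ∑ q ∈ T, RT q * MI X s t q := by
    rw [Finset.mul_sum]
    refine Finset.sum_le_sum fun q hq => ?_
    have := mul_le_mul_of_nonneg_left (hlo q hq) (hRT0 q)
    linarith
  set W := ∑ q ∈ T, RT q * MI X s t q with hW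
  have hW0 : 0 ≤ W := Finset.sum_nonneg fun q _ => mul_nonneg (hRT0 q) (MI_nonneg h.nd q)
  calc Q R f f ≤ ∑ i ∈ T, ∑ j ∈ T, 2 * (g i j + g j i) := step1
    _ = 4 * ∑ i ∈ T, ∑ j ∈ T, g i j := step2
    _ ≤ 4 * (2 * C1 * (4 * CT * Real.log P * W)) :=
        mul_le_mul_of_nonneg_left (step4.trans (mul_le_mul_of_nonneg_left step5 (by linarith)))
          (by norm_num)
    _ = 32 * CT * C1 * Real.log P * W := by ring
    _ ≤ (32 * CT * C1 + 1) * (1 + Real.log P) * W := by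
        refine mul_le_mul_of_nonneg_right ?_ hW0
        have h0 : 0 ≤ 32 * CT * C1 := by positivity
        nlinarith

end Crest.Agent.R4P.XmP37
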