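import Crest.Agent.R4P.XmO_37
import Crest.Agent.R4P.GcdV_37
import Crest.Agent.R4P.E3V_479

/-!
R4 (S0004) with powers, helper37: **energies of related pairs with a POINT** (`qe`, game labels of coarse
pieces), two nodes of one circle, many labels on both sides.

* `fam_pt_one`, `fam_pt` : two families (`Fam`), a relation at every point, exact or near centres;
* `ExP X s s' t t' R ρ ρ'` : exact centres at the points of the relation; `prs` : related pairs of items;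
  **`node_offP`** : `I (qe R (vN s) (vN s')) ≤ ∑_{prs} 2 ov`;
* **`node_lab`** : one of the two pieces late, one cofactor `≥ Z (ρ q) (ρ' r)` : rates
  `1 / Z + K^(-1/64)`, `K = KK (ρ q) (ρ' r)` (over `GcdV37.lab_min`); `sum_MI`, `mem_La`, `mem_Lb`.
-/

set_option autoImplicit false
set_option linter.unusedSectionVars false
set_option linter.unusedVariables false

open MeasureTheory Filter

namespace Crest.Agent.R4P.XmQ37

open Crest.Agent.R4.Tour104 Crest.Agent.R4.Tour758 Crest.Agent.R4.Avg758 Crest.Agent.R4.Clos758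
open Crest.Agent.R4.ClosL758 Crest.Agent.R4.ClosG758 Crest.Agent.R4.ClosR758
open Crest.Agent.R4.HVW560
open Crest.Agent.R4.Fam464 Crest.Agent.R4.Piece464
open Crest.Agent.R4P.Cnt588 Crest.Agent.R4P.Item758 Crest.Agent.R4P.AvgItem710
open Crest.Agent.R4P.Walk560 Crest.Agent.R4P.NodeG33
open Crest.Agent.R4P.Data758 Crest.Agent.R4P.Skel189
open Crest.Agent.R4P.Bld532 (NS All)
open Crest.Agent.R4P.Step588 (NDt CT CT_pos tot_ge totient_div_prod)
open Crest.Agent.R4.Soft104 (w)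
open Crest.Agent.R4P.SameIx30 Crest.Agent.R4P.GPair33
open Crest.Agent.R4P.ShR18 (Co)
open Crest.Agent.R4P.SpM18 Crest.Agent.R4P.XmE18 Crest.Agent.R4P.XmM18 Crest.Agent.R4P.XmG18
open Crest.Agent.R4P.GcdK37 (ind ind_t ind_f ind_nn ind_le)
open Crest.Agent.R4P.GcdS37 (rd)
open Crest.Agent.R4P.GcdU37 (Tl)
open Crest.Agent.R4P.XmN37 Crest.Agent.R4P.XmO37
open Crest.Agent.R4P.RtE28 (KK KK_one)
open Crest.Agent.R4P.GcdV37 hiding rt Lb
open Crest.Agent.R4P.E3V479 (qe)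
open Crest.Agent.R4P.DTp26 (MP)
open Crest.Agent.R4P


/-! ### families, relations with a point -/

section fam
open Crest.Agent.R4.PairC944 (cnt ctrs mem_ctrs Wt_cnt mnw_cnt_le)

/-- one side: relation with a point -/
theorem fam_pt_one {ι ι' : Type*} [DecidableEq ι] [DecidableEq ι'] {J : Finset ι} {J' : Finset ι'}
    {g : ι → ℝ → ℝ} {g' : ι' → ℝ → ℝ} {θ r θ' r' : ℝ} {w w' : ℕ} {α β : ι → ℝ} {α' β' : ι' → ℝ}
    {κ : ι → ℤ → ℝ} {κ' : ι' → ℤ → ℝ} (h : Fam J g θ r w α β κ)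
    (h' : Fam J' g' θ' r' w' α' β' κ') (hw : 0 < w) (hr : 0 < r) {c c' δ : ℝ} (hδ : 0 ≤ δ)
    {S : ℝ → ι → ι' → Prop} {f : ℝ → ℝ} (pf : PB f)
    (hf : ∀ y, ∃ P : Finset (ι × ι'), P ⊆ J ×ˢ J' ∧ (∀ e ∈ P, S y e.1 e.2) ∧
      f y ≤ ∑ e ∈ P, g e.1 y * g' e.2 y)
    (hrel : ∀ (y : ℝ) (j : ι) (i : ι'), j ∈ J → i ∈ J' → S y j i → ∀ (a a' : ℤ),
      α j ≤ w * y - θ - a → w * y - θ - a < β j →
      α' i ≤ w' * y - θ' - a' → w' * y - θ' - a' < β' i →
      |((a:ℝ) + c) * (cof w' w : ℕ) - (a' + c') * (cof w w' : ℕ)| ≤ δ) :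
    I f ≤ 2 * r / (cof w w' : ℕ) * (2 * δ + 1) := by
  classical
  set X := cof w w' with hXd
  set Y := cof w' w with hYd
  have hX : 0 < X := cof_pos (w' := w') hw
  have hX' : (0:ℝ) < X := by exact_mod_cast hX
  have hwg : w = w.gcd w' * X := (mul_cof).symm
  set κ₀ : ℝ := c * Y - c' * X with hκ
  have hWt : Wt w (cnt X Y κ₀ δ) := Wt_cnt hX hwg
  have key : ∀ y, f y ≤ pc θ (-r) r w (cnt X Y κ₀ δ) y := by
    intro y
    obtain ⟨P, hP, hS, hfy⟩ := hf y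
    refine hfy.trans ?_
    have hmem : ∀ e ∈ P, e.1 ∈ J ∧ e.2 ∈ J' := fun e he => Finset.mem_product.1 (hP he)
    set A : ι → Finset ℤ := fun j => Finset.Ioc ⌊(w : ℝ) * y - θ - β j⌋ ⌊(w : ℝ) * y - θ - α j⌋ with hA
    set A' : ι' → Finset ℤ := fun j => Finset.Ioc ⌊(w' : ℝ) * y - θ' - β' j⌋ ⌊(w' : ℝ) * y - θ' - α' j⌋
      with hA'
    have hg : ∀ j ∈ J, g j y ≤ ((A j).card : ℝ) := by
      intro j hj
      refine (h.le j hj y).trans ?_
      unfold pc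
      calc _ ≤ ∑ _a ∈ A j, (1 : ℝ) := Finset.sum_le_sum fun a _ => h.one j hj a
        _ = _ := by rw [Finset.sum_const, nsmul_eq_mul, mul_one]
    have hg' : ∀ j ∈ J', g' j y ≤ ((A' j).card : ℝ) := by
      intro j hj
      refine (h'.le j hj y).trans ?_
      unfold pc
      calc _ ≤ ∑ _a ∈ A' j, (1 : ℝ) := Finset.sum_le_sum fun a _ => h'.one j hj a
        _ = _ := by rw [Finset.sum_const, nsmul_eq_mul, mul_one]
    have s1 : ∑ e ∈ P, g e.1 y * g' e.2 y ≤ ∑ e ∈ P, ((A e.1 ×ˢ A' e.2).card : ℝ) := by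
      refine Finset.sum_le_sum fun e he => ?_
      rw [Finset.card_product]
      push_cast
      exact mul_le_mul (hg _ (hmem e he).1) (hg' _ (hmem e he).2)
        ((h'.pb _ (hmem e he).2).nonneg y) (Nat.cast_nonneg _)
    set U : Finset (ℤ × ℤ) := P.biUnion fun e => A e.1 ×ˢ A' e.2 with hU
    have s2 : ∑ e ∈ P, ((A e.1 ×ˢ A' e.2).card : ℝ) = (U.card : ℝ) := by
      rw [hU, Finset.card_biUnion]
      · push_cast; rfl
      · intro e he f hf hef
        show Disjoint (A e.1 ×ˢ A' e.2) (A f.1 ×ˢ A' f.2)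
        rw [Finset.disjoint_left]
        rintro ⟨a, a'⟩ h1 h2
        obtain ⟨a1, a2⟩ := Finset.mem_product.1 h1
        obtain ⟨b1, b2⟩ := Finset.mem_product.1 h2
        obtain ⟨a1l, a1r⟩ := mem_pw.1 a1
        obtain ⟨a2l, a2r⟩ := mem_pw.1 a2
        obtain ⟨b1l, b1r⟩ := mem_pw.1 b1
        obtain ⟨b2l, b2r⟩ := mem_pw.1 b2
        by_cases h3 : e.1 = f.1
        · have h4 : e.2 ≠ f.2 := fun h4 => hef (Prod.ext h3 h4)
          rcases h'.dj _ (hmem e he).2 _ (hmem f hf).2 h4 with k | k <;> linarith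
        · rcases h.dj _ (hmem e he).1 _ (hmem f hf).1 h3 with k | k <;> linarith
    -- the window of the item
    set B : Finset ℤ := Finset.Ioc ⌊(w : ℝ) * y - θ - r⌋ ⌊(w : ℝ) * y - θ - -r⌋ with hB
    have hUB : ∀ x ∈ U, x.1 ∈ B := by
      rintro ⟨a, a'⟩ hx
      obtain ⟨e, he, hx⟩ := Finset.mem_biUnion.1 hx
      obtain ⟨a1, -⟩ := Finset.mem_product.1 hx
      obtain ⟨l1, l2⟩ := mem_pw.1 a1
      rw [hB, mem_pw]
      exact ⟨(h.al _ (hmem e he).1).trans l1, l2.trans_le (h.be _ (hmem e he).1)⟩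
    have s3 : (U.card : ℝ) ≤ ∑ a ∈ B, cnt X Y κ₀ δ a := by
      rw [Finset.card_eq_sum_card_fiberwise (f := Prod.fst) (t := B) (fun x hx => hUB x hx)]
      push_cast
      refine Finset.sum_le_sum fun a _ => ?_
      unfold cnt
      refine Nat.cast_le.2 (Finset.card_le_card_of_injOn Prod.snd ?_ ?_)
      · rintro ⟨b, b'⟩ hx
        obtain ⟨hx1, hx2⟩ := Finset.mem_filter.1 (Finset.mem_coe.1 hx)
        have hba : b = a := hx2
        subst hba
        obtain ⟨e, he, hx⟩ := Finset.mem_biUnion.1 hx1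
        obtain ⟨a1, a2⟩ := Finset.mem_product.1 hx
        obtain ⟨l1, l2⟩ := mem_pw.1 a1
        obtain ⟨l3, l4⟩ := mem_pw.1 a2
        have hr := hrel y e.1 e.2 (hmem e he).1 (hmem e he).2 (hS e he) b b' l1 l2 l3 l4
        show b' ∈ ((ctrs X Y κ₀ δ b : Finset ℤ) : Set ℤ)
        rw [Finset.mem_coe, mem_ctrs hX]
        convert hr using 2
        rw [hκ]; ring
      · rintro ⟨b, b'⟩ hx ⟨d, d'⟩ hx' hbd
        have e2 := (Finset.mem_filter.1 (Finset.mem_coe.1 hx)).2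
        have e3 := (Finset.mem_filter.1 (Finset.mem_coe.1 hx')).2
        exact Prod.ext (e2.trans e3.symm) hbd
    exact s1.trans (s2.le.trans s3)
  calc I f ≤ I (pc θ (-r) r w (cnt X Y κ₀ δ)) :=
        I_mono pf.integrableOn (PB_pc hw hWt).integrableOn key
    _ = (r - -r) * mnw w (cnt X Y κ₀ δ) := I_pc (by linarith) hw hWt
    _ ≤ (r - -r) * ((2 * δ + 1) / X) :=
        mul_le_mul_of_nonneg_left (mnw_cnt_le hw hX (Crest.Agent.R4.HVW560.cof_coprime hw) hwg hδ) (by linarith)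
    _ = _ := by ring

/-- **two families, relation with a point** -/
theorem fam_pt {ι ι' : Type*} [DecidableEq ι] [DecidableEq ι'] {J : Finset ι} {J' : Finset ι'}
    {g : ι → ℝ → ℝ} {g' : ι' → ℝ → ℝ} {θ r θ' r' : ℝ} {w w' : ℕ} {α β : ι → ℝ} {α' β' : ι' → ℝ}
    {κ : ι → ℤ → ℝ} {κ' : ι' → ℤ → ℝ} (h : Fam J g θ r w α β κ)
    (h' : Fam J' g' θ' r' w' α' β' κ') (hw : 0 < w) (hw' : 0 < w') (hr : 0 < r) (hr' : 0 < r')
    {c c' δ : ℝ} (hδ : 0 ≤ δ)
    {S : ℝ → ι → ι' → Prop} {f : ℝ → ℝ} (pf : PB f)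
    (hf : ∀ y, ∃ P : Finset (ι × ι'), P ⊆ J ×ˢ J' ∧ (∀ e ∈ P, S y e.1 e.2) ∧
      f y ≤ ∑ e ∈ P, g e.1 y * g' e.2 y)
    (hrel : ∀ (y : ℝ) (j : ι) (i : ι'), j ∈ J → i ∈ J' → S y j i → ∀ (a a' : ℤ),
      α j ≤ w * y - θ - a → w * y - θ - a < β j →
      α' i ≤ w' * y - θ' - a' → w' * y - θ' - a' < β' i →
      |((a:ℝ) + c) * (cof w' w : ℕ) - (a' + c') * (cof w w' : ℕ)| ≤ δ) :
    I f ≤ 2 * min (r / (cof w w' : ℕ)) (r' / (cof w' w : ℕ)) * (2 * δ + 1) := by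
  classical
  have h1 := fam_pt_one h h' hw hr hδ pf hf hrel
  have h2 := fam_pt_one (c := c') (c' := c) (S := fun y i j => S y j i) h' h hw' hr' hδ pf
    (fun y => by
      obtain ⟨P, hP, hS, hfy⟩ := hf y
      refine ⟨P.map (Equiv.prodComm ι ι').toEmbedding, ?_, ?_, ?_⟩
      · intro e he
        obtain ⟨f, hf, rfl⟩ := Finset.mem_map.1 he
        have := Finset.mem_product.1 (hP hf)
        exact Finset.mem_product.2 ⟨this.2, this.1⟩
      · intro e he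
        obtain ⟨f, hf, rfl⟩ := Finset.mem_map.1 he
        exact hS f hf
      · refine hfy.trans (le_of_eq ?_)
        rw [Finset.sum_map]
        refine Finset.sum_congr rfl fun e _ => ?_
        show g e.1 y * g' e.2 y = g' e.2 y * g e.1 y
        ring)
    (fun y j i hj hi hs a a' l1 l2 l3 l4 => by
      rw [abs_sub_comm]
      exact hrel y i j hi hj hs a' a l3 l4 l1 l2)
  have hd : 0 ≤ 2 * δ + 1 := by linarith
  rcases le_total (r / ((cof w w' : ℕ) : ℝ)) (r' / ((cof w' w : ℕ) : ℝ)) with k | k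
  · rw [min_eq_left k]
    refine h1.trans (le_of_eq ?_)
    ring
  · rw [min_eq_right k]
    refine h2.trans (le_of_eq ?_)
    ring

end fam

/-! ### nodes -/

variable {N : Skel189.Num} {γ : ℝ} {p0 P₀ : ℕ} {X : Ctx N γ p0 P₀}

/-- **exact centres at the points of the relation** (offsets `ρ`, `ρ'` of the items) -/
def ExP (X : Ctx N γ p0 P₀) (s s' : NS) (t t' : IT) (R : ℝ → X.c.Lam → X.c.Lam → Prop)
    (ρ ρ' : ℕ → ℚ) : Prop :=
  ∀ (y : ℝ) (j i : X.c.Lam), R y j i → vN X (.inl (s, t)) j y ≠ 0 → vN X (.inl (s', t')) i y ≠ 0 →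
    ∀ a a' : ℤ, Tth X s j y a → Tth X s' i y a' →
    ((a : ℚ) + ρ j.1.1) * (i.1.1 / s'.A : ℕ) = (a' + ρ' i.1.1) * (j.1.1 / s.A : ℕ)

lemma ExP.mono {s s' : NS} {t t' : IT} {R R' : ℝ → X.c.Lam → X.c.Lam → Prop} {ρ ρ' : ℕ → ℚ}
    (h : ExP X s s' t t' R ρ ρ') (hs : ∀ y j i, vN X (.inl (s, t)) j y ≠ 0 →
      vN X (.inl (s', t')) i y ≠ 0 → R' y j i → R y j i) : ExP X s s' t t' R' ρ ρ' :=
  fun y j i hr h1 h2 => h y j i (hs y j i h1 h2 hr) h1 h2

open Classical in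
/-- the related pairs of items -/
noncomputable def prs (X : Ctx N γ p0 P₀) (s s' : NS) (t t' : IT)
    (R : ℝ → X.c.Lam → X.c.Lam → Prop) : Finset (ℕ × ℕ) :=
  (t.items ×ˢ t'.items).filter fun e => ∃ (j i : X.c.Lam) (y : ℝ), j.1.1 = e.1 ∧ i.1.1 = e.2 ∧
    R y j i ∧ vN X (.inl (s, t)) j y ≠ 0 ∧ vN X (.inl (s', t')) i y ≠ 0

lemma mem_prs {s s' : NS} {t t' : IT} {R : ℝ → X.c.Lam → X.c.Lam → Prop} {e : ℕ × ℕ} :
    e ∈ prs X s s' t t' R ↔ e.1 ∈ t.items ∧ e.2 ∈ t'.items ∧ ∃ (j i : X.c.Lam) (y : ℝ),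
      j.1.1 = e.1 ∧ i.1.1 = e.2 ∧ R y j i ∧ vN X (.inl (s, t)) j y ≠ 0 ∧
        vN X (.inl (s', t')) i y ≠ 0 := by
  classical
  unfold prs
  rw [Finset.mem_filter, Finset.mem_product, and_assoc]

lemma prs_alive {s s' : NS} {t t' : IT} (h : QX X s t) (h' : QX X s' t')
    {R : ℝ → X.c.Lam → X.c.Lam → Prop} {e : ℕ × ℕ} (he : e ∈ prs X s s' t t' R) :
    e.1 ∈ t.items ∧ e.1 ∈ X.S' ∧ e.2 ∈ t'.items ∧ e.2 ∈ X.S' := by
  obtain ⟨h1, h2, j, i, y, e1, e2, -, y1, y2⟩ := mem_prs.1 he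
  refine ⟨h1, ?_, h2, ?_⟩
  · rw [← e1]
    by_contra hn
    exact y1 (vN_dead h hn y)
  · rw [← e2]
    by_contra hn
    exact y2 (vN_dead h' hn y)

/-- the centres after division by the gcd -/
lemma ExP.red {s s' : NS} {t t' : IT} (h : QX X s t) {R : ℝ → X.c.Lam → X.c.Lam → Prop}
    {ρ ρ' : ℕ → ℚ} (hE : ExP X s s' t t' R ρ ρ') {y : ℝ} {j i : X.c.Lam} (hr : R y j i)
    (y1 : vN X (.inl (s, t)) j y ≠ 0) (y2 : vN X (.inl (s', t')) i y ≠ 0) {a a' : ℤ}
    (h1 : Tth X s j y a) (h2 : Tth X s' i y a') :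
    ((a : ℚ) + ρ j.1.1) * (D2 s s' (j.1.1, i.1.1) : ℕ) =
      (a' + ρ' i.1.1) * (D1 s s' (j.1.1, i.1.1) : ℕ) := by
  have k := hE y j i hr y1 y2 a a' h1 h2
  have i1 : j.1.1 ∈ t.items := by
    by_contra hn
    exact y1 (vN_out hn y)
  have hw : 0 < j.1.1 / s.A := Nat.pos_of_ne_zero (h.div_ne i1)
  have hg0 : (0 : ℚ) < ((j.1.1 / s.A).gcd (i.1.1 / s'.A) : ℕ) := by
    exact_mod_cast Nat.gcd_pos_of_pos_left _ hw
  have ew : ((j.1.1 / s.A : ℕ) : ℚ) = ((j.1.1 / s.A).gcd (i.1.1 / s'.A) : ℕ) *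
      (D1 s s' (j.1.1, i.1.1) : ℕ) := by
    exact_mod_cast (Crest.Agent.R4.AvgItem710.mul_cof).symm
  have ew' : ((i.1.1 / s'.A : ℕ) : ℚ) = ((j.1.1 / s.A).gcd (i.1.1 / s'.A) : ℕ) *
      (D2 s s' (j.1.1, i.1.1) : ℕ) := by
    exact_mod_cast (Crest.Agent.R4.AvgItem710.mul_cof').symm
  rw [ew, ew'] at k
  apply mul_left_cancel₀ hg0.ne'
  linear_combination k

/-- the congruence of a related pair of items -/
lemma ExP.co {s s' : NS} {t t' : IT} (h : QX X s t) (h' : QX X s' t')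
    {R : ℝ → X.c.Lam → X.c.Lam → Prop} {ρ ρ' : ℕ → ℚ} (hE : ExP X s s' t t' R ρ ρ') {e : ℕ × ℕ}
    (he : e ∈ prs X s s' t t' R) :
    Co ((D2 s s' e : ℕ) * ρ e.1) ((D1 s s' e : ℕ) * ρ' e.2) := by
  obtain ⟨h1, h2, j, i, y, e1, e2, hr, y1, y2⟩ := mem_prs.1 he
  obtain ⟨i1, a, l1⟩ := tooth h y1
  obtain ⟨i2, a', l2⟩ := tooth h' y2
  have k := hE.red h hr y1 y2 (a := a) (a' := a') l1 l2
  have ee : (j.1.1, i.1.1) = e := Prod.ext e1 e2
  rw [ee, e1, e2] at k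
  refine ⟨a' * (D1 s s' e : ℕ) - a * (D2 s s' e : ℕ), ?_⟩
  push_cast
  linear_combination k

open Classical in
/-- **energy of a pair of nodes, relation with a point, arbitrary offsets** -/
theorem node_offP {s s' : NS} {t t' : IT} (h : QX X s t) (h' : QX X s' t')
    {R : ℝ → X.c.Lam → X.c.Lam → Prop} (mR : ∀ j i, MP fun y => R y j i) {ρ ρ' : ℕ → ℚ}
    (hE : ExP X s s' t t' R ρ ρ') :
    I (qe R (vN X (.inl (s, t))) (vN X (.inl (s', t')))) ≤
      ∑ e ∈ prs X s s' t t' R, 2 * ov X s s' e := by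
  set V := vN X (.inl (s, t)) with hV
  set U := vN X (.inl (s', t')) with hU
  have pV : ∀ j, PB (V j) := PB_vN_inl h
  have pU : ∀ j, PB (U j) := PB_vN_inl h'
  set fe : ℕ × ℕ → ℝ → ℝ := fun e y => ∑ x ∈ (Finset.univ : Finset (X.c.Lam × X.c.Lam)).filter
    (fun x => it2 x = e), if R y x.1 x.2 then V x.1 y * U x.2 y else 0 with hfe
  have pfe : ∀ e, PB (fe e) := fun e => PB.sum _ fun x _ =>
    ModeG51.PB_ite (mR x.1 x.2).prop.1 (mR x.1 x.2).prop.2 ((pV x.1).mul (pU x.2)) (PB.const le_rfl)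
  have e1 : qe R V U = fun y => ∑ e ∈ (Finset.univ : Finset (X.c.Lam × X.c.Lam)).image it2, fe e y := by
    funext y
    unfold qe
    rw [← Finset.sum_product' (s := Finset.univ) (t := Finset.univ)
      (f := fun j i => if R y j i then V j y * U i y else 0), Finset.univ_product_univ]
    exact (Finset.sum_fiberwise_of_maps_to (s := Finset.univ) (t := Finset.univ.image it2)
      (g := it2) (fun x hx => Finset.mem_image_of_mem _ hx) _).symm
  rw [e1, I_sum _ fun e _ => (pfe e).integrableOn]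
  have hrr := (X.ok.rad X.Y).pos
  have hov : ∀ e : ℕ × ℕ, 0 ≤ 2 * ov X s s' e := by
    intro e
    have := hrr e.1
    have := hrr e.2
    have := h.B_pos
    have := h'.B_pos
    unfold ov RB
    refine mul_nonneg (by norm_num) (le_min ?_ ?_) <;> positivity
  have hz : ∀ e, e ∉ prs X s s' t t' R → I (fe e) = 0 := by
    intro e he
    have : fe e = fun _ => 0 := by
      funext y
      refine Finset.sum_eq_zero fun x hx => ?_
      have hie := (Finset.mem_filter.1 hx).2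
      split_ifs with hr
      · by_contra hne
        have y1 := left_ne_zero_of_mul hne
        have y2 := right_ne_zero_of_mul hne
        apply he
        rw [mem_prs]
        have e1 : x.1.1.1 = e.1 := (Prod.ext_iff.1 hie).1
        have e2 : x.2.1.1 = e.2 := (Prod.ext_iff.1 hie).2
        refine ⟨?_, ?_, x.1, x.2, y, e1, e2, hr, y1, y2⟩
        · by_contra hn
          exact y1 (vN_out (e1 ▸ hn) y)
        · by_contra hn
          exact y2 (vN_out (e2 ▸ hn) y)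
      · rfl
    rw [this]
    simp [I]
  have hle : ∀ e ∈ prs X s s' t t' R, I (fe e) ≤ 2 * ov X s s' e := by
    intro e he
    obtain ⟨i1, i2, -⟩ := mem_prs.1 he
    have w0 : 0 < e.1 / s.A := Nat.pos_of_ne_zero (h.div_ne i1)
    have w0' : 0 < e.2 / s'.A := Nat.pos_of_ne_zero (h'.div_ne i2)
    have r0 : 0 < (s.B : ℝ) / (1 : ℕ) * X.c.rr e.1 := by
      have := hrr e.1; have : 0 < (s.B : ℝ) := by exact_mod_cast h.B_pos
      positivity
    have r0' : 0 < (s'.B : ℝ) / (1 : ℕ) * X.c.rr e.2 := by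
      have := hrr e.2; have : 0 < (s'.B : ℝ) := by exact_mod_cast h'.B_pos
      positivity
    have key := fam_pt
      (fam_node (X.ok.rad X.Y) h.B_pos h.fit (wts_nd h X.Y) (one_dvd _) i1 Finset.univ)
      (fam_node (X.ok.rad X.Y) h'.B_pos h'.fit (wts_nd h' X.Y) (one_dvd _) i2 Finset.univ)
      w0 w0' r0 r0' (c := ((ρ e.1 : ℚ) : ℝ)) (c' := ((ρ' e.2 : ℚ) : ℝ)) (δ := 0) le_rfl
      (S := fun y j i => R y j i ∧ V j y ≠ 0 ∧ U i y ≠ 0) (pfe e) (fun y => by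
        refine ⟨(Finset.univ : Finset (X.c.Lam × X.c.Lam)).filter
          (fun x => it2 x = e ∧ R y x.1 x.2 ∧ V x.1 y ≠ 0 ∧ U x.2 y ≠ 0), ?_, ?_, ?_⟩
        · intro x hx
          have hie := (Finset.mem_filter.1 hx).2.1
          exact Finset.mem_product.2 ⟨Finset.mem_filter.2 ⟨Finset.mem_univ _, (Prod.ext_iff.1 hie).1⟩,
            Finset.mem_filter.2 ⟨Finset.mem_univ _, (Prod.ext_iff.1 hie).2⟩⟩
        · intro x hx
          exact (Finset.mem_filter.1 hx).2.2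
        · refine le_of_eq ?_
          simp only [hfe]
          rw [Finset.sum_filter, Finset.sum_filter]
          refine Finset.sum_congr rfl fun x _ => ?_
          by_cases c1 : it2 x = e
          · by_cases c2 : R y x.1 x.2
            · by_cases c3 : V x.1 y ≠ 0 ∧ U x.2 y ≠ 0
              · rw [if_pos c1, if_pos c2, if_pos ⟨c1, c2, c3⟩]
                rfl
              · rw [if_pos c1, if_pos c2, if_neg (fun hh => c3 hh.2.2)]
                by_contra hne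
                exact c3 ⟨left_ne_zero_of_mul hne, right_ne_zero_of_mul hne⟩
            · rw [if_pos c1, if_neg c2, if_neg (fun hh => c2 hh.2.1)]
          · rw [if_neg c1, if_neg (fun hh => c1 hh.1)])
      (fun y j i hj hi hs a a' l1 l2 l3 l4 => by
        have ej : j.1.1 = e.1 := (Finset.mem_filter.1 hj).2
        have ei : i.1.1 = e.2 := (Finset.mem_filter.1 hi).2
        have m1 : Tth X s j y a := by
          constructor
          · have := l1; simp at this; rw [← ej] at this; exact this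
          · have := l2; simp at this; rw [← ej] at this; exact this
        have m2 : Tth X s' i y a' := by
          constructor
          · have := l3; simp at this; rw [← ei] at this; exact this
          · have := l4; simp at this; rw [← ei] at this; exact this
        have k := hE.red h hs.1 hs.2.1 hs.2.2 m1 m2
        have ee : (j.1.1, i.1.1) = e := Prod.ext ej ei
        rw [ee, ej, ei] at k
        have k' : ((a : ℝ) + ((ρ e.1 : ℚ) : ℝ)) * (cof (e.2 / s'.A) (e.1 / s.A) : ℕ) =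
            (a' + ((ρ' e.2 : ℚ) : ℝ)) * (cof (e.1 / s.A) (e.2 / s'.A) : ℕ) := by
          exact_mod_cast k
        rw [k', sub_self, abs_zero])
    refine key.trans (le_of_eq ?_)
    unfold ov RB D1 D2
    simp
  calc ∑ e ∈ (Finset.univ : Finset (X.c.Lam × X.c.Lam)).image it2, I (fe e)
      = ∑ e ∈ ((Finset.univ : Finset (X.c.Lam × X.c.Lam)).image it2).filter
          (fun e => e ∈ prs X s s' t t' R), I (fe e) := by
        rw [Finset.sum_filter]
        refine Finset.sum_congr rfl fun e _ => ?_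
        split_ifs with he
        · rfl
        · exact hz e he
    _ ≤ ∑ e ∈ ((Finset.univ : Finset (X.c.Lam × X.c.Lam)).image it2).filter
          (fun e => e ∈ prs X s s' t t' R), 2 * ov X s s' e :=
        Finset.sum_le_sum fun e he => hle e (Finset.mem_filter.1 he).2
    _ ≤ _ := Finset.sum_le_sum_of_subset_of_nonneg (fun e he => (Finset.mem_filter.1 he).2)
        fun e _ _ => hov e

/-! ### late pairs of two nodes, many labels -/

lemma mem_La {ι κ : Type} {ρ' : κ → ℚ} {E : Finset (ι × κ)} {i : ι} {r : ℚ} :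
    r ∈ La ρ' E i ↔ ∃ x ∈ E, x.1 = i ∧ ρ' x.2 = r := by
  unfold La
  simp only [Finset.mem_image, Finset.mem_filter, and_assoc]

lemma mem_Lb {ι κ : Type} {ρ : ι → ℚ} {E : Finset (ι × κ)} {j : κ} {r : ℚ} :
    r ∈ GcdV37.Lb ρ E j ↔ ∃ x ∈ E, x.2 = j ∧ ρ x.1 = r := by
  unfold GcdV37.Lb
  simp only [Finset.mem_image, Finset.mem_filter, and_assoc]

/-- a sum over the items as a sum over the pieces -/
lemma sum_MI {s : NS} {t : IT} (T : Finset ℕ) (c : ℕ → ℝ) :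
    ∑ q ∈ T, c q * MI X s t q =
      ∑ j ∈ Finset.univ.filter (fun j : X.c.Lam => j.1.1 ∈ T), c j.1.1 * I (vN X (.inl (s, t)) j) := by
  classical
  rw [← Finset.sum_fiberwise_of_maps_to (s := Finset.univ.filter (fun j : X.c.Lam => j.1.1 ∈ T)) (t := T)
    (g := fun j => j.1.1) (fun j hj => (Finset.mem_filter.1 hj).2)]
  refine Finset.sum_congr rfl fun q hq => ?_
  unfold MI
  rw [Finset.mul_sum]
  refine Finset.sum_congr ?_ fun j hj => ?_
  · ext j
    simp only [Finset.mem_filter, Finset.mem_univ, true_and]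
    refine ⟨fun h => ⟨?_, h⟩, fun h => h.2⟩
    rw [h]; exact hq
  · rw [(Finset.mem_filter.1 hj).2]

open Classical in
/-- **LATE PAIRS OF TWO NODES OF ONE CIRCLE, MANY LABELS, RELATION WITH A POINT**: rates `rt Z r r'` -/
theorem node_lab {A : ℝ} (hA : 0 ≤ A) : ∃ Ce : ℝ, 1 ≤ Ce ∧ ∃ C : ℝ, 1 ≤ C ∧
    ∀ (N : Skel189.Num), ∃ p₁ : ℕ, ∀ p0 ≥ p₁, ∀ (γ : ℝ) (P₀ : ℕ)
    (X : Ctx N γ p0 P₀) (s s' : NS) (t t' : IT) (P : ℕ) (ρ ρ' : ℕ → ℚ) (Z : ℚ → ℚ → ℝ)
    (R : ℝ → X.c.Lam → X.c.Lam → Prop),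
    MN X s t → MN X s' t' → p0 ≤ P → (∀ r : ℕ, r.Prime → r < s.n → r ≤ P) →
    (∀ r : ℕ, r.Prime → r < s'.n → r ≤ P) → (∀ j i, MP fun y => R y j i) →
    ExP X s s' t t' R ρ ρ' →
    (∀ e ∈ prs X s s' t t' R, 0 < Z (ρ e.1) (ρ' e.2) ∧
      (Z (ρ e.1) (ρ' e.2) ≤ D1 s s' e ∨ Z (ρ e.1) (ρ' e.2) ≤ D2 s s' e)) →
    (∀ e ∈ prs X s s' t t' R, (3 + Real.log P) ^ Ce ≤ KK (ρ e.1) (ρ' e.2)) →
    (∀ e ∈ prs X s s' t t' R, 1 ≤ KK (ρ e.1) (ρ' e.2) ^ A * RB X s e.1 ∨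
      1 ≤ KK (ρ e.1) (ρ' e.2) ^ A * RB X s' e.2) →
    ∑ q ∈ (prs X s s' t t' R).image Prod.fst, MI X s t q ≤ (3 + Real.log P) ^ A →
    ∑ q ∈ (prs X s s' t t' R).image Prod.snd, MI X s' t' q ≤ (3 + Real.log P) ^ A →
    I (qe R (vN X (.inl (s, t))) (vN X (.inl (s', t')))) ≤ C * (1 + Real.log P) *
      (∑ q ∈ (prs X s s' t t' R).image Prod.fst,
        (∑ r ∈ La ρ' (prs X s s' t t' R) q, GcdV37.rt Z (ρ q) r) * MI X s t q +
       ∑ q ∈ (prs X s s' t t' R).image Prod.snd,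
        (∑ r ∈ GcdV37.Lb ρ (prs X s s' t t' R) q, GcdV37.rt Z r (ρ' q)) * MI X s' t' q) := by
  have hCT := CT_pos
  set A' : ℝ := A + 4 * CT + 1 with hA'
  obtain ⟨Ce, hCe, C1, hC1, key⟩ := lab_min (A := A') (by linarith)
  refine ⟨Ce, hCe, 8 * CT * C1 + 1, by nlinarith, fun N => ?_⟩
  obtain ⟨p1, h1⟩ := lg_nd N
  refine ⟨p1 + 3, ?_⟩
  intro p0 hp0 γ P₀ X s s' t t' P ρ ρ' Z R h h' hP hl hl' mR hE hZ hden hlate m1 m2
  set E := prs X s s' t t' R with hEd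
  have hlP : 0 ≤ Real.log (P : ℝ) := Real.log_natCast_nonneg P
  have hw1 : 1 ≤ 3 + Real.log (P : ℝ) := by linarith
  have hw0 : 0 < 3 + Real.log (P : ℝ) := by linarith
  have al : ∀ e ∈ E, e.1 ∈ t.items ∧ e.1 ∈ X.S' ∧ e.2 ∈ t'.items ∧ e.2 ∈ X.S' := fun e he =>
    prs_alive h.nd h'.nd he
  set F := E.image Prod.fst with hF
  set G := E.image Prod.snd with hG
  have hFi : ∀ q ∈ F, q ∈ t.items ∧ q ∈ X.S' := by
    intro q hq
    obtain ⟨e, he, rfl⟩ := Finset.mem_image.1 hq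
    exact ⟨(al e he).1, (al e he).2.1⟩
  have hGi : ∀ q ∈ G, q ∈ t'.items ∧ q ∈ X.S' := by
    intro q hq
    obtain ⟨e, he, rfl⟩ := Finset.mem_image.1 hq
    exact ⟨(al e he).2.2.1, (al e he).2.2.2⟩
  have hRB : ∀ q, 0 ≤ RB X s q := RB_nn h.nd
  have hRB' : ∀ q, 0 ≤ RB X s' q := RB_nn h'.nd
  have hlo : ∀ q ∈ F, RB X s q ≤ 4 * CT * Real.log P * MI X s t q := fun q hq =>
    h.lo P hP hl q (hFi q hq).2 (hFi q hq).1
  have hlo' : ∀ q ∈ G, RB X s' q ≤ 4 * CT * Real.log P * MI X s' t' q := fun q hq =>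
    h'.lo P hP hl' q (hGi q hq).2 (hGi q hq).1
  have hLM : 4 * CT * Real.log P * (3 + Real.log P) ^ A ≤ (3 + Real.log (P : ℝ)) ^ A' := by
    calc 4 * CT * Real.log P * (3 + Real.log P) ^ A ≤
          (3 + Real.log (P : ℝ)) ^ (4 * CT) * (3 + Real.log (P : ℝ)) ^ (1 : ℝ) *
            (3 + Real.log P) ^ A := by
          rw [Real.rpow_one]
          exact mul_le_mul_of_nonneg_right (mul_le_mul const_pow (by linarith) hlP
            (by positivity)) (by positivity)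
      _ = (3 + Real.log (P : ℝ)) ^ A' := by
          rw [← Real.rpow_add hw0, ← Real.rpow_add hw0]; congr 1; rw [hA']; ring
  have hLT : 2 * CT * Real.log P ≤ (3 + Real.log (P : ℝ)) ^ A' := by
    calc 2 * CT * Real.log P ≤ (3 + Real.log (P : ℝ)) ^ (2 * CT) * (3 + Real.log (P : ℝ)) ^ (1 : ℝ) := by
          rw [Real.rpow_one]
          exact mul_le_mul const_pow (by linarith) hlP (by positivity)
      _ = (3 + Real.log (P : ℝ)) ^ (2 * CT + 1) := (Real.rpow_add hw0 _ _).symm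
      _ ≤ _ := Real.rpow_le_rpow_of_exponent_le hw1 (by rw [hA']; linarith)
  have sF : ∑ q ∈ F, RB X s q ≤ (3 + Real.log (P : ℝ)) ^ A' := by
    calc ∑ q ∈ F, RB X s q ≤ ∑ q ∈ F, 4 * CT * Real.log P * MI X s t q := Finset.sum_le_sum hlo
      _ = 4 * CT * Real.log P * ∑ q ∈ F, MI X s t q := by rw [Finset.mul_sum]
      _ ≤ _ := (mul_le_mul_of_nonneg_left m1 (by positivity)).trans hLM
  have sG : ∑ q ∈ G, RB X s' q ≤ (3 + Real.log (P : ℝ)) ^ A' := by
    calc ∑ q ∈ G, RB X s' q ≤ ∑ q ∈ G, 4 * CT * Real.log P * MI X s' t' q := Finset.sum_le_sum hlo'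
      _ = 4 * CT * Real.log P * ∑ q ∈ G, MI X s' t' q := by rw [Finset.mul_sum]
      _ ≤ _ := (mul_le_mul_of_nonneg_left m2 (by positivity)).trans hLM
  have hD : ∀ e : ℕ × ℕ, D1 s s' e = (rd (e.1 / s.A) (e.2 / s'.A)).1 ∧
      D2 s s' e = (rd (e.1 / s.A) (e.2 / s'.A)).2 := by
    intro e
    refine ⟨rfl, ?_⟩
    unfold D2 cof rd
    rw [Nat.gcd_comm]
  have k := key ℕ ℕ P F G (fun q => q / s.A) (fun q => q / s'.A) (fun q => RB X s q)
    (fun q => RB X s' q) ρ ρ' Z E (by omega)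
    ⟨fun q hq => Nat.pos_of_ne_zero (h.nd.div_ne (hFi q hq).1),
      fun q hq => Nat.pos_of_ne_zero (h'.nd.div_ne (hGi q hq).1),
      fun q hq q' hq' he => div_inj h.nd (hFi q hq).1 (hFi q' hq').1 he,
      fun q hq q' hq' he => div_inj h'.nd (hGi q hq).1 (hGi q' hq').1 he,
      fun q _ => hRB q, fun q _ => hRB' q⟩
    (fun e he => Finset.mem_product.2 ⟨Finset.mem_image_of_mem _ he, Finset.mem_image_of_mem _ he⟩)
    (fun e he => by
      have := hE.co h.nd h'.nd he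
      rwa [(hD e).1, (hD e).2] at this)
    (fun e he => by
      have := hZ e he
      rwa [(hD e).1, (hD e).2] at this)
    hden (fun e he => by
      have hK1 := KK_one (ρ e.1) (ρ' e.2)
      have hK : KK (ρ e.1) (ρ' e.2) ^ A ≤ KK (ρ e.1) (ρ' e.2) ^ A' :=
        Real.rpow_le_rpow_of_exponent_le hK1 (by rw [hA']; linarith)
      rcases hlate e he with hl | hl
      · exact Or.inl (hl.trans (mul_le_mul_of_nonneg_right hK (hRB _)))
      · exact Or.inr (hl.trans (mul_le_mul_of_nonneg_right hK (hRB' _))))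
    (fun q hq z hz => by
      obtain ⟨g1, g2⟩ := h1 p0 (by omega) γ P₀ X s t h.nd P hP hl q (hFi q hq).2 (hFi q hq).1
      exact (tail_nd h.nd hl (hFi q hq).1 g1 hz (g2 z hz)).trans
        (mul_le_mul_of_nonneg_right hLT (by positivity)))
    (fun q hq z hz => by
      obtain ⟨g1, g2⟩ := h1 p0 (by omega) γ P₀ X s' t' h'.nd P hP hl' q (hGi q hq).2 (hGi q hq).1
      exact (tail_nd h'.nd hl' (hGi q hq).1 g1 hz (g2 z hz)).trans
        (mul_le_mul_of_nonneg_right hLT (by positivity)))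
    sF sG
  have hov : ∀ e : ℕ × ℕ, ov X s s' e = min (RB X s e.1 / ((rd (e.1 / s.A) (e.2 / s'.A)).1 : ℕ))
      (RB X s' e.2 / ((rd (e.1 / s.A) (e.2 / s'.A)).2 : ℕ)) := by
    intro e
    unfold ov
    rw [(hD e).1, (hD e).2]
  have s1 : ∑ e ∈ E, 2 * ov X s s' e = 2 * ∑ e ∈ E, min (RB X s e.1 / ((rd (e.1 / s.A) (e.2 / s'.A)).1 : ℕ))
      (RB X s' e.2 / ((rd (e.1 / s.A) (e.2 / s'.A)).2 : ℕ)) := by
    rw [Finset.mul_sum]
    exact Finset.sum_congr rfl fun e _ => by rw [hov e]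
  have hrt : ∀ e ∈ E, 0 ≤ GcdV37.rt Z (ρ e.1) (ρ' e.2) := by
    intro e he
    have a := (hZ e he).1
    have b : 0 < KK (ρ e.1) (ρ' e.2) := by have := KK_one (ρ e.1) (ρ' e.2); linarith
    unfold GcdV37.rt
    positivity
  have w1 : ∀ q, 0 ≤ ∑ r ∈ La ρ' E q, GcdV37.rt Z (ρ q) r := by
    intro q
    refine Finset.sum_nonneg fun r hr => ?_
    obtain ⟨e, a, b, rfl⟩ := mem_La.1 hr
    have := hrt e a
    rwa [b] at this
  have w2 : ∀ q, 0 ≤ ∑ r ∈ GcdV37.Lb ρ E q, GcdV37.rt Z r (ρ' q) := by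
    intro q
    refine Finset.sum_nonneg fun r hr => ?_
    obtain ⟨e, a, b, rfl⟩ := mem_Lb.1 hr
    have := hrt e a
    rwa [b] at this
  set W1 := ∑ q ∈ F, (∑ r ∈ La ρ' E q, GcdV37.rt Z (ρ q) r) * MI X s t q with hW1
  set W2 := ∑ q ∈ G, (∑ r ∈ GcdV37.Lb ρ E q, GcdV37.rt Z r (ρ' q)) * MI X s' t' q with hW2
  have q1 : ∑ q ∈ F, (∑ r ∈ La ρ' E q, GcdV37.rt Z (ρ q) r) * RB X s q ≤ 4 * CT * Real.log P * W1 := by
    rw [hW1, Finset.mul_sum]
    refine Finset.sum_le_sum fun q hq => ?_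
    have := mul_le_mul_of_nonneg_left (hlo q hq) (w1 q)
    linarith
  have q2 : ∑ q ∈ G, (∑ r ∈ GcdV37.Lb ρ E q, GcdV37.rt Z r (ρ' q)) * RB X s' q ≤ 4 * CT * Real.log P * W2 := by
    rw [hW2, Finset.mul_sum]
    refine Finset.sum_le_sum fun q hq => ?_
    have := mul_le_mul_of_nonneg_left (hlo' q hq) (w2 q)
    linarith
  have W10 : 0 ≤ W1 := Finset.sum_nonneg fun q _ => mul_nonneg (w1 q) (MI_nonneg h.nd q)
  have W20 : 0 ≤ W2 := Finset.sum_nonneg fun q _ => mul_nonneg (w2 q) (MI_nonneg h'.nd q)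
  calc I (qe R (vN X (.inl (s, t))) (vN X (.inl (s', t')))) ≤ ∑ e ∈ E, 2 * ov X s s' e :=
        node_offP h.nd h'.nd mR hE
    _ ≤ 2 * (C1 * (4 * CT * Real.log P * W1 + 4 * CT * Real.log P * W2)) := by
        rw [s1]
        refine mul_le_mul_of_nonneg_left (k.trans ?_) (by norm_num)
        exact mul_le_mul_of_nonneg_left (add_le_add q1 q2) (by linarith)
    _ = 8 * CT * C1 * Real.log P * (W1 + W2) := by ring
    _ ≤ (8 * CT * C1 + 1) * (1 + Real.log P) * (W1 + W2) := by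
        refine mul_le_mul_of_nonneg_right ?_ (add_nonneg W10 W20)
        have h0 : 0 ≤ 8 * CT * C1 := by positivity
        nlinarith

end Crest.Agent.R4P.XmQ37
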