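import Crest.Agent.R4P.RtN_28
import Crest.Agent.R4P.XmG_18

/-!
R4 (S0004) with powers, helper493: **unlabelled pairs of two nodes** (E3, direct part), abstract form.

Two families with offsets `θ`, `θ'` on one circle, both WITHOUT labels (`¬ Lab θ R ρ`, any radii, no
count), near relation of width `η D`, `K min (R, R') ≤ D` (a cofactor `≥ K` or a radius ratio `≥ K`).
* `fat_of`, `fat_den`, `fat_uniq` : a label at the radius `η R` which is no label at `R` is fat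
  (`R > 1 / (10 k⁵)`) and unique;
* **`fat_sum`** : the fat pairs (exact relation of one pair of labels `ρ`, `ρ'`);
* **`inUU3`** : the energy of all the pairs;
* **`xuR`** (with a rate `(log p)^(-s)`, `K ≥ (log p)^a`), **`xuR'`** (item coordinates).
-/

set_option autoImplicit false
set_option linter.unusedSectionVars false
set_option linter.unusedVariables false
open Finset

namespace Crest.Agent.R4P.XmU493

open Crest.Agent.R4.HVW560 Crest.Agent.R4.HVWX793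
open Crest.Agent.R4.StopAsm709 Crest.Agent.R4.StopHvw709
open Crest.Agent.R4.Schur709
open Crest.Agent.R4.ClsS (eps1)
open Crest.Agent.R4.LF363 (Lab)
open Crest.Agent.R4.LF11 (DD ew)
open Crest.Agent.R4.InX944
open Crest.Agent.R4P.ShR18 (Co)
open Crest.Agent.R4P.GcdK37 (ind ind_t ind_f ind_nn ind_le)
open Crest.Agent.R4

/-! ### fat pairs -/

/-- a label at the radius `η R` which is no label at the radius `R` : the radius is fat -/
lemma fat_of {η R θ : ℝ} {ρ : ℚ} (hη : 0 < η) (hη1 : η ≤ 1) (hR : 0 < R) (h : Lab θ (η * R) ρ)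
    (hno : ¬ Lab θ R ρ) : 1 < 10 * (ρ.den:ℝ)^5 * R := by
  by_contra hc
  push Not at hc
  apply hno
  have hd1 : (1:ℝ) ≤ ρ.den := by exact_mod_cast ρ.pos
  have hd5 : (1:ℝ) ≤ (ρ.den:ℝ)^5 := one_le_pow₀ hd1
  have h2 : |θ - ρ| ^ 5 ≤ (η * R) ^ 4 := h.near
  refine ⟨hR, ?_, ?_, ?_⟩
  · nlinarith
  · nlinarith
  · refine h2.trans (pow_le_pow_left₀ (by positivity) ?_ 4)
    nlinarith

/-- the denominator of a fat label -/
lemma fat_den {η R t : ℝ} {k : ℕ} (hk : 1 ≤ k) (hη : 0 < η) (hη1 : η ≤ 1) (hR : 0 < R) (ht : 0 < t)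
    (hkt : (k:ℝ) ≤ t^(21/200:ℝ)) (htR : η * R ≤ 1 / t) (hf : 1 < 10 * (k:ℝ)^5 * R) :
    (k:ℝ) ≤ (10 / η)^(1/4:ℝ) := by
  have hk1 : (1:ℝ) ≤ k := by exact_mod_cast hk
  have hk0 : (0:ℝ) < k := by linarith
  set x : ℝ := 10 / η with hx
  have hx1 : 1 ≤ x := by rw [hx, le_div_iff₀ hη]; linarith
  have hx0 : 0 < x := by linarith
  have h1 : t ≤ x * (k:ℝ)^5 := by
    rw [le_div_iff₀ ht] at htR
    have h2 : t * (η * R) ≤ 1 := by linarith
    have h3 : x * η = 10 := by rw [hx]; field_simp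
    -- `t η R ≤ 1 < 10 k^5 R = x η k^5 R`
    have h4 : t * (η * R) < x * (k:ℝ)^5 * (η * R) := by
      calc t * (η * R) ≤ 1 := h2
        _ < 10 * (k:ℝ)^5 * R := hf
        _ = x * η * (k:ℝ)^5 * R := by rw [h3]
        _ = _ := by ring
    exact (lt_of_mul_lt_mul_right h4 (by positivity)).le
  have h2 : (k:ℝ) ≤ x^(21/200:ℝ) * (k:ℝ)^(105/200:ℝ) := by
    calc (k:ℝ) ≤ t^(21/200:ℝ) := hkt
      _ ≤ (x * (k:ℝ)^5)^(21/200:ℝ) := Real.rpow_le_rpow ht.le h1 (by norm_num)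
      _ = x^(21/200:ℝ) * (k:ℝ)^(105/200:ℝ) := by
          rw [Real.mul_rpow hx0.le (by positivity), ← Real.rpow_natCast (k:ℝ) 5,
            ← Real.rpow_mul hk0.le]
          norm_num
  have h3 : (k:ℝ)^(95/200:ℝ) ≤ x^(21/200:ℝ) := by
    have e : (k:ℝ) = (k:ℝ)^(95/200:ℝ) * (k:ℝ)^(105/200:ℝ) := by
      rw [← Real.rpow_add hk0]; norm_num
    have h4 : (k:ℝ)^(95/200:ℝ) * (k:ℝ)^(105/200:ℝ) ≤ x^(21/200:ℝ) * (k:ℝ)^(105/200:ℝ) := by
      rw [← e]; exact h2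
    exact le_of_mul_le_mul_right h4 (by positivity)
  calc (k:ℝ) = ((k:ℝ)^(95/200:ℝ))^(200/95:ℝ) := by
        rw [← Real.rpow_mul hk0.le]; norm_num
    _ ≤ (x^(21/200:ℝ))^(200/95:ℝ) := Real.rpow_le_rpow (by positivity) h3 (by norm_num)
    _ = x^(21/95:ℝ) := by rw [← Real.rpow_mul hx0.le]; norm_num
    _ ≤ x^(1/4:ℝ) := Real.rpow_le_rpow_of_exponent_le hx1 (by norm_num)

/-- **one fat label only** -/
lemma fat_uniq {η T θ R R₁ : ℝ} {ρ ρ₁ : ℚ} (hη : 0 < η) (hη1 : η ≤ 1) (hT : 1 ≤ T)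
    (hu : 8 * T * η^(3/10:ℝ) < 1) (h : Lab θ (η * R) ρ) (h₁ : Lab θ (η * R₁) ρ₁)
    (hR : 0 < R) (hR₁ : 0 < R₁)
    (hRT : R ≤ T) (hRT₁ : R₁ ≤ T) (hd : (ρ.den:ℝ) ≤ (10 / η)^(1/4:ℝ))
    (hd₁ : (ρ₁.den:ℝ) ≤ (10 / η)^(1/4:ℝ)) : ρ = ρ₁ := by
  have key : ∀ {R : ℝ} {ρ : ℚ}, 0 < R → R ≤ T → Lab θ (η * R) ρ → |θ - ρ| ≤ T * η^(4/5:ℝ) := by
    intro R ρ hR hRT h
    have h2 : |θ - ρ| ^ 5 ≤ (η * R) ^ 4 := h.near
    have h3 : (η * R) ^ 4 ≤ (T * η^(4/5:ℝ))^5 := by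
      have e1 : (η^(4/5:ℝ))^5 = η^4 := by
        rw [← Real.rpow_natCast (η^(4/5:ℝ)) 5, ← Real.rpow_mul hη.le, ← Real.rpow_natCast η 4]
        norm_num
      rw [mul_pow, mul_pow, e1, mul_comm]
      refine mul_le_mul_of_nonneg_right ?_ (by positivity)
      calc R^4 ≤ T^4 := pow_le_pow_left₀ hR.le hRT 4
        _ ≤ T^5 := pow_le_pow_right₀ hT (by norm_num)
    exact le_of_pow_le_pow_left₀ (by norm_num) (by positivity) (h2.trans h3)
  have k1 := key hR hRT h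
  have k2 := key hR₁ hRT₁ h₁
  by_contra hne
  have hd0 : (0:ℝ) < ρ.den := by exact_mod_cast ρ.pos
  have hd0₁ : (0:ℝ) < ρ₁.den := by exact_mod_cast ρ₁.pos
  have h5 : |(ρ:ℝ) - ρ₁| ≤ 2 * T * η^(4/5:ℝ) := by
    have : (ρ:ℝ) - ρ₁ = (θ - ρ₁) - (θ - ρ) := by ring
    rw [this]
    have := abs_sub (θ - ρ₁) (θ - ρ)
    linarith
  -- `|ρ - ρ₁| ≥ 1 / (den den)`
  have h6 : 1 ≤ |(ρ:ℝ) - ρ₁| * (ρ.den * ρ₁.den) := by
    have e : ((ρ:ℝ) - ρ₁) * (ρ.den * ρ₁.den) = ((ρ.num * ρ₁.den - ρ₁.num * ρ.den : ℤ) : ℝ) := by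
      have a1 : (ρ:ℝ) * ρ.den = ρ.num := by exact_mod_cast Rat.mul_den_eq_num ρ
      have a2 : (ρ₁:ℝ) * ρ₁.den = ρ₁.num := by exact_mod_cast Rat.mul_den_eq_num ρ₁
      push_cast
      rw [← a1, ← a2]; ring
    have h7 : (ρ.num * ρ₁.den - ρ₁.num * ρ.den : ℤ) ≠ 0 := by
      intro h0
      apply hne
      have h8 : ((ρ:ℝ) - ρ₁) * (ρ.den * ρ₁.den) = 0 := by rw [e, h0]; simp
      have h9 : (ρ:ℝ) - ρ₁ = 0 := by
        rcases mul_eq_zero.1 h8 with h | h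
        · exact h
        · exfalso
          have : (0:ℝ) < ρ.den * ρ₁.den := mul_pos hd0 hd0₁
          linarith
      exact_mod_cast sub_eq_zero.1 h9
    have h8 : (1:ℝ) ≤ |((ρ.num * ρ₁.den - ρ₁.num * ρ.den : ℤ) : ℝ)| := by
      rw [← Int.cast_abs]; exact_mod_cast Int.one_le_abs h7
    rw [← e, abs_mul, abs_of_pos (mul_pos hd0 hd0₁)] at h8
    exact h8
  set x : ℝ := 10 / η with hx
  have hx0 : 0 < x := by positivity
  have h7 : (ρ.den:ℝ) * ρ₁.den ≤ x^(1/2:ℝ) := by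
    calc (ρ.den:ℝ) * ρ₁.den ≤ x^(1/4:ℝ) * x^(1/4:ℝ) := mul_le_mul hd hd₁ hd0₁.le (by positivity)
      _ = x^(1/2:ℝ) := by rw [← Real.rpow_add hx0]; norm_num
  have h8 : x^(1/2:ℝ) ≤ 4 * η^(-(1/2):ℝ) := by
    rw [hx, Real.div_rpow (by norm_num) hη.le, Real.rpow_neg hη.le, div_eq_mul_inv]
    refine mul_le_mul_of_nonneg_right ?_ (by positivity)
    rw [← Real.sqrt_eq_rpow]
    rw [Real.sqrt_le_left (by norm_num)]
    norm_num
  have h9 : 1 ≤ 2 * T * η^(4/5:ℝ) * (4 * η^(-(1/2):ℝ)) := by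
    calc (1:ℝ) ≤ |(ρ:ℝ) - ρ₁| * (ρ.den * ρ₁.den) := h6
      _ ≤ (2 * T * η^(4/5:ℝ)) * (4 * η^(-(1/2):ℝ)) :=
          mul_le_mul h5 (h7.trans h8) (by positivity) (by positivity)
  have e2 : 2 * T * η^(4/5:ℝ) * (4 * η^(-(1/2):ℝ)) = 8 * T * η^(3/10:ℝ) := by
    have : η^(3/10:ℝ) = η^(4/5:ℝ) * η^(-(1/2):ℝ) := by rw [← Real.rpow_add hη]; norm_num
    rw [this]; ring
  rw [e2] at h9
  linarith

/-! ### sums over pairs -/

open Classical in
/-- pairs with every item at most once on each side -/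
lemma inj_sum {S S' : Finset ℕ} {E : Finset (ℕ × ℕ)} {R R' : ℕ → ℝ} (hES : E ⊆ S ×ˢ S')
    (hR : ∀ w ∈ S, 0 ≤ R w) (hR' : ∀ w ∈ S', 0 ≤ R' w)
    (h1 : Set.InjOn Prod.fst (E : Set (ℕ × ℕ))) (h2 : Set.InjOn Prod.snd (E : Set (ℕ × ℕ))) :
    ∑ e ∈ E, (R e.1 + R' e.2) ≤ ∑ w ∈ S, R w + ∑ w ∈ S', R' w := by
  rw [Finset.sum_add_distrib]
  refine add_le_add ?_ ?_
  · rw [← Finset.sum_image (f := R) h1]
    refine Finset.sum_le_sum_of_subset_of_nonneg ?_ fun w hw _ => hR w hw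
    intro w hw
    obtain ⟨e, he, rfl⟩ := Finset.mem_image.1 hw
    exact (Finset.mem_product.1 (hES he)).1
  · rw [← Finset.sum_image (f := R') h2]
    refine Finset.sum_le_sum_of_subset_of_nonneg ?_ fun w hw _ => hR' w hw
    intro w hw
    obtain ⟨e, he, rfl⟩ := Finset.mem_image.1 hw
    exact (Finset.mem_product.1 (hES he)).2

open Classical in
/-- few items on both sides -/
lemma card_sum {S S' : Finset ℕ} {E : Finset (ℕ × ℕ)} {R R' : ℕ → ℝ} {c : ℝ} (hES : E ⊆ S ×ˢ S')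
    (hR : ∀ w ∈ S, 0 ≤ R w) (hR' : ∀ w ∈ S', 0 ≤ R' w)
    (h1 : ((E.image Prod.fst).card : ℝ) ≤ c) (h2 : ((E.image Prod.snd).card : ℝ) ≤ c) :
    ∑ e ∈ E, (R e.1 + R' e.2) ≤ c * (∑ w ∈ S, R w + ∑ w ∈ S', R' w) := by
  have hs1 : E.image Prod.fst ⊆ S := by
    intro w hw
    obtain ⟨e, he, rfl⟩ := Finset.mem_image.1 hw
    exact (Finset.mem_product.1 (hES he)).1
  have hs2 : E.image Prod.snd ⊆ S' := by
    intro w hw
    obtain ⟨e, he, rfl⟩ := Finset.mem_image.1 hw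
    exact (Finset.mem_product.1 (hES he)).2
  have hsub : E ⊆ E.image Prod.fst ×ˢ E.image Prod.snd := fun e he =>
    Finset.mem_product.2 ⟨Finset.mem_image_of_mem _ he, Finset.mem_image_of_mem _ he⟩
  have a1 : ∑ w ∈ E.image Prod.fst, R w ≤ ∑ w ∈ S, R w :=
    Finset.sum_le_sum_of_subset_of_nonneg hs1 fun w hw _ => hR w hw
  have a2 : ∑ w ∈ E.image Prod.snd, R' w ≤ ∑ w ∈ S', R' w :=
    Finset.sum_le_sum_of_subset_of_nonneg hs2 fun w hw _ => hR' w hw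
  have b1 : 0 ≤ ∑ w ∈ E.image Prod.fst, R w := Finset.sum_nonneg fun w hw => hR w (hs1 hw)
  have b2 : 0 ≤ ∑ w ∈ E.image Prod.snd, R' w := Finset.sum_nonneg fun w hw => hR' w (hs2 hw)
  calc ∑ e ∈ E, (R e.1 + R' e.2) ≤ ∑ e ∈ E.image Prod.fst ×ˢ E.image Prod.snd, (R e.1 + R' e.2) := by
        refine Finset.sum_le_sum_of_subset_of_nonneg hsub fun e he _ => ?_
        have h := Finset.mem_product.1 he
        exact add_nonneg (hR _ (hs1 h.1)) (hR' _ (hs2 h.2))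
    _ = ((E.image Prod.snd).card : ℝ) * ∑ w ∈ E.image Prod.fst, R w +
        ((E.image Prod.fst).card : ℝ) * ∑ w ∈ E.image Prod.snd, R' w := by
        rw [Finset.sum_product]
        simp only [Finset.sum_add_distrib, Finset.sum_const, nsmul_eq_mul, Finset.mul_sum]
    _ ≤ c * ∑ w ∈ S, R w + c * ∑ w ∈ S', R' w := by
        refine add_le_add ?_ ?_
        · exact mul_le_mul h2 a1 b1 ((Nat.cast_nonneg _).trans h2)
        · exact mul_le_mul h1 a2 b2 ((Nat.cast_nonneg _).trans h1)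
    _ = _ := by ring

/-- fat items are few -/
lemma card_fat {S T : Finset ℕ} {R : ℕ → ℝ} {c M : ℝ} (hTS : T ⊆ S) (hR : ∀ w ∈ S, 0 ≤ R w)
    (hc : 0 ≤ c) (hf : ∀ w ∈ T, 1 < c * R w) (hM : ∑ w ∈ S, R w ≤ M) : (T.card : ℝ) ≤ c * M := by
  calc (T.card : ℝ) = ∑ w ∈ T, (1:ℝ) := by simp
    _ ≤ ∑ w ∈ T, c * R w := Finset.sum_le_sum fun w hw => (hf w hw).le
    _ = c * ∑ w ∈ T, R w := by rw [Finset.mul_sum]
    _ ≤ c * M := mul_le_mul_of_nonneg_left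
        ((Finset.sum_le_sum_of_subset_of_nonneg hTS fun w hw _ => hR w hw).trans hM) hc

/-! ### the pair sums of two labels -/

/-- the larger denominator on the second side -/
lemma rel_inv1 {ρ ρ' : ℚ} (hle : ρ.den ≤ ρ'.den) {Y : ℕ} (hY : 1 ≤ Y) {Q : Finset (ℕ × ℕ)}
    (hQ : ∀ z ∈ Q, 0 < z.1 ∧ 0 < z.2 ∧ z.1 ≤ Y ∧ z.2 ≤ Y ∧
      Co ((z.2 : ℕ) * ρ) ((z.1 : ℕ) * ρ') ∧
      ((ρ'.den:ℝ)^(1/4:ℝ) < z.1 ∨ (ρ'.den:ℝ)^(1/4:ℝ) < z.2)) :
    ∑ z ∈ Q, (1 : ℝ) / (z.1 * z.2) ≤ 2 * (1 + Real.log Y) ^ 2 * (ρ'.den:ℝ) ^ (-(1 / 4 : ℝ)) := by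
  set κ : ℝ := (ρ'.den : ℝ) with hκ
  have hκ1 : 1 ≤ κ := by rw [hκ]; exact_mod_cast ρ'.pos
  have hκ0 : 0 < κ := by linarith
  have hsq : √(√κ) = κ^(1/4:ℝ) := by
    rw [Real.sqrt_eq_rpow, Real.sqrt_eq_rpow, ← Real.rpow_mul hκ0.le]; norm_num
  have hs1 : 1 ≤ √κ := Real.one_le_sqrt.2 hκ1
  have hsκ : √κ ≤ κ := by nlinarith [Real.sq_sqrt hκ0.le]
  rcases le_or_gt (√κ) ρ.den with hc | hc
  · have h := XmG18.inv_sum (K := √κ) (ρ := ρ) (ρ' := ρ') hs1 hc hsκ hY (G := Q) (fun z hz => by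
      obtain ⟨a1, a2, a3, a4, a5, a6⟩ := hQ z hz
      rw [hsq]
      exact ⟨a1, a2, a3, a4, a5, a6⟩)
    have e : (√κ) ^ (-(1 / 2 : ℝ)) = κ ^ (-(1 / 4 : ℝ)) := by
      rw [Real.sqrt_eq_rpow, ← Real.rpow_mul hκ0.le]; norm_num
    rw [e] at h
    exact h
  · -- `z.1 > √κ`
    have hbig : ∀ z ∈ Q, √κ < z.1 := by
      intro z hz
      obtain ⟨a1, a2, a3, a4, a5, a6⟩ := hQ z hz
      -- `ρ'.den ∣ ρ.den * z.1`
      have hdvd : ρ'.den ∣ ρ.den * z.1 := by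
        obtain ⟨m, hm⟩ := a5
        -- `den ρ * z.1 * ρ'` is an integer
        have h1 : ((ρ.den * z.1 : ℕ) : ℚ) * ρ' = ((z.2 * ρ.num - ρ.den * m : ℤ) : ℚ) := by
          have b1 : ρ * ρ.den = ρ.num := Rat.mul_den_eq_num ρ
          have b2 : (z.1 : ℚ) * ρ' = z.2 * ρ - m := by linarith
          push_cast
          calc (ρ.den : ℚ) * z.1 * ρ' = ρ.den * ((z.1 : ℚ) * ρ') := by ring
            _ = z.2 * (ρ * ρ.den) - ρ.den * m := by rw [b2]; ring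
            _ = _ := by rw [b1]
        have h2 : (((ρ.den * z.1 : ℕ) : ℤ) * ρ'.num) = (z.2 * ρ.num - ρ.den * m : ℤ) * ρ'.den := by
          have b1 : ρ' * ρ'.den = ρ'.num := Rat.mul_den_eq_num ρ'
          have : (((ρ.den * z.1 : ℕ) : ℚ) * ρ'.num) =
              ((z.2 * ρ.num - ρ.den * m : ℤ) : ℚ) * ρ'.den := by
            rw [← h1, ← b1]; ring
          exact_mod_cast this
        have h3 : (ρ'.den : ℤ) ∣ ((ρ.den * z.1 : ℕ) : ℤ) * ρ'.num := by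
          rw [h2]; exact Dvd.intro_left _ rfl
        have h4 : IsCoprime (ρ'.den : ℤ) ρ'.num := by
          rw [Int.isCoprime_iff_gcd_eq_one, Int.gcd_comm]
          exact ρ'.reduced
        exact_mod_cast h4.dvd_of_dvd_mul_right h3
      have hle2 : ρ'.den ≤ ρ.den * z.1 := Nat.le_of_dvd (Nat.mul_pos ρ.pos a1) hdvd
      have h5 : κ ≤ (ρ.den:ℝ) * z.1 := by rw [hκ]; exact_mod_cast hle2
      have hz0 : (0:ℝ) < z.1 := by exact_mod_cast a1
      have h6 : (ρ.den:ℝ) * z.1 < √κ * z.1 := mul_lt_mul_of_pos_right hc hz0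
      have h7 : √κ * √κ < √κ * z.1 := by
        rw [Real.mul_self_sqrt hκ0.le]; linarith
      exact lt_of_mul_lt_mul_left h7 (Real.sqrt_nonneg _)
    have h := XmG18.inv_half (K := κ) (ρ := ρ) (ρ' := ρ') hκ1 le_rfl hY (G := Q) (fun z hz => by
      obtain ⟨a1, a2, a3, a4, a5, a6⟩ := hQ z hz
      exact ⟨a1, a2, a3, a4, a5.symm, hbig z hz⟩)
    refine h.trans ?_
    have e : 1 / √κ ≤ κ ^ (-(1/4:ℝ)) := by
      rw [Real.sqrt_eq_rpow, one_div, ← Real.rpow_neg hκ0.le]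
      exact Real.rpow_le_rpow_of_exponent_le hκ1 (by norm_num)
    have h0 : 0 ≤ (1 + Real.log Y) ^ 2 := sq_nonneg _
    have h1 : 0 ≤ κ ^ (-(1/4:ℝ)) := by positivity
    nlinarith [mul_le_mul_of_nonneg_left e h0, mul_nonneg h0 h1]

/-- `κ` = the larger denominator -/
lemma rel_inv {ρ ρ' : ℚ} {κ : ℝ} (hκ : κ = max (ρ.den:ℝ) ρ'.den) {Y : ℕ} (hY : 1 ≤ Y)
    {Q : Finset (ℕ × ℕ)} (hQ : ∀ z ∈ Q, 0 < z.1 ∧ 0 < z.2 ∧ z.1 ≤ Y ∧ z.2 ≤ Y ∧
      Co ((z.2 : ℕ) * ρ) ((z.1 : ℕ) * ρ') ∧ (κ^(1/4:ℝ) < z.1 ∨ κ^(1/4:ℝ) < z.2)) :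
    ∑ z ∈ Q, (1 : ℝ) / (z.1 * z.2) ≤ 2 * (1 + Real.log Y) ^ 2 * κ ^ (-(1 / 4 : ℝ)) := by
  classical
  rcases le_total ρ.den ρ'.den with h | h
  · have e : κ = ρ'.den := by rw [hκ]; exact max_eq_right (by exact_mod_cast h)
    rw [e] at hQ ⊢
    exact rel_inv1 h hY hQ
  · have e : κ = ρ.den := by rw [hκ]; exact max_eq_left (by exact_mod_cast h)
    rw [e] at hQ ⊢
    have h1 := rel_inv1 (ρ := ρ') (ρ' := ρ) h hY (Q := Q.image Prod.swap) (fun z hz => by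
      obtain ⟨x, hx, rfl⟩ := Finset.mem_image.1 hz
      obtain ⟨a1, a2, a3, a4, a5, a6⟩ := hQ x hx
      exact ⟨a2, a1, a4, a3, a5.symm, a6.symm⟩)
    rw [Finset.sum_image Prod.swap_injective.injOn] at h1
    refine le_trans (le_of_eq (Finset.sum_congr rfl fun x _ => ?_)) h1
    show (1 : ℝ) / (x.1 * x.2) = 1 / ((x.2 : ℕ) * (x.1 : ℕ))
    rw [mul_comm]

/-! ### the sum over the fat pairs -/

lemma uniq2 {ρ ρ' : ℚ} {u u' v v' : ℕ} {X κ : ℝ} (hκ : κ = max (ρ.den:ℝ) ρ'.den) (hX : X * X ≤ κ)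
    (hu : (u : ℝ) ≤ X) (hu' : (u' : ℝ) ≤ X) (hv : (v : ℝ) ≤ X) (hv' : (v' : ℝ) ≤ X) (hu0 : 0 < u)
    (hu'0 : 0 < u') (hv0 : 0 < v) (hv'0 : 0 < v') (h1 : Co (u * ρ) (u' * ρ'))
    (h2 : Co (v * ρ) (v' * ρ')) : v' * u = u' * v := by
  rcases le_total (ρ.den:ℝ) ρ'.den with h | h
  · rw [max_eq_right h] at hκ
    have k := ShR18.uniq (ρ := ρ') (ρ' := ρ) (by rw [← hκ]; exact hX) hu' hu hv' hv hu'0 hu0 hv'0 hv0
      h1.symm h2.symm
    -- `v * u' = u * v'`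
    rw [mul_comm v' u, mul_comm u' v]; exact k.symm
  · rw [max_eq_left h] at hκ
    exact ShR18.uniq (ρ := ρ) (ρ' := ρ') (by rw [← hκ]; exact hX) hu hu' hv hv' hu0 hu'0 hv0 hv'0
      h1 h2

open Classical in
set_option maxHeartbeats 1000000 in
/-- **the fat pairs** -/
theorem fat_sum : ∃ C : ℝ, 1 ≤ C ∧ ∀ (K T K₂ : ℝ) (ρ ρ' : ℚ) (S S' : Finset ℕ)
    (E : Finset (ℕ × ℕ)) (R R' : ℕ → ℝ) (F : ℕ × ℕ → ℝ), 0 < K → 10 ≤ K₂ → T ≤ K₂ → 1 ≤ T →
    E ⊆ S ×ˢ S' → (∀ w ∈ S, 0 < w ∧ 0 < R w) → (∀ w ∈ S', 0 < w ∧ 0 < R' w) →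
    ∑ w ∈ S, R w ≤ T → ∑ w ∈ S', R' w ≤ T →
    (∀ e ∈ E, 1 < 10 * (ρ.den:ℝ)^5 * R e.1 ∧ 1 < 10 * (ρ'.den:ℝ)^5 * R' e.2 ∧
      Co ((cof e.2 e.1 : ℕ) * ρ) ((cof e.1 e.2 : ℕ) * ρ')) →
    (∀ e ∈ E, K * min (R e.1) (R' e.2) ≤ DP R R' e) →
    (∀ e ∈ E, F e ≤ 6 * ((R e.1 * R' e.2) / DP R R' e)) →
    ∑ e ∈ E, F e ≤ (60 * K₂^5 * T / K + 6 / K + 6 * C * K₂ ^ (-(1/16):ℝ)) *
      (∑ w ∈ S, R w + ∑ w ∈ S', R' w) := by
  obtain ⟨C, hC, late⟩ := NcC37.late_rel (A := 7) (b := 1/4) (C₀ := 2) (by norm_num) (by norm_num)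
    (by norm_num)
  refine ⟨C, hC, ?_⟩
  intro K T K₂ ρ ρ' S S' E R R' F hK hK₂ hTK hT hES hS hS' hM hM' hE hbig hF
  have hR : ∀ w ∈ S, 0 ≤ R w := fun w hw => (hS w hw).2.le
  have hR' : ∀ w ∈ S', 0 ≤ R' w := fun w hw => (hS' w hw).2.le
  have hmem : ∀ e ∈ E, e.1 ∈ S ∧ e.2 ∈ S' := fun e he => Finset.mem_product.1 (hES he)
  set M := ∑ w ∈ S, R w + ∑ w ∈ S', R' w with hMd
  have hM0 : 0 ≤ M := add_nonneg (Finset.sum_nonneg hR) (Finset.sum_nonneg hR')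
  have hK₂0 : 0 < K₂ := by linarith
  have hT0 : 0 < T := by linarith
  -- one pair
  have hFK : ∀ e ∈ E, F e ≤ 6 / K * (R e.1 + R' e.2) := by
    intro e he
    have h := hmem e he
    have r1 := (hS _ h.1).2
    have r2 := (hS' _ h.2).2
    have hD0 := DP_pos (R := R) (R' := R') (hS' _ h.2).1 r1
    refine (hF e he).trans ?_
    have h1 : R e.1 * R' e.2 = max (R e.1) (R' e.2) * min (R e.1) (R' e.2) := (max_mul_min _ _).symm
    have h2 : (R e.1 * R' e.2) / DP R R' e ≤ max (R e.1) (R' e.2) / K := by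
      rw [div_le_div_iff₀ hD0 hK]
      calc R e.1 * R' e.2 * K = max (R e.1) (R' e.2) * (K * min (R e.1) (R' e.2)) := by rw [h1]; ring
        _ ≤ max (R e.1) (R' e.2) * DP R R' e :=
            mul_le_mul_of_nonneg_left (hbig e he) (le_max_of_le_left r1.le)
    have h3 : max (R e.1) (R' e.2) ≤ R e.1 + R' e.2 := max_le (by linarith) (by linarith)
    calc 6 * ((R e.1 * R' e.2) / DP R R' e) ≤ 6 * (max (R e.1) (R' e.2) / K) :=
          mul_le_mul_of_nonneg_left h2 (by norm_num)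
      _ ≤ 6 * ((R e.1 + R' e.2) / K) :=
          mul_le_mul_of_nonneg_left (div_le_div_of_nonneg_right h3 hK.le) (by norm_num)
      _ = _ := by ring
  set κ : ℝ := max (ρ.den:ℝ) ρ'.den with hκ
  have hd1 : (1:ℝ) ≤ ρ.den := by exact_mod_cast ρ.pos
  have hd1' : (1:ℝ) ≤ ρ'.den := by exact_mod_cast ρ'.pos
  have hκ1 : 1 ≤ κ := hd1.trans (le_max_left _ _)
  have hκ0 : 0 < κ := by linarith
  have hdκ : (ρ.den:ℝ) ≤ κ := le_max_left _ _
  have hdκ' : (ρ'.den:ℝ) ≤ κ := le_max_right _ _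
  -- counts
  have c1 : ((E.image Prod.fst).card : ℝ) ≤ 10 * κ^5 * T := by
    refine card_fat (S := S) (R := R) (c := 10 * κ^5) ?_ hR (by positivity) ?_ hM
    · intro w hw
      obtain ⟨e, he, rfl⟩ := Finset.mem_image.1 hw
      exact (hmem e he).1
    · intro w hw
      obtain ⟨e, he, rfl⟩ := Finset.mem_image.1 hw
      refine lt_of_lt_of_le (hE e he).1 ?_
      refine mul_le_mul_of_nonneg_right ?_ (hR _ (hmem e he).1)
      exact mul_le_mul_of_nonneg_left (pow_le_pow_left₀ (by linarith) hdκ 5) (by norm_num)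
  have c2 : ((E.image Prod.snd).card : ℝ) ≤ 10 * κ^5 * T := by
    refine card_fat (S := S') (R := R') (c := 10 * κ^5) ?_ hR' (by positivity) ?_ hM'
    · intro w hw
      obtain ⟨e, he, rfl⟩ := Finset.mem_image.1 hw
      exact (hmem e he).2
    · intro w hw
      obtain ⟨e, he, rfl⟩ := Finset.mem_image.1 hw
      refine lt_of_lt_of_le (hE e he).2.1 ?_
      refine mul_le_mul_of_nonneg_right ?_ (hR' _ (hmem e he).2)
      exact mul_le_mul_of_nonneg_left (pow_le_pow_left₀ (by linarith) hdκ' 5) (by norm_num)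
  have n1 : 0 ≤ 60 * K₂^5 * T / K := by positivity
  have n2 : 0 ≤ 6 / K := by positivity
  have n3 : 0 ≤ 6 * C * K₂ ^ (-(1/16):ℝ) := by positivity
  rcases le_or_gt κ K₂ with hc | hc
  · -- few items
    have h1 := card_sum (c := 10 * K₂^5 * T) hES hR hR'
      (c1.trans (mul_le_mul_of_nonneg_right (mul_le_mul_of_nonneg_left
        (pow_le_pow_left₀ hκ0.le hc 5) (by norm_num)) hT0.le))
      (c2.trans (mul_le_mul_of_nonneg_right (mul_le_mul_of_nonneg_left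
        (pow_le_pow_left₀ hκ0.le hc 5) (by norm_num)) hT0.le))
    calc ∑ e ∈ E, F e ≤ ∑ e ∈ E, 6 / K * (R e.1 + R' e.2) := Finset.sum_le_sum hFK
      _ = 6 / K * ∑ e ∈ E, (R e.1 + R' e.2) := by rw [Finset.mul_sum]
      _ ≤ 6 / K * (10 * K₂^5 * T * M) := mul_le_mul_of_nonneg_left h1 n2
      _ = (60 * K₂^5 * T / K) * M := by ring
      _ ≤ _ := mul_le_mul_of_nonneg_right (by linarith) hM0
  · -- a large denominator
    have hκ10 : 10 ≤ κ := hK₂.trans hc.le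
    set U : ℝ := κ^(1/4:ℝ) with hU
    have hUU : U * U ≤ κ := by
      rw [hU, ← Real.rpow_add hκ0]
      calc κ^((1:ℝ)/4 + 1/4) ≤ κ^(1:ℝ) := Real.rpow_le_rpow_of_exponent_le hκ1 (by norm_num)
        _ = κ := Real.rpow_one _
    set Sm : ℕ × ℕ → Prop := fun e => (cof e.1 e.2 : ℝ) ≤ U ∧ (cof e.2 e.1 : ℝ) ≤ U with hSm
    set E1 := E.filter Sm with hE1
    set E2 := E.filter (fun e => ¬ Sm e) with hE2
    have hsplit : ∑ e ∈ E, F e = ∑ e ∈ E1, F e + ∑ e ∈ E2, F e :=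
      (Finset.sum_filter_add_sum_filter_not _ _ _).symm
    have hpos : ∀ e ∈ E, 0 < cof e.1 e.2 ∧ 0 < cof e.2 e.1 := fun e he =>
      ⟨cof_pos (hS _ (hmem e he).1).1, cof_pos (hS' _ (hmem e he).2).1⟩
    have hcr : ∀ e ∈ E, e.1 * cof e.2 e.1 = e.2 * cof e.1 e.2 := by
      intro e he
      unfold cof
      have h1 := Nat.mul_div_cancel' (Nat.gcd_dvd_left e.1 e.2)
      have h2 := Nat.mul_div_cancel' (Nat.gcd_dvd_left e.2 e.1)
      rw [Nat.gcd_comm e.2 e.1] at h2 ⊢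
      calc e.1 * (e.2 / e.1.gcd e.2) = (e.1.gcd e.2 * (e.1 / e.1.gcd e.2)) * (e.2 / e.1.gcd e.2) := by
            rw [h1]
        _ = (e.1.gcd e.2 * (e.2 / e.1.gcd e.2)) * (e.1 / e.1.gcd e.2) := by ring
        _ = e.2 * (e.1 / e.1.gcd e.2) := by rw [h2]
    -- small cofactors: one ratio
    have hrat : ∀ e ∈ E1, ∀ f ∈ E1, cof e.1 e.2 * cof f.2 f.1 = cof f.1 f.2 * cof e.2 e.1 := by
      intro e he f hf
      obtain ⟨he1, he2⟩ := Finset.mem_filter.1 he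
      obtain ⟨hf1, hf2⟩ := Finset.mem_filter.1 hf
      have k := uniq2 (κ := κ) hκ hUU hf2.2 hf2.1 he2.2 he2.1 (hpos f hf1).2 (hpos f hf1).1
        (hpos e he1).2 (hpos e he1).1 (hE f hf1).2.2 (hE e he1).2.2
      exact k
    have i1 : Set.InjOn Prod.fst (E1 : Set (ℕ × ℕ)) := by
      intro e he f hf h
      have he' := Finset.mem_coe.1 he
      have hf' := Finset.mem_coe.1 hf
      have k := hrat e he' f hf'
      have a := hcr e (Finset.mem_filter.1 he').1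
      have b := hcr f (Finset.mem_filter.1 hf').1
      obtain ⟨p1, p2⟩ := hpos e (Finset.mem_filter.1 he').1
      obtain ⟨q1, q2⟩ := hpos f (Finset.mem_filter.1 hf').1
      refine Prod.ext h ?_
      -- `e.2 * cof e.1 e.2 * cof f.2 f.1 = f.2 * ...`
      have h3 : e.2 * (cof e.1 e.2 * cof f.2 f.1) = f.2 * (cof e.1 e.2 * cof f.2 f.1) := by
        calc e.2 * (cof e.1 e.2 * cof f.2 f.1) = (e.2 * cof e.1 e.2) * cof f.2 f.1 := by ring
          _ = (e.1 * cof e.2 e.1) * cof f.2 f.1 := by rw [a]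
          _ = (f.1 * cof f.2 f.1) * cof e.2 e.1 := by
              have h' : e.1 = f.1 := h
              rw [h']; ring
          _ = f.2 * (cof f.1 f.2 * cof e.2 e.1) := by rw [b]; ring
          _ = f.2 * (cof e.1 e.2 * cof f.2 f.1) := by rw [k]
      exact Nat.eq_of_mul_eq_mul_right (Nat.mul_pos p1 q2) h3
    have i2 : Set.InjOn Prod.snd (E1 : Set (ℕ × ℕ)) := by
      intro e he f hf h
      have he' := Finset.mem_coe.1 he
      have hf' := Finset.mem_coe.1 hf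
      have k := hrat e he' f hf'
      have a := hcr e (Finset.mem_filter.1 he').1
      have b := hcr f (Finset.mem_filter.1 hf').1
      obtain ⟨p1, p2⟩ := hpos e (Finset.mem_filter.1 he').1
      obtain ⟨q1, q2⟩ := hpos f (Finset.mem_filter.1 hf').1
      refine Prod.ext ?_ h
      have h3 : e.1 * (cof e.2 e.1 * cof f.1 f.2) = f.1 * (cof e.2 e.1 * cof f.1 f.2) := by
        calc e.1 * (cof e.2 e.1 * cof f.1 f.2) = (e.1 * cof e.2 e.1) * cof f.1 f.2 := by ring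
          _ = (e.2 * cof e.1 e.2) * cof f.1 f.2 := by rw [a]
          _ = (f.2 * cof f.1 f.2) * cof e.1 e.2 := by
              have h' : e.2 = f.2 := h
              rw [h']; ring
          _ = f.1 * (cof e.1 e.2 * cof f.2 f.1) := by rw [← b]; ring
          _ = f.1 * (cof e.2 e.1 * cof f.1 f.2) := by rw [k]; ring
      exact Nat.eq_of_mul_eq_mul_right (Nat.mul_pos p2 q1) h3
    have b1 : ∑ e ∈ E1, F e ≤ 6 / K * M := by
      have hs : E1 ⊆ E := Finset.filter_subset _ _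
      calc ∑ e ∈ E1, F e ≤ ∑ e ∈ E1, 6 / K * (R e.1 + R' e.2) :=
            Finset.sum_le_sum fun e he => hFK e (hs he)
        _ = 6 / K * ∑ e ∈ E1, (R e.1 + R' e.2) := by rw [Finset.mul_sum]
        _ ≤ 6 / K * M := mul_le_mul_of_nonneg_left (inj_sum (hs.trans hES) hR hR' i1 i2) n2
    -- large cofactors
    have b2 : ∑ e ∈ E2, F e ≤ 6 * (C * κ ^ (-(1/16):ℝ) * M) := by
      set Rel : ℕ → ℕ → Prop := fun x y => Co ((y : ℕ) * ρ) ((x : ℕ) * ρ') ∧ (U < x ∨ U < y)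
        with hRel
      have hcard : ∀ {n : ℝ}, n ≤ 10 * κ^5 * T → n ≤ κ^(7:ℝ) := by
        intro n hn
        refine hn.trans ?_
        have e7 : κ^(7:ℝ) = κ^7 := by exact_mod_cast Real.rpow_natCast κ 7
        rw [e7]
        calc 10 * κ^5 * T ≤ κ * κ^5 * κ := by
              have : T ≤ κ := hTK.trans hc.le
              gcongr
          _ = κ^7 := by ring
      have key := late ℕ ℕ κ Rel (E.image Prod.fst) (E.image Prod.snd) id id R R' hκ1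
        (fun Y Q hY hQ => by
          have h := rel_inv (ρ := ρ) (ρ' := ρ') (κ := κ) hκ hY (Q := Q) (fun z hz => by
            obtain ⟨a1, a2, a3, a4, a5, a6, a7⟩ := hQ z hz
            exact ⟨a1, a2, a4, a5, a6, a7⟩)
          exact h)
        (hcard c1) (hcard c2)
        (fun w hw => by
          obtain ⟨e, he, rfl⟩ := Finset.mem_image.1 hw
          exact (hS _ (hmem e he).1).1)
        (fun w hw => by
          obtain ⟨e, he, rfl⟩ := Finset.mem_image.1 hw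
          exact (hS' _ (hmem e he).2).1)
        (fun _ _ _ _ h => h) (fun _ _ _ _ h => h)
        (fun w hw => by
          obtain ⟨e, he, rfl⟩ := Finset.mem_image.1 hw
          exact hR _ (hmem e he).1)
        (fun w hw => by
          obtain ⟨e, he, rfl⟩ := Finset.mem_image.1 hw
          exact hR' _ (hmem e he).2)
      have hexp : κ ^ (-((1/4:ℝ) / 4)) = κ ^ (-(1/16):ℝ) := by norm_num
      rw [hexp] at key
      have hsF : ∑ w ∈ E.image Prod.fst, R w ≤ ∑ w ∈ S, R w := by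
        refine Finset.sum_le_sum_of_subset_of_nonneg ?_ fun w hw _ => hR w hw
        intro w hw
        obtain ⟨e, he, rfl⟩ := Finset.mem_image.1 hw
        exact (hmem e he).1
      have hsG : ∑ w ∈ E.image Prod.snd, R' w ≤ ∑ w ∈ S', R' w := by
        refine Finset.sum_le_sum_of_subset_of_nonneg ?_ fun w hw _ => hR' w hw
        intro w hw
        obtain ⟨e, he, rfl⟩ := Finset.mem_image.1 hw
        exact (hmem e he).2
      have hfin : C * κ ^ (-(1/16):ℝ) * (∑ w ∈ E.image Prod.fst, R w + ∑ w ∈ E.image Prod.snd, R' w) ≤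
          C * κ ^ (-(1/16):ℝ) * M :=
        mul_le_mul_of_nonneg_left (add_le_add hsF hsG) (by positivity)
      have hin : ∑ e ∈ E2, F e ≤ ∑ e ∈ E2, 6 * (ind (Rel (e.1 / (e.1).gcd e.2) (e.2 / (e.1).gcd e.2)) *
          min (R e.1 / (e.1 / (e.1).gcd e.2 : ℕ)) (R' e.2 / (e.2 / (e.1).gcd e.2 : ℕ))) := by
        refine Finset.sum_le_sum fun e he => ?_
        obtain ⟨he1, he2⟩ := Finset.mem_filter.1 he
        have h := hmem e he1
        have r1 := (hS _ h.1).2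
        have r2 := (hS' _ h.2).2
        obtain ⟨p1, p2⟩ := hpos e he1
        have d1 : cof e.1 e.2 = e.1 / (e.1).gcd e.2 := rfl
        have d2 : cof e.2 e.1 = e.2 / (e.1).gcd e.2 := by unfold cof; rw [Nat.gcd_comm]
        have hrel : Rel (e.1 / (e.1).gcd e.2) (e.2 / (e.1).gcd e.2) := by
          rw [← d1, ← d2]
          refine ⟨(hE e he1).2.2, ?_⟩
          by_contra hcon
          push Not at hcon
          exact he2 ⟨hcon.1, hcon.2⟩
        rw [ind_t hrel, one_mul, ← d1, ← d2]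
        refine (hF e he1).trans (mul_le_mul_of_nonneg_left ?_ (by norm_num))
        have q1 : (0:ℝ) < cof e.1 e.2 := by exact_mod_cast p1
        have q2 : (0:ℝ) < cof e.2 e.1 := by exact_mod_cast p2
        unfold DP
        refine le_min ?_ ?_
        · rw [div_le_div_iff₀ (lt_max_of_lt_left (mul_pos q2 r1)) q1]
          have := le_max_right ((cof e.2 e.1 : ℝ) * R e.1) ((cof e.1 e.2 : ℝ) * R' e.2)
          nlinarith
        · rw [div_le_div_iff₀ (lt_max_of_lt_left (mul_pos q2 r1)) q2]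
          have := le_max_left ((cof e.2 e.1 : ℝ) * R e.1) ((cof e.1 e.2 : ℝ) * R' e.2)
          nlinarith
      refine hin.trans ?_
      rw [← Finset.mul_sum]
      refine mul_le_mul_of_nonneg_left (le_trans ?_ (key.trans hfin)) (by norm_num)
      rw [← Finset.sum_product' (s := E.image Prod.fst) (t := E.image Prod.snd) (f := fun i j =>
        ind (Rel (id i / (id i).gcd (id j)) (id j / (id i).gcd (id j))) *
        min (R i / (id i / (id i).gcd (id j) : ℕ)) (R' j / (id j / (id i).gcd (id j) : ℕ)))]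
      refine Finset.sum_le_sum_of_subset_of_nonneg ?_ fun e he _ => ?_
      · intro e he
        have he1 := (Finset.mem_filter.1 he).1
        exact Finset.mem_product.2 ⟨Finset.mem_image_of_mem _ he1, Finset.mem_image_of_mem _ he1⟩
      · obtain ⟨h1, h2⟩ := Finset.mem_product.1 he
        obtain ⟨f, hf, hf1⟩ := Finset.mem_image.1 h1
        obtain ⟨g, hg, hg1⟩ := Finset.mem_image.1 h2
        have r1 : 0 ≤ R e.1 := by rw [← hf1]; exact hR _ (hmem f hf).1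
        have r2 : 0 ≤ R' e.2 := by rw [← hg1]; exact hR' _ (hmem g hg).2
        exact mul_nonneg (ind_nn _) (le_min (div_nonneg r1 (Nat.cast_nonneg _))
          (div_nonneg r2 (Nat.cast_nonneg _)))
    have hk : κ ^ (-(1/16):ℝ) ≤ K₂ ^ (-(1/16):ℝ) :=
      Real.rpow_le_rpow_of_nonpos hK₂0 hc.le (by norm_num)
    rw [hsplit]
    have hC0 : 0 ≤ C := by linarith
    have b3 : 6 * (C * κ ^ (-(1/16):ℝ) * M) ≤ 6 * C * K₂ ^ (-(1/16):ℝ) * M := by
      have := mul_le_mul_of_nonneg_right (mul_le_mul_of_nonneg_left hk hC0) hM0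
      linarith
    have b4 : 0 ≤ 60 * K₂^5 * T / K * M := mul_nonneg n1 hM0
    calc ∑ e ∈ E1, F e + ∑ e ∈ E2, F e ≤ 6 / K * M + 6 * C * K₂ ^ (-(1/16):ℝ) * M :=
          add_le_add b1 (b2.trans b3)
      _ ≤ 60 * K₂^5 * T / K * M + (6 / K * M + 6 * C * K₂ ^ (-(1/16):ℝ) * M) := by linarith
      _ = _ := by ring

set_option maxHeartbeats 4000000 in
/-- **unlabelled pairs of two nodes (two offsets)**: `K min (R, R') ≤ DP` -/
theorem inUU3 : ∃ C C' c0 : ℝ, 1 ≤ C ∧ 1 ≤ C' ∧ 0 < c0 ∧ ∀ c1 : ℝ, 0 < c1 → c1 ≤ c0 → ∃ T0 : ℝ, 1 ≤ T0 ∧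
    ∀ (X L η θ θ' K T K₂ : ℝ) (n G : ℕ) (S S' : Finset ℕ) (E : Finset (ℕ × ℕ)) (R R' : ℕ → ℝ)
      (F : ℕ × ℕ → ℝ),
    400 ≤ n → T0 ≤ (2:ℝ)^n → X ≤ Real.exp (((2:ℝ)^n)^c1) → 0 < G →
    0 < η → η ≤ 1 → 0 < K → E ⊆ S ×ˢ S' →
    (∀ w ∈ S, 0 < w ∧ 0 < R w) → (∀ w ∈ S', 0 < w ∧ 0 < R' w) →
    (∀ w ∈ S, R w ≤ L * wt R w) → (∀ w ∈ S', R' w ≤ L * wt R' w) →
    (∀ z : ℝ, X ≤ z → ∀ w ∈ S, Crest.Agent.R4.ClsB.Tame z G w) →
    (∀ z : ℝ, X ≤ z → ∀ w ∈ S', Crest.Agent.R4.ClsB.Tame z G w) →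
    (∀ e ∈ E, K * min (R e.1) (R' e.2) ≤ DP R R' e) →
    (∀ e ∈ E, F e ≤ 2 * ((R e.1 * R' e.2) / DP R R' e) * (2 * η * DP R R' e + 1)) →
    (∀ e ∈ E, 0 < F e → ∃ m m' : ℤ,
      |(m + θ) * (cof e.2 e.1 : ℕ) - (m' + θ') * (cof e.1 e.2 : ℕ)| ≤ η * DP R R' e) →
    (∀ w ∈ S, ∀ ρ, ¬ Lab θ (R w) ρ) → (∀ w ∈ S', ∀ ρ, ¬ Lab θ' (R' w) ρ) →
    10 ≤ K₂ → T ≤ K₂ → 1 ≤ T → ∑ w ∈ S, R w ≤ T → ∑ w ∈ S', R' w ≤ T → 8 * T * η^(3/10:ℝ) < 1 →
    ∑ e ∈ E, F e ≤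
      6 * η * L^2 * ((∑ q ∈ S, wt R q) * (∑ r ∈ S', wt R' r)) +
      6 * L^2 * (n * (2 * KH 1 0 eps1 * (2:ℝ)^(2*eps1*n)) + C * ((2:ℝ)^n)^(-(1/1000):ℝ)) *
        (η^(2*eps1) * ((∑ q ∈ S, wt R q) * (∑ r ∈ S', wt R' r))^(1/2+eps1)) +
      6 * (L / K) * (∑ q ∈ S, wt R q + ∑ r ∈ S', wt R' r) +
      (60 * K₂^5 * T / K + 6 / K + 6 * C' * K₂ ^ (-(1/16):ℝ)) *
        (∑ q ∈ S, R q + ∑ r ∈ S', R' r) := by
  classical
  obtain ⟨C, c0, hC1, hc0, hC⟩ := ClsT2.deepHyp_Gen3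
  obtain ⟨C', hC1', hfat⟩ := fat_sum
  refine ⟨C, C', c0, hC1, hC1', hc0, ?_⟩
  intro c1 hc1 hc10
  obtain ⟨T0, hT01, hT0⟩ := hC c1 hc1 hc10
  refine ⟨T0, hT01, ?_⟩
  intro X L η θ θ' K T K₂ n G S S' E R R' F hn hTn hX hG hη hη1 hK hES hS hS' hLS hLS' hSt hSt' hbig hF
    hrel hU hU' hK₂ hTK hT hsR hsR' hTη
  have he1 : eps1 = 1/1000 := rfl
  have h2n : (0:ℝ) < (2:ℝ)^n := by positivity
  set Re : ℕ → ℝ := fun w => η * R w with hRe
  set Re' : ℕ → ℝ := fun w => η * R' w with hRe'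
  set D : ℕ × ℕ → ℝ := DP Re Re' with hDdef
  have hDe : ∀ e, D e = η * DP R R' e := by
    intro e
    rw [hDdef]; unfold DP
    rw [mul_max_of_nonneg _ _ hη.le, hRe, hRe']
    congr 1 <;> ring
  have hDc : ∀ e, Dc ∅ ∅ Re Re' e = D e := fun e => Dc_empty Re Re' e
  have hmem : ∀ e ∈ E, e.1 ∈ S ∧ e.2 ∈ S' := fun e he => Finset.mem_product.1 (hES he)
  have hDpos0 : ∀ e ∈ E, 0 < DP R R' e := fun e he =>
    DP_pos (hS' _ (hmem e he).2).1 (hS _ (hmem e he).1).2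
  have hDpos : ∀ e ∈ E, 0 < D e := fun e he => by rw [hDe]; exact mul_pos hη (hDpos0 e he)
  have hmu : ∀ q ∈ S, 0 ≤ wt R q := fun q hq => by
    unfold wt; exact mul_nonneg (hS q hq).2.le (by positivity)
  have hmu' : ∀ q ∈ S', 0 ≤ wt R' q := fun q hq => by
    unfold wt; exact mul_nonneg (hS' q hq).2.le (by positivity)
  have hM0 := Finset.sum_nonneg hmu
  have hM0' := Finset.sum_nonneg hmu'
  have hwe : ∀ q, wt Re q = η * wt R q := fun q => by unfold wt; rw [hRe]; ring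
  have hwe' : ∀ q, wt Re' q = η * wt R' q := fun q => by unfold wt; rw [hRe']; ring
  have hsmu : ∑ q ∈ S, mu ∅ Re q = η * ∑ q ∈ S, wt R q := by
    rw [Finset.mul_sum]; exact Finset.sum_congr rfl fun q _ => by rw [mu_empty, hwe]
  have hsmu' : ∑ q ∈ S', mu ∅ Re' q = η * ∑ q ∈ S', wt R' q := by
    rw [Finset.mul_sum]; exact Finset.sum_congr rfl fun q _ => by rw [mu_empty, hwe']
  have hsum : ∑ q ∈ S, wt Re q = η * ∑ q ∈ S, wt R q := by
    rw [Finset.mul_sum]; exact Finset.sum_congr rfl fun q _ => hwe q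
  have hsum' : ∑ q ∈ S', wt Re' q = η * ∑ q ∈ S', wt R' q := by
    rw [Finset.mul_sum]; exact Finset.sum_congr rfl fun q _ => hwe' q
  -- bounds
  have hF6 : ∀ e ∈ E, D e ≤ 1 → F e ≤ 6 * ((R e.1 * R' e.2) / DP R R' e) := by
    intro e he hD1
    rw [hDe] at hD1
    have hD := hDpos0 e he
    have hR := (hS _ (hmem e he).1).2
    have hR' := (hS' _ (hmem e he).2).2
    calc F e ≤ 2 * ((R e.1 * R' e.2) / DP R R' e) * (2 * η * DP R R' e + 1) := hF e he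
      _ ≤ 2 * ((R e.1 * R' e.2) / DP R R' e) * 3 := by
          apply mul_le_mul_of_nonneg_left _ (by positivity)
          nlinarith
      _ = _ := by ring
  have hRR : ∀ e ∈ E, R e.1 * R' e.2 ≤ L^2 * (wt R e.1 * wt R' e.2) := by
    intro e he
    have h1 := hLS _ (hmem e he).1
    have h2 := hLS' _ (hmem e he).2
    have h5 : 0 ≤ L * wt R e.1 := (hS _ (hmem e he).1).2.le.trans h1
    calc R e.1 * R' e.2 ≤ (L * wt R e.1) * (L * wt R' e.2) :=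
          mul_le_mul h1 h2 (hS' _ (hmem e he).2).2.le h5
      _ = _ := by ring
  have hFmu : ∀ e ∈ E, D e ≤ 1 → F e ≤ (6/η) * L^2 * ((wt Re e.1 * wt Re' e.2) / D e) := by
    intro e he hD1
    have hD := hDpos0 e he
    calc F e ≤ 6 * ((R e.1 * R' e.2) / DP R R' e) := hF6 e he hD1
      _ ≤ 6 * ((L^2 * (wt R e.1 * wt R' e.2)) / DP R R' e) :=
          mul_le_mul_of_nonneg_left (div_le_div_of_nonneg_right (hRR e he) hD.le) (by norm_num)
      _ = _ := by rw [hDe, hwe, hwe']; field_simp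
  set PA : ℕ × ℕ → Prop := fun e => AltS n θ θ' (cof e.1 e.2) (cof e.2 e.1) (Re e.1) (Re' e.2)
    with hPA
  set PE : ℕ × ℕ → Prop := fun e => ES θ θ' (cof e.1 e.2) (cof e.2 e.1) (Re e.1) (Re' e.2) with hPE
  set EN := E.filter (fun e => D e ≤ 1) with hEN
  set EM := E.filter (fun e => ¬ D e ≤ 1) with hEM
  set EY := EN.filter (fun e => (1/2:ℝ)^n < D e) with hEY
  set EX' := EN.filter (fun e => ¬ (1/2:ℝ)^n < D e) with hEX'
  set EG' := EX'.filter (fun e => PA e) with hEG'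
  set EH := EX'.filter (fun e => ¬ PA e) with hEH
  set EE := EH.filter (fun e => PE e) with hEE
  set ER := EH.filter (fun e => ¬ PE e) with hER
  set E1 := EE.filter (fun e => R' e.2 ≤ R e.1) with hE1
  set E2 := EE.filter (fun e => ¬ R' e.2 ≤ R e.1) with hE2
  have hsplit : ∑ e ∈ E, F e = (∑ e ∈ EY, F e +
      (∑ e ∈ EG', F e + ((∑ e ∈ E1, F e + ∑ e ∈ E2, F e) + ∑ e ∈ ER, F e))) + ∑ e ∈ EM, F e := by
    rw [hE1, hE2, Finset.sum_filter_add_sum_filter_not, hEE, hER,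
      Finset.sum_filter_add_sum_filter_not, hEG', hEH,
      Finset.sum_filter_add_sum_filter_not, hEY, hEX', Finset.sum_filter_add_sum_filter_not, hEN,
      hEM, Finset.sum_filter_add_sum_filter_not]
  have hENP : ∀ e ∈ EN, e ∈ E ∧ D e ≤ 1 := fun e he => Finset.mem_filter.1 he
  have hEYP : ∀ e ∈ EY, e ∈ EN := fun e he => (Finset.mem_filter.1 he).1
  have hEXP : ∀ e ∈ EX', e ∈ EN := fun e he => (Finset.mem_filter.1 he).1
  have hEGP : ∀ e ∈ EG', e ∈ EX' := fun e he => (Finset.mem_filter.1 he).1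
  have hEHP : ∀ e ∈ EH, e ∈ EX' := fun e he => (Finset.mem_filter.1 he).1
  have hEEP : ∀ e ∈ EE, e ∈ EH := fun e he => (Finset.mem_filter.1 he).1
  have hERP : ∀ e ∈ ER, e ∈ EH := fun e he => (Finset.mem_filter.1 he).1
  have hE1P : ∀ e ∈ E1, e ∈ EE := fun e he => (Finset.mem_filter.1 he).1
  have hE2P : ∀ e ∈ E2, e ∈ EE := fun e he => (Finset.mem_filter.1 he).1
  have hpow : (1/2:ℝ)^n = 1/2^n := by rw [div_pow, one_pow]
  have hEXD : ∀ e ∈ EX', D e ≤ 1/2^n := by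
    intro e he
    have := not_lt.1 (Finset.mem_filter.1 he).2
    rw [hpow] at this
    exact this
  have hOe : ∀ p ∈ (∅ : Finset ℕ), p.Prime ∧ 0 ≤ p := fun p hp => absurd hp (Finset.notMem_empty p)
  have hSe : ∀ w ∈ S, 0 < w ∧ 0 < Re w := fun w hw => ⟨(hS w hw).1, mul_pos hη (hS w hw).2⟩
  have hSe' : ∀ w ∈ S', 0 < w ∧ 0 < Re' w := fun w hw => ⟨(hS' w hw).1, mul_pos hη (hS' w hw).2⟩
  -- dyadic part
  have boundY := mid_dyadic (ε := eps1) (by rw [he1]; norm_num) (by rw [he1]; norm_num) (N := 0)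
    (O := ∅) (O' := ∅) (V := S) (W := S') (R := Re) (R' := Re') hOe hOe hSe hSe' (c := 0) (c' := 0)
    (fun r _ => by simp) (fun r _ => by simp) (K := (6/η) * L^2) (by positivity) (F := F) n EY
    (fun e he => hES (hENP e (hEYP e he)).1)
    (fun e he => by rw [hDc]; exact (hENP e (hEYP e he)).2)
    (fun e he => by rw [hDc]; exact (Finset.mem_filter.1 he).2)
    (fun e he => by
      rw [hDc, mu_empty, mu_empty]
      exact hFmu e (hENP e (hEYP e he)).1 (hENP e (hEYP e he)).2)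
  -- deep part
  have hDD : ∀ e, DD Re Re' e = D e := fun e => by unfold DD; rfl
  have boundG := hT0 θ θ' ((2:ℝ)^n) X ((6/η) * L^2) S S' EG' Re Re' F G hTn hX (by positivity) hG
    hSe hSe' hSt hSt' (fun e he => hES (hENP e (hEXP e (hEGP e he))).1)
    (fun e he => by rw [hDD]; exact hEXD e (hEGP e he))
    (fun e he => by
      rw [hDD]
      have h := hENP e (hEXP e (hEGP e he))
      refine (hFmu e h.1 h.2).trans ?_
      apply mul_le_mul_of_nonneg_left _ (by positivity)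
      apply div_le_div_of_nonneg_right _ (hDpos e h.1).le
      unfold ew
      have f1 := Crest.Agent.R4.ClsS.one_le_Af (cof e.1 e.2)
      have f2 := Crest.Agent.R4.ClsS.one_le_Af (cof e.2 e.1)
      have f4 : 0 ≤ wt Re e.1 * wt Re' e.2 := by
        rw [hwe, hwe']
        exact mul_nonneg (mul_nonneg hη.le (hmu _ (hmem e h.1).1))
          (mul_nonneg hη.le (hmu' _ (hmem e h.1).2))
      exact le_mul_of_one_le_right f4 (by nlinarith))
    (by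
      intro e he t ht h1 h2 hFe
      rw [hDD] at h1 h2
      obtain ⟨m, m', hm⟩ := hrel e (hENP e (hEXP e (hEGP e he))).1 hFe
      refine gen3_of (m := m) (m' := m') ?_ (Finset.mem_filter.1 he).2 ht h1 h2
      have h3 : max ((cof e.2 e.1 : ℝ) * Re e.1) ((cof e.1 e.2 : ℝ) * Re' e.2) = D e := rfl
      rw [h3, hDe]
      have h4 : 0 < η * DP R R' e := mul_pos hη (hDpos0 e (hENP e (hEXP e (hEGP e he))).1)
      linarith)
  -- the partner parts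
  have hEpair : ∀ e ∈ EE, Dich579.EPair (fun t => t^(1/20:ℝ)) θ θ' Re Re' e.1 e.2 := by
    intro e he
    exact (Finset.mem_filter.1 he).2
  have hFK : ∀ e ∈ E, D e ≤ 1 → F e ≤ 6 * (max (R e.1) (R' e.2) / K) := by
    intro e he hD1
    have h := hmem e he
    have hR' := (hS' _ h.2).2
    have hR := (hS _ h.1).2
    have hD0 := hDpos0 e he
    refine (hF6 e he hD1).trans (mul_le_mul_of_nonneg_left ?_ (by norm_num))
    rw [div_le_div_iff₀ hD0 hK]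
    have h1 : R e.1 * R' e.2 = max (R e.1) (R' e.2) * min (R e.1) (R' e.2) := by
      rw [max_mul_min]
    calc R e.1 * R' e.2 * K = max (R e.1) (R' e.2) * (K * min (R e.1) (R' e.2)) := by rw [h1]; ring
      _ ≤ max (R e.1) (R' e.2) * DP R R' e :=
          mul_le_mul_of_nonneg_left (hbig e he) (le_max_of_le_left hR.le)
  have boundE1 : ∑ e ∈ E1, F e ≤ 6 * (L / K) * ∑ q ∈ S, wt R q := by
    have hinj : Set.InjOn Prod.fst (E1 : Set (ℕ × ℕ)) := by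
      intro e he f hf h1
      have ae := hEpair e (hE1P e (Finset.mem_coe.1 he))
      have af := hEpair f (hE1P f (Finset.mem_coe.1 hf))
      rw [← h1] at af
      exact Prod.ext h1 (Dich579.partner ae af)
    have hone : ∀ e ∈ E1, F e ≤ 6 * (L / K) * wt R e.1 := by
      intro e he
      have heN := hENP e (hEXP e (hEHP e (hEEP e (hE1P e he))))
      have h := hmem e heN.1
      have hx := (Finset.mem_filter.1 he).2
      calc F e ≤ 6 * (max (R e.1) (R' e.2) / K) := hFK e heN.1 heN.2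
        _ = 6 * (R e.1 / K) := by rw [max_eq_left hx]
        _ ≤ 6 * ((L * wt R e.1) / K) :=
            mul_le_mul_of_nonneg_left (div_le_div_of_nonneg_right (hLS _ h.1) hK.le) (by norm_num)
        _ = _ := by ring
    calc ∑ e ∈ E1, F e ≤ ∑ e ∈ E1, 6 * (L / K) * wt R e.1 := Finset.sum_le_sum hone
      _ = ∑ q ∈ E1.image Prod.fst, 6 * (L / K) * wt R q := by rw [Finset.sum_image hinj]
      _ ≤ ∑ q ∈ S, 6 * (L / K) * wt R q := by
          apply Finset.sum_le_sum_of_subset_of_nonneg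
          · intro q hq
            obtain ⟨e, he, rfl⟩ := Finset.mem_image.1 hq
            exact (hmem e (hENP e (hEXP e (hEHP e (hEEP e (hE1P e he))))).1).1
          · intro q hq _
            have h1 := hLS q hq
            have h3 := (hS q hq).2
            have h4 : 0 ≤ L * wt R q := h3.le.trans h1
            have : 6 * (L / K) * wt R q = 6 * ((L * wt R q) / K) := by ring
            rw [this]
            positivity
      _ = _ := by rw [Finset.mul_sum]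
  have boundE2 : ∑ e ∈ E2, F e ≤ 6 * (L / K) * ∑ q ∈ S', wt R' q := by
    have hinj : Set.InjOn Prod.snd (E2 : Set (ℕ × ℕ)) := by
      intro e he f hf h1
      have ae := hEpair e (hE2P e (Finset.mem_coe.1 he))
      have af := hEpair f (hE2P f (Finset.mem_coe.1 hf))
      rw [← h1] at af
      exact Prod.ext (Dich579.partner' ae af) h1
    have hone : ∀ e ∈ E2, F e ≤ 6 * (L / K) * wt R' e.2 := by
      intro e he
      have heN := hENP e (hEXP e (hEHP e (hEEP e (hE2P e he))))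
      have h := hmem e heN.1
      have hx := (not_le.1 (Finset.mem_filter.1 he).2).le
      calc F e ≤ 6 * (max (R e.1) (R' e.2) / K) := hFK e heN.1 heN.2
        _ = 6 * (R' e.2 / K) := by rw [max_eq_right hx]
        _ ≤ 6 * ((L * wt R' e.2) / K) :=
            mul_le_mul_of_nonneg_left (div_le_div_of_nonneg_right (hLS' _ h.2) hK.le) (by norm_num)
        _ = _ := by ring
    calc ∑ e ∈ E2, F e ≤ ∑ e ∈ E2, 6 * (L / K) * wt R' e.2 := Finset.sum_le_sum hone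
      _ = ∑ q ∈ E2.image Prod.snd, 6 * (L / K) * wt R' q := by rw [Finset.sum_image hinj]
      _ ≤ ∑ q ∈ S', 6 * (L / K) * wt R' q := by
          apply Finset.sum_le_sum_of_subset_of_nonneg
          · intro q hq
            obtain ⟨e, he, rfl⟩ := Finset.mem_image.1 hq
            exact (hmem e (hENP e (hEXP e (hEHP e (hEEP e (hE2P e he))))).1).2
          · intro q hq _
            have h1 := hLS' q hq
            have h3 := (hS' q hq).2
            have h4 : 0 ≤ L * wt R' q := h3.le.trans h1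
            have : 6 * (L / K) * wt R' q = 6 * ((L * wt R' q) / K) := by ring
            rw [this]
            positivity
      _ = _ := by rw [Finset.mul_sum]
  -- the rest: fat pairs
  have hRT : ∀ w ∈ S, R w ≤ T := fun w hw =>
    (Finset.single_le_sum (f := R) (fun v hv => (hS v hv).2.le) hw).trans hsR
  have hRT' : ∀ w ∈ S', R' w ≤ T := fun w hw =>
    (Finset.single_le_sum (f := R') (fun v hv => (hS' v hv).2.le) hw).trans hsR'
  have boundR : ∑ e ∈ ER, F e ≤ (60 * K₂^5 * T / K + 6 / K + 6 * C' * K₂ ^ (-(1/16):ℝ)) *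
      (∑ q ∈ S, R q + ∑ r ∈ S', R' r) := by
    have hs0 : 0 ≤ ∑ q ∈ S, R q + ∑ r ∈ S', R' r :=
      add_nonneg (Finset.sum_nonneg fun v hv => (hS v hv).2.le)
        (Finset.sum_nonneg fun v hv => (hS' v hv).2.le)
    have hK₂0 : 0 < K₂ := by linarith
    have hco0 : 0 ≤ 60 * K₂^5 * T / K + 6 / K + 6 * C' * K₂ ^ (-(1/16):ℝ) := by positivity
    have hRP : ∀ e ∈ ER.filter (fun e => 0 < F e), e ∈ E ∧ 0 < F e ∧ D e ≤ 1 ∧ ∃ ρ ρ' : ℚ,
        1 < 10 * (ρ.den:ℝ)^5 * R e.1 ∧ 1 < 10 * (ρ'.den:ℝ)^5 * R' e.2 ∧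
        Lab θ (η * R e.1) ρ ∧ Lab θ' (η * R' e.2) ρ' ∧ (ρ.den:ℝ) ≤ (10 / η)^(1/4:ℝ) ∧
        (ρ'.den:ℝ) ≤ (10 / η)^(1/4:ℝ) ∧
        Co ((cof e.2 e.1 : ℕ) * ρ) ((cof e.1 e.2 : ℕ) * ρ') := by
      intro e he0
      obtain ⟨he, hpos⟩ := Finset.mem_filter.1 he0
      have heX := hEHP e (hERP e he)
      have heN := hENP e (hEXP e heX)
      have heP := heN.1
      have h := hmem e heP
      refine ⟨heP, hpos, heN.2, ?_⟩
      obtain ⟨m, m', hm⟩ := hrel e heP hpos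
      have hcl := classify_num hn (θ := θ) (θ' := θ') (x := cof e.1 e.2)
        (y := cof e.2 e.1) (r := Re e.1) (r' := Re' e.2) (m := m) (m' := m')
        (cof_pos (hS _ h.1).1) (cof_pos (hS' _ h.2).1) (hSe _ h.1).2 (hSe' _ h.2).2 (by
          have h3 : max ((cof e.2 e.1 : ℝ) * Re e.1) ((cof e.1 e.2 : ℝ) * Re' e.2) = D e := rfl
          rw [h3, hDe]
          have h4 : 0 < η * DP R R' e := mul_pos hη (hDpos0 e heP)
          linarith)
      rcases hcl with h3 | h3 | h3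
      · exact absurd h3 (Finset.mem_filter.1 (hERP e he)).2
      · exact absurd h3 (Finset.mem_filter.1 he).2
      · obtain ⟨t, m1, m1', ρ, ρ', ht, -, hDt, -, hFF, hex⟩ := h3
        have ht0 : 0 < t := lt_of_lt_of_le (by positivity) ht
        have hy1 : (1:ℝ) ≤ (cof e.2 e.1 : ℕ) := by
          have h0 : 0 < cof e.2 e.1 := cof_pos (hS' _ h.2).1
          exact_mod_cast h0
        have hx1 : (1:ℝ) ≤ (cof e.1 e.2 : ℕ) := by
          have h0 : 0 < cof e.1 e.2 := cof_pos (hS _ h.1).1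
          exact_mod_cast h0
        have h5 : η * R e.1 ≤ 1/t := by
          calc η * R e.1 = 1 * (η * R e.1) := (one_mul _).symm
            _ ≤ (cof e.2 e.1 : ℕ) * (η * R e.1) :=
                mul_le_mul_of_nonneg_right hy1 (hSe _ h.1).2.le
            _ ≤ 1/t := (le_max_left _ _).trans hDt
        have h6 : η * R' e.2 ≤ 1/t := by
          calc η * R' e.2 = 1 * (η * R' e.2) := (one_mul _).symm
            _ ≤ (cof e.1 e.2 : ℕ) * (η * R' e.2) :=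
                mul_le_mul_of_nonneg_right hx1 (hSe' _ h.2).2.le
            _ ≤ 1/t := (le_max_right _ _).trans hDt
        have f1 := fat_of hη hη1 (hS _ h.1).2 hFF.lab (hU _ h.1 ρ)
        have f2 := fat_of hη hη1 (hS' _ h.2).2 hFF.lab' (hU' _ h.2 ρ')
        refine ⟨ρ, ρ', f1, f2, hFF.lab, hFF.lab',
          fat_den ρ.pos hη hη1 (hS _ h.1).2 ht0 hFF.den h5 f1,
          fat_den ρ'.pos hη hη1 (hS' _ h.2).2 ht0 hFF.den' h6 f2,
          ⟨m1' * (cof e.1 e.2 : ℕ) - m1 * (cof e.2 e.1 : ℕ), ?_⟩⟩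
        have hex2 : (((cof e.2 e.1 : ℕ) : ℝ) * ρ - ((cof e.1 e.2 : ℕ) : ℝ) * ρ') =
            m1' * (cof e.1 e.2 : ℕ) - m1 * (cof e.2 e.1 : ℕ) := by linarith
        push_cast
        exact_mod_cast hex2
    have hred : ∑ e ∈ ER, F e ≤ ∑ e ∈ ER.filter (fun e => 0 < F e), F e := by
      rw [← Finset.sum_filter_add_sum_filter_not ER (fun e => 0 < F e)]
      have : ∑ e ∈ ER.filter (fun e => ¬ 0 < F e), F e ≤ 0 :=
        Finset.sum_nonpos fun e he => not_lt.1 (Finset.mem_filter.1 he).2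
      linarith
    refine hred.trans ?_
    rcases (ER.filter (fun e => 0 < F e)).eq_empty_or_nonempty with hE0 | ⟨e0, he0⟩
    · rw [hE0, Finset.sum_empty]
      exact mul_nonneg hco0 hs0
    · obtain ⟨k1, -, -, ρ, ρ', k2, k3, k4, k5, k6, k7, k8⟩ := hRP e0 he0
      have m0 := hmem e0 k1
      refine hfat K T K₂ ρ ρ' S S' (ER.filter (fun e => 0 < F e)) R R' F hK hK₂ hTK hT
        (fun e he => hES (hRP e he).1) hS hS' hsR hsR' ?_ (fun e he => hbig e (hRP e he).1)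
        (fun e he => hF6 e (hRP e he).1 (hRP e he).2.2.1)
      intro e he
      obtain ⟨j1, -, -, ρ₁, ρ₁', j2, j3, j4, j5, j6, j7, j8⟩ := hRP e he
      have m1 := hmem e j1
      have e1 : ρ = ρ₁ := fat_uniq hη hη1 hT hTη k4 j4 (hS _ m0.1).2 (hS _ m1.1).2
        (hRT _ m0.1) (hRT _ m1.1) k6 j6
      have e2 : ρ' = ρ₁' := fat_uniq hη hη1 hT hTη k5 j5 (hS' _ m0.2).2 (hS' _ m1.2).2
        (hRT' _ m0.2) (hRT' _ m1.2) k7 j7
      rw [e1, e2]
      exact ⟨j2, j3, j8⟩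
  -- generic part
  have boundM : ∑ e ∈ EM, F e ≤ 6 * η * L^2 * ((∑ q ∈ S, wt R q) * (∑ r ∈ S', wt R' r)) := by
    have h1 : ∀ e ∈ EM, F e ≤ 6 * η * L^2 * (wt R e.1 * wt R' e.2) := by
      intro e he
      obtain ⟨heP, hD1⟩ := Finset.mem_filter.1 he
      rw [hDe] at hD1
      have hD1' := (not_le.1 hD1).le
      have hD := hDpos0 e heP
      have h := hmem e heP
      have hR := (hS _ h.1).2
      have hR' := (hS' _ h.2).2
      calc F e ≤ 2 * ((R e.1 * R' e.2) / DP R R' e) * (2 * η * DP R R' e + 1) := hF e heP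
        _ ≤ 2 * ((R e.1 * R' e.2) / DP R R' e) * (3 * (η * DP R R' e)) := by
            apply mul_le_mul_of_nonneg_left _ (by positivity)
            linarith
        _ = 6 * η * (R e.1 * R' e.2) := by field_simp; ring
        _ ≤ 6 * η * (L^2 * (wt R e.1 * wt R' e.2)) := by
            apply mul_le_mul_of_nonneg_left (hRR e heP) (by positivity)
        _ = _ := by ring
    calc ∑ e ∈ EM, F e ≤ ∑ e ∈ EM, 6 * η * L^2 * (wt R e.1 * wt R' e.2) := Finset.sum_le_sum h1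
      _ ≤ ∑ e ∈ S ×ˢ S', 6 * η * L^2 * (wt R e.1 * wt R' e.2) := by
          apply Finset.sum_le_sum_of_subset_of_nonneg
          · exact fun e he => hES (Finset.mem_filter.1 he).1
          intro e he _
          have h := Finset.mem_product.1 he
          have := hmu _ h.1
          have := hmu' _ h.2
          positivity
      _ = _ := by
          rw [← Finset.mul_sum, Finset.sum_product, Finset.sum_mul_sum]
  rw [hsmu, hsmu'] at boundY
  rw [hsum, hsum'] at boundG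
  set M := ∑ q ∈ S, wt R q with hM
  set M' := ∑ q ∈ S', wt R' q with hM'
  have z1 : Real.exp ((1/2-eps1) * (-(((0:ℕ):ℝ) * 0) + 3 * (∑ p ∈ (∅ : Finset ℕ), 1/(p:ℝ)) +
      (-(((0:ℕ):ℝ) * 0) + 3 * ∑ p ∈ (∅ : Finset ℕ), 1/(p:ℝ)))) = 1 := by
    simp
  rw [z1] at boundY
  have e3 : (η * M * (η * M'))^(1/2+eps1) = η * (η^(2*eps1) * (M * M')^(1/2+eps1)) := by
    have h1 : η * M * (η * M') = η^(2:ℝ) * (M * M') := by
      rw [Real.rpow_two]; ring
    rw [h1, Real.mul_rpow (by positivity) (mul_nonneg hM0 hM0'), ← Real.rpow_mul hη.le]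
    have h2 : (2:ℝ) * (1/2+eps1) = 1 + 2 * eps1 := by ring
    rw [h2, Real.rpow_add hη, Real.rpow_one]
    ring
  rw [e3] at boundY boundG
  rw [hsplit]
  set Y1 := η^(2*eps1) * (M * M')^(1/2+eps1) with hY1
  have hfin : 6 * L^2 * (n * (2 * KH 1 0 eps1 * (2:ℝ)^(2*eps1*n)) + C * ((2:ℝ)^n)^(-(1/1000):ℝ)) * Y1
      = n * (2 * ((6/η) * L^2) * KH 1 0 eps1 * (2:ℝ)^(2*eps1*n)) * (1 * (η * Y1)) +
        C * ((6/η) * L^2) * ((2:ℝ)^n)^(-(1/1000):ℝ) * (η * Y1) := by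
    field_simp
  rw [hfin]
  have e5 : 6 * (L / K) * (M + M') = 6 * (L / K) * M + 6 * (L / K) * M' := by ring
  rw [e5]
  linarith


/-! ### numbers -/

open Crest.Agent.R4.RseN207 (small log_large exists_scale)
open Crest.Agent.R4P.RtN28 (small_s)

set_option maxHeartbeats 4000000 in
/-- **unlabelled pairs of two nodes**, with a rate -/
theorem xuR (CL C2 s : ℝ) (hCL : 0 ≤ CL) (hC2 : 0 ≤ C2) (hs0 : 0 ≤ s) : ∃ a : ℝ, 0 ≤ a ∧
    ∃ p₁ : ℕ, ∀ p : ℕ, p₁ ≤ p →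
    ∀ (η θ θ' K : ℝ) (S S' : Finset ℕ) (E : Finset (ℕ × ℕ)) (R R' : ℕ → ℝ) (F : ℕ × ℕ → ℝ),
    0 < η → η ≤ Real.exp (-(Real.log p ^ (4/5:ℝ))) → Real.log p ^ a ≤ K → E ⊆ S ×ˢ S' →
    (∀ w ∈ S, 0 < w ∧ 0 < R w) → (∀ w ∈ S', 0 < w ∧ 0 < R' w) →
    (∀ w ∈ S, R w ≤ CL * Real.log p * wt R w) → (∀ w ∈ S', R' w ≤ CL * Real.log p * wt R' w) →
    (∀ z : ℝ, ((2 * p : ℕ):ℝ)^2 ≤ z → ∀ w ∈ S, Crest.Agent.R4.ClsB.Tame z 1 w) →
    (∀ z : ℝ, ((2 * p : ℕ):ℝ)^2 ≤ z → ∀ w ∈ S', Crest.Agent.R4.ClsB.Tame z 1 w) →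
    ∑ w ∈ S, wt R w ≤ Real.log p ^ C2 → ∑ w ∈ S', wt R' w ≤ Real.log p ^ C2 →
    (∀ e ∈ E, K * min (R e.1) (R' e.2) ≤ DP R R' e) →
    (∀ e ∈ E, F e ≤ 2 * ((R e.1 * R' e.2) / DP R R' e) * (2 * η * DP R R' e + 1)) →
    (∀ e ∈ E, 0 < F e → ∃ m m' : ℤ,
      |(m + θ) * (cof e.2 e.1 : ℕ) - (m' + θ') * (cof e.1 e.2 : ℕ)| ≤ η * DP R R' e) →
    (∀ w ∈ S, ∀ ρ, ¬ Lab θ (R w) ρ) → (∀ w ∈ S', ∀ ρ, ¬ Lab θ' (R' w) ρ) →
    ∑ e ∈ E, F e ≤ Real.log p ^ (-s) * (∑ w ∈ S, wt R w + ∑ w ∈ S', wt R' w) := by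
  classical
  obtain ⟨C, C', c0, hC1, hC1', hc0, H⟩ := inUU3
  obtain ⟨T0, hT01, H⟩ := H c0 hc0 le_rfl
  have hKH := (KH_pos 1 0 eps1).le
  obtain ⟨pa, hpa⟩ := exists_scale (c1 := c0) (T0 := T0) hc0
  -- the exponents
  set b : ℝ := 16 * (s + 3) + C2 + 2 with hb
  set a : ℝ := 5 * b + (C2 + 2) + (s + 3) with ha
  have hb0 : 0 ≤ b := by rw [hb]; linarith
  have ha0 : 0 ≤ a := by rw [ha]; linarith
  obtain ⟨pb, hpb⟩ := log_large (10 + CL + 8 * 6 * CL + 8 * 60 * CL + 8 * 6 * C' * CL)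
  obtain ⟨p1, hp1⟩ := small_s (6 * CL^2) (2 + (C2 + 1)) s (δ := 1/8) (by positivity)
  obtain ⟨p2, hp2⟩ := small_s (6 * CL^2 * (2 * KH 1 0 eps1 + C) * (2 * 4^(1/c0))^2)
    (2 + 2/c0 + (C2 + 1)) s (δ := 1/8) (by positivity)
  obtain ⟨p3, hp3⟩ := small_s 8 (C2 + 2) 0 (δ := 1/2) (by positivity)
  refine ⟨a, ha0, pa + pb + p1 + p2 + p3 + 3, fun p hp => ?_⟩
  obtain ⟨n, hn400, hnT, hnX, hnU⟩ := hpa (2 * p) (by omega)
  intro η θ θ' K S S' E R R' F hη hη1 hK hES hS hS' hLS hLS' hSt hSt' hMb hMb' hbig hF hrel hU hU'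
  have hll := hpb p (by omega)
  set ℓ := Real.log (p:ℝ) with hℓ
  have hC'CL : 0 ≤ 8 * 6 * C' * CL := by positivity
  have hl10 : 10 ≤ ℓ := by linarith
  have hl1 : 1 ≤ ℓ := by linarith
  have hℓ0 : 0 < ℓ := by linarith
  have hlCL : CL ≤ ℓ := by linarith
  have hpN : 0 < p := by omega
  have hp0 : (0:ℝ) < p := by exact_mod_cast hpN
  set κ : ℝ := ℓ ^ (-s) with hκd
  have hκ : 0 < κ := Real.rpow_pos_of_pos hℓ0 _
  set L := CL * ℓ with hL
  have hL0 : 0 ≤ L := by positivity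
  set M := ∑ w ∈ S, wt R w with hM
  set M' := ∑ w ∈ S', wt R' w with hM'
  have hwt : ∀ q ∈ S, 0 ≤ wt R q := fun q hq => by
    unfold wt; exact mul_nonneg (hS q hq).2.le (by positivity)
  have hwt' : ∀ q ∈ S', 0 ≤ wt R' q := fun q hq => by
    unfold wt; exact mul_nonneg (hS' q hq).2.le (by positivity)
  have hM0 : 0 ≤ M := Finset.sum_nonneg hwt
  have hM0' : 0 ≤ M' := Finset.sum_nonneg hwt'
  set Mt := M + M' with hMt
  have hMt0 : 0 ≤ Mt := add_nonneg hM0 hM0'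
  have hMtb : Mt ≤ ℓ^(C2+1) := by
    rw [Real.rpow_add hℓ0, Real.rpow_one]
    have h0 : 0 ≤ ℓ^C2 := by positivity
    have h2 : (2:ℝ) ≤ ℓ := by linarith
    calc Mt ≤ ℓ^C2 + ℓ^C2 := add_le_add hMb hMb'
      _ = ℓ^C2 * 2 := by ring
      _ ≤ ℓ^C2 * ℓ := mul_le_mul_of_nonneg_left h2 h0
  have hMC : ∀ x : ℝ, 0 ≤ x → x ≤ 1 → Mt^(1+x) ≤ Mt * ℓ^(C2+1) := by
    intro x hx0 hx1
    rcases hMt0.eq_or_lt with h0 | h0
    · rw [← h0, Real.zero_rpow (by linarith)]; simp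
    · rw [Real.rpow_add h0, Real.rpow_one]
      apply mul_le_mul_of_nonneg_left _ hMt0
      calc Mt^x ≤ (ℓ^(C2+1))^x := Real.rpow_le_rpow hMt0 hMtb hx0
        _ = ℓ^((C2+1)*x) := by rw [← Real.rpow_mul hℓ0.le]
        _ ≤ ℓ^(C2+1) := Real.rpow_le_rpow_of_exponent_le hl1
            (mul_le_of_le_one_right (by linarith) hx1)
  set W := Real.exp (-(1/500) * ℓ^(4/5:ℝ)) with hW
  have hW0 : 0 < W := Real.exp_pos _
  have hx45 : 0 ≤ ℓ^(4/5:ℝ) := by positivity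
  have hηW : η ≤ W := hη1.trans (Real.exp_le_exp.2 (by linarith))
  have hη_one : η ≤ 1 := by
    refine hη1.trans ?_
    rw [Real.exp_le_one_iff]
    linarith
  have hηe : η^(2*eps1) ≤ W := by
    have he1 : eps1 = 1/1000 := rfl
    calc η^(2*eps1) ≤ (Real.exp (-(ℓ^(4/5:ℝ))))^(2*eps1) :=
          Real.rpow_le_rpow hη.le hη1 (by rw [he1]; norm_num)
      _ = Real.exp (-(ℓ^(4/5:ℝ)) * (2*eps1)) := by rw [← Real.exp_mul]
      _ = W := by rw [hW, he1]; congr 1; ring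
  have hη3 : η^(3/10:ℝ) ≤ W := by
    calc η^(3/10:ℝ) ≤ (Real.exp (-(ℓ^(4/5:ℝ))))^(3/10:ℝ) :=
          Real.rpow_le_rpow hη.le hη1 (by norm_num)
      _ = Real.exp (-(ℓ^(4/5:ℝ)) * (3/10)) := by rw [← Real.exp_mul]
      _ ≤ W := Real.exp_le_exp.2 (by linarith)
  -- the parameters
  set T : ℝ := ℓ^(C2+2) with hTd
  set K₂ : ℝ := ℓ^b with hK₂d
  have hK0 : 0 < K := lt_of_lt_of_le (Real.rpow_pos_of_pos hℓ0 _) hK
  have hT1 : 1 ≤ T := Real.one_le_rpow hl1 (by linarith)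
  have hTK : T ≤ K₂ := Real.rpow_le_rpow_of_exponent_le hl1 (by rw [hb]; linarith)
  have hK₂10 : 10 ≤ K₂ := by
    calc (10:ℝ) ≤ ℓ^(1:ℝ) := by rw [Real.rpow_one]; exact hl10
      _ ≤ ℓ^b := Real.rpow_le_rpow_of_exponent_le hl1 (by rw [hb]; linarith)
  have hsum1 : ∑ w ∈ S, R w ≤ L * M := by
    rw [hM, Finset.mul_sum]; exact Finset.sum_le_sum hLS
  have hsum1' : ∑ w ∈ S', R' w ≤ L * M' := by
    rw [hM', Finset.mul_sum]; exact Finset.sum_le_sum hLS'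
  have hLT : ∀ m : ℝ, m ≤ ℓ^C2 → L * m ≤ T := by
    intro m hm
    have h0 : 0 ≤ ℓ^C2 := by positivity
    calc L * m ≤ L * ℓ^C2 := mul_le_mul_of_nonneg_left hm hL0
      _ ≤ (ℓ * ℓ) * ℓ^C2 := mul_le_mul_of_nonneg_right
          (mul_le_mul_of_nonneg_right hlCL hℓ0.le) h0
      _ = T := by rw [hTd, Real.rpow_add hℓ0, Real.rpow_two]; ring
  have hsR := hsum1.trans (hLT M hMb)
  have hsR' := hsum1'.trans (hLT M' hMb')
  have hTη : 8 * T * η^(3/10:ℝ) < 1 := by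
    have h := hp3 p (by omega)
    have h1 : 8 * T * η^(3/10:ℝ) ≤ 8 * T * W := mul_le_mul_of_nonneg_left hη3 (by positivity)
    have h2 : 8 * T * W ≤ 1/2 := by
      refine h.trans (le_of_eq ?_)
      rw [neg_zero, Real.rpow_zero, mul_one]
    exact lt_of_le_of_lt (h1.trans h2) (by norm_num)
  have bG := H (((2 * p : ℕ):ℝ)^2) L η θ θ' K T K₂ n 1 S S' E R R' F hn400 hnT hnX one_pos hη hη_one
    hK0 hES hS hS' hLS hLS' hSt hSt' hbig hF hrel hU hU' hK₂10 hTK hT1 hsR hsR' hTη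
  -- `log (2p) ≤ 2 log p`
  have hl2p : Real.log ((2 * p : ℕ):ℝ) ≤ 2 * ℓ := by
    have h2 : (2:ℝ) ≤ p := by
      have : 2 ≤ p := by omega
      exact_mod_cast this
    have h5 : ((2 * p : ℕ) : ℝ) ≤ (p : ℝ) ^ 2 := by
      push_cast
      rw [sq]
      exact mul_le_mul_of_nonneg_right h2 hp0.le
    have h6 : (0 : ℝ) < ((2 * p : ℕ) : ℝ) := by push_cast; linarith
    have h7 := Real.log_le_log h6 h5
    rw [Real.log_pow] at h7
    exact_mod_cast h7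
  have hl2p0 : 0 ≤ Real.log ((2 * p : ℕ):ℝ) := Real.log_nonneg (by exact_mod_cast (by omega : 1 ≤ 2 * p))
  have hMM : M * M' ≤ Mt * Mt := by
    have h1 : M ≤ Mt := by linarith
    have h2 : M' ≤ Mt := by linarith
    exact mul_le_mul h1 h2 hM0' hMt0
  -- term 1
  have t1 : 6 * η * L^2 * (M * M') ≤ 1/8 * κ * Mt := by
    have h := hp1 p (by omega)
    calc 6 * η * L^2 * (M * M') ≤ 6 * η * L^2 * (Mt * Mt) :=
          mul_le_mul_of_nonneg_left hMM (by positivity)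
      _ = 6 * L^2 * η * Mt * Mt := by ring
      _ ≤ 6 * L^2 * W * ℓ^(C2+1) * Mt := by gcongr
      _ = (6 * CL^2) * (ℓ^(2:ℝ) * ℓ^(C2+1)) * W * Mt := by rw [hL, Real.rpow_two]; ring
      _ = (6 * CL^2) * ℓ^(2 + (C2+1)) * W * Mt := by rw [Real.rpow_add hℓ0 2 (C2+1)]
      _ ≤ 1/8 * κ * Mt := mul_le_mul_of_nonneg_right h hMt0
  -- term 2
  have hn2 : (n:ℝ) ≤ (2:ℝ)^n := by
    exact_mod_cast (Nat.lt_two_pow_self (n := n)).le
  set Tn := (2:ℝ)^n with hTn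
  have hTn1 : 1 ≤ Tn := one_le_pow₀ (by norm_num)
  have hTT : (2:ℝ)^(2*eps1*n) ≤ Tn := by
    have he1 : eps1 = 1/1000 := rfl
    rw [hTn, ← Real.rpow_natCast]
    apply Real.rpow_le_rpow_of_exponent_le (by norm_num)
    rw [he1]
    have : (0:ℝ) ≤ n := Nat.cast_nonneg _
    linarith
  have hTC : Tn^(-(1/1000):ℝ) ≤ 1 := Real.rpow_le_one_of_one_le_of_nonpos hTn1 (by norm_num)
  have hB : n * (2 * KH 1 0 eps1 * (2:ℝ)^(2*eps1*n)) + C * Tn^(-(1/1000):ℝ) ≤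
      (2 * KH 1 0 eps1 + C) * Tn^2 := by
    have h1 : n * (2 * KH 1 0 eps1 * (2:ℝ)^(2*eps1*n)) ≤ Tn * (2 * KH 1 0 eps1 * Tn) := by
      gcongr
    have h2 : C * Tn^(-(1/1000):ℝ) ≤ C * Tn^2 := by
      apply mul_le_mul_of_nonneg_left _ (by linarith)
      exact hTC.trans (one_le_pow₀ hTn1)
    calc _ ≤ Tn * (2 * KH 1 0 eps1 * Tn) + C * Tn^2 := add_le_add h1 h2
      _ = _ := by ring
  have hT2 : Tn^2 ≤ (2 * 4^(1/c0))^2 * ℓ^(2/c0) := by
    have hU2 : Tn ≤ 2 * (4*ℓ)^(1/c0) := by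
      refine hnU.trans ?_
      refine mul_le_mul_of_nonneg_left ?_ (by norm_num)
      exact Real.rpow_le_rpow (by positivity) (by linarith) (by positivity)
    calc Tn^2 ≤ (2 * (4*ℓ)^(1/c0))^2 := pow_le_pow_left₀ (by positivity) hU2 2
      _ = (2 * 4^(1/c0))^2 * (ℓ^(1/c0) * ℓ^(1/c0)) := by
          rw [Real.mul_rpow (by norm_num) hℓ0.le]; ring
      _ = _ := by
          rw [← Real.rpow_add hℓ0]
          congr 2
          ring
  have t2 : 6 * L^2 * (n * (2 * KH 1 0 eps1 * (2:ℝ)^(2*eps1*n)) +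
        C * Tn^(-(1/1000):ℝ)) * (η^(2*eps1) * (M * M')^(1/2+eps1)) ≤ 1/8 * κ * Mt := by
    have h := hp2 p (by omega)
    have he1 : eps1 = 1/1000 := rfl
    have h1 : (M * M')^(1/2+eps1) ≤ Mt * ℓ^(C2+1) := by
      have e1 : (Mt * Mt)^(1/2+eps1) = Mt^(1+2*eps1) := by
        rw [← sq, ← Real.rpow_natCast Mt 2, ← Real.rpow_mul hMt0]
        congr 1
        push_cast
        ring
      refine (Real.rpow_le_rpow (mul_nonneg hM0 hM0') hMM (by rw [he1]; norm_num)).trans ?_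
      rw [e1]
      exact hMC (2*eps1) (by rw [he1]; norm_num) (by rw [he1]; norm_num)
    have h0 : 0 ≤ (M * M')^(1/2+eps1) := by positivity
    have hηp' : 0 ≤ η^(2*eps1) := by positivity
    calc 6 * L^2 * (n * (2 * KH 1 0 eps1 * (2:ℝ)^(2*eps1*n)) +
          C * Tn^(-(1/1000):ℝ)) * (η^(2*eps1) * (M * M')^(1/2+eps1))
        ≤ 6 * L^2 * ((2 * KH 1 0 eps1 + C) * ((2 * 4^(1/c0))^2 * ℓ^(2/c0))) *
          (W * (Mt * ℓ^(C2+1))) := by
          have h2 := hB.trans (mul_le_mul_of_nonneg_left hT2 (by linarith : 0 ≤ 2 * KH 1 0 eps1 + C))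
          gcongr
      _ = (6 * CL^2 * (2 * KH 1 0 eps1 + C) * (2 * 4^(1/c0))^2) *
          (ℓ^(2:ℝ) * ℓ^(2/c0) * ℓ^(C2+1)) * W * Mt := by
          rw [hL, Real.rpow_two]; ring
      _ = (6 * CL^2 * (2 * KH 1 0 eps1 + C) * (2 * 4^(1/c0))^2) *
          ℓ^(2 + 2/c0 + (C2+1)) * W * Mt := by
          rw [← Real.rpow_add hℓ0, ← Real.rpow_add hℓ0]
      _ ≤ 1/8 * κ * Mt := mul_le_mul_of_nonneg_right h hMt0
  -- powers of `ℓ`
  set g : ℝ := ℓ^(-(s+3)) with hg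
  have hg0 : 0 < g := Real.rpow_pos_of_pos hℓ0 _
  have hKinv : 1 / K ≤ ℓ^(-a) := by
    rw [Real.rpow_neg hℓ0.le, ← one_div]
    exact one_div_le_one_div_of_le (Real.rpow_pos_of_pos hℓ0 _) hK
  have hKg : 1 / K ≤ g := hKinv.trans (Real.rpow_le_rpow_of_exponent_le hl1 (by rw [ha]; linarith))
  have hgl : g * ℓ ≤ κ / ℓ := by
    have e1 : g * ℓ^(1:ℝ) = κ * ℓ^(-2:ℝ) := by
      rw [hg, hκd, ← Real.rpow_add hℓ0, ← Real.rpow_add hℓ0]; congr 1; ring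
    rw [Real.rpow_one] at e1
    rw [e1, div_eq_mul_inv, ← Real.rpow_neg_one]
    exact mul_le_mul_of_nonneg_left (Real.rpow_le_rpow_of_exponent_le hl1 (by norm_num)) hκ.le
  have hcg : ∀ c : ℝ, 0 ≤ c → 8 * c * CL ≤ ℓ → c * g * L ≤ 1/8 * κ := by
    intro c hc h8
    calc c * g * L = c * CL * (g * ℓ) := by rw [hL]; ring
      _ ≤ c * CL * (κ / ℓ) := mul_le_mul_of_nonneg_left hgl (by positivity)
      _ = (c * CL / ℓ) * κ := by ring
      _ ≤ (1/8) * κ := by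
          refine mul_le_mul_of_nonneg_right ?_ hκ.le
          rw [div_le_iff₀ hℓ0]; linarith
  -- term 3
  have t3 : 6 * (L / K) * Mt ≤ 1/8 * κ * Mt := by
    refine mul_le_mul_of_nonneg_right ?_ hMt0
    calc 6 * (L / K) = 6 * (1 / K) * L := by ring
      _ ≤ 6 * g * L := by gcongr
      _ ≤ 1/8 * κ := hcg 6 (by norm_num) (by linarith)
  -- term 4
  have hRM : ∑ q ∈ S, R q + ∑ r ∈ S', R' r ≤ L * Mt := by rw [hMt, mul_add]; exact add_le_add hsum1 hsum1'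
  have hco : 0 ≤ 60 * K₂^5 * T / K + 6 / K + 6 * C' * K₂ ^ (-(1/16):ℝ) := by positivity
  have t4 : (60 * K₂^5 * T / K + 6 / K + 6 * C' * K₂ ^ (-(1/16):ℝ)) *
      (∑ q ∈ S, R q + ∑ r ∈ S', R' r) ≤ 3/8 * κ * Mt := by
    have q1 : 60 * K₂^5 * T / K * L ≤ 1/8 * κ := by
      have e1 : K₂^5 * T = ℓ^(5 * b + (C2 + 2)) := by
        rw [hK₂d, hTd, ← Real.rpow_natCast (ℓ^b) 5, ← Real.rpow_mul hℓ0.le, ← Real.rpow_add hℓ0]
        congr 1; push_cast; ring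
      have e2 : K₂^5 * T * (1 / K) ≤ g := by
        rw [e1]
        calc ℓ^(5 * b + (C2 + 2)) * (1 / K) ≤ ℓ^(5 * b + (C2 + 2)) * ℓ^(-a) :=
              mul_le_mul_of_nonneg_left hKinv (by positivity)
          _ = g := by rw [← Real.rpow_add hℓ0, hg]; congr 1; rw [ha]; ring
      calc 60 * K₂^5 * T / K * L = 60 * (K₂^5 * T * (1 / K)) * L := by ring
        _ ≤ 60 * g * L := by gcongr
        _ ≤ 1/8 * κ := hcg 60 (by norm_num) (by linarith)
    have q2 : 6 / K * L ≤ 1/8 * κ := by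
      calc 6 / K * L = 6 * (1 / K) * L := by ring
        _ ≤ 6 * g * L := by gcongr
        _ ≤ 1/8 * κ := hcg 6 (by norm_num) (by linarith)
    have q3 : 6 * C' * K₂ ^ (-(1/16):ℝ) * L ≤ 1/8 * κ := by
      have e1 : K₂ ^ (-(1/16):ℝ) ≤ g := by
        rw [hK₂d, ← Real.rpow_mul hℓ0.le, hg]
        refine Real.rpow_le_rpow_of_exponent_le hl1 ?_
        rw [hb]; linarith
      calc 6 * C' * K₂ ^ (-(1/16):ℝ) * L ≤ 6 * C' * g * L := by gcongr
        _ ≤ 1/8 * κ := hcg (6 * C') (by positivity) (by linarith)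
    calc _ ≤ (60 * K₂^5 * T / K + 6 / K + 6 * C' * K₂ ^ (-(1/16):ℝ)) * (L * Mt) :=
          mul_le_mul_of_nonneg_left hRM hco
      _ = (60 * K₂^5 * T / K * L + 6 / K * L + 6 * C' * K₂ ^ (-(1/16):ℝ) * L) * Mt := by ring
      _ ≤ (1/8 * κ + 1/8 * κ + 1/8 * κ) * Mt :=
          mul_le_mul_of_nonneg_right (add_le_add (add_le_add q1 q2) q3) hMt0
      _ = 3/8 * κ * Mt := by ring
  have hκM : 0 ≤ κ * Mt := mul_nonneg hκ.le hMt0
  refine bG.trans ?_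
  calc _ ≤ 1/8 * κ * Mt + 1/8 * κ * Mt + 1/8 * κ * Mt + 3/8 * κ * Mt :=
        add_le_add (add_le_add (add_le_add t1 t2) t3) t4
    _ ≤ κ * Mt := by linarith

/-! ### item coordinates -/

section tr
open Crest.Agent.R4P.RseNd23 (wA wt_tr R_tr sum_tr1)
open Crest.Agent.R4.AvgItem710 (Dp)

/-- `D` of a pair of items of two nodes -/
noncomputable def DN2 (A A' : ℕ) (R R' : ℕ → ℝ) (e : ℕ × ℕ) : ℝ :=
  Dp (e.1 / A) (e.2 / A') (R e.1) (R' e.2)

lemma DP_eq2 (A A' : ℕ) (R R' : ℕ → ℝ) {q r : ℕ} (hq : A ∣ q) (hr : A' ∣ r) :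
    DP (fun v => R (A * v)) (fun v => R' (A' * v)) (q / A, r / A') = DN2 A A' R R' (q, r) := by
  unfold Crest.Agent.R4.InX944.DP DN2 Crest.Agent.R4.AvgItem710.Dp
  simp only
  rw [Nat.mul_div_cancel' hq, Nat.mul_div_cancel' hr]

lemma sum_trx {A A' : ℕ} {T T' : Finset ℕ} (hT : ∀ q ∈ T, A ∣ q) (hT' : ∀ q ∈ T', A' ∣ q)
    {E : Finset (ℕ × ℕ)} (hE : E ⊆ T ×ˢ T') (g : ℕ × ℕ → ℝ) :
    ∑ e ∈ E.image (fun e => (e.1 / A, e.2 / A')), g e = ∑ e ∈ E, g (e.1 / A, e.2 / A') := by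
  refine Finset.sum_image fun e he f hf h => ?_
  have h1 : e.1 / A = f.1 / A := congrArg Prod.fst h
  have h2 : e.2 / A' = f.2 / A' := congrArg Prod.snd h
  obtain ⟨a1, a2⟩ := Finset.mem_product.1 (hE he)
  obtain ⟨b1, b2⟩ := Finset.mem_product.1 (hE hf)
  apply Prod.ext
  · rw [← Nat.mul_div_cancel' (hT _ a1), ← Nat.mul_div_cancel' (hT _ b1), h1]
  · rw [← Nat.mul_div_cancel' (hT' _ a2), ← Nat.mul_div_cancel' (hT' _ b2), h2]

/-- **unlabelled pairs of two nodes**, item coordinates -/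
theorem xuR' (CL C2 s : ℝ) (hCL : 0 ≤ CL) (hC2 : 0 ≤ C2) (hs0 : 0 ≤ s) : ∃ a : ℝ, 0 ≤ a ∧
    ∃ p₁ : ℕ, ∀ p : ℕ, p₁ ≤ p →
    ∀ (A A' : ℕ) (η θ θ' K : ℝ) (T T' : Finset ℕ) (E : Finset (ℕ × ℕ)) (R R' : ℕ → ℝ)
      (F : ℕ × ℕ → ℝ), (∀ q ∈ T, A ∣ q) → (∀ q ∈ T', A' ∣ q) →
    0 < η → η ≤ Real.exp (-(Real.log p ^ (4/5:ℝ))) → Real.log p ^ a ≤ K → E ⊆ T ×ˢ T' →
    (∀ q ∈ T, 0 < q / A ∧ 0 < R q) → (∀ q ∈ T', 0 < q / A' ∧ 0 < R' q) →
    (∀ q ∈ T, R q ≤ CL * Real.log p * wA A R q) →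
    (∀ q ∈ T', R' q ≤ CL * Real.log p * wA A' R' q) →
    (∀ z : ℝ, ((2 * p : ℕ):ℝ)^2 ≤ z → ∀ q ∈ T, Crest.Agent.R4.ClsB.Tame z 1 (q / A)) →
    (∀ z : ℝ, ((2 * p : ℕ):ℝ)^2 ≤ z → ∀ q ∈ T', Crest.Agent.R4.ClsB.Tame z 1 (q / A')) →
    ∑ q ∈ T, wA A R q ≤ Real.log p ^ C2 → ∑ q ∈ T', wA A' R' q ≤ Real.log p ^ C2 →
    (∀ e ∈ E, K * min (R e.1) (R' e.2) ≤ DN2 A A' R R' e) →
    (∀ e ∈ E, F e ≤ 2 * ((R e.1 * R' e.2) / DN2 A A' R R' e) * (2 * (η * DN2 A A' R R' e) + 1)) →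
    (∀ e ∈ E, 0 < F e → ∃ m m' : ℤ,
      |(m + θ) * (cof (e.2 / A') (e.1 / A) : ℕ) - (m' + θ') * (cof (e.1 / A) (e.2 / A') : ℕ)| ≤
        η * DN2 A A' R R' e) →
    (∀ q ∈ T, ∀ ρ, ¬ Lab θ (R q) ρ) → (∀ q ∈ T', ∀ ρ, ¬ Lab θ' (R' q) ρ) →
    ∑ e ∈ E, F e ≤ Real.log p ^ (-s) * (∑ q ∈ T, wA A R q + ∑ q ∈ T', wA A' R' q) := by
  obtain ⟨a, ha, p₁, H⟩ := xuR CL C2 s hCL hC2 hs0
  refine ⟨a, ha, p₁, fun p hp A A' η θ θ' K T T' E R R' F hA hA' hη hη1 hK hE hT hT' hL hL' htm htm'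
    hM hM' hbig hF hrel hlab hlab' => ?_⟩
  have hmem : ∀ e ∈ E, e.1 ∈ T ∧ e.2 ∈ T' := fun e he => Finset.mem_product.1 (hE he)
  have key := H p hp η θ θ' K (T.image (· / A)) (T'.image (· / A'))
    (E.image fun e => (e.1 / A, e.2 / A'))
    (fun v => R (A * v)) (fun v => R' (A' * v)) (fun e => F (A * e.1, A' * e.2)) hη hη1 hK
    (by
      intro x hx
      obtain ⟨e, he, rfl⟩ := Finset.mem_image.1 hx
      exact Finset.mem_product.2 ⟨Finset.mem_image_of_mem _ (hmem e he).1,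
        Finset.mem_image_of_mem _ (hmem e he).2⟩)
    (fun v hv => by
      obtain ⟨q, hq, rfl⟩ := Finset.mem_image.1 hv
      have h1 := hT q hq
      exact ⟨h1.1, by rw [Nat.mul_div_cancel' (hA q hq)]; exact h1.2⟩)
    (fun v hv => by
      obtain ⟨q, hq, rfl⟩ := Finset.mem_image.1 hv
      have h1 := hT' q hq
      exact ⟨h1.1, by rw [Nat.mul_div_cancel' (hA' q hq)]; exact h1.2⟩)
    (fun v hv => by
      obtain ⟨q, hq, rfl⟩ := Finset.mem_image.1 hv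
      have h1 := hL q hq
      rw [wt_tr A R (hA q hq)]
      exact (R_tr A R (hA q hq)).le.trans h1)
    (fun v hv => by
      obtain ⟨q, hq, rfl⟩ := Finset.mem_image.1 hv
      have h1 := hL' q hq
      rw [wt_tr A' R' (hA' q hq)]
      exact (R_tr A' R' (hA' q hq)).le.trans h1)
    (fun z hz v hv => by
      obtain ⟨q, hq, rfl⟩ := Finset.mem_image.1 hv
      exact htm z hz q hq)
    (fun z hz v hv => by
      obtain ⟨q, hq, rfl⟩ := Finset.mem_image.1 hv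
      exact htm' z hz q hq)
    (by
      rw [sum_tr1 hA]
      exact le_trans (le_of_eq (Finset.sum_congr rfl fun q hq => wt_tr A R (hA q hq))) hM)
    (by
      rw [sum_tr1 hA']
      exact le_trans (le_of_eq (Finset.sum_congr rfl fun q hq => wt_tr A' R' (hA' q hq))) hM')
    (fun x hx => by
      obtain ⟨e, he, rfl⟩ := Finset.mem_image.1 hx
      have d1 := hA _ (hmem e he).1
      have d2 := hA' _ (hmem e he).2
      rw [DP_eq2 A A' R R' d1 d2]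
      simp only [Nat.mul_div_cancel' d1, Nat.mul_div_cancel' d2]
      exact hbig e he)
    (fun x hx => by
      obtain ⟨e, he, rfl⟩ := Finset.mem_image.1 hx
      have d1 := hA _ (hmem e he).1
      have d2 := hA' _ (hmem e he).2
      have h1 := hF e he
      rw [DP_eq2 A A' R R' d1 d2]
      simp only [Nat.mul_div_cancel' d1, Nat.mul_div_cancel' d2]
      refine h1.trans (le_of_eq ?_)
      ring)
    (fun x hx h0 => by
      obtain ⟨e, he, rfl⟩ := Finset.mem_image.1 hx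
      have d1 := hA _ (hmem e he).1
      have d2 := hA' _ (hmem e he).2
      rw [DP_eq2 A A' R R' d1 d2]
      simp only [Nat.mul_div_cancel' d1, Nat.mul_div_cancel' d2] at h0
      exact hrel e he h0)
    (fun v hv => by
      obtain ⟨q, hq, rfl⟩ := Finset.mem_image.1 hv
      have h1 := hlab q hq
      simp only [Nat.mul_div_cancel' (hA q hq)]
      exact h1)
    (fun v hv => by
      obtain ⟨q, hq, rfl⟩ := Finset.mem_image.1 hv
      have h1 := hlab' q hq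
      simp only [Nat.mul_div_cancel' (hA' q hq)]
      exact h1)
  rw [sum_trx hA hA' hE, sum_tr1 hA, sum_tr1 hA'] at key
  have e1 : ∑ e ∈ E, F e = ∑ e ∈ E, F (A * (e.1 / A), A' * (e.2 / A')) := by
    refine Finset.sum_congr rfl fun e he => ?_
    rw [Nat.mul_div_cancel' (hA _ (hmem e he).1), Nat.mul_div_cancel' (hA' _ (hmem e he).2)]
  rw [e1]
  refine key.trans (le_of_eq ?_)
  congr 1
  congr 1
  · exact Finset.sum_congr rfl fun q hq => wt_tr A R (hA q hq)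
  · exact Finset.sum_congr rfl fun q hq => wt_tr A' R' (hA' q hq)

end tr


end Crest.Agent.R4P.XmU493
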