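import Crest.Agent.R4P.Zone_11

/-!
R4 (S0004), helper11: **rarity of single-step flags** (node, next missing tie), adapted ties.

* `FB Bad j B` : some missing tie `s` of `B`, `exp (2^j) ≤ s < exp (2^(j+1))`, is bad for the list `U` of
  the missing ties above it;
* `bad_block` : weight `≤ 4 b` if `∑ 1/s ≤ b` over the bad primes of the block, for every `U`;
* `bad_le` : all blocks `j ≥ j₀`, `b j ≤ A' 2 ^ (- c j)`;
* `V_or` : union of two flags.
-/

set_option autoImplicit false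

namespace Crest.Agent.R4P.Zone11

open Finset Crest.Agent.R4.Win853 Crest.Agent.Lib.Mertens

variable {F F' : List ℕ → Prop}

lemma V_or (p : ℕ) (B : List ℕ) : V (fun B => F B ∨ F' B) p B ≤ V F p B + V F' p B := by
  have h := V_le_sum (F := fun B => F B ∨ F' B) (Finset.univ : Finset Bool)
    (fun i => if i then F else F') (fun B hB => by
      rcases hB with h | h
      · exact ⟨true, Finset.mem_univ _, by simpa using h⟩
      · exact ⟨false, Finset.mem_univ _, by simpa using h⟩) p B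
  rw [Fintype.sum_bool] at h
  simpa using h

/-- comparison below a column `p₁` -/
lemma V_le_of2 {Φ : ℕ → List ℕ → ℝ} {p₁ : ℕ} (h0 : ∀ B : List ℕ, V F 0 B ≤ Φ 0 B)
    (h1 : ∀ p, p < p₁ → ∀ B : List ℕ, (∀ q ∈ B, p + 1 < q) → Φ p B ≤ Φ (p + 1) B)
    (h2 : ∀ p, p < p₁ → (p + 1).Prime → ∀ B : List ℕ, (∀ q ∈ B, p + 1 < q) →
      (1 - 1 / ((p : ℝ) + 1)) * Φ p B + 1 / ((p : ℝ) + 1) * Φ p ((p + 1) :: B) ≤ Φ (p + 1) B)
    (p : ℕ) (hp : p ≤ p₁) (B : List ℕ) (hB : ∀ q ∈ B, p < q) : V F p B ≤ Φ p B := by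
  induction p generalizing B with
  | zero => exact h0 B
  | succ p ih =>
    have hB1 : ∀ q ∈ B, p < q := fun q hq => (Nat.lt_succ_self p).trans (hB q hq)
    have hB2 : ∀ q ∈ (p + 1) :: B, p < q := by
      intro q hq
      rcases List.mem_cons.1 hq with rfl | hq
      · exact Nat.lt_succ_self p
      · exact hB1 q hq
    have hp' : p < p₁ := hp
    unfold V
    split_ifs with hpr
    · refine max_le ((ih hp'.le B hB1).trans (h1 p hp' B hB)) ?_
      have h := w_bd p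
      refine le_trans (add_le_add (mul_le_mul_of_nonneg_left (ih hp'.le B hB1) (sub_nonneg.2 h.2))
        (mul_le_mul_of_nonneg_left (ih hp'.le _ hB2) h.1)) (h2 p hp' hpr B hB)
    · exact (ih hp'.le B hB1).trans (h1 p hp' B hB)

/-- the block of `s` -/
def blk (j s : ℕ) : Prop := Real.exp (2 ^ j) ≤ (s : ℝ) ∧ (s : ℝ) < Real.exp (2 ^ (j + 1))

/-- flag: a bad missing tie in the block `j` -/
def FB (Bad : List ℕ → ℕ → Prop) (j : ℕ) (B : List ℕ) : Prop :=
  ∃ L s U, B = L ++ s :: U ∧ Bad U s ∧ blk j s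

open Classical in
/-- primes of the block `≤ p` -/
noncomputable def Pb (j p : ℕ) : Finset ℕ := (Ps p).filter (blk j)

/-- `∑ 1/q` over the block -/
noncomputable def Db (j p : ℕ) : ℝ := ∑ q ∈ Pb j p, 1 / (q : ℝ)

open Classical in
/-- bad primes of the block -/
noncomputable def Sb (Bad : List ℕ → ℕ → Prop) (j p : ℕ) (B : List ℕ) : ℝ :=
  ∑ q ∈ (Pb j p).filter (Bad B), 1 / (q : ℝ)

lemma Pb_mono {j p q : ℕ} (h : p ≤ q) : Pb j p ⊆ Pb j q := by
  classical
  refine Finset.filter_subset_filter _ ?_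
  intro a ha
  have := Finset.mem_filter.1 ha
  exact Finset.mem_filter.2 ⟨Finset.mem_range.2 (by have := Finset.mem_range.1 this.1; omega), this.2⟩

lemma Db_nonneg (j p : ℕ) : 0 ≤ Db j p := Finset.sum_nonneg fun _ _ => by positivity

lemma Sb_nonneg (Bad : List ℕ → ℕ → Prop) (j p : ℕ) (B : List ℕ) : 0 ≤ Sb Bad j p B :=
  Finset.sum_nonneg fun _ _ => by positivity

lemma Db_mono {j p q : ℕ} (h : p ≤ q) : Db j p ≤ Db j q :=
  Finset.sum_le_sum_of_subset_of_nonneg (Pb_mono h) fun _ _ _ => by positivity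

lemma Sb_mono (Bad : List ℕ → ℕ → Prop) {j p q : ℕ} (h : p ≤ q) (B : List ℕ) :
    Sb Bad j p B ≤ Sb Bad j q B := by
  classical
  exact Finset.sum_le_sum_of_subset_of_nonneg (Finset.filter_subset_filter _ (Pb_mono h))
    fun _ _ _ => by positivity

lemma Pb_succ {j p : ℕ} (hp : (p + 1).Prime) (hb : blk j (p + 1)) :
    Pb j (p + 1) = insert (p + 1) (Pb j p) := by
  classical
  unfold Pb
  rw [Ps_succ_prime hp, Finset.filter_insert, if_pos hb]

lemma notMem_Pb (j p : ℕ) : p + 1 ∉ Pb j p := by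
  classical
  exact fun h => notMem_Ps p (Finset.mem_filter.1 h).1

lemma Db_succ {j p : ℕ} (hp : (p + 1).Prime) (hb : blk j (p + 1)) :
    Db j (p + 1) = 1 / ((p : ℝ) + 1) + Db j p := by
  unfold Db
  rw [Pb_succ hp hb, Finset.sum_insert (notMem_Pb j p)]
  push_cast
  rfl

lemma Sb_succ {Bad : List ℕ → ℕ → Prop} {j p : ℕ} (hp : (p + 1).Prime) (hb : blk j (p + 1))
    {B : List ℕ} (hB : Bad B (p + 1)) : Sb Bad j (p + 1) B = 1 / ((p : ℝ) + 1) + Sb Bad j p B := by
  classical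
  unfold Sb
  rw [Pb_succ hp hb, Finset.filter_insert, if_pos hB,
    Finset.sum_insert fun h => notMem_Pb j p (Finset.mem_filter.1 h).1]
  push_cast
  rfl

lemma Sb_le {Bad : List ℕ → ℕ → Prop} {j : ℕ} {b : ℝ}
    (hb : ∀ U, ∀ T : Finset ℕ, (∀ s ∈ T, s.Prime ∧ blk j s ∧ Bad U s) → ∑ s ∈ T, 1 / (s : ℝ) ≤ b)
    (p : ℕ) (B : List ℕ) : Sb Bad j p B ≤ b := by
  classical
  refine hb B _ fun s hs => ?_
  obtain ⟨h1, h2⟩ := Finset.mem_filter.1 hs
  obtain ⟨h3, h4⟩ := Finset.mem_filter.1 h1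
  exact ⟨prime_of_Ps h3, h4, h2⟩

lemma FB_cons {Bad : List ℕ → ℕ → Prop} {j q : ℕ} {B : List ℕ} (h : FB Bad j (q :: B)) :
    FB Bad j B ∨ (Bad B q ∧ blk j q) := by
  obtain ⟨L, s, U, e, h1, h2⟩ := h
  cases L with
  | nil =>
    rw [List.nil_append, List.cons.injEq] at e
    obtain ⟨rfl, rfl⟩ := e
    exact Or.inr ⟨h1, h2⟩
  | cons a L =>
    rw [List.cons_append, List.cons.injEq] at e
    exact Or.inl ⟨L, s, U, e.2, h1, h2⟩

/-- last column of the block -/
noncomputable def tj (j : ℕ) : ℕ := ⌈Real.exp (2 ^ (j + 1))⌉₊ - 1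

lemma tj_lt {j p : ℕ} (h : p ≤ tj j) : (p : ℝ) < Real.exp (2 ^ (j + 1)) := by
  have h1 : (⌈Real.exp (2 ^ (j + 1))⌉₊ : ℝ) < Real.exp (2 ^ (j + 1)) + 1 :=
    Nat.ceil_lt_add_one (Real.exp_pos _).le
  have h2 : 0 < ⌈Real.exp (2 ^ (j + 1))⌉₊ := Nat.ceil_pos.2 (Real.exp_pos _)
  have h3 : p + 1 ≤ ⌈Real.exp (2 ^ (j + 1))⌉₊ := by unfold tj at h; omega
  have h4 : (p : ℝ) + 1 ≤ (⌈Real.exp (2 ^ (j + 1))⌉₊ : ℝ) := by exact_mod_cast h3
  linarith

lemma tj_of_blk {j s : ℕ} (h : blk j s) : s ≤ tj j := by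
  unfold tj
  have h1 : s < ⌈Real.exp (2 ^ (j + 1))⌉₊ := by
    rw [Nat.lt_ceil]; exact h.2
  omega

/-- **one block** -/
theorem bad_block_D {Bad : List ℕ → ℕ → Prop} {j : ℕ} {b : ℝ} (hb0 : 0 ≤ b)
    (hb : ∀ U, ∀ T : Finset ℕ, (∀ s ∈ T, s.Prime ∧ blk j s ∧ Bad U s) → ∑ s ∈ T, 1 / (s : ℝ) ≤ b)
    (p : ℕ) : V (FB Bad j) p [] ≤ b * (1 + Db j (tj j)) := by
  classical
  -- below the top of the block
  have small : ∀ p, p ≤ tj j → ∀ B : List ℕ, (∀ q ∈ B, p < q) → V (FB Bad j) p B ≤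
      if FB Bad j B then 1 else Sb Bad j p B + b * Db j p := by
    refine V_le_of2 (F := FB Bad j)
      (Φ := fun p B => if FB Bad j B then 1 else Sb Bad j p B + b * Db j p) ?_ ?_ ?_
    · intro B
      by_cases hF : FB Bad j B
      · simp only [if_pos hF]; exact V_le_one _ _
      · simp only [if_neg hF]
        have e0 : V (FB Bad j) 0 B = 0 := by unfold V; rw [if_neg hF]
        rw [e0]
        have := Sb_nonneg Bad j 0 B
        have := mul_nonneg hb0 (Db_nonneg j 0)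
        linarith
    · intro p _ B _
      by_cases hF : FB Bad j B
      · simp only [if_pos hF]; exact le_rfl
      · simp only [if_neg hF]
        exact add_le_add (Sb_mono Bad (Nat.le_succ p) B)
          (mul_le_mul_of_nonneg_left (Db_mono (Nat.le_succ p)) hb0)
    · intro p hp1 hp B hB
      have hw := w_bd p
      set w : ℝ := 1 / ((p : ℝ) + 1) with hwd
      by_cases hF : FB Bad j B
      · have hF' : FB Bad j ((p + 1) :: B) := by
          obtain ⟨L, s, U, e, h1, h2⟩ := hF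
          exact ⟨(p + 1) :: L, s, U, by rw [e]; rfl, h1, h2⟩
        simp only [if_pos hF, if_pos hF']
        linarith
      · simp only [if_neg hF]
        have hS := Sb_nonneg Bad j p B
        have hD := mul_nonneg hb0 (Db_nonneg j p)
        by_cases hF' : FB Bad j ((p + 1) :: B)
        · obtain h | ⟨h1, h2⟩ := FB_cons hF'
          · exact absurd h hF
          · simp only [if_pos hF']
            rw [Sb_succ hp h2 h1, Db_succ hp h2, ← hwd]
            nlinarith [mul_nonneg hw.1 hb0]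
        · simp only [if_neg hF']
          by_cases hbl : blk j (p + 1)
          · have h1 := Sb_le hb p ((p + 1) :: B)
            have h2 := Sb_mono Bad (j := j) (Nat.le_succ p) B
            rw [Db_succ hp hbl, ← hwd]
            have h3 := mul_le_mul_of_nonneg_left h1 hw.1
            have h4 := mul_nonneg hw.1 hS
            nlinarith
          · -- below the block
            have hlt : ((p : ℝ) + 1) < Real.exp (2 ^ (j + 1)) := by
              have := tj_lt (show p + 1 ≤ tj j from hp1)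
              push_cast at this
              exact this
            have hlow : ¬ Real.exp (2 ^ j) ≤ ((p + 1 : ℕ) : ℝ) := by
              intro h6
              exact hbl ⟨h6, by push_cast; exact hlt⟩
            have e1 : Pb j p = ∅ := by
              refine Finset.eq_empty_of_forall_notMem fun q hq => ?_
              obtain ⟨h7, h8⟩ := Finset.mem_filter.1 hq
              have h9 : q < p + 1 := Finset.mem_range.1 (Finset.mem_filter.1 h7).1
              apply hlow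
              refine h8.1.trans ?_
              exact_mod_cast h9.le
            have e2 : Sb Bad j p ((p + 1) :: B) = 0 := by unfold Sb; rw [e1]; simp
            have h2 := Sb_mono Bad (j := j) (Nat.le_succ p) B
            have h3 := mul_le_mul_of_nonneg_left (Db_mono (j := j) (Nat.le_succ p)) hb0
            rw [e2]
            nlinarith [mul_nonneg hw.1 hS, mul_nonneg hw.1 hD]
  have base : ∀ B : List ℕ, (∀ q ∈ B, tj j < q) →
      V (FB Bad j) (tj j) B ≤ b * (1 + Db j (tj j)) := by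
    intro B hB
    refine (small (tj j) le_rfl B hB).trans ?_
    have hF : ¬ FB Bad j B := by
      rintro ⟨L, s, U, rfl, h1, h2⟩
      have h3 := hB s (by simp)
      have h4 := tj_of_blk h2
      omega
    rw [if_neg hF]
    have := Sb_le hb (tj j) B
    linarith
  rcases le_total p (tj j) with h | h
  · exact (V_mono_col h []).trans (base [] (by simp))
  · refine V_le_of (Φ := fun _ _ => b * (1 + Db j (tj j))) base (fun _ _ _ _ => le_rfl) ?_ h []
      (by simp)
    intro p _ _ B _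
    show (1 - 1 / ((p : ℝ) + 1)) * (b * (1 + Db j (tj j))) + 1 / ((p : ℝ) + 1) *
      (b * (1 + Db j (tj j))) ≤ b * (1 + Db j (tj j))
    exact le_of_eq (by ring)

/-- a loglog block of primes has measure at most `9` -/
lemma Db_le (j p : ℕ) : Db j p ≤ 9 := by
  classical
  have h := sum_inv_le (Pb j p) (fun q hq => prime_of_Ps (Finset.mem_filter.1 hq).1)
    (Real.exp (2 ^ j)) (Real.exp (2 ^ j)) (Real.one_lt_exp_iff.2 (by positivity))
    (Real.one_le_exp (by positivity)) (fun q hq => by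
      obtain ⟨h1, h2⟩ := Finset.mem_filter.1 hq
      refine ⟨h2.1, h2.2.le.trans (le_of_eq ?_)⟩
      rw [← Real.exp_add]
      congr 1
      ring)
  refine h.trans ?_
  rw [Real.log_exp, div_le_iff₀ (by positivity)]
  have : (1 : ℝ) ≤ 2 ^ j := one_le_pow₀ (by norm_num)
  linarith

/-- **one block** -/
theorem bad_block {Bad : List ℕ → ℕ → Prop} {j : ℕ} {b : ℝ} (hb0 : 0 ≤ b)
    (hb : ∀ U, ∀ T : Finset ℕ, (∀ s ∈ T, s.Prime ∧ blk j s ∧ Bad U s) → ∑ s ∈ T, 1 / (s : ℝ) ≤ b)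
    (p : ℕ) : V (FB Bad j) p [] ≤ 10 * b := by
  refine (bad_block_D hb0 hb p).trans ?_
  have := mul_le_mul_of_nonneg_left (Db_le j (tj j)) hb0
  linarith

/-- **all blocks** -/
theorem bad_le {Bad : List ℕ → ℕ → Prop} {c : ℝ} (hc : 0 < c) {A' : ℝ} (hA : 0 ≤ A') {j₀ : ℕ}
    (hb : ∀ j, j₀ ≤ j → ∀ U, ∀ T : Finset ℕ, (∀ s ∈ T, s.Prime ∧ blk j s ∧ Bad U s) →
      ∑ s ∈ T, 1 / (s : ℝ) ≤ A' * (2 : ℝ) ^ (-(c * j))) (p : ℕ) :
    V (fun B => ∃ j, j₀ ≤ j ∧ FB Bad j B) p [] ≤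
      10 * A' / (1 - (2 : ℝ) ^ (-c)) * (2 : ℝ) ^ (-(c * j₀)) := by
  set q : ℝ := (2 : ℝ) ^ (-c) with hq
  have hq0 : 0 < q := Real.rpow_pos_of_pos two_pos _
  have hq1 : q < 1 := Real.rpow_lt_one_of_one_lt_of_neg one_lt_two (by linarith)
  have hq2 : 0 < 1 - q := by linarith
  have eq : ∀ j : ℕ, (2 : ℝ) ^ (-(c * j)) = q ^ j := by
    intro j
    rw [hq, ← Real.rpow_natCast, ← Real.rpow_mul two_pos.le]
    congr 1
    ring
  obtain ⟨j₁, hj₁⟩ : ∃ j₁ : ℕ, ∀ j, j₀ ≤ j → ∀ B : List ℕ, 0 < B.prod → B.prod ≤ p.factorial →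
      FB Bad j B → j < j₁ := by
    refine ⟨p.factorial, fun j _ B hB0 hB hF => ?_⟩
    obtain ⟨L, s, U, rfl, h1, h2⟩ := hF
    rw [List.prod_append, List.prod_cons] at hB0 hB
    have hL : 0 < L.prod := Nat.pos_of_mul_pos_right hB0
    have hsU : 0 < s * U.prod := Nat.pos_of_mul_pos_left hB0
    have hU : 0 < U.prod := Nat.pos_of_mul_pos_left hsU
    have h3 : s ≤ p.factorial := (Nat.le_mul_of_pos_right s hU).trans
      ((Nat.le_mul_of_pos_left _ hL).trans hB)
    have h4 : (j : ℝ) < Real.exp (2 ^ j) := by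
      have h5 := Real.add_one_le_exp ((2 : ℝ) ^ j)
      have h6 : (j : ℝ) < 2 ^ j := by exact_mod_cast Nat.lt_two_pow_self
      linarith
    have h7 : (j : ℝ) < (p.factorial : ℝ) :=
      h4.trans_le (h2.1.trans (by exact_mod_cast h3))
    exact_mod_cast h7
  have s1 : V (fun B => ∃ j, j₀ ≤ j ∧ FB Bad j B) p [] ≤
      V (fun B => ∃ j, (j₀ ≤ j ∧ j < j₁) ∧ FB Bad j B) p [] := by
    refine V_mono_fac (N := p) ?_ p [] (by simp) (by simp)
    rintro B h0 hB ⟨j, hj, hF⟩
    exact ⟨j, ⟨hj, hj₁ j hj B h0 hB hF⟩, hF⟩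
  have s2 := V_le_sum (F := fun B => ∃ j, (j₀ ≤ j ∧ j < j₁) ∧ FB Bad j B) (Finset.Ico j₀ j₁)
    (fun j => FB Bad j) (fun B ⟨j, h1, h2⟩ => ⟨j, Finset.mem_Ico.2 h1, h2⟩) p []
  have s3 : ∑ j ∈ Finset.Ico j₀ j₁, V (FB Bad j) p [] ≤
      ∑ j ∈ Finset.Ico j₀ j₁, 10 * A' * q ^ j := by
    refine Finset.sum_le_sum fun j hj => ?_
    have hj' := (Finset.mem_Ico.1 hj).1
    have h := bad_block (Bad := Bad) (j := j) (b := A' * q ^ j) (by positivity)
      (fun U T hT => by rw [← eq]; exact hb j hj' U T hT) p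
    linarith
  have s4 : ∑ j ∈ Finset.Ico j₀ j₁, q ^ j ≤ q ^ j₀ / (1 - q) :=
    geom_sum_Ico_le_of_lt_one hq0.le hq1
  refine s1.trans (s2.trans (s3.trans ?_))
  rw [← Finset.mul_sum]
  refine (mul_le_mul_of_nonneg_left s4 (by positivity)).trans (le_of_eq ?_)
  rw [eq]
  ring

end Crest.Agent.R4P.Zone11
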